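import Vale.Agent.Lib.P154.PChain.BV.R5_0

set_option linter.all false

namespace Vale.Agent.Lib.P154.PChain.BV.S6

open Vale.Agent.Lib.P154.Chain

noncomputable def pc0 : PT := (PT.nd (nat_lit 3506802) (PT.nd (nat_lit 3384888) (PT.nd (nat_lit 3263208) (PT.nd (nat_lit 3222570) (PT.nd (nat_lit 3222492) (PT.nd (nat_lit 3181932) PT.nil (PT.lf (nat_lit 76) (nat_lit 3) (nat_lit 1) (nat_lit 1) (nat_lit 156) (nat_lit 78) (nat_lit 156))) (PT.lf (nat_lit 152) (nat_lit 6) (nat_lit 2) (nat_lit 3) (nat_lit 155) (nat_lit 79) (nat_lit 156))) (PT.nd (nat_lit 40482) (PT.lf (nat_lit 152) (nat_lit 6) (nat_lit 2) (nat_lit 1) (nat_lit 156) (nat_lit 79) (nat_lit 155)) (PT.nd (nat_lit 78) (PT.lf (nat_lit 228) (nat_lit 6) (nat_lit 3) (nat_lit 3) (nat_lit 154) (nat_lit 80) (nat_lit 156)) (PT.lf (nat_lit 304) (nat_lit 3) (nat_lit 4) (nat_lit 1) (nat_lit 155) (nat_lit 80) (nat_lit 155))))) (PT.nd (nat_lit 81042) (PT.nd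 (nat_lit 40482) (PT.lf (nat_lit 228) (nat_lit 6) (nat_lit 3) (nat_lit 1) (nat_lit 156) (nat_lit 80) (nat_lit 154)) (PT.nd (nat_lit 78) (PT.lf (nat_lit 380) (nat_lit 6) (nat_lit 5) (nat_lit 3) (nat_lit 154) (nat_lit 81) (nat_lit 155)) (PT.lf (nat_lit 380) (nat_lit 6) (nat_lit 5) (nat_lit 1) (nat_lit 155) (nat_lit 81) (nat_lit 154)))) (PT.nd (nat_lit 78) (PT.lf (nat_lit 456) (nat_lit 6) (nat_lit 6) (nat_lit 3) (nat_lit 153) (nat_lit 82) (nat_lit 155)) (PT.nd (nat_lit 78) (PT.lf (nat_lit 532) (nat_lit 3) (nat_lit 7) (nat_lit 1) (nat_lit 154) (nat_lit 82) (nat_lit 154)) (PT.lf (nat_lit 456) (nat_lit 6) (nat_lit 6) (nat_lit 1) (nat_lit 155) (nat_lit 82) (nat_lit 153)))))) (PT.nd (nat_lit 81120) (PT.nd (nat_lit 40560) (PT.nd (nat_lit 78) (PT.lf (nat_lit 608) (nat_lit 6) (nat_lit 8) (nat_lit 3) (nat_lit 153) (nat_lit 83) (nat_lit 154)) (PT.lf (nat_lit 608) (nat_lit 6) (nat_lit 8) (nat_lit 1) (nat_lit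 154) (nat_lit 83) (nat_lit 153))) (PT.nd (nat_lit 78) (PT.lf (nat_lit 684) (nat_lit 6) (nat_lit 9) (nat_lit 3) (nat_lit 152) (nat_lit 84) (nat_lit 154)) (PT.nd (nat_lit 78) (PT.lf (nat_lit 760) (nat_lit 3) (nat_lit 10) (nat_lit 1) (nat_lit 153) (nat_lit 84) (nat_lit 153)) (PT.lf (nat_lit 684) (nat_lit 6) (nat_lit 9) (nat_lit 1) (nat_lit 154) (nat_lit 84) (nat_lit 152))))) (PT.nd (nat_lit 234) (PT.nd (nat_lit 78) (PT.lf (nat_lit 836) (nat_lit 6) (nat_lit 11) (nat_lit 3) (nat_lit 151) (nat_lit 85) (nat_lit 154)) (PT.nd (nat_lit 78) (PT.lf (nat_lit 912) (nat_lit 6) (nat_lit 12) (nat_lit 3) (nat_lit 152) (nat_lit 85) (nat_lit 153)) (PT.lf (nat_lit 912) (nat_lit 6) (nat_lit 12) (nat_lit 1) (nat_lit 153) (nat_lit 85) (nat_lit 152)))) (PT.nd (nat_lit 40404) (PT.lf (nat_lit 836) (nat_lit 6) (nat_lit 11) (nat_lit 1) (nat_lit 154) (nat_lit 85) (nat_lit 151)) (PT.nd (nat_lit 78) (PT.lf (nat_lit 988) (nat_lit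 6) (nat_lit 13) (nat_lit 3) (nat_lit 151) (nat_lit 86) (nat_lit 153)) (PT.lf (nat_lit 1064) (nat_lit 3) (nat_lit 14) (nat_lit 1) (nat_lit 152) (nat_lit 86) (nat_lit 152))))))) (PT.nd (nat_lit 121836) (PT.nd (nat_lit 81042) (PT.nd (nat_lit 40482) (PT.nd (nat_lit 40404) (PT.lf (nat_lit 988) (nat_lit 6) (nat_lit 13) (nat_lit 1) (nat_lit 153) (nat_lit 86) (nat_lit 151)) (PT.lf (nat_lit 1140) (nat_lit 6) (nat_lit 15) (nat_lit 3) (nat_lit 150) (nat_lit 87) (nat_lit 153))) (PT.nd (nat_lit 78) (PT.lf (nat_lit 1216) (nat_lit 6) (nat_lit 16) (nat_lit 3) (nat_lit 151) (nat_lit 87) (nat_lit 152)) (PT.nd (nat_lit 78) (PT.lf (nat_lit 1216) (nat_lit 6) (nat_lit 16) (nat_lit 1) (nat_lit 152) (nat_lit 87) (nat_lit 151)) (PT.lf (nat_lit 1140) (nat_lit 6) (nat_lit 15) (nat_lit 1) (nat_lit 153) (nat_lit 87) (nat_lit 150))))) (PT.nd (nat_lit 40560) (PT.nd (nat_lit 78) (PT.lf (nat_lit 1292) (nat_lit 6) (nat_lit 17)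 (nat_lit 3) (nat_lit 150) (nat_lit 88) (nat_lit 152)) (PT.nd (nat_lit 78) (PT.lf (nat_lit 1368) (nat_lit 3) (nat_lit 18) (nat_lit 1) (nat_lit 151) (nat_lit 88) (nat_lit 151)) (PT.lf (nat_lit 1292) (nat_lit 6) (nat_lit 17) (nat_lit 1) (nat_lit 152) (nat_lit 88) (nat_lit 150)))) (PT.nd (nat_lit 78) (PT.lf (nat_lit 1444) (nat_lit 6) (nat_lit 19) (nat_lit 3) (nat_lit 149) (nat_lit 89) (nat_lit 152)) (PT.nd (nat_lit 78) (PT.lf (nat_lit 1520) (nat_lit 6) (nat_lit 20) (nat_lit 3) (nat_lit 150) (nat_lit 89) (nat_lit 151)) (PT.lf (nat_lit 1520) (nat_lit 6) (nat_lit 20) (nat_lit 1) (nat_lit 151) (nat_lit 89) (nat_lit 150)))))) (PT.nd (nat_lit 40638) (PT.nd (nat_lit 40404) (PT.nd (nat_lit 40326) (PT.lf (nat_lit 1444) (nat_lit 6) (nat_lit 19) (nat_lit 1) (nat_lit 152) (nat_lit 89) (nat_lit 149)) (PT.lf (nat_lit 1596) (nat_lit 6) (nat_lit 21) (nat_lit 3) (nat_lit 148) (nat_lit 90) (nat_lit 152))) (PT.nd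 (nat_lit 78) (PT.lf (nat_lit 1672) (nat_lit 6) (nat_lit 22) (nat_lit 3) (nat_lit 149) (nat_lit 90) (nat_lit 151)) (PT.nd (nat_lit 78) (PT.lf (nat_lit 1748) (nat_lit 3) (nat_lit 23) (nat_lit 1) (nat_lit 150) (nat_lit 90) (nat_lit 150)) (PT.lf (nat_lit 1672) (nat_lit 6) (nat_lit 22) (nat_lit 1) (nat_lit 151) (nat_lit 90) (nat_lit 149))))) (PT.nd (nat_lit 40482) (PT.nd (nat_lit 40326) (PT.lf (nat_lit 1596) (nat_lit 6) (nat_lit 21) (nat_lit 1) (nat_lit 152) (nat_lit 90) (nat_lit 148)) (PT.nd (nat_lit 78) (PT.lf (nat_lit 1824) (nat_lit 6) (nat_lit 24) (nat_lit 3) (nat_lit 148) (nat_lit 91) (nat_lit 151)) (PT.lf (nat_lit 1900) (nat_lit 6) (nat_lit 25) (nat_lit 3) (nat_lit 149) (nat_lit 91) (nat_lit 150)))) (PT.nd (nat_lit 78) (PT.lf (nat_lit 1900) (nat_lit 6) (nat_lit 25) (nat_lit 1) (nat_lit 150) (nat_lit 91) (nat_lit 149)) (PT.nd (nat_lit 40326) (PT.lf (nat_lit 1824) (nat_lit 6) (nat_lit 24) (nat_lit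 1) (nat_lit 151) (nat_lit 91) (nat_lit 148)) (PT.lf (nat_lit 1976) (nat_lit 6) (nat_lit 26) (nat_lit 3) (nat_lit 147) (nat_lit 92) (nat_lit 151))))))))
noncomputable def pc1 : PT := (PT.nd (nat_lit 162552) (PT.nd (nat_lit 81354) (PT.nd (nat_lit 40638) (PT.nd (nat_lit 156) (PT.nd (nat_lit 78) (PT.lf (nat_lit 2052) (nat_lit 6) (nat_lit 27) (nat_lit 3) (nat_lit 148) (nat_lit 92) (nat_lit 150)) (PT.lf (nat_lit 2128) (nat_lit 3) (nat_lit 28) (nat_lit 1) (nat_lit 149) (nat_lit 92) (nat_lit 149))) (PT.nd (nat_lit 78) (PT.lf (nat_lit 2052) (nat_lit 6) (nat_lit 27) (nat_lit 1) (nat_lit 150) (nat_lit 92) (nat_lit 148)) (PT.nd (nat_lit 40326) (PT.lf (nat_lit 1976) (nat_lit 6) (nat_lit 26) (nat_lit 1) (nat_lit 151) (nat_lit 92) (nat_lit 147)) (PT.lf (nat_lit 2204) (nat_lit 6) (nat_lit 29) (nat_lit 3) (nat_lit 147) (nat_lit 93) (nat_lit 150))))) (PT.nd (nat_lit 40482) (PT.nd (nat_lit 78) (PT.lf (nat_lit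 2280) (nat_lit 6) (nat_lit 30) (nat_lit 3) (nat_lit 148) (nat_lit 93) (nat_lit 149)) (PT.nd (nat_lit 78) (PT.lf (nat_lit 2280) (nat_lit 6) (nat_lit 30) (nat_lit 1) (nat_lit 149) (nat_lit 93) (nat_lit 148)) (PT.lf (nat_lit 2204) (nat_lit 6) (nat_lit 29) (nat_lit 1) (nat_lit 150) (nat_lit 93) (nat_lit 147)))) (PT.nd (nat_lit 78) (PT.lf (nat_lit 2356) (nat_lit 6) (nat_lit 31) (nat_lit 3) (nat_lit 146) (nat_lit 94) (nat_lit 150)) (PT.nd (nat_lit 78) (PT.lf (nat_lit 2432) (nat_lit 6) (nat_lit 32) (nat_lit 3) (nat_lit 147) (nat_lit 94) (nat_lit 149)) (PT.lf (nat_lit 2508) (nat_lit 3) (nat_lit 33) (nat_lit 1) (nat_lit 148) (nat_lit 94) (nat_lit 148)))))) (PT.nd (nat_lit 40560) (PT.nd (nat_lit 40326) (PT.nd (nat_lit 78) (PT.lf (nat_lit 2432) (nat_lit 6) (nat_lit 32) (nat_lit 1) (nat_lit 149) (nat_lit 94) (nat_lit 147)) (PT.lf (nat_lit 2356) (nat_lit 6) (nat_lit 31) (nat_lit 1) (nat_lit 150) (nat_lit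 94) (nat_lit 146))) (PT.nd (nat_lit 78) (PT.lf (nat_lit 2584) (nat_lit 6) (nat_lit 34) (nat_lit 3) (nat_lit 145) (nat_lit 95) (nat_lit 150)) (PT.nd (nat_lit 78) (PT.lf (nat_lit 2660) (nat_lit 6) (nat_lit 35) (nat_lit 3) (nat_lit 146) (nat_lit 95) (nat_lit 149)) (PT.lf (nat_lit 2736) (nat_lit 6) (nat_lit 36) (nat_lit 3) (nat_lit 147) (nat_lit 95) (nat_lit 148))))) (PT.nd (nat_lit 40404) (PT.nd (nat_lit 78) (PT.lf (nat_lit 2736) (nat_lit 6) (nat_lit 36) (nat_lit 1) (nat_lit 148) (nat_lit 95) (nat_lit 147)) (PT.nd (nat_lit 78) (PT.lf (nat_lit 2660) (nat_lit 6) (nat_lit 35) (nat_lit 1) (nat_lit 149) (nat_lit 95) (nat_lit 146)) (PT.lf (nat_lit 2584) (nat_lit 6) (nat_lit 34) (nat_lit 1) (nat_lit 150) (nat_lit 95) (nat_lit 145)))) (PT.nd (nat_lit 78) (PT.lf (nat_lit 2812) (nat_lit 6) (nat_lit 37) (nat_lit 3) (nat_lit 145) (nat_lit 96) (nat_lit 149)) (PT.nd (nat_lit 78) (PT.lf (nat_lit 2888) (nat_lit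 6) (nat_lit 38) (nat_lit 3) (nat_lit 146) (nat_lit 96) (nat_lit 148)) (PT.lf (nat_lit 2964) (nat_lit 3) (nat_lit 39) (nat_lit 1) (nat_lit 147) (nat_lit 96) (nat_lit 147))))))) (PT.nd (nat_lit 81120) (PT.nd (nat_lit 40560) (PT.nd (nat_lit 40326) (PT.nd (nat_lit 78) (PT.lf (nat_lit 2888) (nat_lit 6) (nat_lit 38) (nat_lit 1) (nat_lit 148) (nat_lit 96) (nat_lit 146)) (PT.lf (nat_lit 2812) (nat_lit 6) (nat_lit 37) (nat_lit 1) (nat_lit 149) (nat_lit 96) (nat_lit 145))) (PT.nd (nat_lit 78) (PT.lf (nat_lit 3040) (nat_lit 6) (nat_lit 40) (nat_lit 3) (nat_lit 144) (nat_lit 97) (nat_lit 149)) (PT.nd (nat_lit 78) (PT.lf (nat_lit 3116) (nat_lit 6) (nat_lit 41) (nat_lit 3) (nat_lit 145) (nat_lit 97) (nat_lit 148)) (PT.lf (nat_lit 3192) (nat_lit 6) (nat_lit 42) (nat_lit 3) (nat_lit 146) (nat_lit 97) (nat_lit 147))))) (PT.nd (nat_lit 40326) (PT.nd (nat_lit 78) (PT.lf (nat_lit 3192) (nat_lit 6) (nat_lit 42)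 (nat_lit 1) (nat_lit 147) (nat_lit 97) (nat_lit 146)) (PT.nd (nat_lit 78) (PT.lf (nat_lit 3116) (nat_lit 6) (nat_lit 41) (nat_lit 1) (nat_lit 148) (nat_lit 97) (nat_lit 145)) (PT.lf (nat_lit 3040) (nat_lit 6) (nat_lit 40) (nat_lit 1) (nat_lit 149) (nat_lit 97) (nat_lit 144)))) (PT.nd (nat_lit 78) (PT.lf (nat_lit 3268) (nat_lit 6) (nat_lit 43) (nat_lit 3) (nat_lit 143) (nat_lit 98) (nat_lit 149)) (PT.nd (nat_lit 78) (PT.lf (nat_lit 3344) (nat_lit 6) (nat_lit 44) (nat_lit 3) (nat_lit 144) (nat_lit 98) (nat_lit 148)) (PT.lf (nat_lit 3420) (nat_lit 6) (nat_lit 45) (nat_lit 3) (nat_lit 145) (nat_lit 98) (nat_lit 147)))))) (PT.nd (nat_lit 40482) (PT.nd (nat_lit 156) (PT.nd (nat_lit 78) (PT.lf (nat_lit 3496) (nat_lit 3) (nat_lit 46) (nat_lit 1) (nat_lit 146) (nat_lit 98) (nat_lit 146)) (PT.lf (nat_lit 3420) (nat_lit 6) (nat_lit 45) (nat_lit 1) (nat_lit 147) (nat_lit 98) (nat_lit 145))) (PT.nd (nat_lit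 78) (PT.lf (nat_lit 3344) (nat_lit 6) (nat_lit 44) (nat_lit 1) (nat_lit 148) (nat_lit 98) (nat_lit 144)) (PT.nd (nat_lit 40170) (PT.lf (nat_lit 3268) (nat_lit 6) (nat_lit 43) (nat_lit 1) (nat_lit 149) (nat_lit 98) (nat_lit 143)) (PT.lf (nat_lit 3572) (nat_lit 6) (nat_lit 47) (nat_lit 3) (nat_lit 143) (nat_lit 99) (nat_lit 148))))) (PT.nd (nat_lit 234) (PT.nd (nat_lit 78) (PT.lf (nat_lit 3648) (nat_lit 6) (nat_lit 48) (nat_lit 3) (nat_lit 144) (nat_lit 99) (nat_lit 147)) (PT.nd (nat_lit 78) (PT.lf (nat_lit 3724) (nat_lit 6) (nat_lit 49) (nat_lit 3) (nat_lit 145) (nat_lit 99) (nat_lit 146)) (PT.lf (nat_lit 3724) (nat_lit 6) (nat_lit 49) (nat_lit 1) (nat_lit 146) (nat_lit 99) (nat_lit 145)))) (PT.nd (nat_lit 78) (PT.lf (nat_lit 3648) (nat_lit 6) (nat_lit 48) (nat_lit 1) (nat_lit 147) (nat_lit 99) (nat_lit 144)) (PT.nd (nat_lit 40170) (PT.lf (nat_lit 3572) (nat_lit 6) (nat_lit 47) (nat_lit 1) (nat_lit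 148) (nat_lit 99) (nat_lit 143)) (PT.lf (nat_lit 3800) (nat_lit 6) (nat_lit 50) (nat_lit 3) (nat_lit 142) (nat_lit 100) (nat_lit 148))))))))
noncomputable def pc2 : PT := (PT.nd (nat_lit 121758) (PT.nd (nat_lit 40872) (PT.nd (nat_lit 390) (PT.nd (nat_lit 156) (PT.nd (nat_lit 78) (PT.lf (nat_lit 3876) (nat_lit 6) (nat_lit 51) (nat_lit 3) (nat_lit 143) (nat_lit 100) (nat_lit 147)) (PT.lf (nat_lit 3952) (nat_lit 6) (nat_lit 52) (nat_lit 3) (nat_lit 144) (nat_lit 100) (nat_lit 146))) (PT.nd (nat_lit 78) (PT.lf (nat_lit 4028) (nat_lit 3) (nat_lit 53) (nat_lit 1) (nat_lit 145) (nat_lit 100) (nat_lit 145)) (PT.nd (nat_lit 78) (PT.lf (nat_lit 3952) (nat_lit 6) (nat_lit 52) (nat_lit 1) (nat_lit 146) (nat_lit 100) (nat_lit 144)) (PT.lf (nat_lit 3876) (nat_lit 6) (nat_lit 51) (nat_lit 1) (nat_lit 147) (nat_lit 100) (nat_lit 143))))) (PT.nd (nat_lit 40248) (PT.nd (nat_lit 40092) (PT.lf (nat_lit 3800) (nat_lit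 6) (nat_lit 50) (nat_lit 1) (nat_lit 148) (nat_lit 100) (nat_lit 142)) (PT.nd (nat_lit 78) (PT.lf (nat_lit 4104) (nat_lit 6) (nat_lit 54) (nat_lit 3) (nat_lit 141) (nat_lit 101) (nat_lit 148)) (PT.lf (nat_lit 4180) (nat_lit 6) (nat_lit 55) (nat_lit 3) (nat_lit 142) (nat_lit 101) (nat_lit 147)))) (PT.nd (nat_lit 78) (PT.lf (nat_lit 4256) (nat_lit 6) (nat_lit 56) (nat_lit 3) (nat_lit 143) (nat_lit 101) (nat_lit 146)) (PT.nd (nat_lit 78) (PT.lf (nat_lit 4332) (nat_lit 6) (nat_lit 57) (nat_lit 3) (nat_lit 144) (nat_lit 101) (nat_lit 145)) (PT.lf (nat_lit 4332) (nat_lit 6) (nat_lit 57) (nat_lit 1) (nat_lit 145) (nat_lit 101) (nat_lit 144)))))) (PT.nd (nat_lit 40404) (PT.nd (nat_lit 156) (PT.nd (nat_lit 78) (PT.lf (nat_lit 4256) (nat_lit 6) (nat_lit 56) (nat_lit 1) (nat_lit 146) (nat_lit 101) (nat_lit 143)) (PT.lf (nat_lit 4180) (nat_lit 6) (nat_lit 55) (nat_lit 1) (nat_lit 147) (nat_lit 101) (nat_lit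 142))) (PT.nd (nat_lit 40092) (PT.lf (nat_lit 4104) (nat_lit 6) (nat_lit 54) (nat_lit 1) (nat_lit 148) (nat_lit 101) (nat_lit 141)) (PT.nd (nat_lit 78) (PT.lf (nat_lit 4408) (nat_lit 6) (nat_lit 58) (nat_lit 3) (nat_lit 141) (nat_lit 102) (nat_lit 147)) (PT.lf (nat_lit 4484) (nat_lit 6) (nat_lit 59) (nat_lit 3) (nat_lit 142) (nat_lit 102) (nat_lit 146))))) (PT.nd (nat_lit 234) (PT.nd (nat_lit 78) (PT.lf (nat_lit 4560) (nat_lit 6) (nat_lit 60) (nat_lit 3) (nat_lit 143) (nat_lit 102) (nat_lit 145)) (PT.nd (nat_lit 78) (PT.lf (nat_lit 4636) (nat_lit 3) (nat_lit 61) (nat_lit 1) (nat_lit 144) (nat_lit 102) (nat_lit 144)) (PT.lf (nat_lit 4560) (nat_lit 6) (nat_lit 60) (nat_lit 1) (nat_lit 145) (nat_lit 102) (nat_lit 143)))) (PT.nd (nat_lit 78) (PT.lf (nat_lit 4484) (nat_lit 6) (nat_lit 59) (nat_lit 1) (nat_lit 146) (nat_lit 102) (nat_lit 142)) (PT.nd (nat_lit 40092) (PT.lf (nat_lit 4408) (nat_lit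 6) (nat_lit 58) (nat_lit 1) (nat_lit 147) (nat_lit 102) (nat_lit 141)) (PT.lf (nat_lit 4712) (nat_lit 6) (nat_lit 62) (nat_lit 3) (nat_lit 140) (nat_lit 103) (nat_lit 147))))))) (PT.nd (nat_lit 40794) (PT.nd (nat_lit 390) (PT.nd (nat_lit 156) (PT.nd (nat_lit 78) (PT.lf (nat_lit 4788) (nat_lit 6) (nat_lit 63) (nat_lit 3) (nat_lit 141) (nat_lit 103) (nat_lit 146)) (PT.lf (nat_lit 4864) (nat_lit 6) (nat_lit 64) (nat_lit 3) (nat_lit 142) (nat_lit 103) (nat_lit 145))) (PT.nd (nat_lit 78) (PT.lf (nat_lit 4940) (nat_lit 6) (nat_lit 65) (nat_lit 3) (nat_lit 143) (nat_lit 103) (nat_lit 144)) (PT.nd (nat_lit 78) (PT.lf (nat_lit 4940) (nat_lit 6) (nat_lit 65) (nat_lit 1) (nat_lit 144) (nat_lit 103) (nat_lit 143)) (PT.lf (nat_lit 4864) (nat_lit 6) (nat_lit 64) (nat_lit 1) (nat_lit 145) (nat_lit 103) (nat_lit 142))))) (PT.nd (nat_lit 40170) (PT.nd (nat_lit 78) (PT.lf (nat_lit 4788) (nat_lit 6) (nat_lit 63)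 (nat_lit 1) (nat_lit 146) (nat_lit 103) (nat_lit 141)) (PT.nd (nat_lit 40014) (PT.lf (nat_lit 4712) (nat_lit 6) (nat_lit 62) (nat_lit 1) (nat_lit 147) (nat_lit 103) (nat_lit 140)) (PT.lf (nat_lit 5016) (nat_lit 6) (nat_lit 66) (nat_lit 3) (nat_lit 139) (nat_lit 104) (nat_lit 147)))) (PT.nd (nat_lit 78) (PT.lf (nat_lit 5092) (nat_lit 6) (nat_lit 67) (nat_lit 3) (nat_lit 140) (nat_lit 104) (nat_lit 146)) (PT.nd (nat_lit 78) (PT.lf (nat_lit 5168) (nat_lit 6) (nat_lit 68) (nat_lit 3) (nat_lit 141) (nat_lit 104) (nat_lit 145)) (PT.lf (nat_lit 5244) (nat_lit 6) (nat_lit 69) (nat_lit 3) (nat_lit 142) (nat_lit 104) (nat_lit 144)))))) (PT.nd (nat_lit 40248) (PT.nd (nat_lit 156) (PT.nd (nat_lit 78) (PT.lf (nat_lit 5320) (nat_lit 3) (nat_lit 70) (nat_lit 1) (nat_lit 143) (nat_lit 104) (nat_lit 143)) (PT.lf (nat_lit 5244) (nat_lit 6) (nat_lit 69) (nat_lit 1) (nat_lit 144) (nat_lit 104) (nat_lit 142))) (PT.nd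 (nat_lit 78) (PT.lf (nat_lit 5168) (nat_lit 6) (nat_lit 68) (nat_lit 1) (nat_lit 145) (nat_lit 104) (nat_lit 141)) (PT.nd (nat_lit 78) (PT.lf (nat_lit 5092) (nat_lit 6) (nat_lit 67) (nat_lit 1) (nat_lit 146) (nat_lit 104) (nat_lit 140)) (PT.lf (nat_lit 5016) (nat_lit 6) (nat_lit 66) (nat_lit 1) (nat_lit 147) (nat_lit 104) (nat_lit 139))))) (PT.nd (nat_lit 234) (PT.nd (nat_lit 78) (PT.lf (nat_lit 5396) (nat_lit 6) (nat_lit 71) (nat_lit 3) (nat_lit 138) (nat_lit 105) (nat_lit 147)) (PT.nd (nat_lit 78) (PT.lf (nat_lit 5472) (nat_lit 6) (nat_lit 72) (nat_lit 3) (nat_lit 139) (nat_lit 105) (nat_lit 146)) (PT.lf (nat_lit 5548) (nat_lit 6) (nat_lit 73) (nat_lit 3) (nat_lit 140) (nat_lit 105) (nat_lit 145)))) (PT.nd (nat_lit 78) (PT.lf (nat_lit 5624) (nat_lit 6) (nat_lit 74) (nat_lit 3) (nat_lit 141) (nat_lit 105) (nat_lit 144)) (PT.nd (nat_lit 78) (PT.lf (nat_lit 5700) (nat_lit 6) (nat_lit 75) (nat_lit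 3) (nat_lit 142) (nat_lit 105) (nat_lit 143)) (PT.lf (nat_lit 5700) (nat_lit 6) (nat_lit 75) (nat_lit 1) (nat_lit 143) (nat_lit 105) (nat_lit 142))))))))
noncomputable def pc3 : PT := (PT.nd (nat_lit 81432) (PT.nd (nat_lit 40716) (PT.nd (nat_lit 40248) (PT.nd (nat_lit 156) (PT.nd (nat_lit 78) (PT.lf (nat_lit 5624) (nat_lit 6) (nat_lit 74) (nat_lit 1) (nat_lit 144) (nat_lit 105) (nat_lit 141)) (PT.lf (nat_lit 5548) (nat_lit 6) (nat_lit 73) (nat_lit 1) (nat_lit 145) (nat_lit 105) (nat_lit 140))) (PT.nd (nat_lit 78) (PT.lf (nat_lit 5472) (nat_lit 6) (nat_lit 72) (nat_lit 1) (nat_lit 146) (nat_lit 105) (nat_lit 139)) (PT.nd (nat_lit 39936) (PT.lf (nat_lit 5396) (nat_lit 6) (nat_lit 71) (nat_lit 1) (nat_lit 147) (nat_lit 105) (nat_lit 138)) (PT.lf (nat_lit 5776) (nat_lit 6) (nat_lit 76) (nat_lit 3) (nat_lit 138) (nat_lit 106) (nat_lit 146))))) (PT.nd (nat_lit 234) (PT.nd (nat_lit 78) (PT.lf (nat_lit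 5852) (nat_lit 6) (nat_lit 77) (nat_lit 3) (nat_lit 139) (nat_lit 106) (nat_lit 145)) (PT.nd (nat_lit 78) (PT.lf (nat_lit 5928) (nat_lit 6) (nat_lit 78) (nat_lit 3) (nat_lit 140) (nat_lit 106) (nat_lit 144)) (PT.lf (nat_lit 6004) (nat_lit 6) (nat_lit 79) (nat_lit 3) (nat_lit 141) (nat_lit 106) (nat_lit 143)))) (PT.nd (nat_lit 78) (PT.lf (nat_lit 6080) (nat_lit 3) (nat_lit 80) (nat_lit 1) (nat_lit 142) (nat_lit 106) (nat_lit 142)) (PT.nd (nat_lit 78) (PT.lf (nat_lit 6004) (nat_lit 6) (nat_lit 79) (nat_lit 1) (nat_lit 143) (nat_lit 106) (nat_lit 141)) (PT.lf (nat_lit 5928) (nat_lit 6) (nat_lit 78) (nat_lit 1) (nat_lit 144) (nat_lit 106) (nat_lit 140)))))) (PT.nd (nat_lit 40248) (PT.nd (nat_lit 40014) (PT.nd (nat_lit 78) (PT.lf (nat_lit 5852) (nat_lit 6) (nat_lit 77) (nat_lit 1) (nat_lit 145) (nat_lit 106) (nat_lit 139)) (PT.lf (nat_lit 5776) (nat_lit 6) (nat_lit 76) (nat_lit 1) (nat_lit 146) (nat_lit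 106) (nat_lit 138))) (PT.nd (nat_lit 78) (PT.lf (nat_lit 6156) (nat_lit 6) (nat_lit 81) (nat_lit 3) (nat_lit 137) (nat_lit 107) (nat_lit 146)) (PT.nd (nat_lit 78) (PT.lf (nat_lit 6232) (nat_lit 6) (nat_lit 82) (nat_lit 3) (nat_lit 138) (nat_lit 107) (nat_lit 145)) (PT.lf (nat_lit 6308) (nat_lit 6) (nat_lit 83) (nat_lit 3) (nat_lit 139) (nat_lit 107) (nat_lit 144))))) (PT.nd (nat_lit 234) (PT.nd (nat_lit 78) (PT.lf (nat_lit 6384) (nat_lit 6) (nat_lit 84) (nat_lit 3) (nat_lit 140) (nat_lit 107) (nat_lit 143)) (PT.nd (nat_lit 78) (PT.lf (nat_lit 6460) (nat_lit 6) (nat_lit 85) (nat_lit 3) (nat_lit 141) (nat_lit 107) (nat_lit 142)) (PT.lf (nat_lit 6460) (nat_lit 6) (nat_lit 85) (nat_lit 1) (nat_lit 142) (nat_lit 107) (nat_lit 141)))) (PT.nd (nat_lit 78) (PT.lf (nat_lit 6384) (nat_lit 6) (nat_lit 84) (nat_lit 1) (nat_lit 143) (nat_lit 107) (nat_lit 140)) (PT.nd (nat_lit 78) (PT.lf (nat_lit 6308) (nat_lit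 6) (nat_lit 83) (nat_lit 1) (nat_lit 144) (nat_lit 107) (nat_lit 139)) (PT.lf (nat_lit 6232) (nat_lit 6) (nat_lit 82) (nat_lit 1) (nat_lit 145) (nat_lit 107) (nat_lit 138))))))) (PT.nd (nat_lit 40638) (PT.nd (nat_lit 40170) (PT.nd (nat_lit 39936) (PT.nd (nat_lit 39858) (PT.lf (nat_lit 6156) (nat_lit 6) (nat_lit 81) (nat_lit 1) (nat_lit 146) (nat_lit 107) (nat_lit 137)) (PT.lf (nat_lit 6536) (nat_lit 6) (nat_lit 86) (nat_lit 3) (nat_lit 136) (nat_lit 108) (nat_lit 146))) (PT.nd (nat_lit 78) (PT.lf (nat_lit 6612) (nat_lit 6) (nat_lit 87) (nat_lit 3) (nat_lit 137) (nat_lit 108) (nat_lit 145)) (PT.nd (nat_lit 78) (PT.lf (nat_lit 6688) (nat_lit 6) (nat_lit 88) (nat_lit 3) (nat_lit 138) (nat_lit 108) (nat_lit 144)) (PT.lf (nat_lit 6764) (nat_lit 6) (nat_lit 89) (nat_lit 3) (nat_lit 139) (nat_lit 108) (nat_lit 143))))) (PT.nd (nat_lit 234) (PT.nd (nat_lit 78) (PT.lf (nat_lit 6840) (nat_lit 6) (nat_lit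 90) (nat_lit 3) (nat_lit 140) (nat_lit 108) (nat_lit 142)) (PT.nd (nat_lit 78) (PT.lf (nat_lit 6916) (nat_lit 3) (nat_lit 91) (nat_lit 1) (nat_lit 141) (nat_lit 108) (nat_lit 141)) (PT.lf (nat_lit 6840) (nat_lit 6) (nat_lit 90) (nat_lit 1) (nat_lit 142) (nat_lit 108) (nat_lit 140)))) (PT.nd (nat_lit 78) (PT.lf (nat_lit 6764) (nat_lit 6) (nat_lit 89) (nat_lit 1) (nat_lit 143) (nat_lit 108) (nat_lit 139)) (PT.nd (nat_lit 78) (PT.lf (nat_lit 6688) (nat_lit 6) (nat_lit 88) (nat_lit 1) (nat_lit 144) (nat_lit 108) (nat_lit 138)) (PT.lf (nat_lit 6612) (nat_lit 6) (nat_lit 87) (nat_lit 1) (nat_lit 145) (nat_lit 108) (nat_lit 137)))))) (PT.nd (nat_lit 40092) (PT.nd (nat_lit 39858) (PT.nd (nat_lit 39780) (PT.lf (nat_lit 6536) (nat_lit 6) (nat_lit 86) (nat_lit 1) (nat_lit 146) (nat_lit 108) (nat_lit 136)) (PT.lf (nat_lit 6992) (nat_lit 6) (nat_lit 92) (nat_lit 3) (nat_lit 135) (nat_lit 109) (nat_lit 146)))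 (PT.nd (nat_lit 78) (PT.lf (nat_lit 7068) (nat_lit 6) (nat_lit 93) (nat_lit 3) (nat_lit 136) (nat_lit 109) (nat_lit 145)) (PT.nd (nat_lit 78) (PT.lf (nat_lit 7144) (nat_lit 6) (nat_lit 94) (nat_lit 3) (nat_lit 137) (nat_lit 109) (nat_lit 144)) (PT.lf (nat_lit 7220) (nat_lit 6) (nat_lit 95) (nat_lit 3) (nat_lit 138) (nat_lit 109) (nat_lit 143))))) (PT.nd (nat_lit 234) (PT.nd (nat_lit 78) (PT.lf (nat_lit 7296) (nat_lit 6) (nat_lit 96) (nat_lit 3) (nat_lit 139) (nat_lit 109) (nat_lit 142)) (PT.nd (nat_lit 78) (PT.lf (nat_lit 7372) (nat_lit 6) (nat_lit 97) (nat_lit 3) (nat_lit 140) (nat_lit 109) (nat_lit 141)) (PT.lf (nat_lit 7372) (nat_lit 6) (nat_lit 97) (nat_lit 1) (nat_lit 141) (nat_lit 109) (nat_lit 140)))) (PT.nd (nat_lit 78) (PT.lf (nat_lit 7296) (nat_lit 6) (nat_lit 96) (nat_lit 1) (nat_lit 142) (nat_lit 109) (nat_lit 139)) (PT.nd (nat_lit 78) (PT.lf (nat_lit 7220) (nat_lit 6) (nat_lit 95)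 (nat_lit 1) (nat_lit 143) (nat_lit 109) (nat_lit 138)) (PT.lf (nat_lit 7144) (nat_lit 6) (nat_lit 94) (nat_lit 1) (nat_lit 144) (nat_lit 109) (nat_lit 137))))))))
noncomputable def pc4 : PT := (PT.nd (nat_lit 81120) (PT.nd (nat_lit 40560) (PT.nd (nat_lit 40092) (PT.nd (nat_lit 39858) (PT.nd (nat_lit 78) (PT.lf (nat_lit 7068) (nat_lit 6) (nat_lit 93) (nat_lit 1) (nat_lit 145) (nat_lit 109) (nat_lit 136)) (PT.lf (nat_lit 6992) (nat_lit 6) (nat_lit 92) (nat_lit 1) (nat_lit 146) (nat_lit 109) (nat_lit 135))) (PT.nd (nat_lit 78) (PT.lf (nat_lit 7448) (nat_lit 6) (nat_lit 98) (nat_lit 3) (nat_lit 135) (nat_lit 110) (nat_lit 145)) (PT.nd (nat_lit 78) (PT.lf (nat_lit 7524) (nat_lit 6) (nat_lit 99) (nat_lit 3) (nat_lit 136) (nat_lit 110) (nat_lit 144)) (PT.lf (nat_lit 7600) (nat_lit 6) (nat_lit 100) (nat_lit 3) (nat_lit 137) (nat_lit 110) (nat_lit 143))))) (PT.nd (nat_lit 234) (PT.nd (nat_lit 78) (PT.lf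 (nat_lit 7676) (nat_lit 6) (nat_lit 101) (nat_lit 3) (nat_lit 138) (nat_lit 110) (nat_lit 142)) (PT.nd (nat_lit 78) (PT.lf (nat_lit 7752) (nat_lit 6) (nat_lit 102) (nat_lit 3) (nat_lit 139) (nat_lit 110) (nat_lit 141)) (PT.lf (nat_lit 7828) (nat_lit 3) (nat_lit 103) (nat_lit 1) (nat_lit 140) (nat_lit 110) (nat_lit 140)))) (PT.nd (nat_lit 78) (PT.lf (nat_lit 7752) (nat_lit 6) (nat_lit 102) (nat_lit 1) (nat_lit 141) (nat_lit 110) (nat_lit 139)) (PT.nd (nat_lit 78) (PT.lf (nat_lit 7676) (nat_lit 6) (nat_lit 101) (nat_lit 1) (nat_lit 142) (nat_lit 110) (nat_lit 138)) (PT.lf (nat_lit 7600) (nat_lit 6) (nat_lit 100) (nat_lit 1) (nat_lit 143) (nat_lit 110) (nat_lit 137)))))) (PT.nd (nat_lit 40092) (PT.nd (nat_lit 39858) (PT.nd (nat_lit 78) (PT.lf (nat_lit 7524) (nat_lit 6) (nat_lit 99) (nat_lit 1) (nat_lit 144) (nat_lit 110) (nat_lit 136)) (PT.lf (nat_lit 7448) (nat_lit 6) (nat_lit 98) (nat_lit 1)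 (nat_lit 145) (nat_lit 110) (nat_lit 135))) (PT.nd (nat_lit 78) (PT.lf (nat_lit 7904) (nat_lit 6) (nat_lit 104) (nat_lit 3) (nat_lit 134) (nat_lit 111) (nat_lit 145)) (PT.nd (nat_lit 78) (PT.lf (nat_lit 7980) (nat_lit 6) (nat_lit 105) (nat_lit 3) (nat_lit 135) (nat_lit 111) (nat_lit 144)) (PT.lf (nat_lit 8056) (nat_lit 6) (nat_lit 106) (nat_lit 3) (nat_lit 136) (nat_lit 111) (nat_lit 143))))) (PT.nd (nat_lit 234) (PT.nd (nat_lit 78) (PT.lf (nat_lit 8132) (nat_lit 6) (nat_lit 107) (nat_lit 3) (nat_lit 137) (nat_lit 111) (nat_lit 142)) (PT.nd (nat_lit 78) (PT.lf (nat_lit 8208) (nat_lit 6) (nat_lit 108) (nat_lit 3) (nat_lit 138) (nat_lit 111) (nat_lit 141)) (PT.lf (nat_lit 8284) (nat_lit 6) (nat_lit 109) (nat_lit 3) (nat_lit 139) (nat_lit 111) (nat_lit 140)))) (PT.nd (nat_lit 78) (PT.lf (nat_lit 8284) (nat_lit 6) (nat_lit 109) (nat_lit 1) (nat_lit 140) (nat_lit 111) (nat_lit 139)) (PT.nd (nat_lit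 78) (PT.lf (nat_lit 8208) (nat_lit 6) (nat_lit 108) (nat_lit 1) (nat_lit 141) (nat_lit 111) (nat_lit 138)) (PT.lf (nat_lit 8132) (nat_lit 6) (nat_lit 107) (nat_lit 1) (nat_lit 142) (nat_lit 111) (nat_lit 137))))))) (PT.nd (nat_lit 40482) (PT.nd (nat_lit 40014) (PT.nd (nat_lit 156) (PT.nd (nat_lit 78) (PT.lf (nat_lit 8056) (nat_lit 6) (nat_lit 106) (nat_lit 1) (nat_lit 143) (nat_lit 111) (nat_lit 136)) (PT.lf (nat_lit 7980) (nat_lit 6) (nat_lit 105) (nat_lit 1) (nat_lit 144) (nat_lit 111) (nat_lit 135))) (PT.nd (nat_lit 39702) (PT.lf (nat_lit 7904) (nat_lit 6) (nat_lit 104) (nat_lit 1) (nat_lit 145) (nat_lit 111) (nat_lit 134)) (PT.nd (nat_lit 78) (PT.lf (nat_lit 8360) (nat_lit 6) (nat_lit 110) (nat_lit 3) (nat_lit 133) (nat_lit 112) (nat_lit 145)) (PT.lf (nat_lit 8436) (nat_lit 6) (nat_lit 111) (nat_lit 3) (nat_lit 134) (nat_lit 112) (nat_lit 144))))) (PT.nd (nat_lit 234) (PT.nd (nat_lit 78)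 (PT.lf (nat_lit 8512) (nat_lit 6) (nat_lit 112) (nat_lit 3) (nat_lit 135) (nat_lit 112) (nat_lit 143)) (PT.nd (nat_lit 78) (PT.lf (nat_lit 8588) (nat_lit 6) (nat_lit 113) (nat_lit 3) (nat_lit 136) (nat_lit 112) (nat_lit 142)) (PT.lf (nat_lit 8664) (nat_lit 6) (nat_lit 114) (nat_lit 3) (nat_lit 137) (nat_lit 112) (nat_lit 141)))) (PT.nd (nat_lit 78) (PT.lf (nat_lit 8740) (nat_lit 6) (nat_lit 115) (nat_lit 3) (nat_lit 138) (nat_lit 112) (nat_lit 140)) (PT.nd (nat_lit 78) (PT.lf (nat_lit 8816) (nat_lit 3) (nat_lit 116) (nat_lit 1) (nat_lit 139) (nat_lit 112) (nat_lit 139)) (PT.lf (nat_lit 8740) (nat_lit 6) (nat_lit 115) (nat_lit 1) (nat_lit 140) (nat_lit 112) (nat_lit 138)))))) (PT.nd (nat_lit 39936) (PT.nd (nat_lit 156) (PT.nd (nat_lit 78) (PT.lf (nat_lit 8664) (nat_lit 6) (nat_lit 114) (nat_lit 1) (nat_lit 141) (nat_lit 112) (nat_lit 137)) (PT.lf (nat_lit 8588) (nat_lit 6) (nat_lit 113) (nat_lit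 1) (nat_lit 142) (nat_lit 112) (nat_lit 136))) (PT.nd (nat_lit 78) (PT.lf (nat_lit 8512) (nat_lit 6) (nat_lit 112) (nat_lit 1) (nat_lit 143) (nat_lit 112) (nat_lit 135)) (PT.nd (nat_lit 78) (PT.lf (nat_lit 8436) (nat_lit 6) (nat_lit 111) (nat_lit 1) (nat_lit 144) (nat_lit 112) (nat_lit 134)) (PT.lf (nat_lit 8360) (nat_lit 6) (nat_lit 110) (nat_lit 1) (nat_lit 145) (nat_lit 112) (nat_lit 133))))) (PT.nd (nat_lit 234) (PT.nd (nat_lit 78) (PT.lf (nat_lit 8892) (nat_lit 6) (nat_lit 117) (nat_lit 3) (nat_lit 132) (nat_lit 113) (nat_lit 145)) (PT.nd (nat_lit 78) (PT.lf (nat_lit 8968) (nat_lit 6) (nat_lit 118) (nat_lit 3) (nat_lit 133) (nat_lit 113) (nat_lit 144)) (PT.lf (nat_lit 9044) (nat_lit 6) (nat_lit 119) (nat_lit 3) (nat_lit 134) (nat_lit 113) (nat_lit 143)))) (PT.nd (nat_lit 78) (PT.lf (nat_lit 9120) (nat_lit 6) (nat_lit 120) (nat_lit 3) (nat_lit 135) (nat_lit 113) (nat_lit 142)) (PT.nd (nat_lit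 78) (PT.lf (nat_lit 9196) (nat_lit 6) (nat_lit 121) (nat_lit 3) (nat_lit 136) (nat_lit 113) (nat_lit 141)) (PT.lf (nat_lit 9272) (nat_lit 6) (nat_lit 122) (nat_lit 3) (nat_lit 137) (nat_lit 113) (nat_lit 140))))))))
noncomputable def pc5 : PT := (PT.nd (nat_lit 41184) (PT.nd (nat_lit 40326) (PT.nd (nat_lit 390) (PT.nd (nat_lit 156) (PT.nd (nat_lit 78) (PT.lf (nat_lit 9348) (nat_lit 6) (nat_lit 123) (nat_lit 3) (nat_lit 138) (nat_lit 113) (nat_lit 139)) (PT.lf (nat_lit 9348) (nat_lit 6) (nat_lit 123) (nat_lit 1) (nat_lit 139) (nat_lit 113) (nat_lit 138))) (PT.nd (nat_lit 78) (PT.lf (nat_lit 9272) (nat_lit 6) (nat_lit 122) (nat_lit 1) (nat_lit 140) (nat_lit 113) (nat_lit 137)) (PT.nd (nat_lit 78) (PT.lf (nat_lit 9196) (nat_lit 6) (nat_lit 121) (nat_lit 1) (nat_lit 141) (nat_lit 113) (nat_lit 136)) (PT.lf (nat_lit 9120) (nat_lit 6) (nat_lit 120) (nat_lit 1) (nat_lit 142) (nat_lit 113) (nat_lit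 135))))) (PT.nd (nat_lit 39702) (PT.nd (nat_lit 78) (PT.lf (nat_lit 9044) (nat_lit 6) (nat_lit 119) (nat_lit 1) (nat_lit 143) (nat_lit 113) (nat_lit 134)) (PT.nd (nat_lit 78) (PT.lf (nat_lit 8968) (nat_lit 6) (nat_lit 118) (nat_lit 1) (nat_lit 144) (nat_lit 113) (nat_lit 133)) (PT.lf (nat_lit 8892) (nat_lit 6) (nat_lit 117) (nat_lit 1) (nat_lit 145) (nat_lit 113) (nat_lit 132)))) (PT.nd (nat_lit 78) (PT.lf (nat_lit 9424) (nat_lit 6) (nat_lit 124) (nat_lit 3) (nat_lit 131) (nat_lit 114) (nat_lit 145)) (PT.nd (nat_lit 78) (PT.lf (nat_lit 9500) (nat_lit 6) (nat_lit 125) (nat_lit 3) (nat_lit 132) (nat_lit 114) (nat_lit 144)) (PT.lf (nat_lit 9576) (nat_lit 6) (nat_lit 126) (nat_lit 3) (nat_lit 133) (nat_lit 114) (nat_lit 143)))))) (PT.nd (nat_lit 390) (PT.nd (nat_lit 156) (PT.nd (nat_lit 78) (PT.lf (nat_lit 9652) (nat_lit 6) (nat_lit 127) (nat_lit 3) (nat_lit 134) (nat_lit 114) (nat_lit 142)) (PT.lf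 (nat_lit 9728) (nat_lit 6) (nat_lit 128) (nat_lit 3) (nat_lit 135) (nat_lit 114) (nat_lit 141))) (PT.nd (nat_lit 78) (PT.lf (nat_lit 9804) (nat_lit 6) (nat_lit 129) (nat_lit 3) (nat_lit 136) (nat_lit 114) (nat_lit 140)) (PT.nd (nat_lit 78) (PT.lf (nat_lit 9880) (nat_lit 6) (nat_lit 130) (nat_lit 3) (nat_lit 137) (nat_lit 114) (nat_lit 139)) (PT.lf (nat_lit 9956) (nat_lit 3) (nat_lit 131) (nat_lit 1) (nat_lit 138) (nat_lit 114) (nat_lit 138))))) (PT.nd (nat_lit 234) (PT.nd (nat_lit 78) (PT.lf (nat_lit 9880) (nat_lit 6) (nat_lit 130) (nat_lit 1) (nat_lit 139) (nat_lit 114) (nat_lit 137)) (PT.nd (nat_lit 78) (PT.lf (nat_lit 9804) (nat_lit 6) (nat_lit 129) (nat_lit 1) (nat_lit 140) (nat_lit 114) (nat_lit 136)) (PT.lf (nat_lit 9728) (nat_lit 6) (nat_lit 128) (nat_lit 1) (nat_lit 141) (nat_lit 114) (nat_lit 135)))) (PT.nd (nat_lit 78) (PT.lf (nat_lit 9652) (nat_lit 6) (nat_lit 127) (nat_lit 1) (nat_lit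 142) (nat_lit 114) (nat_lit 134)) (PT.nd (nat_lit 78) (PT.lf (nat_lit 9576) (nat_lit 6) (nat_lit 126) (nat_lit 1) (nat_lit 143) (nat_lit 114) (nat_lit 133)) (PT.lf (nat_lit 9500) (nat_lit 6) (nat_lit 125) (nat_lit 1) (nat_lit 144) (nat_lit 114) (nat_lit 132))))))) (PT.nd (nat_lit 40248) (PT.nd (nat_lit 39780) (PT.nd (nat_lit 39546) (PT.nd (nat_lit 39468) (PT.lf (nat_lit 9424) (nat_lit 6) (nat_lit 124) (nat_lit 1) (nat_lit 145) (nat_lit 114) (nat_lit 131)) (PT.lf (nat_lit 10032) (nat_lit 6) (nat_lit 132) (nat_lit 3) (nat_lit 130) (nat_lit 115) (nat_lit 145))) (PT.nd (nat_lit 78) (PT.lf (nat_lit 10108) (nat_lit 6) (nat_lit 133) (nat_lit 3) (nat_lit 131) (nat_lit 115) (nat_lit 144)) (PT.nd (nat_lit 78) (PT.lf (nat_lit 10184) (nat_lit 6) (nat_lit 134) (nat_lit 3) (nat_lit 132) (nat_lit 115) (nat_lit 143)) (PT.lf (nat_lit 10260) (nat_lit 6) (nat_lit 135) (nat_lit 3) (nat_lit 133) (nat_lit 115) (nat_lit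 142))))) (PT.nd (nat_lit 234) (PT.nd (nat_lit 78) (PT.lf (nat_lit 10336) (nat_lit 6) (nat_lit 136) (nat_lit 3) (nat_lit 134) (nat_lit 115) (nat_lit 141)) (PT.nd (nat_lit 78) (PT.lf (nat_lit 10412) (nat_lit 6) (nat_lit 137) (nat_lit 3) (nat_lit 135) (nat_lit 115) (nat_lit 140)) (PT.lf (nat_lit 10488) (nat_lit 6) (nat_lit 138) (nat_lit 3) (nat_lit 136) (nat_lit 115) (nat_lit 139)))) (PT.nd (nat_lit 78) (PT.lf (nat_lit 10564) (nat_lit 6) (nat_lit 139) (nat_lit 3) (nat_lit 137) (nat_lit 115) (nat_lit 138)) (PT.nd (nat_lit 78) (PT.lf (nat_lit 10564) (nat_lit 6) (nat_lit 139) (nat_lit 1) (nat_lit 138) (nat_lit 115) (nat_lit 137)) (PT.lf (nat_lit 10488) (nat_lit 6) (nat_lit 138) (nat_lit 1) (nat_lit 139) (nat_lit 115) (nat_lit 136)))))) (PT.nd (nat_lit 390) (PT.nd (nat_lit 156) (PT.nd (nat_lit 78) (PT.lf (nat_lit 10412) (nat_lit 6) (nat_lit 137) (nat_lit 1) (nat_lit 140) (nat_lit 115) (nat_lit 135))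 (PT.lf (nat_lit 10336) (nat_lit 6) (nat_lit 136) (nat_lit 1) (nat_lit 141) (nat_lit 115) (nat_lit 134))) (PT.nd (nat_lit 78) (PT.lf (nat_lit 10260) (nat_lit 6) (nat_lit 135) (nat_lit 1) (nat_lit 142) (nat_lit 115) (nat_lit 133)) (PT.nd (nat_lit 78) (PT.lf (nat_lit 10184) (nat_lit 6) (nat_lit 134) (nat_lit 1) (nat_lit 143) (nat_lit 115) (nat_lit 132)) (PT.lf (nat_lit 10108) (nat_lit 6) (nat_lit 133) (nat_lit 1) (nat_lit 144) (nat_lit 115) (nat_lit 131))))) (PT.nd (nat_lit 39624) (PT.nd (nat_lit 39468) (PT.lf (nat_lit 10032) (nat_lit 6) (nat_lit 132) (nat_lit 1) (nat_lit 145) (nat_lit 115) (nat_lit 130)) (PT.nd (nat_lit 78) (PT.lf (nat_lit 11172) (nat_lit 6) (nat_lit 147) (nat_lit 3) (nat_lit 130) (nat_lit 116) (nat_lit 144)) (PT.lf (nat_lit 11248) (nat_lit 6) (nat_lit 148) (nat_lit 3) (nat_lit 131) (nat_lit 116) (nat_lit 143)))) (PT.nd (nat_lit 78) (PT.lf (nat_lit 11324) (nat_lit 6) (nat_lit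 149) (nat_lit 3) (nat_lit 132) (nat_lit 116) (nat_lit 142)) (PT.nd (nat_lit 78) (PT.lf (nat_lit 11400) (nat_lit 6) (nat_lit 150) (nat_lit 3) (nat_lit 133) (nat_lit 116) (nat_lit 141)) (PT.lf (nat_lit 11476) (nat_lit 6) (nat_lit 151) (nat_lit 3) (nat_lit 134) (nat_lit 116) (nat_lit 140))))))))
noncomputable def pc6 : PT := (PT.nd (nat_lit 41106) (PT.nd (nat_lit 40248) (PT.nd (nat_lit 390) (PT.nd (nat_lit 156) (PT.nd (nat_lit 78) (PT.lf (nat_lit 11552) (nat_lit 6) (nat_lit 152) (nat_lit 3) (nat_lit 135) (nat_lit 116) (nat_lit 139)) (PT.lf (nat_lit 11628) (nat_lit 6) (nat_lit 153) (nat_lit 3) (nat_lit 136) (nat_lit 116) (nat_lit 138))) (PT.nd (nat_lit 78) (PT.lf (nat_lit 11704) (nat_lit 3) (nat_lit 154) (nat_lit 1) (nat_lit 137) (nat_lit 116) (nat_lit 137)) (PT.nd (nat_lit 78) (PT.lf (nat_lit 11628) (nat_lit 6) (nat_lit 153) (nat_lit 1) (nat_lit 138) (nat_lit 116) (nat_lit 136)) (PT.lf (nat_lit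 11552) (nat_lit 6) (nat_lit 152) (nat_lit 1) (nat_lit 139) (nat_lit 116) (nat_lit 135))))) (PT.nd (nat_lit 234) (PT.nd (nat_lit 78) (PT.lf (nat_lit 11476) (nat_lit 6) (nat_lit 151) (nat_lit 1) (nat_lit 140) (nat_lit 116) (nat_lit 134)) (PT.nd (nat_lit 78) (PT.lf (nat_lit 11400) (nat_lit 6) (nat_lit 150) (nat_lit 1) (nat_lit 141) (nat_lit 116) (nat_lit 133)) (PT.lf (nat_lit 11324) (nat_lit 6) (nat_lit 149) (nat_lit 1) (nat_lit 142) (nat_lit 116) (nat_lit 132)))) (PT.nd (nat_lit 78) (PT.lf (nat_lit 11248) (nat_lit 6) (nat_lit 148) (nat_lit 1) (nat_lit 143) (nat_lit 116) (nat_lit 131)) (PT.nd (nat_lit 39468) (PT.lf (nat_lit 11172) (nat_lit 6) (nat_lit 147) (nat_lit 1) (nat_lit 144) (nat_lit 116) (nat_lit 130)) (PT.lf (nat_lit 11096) (nat_lit 6) (nat_lit 146) (nat_lit 3) (nat_lit 129) (nat_lit 117) (nat_lit 144)))))) (PT.nd (nat_lit 390) (PT.nd (nat_lit 156) (PT.nd (nat_lit 78) (PT.lf (nat_lit 12236)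 (nat_lit 6) (nat_lit 161) (nat_lit 3) (nat_lit 130) (nat_lit 117) (nat_lit 143)) (PT.lf (nat_lit 12312) (nat_lit 6) (nat_lit 162) (nat_lit 3) (nat_lit 131) (nat_lit 117) (nat_lit 142))) (PT.nd (nat_lit 78) (PT.lf (nat_lit 12388) (nat_lit 6) (nat_lit 163) (nat_lit 3) (nat_lit 132) (nat_lit 117) (nat_lit 141)) (PT.nd (nat_lit 78) (PT.lf (nat_lit 12464) (nat_lit 6) (nat_lit 164) (nat_lit 3) (nat_lit 133) (nat_lit 117) (nat_lit 140)) (PT.lf (nat_lit 12540) (nat_lit 6) (nat_lit 165) (nat_lit 3) (nat_lit 134) (nat_lit 117) (nat_lit 139))))) (PT.nd (nat_lit 234) (PT.nd (nat_lit 78) (PT.lf (nat_lit 12616) (nat_lit 6) (nat_lit 166) (nat_lit 3) (nat_lit 135) (nat_lit 117) (nat_lit 138)) (PT.nd (nat_lit 78) (PT.lf (nat_lit 12692) (nat_lit 6) (nat_lit 167) (nat_lit 3) (nat_lit 136) (nat_lit 117) (nat_lit 137)) (PT.lf (nat_lit 12692) (nat_lit 6) (nat_lit 167) (nat_lit 1) (nat_lit 137) (nat_lit 117) (nat_lit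 136)))) (PT.nd (nat_lit 78) (PT.lf (nat_lit 12616) (nat_lit 6) (nat_lit 166) (nat_lit 1) (nat_lit 138) (nat_lit 117) (nat_lit 135)) (PT.nd (nat_lit 78) (PT.lf (nat_lit 12540) (nat_lit 6) (nat_lit 165) (nat_lit 1) (nat_lit 139) (nat_lit 117) (nat_lit 134)) (PT.lf (nat_lit 12464) (nat_lit 6) (nat_lit 164) (nat_lit 1) (nat_lit 140) (nat_lit 117) (nat_lit 133))))))) (PT.nd (nat_lit 40170) (PT.nd (nat_lit 39702) (PT.nd (nat_lit 156) (PT.nd (nat_lit 78) (PT.lf (nat_lit 12388) (nat_lit 6) (nat_lit 163) (nat_lit 1) (nat_lit 141) (nat_lit 117) (nat_lit 132)) (PT.lf (nat_lit 12312) (nat_lit 6) (nat_lit 162) (nat_lit 1) (nat_lit 142) (nat_lit 117) (nat_lit 131))) (PT.nd (nat_lit 78) (PT.lf (nat_lit 12236) (nat_lit 6) (nat_lit 161) (nat_lit 1) (nat_lit 143) (nat_lit 117) (nat_lit 130)) (PT.nd (nat_lit 39390) (PT.lf (nat_lit 11096) (nat_lit 6) (nat_lit 146) (nat_lit 1) (nat_lit 144) (nat_lit 117) (nat_lit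 129)) (PT.lf (nat_lit 11020) (nat_lit 6) (nat_lit 145) (nat_lit 3) (nat_lit 128) (nat_lit 118) (nat_lit 144))))) (PT.nd (nat_lit 234) (PT.nd (nat_lit 78) (PT.lf (nat_lit 12160) (nat_lit 6) (nat_lit 160) (nat_lit 3) (nat_lit 129) (nat_lit 118) (nat_lit 143)) (PT.nd (nat_lit 78) (PT.lf (nat_lit 13224) (nat_lit 6) (nat_lit 174) (nat_lit 3) (nat_lit 130) (nat_lit 118) (nat_lit 142)) (PT.lf (nat_lit 13300) (nat_lit 6) (nat_lit 175) (nat_lit 3) (nat_lit 131) (nat_lit 118) (nat_lit 141)))) (PT.nd (nat_lit 78) (PT.lf (nat_lit 13376) (nat_lit 6) (nat_lit 176) (nat_lit 3) (nat_lit 132) (nat_lit 118) (nat_lit 140)) (PT.nd (nat_lit 78) (PT.lf (nat_lit 13452) (nat_lit 6) (nat_lit 177) (nat_lit 3) (nat_lit 133) (nat_lit 118) (nat_lit 139)) (PT.lf (nat_lit 13528) (nat_lit 6) (nat_lit 178) (nat_lit 3) (nat_lit 134) (nat_lit 118) (nat_lit 138)))))) (PT.nd (nat_lit 390) (PT.nd (nat_lit 156) (PT.nd (nat_lit 78)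 (PT.lf (nat_lit 13604) (nat_lit 6) (nat_lit 179) (nat_lit 3) (nat_lit 135) (nat_lit 118) (nat_lit 137)) (PT.lf (nat_lit 13680) (nat_lit 3) (nat_lit 180) (nat_lit 1) (nat_lit 136) (nat_lit 118) (nat_lit 136))) (PT.nd (nat_lit 78) (PT.lf (nat_lit 13604) (nat_lit 6) (nat_lit 179) (nat_lit 1) (nat_lit 137) (nat_lit 118) (nat_lit 135)) (PT.nd (nat_lit 78) (PT.lf (nat_lit 13528) (nat_lit 6) (nat_lit 178) (nat_lit 1) (nat_lit 138) (nat_lit 118) (nat_lit 134)) (PT.lf (nat_lit 13452) (nat_lit 6) (nat_lit 177) (nat_lit 1) (nat_lit 139) (nat_lit 118) (nat_lit 133))))) (PT.nd (nat_lit 234) (PT.nd (nat_lit 78) (PT.lf (nat_lit 13376) (nat_lit 6) (nat_lit 176) (nat_lit 1) (nat_lit 140) (nat_lit 118) (nat_lit 132)) (PT.nd (nat_lit 78) (PT.lf (nat_lit 13300) (nat_lit 6) (nat_lit 175) (nat_lit 1) (nat_lit 141) (nat_lit 118) (nat_lit 131)) (PT.lf (nat_lit 13224) (nat_lit 6) (nat_lit 174) (nat_lit 1) (nat_lit 142)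 (nat_lit 118) (nat_lit 130)))) (PT.nd (nat_lit 78) (PT.lf (nat_lit 12160) (nat_lit 6) (nat_lit 160) (nat_lit 1) (nat_lit 143) (nat_lit 118) (nat_lit 129)) (PT.nd (nat_lit 39312) (PT.lf (nat_lit 11020) (nat_lit 6) (nat_lit 145) (nat_lit 1) (nat_lit 144) (nat_lit 118) (nat_lit 128)) (PT.lf (nat_lit 10944) (nat_lit 6) (nat_lit 144) (nat_lit 3) (nat_lit 127) (nat_lit 119) (nat_lit 144))))))))
noncomputable def pc7 : PT := (PT.nd (nat_lit 40872) (PT.nd (nat_lit 858) (PT.nd (nat_lit 390) (PT.nd (nat_lit 156) (PT.nd (nat_lit 78) (PT.lf (nat_lit 12084) (nat_lit 6) (nat_lit 159) (nat_lit 3) (nat_lit 128) (nat_lit 119) (nat_lit 143)) (PT.lf (nat_lit 13148) (nat_lit 6) (nat_lit 173) (nat_lit 3) (nat_lit 129) (nat_lit 119) (nat_lit 142))) (PT.nd (nat_lit 78) (PT.lf (nat_lit 14136) (nat_lit 6) (nat_lit 186) (nat_lit 3) (nat_lit 130) (nat_lit 119) (nat_lit 141)) (PT.nd (nat_lit 78) (PT.lf (nat_lit 14212)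 (nat_lit 6) (nat_lit 187) (nat_lit 3) (nat_lit 131) (nat_lit 119) (nat_lit 140)) (PT.lf (nat_lit 14288) (nat_lit 6) (nat_lit 188) (nat_lit 3) (nat_lit 132) (nat_lit 119) (nat_lit 139))))) (PT.nd (nat_lit 234) (PT.nd (nat_lit 78) (PT.lf (nat_lit 14364) (nat_lit 6) (nat_lit 189) (nat_lit 3) (nat_lit 133) (nat_lit 119) (nat_lit 138)) (PT.nd (nat_lit 78) (PT.lf (nat_lit 14440) (nat_lit 6) (nat_lit 190) (nat_lit 3) (nat_lit 134) (nat_lit 119) (nat_lit 137)) (PT.lf (nat_lit 14516) (nat_lit 6) (nat_lit 191) (nat_lit 3) (nat_lit 135) (nat_lit 119) (nat_lit 136)))) (PT.nd (nat_lit 78) (PT.lf (nat_lit 14516) (nat_lit 6) (nat_lit 191) (nat_lit 1) (nat_lit 136) (nat_lit 119) (nat_lit 135)) (PT.nd (nat_lit 78) (PT.lf (nat_lit 14440) (nat_lit 6) (nat_lit 190) (nat_lit 1) (nat_lit 137) (nat_lit 119) (nat_lit 134)) (PT.lf (nat_lit 14364) (nat_lit 6) (nat_lit 189) (nat_lit 1) (nat_lit 138) (nat_lit 119) (nat_lit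 133)))))) (PT.nd (nat_lit 390) (PT.nd (nat_lit 156) (PT.nd (nat_lit 78) (PT.lf (nat_lit 14288) (nat_lit 6) (nat_lit 188) (nat_lit 1) (nat_lit 139) (nat_lit 119) (nat_lit 132)) (PT.lf (nat_lit 14212) (nat_lit 6) (nat_lit 187) (nat_lit 1) (nat_lit 140) (nat_lit 119) (nat_lit 131))) (PT.nd (nat_lit 78) (PT.lf (nat_lit 14136) (nat_lit 6) (nat_lit 186) (nat_lit 1) (nat_lit 141) (nat_lit 119) (nat_lit 130)) (PT.nd (nat_lit 78) (PT.lf (nat_lit 13148) (nat_lit 6) (nat_lit 173) (nat_lit 1) (nat_lit 142) (nat_lit 119) (nat_lit 129)) (PT.lf (nat_lit 12084) (nat_lit 6) (nat_lit 159) (nat_lit 1) (nat_lit 143) (nat_lit 119) (nat_lit 128))))) (PT.nd (nat_lit 39390) (PT.nd (nat_lit 39234) (PT.lf (nat_lit 10944) (nat_lit 6) (nat_lit 144) (nat_lit 1) (nat_lit 144) (nat_lit 119) (nat_lit 127)) (PT.nd (nat_lit 78) (PT.lf (nat_lit 10868) (nat_lit 6) (nat_lit 143) (nat_lit 3) (nat_lit 126) (nat_lit 120) (nat_lit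 144)) (PT.lf (nat_lit 12008) (nat_lit 6) (nat_lit 158) (nat_lit 3) (nat_lit 127) (nat_lit 120) (nat_lit 143)))) (PT.nd (nat_lit 78) (PT.lf (nat_lit 13072) (nat_lit 6) (nat_lit 172) (nat_lit 3) (nat_lit 128) (nat_lit 120) (nat_lit 142)) (PT.nd (nat_lit 78) (PT.lf (nat_lit 14060) (nat_lit 6) (nat_lit 185) (nat_lit 3) (nat_lit 129) (nat_lit 120) (nat_lit 141)) (PT.lf (nat_lit 14972) (nat_lit 6) (nat_lit 197) (nat_lit 3) (nat_lit 130) (nat_lit 120) (nat_lit 140))))))) (PT.nd (nat_lit 858) (PT.nd (nat_lit 390) (PT.nd (nat_lit 156) (PT.nd (nat_lit 78) (PT.lf (nat_lit 15048) (nat_lit 6) (nat_lit 198) (nat_lit 3) (nat_lit 131) (nat_lit 120) (nat_lit 139)) (PT.lf (nat_lit 15124) (nat_lit 6) (nat_lit 199) (nat_lit 3) (nat_lit 132) (nat_lit 120) (nat_lit 138))) (PT.nd (nat_lit 78) (PT.lf (nat_lit 15200) (nat_lit 6) (nat_lit 200) (nat_lit 3) (nat_lit 133) (nat_lit 120) (nat_lit 137)) (PT.nd (nat_lit 78)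 (PT.lf (nat_lit 15276) (nat_lit 6) (nat_lit 201) (nat_lit 3) (nat_lit 134) (nat_lit 120) (nat_lit 136)) (PT.lf (nat_lit 15352) (nat_lit 3) (nat_lit 202) (nat_lit 1) (nat_lit 135) (nat_lit 120) (nat_lit 135))))) (PT.nd (nat_lit 234) (PT.nd (nat_lit 78) (PT.lf (nat_lit 15276) (nat_lit 6) (nat_lit 201) (nat_lit 1) (nat_lit 136) (nat_lit 120) (nat_lit 134)) (PT.nd (nat_lit 78) (PT.lf (nat_lit 15200) (nat_lit 6) (nat_lit 200) (nat_lit 1) (nat_lit 137) (nat_lit 120) (nat_lit 133)) (PT.lf (nat_lit 15124) (nat_lit 6) (nat_lit 199) (nat_lit 1) (nat_lit 138) (nat_lit 120) (nat_lit 132)))) (PT.nd (nat_lit 78) (PT.lf (nat_lit 15048) (nat_lit 6) (nat_lit 198) (nat_lit 1) (nat_lit 139) (nat_lit 120) (nat_lit 131)) (PT.nd (nat_lit 78) (PT.lf (nat_lit 14972) (nat_lit 6) (nat_lit 197) (nat_lit 1) (nat_lit 140) (nat_lit 120) (nat_lit 130)) (PT.lf (nat_lit 14060) (nat_lit 6) (nat_lit 185) (nat_lit 1) (nat_lit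 141) (nat_lit 120) (nat_lit 129)))))) (PT.nd (nat_lit 39468) (PT.nd (nat_lit 156) (PT.nd (nat_lit 78) (PT.lf (nat_lit 13072) (nat_lit 6) (nat_lit 172) (nat_lit 1) (nat_lit 142) (nat_lit 120) (nat_lit 128)) (PT.lf (nat_lit 12008) (nat_lit 6) (nat_lit 158) (nat_lit 1) (nat_lit 143) (nat_lit 120) (nat_lit 127))) (PT.nd (nat_lit 39156) (PT.lf (nat_lit 10868) (nat_lit 6) (nat_lit 143) (nat_lit 1) (nat_lit 144) (nat_lit 120) (nat_lit 126)) (PT.nd (nat_lit 78) (PT.lf (nat_lit 10792) (nat_lit 6) (nat_lit 142) (nat_lit 3) (nat_lit 125) (nat_lit 121) (nat_lit 144)) (PT.lf (nat_lit 11932) (nat_lit 6) (nat_lit 157) (nat_lit 3) (nat_lit 126) (nat_lit 121) (nat_lit 143))))) (PT.nd (nat_lit 234) (PT.nd (nat_lit 78) (PT.lf (nat_lit 12996) (nat_lit 6) (nat_lit 171) (nat_lit 3) (nat_lit 127) (nat_lit 121) (nat_lit 142)) (PT.nd (nat_lit 78) (PT.lf (nat_lit 13984) (nat_lit 6) (nat_lit 184) (nat_lit 3) (nat_lit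 128) (nat_lit 121) (nat_lit 141)) (PT.lf (nat_lit 14896) (nat_lit 6) (nat_lit 196) (nat_lit 3) (nat_lit 129) (nat_lit 121) (nat_lit 140)))) (PT.nd (nat_lit 78) (PT.lf (nat_lit 15732) (nat_lit 6) (nat_lit 207) (nat_lit 3) (nat_lit 130) (nat_lit 121) (nat_lit 139)) (PT.nd (nat_lit 78) (PT.lf (nat_lit 15808) (nat_lit 6) (nat_lit 208) (nat_lit 3) (nat_lit 131) (nat_lit 121) (nat_lit 138)) (PT.lf (nat_lit 15884) (nat_lit 6) (nat_lit 209) (nat_lit 3) (nat_lit 132) (nat_lit 121) (nat_lit 137))))))))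
noncomputable def pc8 : PT := (PT.nd (nat_lit 40716) (PT.nd (nat_lit 858) (PT.nd (nat_lit 390) (PT.nd (nat_lit 156) (PT.nd (nat_lit 78) (PT.lf (nat_lit 15960) (nat_lit 6) (nat_lit 210) (nat_lit 3) (nat_lit 133) (nat_lit 121) (nat_lit 136)) (PT.lf (nat_lit 16036) (nat_lit 6) (nat_lit 211) (nat_lit 3) (nat_lit 134) (nat_lit 121) (nat_lit 135))) (PT.nd (nat_lit 78) (PT.lf (nat_lit 16036) (nat_lit 6) (nat_lit 211) (nat_lit 1) (nat_lit 135) (nat_lit 121) (nat_lit 134)) (PT.nd (nat_lit 78) (PT.lf (nat_lit 15960) (nat_lit 6) (nat_lit 210) (nat_lit 1) (nat_lit 136) (nat_lit 121) (nat_lit 133)) (PT.lf (nat_lit 15884) (nat_lit 6) (nat_lit 209) (nat_lit 1) (nat_lit 137) (nat_lit 121) (nat_lit 132))))) (PT.nd (nat_lit 234) (PT.nd (nat_lit 78) (PT.lf (nat_lit 15808) (nat_lit 6) (nat_lit 208) (nat_lit 1) (nat_lit 138) (nat_lit 121) (nat_lit 131)) (PT.nd (nat_lit 78) (PT.lf (nat_lit 15732) (nat_lit 6) (nat_lit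 207) (nat_lit 1) (nat_lit 139) (nat_lit 121) (nat_lit 130)) (PT.lf (nat_lit 14896) (nat_lit 6) (nat_lit 196) (nat_lit 1) (nat_lit 140) (nat_lit 121) (nat_lit 129)))) (PT.nd (nat_lit 78) (PT.lf (nat_lit 13984) (nat_lit 6) (nat_lit 184) (nat_lit 1) (nat_lit 141) (nat_lit 121) (nat_lit 128)) (PT.nd (nat_lit 78) (PT.lf (nat_lit 12996) (nat_lit 6) (nat_lit 171) (nat_lit 1) (nat_lit 142) (nat_lit 121) (nat_lit 127)) (PT.lf (nat_lit 11932) (nat_lit 6) (nat_lit 157) (nat_lit 1) (nat_lit 143) (nat_lit 121) (nat_lit 126)))))) (PT.nd (nat_lit 39390) (PT.nd (nat_lit 39156) (PT.nd (nat_lit 39078) (PT.lf (nat_lit 10792) (nat_lit 6) (nat_lit 142) (nat_lit 1) (nat_lit 144) (nat_lit 121) (nat_lit 125)) (PT.lf (nat_lit 10716) (nat_lit 6) (nat_lit 141) (nat_lit 3) (nat_lit 124) (nat_lit 122) (nat_lit 144))) (PT.nd (nat_lit 78) (PT.lf (nat_lit 11856) (nat_lit 6) (nat_lit 156) (nat_lit 3) (nat_lit 125) (nat_lit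 122) (nat_lit 143)) (PT.nd (nat_lit 78) (PT.lf (nat_lit 12920) (nat_lit 6) (nat_lit 170) (nat_lit 3) (nat_lit 126) (nat_lit 122) (nat_lit 142)) (PT.lf (nat_lit 13908) (nat_lit 6) (nat_lit 183) (nat_lit 3) (nat_lit 127) (nat_lit 122) (nat_lit 141))))) (PT.nd (nat_lit 234) (PT.nd (nat_lit 78) (PT.lf (nat_lit 14820) (nat_lit 6) (nat_lit 195) (nat_lit 3) (nat_lit 128) (nat_lit 122) (nat_lit 140)) (PT.nd (nat_lit 78) (PT.lf (nat_lit 15656) (nat_lit 6) (nat_lit 206) (nat_lit 3) (nat_lit 129) (nat_lit 122) (nat_lit 139)) (PT.lf (nat_lit 16416) (nat_lit 6) (nat_lit 216) (nat_lit 3) (nat_lit 130) (nat_lit 122) (nat_lit 138)))) (PT.nd (nat_lit 78) (PT.lf (nat_lit 16492) (nat_lit 6) (nat_lit 217) (nat_lit 3) (nat_lit 131) (nat_lit 122) (nat_lit 137)) (PT.nd (nat_lit 78) (PT.lf (nat_lit 16568) (nat_lit 6) (nat_lit 218) (nat_lit 3) (nat_lit 132) (nat_lit 122) (nat_lit 136)) (PT.lf (nat_lit 16644) (nat_lit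 6) (nat_lit 219) (nat_lit 3) (nat_lit 133) (nat_lit 122) (nat_lit 135))))))) (PT.nd (nat_lit 39780) (PT.nd (nat_lit 390) (PT.nd (nat_lit 156) (PT.nd (nat_lit 78) (PT.lf (nat_lit 16720) (nat_lit 3) (nat_lit 220) (nat_lit 1) (nat_lit 134) (nat_lit 122) (nat_lit 134)) (PT.lf (nat_lit 16644) (nat_lit 6) (nat_lit 219) (nat_lit 1) (nat_lit 135) (nat_lit 122) (nat_lit 133))) (PT.nd (nat_lit 78) (PT.lf (nat_lit 16568) (nat_lit 6) (nat_lit 218) (nat_lit 1) (nat_lit 136) (nat_lit 122) (nat_lit 132)) (PT.nd (nat_lit 78) (PT.lf (nat_lit 16492) (nat_lit 6) (nat_lit 217) (nat_lit 1) (nat_lit 137) (nat_lit 122) (nat_lit 131)) (PT.lf (nat_lit 16416) (nat_lit 6) (nat_lit 216) (nat_lit 1) (nat_lit 138) (nat_lit 122) (nat_lit 130))))) (PT.nd (nat_lit 234) (PT.nd (nat_lit 78) (PT.lf (nat_lit 15656) (nat_lit 6) (nat_lit 206) (nat_lit 1) (nat_lit 139) (nat_lit 122) (nat_lit 129)) (PT.nd (nat_lit 78) (PT.lf (nat_lit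 14820) (nat_lit 6) (nat_lit 195) (nat_lit 1) (nat_lit 140) (nat_lit 122) (nat_lit 128)) (PT.lf (nat_lit 13908) (nat_lit 6) (nat_lit 183) (nat_lit 1) (nat_lit 141) (nat_lit 122) (nat_lit 127)))) (PT.nd (nat_lit 78) (PT.lf (nat_lit 12920) (nat_lit 6) (nat_lit 170) (nat_lit 1) (nat_lit 142) (nat_lit 122) (nat_lit 126)) (PT.nd (nat_lit 78) (PT.lf (nat_lit 11856) (nat_lit 6) (nat_lit 156) (nat_lit 1) (nat_lit 143) (nat_lit 122) (nat_lit 125)) (PT.lf (nat_lit 10716) (nat_lit 6) (nat_lit 141) (nat_lit 1) (nat_lit 144) (nat_lit 122) (nat_lit 124)))))) (PT.nd (nat_lit 390) (PT.nd (nat_lit 156) (PT.nd (nat_lit 78) (PT.lf (nat_lit 10640) (nat_lit 3) (nat_lit 140) (nat_lit 3) (nat_lit 123) (nat_lit 123) (nat_lit 144)) (PT.lf (nat_lit 11780) (nat_lit 6) (nat_lit 155) (nat_lit 3) (nat_lit 124) (nat_lit 123) (nat_lit 143))) (PT.nd (nat_lit 78) (PT.lf (nat_lit 12844) (nat_lit 6) (nat_lit 169) (nat_lit 3) (nat_lit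 125) (nat_lit 123) (nat_lit 142)) (PT.nd (nat_lit 78) (PT.lf (nat_lit 13832) (nat_lit 6) (nat_lit 182) (nat_lit 3) (nat_lit 126) (nat_lit 123) (nat_lit 141)) (PT.lf (nat_lit 14744) (nat_lit 6) (nat_lit 194) (nat_lit 3) (nat_lit 127) (nat_lit 123) (nat_lit 140))))) (PT.nd (nat_lit 234) (PT.nd (nat_lit 78) (PT.lf (nat_lit 15580) (nat_lit 6) (nat_lit 205) (nat_lit 3) (nat_lit 128) (nat_lit 123) (nat_lit 139)) (PT.nd (nat_lit 78) (PT.lf (nat_lit 16340) (nat_lit 6) (nat_lit 215) (nat_lit 3) (nat_lit 129) (nat_lit 123) (nat_lit 138)) (PT.lf (nat_lit 17024) (nat_lit 6) (nat_lit 224) (nat_lit 3) (nat_lit 130) (nat_lit 123) (nat_lit 137)))) (PT.nd (nat_lit 78) (PT.lf (nat_lit 17100) (nat_lit 6) (nat_lit 225) (nat_lit 3) (nat_lit 131) (nat_lit 123) (nat_lit 136)) (PT.nd (nat_lit 78) (PT.lf (nat_lit 17176) (nat_lit 6) (nat_lit 226) (nat_lit 3) (nat_lit 132) (nat_lit 123) (nat_lit 135)) (PT.lf (nat_lit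 17252) (nat_lit 6) (nat_lit 227) (nat_lit 3) (nat_lit 133) (nat_lit 123) (nat_lit 134))))))))
noncomputable def pc9 : PT := (PT.nd (nat_lit 40560) (PT.nd (nat_lit 39702) (PT.nd (nat_lit 390) (PT.nd (nat_lit 156) (PT.nd (nat_lit 78) (PT.lf (nat_lit 17252) (nat_lit 6) (nat_lit 227) (nat_lit 1) (nat_lit 134) (nat_lit 123) (nat_lit 133)) (PT.lf (nat_lit 17176) (nat_lit 6) (nat_lit 226) (nat_lit 1) (nat_lit 135) (nat_lit 123) (nat_lit 132))) (PT.nd (nat_lit 78) (PT.lf (nat_lit 17100) (nat_lit 6) (nat_lit 225) (nat_lit 1) (nat_lit 136) (nat_lit 123) (nat_lit 131)) (PT.nd (nat_lit 78) (PT.lf (nat_lit 17024) (nat_lit 6) (nat_lit 224) (nat_lit 1) (nat_lit 137) (nat_lit 123) (nat_lit 130)) (PT.lf (nat_lit 16340) (nat_lit 6) (nat_lit 215) (nat_lit 1) (nat_lit 138) (nat_lit 123) (nat_lit 129))))) (PT.nd (nat_lit 234) (PT.nd (nat_lit 78) (PT.lf (nat_lit 15580) (nat_lit 6) (nat_lit 205) (nat_lit 1) (nat_lit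 139) (nat_lit 123) (nat_lit 128)) (PT.nd (nat_lit 78) (PT.lf (nat_lit 14744) (nat_lit 6) (nat_lit 194) (nat_lit 1) (nat_lit 140) (nat_lit 123) (nat_lit 127)) (PT.lf (nat_lit 13832) (nat_lit 6) (nat_lit 182) (nat_lit 1) (nat_lit 141) (nat_lit 123) (nat_lit 126)))) (PT.nd (nat_lit 78) (PT.lf (nat_lit 12844) (nat_lit 6) (nat_lit 169) (nat_lit 1) (nat_lit 142) (nat_lit 123) (nat_lit 125)) (PT.nd (nat_lit 78) (PT.lf (nat_lit 11780) (nat_lit 6) (nat_lit 155) (nat_lit 1) (nat_lit 143) (nat_lit 123) (nat_lit 124)) (PT.lf (nat_lit 10640) (nat_lit 3) (nat_lit 140) (nat_lit 0) (nat_lit 144) (nat_lit 123) (nat_lit 123)))))) (PT.nd (nat_lit 390) (PT.nd (nat_lit 156) (PT.nd (nat_lit 78) (PT.lf (nat_lit 10716) (nat_lit 6) (nat_lit 141) (nat_lit 5) (nat_lit 122) (nat_lit 124) (nat_lit 144)) (PT.lf (nat_lit 11780) (nat_lit 6) (nat_lit 155) (nat_lit 5) (nat_lit 123) (nat_lit 124) (nat_lit 143))) (PT.nd (nat_lit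 78) (PT.lf (nat_lit 12768) (nat_lit 3) (nat_lit 168) (nat_lit 3) (nat_lit 124) (nat_lit 124) (nat_lit 142)) (PT.nd (nat_lit 78) (PT.lf (nat_lit 13756) (nat_lit 6) (nat_lit 181) (nat_lit 3) (nat_lit 125) (nat_lit 124) (nat_lit 141)) (PT.lf (nat_lit 14668) (nat_lit 6) (nat_lit 193) (nat_lit 3) (nat_lit 126) (nat_lit 124) (nat_lit 140))))) (PT.nd (nat_lit 234) (PT.nd (nat_lit 78) (PT.lf (nat_lit 15504) (nat_lit 6) (nat_lit 204) (nat_lit 3) (nat_lit 127) (nat_lit 124) (nat_lit 139)) (PT.nd (nat_lit 78) (PT.lf (nat_lit 16264) (nat_lit 6) (nat_lit 214) (nat_lit 3) (nat_lit 128) (nat_lit 124) (nat_lit 138)) (PT.lf (nat_lit 16948) (nat_lit 6) (nat_lit 223) (nat_lit 3) (nat_lit 129) (nat_lit 124) (nat_lit 137)))) (PT.nd (nat_lit 78) (PT.lf (nat_lit 17556) (nat_lit 6) (nat_lit 231) (nat_lit 3) (nat_lit 130) (nat_lit 124) (nat_lit 136)) (PT.nd (nat_lit 78) (PT.lf (nat_lit 17632) (nat_lit 6) (nat_lit 232)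 (nat_lit 3) (nat_lit 131) (nat_lit 124) (nat_lit 135)) (PT.lf (nat_lit 17708) (nat_lit 6) (nat_lit 233) (nat_lit 3) (nat_lit 132) (nat_lit 124) (nat_lit 134))))))) (PT.nd (nat_lit 858) (PT.nd (nat_lit 390) (PT.nd (nat_lit 156) (PT.nd (nat_lit 78) (PT.lf (nat_lit 17784) (nat_lit 3) (nat_lit 234) (nat_lit 1) (nat_lit 133) (nat_lit 124) (nat_lit 133)) (PT.lf (nat_lit 17708) (nat_lit 6) (nat_lit 233) (nat_lit 1) (nat_lit 134) (nat_lit 124) (nat_lit 132))) (PT.nd (nat_lit 78) (PT.lf (nat_lit 17632) (nat_lit 6) (nat_lit 232) (nat_lit 1) (nat_lit 135) (nat_lit 124) (nat_lit 131)) (PT.nd (nat_lit 78) (PT.lf (nat_lit 17556) (nat_lit 6) (nat_lit 231) (nat_lit 1) (nat_lit 136) (nat_lit 124) (nat_lit 130)) (PT.lf (nat_lit 16948) (nat_lit 6) (nat_lit 223) (nat_lit 1) (nat_lit 137) (nat_lit 124) (nat_lit 129))))) (PT.nd (nat_lit 234) (PT.nd (nat_lit 78) (PT.lf (nat_lit 16264) (nat_lit 6) (nat_lit 214) (nat_lit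 1) (nat_lit 138) (nat_lit 124) (nat_lit 128)) (PT.nd (nat_lit 78) (PT.lf (nat_lit 15504) (nat_lit 6) (nat_lit 204) (nat_lit 1) (nat_lit 139) (nat_lit 124) (nat_lit 127)) (PT.lf (nat_lit 14668) (nat_lit 6) (nat_lit 193) (nat_lit 1) (nat_lit 140) (nat_lit 124) (nat_lit 126)))) (PT.nd (nat_lit 78) (PT.lf (nat_lit 13756) (nat_lit 6) (nat_lit 181) (nat_lit 1) (nat_lit 141) (nat_lit 124) (nat_lit 125)) (PT.nd (nat_lit 78) (PT.lf (nat_lit 12768) (nat_lit 3) (nat_lit 168) (nat_lit 0) (nat_lit 142) (nat_lit 124) (nat_lit 124)) (PT.lf (nat_lit 11780) (nat_lit 6) (nat_lit 155) (nat_lit 0) (nat_lit 143) (nat_lit 124) (nat_lit 123)))))) (PT.nd (nat_lit 39156) (PT.nd (nat_lit 38922) (PT.nd (nat_lit 38844) (PT.lf (nat_lit 10716) (nat_lit 6) (nat_lit 141) (nat_lit 0) (nat_lit 144) (nat_lit 124) (nat_lit 122)) (PT.lf (nat_lit 10792) (nat_lit 6) (nat_lit 142) (nat_lit 5) (nat_lit 121) (nat_lit 125) (nat_lit 144)))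 (PT.nd (nat_lit 78) (PT.lf (nat_lit 11856) (nat_lit 6) (nat_lit 156) (nat_lit 5) (nat_lit 122) (nat_lit 125) (nat_lit 143)) (PT.nd (nat_lit 78) (PT.lf (nat_lit 12844) (nat_lit 6) (nat_lit 169) (nat_lit 5) (nat_lit 123) (nat_lit 125) (nat_lit 142)) (PT.lf (nat_lit 13756) (nat_lit 6) (nat_lit 181) (nat_lit 5) (nat_lit 124) (nat_lit 125) (nat_lit 141))))) (PT.nd (nat_lit 234) (PT.nd (nat_lit 78) (PT.lf (nat_lit 14592) (nat_lit 3) (nat_lit 192) (nat_lit 3) (nat_lit 125) (nat_lit 125) (nat_lit 140)) (PT.nd (nat_lit 78) (PT.lf (nat_lit 15428) (nat_lit 6) (nat_lit 203) (nat_lit 3) (nat_lit 126) (nat_lit 125) (nat_lit 139)) (PT.lf (nat_lit 16188) (nat_lit 6) (nat_lit 213) (nat_lit 3) (nat_lit 127) (nat_lit 125) (nat_lit 138)))) (PT.nd (nat_lit 78) (PT.lf (nat_lit 16872) (nat_lit 6) (nat_lit 222) (nat_lit 3) (nat_lit 128) (nat_lit 125) (nat_lit 137)) (PT.nd (nat_lit 78) (PT.lf (nat_lit 17480) (nat_lit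 6) (nat_lit 230) (nat_lit 3) (nat_lit 129) (nat_lit 125) (nat_lit 136)) (PT.lf (nat_lit 18012) (nat_lit 6) (nat_lit 237) (nat_lit 3) (nat_lit 130) (nat_lit 125) (nat_lit 135))))))))
noncomputable def pc10 : PT := (PT.nd (nat_lit 40404) (PT.nd (nat_lit 858) (PT.nd (nat_lit 390) (PT.nd (nat_lit 156) (PT.nd (nat_lit 78) (PT.lf (nat_lit 18088) (nat_lit 6) (nat_lit 238) (nat_lit 3) (nat_lit 131) (nat_lit 125) (nat_lit 134)) (PT.lf (nat_lit 18164) (nat_lit 6) (nat_lit 239) (nat_lit 3) (nat_lit 132) (nat_lit 125) (nat_lit 133))) (PT.nd (nat_lit 78) (PT.lf (nat_lit 18164) (nat_lit 6) (nat_lit 239) (nat_lit 1) (nat_lit 133) (nat_lit 125) (nat_lit 132)) (PT.nd (nat_lit 78) (PT.lf (nat_lit 18088) (nat_lit 6) (nat_lit 238) (nat_lit 1) (nat_lit 134) (nat_lit 125) (nat_lit 131)) (PT.lf (nat_lit 18012) (nat_lit 6) (nat_lit 237) (nat_lit 1) (nat_lit 135) (nat_lit 125) (nat_lit 130))))) (PT.nd (nat_lit 234)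 (PT.nd (nat_lit 78) (PT.lf (nat_lit 17480) (nat_lit 6) (nat_lit 230) (nat_lit 1) (nat_lit 136) (nat_lit 125) (nat_lit 129)) (PT.nd (nat_lit 78) (PT.lf (nat_lit 16872) (nat_lit 6) (nat_lit 222) (nat_lit 1) (nat_lit 137) (nat_lit 125) (nat_lit 128)) (PT.lf (nat_lit 16188) (nat_lit 6) (nat_lit 213) (nat_lit 1) (nat_lit 138) (nat_lit 125) (nat_lit 127)))) (PT.nd (nat_lit 78) (PT.lf (nat_lit 15428) (nat_lit 6) (nat_lit 203) (nat_lit 1) (nat_lit 139) (nat_lit 125) (nat_lit 126)) (PT.nd (nat_lit 78) (PT.lf (nat_lit 14592) (nat_lit 3) (nat_lit 192) (nat_lit 0) (nat_lit 140) (nat_lit 125) (nat_lit 125)) (PT.lf (nat_lit 13756) (nat_lit 6) (nat_lit 181) (nat_lit 0) (nat_lit 141) (nat_lit 125) (nat_lit 124)))))) (PT.nd (nat_lit 39078) (PT.nd (nat_lit 156) (PT.nd (nat_lit 78) (PT.lf (nat_lit 12844) (nat_lit 6) (nat_lit 169) (nat_lit 0) (nat_lit 142) (nat_lit 125) (nat_lit 123)) (PT.lf (nat_lit 11856) (nat_lit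 6) (nat_lit 156) (nat_lit 0) (nat_lit 143) (nat_lit 125) (nat_lit 122))) (PT.nd (nat_lit 38766) (PT.lf (nat_lit 10792) (nat_lit 6) (nat_lit 142) (nat_lit 0) (nat_lit 144) (nat_lit 125) (nat_lit 121)) (PT.nd (nat_lit 78) (PT.lf (nat_lit 10868) (nat_lit 6) (nat_lit 143) (nat_lit 5) (nat_lit 120) (nat_lit 126) (nat_lit 144)) (PT.lf (nat_lit 11932) (nat_lit 6) (nat_lit 157) (nat_lit 5) (nat_lit 121) (nat_lit 126) (nat_lit 143))))) (PT.nd (nat_lit 234) (PT.nd (nat_lit 78) (PT.lf (nat_lit 12920) (nat_lit 6) (nat_lit 170) (nat_lit 5) (nat_lit 122) (nat_lit 126) (nat_lit 142)) (PT.nd (nat_lit 78) (PT.lf (nat_lit 13832) (nat_lit 6) (nat_lit 182) (nat_lit 5) (nat_lit 123) (nat_lit 126) (nat_lit 141)) (PT.lf (nat_lit 14668) (nat_lit 6) (nat_lit 193) (nat_lit 5) (nat_lit 124) (nat_lit 126) (nat_lit 140)))) (PT.nd (nat_lit 78) (PT.lf (nat_lit 15428) (nat_lit 6) (nat_lit 203) (nat_lit 5) (nat_lit 125) (nat_lit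 126) (nat_lit 139)) (PT.nd (nat_lit 78) (PT.lf (nat_lit 16112) (nat_lit 3) (nat_lit 212) (nat_lit 3) (nat_lit 126) (nat_lit 126) (nat_lit 138)) (PT.lf (nat_lit 16796) (nat_lit 6) (nat_lit 221) (nat_lit 3) (nat_lit 127) (nat_lit 126) (nat_lit 137))))))) (PT.nd (nat_lit 858) (PT.nd (nat_lit 390) (PT.nd (nat_lit 156) (PT.nd (nat_lit 78) (PT.lf (nat_lit 17404) (nat_lit 6) (nat_lit 229) (nat_lit 3) (nat_lit 128) (nat_lit 126) (nat_lit 136)) (PT.lf (nat_lit 17936) (nat_lit 6) (nat_lit 236) (nat_lit 3) (nat_lit 129) (nat_lit 126) (nat_lit 135))) (PT.nd (nat_lit 78) (PT.lf (nat_lit 18392) (nat_lit 6) (nat_lit 242) (nat_lit 3) (nat_lit 130) (nat_lit 126) (nat_lit 134)) (PT.nd (nat_lit 78) (PT.lf (nat_lit 18468) (nat_lit 6) (nat_lit 243) (nat_lit 3) (nat_lit 131) (nat_lit 126) (nat_lit 133)) (PT.lf (nat_lit 18544) (nat_lit 3) (nat_lit 244) (nat_lit 1) (nat_lit 132) (nat_lit 126) (nat_lit 132))))) (PT.nd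 (nat_lit 234) (PT.nd (nat_lit 78) (PT.lf (nat_lit 18468) (nat_lit 6) (nat_lit 243) (nat_lit 1) (nat_lit 133) (nat_lit 126) (nat_lit 131)) (PT.nd (nat_lit 78) (PT.lf (nat_lit 18392) (nat_lit 6) (nat_lit 242) (nat_lit 1) (nat_lit 134) (nat_lit 126) (nat_lit 130)) (PT.lf (nat_lit 17936) (nat_lit 6) (nat_lit 236) (nat_lit 1) (nat_lit 135) (nat_lit 126) (nat_lit 129)))) (PT.nd (nat_lit 78) (PT.lf (nat_lit 17404) (nat_lit 6) (nat_lit 229) (nat_lit 1) (nat_lit 136) (nat_lit 126) (nat_lit 128)) (PT.nd (nat_lit 78) (PT.lf (nat_lit 16796) (nat_lit 6) (nat_lit 221) (nat_lit 1) (nat_lit 137) (nat_lit 126) (nat_lit 127)) (PT.lf (nat_lit 16112) (nat_lit 3) (nat_lit 212) (nat_lit 0) (nat_lit 138) (nat_lit 126) (nat_lit 126)))))) (PT.nd (nat_lit 390) (PT.nd (nat_lit 156) (PT.nd (nat_lit 78) (PT.lf (nat_lit 15428) (nat_lit 6) (nat_lit 203) (nat_lit 0) (nat_lit 139) (nat_lit 126) (nat_lit 125)) (PT.lf (nat_lit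 14668) (nat_lit 6) (nat_lit 193) (nat_lit 0) (nat_lit 140) (nat_lit 126) (nat_lit 124))) (PT.nd (nat_lit 78) (PT.lf (nat_lit 13832) (nat_lit 6) (nat_lit 182) (nat_lit 0) (nat_lit 141) (nat_lit 126) (nat_lit 123)) (PT.nd (nat_lit 78) (PT.lf (nat_lit 12920) (nat_lit 6) (nat_lit 170) (nat_lit 0) (nat_lit 142) (nat_lit 126) (nat_lit 122)) (PT.lf (nat_lit 11932) (nat_lit 6) (nat_lit 157) (nat_lit 0) (nat_lit 143) (nat_lit 126) (nat_lit 121))))) (PT.nd (nat_lit 38844) (PT.nd (nat_lit 38688) (PT.lf (nat_lit 10868) (nat_lit 6) (nat_lit 143) (nat_lit 0) (nat_lit 144) (nat_lit 126) (nat_lit 120)) (PT.nd (nat_lit 78) (PT.lf (nat_lit 10944) (nat_lit 6) (nat_lit 144) (nat_lit 5) (nat_lit 119) (nat_lit 127) (nat_lit 144)) (PT.lf (nat_lit 12008) (nat_lit 6) (nat_lit 158) (nat_lit 5) (nat_lit 120) (nat_lit 127) (nat_lit 143)))) (PT.nd (nat_lit 78) (PT.lf (nat_lit 12996) (nat_lit 6) (nat_lit 171) (nat_lit 5)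 (nat_lit 121) (nat_lit 127) (nat_lit 142)) (PT.nd (nat_lit 78) (PT.lf (nat_lit 13908) (nat_lit 6) (nat_lit 183) (nat_lit 5) (nat_lit 122) (nat_lit 127) (nat_lit 141)) (PT.lf (nat_lit 14744) (nat_lit 6) (nat_lit 194) (nat_lit 5) (nat_lit 123) (nat_lit 127) (nat_lit 140))))))))
noncomputable def pc11 : PT := (PT.nd (nat_lit 40248) (PT.nd (nat_lit 858) (PT.nd (nat_lit 390) (PT.nd (nat_lit 156) (PT.nd (nat_lit 78) (PT.lf (nat_lit 15504) (nat_lit 6) (nat_lit 204) (nat_lit 5) (nat_lit 124) (nat_lit 127) (nat_lit 139)) (PT.lf (nat_lit 16188) (nat_lit 6) (nat_lit 213) (nat_lit 5) (nat_lit 125) (nat_lit 127) (nat_lit 138))) (PT.nd (nat_lit 78) (PT.lf (nat_lit 16796) (nat_lit 6) (nat_lit 221) (nat_lit 5) (nat_lit 126) (nat_lit 127) (nat_lit 137)) (PT.nd (nat_lit 78) (PT.lf (nat_lit 17328) (nat_lit 3) (nat_lit 228) (nat_lit 3) (nat_lit 127) (nat_lit 127) (nat_lit 136)) (PT.lf (nat_lit 17860) (nat_lit 6)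 (nat_lit 235) (nat_lit 3) (nat_lit 128) (nat_lit 127) (nat_lit 135))))) (PT.nd (nat_lit 234) (PT.nd (nat_lit 78) (PT.lf (nat_lit 18316) (nat_lit 6) (nat_lit 241) (nat_lit 3) (nat_lit 129) (nat_lit 127) (nat_lit 134)) (PT.nd (nat_lit 78) (PT.lf (nat_lit 18696) (nat_lit 6) (nat_lit 246) (nat_lit 3) (nat_lit 130) (nat_lit 127) (nat_lit 133)) (PT.lf (nat_lit 18772) (nat_lit 6) (nat_lit 247) (nat_lit 3) (nat_lit 131) (nat_lit 127) (nat_lit 132)))) (PT.nd (nat_lit 78) (PT.lf (nat_lit 18772) (nat_lit 6) (nat_lit 247) (nat_lit 1) (nat_lit 132) (nat_lit 127) (nat_lit 131)) (PT.nd (nat_lit 78) (PT.lf (nat_lit 18696) (nat_lit 6) (nat_lit 246) (nat_lit 1) (nat_lit 133) (nat_lit 127) (nat_lit 130)) (PT.lf (nat_lit 18316) (nat_lit 6) (nat_lit 241) (nat_lit 1) (nat_lit 134) (nat_lit 127) (nat_lit 129)))))) (PT.nd (nat_lit 390) (PT.nd (nat_lit 156) (PT.nd (nat_lit 78) (PT.lf (nat_lit 17860) (nat_lit 6) (nat_lit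 235) (nat_lit 1) (nat_lit 135) (nat_lit 127) (nat_lit 128)) (PT.lf (nat_lit 17328) (nat_lit 3) (nat_lit 228) (nat_lit 0) (nat_lit 136) (nat_lit 127) (nat_lit 127))) (PT.nd (nat_lit 78) (PT.lf (nat_lit 16796) (nat_lit 6) (nat_lit 221) (nat_lit 0) (nat_lit 137) (nat_lit 127) (nat_lit 126)) (PT.nd (nat_lit 78) (PT.lf (nat_lit 16188) (nat_lit 6) (nat_lit 213) (nat_lit 0) (nat_lit 138) (nat_lit 127) (nat_lit 125)) (PT.lf (nat_lit 15504) (nat_lit 6) (nat_lit 204) (nat_lit 0) (nat_lit 139) (nat_lit 127) (nat_lit 124))))) (PT.nd (nat_lit 234) (PT.nd (nat_lit 78) (PT.lf (nat_lit 14744) (nat_lit 6) (nat_lit 194) (nat_lit 0) (nat_lit 140) (nat_lit 127) (nat_lit 123)) (PT.nd (nat_lit 78) (PT.lf (nat_lit 13908) (nat_lit 6) (nat_lit 183) (nat_lit 0) (nat_lit 141) (nat_lit 127) (nat_lit 122)) (PT.lf (nat_lit 12996) (nat_lit 6) (nat_lit 171) (nat_lit 0) (nat_lit 142) (nat_lit 127) (nat_lit 121)))) (PT.nd (nat_lit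 78) (PT.lf (nat_lit 12008) (nat_lit 6) (nat_lit 158) (nat_lit 0) (nat_lit 143) (nat_lit 127) (nat_lit 120)) (PT.nd (nat_lit 38610) (PT.lf (nat_lit 10944) (nat_lit 6) (nat_lit 144) (nat_lit 0) (nat_lit 144) (nat_lit 127) (nat_lit 119)) (PT.lf (nat_lit 11020) (nat_lit 6) (nat_lit 145) (nat_lit 5) (nat_lit 118) (nat_lit 128) (nat_lit 144))))))) (PT.nd (nat_lit 858) (PT.nd (nat_lit 390) (PT.nd (nat_lit 156) (PT.nd (nat_lit 78) (PT.lf (nat_lit 12084) (nat_lit 6) (nat_lit 159) (nat_lit 5) (nat_lit 119) (nat_lit 128) (nat_lit 143)) (PT.lf (nat_lit 13072) (nat_lit 6) (nat_lit 172) (nat_lit 5) (nat_lit 120) (nat_lit 128) (nat_lit 142))) (PT.nd (nat_lit 78) (PT.lf (nat_lit 13984) (nat_lit 6) (nat_lit 184) (nat_lit 5) (nat_lit 121) (nat_lit 128) (nat_lit 141)) (PT.nd (nat_lit 78) (PT.lf (nat_lit 14820) (nat_lit 6) (nat_lit 195) (nat_lit 5) (nat_lit 122) (nat_lit 128) (nat_lit 140)) (PT.lf (nat_lit 15580)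 (nat_lit 6) (nat_lit 205) (nat_lit 5) (nat_lit 123) (nat_lit 128) (nat_lit 139))))) (PT.nd (nat_lit 234) (PT.nd (nat_lit 78) (PT.lf (nat_lit 16264) (nat_lit 6) (nat_lit 214) (nat_lit 5) (nat_lit 124) (nat_lit 128) (nat_lit 138)) (PT.nd (nat_lit 78) (PT.lf (nat_lit 16872) (nat_lit 6) (nat_lit 222) (nat_lit 5) (nat_lit 125) (nat_lit 128) (nat_lit 137)) (PT.lf (nat_lit 17404) (nat_lit 6) (nat_lit 229) (nat_lit 5) (nat_lit 126) (nat_lit 128) (nat_lit 136)))) (PT.nd (nat_lit 78) (PT.lf (nat_lit 17860) (nat_lit 6) (nat_lit 235) (nat_lit 5) (nat_lit 127) (nat_lit 128) (nat_lit 135)) (PT.nd (nat_lit 78) (PT.lf (nat_lit 18240) (nat_lit 3) (nat_lit 240) (nat_lit 3) (nat_lit 128) (nat_lit 128) (nat_lit 134)) (PT.lf (nat_lit 18620) (nat_lit 6) (nat_lit 245) (nat_lit 3) (nat_lit 129) (nat_lit 128) (nat_lit 133)))))) (PT.nd (nat_lit 390) (PT.nd (nat_lit 156) (PT.nd (nat_lit 78) (PT.lf (nat_lit 18924) (nat_lit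 6) (nat_lit 249) (nat_lit 3) (nat_lit 130) (nat_lit 128) (nat_lit 132)) (PT.lf (nat_lit 19000) (nat_lit 3) (nat_lit 250) (nat_lit 1) (nat_lit 131) (nat_lit 128) (nat_lit 131))) (PT.nd (nat_lit 78) (PT.lf (nat_lit 18924) (nat_lit 6) (nat_lit 249) (nat_lit 1) (nat_lit 132) (nat_lit 128) (nat_lit 130)) (PT.nd (nat_lit 78) (PT.lf (nat_lit 18620) (nat_lit 6) (nat_lit 245) (nat_lit 1) (nat_lit 133) (nat_lit 128) (nat_lit 129)) (PT.lf (nat_lit 18240) (nat_lit 3) (nat_lit 240) (nat_lit 0) (nat_lit 134) (nat_lit 128) (nat_lit 128))))) (PT.nd (nat_lit 234) (PT.nd (nat_lit 78) (PT.lf (nat_lit 17860) (nat_lit 6) (nat_lit 235) (nat_lit 0) (nat_lit 135) (nat_lit 128) (nat_lit 127)) (PT.nd (nat_lit 78) (PT.lf (nat_lit 17404) (nat_lit 6) (nat_lit 229) (nat_lit 0) (nat_lit 136) (nat_lit 128) (nat_lit 126)) (PT.lf (nat_lit 16872) (nat_lit 6) (nat_lit 222) (nat_lit 0) (nat_lit 137) (nat_lit 128) (nat_lit 125))))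 (PT.nd (nat_lit 78) (PT.lf (nat_lit 16264) (nat_lit 6) (nat_lit 214) (nat_lit 0) (nat_lit 138) (nat_lit 128) (nat_lit 124)) (PT.nd (nat_lit 78) (PT.lf (nat_lit 15580) (nat_lit 6) (nat_lit 205) (nat_lit 0) (nat_lit 139) (nat_lit 128) (nat_lit 123)) (PT.lf (nat_lit 14820) (nat_lit 6) (nat_lit 195) (nat_lit 0) (nat_lit 140) (nat_lit 128) (nat_lit 122))))))))
noncomputable def pc12 : PT := (PT.nd (nat_lit 40170) (PT.nd (nat_lit 39312) (PT.nd (nat_lit 38844) (PT.nd (nat_lit 156) (PT.nd (nat_lit 78) (PT.lf (nat_lit 13984) (nat_lit 6) (nat_lit 184) (nat_lit 0) (nat_lit 141) (nat_lit 128) (nat_lit 121)) (PT.lf (nat_lit 13072) (nat_lit 6) (nat_lit 172) (nat_lit 0) (nat_lit 142) (nat_lit 128) (nat_lit 120))) (PT.nd (nat_lit 78) (PT.lf (nat_lit 12084) (nat_lit 6) (nat_lit 159) (nat_lit 0) (nat_lit 143) (nat_lit 128) (nat_lit 119)) (PT.nd (nat_lit 38532) (PT.lf (nat_lit 11020) (nat_lit 6) (nat_lit 145)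 (nat_lit 0) (nat_lit 144) (nat_lit 128) (nat_lit 118)) (PT.lf (nat_lit 11096) (nat_lit 6) (nat_lit 146) (nat_lit 5) (nat_lit 117) (nat_lit 129) (nat_lit 144))))) (PT.nd (nat_lit 234) (PT.nd (nat_lit 78) (PT.lf (nat_lit 12160) (nat_lit 6) (nat_lit 160) (nat_lit 5) (nat_lit 118) (nat_lit 129) (nat_lit 143)) (PT.nd (nat_lit 78) (PT.lf (nat_lit 13148) (nat_lit 6) (nat_lit 173) (nat_lit 5) (nat_lit 119) (nat_lit 129) (nat_lit 142)) (PT.lf (nat_lit 14060) (nat_lit 6) (nat_lit 185) (nat_lit 5) (nat_lit 120) (nat_lit 129) (nat_lit 141)))) (PT.nd (nat_lit 78) (PT.lf (nat_lit 14896) (nat_lit 6) (nat_lit 196) (nat_lit 5) (nat_lit 121) (nat_lit 129) (nat_lit 140)) (PT.nd (nat_lit 78) (PT.lf (nat_lit 15656) (nat_lit 6) (nat_lit 206) (nat_lit 5) (nat_lit 122) (nat_lit 129) (nat_lit 139)) (PT.lf (nat_lit 16340) (nat_lit 6) (nat_lit 215) (nat_lit 5) (nat_lit 123) (nat_lit 129) (nat_lit 138)))))) (PT.nd (nat_lit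 390) (PT.nd (nat_lit 156) (PT.nd (nat_lit 78) (PT.lf (nat_lit 16948) (nat_lit 6) (nat_lit 223) (nat_lit 5) (nat_lit 124) (nat_lit 129) (nat_lit 137)) (PT.lf (nat_lit 17480) (nat_lit 6) (nat_lit 230) (nat_lit 5) (nat_lit 125) (nat_lit 129) (nat_lit 136))) (PT.nd (nat_lit 78) (PT.lf (nat_lit 17936) (nat_lit 6) (nat_lit 236) (nat_lit 5) (nat_lit 126) (nat_lit 129) (nat_lit 135)) (PT.nd (nat_lit 78) (PT.lf (nat_lit 18316) (nat_lit 6) (nat_lit 241) (nat_lit 5) (nat_lit 127) (nat_lit 129) (nat_lit 134)) (PT.lf (nat_lit 18620) (nat_lit 6) (nat_lit 245) (nat_lit 5) (nat_lit 128) (nat_lit 129) (nat_lit 133))))) (PT.nd (nat_lit 234) (PT.nd (nat_lit 78) (PT.lf (nat_lit 18848) (nat_lit 3) (nat_lit 248) (nat_lit 3) (nat_lit 129) (nat_lit 129) (nat_lit 132)) (PT.nd (nat_lit 78) (PT.lf (nat_lit 19076) (nat_lit 6) (nat_lit 251) (nat_lit 3) (nat_lit 130) (nat_lit 129) (nat_lit 131)) (PT.lf (nat_lit 19076) (nat_lit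 6) (nat_lit 251) (nat_lit 1) (nat_lit 131) (nat_lit 129) (nat_lit 130)))) (PT.nd (nat_lit 78) (PT.lf (nat_lit 18848) (nat_lit 3) (nat_lit 248) (nat_lit 0) (nat_lit 132) (nat_lit 129) (nat_lit 129)) (PT.nd (nat_lit 78) (PT.lf (nat_lit 18620) (nat_lit 6) (nat_lit 245) (nat_lit 0) (nat_lit 133) (nat_lit 129) (nat_lit 128)) (PT.lf (nat_lit 18316) (nat_lit 6) (nat_lit 241) (nat_lit 0) (nat_lit 134) (nat_lit 129) (nat_lit 127))))))) (PT.nd (nat_lit 39156) (PT.nd (nat_lit 390) (PT.nd (nat_lit 156) (PT.nd (nat_lit 78) (PT.lf (nat_lit 17936) (nat_lit 6) (nat_lit 236) (nat_lit 0) (nat_lit 135) (nat_lit 129) (nat_lit 126)) (PT.lf (nat_lit 17480) (nat_lit 6) (nat_lit 230) (nat_lit 0) (nat_lit 136) (nat_lit 129) (nat_lit 125))) (PT.nd (nat_lit 78) (PT.lf (nat_lit 16948) (nat_lit 6) (nat_lit 223) (nat_lit 0) (nat_lit 137) (nat_lit 129) (nat_lit 124)) (PT.nd (nat_lit 78) (PT.lf (nat_lit 16340) (nat_lit 6)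 (nat_lit 215) (nat_lit 0) (nat_lit 138) (nat_lit 129) (nat_lit 123)) (PT.lf (nat_lit 15656) (nat_lit 6) (nat_lit 206) (nat_lit 0) (nat_lit 139) (nat_lit 129) (nat_lit 122))))) (PT.nd (nat_lit 234) (PT.nd (nat_lit 78) (PT.lf (nat_lit 14896) (nat_lit 6) (nat_lit 196) (nat_lit 0) (nat_lit 140) (nat_lit 129) (nat_lit 121)) (PT.nd (nat_lit 78) (PT.lf (nat_lit 14060) (nat_lit 6) (nat_lit 185) (nat_lit 0) (nat_lit 141) (nat_lit 129) (nat_lit 120)) (PT.lf (nat_lit 13148) (nat_lit 6) (nat_lit 173) (nat_lit 0) (nat_lit 142) (nat_lit 129) (nat_lit 119)))) (PT.nd (nat_lit 78) (PT.lf (nat_lit 12160) (nat_lit 6) (nat_lit 160) (nat_lit 0) (nat_lit 143) (nat_lit 129) (nat_lit 118)) (PT.nd (nat_lit 38376) (PT.lf (nat_lit 11096) (nat_lit 6) (nat_lit 146) (nat_lit 0) (nat_lit 144) (nat_lit 129) (nat_lit 117)) (PT.lf (nat_lit 10032) (nat_lit 6) (nat_lit 132) (nat_lit 5) (nat_lit 115) (nat_lit 130) (nat_lit 145))))))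 (PT.nd (nat_lit 390) (PT.nd (nat_lit 156) (PT.nd (nat_lit 78) (PT.lf (nat_lit 11172) (nat_lit 6) (nat_lit 147) (nat_lit 5) (nat_lit 116) (nat_lit 130) (nat_lit 144)) (PT.lf (nat_lit 12236) (nat_lit 6) (nat_lit 161) (nat_lit 5) (nat_lit 117) (nat_lit 130) (nat_lit 143))) (PT.nd (nat_lit 78) (PT.lf (nat_lit 13224) (nat_lit 6) (nat_lit 174) (nat_lit 5) (nat_lit 118) (nat_lit 130) (nat_lit 142)) (PT.nd (nat_lit 78) (PT.lf (nat_lit 14136) (nat_lit 6) (nat_lit 186) (nat_lit 5) (nat_lit 119) (nat_lit 130) (nat_lit 141)) (PT.lf (nat_lit 14972) (nat_lit 6) (nat_lit 197) (nat_lit 5) (nat_lit 120) (nat_lit 130) (nat_lit 140))))) (PT.nd (nat_lit 234) (PT.nd (nat_lit 78) (PT.lf (nat_lit 15732) (nat_lit 6) (nat_lit 207) (nat_lit 5) (nat_lit 121) (nat_lit 130) (nat_lit 139)) (PT.nd (nat_lit 78) (PT.lf (nat_lit 16416) (nat_lit 6) (nat_lit 216) (nat_lit 5) (nat_lit 122) (nat_lit 130) (nat_lit 138)) (PT.lf (nat_lit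 17024) (nat_lit 6) (nat_lit 224) (nat_lit 5) (nat_lit 123) (nat_lit 130) (nat_lit 137)))) (PT.nd (nat_lit 78) (PT.lf (nat_lit 17556) (nat_lit 6) (nat_lit 231) (nat_lit 5) (nat_lit 124) (nat_lit 130) (nat_lit 136)) (PT.nd (nat_lit 78) (PT.lf (nat_lit 18012) (nat_lit 6) (nat_lit 237) (nat_lit 5) (nat_lit 125) (nat_lit 130) (nat_lit 135)) (PT.lf (nat_lit 18392) (nat_lit 6) (nat_lit 242) (nat_lit 5) (nat_lit 126) (nat_lit 130) (nat_lit 134))))))))
noncomputable def pc13 : PT := (PT.nd (nat_lit 39858) (PT.nd (nat_lit 858) (PT.nd (nat_lit 390) (PT.nd (nat_lit 156) (PT.nd (nat_lit 78) (PT.lf (nat_lit 18696) (nat_lit 6) (nat_lit 246) (nat_lit 5) (nat_lit 127) (nat_lit 130) (nat_lit 133)) (PT.lf (nat_lit 18924) (nat_lit 6) (nat_lit 249) (nat_lit 5) (nat_lit 128) (nat_lit 130) (nat_lit 132))) (PT.nd (nat_lit 78) (PT.lf (nat_lit 19076) (nat_lit 6) (nat_lit 251) (nat_lit 5) (nat_lit 129) (nat_lit 130) (nat_lit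 131)) (PT.nd (nat_lit 78) (PT.lf (nat_lit 19152) (nat_lit 1) (nat_lit 252) (nat_lit 0) (nat_lit 130) (nat_lit 130) (nat_lit 130)) (PT.lf (nat_lit 19076) (nat_lit 6) (nat_lit 251) (nat_lit 0) (nat_lit 131) (nat_lit 130) (nat_lit 129))))) (PT.nd (nat_lit 234) (PT.nd (nat_lit 78) (PT.lf (nat_lit 18924) (nat_lit 6) (nat_lit 249) (nat_lit 0) (nat_lit 132) (nat_lit 130) (nat_lit 128)) (PT.nd (nat_lit 78) (PT.lf (nat_lit 18696) (nat_lit 6) (nat_lit 246) (nat_lit 0) (nat_lit 133) (nat_lit 130) (nat_lit 127)) (PT.lf (nat_lit 18392) (nat_lit 6) (nat_lit 242) (nat_lit 0) (nat_lit 134) (nat_lit 130) (nat_lit 126)))) (PT.nd (nat_lit 78) (PT.lf (nat_lit 18012) (nat_lit 6) (nat_lit 237) (nat_lit 0) (nat_lit 135) (nat_lit 130) (nat_lit 125)) (PT.nd (nat_lit 78) (PT.lf (nat_lit 17556) (nat_lit 6) (nat_lit 231) (nat_lit 0) (nat_lit 136) (nat_lit 130) (nat_lit 124)) (PT.lf (nat_lit 17024) (nat_lit 6) (nat_lit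 224) (nat_lit 0) (nat_lit 137) (nat_lit 130) (nat_lit 123)))))) (PT.nd (nat_lit 390) (PT.nd (nat_lit 156) (PT.nd (nat_lit 78) (PT.lf (nat_lit 16416) (nat_lit 6) (nat_lit 216) (nat_lit 0) (nat_lit 138) (nat_lit 130) (nat_lit 122)) (PT.lf (nat_lit 15732) (nat_lit 6) (nat_lit 207) (nat_lit 0) (nat_lit 139) (nat_lit 130) (nat_lit 121))) (PT.nd (nat_lit 78) (PT.lf (nat_lit 14972) (nat_lit 6) (nat_lit 197) (nat_lit 0) (nat_lit 140) (nat_lit 130) (nat_lit 120)) (PT.nd (nat_lit 78) (PT.lf (nat_lit 14136) (nat_lit 6) (nat_lit 186) (nat_lit 0) (nat_lit 141) (nat_lit 130) (nat_lit 119)) (PT.lf (nat_lit 13224) (nat_lit 6) (nat_lit 174) (nat_lit 0) (nat_lit 142) (nat_lit 130) (nat_lit 118))))) (PT.nd (nat_lit 38376) (PT.nd (nat_lit 78) (PT.lf (nat_lit 12236) (nat_lit 6) (nat_lit 161) (nat_lit 0) (nat_lit 143) (nat_lit 130) (nat_lit 117)) (PT.nd (nat_lit 78) (PT.lf (nat_lit 11172) (nat_lit 6) (nat_lit 147)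 (nat_lit 0) (nat_lit 144) (nat_lit 130) (nat_lit 116)) (PT.lf (nat_lit 10032) (nat_lit 6) (nat_lit 132) (nat_lit 0) (nat_lit 145) (nat_lit 130) (nat_lit 115)))) (PT.nd (nat_lit 78) (PT.lf (nat_lit 9424) (nat_lit 6) (nat_lit 124) (nat_lit 5) (nat_lit 114) (nat_lit 131) (nat_lit 145)) (PT.nd (nat_lit 78) (PT.lf (nat_lit 10108) (nat_lit 6) (nat_lit 133) (nat_lit 5) (nat_lit 115) (nat_lit 131) (nat_lit 144)) (PT.lf (nat_lit 11248) (nat_lit 6) (nat_lit 148) (nat_lit 5) (nat_lit 116) (nat_lit 131) (nat_lit 143))))))) (PT.nd (nat_lit 858) (PT.nd (nat_lit 390) (PT.nd (nat_lit 156) (PT.nd (nat_lit 78) (PT.lf (nat_lit 12312) (nat_lit 6) (nat_lit 162) (nat_lit 5) (nat_lit 117) (nat_lit 131) (nat_lit 142)) (PT.lf (nat_lit 13300) (nat_lit 6) (nat_lit 175) (nat_lit 5) (nat_lit 118) (nat_lit 131) (nat_lit 141))) (PT.nd (nat_lit 78) (PT.lf (nat_lit 14212) (nat_lit 6) (nat_lit 187) (nat_lit 5) (nat_lit 119)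 (nat_lit 131) (nat_lit 140)) (PT.nd (nat_lit 78) (PT.lf (nat_lit 15048) (nat_lit 6) (nat_lit 198) (nat_lit 5) (nat_lit 120) (nat_lit 131) (nat_lit 139)) (PT.lf (nat_lit 15808) (nat_lit 6) (nat_lit 208) (nat_lit 5) (nat_lit 121) (nat_lit 131) (nat_lit 138))))) (PT.nd (nat_lit 234) (PT.nd (nat_lit 78) (PT.lf (nat_lit 16492) (nat_lit 6) (nat_lit 217) (nat_lit 5) (nat_lit 122) (nat_lit 131) (nat_lit 137)) (PT.nd (nat_lit 78) (PT.lf (nat_lit 17100) (nat_lit 6) (nat_lit 225) (nat_lit 5) (nat_lit 123) (nat_lit 131) (nat_lit 136)) (PT.lf (nat_lit 17632) (nat_lit 6) (nat_lit 232) (nat_lit 5) (nat_lit 124) (nat_lit 131) (nat_lit 135)))) (PT.nd (nat_lit 78) (PT.lf (nat_lit 18088) (nat_lit 6) (nat_lit 238) (nat_lit 5) (nat_lit 125) (nat_lit 131) (nat_lit 134)) (PT.nd (nat_lit 78) (PT.lf (nat_lit 18468) (nat_lit 6) (nat_lit 243) (nat_lit 5) (nat_lit 126) (nat_lit 131) (nat_lit 133)) (PT.lf (nat_lit 18772)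 (nat_lit 6) (nat_lit 247) (nat_lit 5) (nat_lit 127) (nat_lit 131) (nat_lit 132)))))) (PT.nd (nat_lit 390) (PT.nd (nat_lit 156) (PT.nd (nat_lit 78) (PT.lf (nat_lit 19000) (nat_lit 3) (nat_lit 250) (nat_lit 4) (nat_lit 128) (nat_lit 131) (nat_lit 131)) (PT.lf (nat_lit 19076) (nat_lit 6) (nat_lit 251) (nat_lit 4) (nat_lit 129) (nat_lit 131) (nat_lit 130))) (PT.nd (nat_lit 78) (PT.lf (nat_lit 19076) (nat_lit 6) (nat_lit 251) (nat_lit 2) (nat_lit 130) (nat_lit 131) (nat_lit 129)) (PT.nd (nat_lit 78) (PT.lf (nat_lit 19000) (nat_lit 3) (nat_lit 250) (nat_lit 0) (nat_lit 131) (nat_lit 131) (nat_lit 128)) (PT.lf (nat_lit 18772) (nat_lit 6) (nat_lit 247) (nat_lit 0) (nat_lit 132) (nat_lit 131) (nat_lit 127))))) (PT.nd (nat_lit 234) (PT.nd (nat_lit 78) (PT.lf (nat_lit 18468) (nat_lit 6) (nat_lit 243) (nat_lit 0) (nat_lit 133) (nat_lit 131) (nat_lit 126)) (PT.nd (nat_lit 78) (PT.lf (nat_lit 18088) (nat_lit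 6) (nat_lit 238) (nat_lit 0) (nat_lit 134) (nat_lit 131) (nat_lit 125)) (PT.lf (nat_lit 17632) (nat_lit 6) (nat_lit 232) (nat_lit 0) (nat_lit 135) (nat_lit 131) (nat_lit 124)))) (PT.nd (nat_lit 78) (PT.lf (nat_lit 17100) (nat_lit 6) (nat_lit 225) (nat_lit 0) (nat_lit 136) (nat_lit 131) (nat_lit 123)) (PT.nd (nat_lit 78) (PT.lf (nat_lit 16492) (nat_lit 6) (nat_lit 217) (nat_lit 0) (nat_lit 137) (nat_lit 131) (nat_lit 122)) (PT.lf (nat_lit 15808) (nat_lit 6) (nat_lit 208) (nat_lit 0) (nat_lit 138) (nat_lit 131) (nat_lit 121))))))))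
noncomputable def pc14 : PT := (PT.nd (nat_lit 39780) (PT.nd (nat_lit 38922) (PT.nd (nat_lit 390) (PT.nd (nat_lit 156) (PT.nd (nat_lit 78) (PT.lf (nat_lit 15048) (nat_lit 6) (nat_lit 198) (nat_lit 0) (nat_lit 139) (nat_lit 131) (nat_lit 120)) (PT.lf (nat_lit 14212) (nat_lit 6) (nat_lit 187) (nat_lit 0) (nat_lit 140) (nat_lit 131) (nat_lit 119))) (PT.nd (nat_lit 78) (PT.lf (nat_lit 13300) (nat_lit 6) (nat_lit 175) (nat_lit 0) (nat_lit 141) (nat_lit 131) (nat_lit 118)) (PT.nd (nat_lit 78) (PT.lf (nat_lit 12312) (nat_lit 6) (nat_lit 162) (nat_lit 0) (nat_lit 142) (nat_lit 131) (nat_lit 117)) (PT.lf (nat_lit 11248) (nat_lit 6) (nat_lit 148) (nat_lit 0) (nat_lit 143) (nat_lit 131) (nat_lit 116))))) (PT.nd (nat_lit 38298) (PT.nd (nat_lit 78) (PT.lf (nat_lit 10108) (nat_lit 6) (nat_lit 133) (nat_lit 0) (nat_lit 144) (nat_lit 131) (nat_lit 115)) (PT.nd (nat_lit 38142) (PT.lf (nat_lit 9424) (nat_lit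 6) (nat_lit 124) (nat_lit 0) (nat_lit 145) (nat_lit 131) (nat_lit 114)) (PT.lf (nat_lit 8892) (nat_lit 6) (nat_lit 117) (nat_lit 5) (nat_lit 113) (nat_lit 132) (nat_lit 145)))) (PT.nd (nat_lit 78) (PT.lf (nat_lit 9500) (nat_lit 6) (nat_lit 125) (nat_lit 5) (nat_lit 114) (nat_lit 132) (nat_lit 144)) (PT.nd (nat_lit 78) (PT.lf (nat_lit 10184) (nat_lit 6) (nat_lit 134) (nat_lit 5) (nat_lit 115) (nat_lit 132) (nat_lit 143)) (PT.lf (nat_lit 11324) (nat_lit 6) (nat_lit 149) (nat_lit 5) (nat_lit 116) (nat_lit 132) (nat_lit 142)))))) (PT.nd (nat_lit 390) (PT.nd (nat_lit 156) (PT.nd (nat_lit 78) (PT.lf (nat_lit 12388) (nat_lit 6) (nat_lit 163) (nat_lit 5) (nat_lit 117) (nat_lit 132) (nat_lit 141)) (PT.lf (nat_lit 13376) (nat_lit 6) (nat_lit 176) (nat_lit 5) (nat_lit 118) (nat_lit 132) (nat_lit 140))) (PT.nd (nat_lit 78) (PT.lf (nat_lit 14288) (nat_lit 6) (nat_lit 188) (nat_lit 5) (nat_lit 119) (nat_lit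 132) (nat_lit 139)) (PT.nd (nat_lit 78) (PT.lf (nat_lit 15124) (nat_lit 6) (nat_lit 199) (nat_lit 5) (nat_lit 120) (nat_lit 132) (nat_lit 138)) (PT.lf (nat_lit 15884) (nat_lit 6) (nat_lit 209) (nat_lit 5) (nat_lit 121) (nat_lit 132) (nat_lit 137))))) (PT.nd (nat_lit 234) (PT.nd (nat_lit 78) (PT.lf (nat_lit 16568) (nat_lit 6) (nat_lit 218) (nat_lit 5) (nat_lit 122) (nat_lit 132) (nat_lit 136)) (PT.nd (nat_lit 78) (PT.lf (nat_lit 17176) (nat_lit 6) (nat_lit 226) (nat_lit 5) (nat_lit 123) (nat_lit 132) (nat_lit 135)) (PT.lf (nat_lit 17708) (nat_lit 6) (nat_lit 233) (nat_lit 5) (nat_lit 124) (nat_lit 132) (nat_lit 134)))) (PT.nd (nat_lit 78) (PT.lf (nat_lit 18164) (nat_lit 6) (nat_lit 239) (nat_lit 5) (nat_lit 125) (nat_lit 132) (nat_lit 133)) (PT.nd (nat_lit 78) (PT.lf (nat_lit 18544) (nat_lit 3) (nat_lit 244) (nat_lit 4) (nat_lit 126) (nat_lit 132) (nat_lit 132)) (PT.lf (nat_lit 18772) (nat_lit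 6) (nat_lit 247) (nat_lit 4) (nat_lit 127) (nat_lit 132) (nat_lit 131))))))) (PT.nd (nat_lit 858) (PT.nd (nat_lit 390) (PT.nd (nat_lit 156) (PT.nd (nat_lit 78) (PT.lf (nat_lit 18924) (nat_lit 6) (nat_lit 249) (nat_lit 4) (nat_lit 128) (nat_lit 132) (nat_lit 130)) (PT.lf (nat_lit 18848) (nat_lit 3) (nat_lit 248) (nat_lit 2) (nat_lit 129) (nat_lit 132) (nat_lit 129))) (PT.nd (nat_lit 78) (PT.lf (nat_lit 18924) (nat_lit 6) (nat_lit 249) (nat_lit 2) (nat_lit 130) (nat_lit 132) (nat_lit 128)) (PT.nd (nat_lit 78) (PT.lf (nat_lit 18772) (nat_lit 6) (nat_lit 247) (nat_lit 2) (nat_lit 131) (nat_lit 132) (nat_lit 127)) (PT.lf (nat_lit 18544) (nat_lit 3) (nat_lit 244) (nat_lit 0) (nat_lit 132) (nat_lit 132) (nat_lit 126))))) (PT.nd (nat_lit 234) (PT.nd (nat_lit 78) (PT.lf (nat_lit 18164) (nat_lit 6) (nat_lit 239) (nat_lit 0) (nat_lit 133) (nat_lit 132) (nat_lit 125)) (PT.nd (nat_lit 78) (PT.lf (nat_lit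 17708) (nat_lit 6) (nat_lit 233) (nat_lit 0) (nat_lit 134) (nat_lit 132) (nat_lit 124)) (PT.lf (nat_lit 17176) (nat_lit 6) (nat_lit 226) (nat_lit 0) (nat_lit 135) (nat_lit 132) (nat_lit 123)))) (PT.nd (nat_lit 78) (PT.lf (nat_lit 16568) (nat_lit 6) (nat_lit 218) (nat_lit 0) (nat_lit 136) (nat_lit 132) (nat_lit 122)) (PT.nd (nat_lit 78) (PT.lf (nat_lit 15884) (nat_lit 6) (nat_lit 209) (nat_lit 0) (nat_lit 137) (nat_lit 132) (nat_lit 121)) (PT.lf (nat_lit 15124) (nat_lit 6) (nat_lit 199) (nat_lit 0) (nat_lit 138) (nat_lit 132) (nat_lit 120)))))) (PT.nd (nat_lit 390) (PT.nd (nat_lit 156) (PT.nd (nat_lit 78) (PT.lf (nat_lit 14288) (nat_lit 6) (nat_lit 188) (nat_lit 0) (nat_lit 139) (nat_lit 132) (nat_lit 119)) (PT.lf (nat_lit 13376) (nat_lit 6) (nat_lit 176) (nat_lit 0) (nat_lit 140) (nat_lit 132) (nat_lit 118))) (PT.nd (nat_lit 78) (PT.lf (nat_lit 12388) (nat_lit 6) (nat_lit 163) (nat_lit 0) (nat_lit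 141) (nat_lit 132) (nat_lit 117)) (PT.nd (nat_lit 78) (PT.lf (nat_lit 11324) (nat_lit 6) (nat_lit 149) (nat_lit 0) (nat_lit 142) (nat_lit 132) (nat_lit 116)) (PT.lf (nat_lit 10184) (nat_lit 6) (nat_lit 134) (nat_lit 0) (nat_lit 143) (nat_lit 132) (nat_lit 115))))) (PT.nd (nat_lit 38220) (PT.nd (nat_lit 78) (PT.lf (nat_lit 9500) (nat_lit 6) (nat_lit 125) (nat_lit 0) (nat_lit 144) (nat_lit 132) (nat_lit 114)) (PT.nd (nat_lit 38064) (PT.lf (nat_lit 8892) (nat_lit 6) (nat_lit 117) (nat_lit 0) (nat_lit 145) (nat_lit 132) (nat_lit 113)) (PT.lf (nat_lit 8360) (nat_lit 6) (nat_lit 110) (nat_lit 5) (nat_lit 112) (nat_lit 133) (nat_lit 145)))) (PT.nd (nat_lit 78) (PT.lf (nat_lit 8968) (nat_lit 6) (nat_lit 118) (nat_lit 5) (nat_lit 113) (nat_lit 133) (nat_lit 144)) (PT.nd (nat_lit 78) (PT.lf (nat_lit 9576) (nat_lit 6) (nat_lit 126) (nat_lit 5) (nat_lit 114) (nat_lit 133) (nat_lit 143)) (PT.lf (nat_lit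 10260) (nat_lit 6) (nat_lit 135) (nat_lit 5) (nat_lit 115) (nat_lit 133) (nat_lit 142))))))))
noncomputable def pc15 : PT := (PT.nd (nat_lit 1716) (PT.nd (nat_lit 858) (PT.nd (nat_lit 390) (PT.nd (nat_lit 156) (PT.nd (nat_lit 78) (PT.lf (nat_lit 11400) (nat_lit 6) (nat_lit 150) (nat_lit 5) (nat_lit 116) (nat_lit 133) (nat_lit 141)) (PT.lf (nat_lit 12464) (nat_lit 6) (nat_lit 164) (nat_lit 5) (nat_lit 117) (nat_lit 133) (nat_lit 140))) (PT.nd (nat_lit 78) (PT.lf (nat_lit 13452) (nat_lit 6) (nat_lit 177) (nat_lit 5) (nat_lit 118) (nat_lit 133) (nat_lit 139)) (PT.nd (nat_lit 78) (PT.lf (nat_lit 14364) (nat_lit 6) (nat_lit 189) (nat_lit 5) (nat_lit 119) (nat_lit 133) (nat_lit 138)) (PT.lf (nat_lit 15200) (nat_lit 6) (nat_lit 200) (nat_lit 5) (nat_lit 120) (nat_lit 133) (nat_lit 137))))) (PT.nd (nat_lit 234) (PT.nd (nat_lit 78) (PT.lf (nat_lit 15960) (nat_lit 6) (nat_lit 210) (nat_lit 5) (nat_lit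 121) (nat_lit 133) (nat_lit 136)) (PT.nd (nat_lit 78) (PT.lf (nat_lit 16644) (nat_lit 6) (nat_lit 219) (nat_lit 5) (nat_lit 122) (nat_lit 133) (nat_lit 135)) (PT.lf (nat_lit 17252) (nat_lit 6) (nat_lit 227) (nat_lit 5) (nat_lit 123) (nat_lit 133) (nat_lit 134)))) (PT.nd (nat_lit 78) (PT.lf (nat_lit 17784) (nat_lit 3) (nat_lit 234) (nat_lit 4) (nat_lit 124) (nat_lit 133) (nat_lit 133)) (PT.nd (nat_lit 78) (PT.lf (nat_lit 18164) (nat_lit 6) (nat_lit 239) (nat_lit 4) (nat_lit 125) (nat_lit 133) (nat_lit 132)) (PT.lf (nat_lit 18468) (nat_lit 6) (nat_lit 243) (nat_lit 4) (nat_lit 126) (nat_lit 133) (nat_lit 131)))))) (PT.nd (nat_lit 390) (PT.nd (nat_lit 156) (PT.nd (nat_lit 78) (PT.lf (nat_lit 18696) (nat_lit 6) (nat_lit 246) (nat_lit 4) (nat_lit 127) (nat_lit 133) (nat_lit 130)) (PT.lf (nat_lit 18620) (nat_lit 6) (nat_lit 245) (nat_lit 4) (nat_lit 128) (nat_lit 133) (nat_lit 129))) (PT.nd (nat_lit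 78) (PT.lf (nat_lit 18620) (nat_lit 6) (nat_lit 245) (nat_lit 2) (nat_lit 129) (nat_lit 133) (nat_lit 128)) (PT.nd (nat_lit 78) (PT.lf (nat_lit 18696) (nat_lit 6) (nat_lit 246) (nat_lit 2) (nat_lit 130) (nat_lit 133) (nat_lit 127)) (PT.lf (nat_lit 18468) (nat_lit 6) (nat_lit 243) (nat_lit 2) (nat_lit 131) (nat_lit 133) (nat_lit 126))))) (PT.nd (nat_lit 234) (PT.nd (nat_lit 78) (PT.lf (nat_lit 18164) (nat_lit 6) (nat_lit 239) (nat_lit 2) (nat_lit 132) (nat_lit 133) (nat_lit 125)) (PT.nd (nat_lit 78) (PT.lf (nat_lit 17784) (nat_lit 3) (nat_lit 234) (nat_lit 0) (nat_lit 133) (nat_lit 133) (nat_lit 124)) (PT.lf (nat_lit 17252) (nat_lit 6) (nat_lit 227) (nat_lit 0) (nat_lit 134) (nat_lit 133) (nat_lit 123)))) (PT.nd (nat_lit 78) (PT.lf (nat_lit 16644) (nat_lit 6) (nat_lit 219) (nat_lit 0) (nat_lit 135) (nat_lit 133) (nat_lit 122)) (PT.nd (nat_lit 78) (PT.lf (nat_lit 15960) (nat_lit 6) (nat_lit 210)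 (nat_lit 0) (nat_lit 136) (nat_lit 133) (nat_lit 121)) (PT.lf (nat_lit 15200) (nat_lit 6) (nat_lit 200) (nat_lit 0) (nat_lit 137) (nat_lit 133) (nat_lit 120))))))) (PT.nd (nat_lit 38766) (PT.nd (nat_lit 390) (PT.nd (nat_lit 156) (PT.nd (nat_lit 78) (PT.lf (nat_lit 14364) (nat_lit 6) (nat_lit 189) (nat_lit 0) (nat_lit 138) (nat_lit 133) (nat_lit 119)) (PT.lf (nat_lit 13452) (nat_lit 6) (nat_lit 177) (nat_lit 0) (nat_lit 139) (nat_lit 133) (nat_lit 118))) (PT.nd (nat_lit 78) (PT.lf (nat_lit 12464) (nat_lit 6) (nat_lit 164) (nat_lit 0) (nat_lit 140) (nat_lit 133) (nat_lit 117)) (PT.nd (nat_lit 78) (PT.lf (nat_lit 11400) (nat_lit 6) (nat_lit 150) (nat_lit 0) (nat_lit 141) (nat_lit 133) (nat_lit 116)) (PT.lf (nat_lit 10260) (nat_lit 6) (nat_lit 135) (nat_lit 0) (nat_lit 142) (nat_lit 133) (nat_lit 115))))) (PT.nd (nat_lit 38142) (PT.nd (nat_lit 78) (PT.lf (nat_lit 9576) (nat_lit 6) (nat_lit 126)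 (nat_lit 0) (nat_lit 143) (nat_lit 133) (nat_lit 114)) (PT.nd (nat_lit 78) (PT.lf (nat_lit 8968) (nat_lit 6) (nat_lit 118) (nat_lit 0) (nat_lit 144) (nat_lit 133) (nat_lit 113)) (PT.lf (nat_lit 8360) (nat_lit 6) (nat_lit 110) (nat_lit 0) (nat_lit 145) (nat_lit 133) (nat_lit 112)))) (PT.nd (nat_lit 78) (PT.lf (nat_lit 7904) (nat_lit 6) (nat_lit 104) (nat_lit 5) (nat_lit 111) (nat_lit 134) (nat_lit 145)) (PT.nd (nat_lit 78) (PT.lf (nat_lit 8436) (nat_lit 6) (nat_lit 111) (nat_lit 5) (nat_lit 112) (nat_lit 134) (nat_lit 144)) (PT.lf (nat_lit 9044) (nat_lit 6) (nat_lit 119) (nat_lit 5) (nat_lit 113) (nat_lit 134) (nat_lit 143)))))) (PT.nd (nat_lit 390) (PT.nd (nat_lit 156) (PT.nd (nat_lit 78) (PT.lf (nat_lit 9652) (nat_lit 6) (nat_lit 127) (nat_lit 5) (nat_lit 114) (nat_lit 134) (nat_lit 142)) (PT.lf (nat_lit 10336) (nat_lit 6) (nat_lit 136) (nat_lit 5) (nat_lit 115) (nat_lit 134) (nat_lit 141)))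 (PT.nd (nat_lit 78) (PT.lf (nat_lit 11476) (nat_lit 6) (nat_lit 151) (nat_lit 5) (nat_lit 116) (nat_lit 134) (nat_lit 140)) (PT.nd (nat_lit 78) (PT.lf (nat_lit 12540) (nat_lit 6) (nat_lit 165) (nat_lit 5) (nat_lit 117) (nat_lit 134) (nat_lit 139)) (PT.lf (nat_lit 13528) (nat_lit 6) (nat_lit 178) (nat_lit 5) (nat_lit 118) (nat_lit 134) (nat_lit 138))))) (PT.nd (nat_lit 234) (PT.nd (nat_lit 78) (PT.lf (nat_lit 14440) (nat_lit 6) (nat_lit 190) (nat_lit 5) (nat_lit 119) (nat_lit 134) (nat_lit 137)) (PT.nd (nat_lit 78) (PT.lf (nat_lit 15276) (nat_lit 6) (nat_lit 201) (nat_lit 5) (nat_lit 120) (nat_lit 134) (nat_lit 136)) (PT.lf (nat_lit 16036) (nat_lit 6) (nat_lit 211) (nat_lit 5) (nat_lit 121) (nat_lit 134) (nat_lit 135)))) (PT.nd (nat_lit 78) (PT.lf (nat_lit 16720) (nat_lit 3) (nat_lit 220) (nat_lit 4) (nat_lit 122) (nat_lit 134) (nat_lit 134)) (PT.nd (nat_lit 78) (PT.lf (nat_lit 17252) (nat_lit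 6) (nat_lit 227) (nat_lit 4) (nat_lit 123) (nat_lit 134) (nat_lit 133)) (PT.lf (nat_lit 17708) (nat_lit 6) (nat_lit 233) (nat_lit 4) (nat_lit 124) (nat_lit 134) (nat_lit 132))))))))
noncomputable def pc16 : PT := (PT.nd (nat_lit 39468) (PT.nd (nat_lit 858) (PT.nd (nat_lit 390) (PT.nd (nat_lit 156) (PT.nd (nat_lit 78) (PT.lf (nat_lit 18088) (nat_lit 6) (nat_lit 238) (nat_lit 4) (nat_lit 125) (nat_lit 134) (nat_lit 131)) (PT.lf (nat_lit 18392) (nat_lit 6) (nat_lit 242) (nat_lit 4) (nat_lit 126) (nat_lit 134) (nat_lit 130))) (PT.nd (nat_lit 78) (PT.lf (nat_lit 18316) (nat_lit 6) (nat_lit 241) (nat_lit 4) (nat_lit 127) (nat_lit 134) (nat_lit 129)) (PT.nd (nat_lit 78) (PT.lf (nat_lit 18240) (nat_lit 3) (nat_lit 240) (nat_lit 2) (nat_lit 128) (nat_lit 134) (nat_lit 128)) (PT.lf (nat_lit 18316) (nat_lit 6) (nat_lit 241) (nat_lit 2) (nat_lit 129) (nat_lit 134) (nat_lit 127))))) (PT.nd (nat_lit 234)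 (PT.nd (nat_lit 78) (PT.lf (nat_lit 18392) (nat_lit 6) (nat_lit 242) (nat_lit 2) (nat_lit 130) (nat_lit 134) (nat_lit 126)) (PT.nd (nat_lit 78) (PT.lf (nat_lit 18088) (nat_lit 6) (nat_lit 238) (nat_lit 2) (nat_lit 131) (nat_lit 134) (nat_lit 125)) (PT.lf (nat_lit 17708) (nat_lit 6) (nat_lit 233) (nat_lit 2) (nat_lit 132) (nat_lit 134) (nat_lit 124)))) (PT.nd (nat_lit 78) (PT.lf (nat_lit 17252) (nat_lit 6) (nat_lit 227) (nat_lit 2) (nat_lit 133) (nat_lit 134) (nat_lit 123)) (PT.nd (nat_lit 78) (PT.lf (nat_lit 16720) (nat_lit 3) (nat_lit 220) (nat_lit 0) (nat_lit 134) (nat_lit 134) (nat_lit 122)) (PT.lf (nat_lit 16036) (nat_lit 6) (nat_lit 211) (nat_lit 0) (nat_lit 135) (nat_lit 134) (nat_lit 121)))))) (PT.nd (nat_lit 390) (PT.nd (nat_lit 156) (PT.nd (nat_lit 78) (PT.lf (nat_lit 15276) (nat_lit 6) (nat_lit 201) (nat_lit 0) (nat_lit 136) (nat_lit 134) (nat_lit 120)) (PT.lf (nat_lit 14440) (nat_lit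 6) (nat_lit 190) (nat_lit 0) (nat_lit 137) (nat_lit 134) (nat_lit 119))) (PT.nd (nat_lit 78) (PT.lf (nat_lit 13528) (nat_lit 6) (nat_lit 178) (nat_lit 0) (nat_lit 138) (nat_lit 134) (nat_lit 118)) (PT.nd (nat_lit 78) (PT.lf (nat_lit 12540) (nat_lit 6) (nat_lit 165) (nat_lit 0) (nat_lit 139) (nat_lit 134) (nat_lit 117)) (PT.lf (nat_lit 11476) (nat_lit 6) (nat_lit 151) (nat_lit 0) (nat_lit 140) (nat_lit 134) (nat_lit 116))))) (PT.nd (nat_lit 234) (PT.nd (nat_lit 78) (PT.lf (nat_lit 10336) (nat_lit 6) (nat_lit 136) (nat_lit 0) (nat_lit 141) (nat_lit 134) (nat_lit 115)) (PT.nd (nat_lit 78) (PT.lf (nat_lit 9652) (nat_lit 6) (nat_lit 127) (nat_lit 0) (nat_lit 142) (nat_lit 134) (nat_lit 114)) (PT.lf (nat_lit 9044) (nat_lit 6) (nat_lit 119) (nat_lit 0) (nat_lit 143) (nat_lit 134) (nat_lit 113)))) (PT.nd (nat_lit 78) (PT.lf (nat_lit 8436) (nat_lit 6) (nat_lit 111) (nat_lit 0) (nat_lit 144) (nat_lit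 134) (nat_lit 112)) (PT.nd (nat_lit 37830) (PT.lf (nat_lit 7904) (nat_lit 6) (nat_lit 104) (nat_lit 0) (nat_lit 145) (nat_lit 134) (nat_lit 111)) (PT.lf (nat_lit 6992) (nat_lit 6) (nat_lit 92) (nat_lit 5) (nat_lit 109) (nat_lit 135) (nat_lit 146))))))) (PT.nd (nat_lit 858) (PT.nd (nat_lit 390) (PT.nd (nat_lit 156) (PT.nd (nat_lit 78) (PT.lf (nat_lit 7448) (nat_lit 6) (nat_lit 98) (nat_lit 5) (nat_lit 110) (nat_lit 135) (nat_lit 145)) (PT.lf (nat_lit 7980) (nat_lit 6) (nat_lit 105) (nat_lit 5) (nat_lit 111) (nat_lit 135) (nat_lit 144))) (PT.nd (nat_lit 78) (PT.lf (nat_lit 8512) (nat_lit 6) (nat_lit 112) (nat_lit 5) (nat_lit 112) (nat_lit 135) (nat_lit 143)) (PT.nd (nat_lit 78) (PT.lf (nat_lit 9120) (nat_lit 6) (nat_lit 120) (nat_lit 5) (nat_lit 113) (nat_lit 135) (nat_lit 142)) (PT.lf (nat_lit 9728) (nat_lit 6) (nat_lit 128) (nat_lit 5) (nat_lit 114) (nat_lit 135) (nat_lit 141))))) (PT.nd (nat_lit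 234) (PT.nd (nat_lit 78) (PT.lf (nat_lit 10412) (nat_lit 6) (nat_lit 137) (nat_lit 5) (nat_lit 115) (nat_lit 135) (nat_lit 140)) (PT.nd (nat_lit 78) (PT.lf (nat_lit 11552) (nat_lit 6) (nat_lit 152) (nat_lit 5) (nat_lit 116) (nat_lit 135) (nat_lit 139)) (PT.lf (nat_lit 12616) (nat_lit 6) (nat_lit 166) (nat_lit 5) (nat_lit 117) (nat_lit 135) (nat_lit 138)))) (PT.nd (nat_lit 78) (PT.lf (nat_lit 13604) (nat_lit 6) (nat_lit 179) (nat_lit 5) (nat_lit 118) (nat_lit 135) (nat_lit 137)) (PT.nd (nat_lit 78) (PT.lf (nat_lit 14516) (nat_lit 6) (nat_lit 191) (nat_lit 5) (nat_lit 119) (nat_lit 135) (nat_lit 136)) (PT.lf (nat_lit 15352) (nat_lit 3) (nat_lit 202) (nat_lit 4) (nat_lit 120) (nat_lit 135) (nat_lit 135)))))) (PT.nd (nat_lit 390) (PT.nd (nat_lit 156) (PT.nd (nat_lit 78) (PT.lf (nat_lit 16036) (nat_lit 6) (nat_lit 211) (nat_lit 4) (nat_lit 121) (nat_lit 135) (nat_lit 134)) (PT.lf (nat_lit 16644)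 (nat_lit 6) (nat_lit 219) (nat_lit 4) (nat_lit 122) (nat_lit 135) (nat_lit 133))) (PT.nd (nat_lit 78) (PT.lf (nat_lit 17176) (nat_lit 6) (nat_lit 226) (nat_lit 4) (nat_lit 123) (nat_lit 135) (nat_lit 132)) (PT.nd (nat_lit 78) (PT.lf (nat_lit 17632) (nat_lit 6) (nat_lit 232) (nat_lit 4) (nat_lit 124) (nat_lit 135) (nat_lit 131)) (PT.lf (nat_lit 18012) (nat_lit 6) (nat_lit 237) (nat_lit 4) (nat_lit 125) (nat_lit 135) (nat_lit 130))))) (PT.nd (nat_lit 234) (PT.nd (nat_lit 78) (PT.lf (nat_lit 17936) (nat_lit 6) (nat_lit 236) (nat_lit 4) (nat_lit 126) (nat_lit 135) (nat_lit 129)) (PT.nd (nat_lit 78) (PT.lf (nat_lit 17860) (nat_lit 6) (nat_lit 235) (nat_lit 4) (nat_lit 127) (nat_lit 135) (nat_lit 128)) (PT.lf (nat_lit 17860) (nat_lit 6) (nat_lit 235) (nat_lit 2) (nat_lit 128) (nat_lit 135) (nat_lit 127)))) (PT.nd (nat_lit 78) (PT.lf (nat_lit 17936) (nat_lit 6) (nat_lit 236) (nat_lit 2) (nat_lit 129)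 (nat_lit 135) (nat_lit 126)) (PT.nd (nat_lit 78) (PT.lf (nat_lit 18012) (nat_lit 6) (nat_lit 237) (nat_lit 2) (nat_lit 130) (nat_lit 135) (nat_lit 125)) (PT.lf (nat_lit 17632) (nat_lit 6) (nat_lit 232) (nat_lit 2) (nat_lit 131) (nat_lit 135) (nat_lit 124))))))))
noncomputable def pc17 : PT := (PT.nd (nat_lit 39312) (PT.nd (nat_lit 858) (PT.nd (nat_lit 390) (PT.nd (nat_lit 156) (PT.nd (nat_lit 78) (PT.lf (nat_lit 17176) (nat_lit 6) (nat_lit 226) (nat_lit 2) (nat_lit 132) (nat_lit 135) (nat_lit 123)) (PT.lf (nat_lit 16644) (nat_lit 6) (nat_lit 219) (nat_lit 2) (nat_lit 133) (nat_lit 135) (nat_lit 122))) (PT.nd (nat_lit 78) (PT.lf (nat_lit 16036) (nat_lit 6) (nat_lit 211) (nat_lit 2) (nat_lit 134) (nat_lit 135) (nat_lit 121)) (PT.nd (nat_lit 78) (PT.lf (nat_lit 15352) (nat_lit 3) (nat_lit 202) (nat_lit 0) (nat_lit 135) (nat_lit 135) (nat_lit 120)) (PT.lf (nat_lit 14516) (nat_lit 6) (nat_lit 191)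 (nat_lit 0) (nat_lit 136) (nat_lit 135) (nat_lit 119))))) (PT.nd (nat_lit 234) (PT.nd (nat_lit 78) (PT.lf (nat_lit 13604) (nat_lit 6) (nat_lit 179) (nat_lit 0) (nat_lit 137) (nat_lit 135) (nat_lit 118)) (PT.nd (nat_lit 78) (PT.lf (nat_lit 12616) (nat_lit 6) (nat_lit 166) (nat_lit 0) (nat_lit 138) (nat_lit 135) (nat_lit 117)) (PT.lf (nat_lit 11552) (nat_lit 6) (nat_lit 152) (nat_lit 0) (nat_lit 139) (nat_lit 135) (nat_lit 116)))) (PT.nd (nat_lit 78) (PT.lf (nat_lit 10412) (nat_lit 6) (nat_lit 137) (nat_lit 0) (nat_lit 140) (nat_lit 135) (nat_lit 115)) (PT.nd (nat_lit 78) (PT.lf (nat_lit 9728) (nat_lit 6) (nat_lit 128) (nat_lit 0) (nat_lit 141) (nat_lit 135) (nat_lit 114)) (PT.lf (nat_lit 9120) (nat_lit 6) (nat_lit 120) (nat_lit 0) (nat_lit 142) (nat_lit 135) (nat_lit 113)))))) (PT.nd (nat_lit 37986) (PT.nd (nat_lit 156) (PT.nd (nat_lit 78) (PT.lf (nat_lit 8512) (nat_lit 6) (nat_lit 112) (nat_lit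 0) (nat_lit 143) (nat_lit 135) (nat_lit 112)) (PT.lf (nat_lit 7980) (nat_lit 6) (nat_lit 105) (nat_lit 0) (nat_lit 144) (nat_lit 135) (nat_lit 111))) (PT.nd (nat_lit 78) (PT.lf (nat_lit 7448) (nat_lit 6) (nat_lit 98) (nat_lit 0) (nat_lit 145) (nat_lit 135) (nat_lit 110)) (PT.nd (nat_lit 37674) (PT.lf (nat_lit 6992) (nat_lit 6) (nat_lit 92) (nat_lit 0) (nat_lit 146) (nat_lit 135) (nat_lit 109)) (PT.lf (nat_lit 6536) (nat_lit 6) (nat_lit 86) (nat_lit 5) (nat_lit 108) (nat_lit 136) (nat_lit 146))))) (PT.nd (nat_lit 234) (PT.nd (nat_lit 78) (PT.lf (nat_lit 7068) (nat_lit 6) (nat_lit 93) (nat_lit 5) (nat_lit 109) (nat_lit 136) (nat_lit 145)) (PT.nd (nat_lit 78) (PT.lf (nat_lit 7524) (nat_lit 6) (nat_lit 99) (nat_lit 5) (nat_lit 110) (nat_lit 136) (nat_lit 144)) (PT.lf (nat_lit 8056) (nat_lit 6) (nat_lit 106) (nat_lit 5) (nat_lit 111) (nat_lit 136) (nat_lit 143)))) (PT.nd (nat_lit 78) (PT.lf (nat_lit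 8588) (nat_lit 6) (nat_lit 113) (nat_lit 5) (nat_lit 112) (nat_lit 136) (nat_lit 142)) (PT.nd (nat_lit 78) (PT.lf (nat_lit 9196) (nat_lit 6) (nat_lit 121) (nat_lit 5) (nat_lit 113) (nat_lit 136) (nat_lit 141)) (PT.lf (nat_lit 9804) (nat_lit 6) (nat_lit 129) (nat_lit 5) (nat_lit 114) (nat_lit 136) (nat_lit 140))))))) (PT.nd (nat_lit 858) (PT.nd (nat_lit 390) (PT.nd (nat_lit 156) (PT.nd (nat_lit 78) (PT.lf (nat_lit 10488) (nat_lit 6) (nat_lit 138) (nat_lit 5) (nat_lit 115) (nat_lit 136) (nat_lit 139)) (PT.lf (nat_lit 11628) (nat_lit 6) (nat_lit 153) (nat_lit 5) (nat_lit 116) (nat_lit 136) (nat_lit 138))) (PT.nd (nat_lit 78) (PT.lf (nat_lit 12692) (nat_lit 6) (nat_lit 167) (nat_lit 5) (nat_lit 117) (nat_lit 136) (nat_lit 137)) (PT.nd (nat_lit 78) (PT.lf (nat_lit 13680) (nat_lit 3) (nat_lit 180) (nat_lit 4) (nat_lit 118) (nat_lit 136) (nat_lit 136)) (PT.lf (nat_lit 14516) (nat_lit 6) (nat_lit 191)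 (nat_lit 4) (nat_lit 119) (nat_lit 136) (nat_lit 135))))) (PT.nd (nat_lit 234) (PT.nd (nat_lit 78) (PT.lf (nat_lit 15276) (nat_lit 6) (nat_lit 201) (nat_lit 4) (nat_lit 120) (nat_lit 136) (nat_lit 134)) (PT.nd (nat_lit 78) (PT.lf (nat_lit 15960) (nat_lit 6) (nat_lit 210) (nat_lit 4) (nat_lit 121) (nat_lit 136) (nat_lit 133)) (PT.lf (nat_lit 16568) (nat_lit 6) (nat_lit 218) (nat_lit 4) (nat_lit 122) (nat_lit 136) (nat_lit 132)))) (PT.nd (nat_lit 78) (PT.lf (nat_lit 17100) (nat_lit 6) (nat_lit 225) (nat_lit 4) (nat_lit 123) (nat_lit 136) (nat_lit 131)) (PT.nd (nat_lit 78) (PT.lf (nat_lit 17556) (nat_lit 6) (nat_lit 231) (nat_lit 4) (nat_lit 124) (nat_lit 136) (nat_lit 130)) (PT.lf (nat_lit 17480) (nat_lit 6) (nat_lit 230) (nat_lit 4) (nat_lit 125) (nat_lit 136) (nat_lit 129)))))) (PT.nd (nat_lit 390) (PT.nd (nat_lit 156) (PT.nd (nat_lit 78) (PT.lf (nat_lit 17404) (nat_lit 6) (nat_lit 229) (nat_lit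 4) (nat_lit 126) (nat_lit 136) (nat_lit 128)) (PT.lf (nat_lit 17328) (nat_lit 3) (nat_lit 228) (nat_lit 2) (nat_lit 127) (nat_lit 136) (nat_lit 127))) (PT.nd (nat_lit 78) (PT.lf (nat_lit 17404) (nat_lit 6) (nat_lit 229) (nat_lit 2) (nat_lit 128) (nat_lit 136) (nat_lit 126)) (PT.nd (nat_lit 78) (PT.lf (nat_lit 17480) (nat_lit 6) (nat_lit 230) (nat_lit 2) (nat_lit 129) (nat_lit 136) (nat_lit 125)) (PT.lf (nat_lit 17556) (nat_lit 6) (nat_lit 231) (nat_lit 2) (nat_lit 130) (nat_lit 136) (nat_lit 124))))) (PT.nd (nat_lit 234) (PT.nd (nat_lit 78) (PT.lf (nat_lit 17100) (nat_lit 6) (nat_lit 225) (nat_lit 2) (nat_lit 131) (nat_lit 136) (nat_lit 123)) (PT.nd (nat_lit 78) (PT.lf (nat_lit 16568) (nat_lit 6) (nat_lit 218) (nat_lit 2) (nat_lit 132) (nat_lit 136) (nat_lit 122)) (PT.lf (nat_lit 15960) (nat_lit 6) (nat_lit 210) (nat_lit 2) (nat_lit 133) (nat_lit 136) (nat_lit 121)))) (PT.nd (nat_lit 78) (PT.lf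 (nat_lit 15276) (nat_lit 6) (nat_lit 201) (nat_lit 2) (nat_lit 134) (nat_lit 136) (nat_lit 120)) (PT.nd (nat_lit 78) (PT.lf (nat_lit 14516) (nat_lit 6) (nat_lit 191) (nat_lit 2) (nat_lit 135) (nat_lit 136) (nat_lit 119)) (PT.lf (nat_lit 13680) (nat_lit 3) (nat_lit 180) (nat_lit 0) (nat_lit 136) (nat_lit 136) (nat_lit 118))))))))
noncomputable def pc18 : PT := (PT.nd (nat_lit 39234) (PT.nd (nat_lit 38376) (PT.nd (nat_lit 390) (PT.nd (nat_lit 156) (PT.nd (nat_lit 78) (PT.lf (nat_lit 12692) (nat_lit 6) (nat_lit 167) (nat_lit 0) (nat_lit 137) (nat_lit 136) (nat_lit 117)) (PT.lf (nat_lit 11628) (nat_lit 6) (nat_lit 153) (nat_lit 0) (nat_lit 138) (nat_lit 136) (nat_lit 116))) (PT.nd (nat_lit 78) (PT.lf (nat_lit 10488) (nat_lit 6) (nat_lit 138) (nat_lit 0) (nat_lit 139) (nat_lit 136) (nat_lit 115)) (PT.nd (nat_lit 78) (PT.lf (nat_lit 9804) (nat_lit 6) (nat_lit 129) (nat_lit 0) (nat_lit 140) (nat_lit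 136) (nat_lit 114)) (PT.lf (nat_lit 9196) (nat_lit 6) (nat_lit 121) (nat_lit 0) (nat_lit 141) (nat_lit 136) (nat_lit 113))))) (PT.nd (nat_lit 234) (PT.nd (nat_lit 78) (PT.lf (nat_lit 8588) (nat_lit 6) (nat_lit 113) (nat_lit 0) (nat_lit 142) (nat_lit 136) (nat_lit 112)) (PT.nd (nat_lit 78) (PT.lf (nat_lit 8056) (nat_lit 6) (nat_lit 106) (nat_lit 0) (nat_lit 143) (nat_lit 136) (nat_lit 111)) (PT.lf (nat_lit 7524) (nat_lit 6) (nat_lit 99) (nat_lit 0) (nat_lit 144) (nat_lit 136) (nat_lit 110)))) (PT.nd (nat_lit 78) (PT.lf (nat_lit 7068) (nat_lit 6) (nat_lit 93) (nat_lit 0) (nat_lit 145) (nat_lit 136) (nat_lit 109)) (PT.nd (nat_lit 37596) (PT.lf (nat_lit 6536) (nat_lit 6) (nat_lit 86) (nat_lit 0) (nat_lit 146) (nat_lit 136) (nat_lit 108)) (PT.lf (nat_lit 6156) (nat_lit 6) (nat_lit 81) (nat_lit 5) (nat_lit 107) (nat_lit 137) (nat_lit 146)))))) (PT.nd (nat_lit 390) (PT.nd (nat_lit 156) (PT.nd (nat_lit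 78) (PT.lf (nat_lit 6612) (nat_lit 6) (nat_lit 87) (nat_lit 5) (nat_lit 108) (nat_lit 137) (nat_lit 145)) (PT.lf (nat_lit 7144) (nat_lit 6) (nat_lit 94) (nat_lit 5) (nat_lit 109) (nat_lit 137) (nat_lit 144))) (PT.nd (nat_lit 78) (PT.lf (nat_lit 7600) (nat_lit 6) (nat_lit 100) (nat_lit 5) (nat_lit 110) (nat_lit 137) (nat_lit 143)) (PT.nd (nat_lit 78) (PT.lf (nat_lit 8132) (nat_lit 6) (nat_lit 107) (nat_lit 5) (nat_lit 111) (nat_lit 137) (nat_lit 142)) (PT.lf (nat_lit 8664) (nat_lit 6) (nat_lit 114) (nat_lit 5) (nat_lit 112) (nat_lit 137) (nat_lit 141))))) (PT.nd (nat_lit 234) (PT.nd (nat_lit 78) (PT.lf (nat_lit 9272) (nat_lit 6) (nat_lit 122) (nat_lit 5) (nat_lit 113) (nat_lit 137) (nat_lit 140)) (PT.nd (nat_lit 78) (PT.lf (nat_lit 9880) (nat_lit 6) (nat_lit 130) (nat_lit 5) (nat_lit 114) (nat_lit 137) (nat_lit 139)) (PT.lf (nat_lit 10564) (nat_lit 6) (nat_lit 139) (nat_lit 5) (nat_lit 115) (nat_lit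 137) (nat_lit 138)))) (PT.nd (nat_lit 78) (PT.lf (nat_lit 11704) (nat_lit 3) (nat_lit 154) (nat_lit 4) (nat_lit 116) (nat_lit 137) (nat_lit 137)) (PT.nd (nat_lit 78) (PT.lf (nat_lit 12692) (nat_lit 6) (nat_lit 167) (nat_lit 4) (nat_lit 117) (nat_lit 137) (nat_lit 136)) (PT.lf (nat_lit 13604) (nat_lit 6) (nat_lit 179) (nat_lit 4) (nat_lit 118) (nat_lit 137) (nat_lit 135))))))) (PT.nd (nat_lit 858) (PT.nd (nat_lit 390) (PT.nd (nat_lit 156) (PT.nd (nat_lit 78) (PT.lf (nat_lit 14440) (nat_lit 6) (nat_lit 190) (nat_lit 4) (nat_lit 119) (nat_lit 137) (nat_lit 134)) (PT.lf (nat_lit 15200) (nat_lit 6) (nat_lit 200) (nat_lit 4) (nat_lit 120) (nat_lit 137) (nat_lit 133))) (PT.nd (nat_lit 78) (PT.lf (nat_lit 15884) (nat_lit 6) (nat_lit 209) (nat_lit 4) (nat_lit 121) (nat_lit 137) (nat_lit 132)) (PT.nd (nat_lit 78) (PT.lf (nat_lit 16492) (nat_lit 6) (nat_lit 217) (nat_lit 4) (nat_lit 122) (nat_lit 137)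 (nat_lit 131)) (PT.lf (nat_lit 17024) (nat_lit 6) (nat_lit 224) (nat_lit 4) (nat_lit 123) (nat_lit 137) (nat_lit 130))))) (PT.nd (nat_lit 234) (PT.nd (nat_lit 78) (PT.lf (nat_lit 16948) (nat_lit 6) (nat_lit 223) (nat_lit 4) (nat_lit 124) (nat_lit 137) (nat_lit 129)) (PT.nd (nat_lit 78) (PT.lf (nat_lit 16872) (nat_lit 6) (nat_lit 222) (nat_lit 4) (nat_lit 125) (nat_lit 137) (nat_lit 128)) (PT.lf (nat_lit 16796) (nat_lit 6) (nat_lit 221) (nat_lit 4) (nat_lit 126) (nat_lit 137) (nat_lit 127)))) (PT.nd (nat_lit 78) (PT.lf (nat_lit 16796) (nat_lit 6) (nat_lit 221) (nat_lit 2) (nat_lit 127) (nat_lit 137) (nat_lit 126)) (PT.nd (nat_lit 78) (PT.lf (nat_lit 16872) (nat_lit 6) (nat_lit 222) (nat_lit 2) (nat_lit 128) (nat_lit 137) (nat_lit 125)) (PT.lf (nat_lit 16948) (nat_lit 6) (nat_lit 223) (nat_lit 2) (nat_lit 129) (nat_lit 137) (nat_lit 124)))))) (PT.nd (nat_lit 390) (PT.nd (nat_lit 156) (PT.nd (nat_lit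 78) (PT.lf (nat_lit 17024) (nat_lit 6) (nat_lit 224) (nat_lit 2) (nat_lit 130) (nat_lit 137) (nat_lit 123)) (PT.lf (nat_lit 16492) (nat_lit 6) (nat_lit 217) (nat_lit 2) (nat_lit 131) (nat_lit 137) (nat_lit 122))) (PT.nd (nat_lit 78) (PT.lf (nat_lit 15884) (nat_lit 6) (nat_lit 209) (nat_lit 2) (nat_lit 132) (nat_lit 137) (nat_lit 121)) (PT.nd (nat_lit 78) (PT.lf (nat_lit 15200) (nat_lit 6) (nat_lit 200) (nat_lit 2) (nat_lit 133) (nat_lit 137) (nat_lit 120)) (PT.lf (nat_lit 14440) (nat_lit 6) (nat_lit 190) (nat_lit 2) (nat_lit 134) (nat_lit 137) (nat_lit 119))))) (PT.nd (nat_lit 234) (PT.nd (nat_lit 78) (PT.lf (nat_lit 13604) (nat_lit 6) (nat_lit 179) (nat_lit 2) (nat_lit 135) (nat_lit 137) (nat_lit 118)) (PT.nd (nat_lit 78) (PT.lf (nat_lit 12692) (nat_lit 6) (nat_lit 167) (nat_lit 2) (nat_lit 136) (nat_lit 137) (nat_lit 117)) (PT.lf (nat_lit 11704) (nat_lit 3) (nat_lit 154) (nat_lit 0) (nat_lit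 137) (nat_lit 137) (nat_lit 116)))) (PT.nd (nat_lit 78) (PT.lf (nat_lit 10564) (nat_lit 6) (nat_lit 139) (nat_lit 0) (nat_lit 138) (nat_lit 137) (nat_lit 115)) (PT.nd (nat_lit 78) (PT.lf (nat_lit 9880) (nat_lit 6) (nat_lit 130) (nat_lit 0) (nat_lit 139) (nat_lit 137) (nat_lit 114)) (PT.lf (nat_lit 9272) (nat_lit 6) (nat_lit 122) (nat_lit 0) (nat_lit 140) (nat_lit 137) (nat_lit 113))))))))
noncomputable def pc19 : PT := (PT.nd (nat_lit 39078) (PT.nd (nat_lit 38220) (PT.nd (nat_lit 390) (PT.nd (nat_lit 156) (PT.nd (nat_lit 78) (PT.lf (nat_lit 8664) (nat_lit 6) (nat_lit 114) (nat_lit 0) (nat_lit 141) (nat_lit 137) (nat_lit 112)) (PT.lf (nat_lit 8132) (nat_lit 6) (nat_lit 107) (nat_lit 0) (nat_lit 142) (nat_lit 137) (nat_lit 111))) (PT.nd (nat_lit 78) (PT.lf (nat_lit 7600) (nat_lit 6) (nat_lit 100) (nat_lit 0) (nat_lit 143) (nat_lit 137) (nat_lit 110)) (PT.nd (nat_lit 78) (PT.lf (nat_lit 7144) (nat_lit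 6) (nat_lit 94) (nat_lit 0) (nat_lit 144) (nat_lit 137) (nat_lit 109)) (PT.lf (nat_lit 6612) (nat_lit 6) (nat_lit 87) (nat_lit 0) (nat_lit 145) (nat_lit 137) (nat_lit 108))))) (PT.nd (nat_lit 37596) (PT.nd (nat_lit 37440) (PT.lf (nat_lit 6156) (nat_lit 6) (nat_lit 81) (nat_lit 0) (nat_lit 146) (nat_lit 137) (nat_lit 107)) (PT.nd (nat_lit 78) (PT.lf (nat_lit 5396) (nat_lit 6) (nat_lit 71) (nat_lit 5) (nat_lit 105) (nat_lit 138) (nat_lit 147)) (PT.lf (nat_lit 5776) (nat_lit 6) (nat_lit 76) (nat_lit 5) (nat_lit 106) (nat_lit 138) (nat_lit 146)))) (PT.nd (nat_lit 78) (PT.lf (nat_lit 6232) (nat_lit 6) (nat_lit 82) (nat_lit 5) (nat_lit 107) (nat_lit 138) (nat_lit 145)) (PT.nd (nat_lit 78) (PT.lf (nat_lit 6688) (nat_lit 6) (nat_lit 88) (nat_lit 5) (nat_lit 108) (nat_lit 138) (nat_lit 144)) (PT.lf (nat_lit 7220) (nat_lit 6) (nat_lit 95) (nat_lit 5) (nat_lit 109) (nat_lit 138) (nat_lit 143)))))) (PT.nd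 (nat_lit 390) (PT.nd (nat_lit 156) (PT.nd (nat_lit 78) (PT.lf (nat_lit 7676) (nat_lit 6) (nat_lit 101) (nat_lit 5) (nat_lit 110) (nat_lit 138) (nat_lit 142)) (PT.lf (nat_lit 8208) (nat_lit 6) (nat_lit 108) (nat_lit 5) (nat_lit 111) (nat_lit 138) (nat_lit 141))) (PT.nd (nat_lit 78) (PT.lf (nat_lit 8740) (nat_lit 6) (nat_lit 115) (nat_lit 5) (nat_lit 112) (nat_lit 138) (nat_lit 140)) (PT.nd (nat_lit 78) (PT.lf (nat_lit 9348) (nat_lit 6) (nat_lit 123) (nat_lit 5) (nat_lit 113) (nat_lit 138) (nat_lit 139)) (PT.lf (nat_lit 9956) (nat_lit 3) (nat_lit 131) (nat_lit 4) (nat_lit 114) (nat_lit 138) (nat_lit 138))))) (PT.nd (nat_lit 234) (PT.nd (nat_lit 78) (PT.lf (nat_lit 10564) (nat_lit 6) (nat_lit 139) (nat_lit 4) (nat_lit 115) (nat_lit 138) (nat_lit 137)) (PT.nd (nat_lit 78) (PT.lf (nat_lit 11628) (nat_lit 6) (nat_lit 153) (nat_lit 4) (nat_lit 116) (nat_lit 138) (nat_lit 136)) (PT.lf (nat_lit 12616)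 (nat_lit 6) (nat_lit 166) (nat_lit 4) (nat_lit 117) (nat_lit 138) (nat_lit 135)))) (PT.nd (nat_lit 78) (PT.lf (nat_lit 13528) (nat_lit 6) (nat_lit 178) (nat_lit 4) (nat_lit 118) (nat_lit 138) (nat_lit 134)) (PT.nd (nat_lit 78) (PT.lf (nat_lit 14364) (nat_lit 6) (nat_lit 189) (nat_lit 4) (nat_lit 119) (nat_lit 138) (nat_lit 133)) (PT.lf (nat_lit 15124) (nat_lit 6) (nat_lit 199) (nat_lit 4) (nat_lit 120) (nat_lit 138) (nat_lit 132))))))) (PT.nd (nat_lit 858) (PT.nd (nat_lit 390) (PT.nd (nat_lit 156) (PT.nd (nat_lit 78) (PT.lf (nat_lit 15808) (nat_lit 6) (nat_lit 208) (nat_lit 4) (nat_lit 121) (nat_lit 138) (nat_lit 131)) (PT.lf (nat_lit 16416) (nat_lit 6) (nat_lit 216) (nat_lit 4) (nat_lit 122) (nat_lit 138) (nat_lit 130))) (PT.nd (nat_lit 78) (PT.lf (nat_lit 16340) (nat_lit 6) (nat_lit 215) (nat_lit 4) (nat_lit 123) (nat_lit 138) (nat_lit 129)) (PT.nd (nat_lit 78) (PT.lf (nat_lit 16264) (nat_lit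 6) (nat_lit 214) (nat_lit 4) (nat_lit 124) (nat_lit 138) (nat_lit 128)) (PT.lf (nat_lit 16188) (nat_lit 6) (nat_lit 213) (nat_lit 4) (nat_lit 125) (nat_lit 138) (nat_lit 127))))) (PT.nd (nat_lit 234) (PT.nd (nat_lit 78) (PT.lf (nat_lit 16112) (nat_lit 3) (nat_lit 212) (nat_lit 2) (nat_lit 126) (nat_lit 138) (nat_lit 126)) (PT.nd (nat_lit 78) (PT.lf (nat_lit 16188) (nat_lit 6) (nat_lit 213) (nat_lit 2) (nat_lit 127) (nat_lit 138) (nat_lit 125)) (PT.lf (nat_lit 16264) (nat_lit 6) (nat_lit 214) (nat_lit 2) (nat_lit 128) (nat_lit 138) (nat_lit 124)))) (PT.nd (nat_lit 78) (PT.lf (nat_lit 16340) (nat_lit 6) (nat_lit 215) (nat_lit 2) (nat_lit 129) (nat_lit 138) (nat_lit 123)) (PT.nd (nat_lit 78) (PT.lf (nat_lit 16416) (nat_lit 6) (nat_lit 216) (nat_lit 2) (nat_lit 130) (nat_lit 138) (nat_lit 122)) (PT.lf (nat_lit 15808) (nat_lit 6) (nat_lit 208) (nat_lit 2) (nat_lit 131) (nat_lit 138) (nat_lit 121))))))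 (PT.nd (nat_lit 390) (PT.nd (nat_lit 156) (PT.nd (nat_lit 78) (PT.lf (nat_lit 15124) (nat_lit 6) (nat_lit 199) (nat_lit 2) (nat_lit 132) (nat_lit 138) (nat_lit 120)) (PT.lf (nat_lit 14364) (nat_lit 6) (nat_lit 189) (nat_lit 2) (nat_lit 133) (nat_lit 138) (nat_lit 119))) (PT.nd (nat_lit 78) (PT.lf (nat_lit 13528) (nat_lit 6) (nat_lit 178) (nat_lit 2) (nat_lit 134) (nat_lit 138) (nat_lit 118)) (PT.nd (nat_lit 78) (PT.lf (nat_lit 12616) (nat_lit 6) (nat_lit 166) (nat_lit 2) (nat_lit 135) (nat_lit 138) (nat_lit 117)) (PT.lf (nat_lit 11628) (nat_lit 6) (nat_lit 153) (nat_lit 2) (nat_lit 136) (nat_lit 138) (nat_lit 116))))) (PT.nd (nat_lit 234) (PT.nd (nat_lit 78) (PT.lf (nat_lit 10564) (nat_lit 6) (nat_lit 139) (nat_lit 2) (nat_lit 137) (nat_lit 138) (nat_lit 115)) (PT.nd (nat_lit 78) (PT.lf (nat_lit 9956) (nat_lit 3) (nat_lit 131) (nat_lit 0) (nat_lit 138) (nat_lit 138) (nat_lit 114)) (PT.lf (nat_lit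 9348) (nat_lit 6) (nat_lit 123) (nat_lit 0) (nat_lit 139) (nat_lit 138) (nat_lit 113)))) (PT.nd (nat_lit 78) (PT.lf (nat_lit 8740) (nat_lit 6) (nat_lit 115) (nat_lit 0) (nat_lit 140) (nat_lit 138) (nat_lit 112)) (PT.nd (nat_lit 78) (PT.lf (nat_lit 8208) (nat_lit 6) (nat_lit 108) (nat_lit 0) (nat_lit 141) (nat_lit 138) (nat_lit 111)) (PT.lf (nat_lit 7676) (nat_lit 6) (nat_lit 101) (nat_lit 0) (nat_lit 142) (nat_lit 138) (nat_lit 110))))))))
noncomputable def pc20 : PT := (PT.nd (nat_lit 38922) (PT.nd (nat_lit 38064) (PT.nd (nat_lit 37596) (PT.nd (nat_lit 156) (PT.nd (nat_lit 78) (PT.lf (nat_lit 7220) (nat_lit 6) (nat_lit 95) (nat_lit 0) (nat_lit 143) (nat_lit 138) (nat_lit 109)) (PT.lf (nat_lit 6688) (nat_lit 6) (nat_lit 88) (nat_lit 0) (nat_lit 144) (nat_lit 138) (nat_lit 108))) (PT.nd (nat_lit 78) (PT.lf (nat_lit 6232) (nat_lit 6) (nat_lit 82) (nat_lit 0) (nat_lit 145) (nat_lit 138) (nat_lit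 107)) (PT.nd (nat_lit 78) (PT.lf (nat_lit 5776) (nat_lit 6) (nat_lit 76) (nat_lit 0) (nat_lit 146) (nat_lit 138) (nat_lit 106)) (PT.lf (nat_lit 5396) (nat_lit 6) (nat_lit 71) (nat_lit 0) (nat_lit 147) (nat_lit 138) (nat_lit 105))))) (PT.nd (nat_lit 234) (PT.nd (nat_lit 78) (PT.lf (nat_lit 5016) (nat_lit 6) (nat_lit 66) (nat_lit 5) (nat_lit 104) (nat_lit 139) (nat_lit 147)) (PT.nd (nat_lit 78) (PT.lf (nat_lit 5472) (nat_lit 6) (nat_lit 72) (nat_lit 5) (nat_lit 105) (nat_lit 139) (nat_lit 146)) (PT.lf (nat_lit 5852) (nat_lit 6) (nat_lit 77) (nat_lit 5) (nat_lit 106) (nat_lit 139) (nat_lit 145)))) (PT.nd (nat_lit 78) (PT.lf (nat_lit 6308) (nat_lit 6) (nat_lit 83) (nat_lit 5) (nat_lit 107) (nat_lit 139) (nat_lit 144)) (PT.nd (nat_lit 78) (PT.lf (nat_lit 6764) (nat_lit 6) (nat_lit 89) (nat_lit 5) (nat_lit 108) (nat_lit 139) (nat_lit 143)) (PT.lf (nat_lit 7296) (nat_lit 6) (nat_lit 96) (nat_lit 5)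 (nat_lit 109) (nat_lit 139) (nat_lit 142)))))) (PT.nd (nat_lit 390) (PT.nd (nat_lit 156) (PT.nd (nat_lit 78) (PT.lf (nat_lit 7752) (nat_lit 6) (nat_lit 102) (nat_lit 5) (nat_lit 110) (nat_lit 139) (nat_lit 141)) (PT.lf (nat_lit 8284) (nat_lit 6) (nat_lit 109) (nat_lit 5) (nat_lit 111) (nat_lit 139) (nat_lit 140))) (PT.nd (nat_lit 78) (PT.lf (nat_lit 8816) (nat_lit 3) (nat_lit 116) (nat_lit 4) (nat_lit 112) (nat_lit 139) (nat_lit 139)) (PT.nd (nat_lit 78) (PT.lf (nat_lit 9348) (nat_lit 6) (nat_lit 123) (nat_lit 4) (nat_lit 113) (nat_lit 139) (nat_lit 138)) (PT.lf (nat_lit 9880) (nat_lit 6) (nat_lit 130) (nat_lit 4) (nat_lit 114) (nat_lit 139) (nat_lit 137))))) (PT.nd (nat_lit 234) (PT.nd (nat_lit 78) (PT.lf (nat_lit 10488) (nat_lit 6) (nat_lit 138) (nat_lit 4) (nat_lit 115) (nat_lit 139) (nat_lit 136)) (PT.nd (nat_lit 78) (PT.lf (nat_lit 11552) (nat_lit 6) (nat_lit 152) (nat_lit 4) (nat_lit 116)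 (nat_lit 139) (nat_lit 135)) (PT.lf (nat_lit 12540) (nat_lit 6) (nat_lit 165) (nat_lit 4) (nat_lit 117) (nat_lit 139) (nat_lit 134)))) (PT.nd (nat_lit 78) (PT.lf (nat_lit 13452) (nat_lit 6) (nat_lit 177) (nat_lit 4) (nat_lit 118) (nat_lit 139) (nat_lit 133)) (PT.nd (nat_lit 78) (PT.lf (nat_lit 14288) (nat_lit 6) (nat_lit 188) (nat_lit 4) (nat_lit 119) (nat_lit 139) (nat_lit 132)) (PT.lf (nat_lit 15048) (nat_lit 6) (nat_lit 198) (nat_lit 4) (nat_lit 120) (nat_lit 139) (nat_lit 131))))))) (PT.nd (nat_lit 858) (PT.nd (nat_lit 390) (PT.nd (nat_lit 156) (PT.nd (nat_lit 78) (PT.lf (nat_lit 15732) (nat_lit 6) (nat_lit 207) (nat_lit 4) (nat_lit 121) (nat_lit 139) (nat_lit 130)) (PT.lf (nat_lit 15656) (nat_lit 6) (nat_lit 206) (nat_lit 4) (nat_lit 122) (nat_lit 139) (nat_lit 129))) (PT.nd (nat_lit 78) (PT.lf (nat_lit 15580) (nat_lit 6) (nat_lit 205) (nat_lit 4) (nat_lit 123) (nat_lit 139) (nat_lit 128))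 (PT.nd (nat_lit 78) (PT.lf (nat_lit 15504) (nat_lit 6) (nat_lit 204) (nat_lit 4) (nat_lit 124) (nat_lit 139) (nat_lit 127)) (PT.lf (nat_lit 15428) (nat_lit 6) (nat_lit 203) (nat_lit 4) (nat_lit 125) (nat_lit 139) (nat_lit 126))))) (PT.nd (nat_lit 234) (PT.nd (nat_lit 78) (PT.lf (nat_lit 15428) (nat_lit 6) (nat_lit 203) (nat_lit 2) (nat_lit 126) (nat_lit 139) (nat_lit 125)) (PT.nd (nat_lit 78) (PT.lf (nat_lit 15504) (nat_lit 6) (nat_lit 204) (nat_lit 2) (nat_lit 127) (nat_lit 139) (nat_lit 124)) (PT.lf (nat_lit 15580) (nat_lit 6) (nat_lit 205) (nat_lit 2) (nat_lit 128) (nat_lit 139) (nat_lit 123)))) (PT.nd (nat_lit 78) (PT.lf (nat_lit 15656) (nat_lit 6) (nat_lit 206) (nat_lit 2) (nat_lit 129) (nat_lit 139) (nat_lit 122)) (PT.nd (nat_lit 78) (PT.lf (nat_lit 15732) (nat_lit 6) (nat_lit 207) (nat_lit 2) (nat_lit 130) (nat_lit 139) (nat_lit 121)) (PT.lf (nat_lit 15048) (nat_lit 6) (nat_lit 198) (nat_lit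 2) (nat_lit 131) (nat_lit 139) (nat_lit 120)))))) (PT.nd (nat_lit 390) (PT.nd (nat_lit 156) (PT.nd (nat_lit 78) (PT.lf (nat_lit 14288) (nat_lit 6) (nat_lit 188) (nat_lit 2) (nat_lit 132) (nat_lit 139) (nat_lit 119)) (PT.lf (nat_lit 13452) (nat_lit 6) (nat_lit 177) (nat_lit 2) (nat_lit 133) (nat_lit 139) (nat_lit 118))) (PT.nd (nat_lit 78) (PT.lf (nat_lit 12540) (nat_lit 6) (nat_lit 165) (nat_lit 2) (nat_lit 134) (nat_lit 139) (nat_lit 117)) (PT.nd (nat_lit 78) (PT.lf (nat_lit 11552) (nat_lit 6) (nat_lit 152) (nat_lit 2) (nat_lit 135) (nat_lit 139) (nat_lit 116)) (PT.lf (nat_lit 10488) (nat_lit 6) (nat_lit 138) (nat_lit 2) (nat_lit 136) (nat_lit 139) (nat_lit 115))))) (PT.nd (nat_lit 234) (PT.nd (nat_lit 78) (PT.lf (nat_lit 9880) (nat_lit 6) (nat_lit 130) (nat_lit 2) (nat_lit 137) (nat_lit 139) (nat_lit 114)) (PT.nd (nat_lit 78) (PT.lf (nat_lit 9348) (nat_lit 6) (nat_lit 123) (nat_lit 2) (nat_lit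 138) (nat_lit 139) (nat_lit 113)) (PT.lf (nat_lit 8816) (nat_lit 3) (nat_lit 116) (nat_lit 0) (nat_lit 139) (nat_lit 139) (nat_lit 112)))) (PT.nd (nat_lit 78) (PT.lf (nat_lit 8284) (nat_lit 6) (nat_lit 109) (nat_lit 0) (nat_lit 140) (nat_lit 139) (nat_lit 111)) (PT.nd (nat_lit 78) (PT.lf (nat_lit 7752) (nat_lit 6) (nat_lit 102) (nat_lit 0) (nat_lit 141) (nat_lit 139) (nat_lit 110)) (PT.lf (nat_lit 7296) (nat_lit 6) (nat_lit 96) (nat_lit 0) (nat_lit 142) (nat_lit 139) (nat_lit 109))))))))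
noncomputable def pc21 : PT := (PT.nd (nat_lit 38844) (PT.nd (nat_lit 37986) (PT.nd (nat_lit 37518) (PT.nd (nat_lit 156) (PT.nd (nat_lit 78) (PT.lf (nat_lit 6764) (nat_lit 6) (nat_lit 89) (nat_lit 0) (nat_lit 143) (nat_lit 139) (nat_lit 108)) (PT.lf (nat_lit 6308) (nat_lit 6) (nat_lit 83) (nat_lit 0) (nat_lit 144) (nat_lit 139) (nat_lit 107))) (PT.nd (nat_lit 78) (PT.lf (nat_lit 5852) (nat_lit 6) (nat_lit 77) (nat_lit 0) (nat_lit 145) (nat_lit 139) (nat_lit 106)) (PT.nd (nat_lit 78) (PT.lf (nat_lit 5472) (nat_lit 6) (nat_lit 72) (nat_lit 0) (nat_lit 146) (nat_lit 139) (nat_lit 105)) (PT.lf (nat_lit 5016) (nat_lit 6) (nat_lit 66) (nat_lit 0) (nat_lit 147) (nat_lit 139) (nat_lit 104))))) (PT.nd (nat_lit 234) (PT.nd (nat_lit 78) (PT.lf (nat_lit 4712) (nat_lit 6) (nat_lit 62) (nat_lit 5) (nat_lit 103) (nat_lit 140) (nat_lit 147)) (PT.nd (nat_lit 78) (PT.lf (nat_lit 5092) (nat_lit 6) (nat_lit 67)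 (nat_lit 5) (nat_lit 104) (nat_lit 140) (nat_lit 146)) (PT.lf (nat_lit 5548) (nat_lit 6) (nat_lit 73) (nat_lit 5) (nat_lit 105) (nat_lit 140) (nat_lit 145)))) (PT.nd (nat_lit 78) (PT.lf (nat_lit 5928) (nat_lit 6) (nat_lit 78) (nat_lit 5) (nat_lit 106) (nat_lit 140) (nat_lit 144)) (PT.nd (nat_lit 78) (PT.lf (nat_lit 6384) (nat_lit 6) (nat_lit 84) (nat_lit 5) (nat_lit 107) (nat_lit 140) (nat_lit 143)) (PT.lf (nat_lit 6840) (nat_lit 6) (nat_lit 90) (nat_lit 5) (nat_lit 108) (nat_lit 140) (nat_lit 142)))))) (PT.nd (nat_lit 390) (PT.nd (nat_lit 156) (PT.nd (nat_lit 78) (PT.lf (nat_lit 7372) (nat_lit 6) (nat_lit 97) (nat_lit 5) (nat_lit 109) (nat_lit 140) (nat_lit 141)) (PT.lf (nat_lit 7828) (nat_lit 3) (nat_lit 103) (nat_lit 4) (nat_lit 110) (nat_lit 140) (nat_lit 140))) (PT.nd (nat_lit 78) (PT.lf (nat_lit 8284) (nat_lit 6) (nat_lit 109) (nat_lit 4) (nat_lit 111) (nat_lit 140) (nat_lit 139)) (PT.nd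 (nat_lit 78) (PT.lf (nat_lit 8740) (nat_lit 6) (nat_lit 115) (nat_lit 4) (nat_lit 112) (nat_lit 140) (nat_lit 138)) (PT.lf (nat_lit 9272) (nat_lit 6) (nat_lit 122) (nat_lit 4) (nat_lit 113) (nat_lit 140) (nat_lit 137))))) (PT.nd (nat_lit 234) (PT.nd (nat_lit 78) (PT.lf (nat_lit 9804) (nat_lit 6) (nat_lit 129) (nat_lit 4) (nat_lit 114) (nat_lit 140) (nat_lit 136)) (PT.nd (nat_lit 78) (PT.lf (nat_lit 10412) (nat_lit 6) (nat_lit 137) (nat_lit 4) (nat_lit 115) (nat_lit 140) (nat_lit 135)) (PT.lf (nat_lit 11476) (nat_lit 6) (nat_lit 151) (nat_lit 4) (nat_lit 116) (nat_lit 140) (nat_lit 134)))) (PT.nd (nat_lit 78) (PT.lf (nat_lit 12464) (nat_lit 6) (nat_lit 164) (nat_lit 4) (nat_lit 117) (nat_lit 140) (nat_lit 133)) (PT.nd (nat_lit 78) (PT.lf (nat_lit 13376) (nat_lit 6) (nat_lit 176) (nat_lit 4) (nat_lit 118) (nat_lit 140) (nat_lit 132)) (PT.lf (nat_lit 14212) (nat_lit 6) (nat_lit 187) (nat_lit 4)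 (nat_lit 119) (nat_lit 140) (nat_lit 131))))))) (PT.nd (nat_lit 858) (PT.nd (nat_lit 390) (PT.nd (nat_lit 156) (PT.nd (nat_lit 78) (PT.lf (nat_lit 14972) (nat_lit 6) (nat_lit 197) (nat_lit 4) (nat_lit 120) (nat_lit 140) (nat_lit 130)) (PT.lf (nat_lit 14896) (nat_lit 6) (nat_lit 196) (nat_lit 4) (nat_lit 121) (nat_lit 140) (nat_lit 129))) (PT.nd (nat_lit 78) (PT.lf (nat_lit 14820) (nat_lit 6) (nat_lit 195) (nat_lit 4) (nat_lit 122) (nat_lit 140) (nat_lit 128)) (PT.nd (nat_lit 78) (PT.lf (nat_lit 14744) (nat_lit 6) (nat_lit 194) (nat_lit 4) (nat_lit 123) (nat_lit 140) (nat_lit 127)) (PT.lf (nat_lit 14668) (nat_lit 6) (nat_lit 193) (nat_lit 4) (nat_lit 124) (nat_lit 140) (nat_lit 126))))) (PT.nd (nat_lit 234) (PT.nd (nat_lit 78) (PT.lf (nat_lit 14592) (nat_lit 3) (nat_lit 192) (nat_lit 2) (nat_lit 125) (nat_lit 140) (nat_lit 125)) (PT.nd (nat_lit 78) (PT.lf (nat_lit 14668) (nat_lit 6) (nat_lit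 193) (nat_lit 2) (nat_lit 126) (nat_lit 140) (nat_lit 124)) (PT.lf (nat_lit 14744) (nat_lit 6) (nat_lit 194) (nat_lit 2) (nat_lit 127) (nat_lit 140) (nat_lit 123)))) (PT.nd (nat_lit 78) (PT.lf (nat_lit 14820) (nat_lit 6) (nat_lit 195) (nat_lit 2) (nat_lit 128) (nat_lit 140) (nat_lit 122)) (PT.nd (nat_lit 78) (PT.lf (nat_lit 14896) (nat_lit 6) (nat_lit 196) (nat_lit 2) (nat_lit 129) (nat_lit 140) (nat_lit 121)) (PT.lf (nat_lit 14972) (nat_lit 6) (nat_lit 197) (nat_lit 2) (nat_lit 130) (nat_lit 140) (nat_lit 120)))))) (PT.nd (nat_lit 390) (PT.nd (nat_lit 156) (PT.nd (nat_lit 78) (PT.lf (nat_lit 14212) (nat_lit 6) (nat_lit 187) (nat_lit 2) (nat_lit 131) (nat_lit 140) (nat_lit 119)) (PT.lf (nat_lit 13376) (nat_lit 6) (nat_lit 176) (nat_lit 2) (nat_lit 132) (nat_lit 140) (nat_lit 118))) (PT.nd (nat_lit 78) (PT.lf (nat_lit 12464) (nat_lit 6) (nat_lit 164) (nat_lit 2) (nat_lit 133) (nat_lit 140) (nat_lit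 117)) (PT.nd (nat_lit 78) (PT.lf (nat_lit 11476) (nat_lit 6) (nat_lit 151) (nat_lit 2) (nat_lit 134) (nat_lit 140) (nat_lit 116)) (PT.lf (nat_lit 10412) (nat_lit 6) (nat_lit 137) (nat_lit 2) (nat_lit 135) (nat_lit 140) (nat_lit 115))))) (PT.nd (nat_lit 234) (PT.nd (nat_lit 78) (PT.lf (nat_lit 9804) (nat_lit 6) (nat_lit 129) (nat_lit 2) (nat_lit 136) (nat_lit 140) (nat_lit 114)) (PT.nd (nat_lit 78) (PT.lf (nat_lit 9272) (nat_lit 6) (nat_lit 122) (nat_lit 2) (nat_lit 137) (nat_lit 140) (nat_lit 113)) (PT.lf (nat_lit 8740) (nat_lit 6) (nat_lit 115) (nat_lit 2) (nat_lit 138) (nat_lit 140) (nat_lit 112)))) (PT.nd (nat_lit 78) (PT.lf (nat_lit 8284) (nat_lit 6) (nat_lit 109) (nat_lit 2) (nat_lit 139) (nat_lit 140) (nat_lit 111)) (PT.nd (nat_lit 78) (PT.lf (nat_lit 7828) (nat_lit 3) (nat_lit 103) (nat_lit 0) (nat_lit 140) (nat_lit 140) (nat_lit 110)) (PT.lf (nat_lit 7372) (nat_lit 6) (nat_lit 97) (nat_lit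 0) (nat_lit 141) (nat_lit 140) (nat_lit 109))))))))
noncomputable def pc22 : PT := (PT.nd (nat_lit 38688) (PT.nd (nat_lit 37830) (PT.nd (nat_lit 390) (PT.nd (nat_lit 156) (PT.nd (nat_lit 78) (PT.lf (nat_lit 6840) (nat_lit 6) (nat_lit 90) (nat_lit 0) (nat_lit 142) (nat_lit 140) (nat_lit 108)) (PT.lf (nat_lit 6384) (nat_lit 6) (nat_lit 84) (nat_lit 0) (nat_lit 143) (nat_lit 140) (nat_lit 107))) (PT.nd (nat_lit 78) (PT.lf (nat_lit 5928) (nat_lit 6) (nat_lit 78) (nat_lit 0) (nat_lit 144) (nat_lit 140) (nat_lit 106)) (PT.nd (nat_lit 78) (PT.lf (nat_lit 5548) (nat_lit 6) (nat_lit 73) (nat_lit 0) (nat_lit 145) (nat_lit 140) (nat_lit 105)) (PT.lf (nat_lit 5092) (nat_lit 6) (nat_lit 67) (nat_lit 0) (nat_lit 146) (nat_lit 140) (nat_lit 104))))) (PT.nd (nat_lit 37206) (PT.nd (nat_lit 37050) (PT.lf (nat_lit 4712) (nat_lit 6) (nat_lit 62) (nat_lit 0) (nat_lit 147) (nat_lit 140) (nat_lit 103)) (PT.nd (nat_lit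 78) (PT.lf (nat_lit 4104) (nat_lit 6) (nat_lit 54) (nat_lit 5) (nat_lit 101) (nat_lit 141) (nat_lit 148)) (PT.lf (nat_lit 4408) (nat_lit 6) (nat_lit 58) (nat_lit 5) (nat_lit 102) (nat_lit 141) (nat_lit 147)))) (PT.nd (nat_lit 78) (PT.lf (nat_lit 4788) (nat_lit 6) (nat_lit 63) (nat_lit 5) (nat_lit 103) (nat_lit 141) (nat_lit 146)) (PT.nd (nat_lit 78) (PT.lf (nat_lit 5168) (nat_lit 6) (nat_lit 68) (nat_lit 5) (nat_lit 104) (nat_lit 141) (nat_lit 145)) (PT.lf (nat_lit 5624) (nat_lit 6) (nat_lit 74) (nat_lit 5) (nat_lit 105) (nat_lit 141) (nat_lit 144)))))) (PT.nd (nat_lit 390) (PT.nd (nat_lit 156) (PT.nd (nat_lit 78) (PT.lf (nat_lit 6004) (nat_lit 6) (nat_lit 79) (nat_lit 5) (nat_lit 106) (nat_lit 141) (nat_lit 143)) (PT.lf (nat_lit 6460) (nat_lit 6) (nat_lit 85) (nat_lit 5) (nat_lit 107) (nat_lit 141) (nat_lit 142))) (PT.nd (nat_lit 78) (PT.lf (nat_lit 6916) (nat_lit 3) (nat_lit 91) (nat_lit 4)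 (nat_lit 108) (nat_lit 141) (nat_lit 141)) (PT.nd (nat_lit 78) (PT.lf (nat_lit 7372) (nat_lit 6) (nat_lit 97) (nat_lit 4) (nat_lit 109) (nat_lit 141) (nat_lit 140)) (PT.lf (nat_lit 7752) (nat_lit 6) (nat_lit 102) (nat_lit 4) (nat_lit 110) (nat_lit 141) (nat_lit 139))))) (PT.nd (nat_lit 234) (PT.nd (nat_lit 78) (PT.lf (nat_lit 8208) (nat_lit 6) (nat_lit 108) (nat_lit 4) (nat_lit 111) (nat_lit 141) (nat_lit 138)) (PT.nd (nat_lit 78) (PT.lf (nat_lit 8664) (nat_lit 6) (nat_lit 114) (nat_lit 4) (nat_lit 112) (nat_lit 141) (nat_lit 137)) (PT.lf (nat_lit 9196) (nat_lit 6) (nat_lit 121) (nat_lit 4) (nat_lit 113) (nat_lit 141) (nat_lit 136)))) (PT.nd (nat_lit 78) (PT.lf (nat_lit 9728) (nat_lit 6) (nat_lit 128) (nat_lit 4) (nat_lit 114) (nat_lit 141) (nat_lit 135)) (PT.nd (nat_lit 78) (PT.lf (nat_lit 10336) (nat_lit 6) (nat_lit 136) (nat_lit 4) (nat_lit 115) (nat_lit 141) (nat_lit 134)) (PT.lf (nat_lit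 11400) (nat_lit 6) (nat_lit 150) (nat_lit 4) (nat_lit 116) (nat_lit 141) (nat_lit 133))))))) (PT.nd (nat_lit 858) (PT.nd (nat_lit 390) (PT.nd (nat_lit 156) (PT.nd (nat_lit 78) (PT.lf (nat_lit 12388) (nat_lit 6) (nat_lit 163) (nat_lit 4) (nat_lit 117) (nat_lit 141) (nat_lit 132)) (PT.lf (nat_lit 13300) (nat_lit 6) (nat_lit 175) (nat_lit 4) (nat_lit 118) (nat_lit 141) (nat_lit 131))) (PT.nd (nat_lit 78) (PT.lf (nat_lit 14136) (nat_lit 6) (nat_lit 186) (nat_lit 4) (nat_lit 119) (nat_lit 141) (nat_lit 130)) (PT.nd (nat_lit 78) (PT.lf (nat_lit 14060) (nat_lit 6) (nat_lit 185) (nat_lit 4) (nat_lit 120) (nat_lit 141) (nat_lit 129)) (PT.lf (nat_lit 13984) (nat_lit 6) (nat_lit 184) (nat_lit 4) (nat_lit 121) (nat_lit 141) (nat_lit 128))))) (PT.nd (nat_lit 234) (PT.nd (nat_lit 78) (PT.lf (nat_lit 13908) (nat_lit 6) (nat_lit 183) (nat_lit 4) (nat_lit 122) (nat_lit 141) (nat_lit 127)) (PT.nd (nat_lit 78)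 (PT.lf (nat_lit 13832) (nat_lit 6) (nat_lit 182) (nat_lit 4) (nat_lit 123) (nat_lit 141) (nat_lit 126)) (PT.lf (nat_lit 13756) (nat_lit 6) (nat_lit 181) (nat_lit 4) (nat_lit 124) (nat_lit 141) (nat_lit 125)))) (PT.nd (nat_lit 78) (PT.lf (nat_lit 13756) (nat_lit 6) (nat_lit 181) (nat_lit 2) (nat_lit 125) (nat_lit 141) (nat_lit 124)) (PT.nd (nat_lit 78) (PT.lf (nat_lit 13832) (nat_lit 6) (nat_lit 182) (nat_lit 2) (nat_lit 126) (nat_lit 141) (nat_lit 123)) (PT.lf (nat_lit 13908) (nat_lit 6) (nat_lit 183) (nat_lit 2) (nat_lit 127) (nat_lit 141) (nat_lit 122)))))) (PT.nd (nat_lit 390) (PT.nd (nat_lit 156) (PT.nd (nat_lit 78) (PT.lf (nat_lit 13984) (nat_lit 6) (nat_lit 184) (nat_lit 2) (nat_lit 128) (nat_lit 141) (nat_lit 121)) (PT.lf (nat_lit 14060) (nat_lit 6) (nat_lit 185) (nat_lit 2) (nat_lit 129) (nat_lit 141) (nat_lit 120))) (PT.nd (nat_lit 78) (PT.lf (nat_lit 14136) (nat_lit 6) (nat_lit 186)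 (nat_lit 2) (nat_lit 130) (nat_lit 141) (nat_lit 119)) (PT.nd (nat_lit 78) (PT.lf (nat_lit 13300) (nat_lit 6) (nat_lit 175) (nat_lit 2) (nat_lit 131) (nat_lit 141) (nat_lit 118)) (PT.lf (nat_lit 12388) (nat_lit 6) (nat_lit 163) (nat_lit 2) (nat_lit 132) (nat_lit 141) (nat_lit 117))))) (PT.nd (nat_lit 234) (PT.nd (nat_lit 78) (PT.lf (nat_lit 11400) (nat_lit 6) (nat_lit 150) (nat_lit 2) (nat_lit 133) (nat_lit 141) (nat_lit 116)) (PT.nd (nat_lit 78) (PT.lf (nat_lit 10336) (nat_lit 6) (nat_lit 136) (nat_lit 2) (nat_lit 134) (nat_lit 141) (nat_lit 115)) (PT.lf (nat_lit 9728) (nat_lit 6) (nat_lit 128) (nat_lit 2) (nat_lit 135) (nat_lit 141) (nat_lit 114)))) (PT.nd (nat_lit 78) (PT.lf (nat_lit 9196) (nat_lit 6) (nat_lit 121) (nat_lit 2) (nat_lit 136) (nat_lit 141) (nat_lit 113)) (PT.nd (nat_lit 78) (PT.lf (nat_lit 8664) (nat_lit 6) (nat_lit 114) (nat_lit 2) (nat_lit 137) (nat_lit 141) (nat_lit 112))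 (PT.lf (nat_lit 8208) (nat_lit 6) (nat_lit 108) (nat_lit 2) (nat_lit 138) (nat_lit 141) (nat_lit 111))))))))
noncomputable def pc23 : PT := (PT.nd (nat_lit 38532) (PT.nd (nat_lit 37674) (PT.nd (nat_lit 390) (PT.nd (nat_lit 156) (PT.nd (nat_lit 78) (PT.lf (nat_lit 7752) (nat_lit 6) (nat_lit 102) (nat_lit 2) (nat_lit 139) (nat_lit 141) (nat_lit 110)) (PT.lf (nat_lit 7372) (nat_lit 6) (nat_lit 97) (nat_lit 2) (nat_lit 140) (nat_lit 141) (nat_lit 109))) (PT.nd (nat_lit 78) (PT.lf (nat_lit 6916) (nat_lit 3) (nat_lit 91) (nat_lit 0) (nat_lit 141) (nat_lit 141) (nat_lit 108)) (PT.nd (nat_lit 78) (PT.lf (nat_lit 6460) (nat_lit 6) (nat_lit 85) (nat_lit 0) (nat_lit 142) (nat_lit 141) (nat_lit 107)) (PT.lf (nat_lit 6004) (nat_lit 6) (nat_lit 79) (nat_lit 0) (nat_lit 143) (nat_lit 141) (nat_lit 106))))) (PT.nd (nat_lit 234) (PT.nd (nat_lit 78) (PT.lf (nat_lit 5624) (nat_lit 6) (nat_lit 74) (nat_lit 0) (nat_lit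 144) (nat_lit 141) (nat_lit 105)) (PT.nd (nat_lit 78) (PT.lf (nat_lit 5168) (nat_lit 6) (nat_lit 68) (nat_lit 0) (nat_lit 145) (nat_lit 141) (nat_lit 104)) (PT.lf (nat_lit 4788) (nat_lit 6) (nat_lit 63) (nat_lit 0) (nat_lit 146) (nat_lit 141) (nat_lit 103)))) (PT.nd (nat_lit 78) (PT.lf (nat_lit 4408) (nat_lit 6) (nat_lit 58) (nat_lit 0) (nat_lit 147) (nat_lit 141) (nat_lit 102)) (PT.nd (nat_lit 36894) (PT.lf (nat_lit 4104) (nat_lit 6) (nat_lit 54) (nat_lit 0) (nat_lit 148) (nat_lit 141) (nat_lit 101)) (PT.lf (nat_lit 3800) (nat_lit 6) (nat_lit 50) (nat_lit 5) (nat_lit 100) (nat_lit 142) (nat_lit 148)))))) (PT.nd (nat_lit 390) (PT.nd (nat_lit 156) (PT.nd (nat_lit 78) (PT.lf (nat_lit 4180) (nat_lit 6) (nat_lit 55) (nat_lit 5) (nat_lit 101) (nat_lit 142) (nat_lit 147)) (PT.lf (nat_lit 4484) (nat_lit 6) (nat_lit 59) (nat_lit 5) (nat_lit 102) (nat_lit 142) (nat_lit 146))) (PT.nd (nat_lit 78) (PT.lf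 (nat_lit 4864) (nat_lit 6) (nat_lit 64) (nat_lit 5) (nat_lit 103) (nat_lit 142) (nat_lit 145)) (PT.nd (nat_lit 78) (PT.lf (nat_lit 5244) (nat_lit 6) (nat_lit 69) (nat_lit 5) (nat_lit 104) (nat_lit 142) (nat_lit 144)) (PT.lf (nat_lit 5700) (nat_lit 6) (nat_lit 75) (nat_lit 5) (nat_lit 105) (nat_lit 142) (nat_lit 143))))) (PT.nd (nat_lit 234) (PT.nd (nat_lit 78) (PT.lf (nat_lit 6080) (nat_lit 3) (nat_lit 80) (nat_lit 4) (nat_lit 106) (nat_lit 142) (nat_lit 142)) (PT.nd (nat_lit 78) (PT.lf (nat_lit 6460) (nat_lit 6) (nat_lit 85) (nat_lit 4) (nat_lit 107) (nat_lit 142) (nat_lit 141)) (PT.lf (nat_lit 6840) (nat_lit 6) (nat_lit 90) (nat_lit 4) (nat_lit 108) (nat_lit 142) (nat_lit 140)))) (PT.nd (nat_lit 78) (PT.lf (nat_lit 7296) (nat_lit 6) (nat_lit 96) (nat_lit 4) (nat_lit 109) (nat_lit 142) (nat_lit 139)) (PT.nd (nat_lit 78) (PT.lf (nat_lit 7676) (nat_lit 6) (nat_lit 101) (nat_lit 4) (nat_lit 110)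 (nat_lit 142) (nat_lit 138)) (PT.lf (nat_lit 8132) (nat_lit 6) (nat_lit 107) (nat_lit 4) (nat_lit 111) (nat_lit 142) (nat_lit 137))))))) (PT.nd (nat_lit 858) (PT.nd (nat_lit 390) (PT.nd (nat_lit 156) (PT.nd (nat_lit 78) (PT.lf (nat_lit 8588) (nat_lit 6) (nat_lit 113) (nat_lit 4) (nat_lit 112) (nat_lit 142) (nat_lit 136)) (PT.lf (nat_lit 9120) (nat_lit 6) (nat_lit 120) (nat_lit 4) (nat_lit 113) (nat_lit 142) (nat_lit 135))) (PT.nd (nat_lit 78) (PT.lf (nat_lit 9652) (nat_lit 6) (nat_lit 127) (nat_lit 4) (nat_lit 114) (nat_lit 142) (nat_lit 134)) (PT.nd (nat_lit 78) (PT.lf (nat_lit 10260) (nat_lit 6) (nat_lit 135) (nat_lit 4) (nat_lit 115) (nat_lit 142) (nat_lit 133)) (PT.lf (nat_lit 11324) (nat_lit 6) (nat_lit 149) (nat_lit 4) (nat_lit 116) (nat_lit 142) (nat_lit 132))))) (PT.nd (nat_lit 234) (PT.nd (nat_lit 78) (PT.lf (nat_lit 12312) (nat_lit 6) (nat_lit 162) (nat_lit 4) (nat_lit 117) (nat_lit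 142) (nat_lit 131)) (PT.nd (nat_lit 78) (PT.lf (nat_lit 13224) (nat_lit 6) (nat_lit 174) (nat_lit 4) (nat_lit 118) (nat_lit 142) (nat_lit 130)) (PT.lf (nat_lit 13148) (nat_lit 6) (nat_lit 173) (nat_lit 4) (nat_lit 119) (nat_lit 142) (nat_lit 129)))) (PT.nd (nat_lit 78) (PT.lf (nat_lit 13072) (nat_lit 6) (nat_lit 172) (nat_lit 4) (nat_lit 120) (nat_lit 142) (nat_lit 128)) (PT.nd (nat_lit 78) (PT.lf (nat_lit 12996) (nat_lit 6) (nat_lit 171) (nat_lit 4) (nat_lit 121) (nat_lit 142) (nat_lit 127)) (PT.lf (nat_lit 12920) (nat_lit 6) (nat_lit 170) (nat_lit 4) (nat_lit 122) (nat_lit 142) (nat_lit 126)))))) (PT.nd (nat_lit 390) (PT.nd (nat_lit 156) (PT.nd (nat_lit 78) (PT.lf (nat_lit 12844) (nat_lit 6) (nat_lit 169) (nat_lit 4) (nat_lit 123) (nat_lit 142) (nat_lit 125)) (PT.lf (nat_lit 12768) (nat_lit 3) (nat_lit 168) (nat_lit 2) (nat_lit 124) (nat_lit 142) (nat_lit 124))) (PT.nd (nat_lit 78) (PT.lf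 (nat_lit 12844) (nat_lit 6) (nat_lit 169) (nat_lit 2) (nat_lit 125) (nat_lit 142) (nat_lit 123)) (PT.nd (nat_lit 78) (PT.lf (nat_lit 12920) (nat_lit 6) (nat_lit 170) (nat_lit 2) (nat_lit 126) (nat_lit 142) (nat_lit 122)) (PT.lf (nat_lit 12996) (nat_lit 6) (nat_lit 171) (nat_lit 2) (nat_lit 127) (nat_lit 142) (nat_lit 121))))) (PT.nd (nat_lit 234) (PT.nd (nat_lit 78) (PT.lf (nat_lit 13072) (nat_lit 6) (nat_lit 172) (nat_lit 2) (nat_lit 128) (nat_lit 142) (nat_lit 120)) (PT.nd (nat_lit 78) (PT.lf (nat_lit 13148) (nat_lit 6) (nat_lit 173) (nat_lit 2) (nat_lit 129) (nat_lit 142) (nat_lit 119)) (PT.lf (nat_lit 13224) (nat_lit 6) (nat_lit 174) (nat_lit 2) (nat_lit 130) (nat_lit 142) (nat_lit 118)))) (PT.nd (nat_lit 78) (PT.lf (nat_lit 12312) (nat_lit 6) (nat_lit 162) (nat_lit 2) (nat_lit 131) (nat_lit 142) (nat_lit 117)) (PT.nd (nat_lit 78) (PT.lf (nat_lit 11324) (nat_lit 6) (nat_lit 149) (nat_lit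 2) (nat_lit 132) (nat_lit 142) (nat_lit 116)) (PT.lf (nat_lit 10260) (nat_lit 6) (nat_lit 135) (nat_lit 2) (nat_lit 133) (nat_lit 142) (nat_lit 115))))))))
noncomputable def pc24 : PT := (PT.nd (nat_lit 38376) (PT.nd (nat_lit 858) (PT.nd (nat_lit 390) (PT.nd (nat_lit 156) (PT.nd (nat_lit 78) (PT.lf (nat_lit 9652) (nat_lit 6) (nat_lit 127) (nat_lit 2) (nat_lit 134) (nat_lit 142) (nat_lit 114)) (PT.lf (nat_lit 9120) (nat_lit 6) (nat_lit 120) (nat_lit 2) (nat_lit 135) (nat_lit 142) (nat_lit 113))) (PT.nd (nat_lit 78) (PT.lf (nat_lit 8588) (nat_lit 6) (nat_lit 113) (nat_lit 2) (nat_lit 136) (nat_lit 142) (nat_lit 112)) (PT.nd (nat_lit 78) (PT.lf (nat_lit 8132) (nat_lit 6) (nat_lit 107) (nat_lit 2) (nat_lit 137) (nat_lit 142) (nat_lit 111)) (PT.lf (nat_lit 7676) (nat_lit 6) (nat_lit 101) (nat_lit 2) (nat_lit 138) (nat_lit 142) (nat_lit 110))))) (PT.nd (nat_lit 234) (PT.nd (nat_lit 78) (PT.lf (nat_lit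 7296) (nat_lit 6) (nat_lit 96) (nat_lit 2) (nat_lit 139) (nat_lit 142) (nat_lit 109)) (PT.nd (nat_lit 78) (PT.lf (nat_lit 6840) (nat_lit 6) (nat_lit 90) (nat_lit 2) (nat_lit 140) (nat_lit 142) (nat_lit 108)) (PT.lf (nat_lit 6460) (nat_lit 6) (nat_lit 85) (nat_lit 2) (nat_lit 141) (nat_lit 142) (nat_lit 107)))) (PT.nd (nat_lit 78) (PT.lf (nat_lit 6080) (nat_lit 3) (nat_lit 80) (nat_lit 0) (nat_lit 142) (nat_lit 142) (nat_lit 106)) (PT.nd (nat_lit 78) (PT.lf (nat_lit 5700) (nat_lit 6) (nat_lit 75) (nat_lit 0) (nat_lit 143) (nat_lit 142) (nat_lit 105)) (PT.lf (nat_lit 5244) (nat_lit 6) (nat_lit 69) (nat_lit 0) (nat_lit 144) (nat_lit 142) (nat_lit 104)))))) (PT.nd (nat_lit 37050) (PT.nd (nat_lit 156) (PT.nd (nat_lit 78) (PT.lf (nat_lit 4864) (nat_lit 6) (nat_lit 64) (nat_lit 0) (nat_lit 145) (nat_lit 142) (nat_lit 103)) (PT.lf (nat_lit 4484) (nat_lit 6) (nat_lit 59) (nat_lit 0) (nat_lit 146) (nat_lit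 142) (nat_lit 102))) (PT.nd (nat_lit 78) (PT.lf (nat_lit 4180) (nat_lit 6) (nat_lit 55) (nat_lit 0) (nat_lit 147) (nat_lit 142) (nat_lit 101)) (PT.nd (nat_lit 36738) (PT.lf (nat_lit 3800) (nat_lit 6) (nat_lit 50) (nat_lit 0) (nat_lit 148) (nat_lit 142) (nat_lit 100)) (PT.lf (nat_lit 3268) (nat_lit 6) (nat_lit 43) (nat_lit 5) (nat_lit 98) (nat_lit 143) (nat_lit 149))))) (PT.nd (nat_lit 234) (PT.nd (nat_lit 78) (PT.lf (nat_lit 3572) (nat_lit 6) (nat_lit 47) (nat_lit 5) (nat_lit 99) (nat_lit 143) (nat_lit 148)) (PT.nd (nat_lit 78) (PT.lf (nat_lit 3876) (nat_lit 6) (nat_lit 51) (nat_lit 5) (nat_lit 100) (nat_lit 143) (nat_lit 147)) (PT.lf (nat_lit 4256) (nat_lit 6) (nat_lit 56) (nat_lit 5) (nat_lit 101) (nat_lit 143) (nat_lit 146)))) (PT.nd (nat_lit 78) (PT.lf (nat_lit 4560) (nat_lit 6) (nat_lit 60) (nat_lit 5) (nat_lit 102) (nat_lit 143) (nat_lit 145)) (PT.nd (nat_lit 78) (PT.lf (nat_lit 4940)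 (nat_lit 6) (nat_lit 65) (nat_lit 5) (nat_lit 103) (nat_lit 143) (nat_lit 144)) (PT.lf (nat_lit 5320) (nat_lit 3) (nat_lit 70) (nat_lit 4) (nat_lit 104) (nat_lit 143) (nat_lit 143))))))) (PT.nd (nat_lit 858) (PT.nd (nat_lit 390) (PT.nd (nat_lit 156) (PT.nd (nat_lit 78) (PT.lf (nat_lit 5700) (nat_lit 6) (nat_lit 75) (nat_lit 4) (nat_lit 105) (nat_lit 143) (nat_lit 142)) (PT.lf (nat_lit 6004) (nat_lit 6) (nat_lit 79) (nat_lit 4) (nat_lit 106) (nat_lit 143) (nat_lit 141))) (PT.nd (nat_lit 78) (PT.lf (nat_lit 6384) (nat_lit 6) (nat_lit 84) (nat_lit 4) (nat_lit 107) (nat_lit 143) (nat_lit 140)) (PT.nd (nat_lit 78) (PT.lf (nat_lit 6764) (nat_lit 6) (nat_lit 89) (nat_lit 4) (nat_lit 108) (nat_lit 143) (nat_lit 139)) (PT.lf (nat_lit 7220) (nat_lit 6) (nat_lit 95) (nat_lit 4) (nat_lit 109) (nat_lit 143) (nat_lit 138))))) (PT.nd (nat_lit 234) (PT.nd (nat_lit 78) (PT.lf (nat_lit 7600) (nat_lit 6) (nat_lit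 100) (nat_lit 4) (nat_lit 110) (nat_lit 143) (nat_lit 137)) (PT.nd (nat_lit 78) (PT.lf (nat_lit 8056) (nat_lit 6) (nat_lit 106) (nat_lit 4) (nat_lit 111) (nat_lit 143) (nat_lit 136)) (PT.lf (nat_lit 8512) (nat_lit 6) (nat_lit 112) (nat_lit 4) (nat_lit 112) (nat_lit 143) (nat_lit 135)))) (PT.nd (nat_lit 78) (PT.lf (nat_lit 9044) (nat_lit 6) (nat_lit 119) (nat_lit 4) (nat_lit 113) (nat_lit 143) (nat_lit 134)) (PT.nd (nat_lit 78) (PT.lf (nat_lit 9576) (nat_lit 6) (nat_lit 126) (nat_lit 4) (nat_lit 114) (nat_lit 143) (nat_lit 133)) (PT.lf (nat_lit 10184) (nat_lit 6) (nat_lit 134) (nat_lit 4) (nat_lit 115) (nat_lit 143) (nat_lit 132)))))) (PT.nd (nat_lit 390) (PT.nd (nat_lit 156) (PT.nd (nat_lit 78) (PT.lf (nat_lit 11248) (nat_lit 6) (nat_lit 148) (nat_lit 4) (nat_lit 116) (nat_lit 143) (nat_lit 131)) (PT.lf (nat_lit 12236) (nat_lit 6) (nat_lit 161) (nat_lit 4) (nat_lit 117) (nat_lit 143) (nat_lit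 130))) (PT.nd (nat_lit 78) (PT.lf (nat_lit 12160) (nat_lit 6) (nat_lit 160) (nat_lit 4) (nat_lit 118) (nat_lit 143) (nat_lit 129)) (PT.nd (nat_lit 78) (PT.lf (nat_lit 12084) (nat_lit 6) (nat_lit 159) (nat_lit 4) (nat_lit 119) (nat_lit 143) (nat_lit 128)) (PT.lf (nat_lit 12008) (nat_lit 6) (nat_lit 158) (nat_lit 4) (nat_lit 120) (nat_lit 143) (nat_lit 127))))) (PT.nd (nat_lit 234) (PT.nd (nat_lit 78) (PT.lf (nat_lit 11932) (nat_lit 6) (nat_lit 157) (nat_lit 4) (nat_lit 121) (nat_lit 143) (nat_lit 126)) (PT.nd (nat_lit 78) (PT.lf (nat_lit 11856) (nat_lit 6) (nat_lit 156) (nat_lit 4) (nat_lit 122) (nat_lit 143) (nat_lit 125)) (PT.lf (nat_lit 11780) (nat_lit 6) (nat_lit 155) (nat_lit 4) (nat_lit 123) (nat_lit 143) (nat_lit 124)))) (PT.nd (nat_lit 78) (PT.lf (nat_lit 11780) (nat_lit 6) (nat_lit 155) (nat_lit 2) (nat_lit 124) (nat_lit 143) (nat_lit 123)) (PT.nd (nat_lit 78) (PT.lf (nat_lit 11856)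 (nat_lit 6) (nat_lit 156) (nat_lit 2) (nat_lit 125) (nat_lit 143) (nat_lit 122)) (PT.lf (nat_lit 11932) (nat_lit 6) (nat_lit 157) (nat_lit 2) (nat_lit 126) (nat_lit 143) (nat_lit 121))))))))
noncomputable def pc25 : PT := (PT.nd (nat_lit 1716) (PT.nd (nat_lit 858) (PT.nd (nat_lit 390) (PT.nd (nat_lit 156) (PT.nd (nat_lit 78) (PT.lf (nat_lit 12008) (nat_lit 6) (nat_lit 158) (nat_lit 2) (nat_lit 127) (nat_lit 143) (nat_lit 120)) (PT.lf (nat_lit 12084) (nat_lit 6) (nat_lit 159) (nat_lit 2) (nat_lit 128) (nat_lit 143) (nat_lit 119))) (PT.nd (nat_lit 78) (PT.lf (nat_lit 12160) (nat_lit 6) (nat_lit 160) (nat_lit 2) (nat_lit 129) (nat_lit 143) (nat_lit 118)) (PT.nd (nat_lit 78) (PT.lf (nat_lit 12236) (nat_lit 6) (nat_lit 161) (nat_lit 2) (nat_lit 130) (nat_lit 143) (nat_lit 117)) (PT.lf (nat_lit 11248) (nat_lit 6) (nat_lit 148) (nat_lit 2) (nat_lit 131) (nat_lit 143) (nat_lit 116))))) (PT.nd (nat_lit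 234) (PT.nd (nat_lit 78) (PT.lf (nat_lit 10184) (nat_lit 6) (nat_lit 134) (nat_lit 2) (nat_lit 132) (nat_lit 143) (nat_lit 115)) (PT.nd (nat_lit 78) (PT.lf (nat_lit 9576) (nat_lit 6) (nat_lit 126) (nat_lit 2) (nat_lit 133) (nat_lit 143) (nat_lit 114)) (PT.lf (nat_lit 9044) (nat_lit 6) (nat_lit 119) (nat_lit 2) (nat_lit 134) (nat_lit 143) (nat_lit 113)))) (PT.nd (nat_lit 78) (PT.lf (nat_lit 8512) (nat_lit 6) (nat_lit 112) (nat_lit 2) (nat_lit 135) (nat_lit 143) (nat_lit 112)) (PT.nd (nat_lit 78) (PT.lf (nat_lit 8056) (nat_lit 6) (nat_lit 106) (nat_lit 2) (nat_lit 136) (nat_lit 143) (nat_lit 111)) (PT.lf (nat_lit 7600) (nat_lit 6) (nat_lit 100) (nat_lit 2) (nat_lit 137) (nat_lit 143) (nat_lit 110)))))) (PT.nd (nat_lit 390) (PT.nd (nat_lit 156) (PT.nd (nat_lit 78) (PT.lf (nat_lit 7220) (nat_lit 6) (nat_lit 95) (nat_lit 2) (nat_lit 138) (nat_lit 143) (nat_lit 109)) (PT.lf (nat_lit 6764) (nat_lit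 6) (nat_lit 89) (nat_lit 2) (nat_lit 139) (nat_lit 143) (nat_lit 108))) (PT.nd (nat_lit 78) (PT.lf (nat_lit 6384) (nat_lit 6) (nat_lit 84) (nat_lit 2) (nat_lit 140) (nat_lit 143) (nat_lit 107)) (PT.nd (nat_lit 78) (PT.lf (nat_lit 6004) (nat_lit 6) (nat_lit 79) (nat_lit 2) (nat_lit 141) (nat_lit 143) (nat_lit 106)) (PT.lf (nat_lit 5700) (nat_lit 6) (nat_lit 75) (nat_lit 2) (nat_lit 142) (nat_lit 143) (nat_lit 105))))) (PT.nd (nat_lit 234) (PT.nd (nat_lit 78) (PT.lf (nat_lit 5320) (nat_lit 3) (nat_lit 70) (nat_lit 0) (nat_lit 143) (nat_lit 143) (nat_lit 104)) (PT.nd (nat_lit 78) (PT.lf (nat_lit 4940) (nat_lit 6) (nat_lit 65) (nat_lit 0) (nat_lit 144) (nat_lit 143) (nat_lit 103)) (PT.lf (nat_lit 4560) (nat_lit 6) (nat_lit 60) (nat_lit 0) (nat_lit 145) (nat_lit 143) (nat_lit 102)))) (PT.nd (nat_lit 78) (PT.lf (nat_lit 4256) (nat_lit 6) (nat_lit 56) (nat_lit 0) (nat_lit 146) (nat_lit 143) (nat_lit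 101)) (PT.nd (nat_lit 78) (PT.lf (nat_lit 3876) (nat_lit 6) (nat_lit 51) (nat_lit 0) (nat_lit 147) (nat_lit 143) (nat_lit 100)) (PT.lf (nat_lit 3572) (nat_lit 6) (nat_lit 47) (nat_lit 0) (nat_lit 148) (nat_lit 143) (nat_lit 99))))))) (PT.nd (nat_lit 37362) (PT.nd (nat_lit 36894) (PT.nd (nat_lit 36660) (PT.nd (nat_lit 36582) (PT.lf (nat_lit 3268) (nat_lit 6) (nat_lit 43) (nat_lit 0) (nat_lit 149) (nat_lit 143) (nat_lit 98)) (PT.lf (nat_lit 3040) (nat_lit 6) (nat_lit 40) (nat_lit 5) (nat_lit 97) (nat_lit 144) (nat_lit 149))) (PT.nd (nat_lit 78) (PT.lf (nat_lit 3344) (nat_lit 6) (nat_lit 44) (nat_lit 5) (nat_lit 98) (nat_lit 144) (nat_lit 148)) (PT.nd (nat_lit 78) (PT.lf (nat_lit 3648) (nat_lit 6) (nat_lit 48) (nat_lit 5) (nat_lit 99) (nat_lit 144) (nat_lit 147)) (PT.lf (nat_lit 3952) (nat_lit 6) (nat_lit 52) (nat_lit 5) (nat_lit 100) (nat_lit 144) (nat_lit 146))))) (PT.nd (nat_lit 234) (PT.nd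 (nat_lit 78) (PT.lf (nat_lit 4332) (nat_lit 6) (nat_lit 57) (nat_lit 5) (nat_lit 101) (nat_lit 144) (nat_lit 145)) (PT.nd (nat_lit 78) (PT.lf (nat_lit 4636) (nat_lit 3) (nat_lit 61) (nat_lit 4) (nat_lit 102) (nat_lit 144) (nat_lit 144)) (PT.lf (nat_lit 4940) (nat_lit 6) (nat_lit 65) (nat_lit 4) (nat_lit 103) (nat_lit 144) (nat_lit 143)))) (PT.nd (nat_lit 78) (PT.lf (nat_lit 5244) (nat_lit 6) (nat_lit 69) (nat_lit 4) (nat_lit 104) (nat_lit 144) (nat_lit 142)) (PT.nd (nat_lit 78) (PT.lf (nat_lit 5624) (nat_lit 6) (nat_lit 74) (nat_lit 4) (nat_lit 105) (nat_lit 144) (nat_lit 141)) (PT.lf (nat_lit 5928) (nat_lit 6) (nat_lit 78) (nat_lit 4) (nat_lit 106) (nat_lit 144) (nat_lit 140)))))) (PT.nd (nat_lit 390) (PT.nd (nat_lit 156) (PT.nd (nat_lit 78) (PT.lf (nat_lit 6308) (nat_lit 6) (nat_lit 83) (nat_lit 4) (nat_lit 107) (nat_lit 144) (nat_lit 139)) (PT.lf (nat_lit 6688) (nat_lit 6) (nat_lit 88) (nat_lit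 4) (nat_lit 108) (nat_lit 144) (nat_lit 138))) (PT.nd (nat_lit 78) (PT.lf (nat_lit 7144) (nat_lit 6) (nat_lit 94) (nat_lit 4) (nat_lit 109) (nat_lit 144) (nat_lit 137)) (PT.nd (nat_lit 78) (PT.lf (nat_lit 7524) (nat_lit 6) (nat_lit 99) (nat_lit 4) (nat_lit 110) (nat_lit 144) (nat_lit 136)) (PT.lf (nat_lit 7980) (nat_lit 6) (nat_lit 105) (nat_lit 4) (nat_lit 111) (nat_lit 144) (nat_lit 135))))) (PT.nd (nat_lit 234) (PT.nd (nat_lit 78) (PT.lf (nat_lit 8436) (nat_lit 6) (nat_lit 111) (nat_lit 4) (nat_lit 112) (nat_lit 144) (nat_lit 134)) (PT.nd (nat_lit 78) (PT.lf (nat_lit 8968) (nat_lit 6) (nat_lit 118) (nat_lit 4) (nat_lit 113) (nat_lit 144) (nat_lit 133)) (PT.lf (nat_lit 9500) (nat_lit 6) (nat_lit 125) (nat_lit 4) (nat_lit 114) (nat_lit 144) (nat_lit 132)))) (PT.nd (nat_lit 78) (PT.lf (nat_lit 10108) (nat_lit 6) (nat_lit 133) (nat_lit 4) (nat_lit 115) (nat_lit 144) (nat_lit 131)) (PT.nd (nat_lit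 78) (PT.lf (nat_lit 11172) (nat_lit 6) (nat_lit 147) (nat_lit 4) (nat_lit 116) (nat_lit 144) (nat_lit 130)) (PT.lf (nat_lit 11096) (nat_lit 6) (nat_lit 146) (nat_lit 4) (nat_lit 117) (nat_lit 144) (nat_lit 129))))))))
noncomputable def pc26 : PT := (PT.nd (nat_lit 1716) (PT.nd (nat_lit 858) (PT.nd (nat_lit 390) (PT.nd (nat_lit 156) (PT.nd (nat_lit 78) (PT.lf (nat_lit 11020) (nat_lit 6) (nat_lit 145) (nat_lit 4) (nat_lit 118) (nat_lit 144) (nat_lit 128)) (PT.lf (nat_lit 10944) (nat_lit 6) (nat_lit 144) (nat_lit 4) (nat_lit 119) (nat_lit 144) (nat_lit 127))) (PT.nd (nat_lit 78) (PT.lf (nat_lit 10868) (nat_lit 6) (nat_lit 143) (nat_lit 4) (nat_lit 120) (nat_lit 144) (nat_lit 126)) (PT.nd (nat_lit 78) (PT.lf (nat_lit 10792) (nat_lit 6) (nat_lit 142) (nat_lit 4) (nat_lit 121) (nat_lit 144) (nat_lit 125)) (PT.lf (nat_lit 10716) (nat_lit 6) (nat_lit 141) (nat_lit 4) (nat_lit 122) (nat_lit 144) (nat_lit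 124))))) (PT.nd (nat_lit 234) (PT.nd (nat_lit 78) (PT.lf (nat_lit 10640) (nat_lit 3) (nat_lit 140) (nat_lit 2) (nat_lit 123) (nat_lit 144) (nat_lit 123)) (PT.nd (nat_lit 78) (PT.lf (nat_lit 10716) (nat_lit 6) (nat_lit 141) (nat_lit 2) (nat_lit 124) (nat_lit 144) (nat_lit 122)) (PT.lf (nat_lit 10792) (nat_lit 6) (nat_lit 142) (nat_lit 2) (nat_lit 125) (nat_lit 144) (nat_lit 121)))) (PT.nd (nat_lit 78) (PT.lf (nat_lit 10868) (nat_lit 6) (nat_lit 143) (nat_lit 2) (nat_lit 126) (nat_lit 144) (nat_lit 120)) (PT.nd (nat_lit 78) (PT.lf (nat_lit 10944) (nat_lit 6) (nat_lit 144) (nat_lit 2) (nat_lit 127) (nat_lit 144) (nat_lit 119)) (PT.lf (nat_lit 11020) (nat_lit 6) (nat_lit 145) (nat_lit 2) (nat_lit 128) (nat_lit 144) (nat_lit 118)))))) (PT.nd (nat_lit 390) (PT.nd (nat_lit 156) (PT.nd (nat_lit 78) (PT.lf (nat_lit 11096) (nat_lit 6) (nat_lit 146) (nat_lit 2) (nat_lit 129) (nat_lit 144) (nat_lit 117))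 (PT.lf (nat_lit 11172) (nat_lit 6) (nat_lit 147) (nat_lit 2) (nat_lit 130) (nat_lit 144) (nat_lit 116))) (PT.nd (nat_lit 78) (PT.lf (nat_lit 10108) (nat_lit 6) (nat_lit 133) (nat_lit 2) (nat_lit 131) (nat_lit 144) (nat_lit 115)) (PT.nd (nat_lit 78) (PT.lf (nat_lit 9500) (nat_lit 6) (nat_lit 125) (nat_lit 2) (nat_lit 132) (nat_lit 144) (nat_lit 114)) (PT.lf (nat_lit 8968) (nat_lit 6) (nat_lit 118) (nat_lit 2) (nat_lit 133) (nat_lit 144) (nat_lit 113))))) (PT.nd (nat_lit 234) (PT.nd (nat_lit 78) (PT.lf (nat_lit 8436) (nat_lit 6) (nat_lit 111) (nat_lit 2) (nat_lit 134) (nat_lit 144) (nat_lit 112)) (PT.nd (nat_lit 78) (PT.lf (nat_lit 7980) (nat_lit 6) (nat_lit 105) (nat_lit 2) (nat_lit 135) (nat_lit 144) (nat_lit 111)) (PT.lf (nat_lit 7524) (nat_lit 6) (nat_lit 99) (nat_lit 2) (nat_lit 136) (nat_lit 144) (nat_lit 110)))) (PT.nd (nat_lit 78) (PT.lf (nat_lit 7144) (nat_lit 6) (nat_lit 94) (nat_lit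 2) (nat_lit 137) (nat_lit 144) (nat_lit 109)) (PT.nd (nat_lit 78) (PT.lf (nat_lit 6688) (nat_lit 6) (nat_lit 88) (nat_lit 2) (nat_lit 138) (nat_lit 144) (nat_lit 108)) (PT.lf (nat_lit 6308) (nat_lit 6) (nat_lit 83) (nat_lit 2) (nat_lit 139) (nat_lit 144) (nat_lit 107))))))) (PT.nd (nat_lit 37206) (PT.nd (nat_lit 390) (PT.nd (nat_lit 156) (PT.nd (nat_lit 78) (PT.lf (nat_lit 5928) (nat_lit 6) (nat_lit 78) (nat_lit 2) (nat_lit 140) (nat_lit 144) (nat_lit 106)) (PT.lf (nat_lit 5624) (nat_lit 6) (nat_lit 74) (nat_lit 2) (nat_lit 141) (nat_lit 144) (nat_lit 105))) (PT.nd (nat_lit 78) (PT.lf (nat_lit 5244) (nat_lit 6) (nat_lit 69) (nat_lit 2) (nat_lit 142) (nat_lit 144) (nat_lit 104)) (PT.nd (nat_lit 78) (PT.lf (nat_lit 4940) (nat_lit 6) (nat_lit 65) (nat_lit 2) (nat_lit 143) (nat_lit 144) (nat_lit 103)) (PT.lf (nat_lit 4636) (nat_lit 3) (nat_lit 61) (nat_lit 0) (nat_lit 144) (nat_lit 144) (nat_lit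 102))))) (PT.nd (nat_lit 234) (PT.nd (nat_lit 78) (PT.lf (nat_lit 4332) (nat_lit 6) (nat_lit 57) (nat_lit 0) (nat_lit 145) (nat_lit 144) (nat_lit 101)) (PT.nd (nat_lit 78) (PT.lf (nat_lit 3952) (nat_lit 6) (nat_lit 52) (nat_lit 0) (nat_lit 146) (nat_lit 144) (nat_lit 100)) (PT.lf (nat_lit 3648) (nat_lit 6) (nat_lit 48) (nat_lit 0) (nat_lit 147) (nat_lit 144) (nat_lit 99)))) (PT.nd (nat_lit 78) (PT.lf (nat_lit 3344) (nat_lit 6) (nat_lit 44) (nat_lit 0) (nat_lit 148) (nat_lit 144) (nat_lit 98)) (PT.nd (nat_lit 36426) (PT.lf (nat_lit 3040) (nat_lit 6) (nat_lit 40) (nat_lit 0) (nat_lit 149) (nat_lit 144) (nat_lit 97)) (PT.lf (nat_lit 2584) (nat_lit 6) (nat_lit 34) (nat_lit 5) (nat_lit 95) (nat_lit 145) (nat_lit 150)))))) (PT.nd (nat_lit 390) (PT.nd (nat_lit 156) (PT.nd (nat_lit 78) (PT.lf (nat_lit 2812) (nat_lit 6) (nat_lit 37) (nat_lit 5) (nat_lit 96) (nat_lit 145) (nat_lit 149)) (PT.lf (nat_lit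 3116) (nat_lit 6) (nat_lit 41) (nat_lit 5) (nat_lit 97) (nat_lit 145) (nat_lit 148))) (PT.nd (nat_lit 78) (PT.lf (nat_lit 3420) (nat_lit 6) (nat_lit 45) (nat_lit 5) (nat_lit 98) (nat_lit 145) (nat_lit 147)) (PT.nd (nat_lit 78) (PT.lf (nat_lit 3724) (nat_lit 6) (nat_lit 49) (nat_lit 5) (nat_lit 99) (nat_lit 145) (nat_lit 146)) (PT.lf (nat_lit 4028) (nat_lit 3) (nat_lit 53) (nat_lit 4) (nat_lit 100) (nat_lit 145) (nat_lit 145))))) (PT.nd (nat_lit 234) (PT.nd (nat_lit 78) (PT.lf (nat_lit 4332) (nat_lit 6) (nat_lit 57) (nat_lit 4) (nat_lit 101) (nat_lit 145) (nat_lit 144)) (PT.nd (nat_lit 78) (PT.lf (nat_lit 4560) (nat_lit 6) (nat_lit 60) (nat_lit 4) (nat_lit 102) (nat_lit 145) (nat_lit 143)) (PT.lf (nat_lit 4864) (nat_lit 6) (nat_lit 64) (nat_lit 4) (nat_lit 103) (nat_lit 145) (nat_lit 142)))) (PT.nd (nat_lit 78) (PT.lf (nat_lit 5168) (nat_lit 6) (nat_lit 68) (nat_lit 4) (nat_lit 104) (nat_lit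 145) (nat_lit 141)) (PT.nd (nat_lit 78) (PT.lf (nat_lit 5548) (nat_lit 6) (nat_lit 73) (nat_lit 4) (nat_lit 105) (nat_lit 145) (nat_lit 140)) (PT.lf (nat_lit 5852) (nat_lit 6) (nat_lit 77) (nat_lit 4) (nat_lit 106) (nat_lit 145) (nat_lit 139))))))))
noncomputable def pc27 : PT := (PT.nd (nat_lit 2808) (PT.nd (nat_lit 1950) (PT.nd (nat_lit 390) (PT.nd (nat_lit 156) (PT.nd (nat_lit 78) (PT.lf (nat_lit 6232) (nat_lit 6) (nat_lit 82) (nat_lit 4) (nat_lit 107) (nat_lit 145) (nat_lit 138)) (PT.lf (nat_lit 6612) (nat_lit 6) (nat_lit 87) (nat_lit 4) (nat_lit 108) (nat_lit 145) (nat_lit 137))) (PT.nd (nat_lit 78) (PT.lf (nat_lit 7068) (nat_lit 6) (nat_lit 93) (nat_lit 4) (nat_lit 109) (nat_lit 145) (nat_lit 136)) (PT.nd (nat_lit 78) (PT.lf (nat_lit 7448) (nat_lit 6) (nat_lit 98) (nat_lit 4) (nat_lit 110) (nat_lit 145) (nat_lit 135)) (PT.lf (nat_lit 7904) (nat_lit 6) (nat_lit 104) (nat_lit 4) (nat_lit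 111) (nat_lit 145) (nat_lit 134))))) (PT.nd (nat_lit 234) (PT.nd (nat_lit 78) (PT.lf (nat_lit 8360) (nat_lit 6) (nat_lit 110) (nat_lit 4) (nat_lit 112) (nat_lit 145) (nat_lit 133)) (PT.nd (nat_lit 78) (PT.lf (nat_lit 8892) (nat_lit 6) (nat_lit 117) (nat_lit 4) (nat_lit 113) (nat_lit 145) (nat_lit 132)) (PT.lf (nat_lit 9424) (nat_lit 6) (nat_lit 124) (nat_lit 4) (nat_lit 114) (nat_lit 145) (nat_lit 131)))) (PT.nd (nat_lit 1170) (PT.lf (nat_lit 10032) (nat_lit 6) (nat_lit 132) (nat_lit 4) (nat_lit 115) (nat_lit 145) (nat_lit 130)) (PT.nd (nat_lit 78) (PT.lf (nat_lit 10032) (nat_lit 6) (nat_lit 132) (nat_lit 2) (nat_lit 130) (nat_lit 145) (nat_lit 115)) (PT.lf (nat_lit 9424) (nat_lit 6) (nat_lit 124) (nat_lit 2) (nat_lit 131) (nat_lit 145) (nat_lit 114)))))) (PT.nd (nat_lit 390) (PT.nd (nat_lit 156) (PT.nd (nat_lit 78) (PT.lf (nat_lit 8892) (nat_lit 6) (nat_lit 117) (nat_lit 2) (nat_lit 132) (nat_lit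 145) (nat_lit 113)) (PT.lf (nat_lit 8360) (nat_lit 6) (nat_lit 110) (nat_lit 2) (nat_lit 133) (nat_lit 145) (nat_lit 112))) (PT.nd (nat_lit 78) (PT.lf (nat_lit 7904) (nat_lit 6) (nat_lit 104) (nat_lit 2) (nat_lit 134) (nat_lit 145) (nat_lit 111)) (PT.nd (nat_lit 78) (PT.lf (nat_lit 7448) (nat_lit 6) (nat_lit 98) (nat_lit 2) (nat_lit 135) (nat_lit 145) (nat_lit 110)) (PT.lf (nat_lit 7068) (nat_lit 6) (nat_lit 93) (nat_lit 2) (nat_lit 136) (nat_lit 145) (nat_lit 109))))) (PT.nd (nat_lit 234) (PT.nd (nat_lit 78) (PT.lf (nat_lit 6612) (nat_lit 6) (nat_lit 87) (nat_lit 2) (nat_lit 137) (nat_lit 145) (nat_lit 108)) (PT.nd (nat_lit 78) (PT.lf (nat_lit 6232) (nat_lit 6) (nat_lit 82) (nat_lit 2) (nat_lit 138) (nat_lit 145) (nat_lit 107)) (PT.lf (nat_lit 5852) (nat_lit 6) (nat_lit 77) (nat_lit 2) (nat_lit 139) (nat_lit 145) (nat_lit 106)))) (PT.nd (nat_lit 78) (PT.lf (nat_lit 5548) (nat_lit 6) (nat_lit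 73) (nat_lit 2) (nat_lit 140) (nat_lit 145) (nat_lit 105)) (PT.nd (nat_lit 78) (PT.lf (nat_lit 5168) (nat_lit 6) (nat_lit 68) (nat_lit 2) (nat_lit 141) (nat_lit 145) (nat_lit 104)) (PT.lf (nat_lit 4864) (nat_lit 6) (nat_lit 64) (nat_lit 2) (nat_lit 142) (nat_lit 145) (nat_lit 103))))))) (PT.nd (nat_lit 37050) (PT.nd (nat_lit 390) (PT.nd (nat_lit 156) (PT.nd (nat_lit 78) (PT.lf (nat_lit 4560) (nat_lit 6) (nat_lit 60) (nat_lit 2) (nat_lit 143) (nat_lit 145) (nat_lit 102)) (PT.lf (nat_lit 4332) (nat_lit 6) (nat_lit 57) (nat_lit 2) (nat_lit 144) (nat_lit 145) (nat_lit 101))) (PT.nd (nat_lit 78) (PT.lf (nat_lit 4028) (nat_lit 3) (nat_lit 53) (nat_lit 0) (nat_lit 145) (nat_lit 145) (nat_lit 100)) (PT.nd (nat_lit 78) (PT.lf (nat_lit 3724) (nat_lit 6) (nat_lit 49) (nat_lit 0) (nat_lit 146) (nat_lit 145) (nat_lit 99)) (PT.lf (nat_lit 3420) (nat_lit 6) (nat_lit 45) (nat_lit 0) (nat_lit 147) (nat_lit 145)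 (nat_lit 98))))) (PT.nd (nat_lit 36426) (PT.nd (nat_lit 78) (PT.lf (nat_lit 3116) (nat_lit 6) (nat_lit 41) (nat_lit 0) (nat_lit 148) (nat_lit 145) (nat_lit 97)) (PT.nd (nat_lit 78) (PT.lf (nat_lit 2812) (nat_lit 6) (nat_lit 37) (nat_lit 0) (nat_lit 149) (nat_lit 145) (nat_lit 96)) (PT.lf (nat_lit 2584) (nat_lit 6) (nat_lit 34) (nat_lit 0) (nat_lit 150) (nat_lit 145) (nat_lit 95)))) (PT.nd (nat_lit 78) (PT.lf (nat_lit 2356) (nat_lit 6) (nat_lit 31) (nat_lit 5) (nat_lit 94) (nat_lit 146) (nat_lit 150)) (PT.nd (nat_lit 78) (PT.lf (nat_lit 2660) (nat_lit 6) (nat_lit 35) (nat_lit 5) (nat_lit 95) (nat_lit 146) (nat_lit 149)) (PT.lf (nat_lit 2888) (nat_lit 6) (nat_lit 38) (nat_lit 5) (nat_lit 96) (nat_lit 146) (nat_lit 148)))))) (PT.nd (nat_lit 390) (PT.nd (nat_lit 156) (PT.nd (nat_lit 78) (PT.lf (nat_lit 3192) (nat_lit 6) (nat_lit 42) (nat_lit 5) (nat_lit 97) (nat_lit 146) (nat_lit 147)) (PT.lf (nat_lit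 3496) (nat_lit 3) (nat_lit 46) (nat_lit 4) (nat_lit 98) (nat_lit 146) (nat_lit 146))) (PT.nd (nat_lit 78) (PT.lf (nat_lit 3724) (nat_lit 6) (nat_lit 49) (nat_lit 4) (nat_lit 99) (nat_lit 146) (nat_lit 145)) (PT.nd (nat_lit 78) (PT.lf (nat_lit 3952) (nat_lit 6) (nat_lit 52) (nat_lit 4) (nat_lit 100) (nat_lit 146) (nat_lit 144)) (PT.lf (nat_lit 4256) (nat_lit 6) (nat_lit 56) (nat_lit 4) (nat_lit 101) (nat_lit 146) (nat_lit 143))))) (PT.nd (nat_lit 234) (PT.nd (nat_lit 78) (PT.lf (nat_lit 4484) (nat_lit 6) (nat_lit 59) (nat_lit 4) (nat_lit 102) (nat_lit 146) (nat_lit 142)) (PT.nd (nat_lit 78) (PT.lf (nat_lit 4788) (nat_lit 6) (nat_lit 63) (nat_lit 4) (nat_lit 103) (nat_lit 146) (nat_lit 141)) (PT.lf (nat_lit 5092) (nat_lit 6) (nat_lit 67) (nat_lit 4) (nat_lit 104) (nat_lit 146) (nat_lit 140)))) (PT.nd (nat_lit 78) (PT.lf (nat_lit 5472) (nat_lit 6) (nat_lit 72) (nat_lit 4) (nat_lit 105) (nat_lit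 146) (nat_lit 139)) (PT.nd (nat_lit 78) (PT.lf (nat_lit 5776) (nat_lit 6) (nat_lit 76) (nat_lit 4) (nat_lit 106) (nat_lit 146) (nat_lit 138)) (PT.lf (nat_lit 6156) (nat_lit 6) (nat_lit 81) (nat_lit 4) (nat_lit 107) (nat_lit 146) (nat_lit 137))))))))
noncomputable def pc28 : PT := (PT.nd (nat_lit 39702) (PT.nd (nat_lit 2808) (PT.nd (nat_lit 2340) (PT.nd (nat_lit 2106) (PT.nd (nat_lit 78) (PT.lf (nat_lit 6536) (nat_lit 6) (nat_lit 86) (nat_lit 4) (nat_lit 108) (nat_lit 146) (nat_lit 136)) (PT.lf (nat_lit 6992) (nat_lit 6) (nat_lit 92) (nat_lit 4) (nat_lit 109) (nat_lit 146) (nat_lit 135))) (PT.nd (nat_lit 78) (PT.lf (nat_lit 6992) (nat_lit 6) (nat_lit 92) (nat_lit 2) (nat_lit 135) (nat_lit 146) (nat_lit 109)) (PT.nd (nat_lit 78) (PT.lf (nat_lit 6536) (nat_lit 6) (nat_lit 86) (nat_lit 2) (nat_lit 136) (nat_lit 146) (nat_lit 108)) (PT.lf (nat_lit 6156) (nat_lit 6) (nat_lit 81) (nat_lit 2) (nat_lit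 137) (nat_lit 146) (nat_lit 107))))) (PT.nd (nat_lit 234) (PT.nd (nat_lit 78) (PT.lf (nat_lit 5776) (nat_lit 6) (nat_lit 76) (nat_lit 2) (nat_lit 138) (nat_lit 146) (nat_lit 106)) (PT.nd (nat_lit 78) (PT.lf (nat_lit 5472) (nat_lit 6) (nat_lit 72) (nat_lit 2) (nat_lit 139) (nat_lit 146) (nat_lit 105)) (PT.lf (nat_lit 5092) (nat_lit 6) (nat_lit 67) (nat_lit 2) (nat_lit 140) (nat_lit 146) (nat_lit 104)))) (PT.nd (nat_lit 78) (PT.lf (nat_lit 4788) (nat_lit 6) (nat_lit 63) (nat_lit 2) (nat_lit 141) (nat_lit 146) (nat_lit 103)) (PT.nd (nat_lit 78) (PT.lf (nat_lit 4484) (nat_lit 6) (nat_lit 59) (nat_lit 2) (nat_lit 142) (nat_lit 146) (nat_lit 102)) (PT.lf (nat_lit 4256) (nat_lit 6) (nat_lit 56) (nat_lit 2) (nat_lit 143) (nat_lit 146) (nat_lit 101)))))) (PT.nd (nat_lit 390) (PT.nd (nat_lit 156) (PT.nd (nat_lit 78) (PT.lf (nat_lit 3952) (nat_lit 6) (nat_lit 52) (nat_lit 2) (nat_lit 144) (nat_lit 146)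 (nat_lit 100)) (PT.lf (nat_lit 3724) (nat_lit 6) (nat_lit 49) (nat_lit 2) (nat_lit 145) (nat_lit 146) (nat_lit 99))) (PT.nd (nat_lit 78) (PT.lf (nat_lit 3496) (nat_lit 3) (nat_lit 46) (nat_lit 0) (nat_lit 146) (nat_lit 146) (nat_lit 98)) (PT.nd (nat_lit 78) (PT.lf (nat_lit 3192) (nat_lit 6) (nat_lit 42) (nat_lit 0) (nat_lit 147) (nat_lit 146) (nat_lit 97)) (PT.lf (nat_lit 2888) (nat_lit 6) (nat_lit 38) (nat_lit 0) (nat_lit 148) (nat_lit 146) (nat_lit 96))))) (PT.nd (nat_lit 36270) (PT.nd (nat_lit 78) (PT.lf (nat_lit 2660) (nat_lit 6) (nat_lit 35) (nat_lit 0) (nat_lit 149) (nat_lit 146) (nat_lit 95)) (PT.nd (nat_lit 36114) (PT.lf (nat_lit 2356) (nat_lit 6) (nat_lit 31) (nat_lit 0) (nat_lit 150) (nat_lit 146) (nat_lit 94)) (PT.lf (nat_lit 1976) (nat_lit 6) (nat_lit 26) (nat_lit 5) (nat_lit 92) (nat_lit 147) (nat_lit 151)))) (PT.nd (nat_lit 78) (PT.lf (nat_lit 2204) (nat_lit 6) (nat_lit 29) (nat_lit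 5) (nat_lit 93) (nat_lit 147) (nat_lit 150)) (PT.nd (nat_lit 78) (PT.lf (nat_lit 2432) (nat_lit 6) (nat_lit 32) (nat_lit 5) (nat_lit 94) (nat_lit 147) (nat_lit 149)) (PT.lf (nat_lit 2736) (nat_lit 6) (nat_lit 36) (nat_lit 5) (nat_lit 95) (nat_lit 147) (nat_lit 148))))))) (PT.nd (nat_lit 3354) (PT.nd (nat_lit 390) (PT.nd (nat_lit 156) (PT.nd (nat_lit 78) (PT.lf (nat_lit 2964) (nat_lit 3) (nat_lit 39) (nat_lit 4) (nat_lit 96) (nat_lit 147) (nat_lit 147)) (PT.lf (nat_lit 3192) (nat_lit 6) (nat_lit 42) (nat_lit 4) (nat_lit 97) (nat_lit 147) (nat_lit 146))) (PT.nd (nat_lit 78) (PT.lf (nat_lit 3420) (nat_lit 6) (nat_lit 45) (nat_lit 4) (nat_lit 98) (nat_lit 147) (nat_lit 145)) (PT.nd (nat_lit 78) (PT.lf (nat_lit 3648) (nat_lit 6) (nat_lit 48) (nat_lit 4) (nat_lit 99) (nat_lit 147) (nat_lit 144)) (PT.lf (nat_lit 3876) (nat_lit 6) (nat_lit 51) (nat_lit 4) (nat_lit 100) (nat_lit 147) (nat_lit 143)))))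 (PT.nd (nat_lit 234) (PT.nd (nat_lit 78) (PT.lf (nat_lit 4180) (nat_lit 6) (nat_lit 55) (nat_lit 4) (nat_lit 101) (nat_lit 147) (nat_lit 142)) (PT.nd (nat_lit 78) (PT.lf (nat_lit 4408) (nat_lit 6) (nat_lit 58) (nat_lit 4) (nat_lit 102) (nat_lit 147) (nat_lit 141)) (PT.lf (nat_lit 4712) (nat_lit 6) (nat_lit 62) (nat_lit 4) (nat_lit 103) (nat_lit 147) (nat_lit 140)))) (PT.nd (nat_lit 78) (PT.lf (nat_lit 5016) (nat_lit 6) (nat_lit 66) (nat_lit 4) (nat_lit 104) (nat_lit 147) (nat_lit 139)) (PT.nd (nat_lit 2574) (PT.lf (nat_lit 5396) (nat_lit 6) (nat_lit 71) (nat_lit 4) (nat_lit 105) (nat_lit 147) (nat_lit 138)) (PT.lf (nat_lit 5396) (nat_lit 6) (nat_lit 71) (nat_lit 2) (nat_lit 138) (nat_lit 147) (nat_lit 105)))))) (PT.nd (nat_lit 390) (PT.nd (nat_lit 156) (PT.nd (nat_lit 78) (PT.lf (nat_lit 5016) (nat_lit 6) (nat_lit 66) (nat_lit 2) (nat_lit 139) (nat_lit 147) (nat_lit 104)) (PT.lf (nat_lit 4712)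 (nat_lit 6) (nat_lit 62) (nat_lit 2) (nat_lit 140) (nat_lit 147) (nat_lit 103))) (PT.nd (nat_lit 78) (PT.lf (nat_lit 4408) (nat_lit 6) (nat_lit 58) (nat_lit 2) (nat_lit 141) (nat_lit 147) (nat_lit 102)) (PT.nd (nat_lit 78) (PT.lf (nat_lit 4180) (nat_lit 6) (nat_lit 55) (nat_lit 2) (nat_lit 142) (nat_lit 147) (nat_lit 101)) (PT.lf (nat_lit 3876) (nat_lit 6) (nat_lit 51) (nat_lit 2) (nat_lit 143) (nat_lit 147) (nat_lit 100))))) (PT.nd (nat_lit 234) (PT.nd (nat_lit 78) (PT.lf (nat_lit 3648) (nat_lit 6) (nat_lit 48) (nat_lit 2) (nat_lit 144) (nat_lit 147) (nat_lit 99)) (PT.nd (nat_lit 78) (PT.lf (nat_lit 3420) (nat_lit 6) (nat_lit 45) (nat_lit 2) (nat_lit 145) (nat_lit 147) (nat_lit 98)) (PT.lf (nat_lit 3192) (nat_lit 6) (nat_lit 42) (nat_lit 2) (nat_lit 146) (nat_lit 147) (nat_lit 97)))) (PT.nd (nat_lit 78) (PT.lf (nat_lit 2964) (nat_lit 3) (nat_lit 39) (nat_lit 0) (nat_lit 147) (nat_lit 147) (nat_lit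 96)) (PT.nd (nat_lit 78) (PT.lf (nat_lit 2736) (nat_lit 6) (nat_lit 36) (nat_lit 0) (nat_lit 148) (nat_lit 147) (nat_lit 95)) (PT.lf (nat_lit 2432) (nat_lit 6) (nat_lit 32) (nat_lit 0) (nat_lit 149) (nat_lit 147) (nat_lit 94))))))))
noncomputable def pc29 : PT := (PT.nd (nat_lit 40560) (PT.nd (nat_lit 36660) (PT.nd (nat_lit 36192) (PT.nd (nat_lit 35958) (PT.nd (nat_lit 78) (PT.lf (nat_lit 2204) (nat_lit 6) (nat_lit 29) (nat_lit 0) (nat_lit 150) (nat_lit 147) (nat_lit 93)) (PT.lf (nat_lit 1976) (nat_lit 6) (nat_lit 26) (nat_lit 0) (nat_lit 151) (nat_lit 147) (nat_lit 92))) (PT.nd (nat_lit 78) (PT.lf (nat_lit 1596) (nat_lit 6) (nat_lit 21) (nat_lit 5) (nat_lit 90) (nat_lit 148) (nat_lit 152)) (PT.nd (nat_lit 78) (PT.lf (nat_lit 1824) (nat_lit 6) (nat_lit 24) (nat_lit 5) (nat_lit 91) (nat_lit 148) (nat_lit 151)) (PT.lf (nat_lit 2052) (nat_lit 6) (nat_lit 27) (nat_lit 5) (nat_lit 92) (nat_lit 148)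 (nat_lit 150))))) (PT.nd (nat_lit 234) (PT.nd (nat_lit 78) (PT.lf (nat_lit 2280) (nat_lit 6) (nat_lit 30) (nat_lit 5) (nat_lit 93) (nat_lit 148) (nat_lit 149)) (PT.nd (nat_lit 78) (PT.lf (nat_lit 2508) (nat_lit 3) (nat_lit 33) (nat_lit 4) (nat_lit 94) (nat_lit 148) (nat_lit 148)) (PT.lf (nat_lit 2736) (nat_lit 6) (nat_lit 36) (nat_lit 4) (nat_lit 95) (nat_lit 148) (nat_lit 147)))) (PT.nd (nat_lit 78) (PT.lf (nat_lit 2888) (nat_lit 6) (nat_lit 38) (nat_lit 4) (nat_lit 96) (nat_lit 148) (nat_lit 146)) (PT.nd (nat_lit 78) (PT.lf (nat_lit 3116) (nat_lit 6) (nat_lit 41) (nat_lit 4) (nat_lit 97) (nat_lit 148) (nat_lit 145)) (PT.lf (nat_lit 3344) (nat_lit 6) (nat_lit 44) (nat_lit 4) (nat_lit 98) (nat_lit 148) (nat_lit 144)))))) (PT.nd (nat_lit 3432) (PT.nd (nat_lit 156) (PT.nd (nat_lit 78) (PT.lf (nat_lit 3572) (nat_lit 6) (nat_lit 47) (nat_lit 4) (nat_lit 99) (nat_lit 148) (nat_lit 143)) (PT.lf (nat_lit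 3800) (nat_lit 6) (nat_lit 50) (nat_lit 4) (nat_lit 100) (nat_lit 148) (nat_lit 142))) (PT.nd (nat_lit 3120) (PT.lf (nat_lit 4104) (nat_lit 6) (nat_lit 54) (nat_lit 4) (nat_lit 101) (nat_lit 148) (nat_lit 141)) (PT.nd (nat_lit 78) (PT.lf (nat_lit 4104) (nat_lit 6) (nat_lit 54) (nat_lit 2) (nat_lit 141) (nat_lit 148) (nat_lit 101)) (PT.lf (nat_lit 3800) (nat_lit 6) (nat_lit 50) (nat_lit 2) (nat_lit 142) (nat_lit 148) (nat_lit 100))))) (PT.nd (nat_lit 234) (PT.nd (nat_lit 78) (PT.lf (nat_lit 3572) (nat_lit 6) (nat_lit 47) (nat_lit 2) (nat_lit 143) (nat_lit 148) (nat_lit 99)) (PT.nd (nat_lit 78) (PT.lf (nat_lit 3344) (nat_lit 6) (nat_lit 44) (nat_lit 2) (nat_lit 144) (nat_lit 148) (nat_lit 98)) (PT.lf (nat_lit 3116) (nat_lit 6) (nat_lit 41) (nat_lit 2) (nat_lit 145) (nat_lit 148) (nat_lit 97)))) (PT.nd (nat_lit 78) (PT.lf (nat_lit 2888) (nat_lit 6) (nat_lit 38) (nat_lit 2) (nat_lit 146) (nat_lit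 148) (nat_lit 96)) (PT.nd (nat_lit 78) (PT.lf (nat_lit 2736) (nat_lit 6) (nat_lit 36) (nat_lit 2) (nat_lit 147) (nat_lit 148) (nat_lit 95)) (PT.lf (nat_lit 2508) (nat_lit 3) (nat_lit 33) (nat_lit 0) (nat_lit 148) (nat_lit 148) (nat_lit 94))))))) (PT.nd (nat_lit 36504) (PT.nd (nat_lit 36036) (PT.nd (nat_lit 156) (PT.nd (nat_lit 78) (PT.lf (nat_lit 2280) (nat_lit 6) (nat_lit 30) (nat_lit 0) (nat_lit 149) (nat_lit 148) (nat_lit 93)) (PT.lf (nat_lit 2052) (nat_lit 6) (nat_lit 27) (nat_lit 0) (nat_lit 150) (nat_lit 148) (nat_lit 92))) (PT.nd (nat_lit 78) (PT.lf (nat_lit 1824) (nat_lit 6) (nat_lit 24) (nat_lit 0) (nat_lit 151) (nat_lit 148) (nat_lit 91)) (PT.nd (nat_lit 35724) (PT.lf (nat_lit 1596) (nat_lit 6) (nat_lit 21) (nat_lit 0) (nat_lit 152) (nat_lit 148) (nat_lit 90)) (PT.lf (nat_lit 1444) (nat_lit 6) (nat_lit 19) (nat_lit 5) (nat_lit 89) (nat_lit 149) (nat_lit 152))))) (PT.nd (nat_lit 234)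 (PT.nd (nat_lit 78) (PT.lf (nat_lit 1672) (nat_lit 6) (nat_lit 22) (nat_lit 5) (nat_lit 90) (nat_lit 149) (nat_lit 151)) (PT.nd (nat_lit 78) (PT.lf (nat_lit 1900) (nat_lit 6) (nat_lit 25) (nat_lit 5) (nat_lit 91) (nat_lit 149) (nat_lit 150)) (PT.lf (nat_lit 2128) (nat_lit 3) (nat_lit 28) (nat_lit 4) (nat_lit 92) (nat_lit 149) (nat_lit 149)))) (PT.nd (nat_lit 78) (PT.lf (nat_lit 2280) (nat_lit 6) (nat_lit 30) (nat_lit 4) (nat_lit 93) (nat_lit 149) (nat_lit 148)) (PT.nd (nat_lit 78) (PT.lf (nat_lit 2432) (nat_lit 6) (nat_lit 32) (nat_lit 4) (nat_lit 94) (nat_lit 149) (nat_lit 147)) (PT.lf (nat_lit 2660) (nat_lit 6) (nat_lit 35) (nat_lit 4) (nat_lit 95) (nat_lit 149) (nat_lit 146)))))) (PT.nd (nat_lit 3822) (PT.nd (nat_lit 156) (PT.nd (nat_lit 78) (PT.lf (nat_lit 2812) (nat_lit 6) (nat_lit 37) (nat_lit 4) (nat_lit 96) (nat_lit 149) (nat_lit 145)) (PT.lf (nat_lit 3040) (nat_lit 6) (nat_lit 40) (nat_lit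 4) (nat_lit 97) (nat_lit 149) (nat_lit 144))) (PT.nd (nat_lit 3510) (PT.lf (nat_lit 3268) (nat_lit 6) (nat_lit 43) (nat_lit 4) (nat_lit 98) (nat_lit 149) (nat_lit 143)) (PT.nd (nat_lit 78) (PT.lf (nat_lit 3268) (nat_lit 6) (nat_lit 43) (nat_lit 2) (nat_lit 143) (nat_lit 149) (nat_lit 98)) (PT.lf (nat_lit 3040) (nat_lit 6) (nat_lit 40) (nat_lit 2) (nat_lit 144) (nat_lit 149) (nat_lit 97))))) (PT.nd (nat_lit 234) (PT.nd (nat_lit 78) (PT.lf (nat_lit 2812) (nat_lit 6) (nat_lit 37) (nat_lit 2) (nat_lit 145) (nat_lit 149) (nat_lit 96)) (PT.nd (nat_lit 78) (PT.lf (nat_lit 2660) (nat_lit 6) (nat_lit 35) (nat_lit 2) (nat_lit 146) (nat_lit 149) (nat_lit 95)) (PT.lf (nat_lit 2432) (nat_lit 6) (nat_lit 32) (nat_lit 2) (nat_lit 147) (nat_lit 149) (nat_lit 94)))) (PT.nd (nat_lit 78) (PT.lf (nat_lit 2280) (nat_lit 6) (nat_lit 30) (nat_lit 2) (nat_lit 148) (nat_lit 149) (nat_lit 93)) (PT.nd (nat_lit 78) (PT.lf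 (nat_lit 2128) (nat_lit 3) (nat_lit 28) (nat_lit 0) (nat_lit 149) (nat_lit 149) (nat_lit 92)) (PT.lf (nat_lit 1900) (nat_lit 6) (nat_lit 25) (nat_lit 0) (nat_lit 150) (nat_lit 149) (nat_lit 91))))))))
noncomputable def pc30 : PT := (PT.nd (nat_lit 76284) (PT.nd (nat_lit 40170) (PT.nd (nat_lit 35880) (PT.nd (nat_lit 35646) (PT.nd (nat_lit 78) (PT.lf (nat_lit 1672) (nat_lit 6) (nat_lit 22) (nat_lit 0) (nat_lit 151) (nat_lit 149) (nat_lit 90)) (PT.lf (nat_lit 1444) (nat_lit 6) (nat_lit 19) (nat_lit 0) (nat_lit 152) (nat_lit 149) (nat_lit 89))) (PT.nd (nat_lit 78) (PT.lf (nat_lit 1140) (nat_lit 6) (nat_lit 15) (nat_lit 5) (nat_lit 87) (nat_lit 150) (nat_lit 153)) (PT.nd (nat_lit 78) (PT.lf (nat_lit 1292) (nat_lit 6) (nat_lit 17) (nat_lit 5) (nat_lit 88) (nat_lit 150) (nat_lit 152)) (PT.lf (nat_lit 1520) (nat_lit 6) (nat_lit 20) (nat_lit 5) (nat_lit 89) (nat_lit 150) (nat_lit 151))))) (PT.nd (nat_lit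 234) (PT.nd (nat_lit 78) (PT.lf (nat_lit 1748) (nat_lit 3) (nat_lit 23) (nat_lit 4) (nat_lit 90) (nat_lit 150) (nat_lit 150)) (PT.nd (nat_lit 78) (PT.lf (nat_lit 1900) (nat_lit 6) (nat_lit 25) (nat_lit 4) (nat_lit 91) (nat_lit 150) (nat_lit 149)) (PT.lf (nat_lit 2052) (nat_lit 6) (nat_lit 27) (nat_lit 4) (nat_lit 92) (nat_lit 150) (nat_lit 148)))) (PT.nd (nat_lit 78) (PT.lf (nat_lit 2204) (nat_lit 6) (nat_lit 29) (nat_lit 4) (nat_lit 93) (nat_lit 150) (nat_lit 147)) (PT.nd (nat_lit 78) (PT.lf (nat_lit 2356) (nat_lit 6) (nat_lit 31) (nat_lit 4) (nat_lit 94) (nat_lit 150) (nat_lit 146)) (PT.lf (nat_lit 2584) (nat_lit 6) (nat_lit 34) (nat_lit 4) (nat_lit 95) (nat_lit 150) (nat_lit 145)))))) (PT.nd (nat_lit 390) (PT.nd (nat_lit 156) (PT.nd (nat_lit 78) (PT.lf (nat_lit 2584) (nat_lit 6) (nat_lit 34) (nat_lit 2) (nat_lit 145) (nat_lit 150) (nat_lit 95)) (PT.lf (nat_lit 2356) (nat_lit 6) (nat_lit 31)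 (nat_lit 2) (nat_lit 146) (nat_lit 150) (nat_lit 94))) (PT.nd (nat_lit 78) (PT.lf (nat_lit 2204) (nat_lit 6) (nat_lit 29) (nat_lit 2) (nat_lit 147) (nat_lit 150) (nat_lit 93)) (PT.nd (nat_lit 78) (PT.lf (nat_lit 2052) (nat_lit 6) (nat_lit 27) (nat_lit 2) (nat_lit 148) (nat_lit 150) (nat_lit 92)) (PT.lf (nat_lit 1900) (nat_lit 6) (nat_lit 25) (nat_lit 2) (nat_lit 149) (nat_lit 150) (nat_lit 91))))) (PT.nd (nat_lit 234) (PT.nd (nat_lit 78) (PT.lf (nat_lit 1748) (nat_lit 3) (nat_lit 23) (nat_lit 0) (nat_lit 150) (nat_lit 150) (nat_lit 90)) (PT.nd (nat_lit 78) (PT.lf (nat_lit 1520) (nat_lit 6) (nat_lit 20) (nat_lit 0) (nat_lit 151) (nat_lit 150) (nat_lit 89)) (PT.lf (nat_lit 1292) (nat_lit 6) (nat_lit 17) (nat_lit 0) (nat_lit 152) (nat_lit 150) (nat_lit 88)))) (PT.nd (nat_lit 35334) (PT.lf (nat_lit 1140) (nat_lit 6) (nat_lit 15) (nat_lit 0) (nat_lit 153) (nat_lit 150) (nat_lit 87)) (PT.nd (nat_lit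 78) (PT.lf (nat_lit 836) (nat_lit 6) (nat_lit 11) (nat_lit 5) (nat_lit 85) (nat_lit 151) (nat_lit 154)) (PT.lf (nat_lit 988) (nat_lit 6) (nat_lit 13) (nat_lit 5) (nat_lit 86) (nat_lit 151) (nat_lit 153))))))) (PT.nd (nat_lit 5070) (PT.nd (nat_lit 390) (PT.nd (nat_lit 156) (PT.nd (nat_lit 78) (PT.lf (nat_lit 1216) (nat_lit 6) (nat_lit 16) (nat_lit 5) (nat_lit 87) (nat_lit 151) (nat_lit 152)) (PT.lf (nat_lit 1368) (nat_lit 3) (nat_lit 18) (nat_lit 4) (nat_lit 88) (nat_lit 151) (nat_lit 151))) (PT.nd (nat_lit 78) (PT.lf (nat_lit 1520) (nat_lit 6) (nat_lit 20) (nat_lit 4) (nat_lit 89) (nat_lit 151) (nat_lit 150)) (PT.nd (nat_lit 78) (PT.lf (nat_lit 1672) (nat_lit 6) (nat_lit 22) (nat_lit 4) (nat_lit 90) (nat_lit 151) (nat_lit 149)) (PT.lf (nat_lit 1824) (nat_lit 6) (nat_lit 24) (nat_lit 4) (nat_lit 91) (nat_lit 151) (nat_lit 148))))) (PT.nd (nat_lit 4446) (PT.nd (nat_lit 4290) (PT.lf (nat_lit 1976)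 (nat_lit 6) (nat_lit 26) (nat_lit 4) (nat_lit 92) (nat_lit 151) (nat_lit 147)) (PT.nd (nat_lit 78) (PT.lf (nat_lit 1976) (nat_lit 6) (nat_lit 26) (nat_lit 2) (nat_lit 147) (nat_lit 151) (nat_lit 92)) (PT.lf (nat_lit 1824) (nat_lit 6) (nat_lit 24) (nat_lit 2) (nat_lit 148) (nat_lit 151) (nat_lit 91)))) (PT.nd (nat_lit 78) (PT.lf (nat_lit 1672) (nat_lit 6) (nat_lit 22) (nat_lit 2) (nat_lit 149) (nat_lit 151) (nat_lit 90)) (PT.nd (nat_lit 78) (PT.lf (nat_lit 1520) (nat_lit 6) (nat_lit 20) (nat_lit 2) (nat_lit 150) (nat_lit 151) (nat_lit 89)) (PT.lf (nat_lit 1368) (nat_lit 3) (nat_lit 18) (nat_lit 0) (nat_lit 151) (nat_lit 151) (nat_lit 88)))))) (PT.nd (nat_lit 35490) (PT.nd (nat_lit 156) (PT.nd (nat_lit 78) (PT.lf (nat_lit 1216) (nat_lit 6) (nat_lit 16) (nat_lit 0) (nat_lit 152) (nat_lit 151) (nat_lit 87)) (PT.lf (nat_lit 988) (nat_lit 6) (nat_lit 13) (nat_lit 0) (nat_lit 153) (nat_lit 151) (nat_lit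 86))) (PT.nd (nat_lit 35178) (PT.lf (nat_lit 836) (nat_lit 6) (nat_lit 11) (nat_lit 0) (nat_lit 154) (nat_lit 151) (nat_lit 85)) (PT.nd (nat_lit 78) (PT.lf (nat_lit 684) (nat_lit 6) (nat_lit 9) (nat_lit 5) (nat_lit 84) (nat_lit 152) (nat_lit 154)) (PT.lf (nat_lit 912) (nat_lit 6) (nat_lit 12) (nat_lit 5) (nat_lit 85) (nat_lit 152) (nat_lit 153))))) (PT.nd (nat_lit 234) (PT.nd (nat_lit 78) (PT.lf (nat_lit 1064) (nat_lit 3) (nat_lit 14) (nat_lit 4) (nat_lit 86) (nat_lit 152) (nat_lit 152)) (PT.nd (nat_lit 78) (PT.lf (nat_lit 1216) (nat_lit 6) (nat_lit 16) (nat_lit 4) (nat_lit 87) (nat_lit 152) (nat_lit 151)) (PT.lf (nat_lit 1292) (nat_lit 6) (nat_lit 17) (nat_lit 4) (nat_lit 88) (nat_lit 152) (nat_lit 150)))) (PT.nd (nat_lit 78) (PT.lf (nat_lit 1444) (nat_lit 6) (nat_lit 19) (nat_lit 4) (nat_lit 89) (nat_lit 152) (nat_lit 149)) (PT.nd (nat_lit 4524) (PT.lf (nat_lit 1596) (nat_lit 6) (nat_lit 21)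 (nat_lit 4) (nat_lit 90) (nat_lit 152) (nat_lit 148)) (PT.lf (nat_lit 1596) (nat_lit 6) (nat_lit 21) (nat_lit 2) (nat_lit 148) (nat_lit 152) (nat_lit 90))))))))
noncomputable def pc31 : PT := (PT.nd (nat_lit 76206) (PT.nd (nat_lit 35802) (PT.nd (nat_lit 390) (PT.nd (nat_lit 156) (PT.nd (nat_lit 78) (PT.lf (nat_lit 1444) (nat_lit 6) (nat_lit 19) (nat_lit 2) (nat_lit 149) (nat_lit 152) (nat_lit 89)) (PT.lf (nat_lit 1292) (nat_lit 6) (nat_lit 17) (nat_lit 2) (nat_lit 150) (nat_lit 152) (nat_lit 88))) (PT.nd (nat_lit 78) (PT.lf (nat_lit 1216) (nat_lit 6) (nat_lit 16) (nat_lit 2) (nat_lit 151) (nat_lit 152) (nat_lit 87)) (PT.nd (nat_lit 78) (PT.lf (nat_lit 1064) (nat_lit 3) (nat_lit 14) (nat_lit 0) (nat_lit 152) (nat_lit 152) (nat_lit 86)) (PT.lf (nat_lit 912) (nat_lit 6) (nat_lit 12) (nat_lit 0) (nat_lit 153) (nat_lit 152) (nat_lit 85))))) (PT.nd (nat_lit 35178) (PT.nd (nat_lit 35022) (PT.lf (nat_lit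 684) (nat_lit 6) (nat_lit 9) (nat_lit 0) (nat_lit 154) (nat_lit 152) (nat_lit 84)) (PT.nd (nat_lit 78) (PT.lf (nat_lit 456) (nat_lit 6) (nat_lit 6) (nat_lit 5) (nat_lit 82) (nat_lit 153) (nat_lit 155)) (PT.lf (nat_lit 608) (nat_lit 6) (nat_lit 8) (nat_lit 5) (nat_lit 83) (nat_lit 153) (nat_lit 154)))) (PT.nd (nat_lit 78) (PT.lf (nat_lit 760) (nat_lit 3) (nat_lit 10) (nat_lit 4) (nat_lit 84) (nat_lit 153) (nat_lit 153)) (PT.nd (nat_lit 78) (PT.lf (nat_lit 912) (nat_lit 6) (nat_lit 12) (nat_lit 4) (nat_lit 85) (nat_lit 153) (nat_lit 152)) (PT.lf (nat_lit 988) (nat_lit 6) (nat_lit 13) (nat_lit 4) (nat_lit 86) (nat_lit 153) (nat_lit 151)))))) (PT.nd (nat_lit 5226) (PT.nd (nat_lit 4992) (PT.nd (nat_lit 4914) (PT.lf (nat_lit 1140) (nat_lit 6) (nat_lit 15) (nat_lit 4) (nat_lit 87) (nat_lit 153) (nat_lit 150)) (PT.lf (nat_lit 1140) (nat_lit 6) (nat_lit 15) (nat_lit 2) (nat_lit 150) (nat_lit 153) (nat_lit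 87))) (PT.nd (nat_lit 78) (PT.lf (nat_lit 988) (nat_lit 6) (nat_lit 13) (nat_lit 2) (nat_lit 151) (nat_lit 153) (nat_lit 86)) (PT.nd (nat_lit 78) (PT.lf (nat_lit 912) (nat_lit 6) (nat_lit 12) (nat_lit 2) (nat_lit 152) (nat_lit 153) (nat_lit 85)) (PT.lf (nat_lit 760) (nat_lit 3) (nat_lit 10) (nat_lit 0) (nat_lit 153) (nat_lit 153) (nat_lit 84))))) (PT.nd (nat_lit 34944) (PT.nd (nat_lit 78) (PT.lf (nat_lit 608) (nat_lit 6) (nat_lit 8) (nat_lit 0) (nat_lit 154) (nat_lit 153) (nat_lit 83)) (PT.nd (nat_lit 34788) (PT.lf (nat_lit 456) (nat_lit 6) (nat_lit 6) (nat_lit 0) (nat_lit 155) (nat_lit 153) (nat_lit 82)) (PT.lf (nat_lit 228) (nat_lit 6) (nat_lit 3) (nat_lit 5) (nat_lit 80) (nat_lit 154) (nat_lit 156)))) (PT.nd (nat_lit 78) (PT.lf (nat_lit 380) (nat_lit 6) (nat_lit 5) (nat_lit 5) (nat_lit 81) (nat_lit 154) (nat_lit 155)) (PT.nd (nat_lit 78) (PT.lf (nat_lit 532) (nat_lit 3) (nat_lit 7) (nat_lit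 4) (nat_lit 82) (nat_lit 154) (nat_lit 154)) (PT.lf (nat_lit 608) (nat_lit 6) (nat_lit 8) (nat_lit 4) (nat_lit 83) (nat_lit 154) (nat_lit 153))))))) (PT.nd (nat_lit 40482) (PT.nd (nat_lit 5460) (PT.nd (nat_lit 5226) (PT.nd (nat_lit 78) (PT.lf (nat_lit 684) (nat_lit 6) (nat_lit 9) (nat_lit 4) (nat_lit 84) (nat_lit 154) (nat_lit 152)) (PT.lf (nat_lit 836) (nat_lit 6) (nat_lit 11) (nat_lit 4) (nat_lit 85) (nat_lit 154) (nat_lit 151))) (PT.nd (nat_lit 78) (PT.lf (nat_lit 836) (nat_lit 6) (nat_lit 11) (nat_lit 2) (nat_lit 151) (nat_lit 154) (nat_lit 85)) (PT.nd (nat_lit 78) (PT.lf (nat_lit 684) (nat_lit 6) (nat_lit 9) (nat_lit 2) (nat_lit 152) (nat_lit 154) (nat_lit 84)) (PT.lf (nat_lit 608) (nat_lit 6) (nat_lit 8) (nat_lit 2) (nat_lit 153) (nat_lit 154) (nat_lit 83))))) (PT.nd (nat_lit 34788) (PT.nd (nat_lit 78) (PT.lf (nat_lit 532) (nat_lit 3) (nat_lit 7) (nat_lit 0) (nat_lit 154) (nat_lit 154)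 (nat_lit 82)) (PT.nd (nat_lit 78) (PT.lf (nat_lit 380) (nat_lit 6) (nat_lit 5) (nat_lit 0) (nat_lit 155) (nat_lit 154) (nat_lit 81)) (PT.lf (nat_lit 228) (nat_lit 6) (nat_lit 3) (nat_lit 0) (nat_lit 156) (nat_lit 154) (nat_lit 80)))) (PT.nd (nat_lit 78) (PT.lf (nat_lit 152) (nat_lit 6) (nat_lit 2) (nat_lit 5) (nat_lit 79) (nat_lit 155) (nat_lit 156)) (PT.nd (nat_lit 78) (PT.lf (nat_lit 304) (nat_lit 3) (nat_lit 4) (nat_lit 4) (nat_lit 80) (nat_lit 155) (nat_lit 155)) (PT.lf (nat_lit 380) (nat_lit 6) (nat_lit 5) (nat_lit 4) (nat_lit 81) (nat_lit 155) (nat_lit 154)))))) (PT.nd (nat_lit 40326) (PT.nd (nat_lit 5616) (PT.nd (nat_lit 5538) (PT.lf (nat_lit 456) (nat_lit 6) (nat_lit 6) (nat_lit 4) (nat_lit 82) (nat_lit 155) (nat_lit 153)) (PT.lf (nat_lit 456) (nat_lit 6) (nat_lit 6) (nat_lit 2) (nat_lit 153) (nat_lit 155) (nat_lit 82))) (PT.nd (nat_lit 78) (PT.lf (nat_lit 380) (nat_lit 6) (nat_lit 5)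 (nat_lit 2) (nat_lit 154) (nat_lit 155) (nat_lit 81)) (PT.nd (nat_lit 78) (PT.lf (nat_lit 304) (nat_lit 3) (nat_lit 4) (nat_lit 0) (nat_lit 155) (nat_lit 155) (nat_lit 80)) (PT.lf (nat_lit 152) (nat_lit 6) (nat_lit 2) (nat_lit 0) (nat_lit 156) (nat_lit 155) (nat_lit 79))))) (PT.nd (nat_lit 5928) (PT.nd (nat_lit 78) (PT.lf (nat_lit 76) (nat_lit 3) (nat_lit 1) (nat_lit 4) (nat_lit 78) (nat_lit 156) (nat_lit 156)) (PT.nd (nat_lit 78) (PT.lf (nat_lit 152) (nat_lit 6) (nat_lit 2) (nat_lit 4) (nat_lit 79) (nat_lit 156) (nat_lit 155)) (PT.lf (nat_lit 228) (nat_lit 6) (nat_lit 3) (nat_lit 4) (nat_lit 80) (nat_lit 156) (nat_lit 154)))) (PT.nd (nat_lit 78) (PT.lf (nat_lit 228) (nat_lit 6) (nat_lit 3) (nat_lit 2) (nat_lit 154) (nat_lit 156) (nat_lit 80)) (PT.nd (nat_lit 78) (PT.lf (nat_lit 152) (nat_lit 6) (nat_lit 2) (nat_lit 2) (nat_lit 155) (nat_lit 156) (nat_lit 79)) (PT.lf (nat_lit 76) (nat_lit 3)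 (nat_lit 1) (nat_lit 0) (nat_lit 156) (nat_lit 156) (nat_lit 78))))))))
noncomputable def xc0 : XT := (XT.nd (nat_lit 162084) (nat_lit 0) (nat_lit 0) (XT.nd (nat_lit 121368) (nat_lit 0) (nat_lit 0) (XT.nd (nat_lit 80886) (nat_lit 0) (nat_lit 0) (XT.nd (nat_lit 40482) (nat_lit 0) (nat_lit 0) (XT.nd (nat_lit 40404) (nat_lit 0) (nat_lit 76) (XT.lf (nat_lit 0) (nat_lit 933722040) (nat_lit 76) (nat_lit 49126495643) (nat_lit 76) (nat_lit 48969718014) (nat_lit 1) (nat_lit 4) (nat_lit 2) (nat_lit 5) (nat_lit 2) (nat_lit 4) (nat_lit 403) (nat_lit 189) (nat_lit 188)) (XT.lf (nat_lit 0) (nat_lit 20615341149) (nat_lit 152) (nat_lit 4162845328) (nat_lit 0) (nat_lit 20615341149) (nat_lit 2) (nat_lit 5) (nat_lit 4) (nat_lit 4) (nat_lit 2) (nat_lit 4) (nat_lit 400) (nat_lit 190) (nat_lit 190))) (XT.nd (nat_lit 78) (nat_lit 76) (nat_lit 0) (XT.lf (nat_lit 0) (nat_lit 44160235857) (nat_lit 152) (nat_lit 5294244902)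 (nat_lit 0) (nat_lit 43998754899) (nat_lit 2) (nat_lit 5) (nat_lit 4) (nat_lit 4) (nat_lit 2) (nat_lit 4) (nat_lit 401) (nat_lit 190) (nat_lit 189)) (XT.nd (nat_lit 78) (nat_lit 76) (nat_lit 0) (XT.lf (nat_lit 0) (nat_lit 47141756683) (nat_lit 152) (nat_lit 2235256398) (nat_lit 0) (nat_lit 46823498096) (nat_lit 2) (nat_lit 5) (nat_lit 4) (nat_lit 4) (nat_lit 2) (nat_lit 4) (nat_lit 402) (nat_lit 190) (nat_lit 188)) (XT.lf (nat_lit 0) (nat_lit 870942992) (nat_lit 76) (nat_lit 49315279035) (nat_lit 76) (nat_lit 48844809157) (nat_lit 1) (nat_lit 4) (nat_lit 2) (nat_lit 5) (nat_lit 2) (nat_lit 4) (nat_lit 403) (nat_lit 190) (nat_lit 187))))) (XT.nd (nat_lit 234) (nat_lit 76) (nat_lit 0) (XT.nd (nat_lit 78) (nat_lit 0) (nat_lit 0) (XT.lf (nat_lit 0) (nat_lit 17851189082) (nat_lit 152) (nat_lit 7141696828) (nat_lit 0) (nat_lit 17851189082) (nat_lit 2) (nat_lit 5) (nat_lit 4) (nat_lit 4) (nat_lit 2)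 (nat_lit 4) (nat_lit 398) (nat_lit 191) (nat_lit 191)) (XT.nd (nat_lit 78) (nat_lit 0) (nat_lit 0) (XT.lf (nat_lit 0) (nat_lit 38516861591) (nat_lit 152) (nat_lit 11332242497) (nat_lit 0) (nat_lit 38350536204) (nat_lit 2) (nat_lit 5) (nat_lit 4) (nat_lit 4) (nat_lit 2) (nat_lit 4) (nat_lit 399) (nat_lit 191) (nat_lit 190)) (XT.lf (nat_lit 0) (nat_lit 41378782602) (nat_lit 152) (nat_lit 8357859445) (nat_lit 0) (nat_lit 41050976257) (nat_lit 2) (nat_lit 5) (nat_lit 4) (nat_lit 4) (nat_lit 2) (nat_lit 4) (nat_lit 400) (nat_lit 191) (nat_lit 189)))) (XT.nd (nat_lit 78) (nat_lit 76) (nat_lit 0) (XT.lf (nat_lit 0) (nat_lit 44290641905) (nat_lit 152) (nat_lit 5357645525) (nat_lit 0) (nat_lit 43806057931) (nat_lit 2) (nat_lit 5) (nat_lit 4) (nat_lit 4) (nat_lit 2) (nat_lit 4) (nat_lit 401) (nat_lit 191) (nat_lit 188)) (XT.nd (nat_lit 78) (nat_lit 76) (nat_lit 0) (XT.lf (nat_lit 0) (nat_lit 47254983843)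 (nat_lit 152) (nat_lit 2328979190) (nat_lit 0) (nat_lit 46618188578) (nat_lit 2) (nat_lit 5) (nat_lit 4) (nat_lit 4) (nat_lit 2) (nat_lit 4) (nat_lit 402) (nat_lit 191) (nat_lit 187)) (XT.lf (nat_lit 0) (nat_lit 745330040) (nat_lit 76) (nat_lit 49536233145) (nat_lit 76) (nat_lit 48751659928) (nat_lit 1) (nat_lit 4) (nat_lit 2) (nat_lit 5) (nat_lit 2) (nat_lit 4) (nat_lit 403) (nat_lit 191) (nat_lit 186)))))) (XT.nd (nat_lit 390) (nat_lit 76) (nat_lit 0) (XT.nd (nat_lit 156) (nat_lit 0) (nat_lit 0) (XT.nd (nat_lit 78) (nat_lit 0) (nat_lit 0) (XT.lf (nat_lit 0) (nat_lit 15198288237) (nat_lit 152) (nat_lit 10046084541) (nat_lit 0) (nat_lit 15198288237) (nat_lit 2) (nat_lit 5) (nat_lit 4) (nat_lit 4) (nat_lit 2) (nat_lit 4) (nat_lit 396) (nat_lit 192) (nat_lit 192)) (XT.lf (nat_lit 0) (nat_lit 33104188213) (nat_lit 152) (nat_lit 17213891597) (nat_lit 0) (nat_lit 32932873064) (nat_lit 2) (nat_lit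 5) (nat_lit 4) (nat_lit 4) (nat_lit 2) (nat_lit 4) (nat_lit 397) (nat_lit 192) (nat_lit 191))) (XT.nd (nat_lit 78) (nat_lit 0) (nat_lit 0) (XT.lf (nat_lit 0) (nat_lit 35854921477) (nat_lit 152) (nat_lit 14316527508) (nat_lit 0) (nat_lit 35517280942) (nat_lit 2) (nat_lit 5) (nat_lit 4) (nat_lit 4) (nat_lit 2) (nat_lit 4) (nat_lit 398) (nat_lit 192) (nat_lit 190)) (XT.nd (nat_lit 78) (nat_lit 0) (nat_lit 0) (XT.lf (nat_lit 0) (nat_lit 38651179821) (nat_lit 152) (nat_lit 11397545139) (nat_lit 0) (nat_lit 38152058328) (nat_lit 2) (nat_lit 5) (nat_lit 4) (nat_lit 4) (nat_lit 2) (nat_lit 4) (nat_lit 399) (nat_lit 192) (nat_lit 189)) (XT.lf (nat_lit 0) (nat_lit 41495406577) (nat_lit 152) (nat_lit 8454393921) (nat_lit 0) (nat_lit 40839507454) (nat_lit 2) (nat_lit 5) (nat_lit 4) (nat_lit 4) (nat_lit 2) (nat_lit 4) (nat_lit 400) (nat_lit 192) (nat_lit 188))))) (XT.nd (nat_lit 40092) (nat_lit 0) (nat_lit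 76) (XT.nd (nat_lit 78) (nat_lit 76) (nat_lit 0) (XT.lf (nat_lit 0) (nat_lit 44390086991) (nat_lit 152) (nat_lit 5484502169) (nat_lit 0) (nat_lit 43581976577) (nat_lit 2) (nat_lit 5) (nat_lit 4) (nat_lit 4) (nat_lit 2) (nat_lit 4) (nat_lit 401) (nat_lit 192) (nat_lit 187)) (XT.nd (nat_lit 78) (nat_lit 76) (nat_lit 0) (XT.lf (nat_lit 0) (nat_lit 47337750396) (nat_lit 152) (nat_lit 2485274833) (nat_lit 0) (nat_lit 46381862030) (nat_lit 2) (nat_lit 5) (nat_lit 4) (nat_lit 4) (nat_lit 2) (nat_lit 4) (nat_lit 402) (nat_lit 192) (nat_lit 186)) (XT.lf (nat_lit 0) (nat_lit 556773426) (nat_lit 76) (nat_lit 49789551040) (nat_lit 76) (nat_lit 48690188935) (nat_lit 1) (nat_lit 4) (nat_lit 2) (nat_lit 5) (nat_lit 2) (nat_lit 4) (nat_lit 403) (nat_lit 192) (nat_lit 185)))) (XT.nd (nat_lit 78) (nat_lit 0) (nat_lit 0) (XT.lf (nat_lit 0) (nat_lit 12648829666) (nat_lit 152) (nat_lit 12883179027) (nat_lit 0) (nat_lit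 12648829666) (nat_lit 2) (nat_lit 5) (nat_lit 4) (nat_lit 4) (nat_lit 2) (nat_lit 4) (nat_lit 394) (nat_lit 193) (nat_lit 193)) (XT.nd (nat_lit 78) (nat_lit 0) (nat_lit 0) (XT.lf (nat_lit 0) (nat_lit 27906174990) (nat_lit 152) (nat_lit 22953874962) (nat_lit 0) (nat_lit 27729720387) (nat_lit 2) (nat_lit 5) (nat_lit 4) (nat_lit 4) (nat_lit 2) (nat_lit 4) (nat_lit 395) (nat_lit 193) (nat_lit 192)) (XT.lf (nat_lit 0) (nat_lit 30553696086) (nat_lit 152) (nat_lit 20126296950) (nat_lit 0) (nat_lit 30205926335) (nat_lit 2) (nat_lit 5) (nat_lit 4) (nat_lit 4) (nat_lit 2) (nat_lit 4) (nat_lit 396) (nat_lit 193) (nat_lit 191))))))) (XT.nd (nat_lit 40560) (nat_lit 0) (nat_lit 76) (XT.nd (nat_lit 390) (nat_lit 76) (nat_lit 0) (XT.nd (nat_lit 156) (nat_lit 0) (nat_lit 0) (XT.nd (nat_lit 78) (nat_lit 0) (nat_lit 0) (XT.lf (nat_lit 0) (nat_lit 33242535989) (nat_lit 152) (nat_lit 17281153318) (nat_lit 0) (nat_lit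 32728440851) (nat_lit 2) (nat_lit 5) (nat_lit 4) (nat_lit 4) (nat_lit 2) (nat_lit 4) (nat_lit 397) (nat_lit 193) (nat_lit 190)) (XT.lf (nat_lit 0) (nat_lit 35975044171) (nat_lit 152) (nat_lit 14415958018) (nat_lit 0) (nat_lit 35299468074) (nat_lit 2) (nat_lit 5) (nat_lit 4) (nat_lit 4) (nat_lit 2) (nat_lit 4) (nat_lit 398) (nat_lit 193) (nat_lit 189))) (XT.nd (nat_lit 78) (nat_lit 0) (nat_lit 0) (XT.lf (nat_lit 0) (nat_lit 38753608259) (nat_lit 152) (nat_lit 11528207482) (nat_lit 0) (nat_lit 37921254534) (nat_lit 2) (nat_lit 5) (nat_lit 4) (nat_lit 4) (nat_lit 2) (nat_lit 4) (nat_lit 399) (nat_lit 193) (nat_lit 188)) (XT.nd (nat_lit 78) (nat_lit 0) (nat_lit 0) (XT.lf (nat_lit 0) (nat_lit 41580656126) (nat_lit 152) (nat_lit 8615378433) (nat_lit 0) (nat_lit 40596091110) (nat_lit 2) (nat_lit 5) (nat_lit 4) (nat_lit 4) (nat_lit 2) (nat_lit 4) (nat_lit 400) (nat_lit 193) (nat_lit 187)) (XT.lf (nat_lit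 0) (nat_lit 44458658007) (nat_lit 152) (nat_lit 5674925681) (nat_lit 0) (nat_lit 43326315039) (nat_lit 2) (nat_lit 5) (nat_lit 4) (nat_lit 4) (nat_lit 2) (nat_lit 4) (nat_lit 401) (nat_lit 193) (nat_lit 186))))) (XT.nd (nat_lit 39936) (nat_lit 0) (nat_lit 76) (XT.nd (nat_lit 78) (nat_lit 76) (nat_lit 0) (XT.lf (nat_lit 0) (nat_lit 47390128662) (nat_lit 152) (nat_lit 2704279897) (nat_lit 0) (nat_lit 46114311954) (nat_lit 2) (nat_lit 5) (nat_lit 4) (nat_lit 4) (nat_lit 2) (nat_lit 4) (nat_lit 402) (nat_lit 193) (nat_lit 185)) (XT.nd (nat_lit 39780) (nat_lit 0) (nat_lit 76) (XT.lf (nat_lit 0) (nat_lit 305108391) (nat_lit 76) (nat_lit 50075454066) (nat_lit 76) (nat_lit 48660342465) (nat_lit 1) (nat_lit 4) (nat_lit 2) (nat_lit 5) (nat_lit 2) (nat_lit 4) (nat_lit 403) (nat_lit 193) (nat_lit 184)) (XT.lf (nat_lit 0) (nat_lit 10195410007) (nat_lit 152) (nat_lit 15659826109) (nat_lit 0) (nat_lit 10195410007)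 (nat_lit 2) (nat_lit 5) (nat_lit 4) (nat_lit 4) (nat_lit 2) (nat_lit 4) (nat_lit 392) (nat_lit 194) (nat_lit 194)))) (XT.nd (nat_lit 78) (nat_lit 0) (nat_lit 0) (XT.lf (nat_lit 0) (nat_lit 22907618069) (nat_lit 152) (nat_lit 28566203736) (nat_lit 0) (nat_lit 22725869828) (nat_lit 2) (nat_lit 5) (nat_lit 4) (nat_lit 4) (nat_lit 2) (nat_lit 4) (nat_lit 393) (nat_lit 194) (nat_lit 193)) (XT.nd (nat_lit 78) (nat_lit 0) (nat_lit 0) (XT.lf (nat_lit 0) (nat_lit 25459492533) (nat_lit 152) (nat_lit 25801509759) (nat_lit 0) (nat_lit 25101289689) (nat_lit 2) (nat_lit 5) (nat_lit 4) (nat_lit 4) (nat_lit 2) (nat_lit 4) (nat_lit 394) (nat_lit 194) (nat_lit 192)) (XT.lf (nat_lit 0) (nat_lit 28048673200) (nat_lit 152) (nat_lit 23023154535) (nat_lit 0) (nat_lit 27519155207) (nat_lit 2) (nat_lit 5) (nat_lit 4) (nat_lit 4) (nat_lit 2) (nat_lit 4) (nat_lit 395) (nat_lit 194) (nat_lit 191)))))) (XT.nd (nat_lit 468)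 (nat_lit 0) (nat_lit 0) (XT.nd (nat_lit 234) (nat_lit 0) (nat_lit 0) (XT.nd (nat_lit 78) (nat_lit 0) (nat_lit 0) (XT.lf (nat_lit 0) (nat_lit 30677422461) (nat_lit 152) (nat_lit 20228710375) (nat_lit 0) (nat_lit 29981579081) (nat_lit 2) (nat_lit 5) (nat_lit 4) (nat_lit 4) (nat_lit 2) (nat_lit 4) (nat_lit 396) (nat_lit 194) (nat_lit 190)) (XT.nd (nat_lit 78) (nat_lit 0) (nat_lit 0) (XT.lf (nat_lit 0) (nat_lit 33348037281) (nat_lit 152) (nat_lit 17415735532) (nat_lit 0) (nat_lit 32490712943) (nat_lit 2) (nat_lit 5) (nat_lit 4) (nat_lit 4) (nat_lit 2) (nat_lit 4) (nat_lit 397) (nat_lit 194) (nat_lit 189)) (XT.lf (nat_lit 0) (nat_lit 36062851207) (nat_lit 152) (nat_lit 14581772066) (nat_lit 0) (nat_lit 35048749240) (nat_lit 2) (nat_lit 5) (nat_lit 4) (nat_lit 4) (nat_lit 2) (nat_lit 4) (nat_lit 398) (nat_lit 194) (nat_lit 188)))) (XT.nd (nat_lit 78) (nat_lit 0) (nat_lit 0) (XT.lf (nat_lit 0) (nat_lit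 38824236406) (nat_lit 152) (nat_lit 11724343699) (nat_lit 0) (nat_lit 37657923149) (nat_lit 2) (nat_lit 5) (nat_lit 4) (nat_lit 4) (nat_lit 2) (nat_lit 4) (nat_lit 399) (nat_lit 194) (nat_lit 187)) (XT.nd (nat_lit 78) (nat_lit 0) (nat_lit 0) (XT.lf (nat_lit 0) (nat_lit 41634605740) (nat_lit 152) (nat_lit 8840953649) (nat_lit 0) (nat_lit 40320514531) (nat_lit 2) (nat_lit 5) (nat_lit 4) (nat_lit 4) (nat_lit 2) (nat_lit 4) (nat_lit 400) (nat_lit 194) (nat_lit 186)) (XT.lf (nat_lit 0) (nat_lit 44496414871) (nat_lit 152) (nat_lit 5929082449) (nat_lit 0) (nat_lit 43038849922) (nat_lit 2) (nat_lit 5) (nat_lit 4) (nat_lit 4) (nat_lit 2) (nat_lit 4) (nat_lit 401) (nat_lit 194) (nat_lit 185))))) (XT.nd (nat_lit 39780) (nat_lit 0) (nat_lit 0) (XT.nd (nat_lit 78) (nat_lit 0) (nat_lit 0) (XT.lf (nat_lit 0) (nat_lit 47412164409) (nat_lit 152) (nat_lit 2986185745) (nat_lit 0) (nat_lit 45815304567) (nat_lit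 2) (nat_lit 5) (nat_lit 4) (nat_lit 4) (nat_lit 2) (nat_lit 4) (nat_lit 402) (nat_lit 194) (nat_lit 184)) (XT.nd (nat_lit 39624) (nat_lit 0) (nat_lit 0) (XT.lf (nat_lit 0) (nat_lit 50384402096) (nat_lit 152) (nat_lit 9692074) (nat_lit 0) (nat_lit 48652304494) (nat_lit 2) (nat_lit 5) (nat_lit 4) (nat_lit 4) (nat_lit 2) (nat_lit 4) (nat_lit 403) (nat_lit 194) (nat_lit 183)) (XT.lf (nat_lit 0) (nat_lit 7831006920) (nat_lit 152) (nat_lit 18382568118) (nat_lit 0) (nat_lit 7831006920) (nat_lit 2) (nat_lit 5) (nat_lit 4) (nat_lit 4) (nat_lit 2) (nat_lit 4) (nat_lit 390) (nat_lit 195) (nat_lit 195)))) (XT.nd (nat_lit 78) (nat_lit 0) (nat_lit 0) (XT.lf (nat_lit 0) (nat_lit 18094099914) (nat_lit 152) (nat_lit 34064261132) (nat_lit 0) (nat_lit 17906899225) (nat_lit 2) (nat_lit 5) (nat_lit 4) (nat_lit 4) (nat_lit 2) (nat_lit 4) (nat_lit 391) (nat_lit 195) (nat_lit 194)) (XT.nd (nat_lit 78) (nat_lit 0) (nat_lit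 0) (XT.lf (nat_lit 0) (nat_lit 20557508211) (nat_lit 152) (nat_lit 31355858474) (nat_lit 0) (nat_lit 20188559281) (nat_lit 2) (nat_lit 5) (nat_lit 4) (nat_lit 4) (nat_lit 2) (nat_lit 4) (nat_lit 392) (nat_lit 195) (nat_lit 193)) (XT.lf (nat_lit 0) (nat_lit 23054391225) (nat_lit 152) (nat_lit 28637561696) (nat_lit 0) (nat_lit 22508987693) (nat_lit 2) (nat_lit 5) (nat_lit 4) (nat_lit 4) (nat_lit 2) (nat_lit 4) (nat_lit 393) (nat_lit 195) (nat_lit 192))))))))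
noncomputable def xc1 : XT := (XT.nd (nat_lit 41106) (nat_lit 0) (nat_lit 0) (XT.nd (nat_lit 40248) (nat_lit 0) (nat_lit 0) (XT.nd (nat_lit 390) (nat_lit 0) (nat_lit 0) (XT.nd (nat_lit 156) (nat_lit 0) (nat_lit 0) (XT.nd (nat_lit 78) (nat_lit 0) (nat_lit 0) (XT.lf (nat_lit 0) (nat_lit 25586930698) (nat_lit 152) (nat_lit 25906995587) (nat_lit 0) (nat_lit 24870212018) (nat_lit 2) (nat_lit 5) (nat_lit 4) (nat_lit 4) (nat_lit 2) (nat_lit 4) (nat_lit 394) (nat_lit 195) (nat_lit 191)) (XT.lf (nat_lit 0) (nat_lit 28157339530) (nat_lit 152) (nat_lit 23161774215) (nat_lit 0) (nat_lit 27274295462) (nat_lit 2) (nat_lit 5) (nat_lit 4) (nat_lit 4) (nat_lit 2) (nat_lit 4) (nat_lit 395) (nat_lit 195) (nat_lit 190))) (XT.nd (nat_lit 78) (nat_lit 0) (nat_lit 0) (XT.lf (nat_lit 0) (nat_lit 30767863708) (nat_lit 152) (nat_lit 20399498844) (nat_lit 0) (nat_lit 29723338682) (nat_lit 2) (nat_lit 5) (nat_lit 4) (nat_lit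 4) (nat_lit 2) (nat_lit 4) (nat_lit 396) (nat_lit 195) (nat_lit 189)) (XT.nd (nat_lit 78) (nat_lit 0) (nat_lit 0) (XT.lf (nat_lit 0) (nat_lit 33420784272) (nat_lit 152) (nat_lit 17617755835) (nat_lit 0) (nat_lit 32219481617) (nat_lit 2) (nat_lit 5) (nat_lit 4) (nat_lit 4) (nat_lit 2) (nat_lit 4) (nat_lit 397) (nat_lit 195) (nat_lit 188)) (XT.lf (nat_lit 0) (nat_lit 36118419309) (nat_lit 152) (nat_lit 14814114538) (nat_lit 0) (nat_lit 34764905364) (nat_lit 2) (nat_lit 5) (nat_lit 4) (nat_lit 4) (nat_lit 2) (nat_lit 4) (nat_lit 398) (nat_lit 195) (nat_lit 187))))) (XT.nd (nat_lit 234) (nat_lit 0) (nat_lit 0) (XT.nd (nat_lit 78) (nat_lit 0) (nat_lit 0) (XT.lf (nat_lit 0) (nat_lit 38863125976) (nat_lit 152) (nat_lit 11986125170) (nat_lit 0) (nat_lit 37361834079) (nat_lit 2) (nat_lit 5) (nat_lit 4) (nat_lit 4) (nat_lit 2) (nat_lit 4) (nat_lit 399) (nat_lit 195) (nat_lit 186)) (XT.nd (nat_lit 78)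 (nat_lit 0) (nat_lit 0) (XT.lf (nat_lit 0) (nat_lit 41657302560) (nat_lit 152) (nat_lit 9131316673) (nat_lit 0) (nat_lit 40012536923) (nat_lit 2) (nat_lit 5) (nat_lit 4) (nat_lit 4) (nat_lit 2) (nat_lit 4) (nat_lit 400) (nat_lit 195) (nat_lit 185)) (XT.lf (nat_lit 0) (nat_lit 44503390574) (nat_lit 152) (nat_lit 6247194552) (nat_lit 0) (nat_lit 42719330044) (nat_lit 2) (nat_lit 5) (nat_lit 4) (nat_lit 4) (nat_lit 2) (nat_lit 4) (nat_lit 401) (nat_lit 195) (nat_lit 184)))) (XT.nd (nat_lit 78) (nat_lit 0) (nat_lit 0) (XT.lf (nat_lit 0) (nat_lit 47403876892) (nat_lit 152) (nat_lit 3331238703) (nat_lit 0) (nat_lit 45484578601) (nat_lit 2) (nat_lit 5) (nat_lit 4) (nat_lit 4) (nat_lit 2) (nat_lit 4) (nat_lit 402) (nat_lit 195) (nat_lit 183)) (XT.nd (nat_lit 39468) (nat_lit 0) (nat_lit 0) (XT.lf (nat_lit 0) (nat_lit 50361295919) (nat_lit 152) (nat_lit 380901201) (nat_lit 0) (nat_lit 48310698832) (nat_lit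 2) (nat_lit 5) (nat_lit 4) (nat_lit 4) (nat_lit 2) (nat_lit 4) (nat_lit 403) (nat_lit 195) (nat_lit 182)) (XT.lf (nat_lit 0) (nat_lit 5548955898) (nat_lit 152) (nat_lit 21057663999) (nat_lit 0) (nat_lit 5548955898) (nat_lit 2) (nat_lit 5) (nat_lit 4) (nat_lit 4) (nat_lit 2) (nat_lit 4) (nat_lit 388) (nat_lit 196) (nat_lit 196)))))) (XT.nd (nat_lit 390) (nat_lit 0) (nat_lit 0) (XT.nd (nat_lit 156) (nat_lit 0) (nat_lit 0) (XT.nd (nat_lit 78) (nat_lit 0) (nat_lit 0) (XT.lf (nat_lit 0) (nat_lit 13451941577) (nat_lit 152) (nat_lit 39460843772) (nat_lit 0) (nat_lit 13259124868) (nat_lit 2) (nat_lit 5) (nat_lit 4) (nat_lit 4) (nat_lit 2) (nat_lit 4) (nat_lit 389) (nat_lit 196) (nat_lit 195)) (XT.lf (nat_lit 0) (nat_lit 15833702683) (nat_lit 152) (nat_lit 36802428679) (nat_lit 0) (nat_lit 15453685286) (nat_lit 2) (nat_lit 5) (nat_lit 4) (nat_lit 4) (nat_lit 2) (nat_lit 4) (nat_lit 390) (nat_lit 196)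 (nat_lit 194))) (XT.nd (nat_lit 78) (nat_lit 0) (nat_lit 0) (XT.lf (nat_lit 0) (nat_lit 18245276265) (nat_lit 152) (nat_lit 34137759831) (nat_lit 0) (nat_lit 17683510626) (nat_lit 2) (nat_lit 5) (nat_lit 4) (nat_lit 4) (nat_lit 2) (nat_lit 4) (nat_lit 391) (nat_lit 196) (nat_lit 193)) (XT.nd (nat_lit 78) (nat_lit 0) (nat_lit 0) (XT.lf (nat_lit 0) (nat_lit 20688769521) (nat_lit 152) (nat_lit 31464508877) (nat_lit 0) (nat_lit 19950549280) (nat_lit 2) (nat_lit 5) (nat_lit 4) (nat_lit 4) (nat_lit 2) (nat_lit 4) (nat_lit 392) (nat_lit 196) (nat_lit 192)) (XT.lf (nat_lit 0) (nat_lit 23166317545) (nat_lit 152) (nat_lit 28780339967) (nat_lit 0) (nat_lit 22256782155) (nat_lit 2) (nat_lit 5) (nat_lit 4) (nat_lit 4) (nat_lit 2) (nat_lit 4) (nat_lit 393) (nat_lit 196) (nat_lit 191))))) (XT.nd (nat_lit 234) (nat_lit 0) (nat_lit 0) (XT.nd (nat_lit 78) (nat_lit 0) (nat_lit 0) (XT.lf (nat_lit 0) (nat_lit 25680085183)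 (nat_lit 152) (nat_lit 26082907710) (nat_lit 0) (nat_lit 24604224406) (nat_lit 2) (nat_lit 5) (nat_lit 4) (nat_lit 4) (nat_lit 2) (nat_lit 4) (nat_lit 394) (nat_lit 196) (nat_lit 190)) (XT.nd (nat_lit 78) (nat_lit 0) (nat_lit 0) (XT.lf (nat_lit 0) (nat_lit 28232268931) (nat_lit 152) (nat_lit 23369855128) (nat_lit 0) (nat_lit 26994927197) (nat_lit 2) (nat_lit 5) (nat_lit 4) (nat_lit 4) (nat_lit 2) (nat_lit 4) (nat_lit 395) (nat_lit 196) (nat_lit 189)) (XT.lf (nat_lit 0) (nat_lit 30825098854) (nat_lit 152) (nat_lit 20638811591) (nat_lit 0) (nat_lit 29430979490) (nat_lit 2) (nat_lit 5) (nat_lit 4) (nat_lit 4) (nat_lit 2) (nat_lit 4) (nat_lit 396) (nat_lit 196) (nat_lit 188)))) (XT.nd (nat_lit 78) (nat_lit 0) (nat_lit 0) (XT.lf (nat_lit 0) (nat_lit 33460840529) (nat_lit 152) (nat_lit 17887390750) (nat_lit 0) (nat_lit 31914509875) (nat_lit 2) (nat_lit 5) (nat_lit 4) (nat_lit 4) (nat_lit 2) (nat_lit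 4) (nat_lit 397) (nat_lit 196) (nat_lit 187)) (XT.nd (nat_lit 78) (nat_lit 0) (nat_lit 0) (XT.lf (nat_lit 0) (nat_lit 36141797034) (nat_lit 152) (nat_lit 15113188452) (nat_lit 0) (nat_lit 34447688427) (nat_lit 2) (nat_lit 5) (nat_lit 4) (nat_lit 4) (nat_lit 2) (nat_lit 4) (nat_lit 398) (nat_lit 196) (nat_lit 186)) (XT.lf (nat_lit 0) (nat_lit 38870310950) (nat_lit 152) (nat_lit 12313780637) (nat_lit 0) (nat_lit 37032728604) (nat_lit 2) (nat_lit 5) (nat_lit 4) (nat_lit 4) (nat_lit 2) (nat_lit 4) (nat_lit 399) (nat_lit 196) (nat_lit 185))))))) (XT.nd (nat_lit 40092) (nat_lit 0) (nat_lit 0) (XT.nd (nat_lit 39624) (nat_lit 0) (nat_lit 0) (XT.nd (nat_lit 156) (nat_lit 0) (nat_lit 0) (XT.nd (nat_lit 78) (nat_lit 0) (nat_lit 0) (XT.lf (nat_lit 0) (nat_lit 41648766417) (nat_lit 152) (nat_lit 9486721219) (nat_lit 0) (nat_lit 39671889178) (nat_lit 2) (nat_lit 5) (nat_lit 4) (nat_lit 4) (nat_lit 2) (nat_lit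 4) (nat_lit 400) (nat_lit 196) (nat_lit 184)) (XT.lf (nat_lit 0) (nat_lit 44479591211) (nat_lit 152) (nat_lit 6629539953) (nat_lit 0) (nat_lit 42367476212) (nat_lit 2) (nat_lit 5) (nat_lit 4) (nat_lit 4) (nat_lit 2) (nat_lit 4) (nat_lit 401) (nat_lit 196) (nat_lit 183))) (XT.nd (nat_lit 78) (nat_lit 0) (nat_lit 0) (XT.lf (nat_lit 0) (nat_lit 47365258869) (nat_lit 152) (nat_lit 3739740273) (nat_lit 0) (nat_lit 45121845073) (nat_lit 2) (nat_lit 5) (nat_lit 4) (nat_lit 4) (nat_lit 2) (nat_lit 4) (nat_lit 402) (nat_lit 196) (nat_lit 182)) (XT.nd (nat_lit 39312) (nat_lit 0) (nat_lit 0) (XT.lf (nat_lit 0) (nat_lit 50308290846) (nat_lit 152) (nat_lit 814797110) (nat_lit 0) (nat_lit 47937402491) (nat_lit 2) (nat_lit 5) (nat_lit 4) (nat_lit 4) (nat_lit 2) (nat_lit 4) (nat_lit 403) (nat_lit 196) (nat_lit 181)) (XT.lf (nat_lit 0) (nat_lit 3342928364) (nat_lit 152) (nat_lit 23691108348) (nat_lit 0) (nat_lit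 3342928364) (nat_lit 2) (nat_lit 5) (nat_lit 4) (nat_lit 4) (nat_lit 2) (nat_lit 4) (nat_lit 386) (nat_lit 197) (nat_lit 197))))) (XT.nd (nat_lit 234) (nat_lit 0) (nat_lit 0) (XT.nd (nat_lit 78) (nat_lit 0) (nat_lit 0) (XT.lf (nat_lit 0) (nat_lit 8968157630) (nat_lit 152) (nat_lit 44768200810) (nat_lit 0) (nat_lit 8769556420) (nat_lit 2) (nat_lit 5) (nat_lit 4) (nat_lit 4) (nat_lit 2) (nat_lit 4) (nat_lit 387) (nat_lit 197) (nat_lit 196)) (XT.nd (nat_lit 78) (nat_lit 0) (nat_lit 0) (XT.lf (nat_lit 0) (nat_lit 11274751304) (nat_lit 152) (nat_lit 42153739215) (nat_lit 0) (nat_lit 10883333385) (nat_lit 2) (nat_lit 5) (nat_lit 4) (nat_lit 4) (nat_lit 2) (nat_lit 4) (nat_lit 388) (nat_lit 197) (nat_lit 195)) (XT.lf (nat_lit 0) (nat_lit 13607653219) (nat_lit 152) (nat_lit 39536547432) (nat_lit 0) (nat_lit 13029034611) (nat_lit 2) (nat_lit 5) (nat_lit 4) (nat_lit 4) (nat_lit 2) (nat_lit 4) (nat_lit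 389) (nat_lit 197) (nat_lit 194)))) (XT.nd (nat_lit 78) (nat_lit 0) (nat_lit 0) (XT.lf (nat_lit 0) (nat_lit 15968901833) (nat_lit 152) (nat_lit 36914338593) (nat_lit 0) (nat_lit 15208534985) (nat_lit 2) (nat_lit 5) (nat_lit 4) (nat_lit 4) (nat_lit 2) (nat_lit 4) (nat_lit 390) (nat_lit 197) (nat_lit 193)) (XT.nd (nat_lit 78) (nat_lit 0) (nat_lit 0) (XT.lf (nat_lit 0) (nat_lit 18360560374) (nat_lit 152) (nat_lit 34284821450) (nat_lit 0) (nat_lit 17423738923) (nat_lit 2) (nat_lit 5) (nat_lit 4) (nat_lit 4) (nat_lit 2) (nat_lit 4) (nat_lit 391) (nat_lit 197) (nat_lit 192)) (XT.lf (nat_lit 0) (nat_lit 20784718640) (nat_lit 152) (nat_lit 31645698364) (nat_lit 0) (nat_lit 19676582040) (nat_lit 2) (nat_lit 5) (nat_lit 4) (nat_lit 4) (nat_lit 2) (nat_lit 4) (nat_lit 392) (nat_lit 197) (nat_lit 191)))))) (XT.nd (nat_lit 468) (nat_lit 0) (nat_lit 0) (XT.nd (nat_lit 234) (nat_lit 0) (nat_lit 0) (XT.nd (nat_lit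 78) (nat_lit 0) (nat_lit 0) (XT.lf (nat_lit 0) (nat_lit 23243494828) (nat_lit 152) (nat_lit 28994663307) (nat_lit 0) (nat_lit 21969032841) (nat_lit 2) (nat_lit 5) (nat_lit 4) (nat_lit 4) (nat_lit 2) (nat_lit 4) (nat_lit 393) (nat_lit 197) (nat_lit 190)) (XT.nd (nat_lit 78) (nat_lit 0) (nat_lit 0) (XT.lf (nat_lit 0) (nat_lit 25739037383) (nat_lit 152) (nat_lit 26329399839) (nat_lit 0) (nat_lit 24303094438) (nat_lit 2) (nat_lit 5) (nat_lit 4) (nat_lit 4) (nat_lit 2) (nat_lit 4) (nat_lit 394) (nat_lit 197) (nat_lit 189)) (XT.lf (nat_lit 0) (nat_lit 28273526876) (nat_lit 152) (nat_lit 23647579091) (nat_lit 0) (nat_lit 26680806302) (nat_lit 2) (nat_lit 5) (nat_lit 4) (nat_lit 4) (nat_lit 2) (nat_lit 4) (nat_lit 395) (nat_lit 197) (nat_lit 188)))) (XT.nd (nat_lit 78) (nat_lit 0) (nat_lit 0) (XT.lf (nat_lit 0) (nat_lit 30849177909) (nat_lit 152) (nat_lit 20946857722) (nat_lit 0) (nat_lit 29104246045)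 (nat_lit 2) (nat_lit 5) (nat_lit 4) (nat_lit 4) (nat_lit 2) (nat_lit 4) (nat_lit 396) (nat_lit 197) (nat_lit 187)) (XT.nd (nat_lit 78) (nat_lit 0) (nat_lit 0) (XT.lf (nat_lit 0) (nat_lit 33468241052) (nat_lit 152) (nat_lit 18224875881) (nat_lit 0) (nat_lit 31575531236) (nat_lit 2) (nat_lit 5) (nat_lit 4) (nat_lit 4) (nat_lit 2) (nat_lit 4) (nat_lit 397) (nat_lit 197) (nat_lit 186)) (XT.lf (nat_lit 0) (nat_lit 36133004807) (nat_lit 152) (nat_lit 15479255135) (nat_lit 0) (nat_lit 34096821250) (nat_lit 2) (nat_lit 5) (nat_lit 4) (nat_lit 4) (nat_lit 2) (nat_lit 4) (nat_lit 398) (nat_lit 197) (nat_lit 185))))) (XT.nd (nat_lit 234) (nat_lit 0) (nat_lit 0) (XT.nd (nat_lit 78) (nat_lit 0) (nat_lit 0) (XT.lf (nat_lit 0) (nat_lit 38845797606) (nat_lit 152) (nat_lit 12707596400) (nat_lit 0) (nat_lit 36670319157) (nat_lit 2) (nat_lit 5) (nat_lit 4) (nat_lit 4) (nat_lit 2) (nat_lit 4) (nat_lit 399) (nat_lit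 197) (nat_lit 184)) (XT.nd (nat_lit 78) (nat_lit 0) (nat_lit 0) (XT.lf (nat_lit 0) (nat_lit 41608989853) (nat_lit 152) (nat_lit 9907477836) (nat_lit 0) (nat_lit 39298273644) (nat_lit 2) (nat_lit 5) (nat_lit 4) (nat_lit 4) (nat_lit 2) (nat_lit 4) (nat_lit 400) (nat_lit 197) (nat_lit 183)) (XT.lf (nat_lit 0) (nat_lit 44424995987) (nat_lit 152) (nat_lit 7076452740) (nat_lit 0) (nat_lit 41982980981) (nat_lit 2) (nat_lit 5) (nat_lit 4) (nat_lit 4) (nat_lit 2) (nat_lit 4) (nat_lit 401) (nat_lit 197) (nat_lit 182)))) (XT.nd (nat_lit 78) (nat_lit 0) (nat_lit 0) (XT.lf (nat_lit 0) (nat_lit 47296276595) (nat_lit 152) (nat_lit 4212047398) (nat_lit 0) (nat_lit 44726787030) (nat_lit 2) (nat_lit 5) (nat_lit 4) (nat_lit 4) (nat_lit 2) (nat_lit 4) (nat_lit 402) (nat_lit 197) (nat_lit 181)) (XT.nd (nat_lit 39156) (nat_lit 0) (nat_lit 0) (XT.lf (nat_lit 0) (nat_lit 50225340564) (nat_lit 152) (nat_lit 1311758934)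 (nat_lit 0) (nat_lit 47532089291) (nat_lit 2) (nat_lit 5) (nat_lit 4) (nat_lit 4) (nat_lit 2) (nat_lit 4) (nat_lit 403) (nat_lit 197) (nat_lit 180)) (XT.lf (nat_lit 0) (nat_lit 1206910992) (nat_lit 152) (nat_lit 26288649431) (nat_lit 0) (nat_lit 1206910992) (nat_lit 2) (nat_lit 5) (nat_lit 4) (nat_lit 4) (nat_lit 2) (nat_lit 4) (nat_lit 384) (nat_lit 198) (nat_lit 198))))))))
noncomputable def xc2 : XT := (XT.nd (nat_lit 40638) (nat_lit 0) (nat_lit 0) (XT.nd (nat_lit 858) (nat_lit 0) (nat_lit 0) (XT.nd (nat_lit 390) (nat_lit 0) (nat_lit 0) (XT.nd (nat_lit 156) (nat_lit 0) (nat_lit 0) (XT.nd (nat_lit 78) (nat_lit 0) (nat_lit 0) (XT.lf (nat_lit 0) (nat_lit 4630413600) (nat_lit 152) (nat_lit 49998070968) (nat_lit 0) (nat_lit 4425854354) (nat_lit 2) (nat_lit 5) (nat_lit 4) (nat_lit 4) (nat_lit 2) (nat_lit 4) (nat_lit 385) (nat_lit 198) (nat_lit 197)) (XT.lf (nat_lit 0) (nat_lit 6868001421) (nat_lit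 152) (nat_lit 47421780250) (nat_lit 0) (nat_lit 6464840964) (nat_lit 2) (nat_lit 5) (nat_lit 4) (nat_lit 4) (nat_lit 2) (nat_lit 4) (nat_lit 386) (nat_lit 198) (nat_lit 196))) (XT.nd (nat_lit 78) (nat_lit 0) (nat_lit 0) (XT.lf (nat_lit 0) (nat_lit 9128540621) (nat_lit 152) (nat_lit 44846175579) (nat_lit 0) (nat_lit 8532563455) (nat_lit 2) (nat_lit 5) (nat_lit 4) (nat_lit 4) (nat_lit 2) (nat_lit 4) (nat_lit 387) (nat_lit 198) (nat_lit 195)) (XT.nd (nat_lit 78) (nat_lit 0) (nat_lit 0) (XT.lf (nat_lit 0) (nat_lit 11414006428) (nat_lit 152) (nat_lit 42269006427) (nat_lit 0) (nat_lit 10630828574) (nat_lit 2) (nat_lit 5) (nat_lit 4) (nat_lit 4) (nat_lit 2) (nat_lit 4) (nat_lit 388) (nat_lit 198) (nat_lit 194)) (XT.lf (nat_lit 0) (nat_lit 13726395851) (nat_lit 152) (nat_lit 39688020899) (nat_lit 0) (nat_lit 12761469757) (nat_lit 2) (nat_lit 5) (nat_lit 4) (nat_lit 4) (nat_lit 2) (nat_lit 4) (nat_lit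 389) (nat_lit 198) (nat_lit 193))))) (XT.nd (nat_lit 234) (nat_lit 0) (nat_lit 0) (XT.nd (nat_lit 78) (nat_lit 0) (nat_lit 0) (XT.lf (nat_lit 0) (nat_lit 16067729426) (nat_lit 152) (nat_lit 37100963765) (nat_lit 0) (nat_lit 14926348728) (nat_lit 2) (nat_lit 5) (nat_lit 4) (nat_lit 4) (nat_lit 2) (nat_lit 4) (nat_lit 390) (nat_lit 198) (nat_lit 192)) (XT.nd (nat_lit 78) (nat_lit 0) (nat_lit 0) (XT.lf (nat_lit 0) (nat_lit 18440052976) (nat_lit 152) (nat_lit 34505574490) (nat_lit 0) (nat_lit 17127357130) (nat_lit 2) (nat_lit 5) (nat_lit 4) (nat_lit 4) (nat_lit 2) (nat_lit 4) (nat_lit 391) (nat_lit 198) (nat_lit 191)) (XT.lf (nat_lit 0) (nat_lit 20845439406) (nat_lit 152) (nat_lit 31899585257) (nat_lit 0) (nat_lit 19366418173) (nat_lit 2) (nat_lit 5) (nat_lit 4) (nat_lit 4) (nat_lit 2) (nat_lit 4) (nat_lit 392) (nat_lit 198) (nat_lit 190)))) (XT.nd (nat_lit 78) (nat_lit 0) (nat_lit 0) (XT.lf (nat_lit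 0) (nat_lit 23285990511) (nat_lit 152) (nat_lit 29280718988) (nat_lit 0) (nat_lit 21645488320) (nat_lit 2) (nat_lit 5) (nat_lit 4) (nat_lit 4) (nat_lit 2) (nat_lit 4) (nat_lit 393) (nat_lit 198) (nat_lit 189)) (XT.nd (nat_lit 78) (nat_lit 0) (nat_lit 0) (XT.lf (nat_lit 0) (nat_lit 25763838811) (nat_lit 152) (nat_lit 26646687355) (nat_lit 0) (nat_lit 23966558990) (nat_lit 2) (nat_lit 5) (nat_lit 4) (nat_lit 4) (nat_lit 2) (nat_lit 4) (nat_lit 394) (nat_lit 198) (nat_lit 188)) (XT.lf (nat_lit 0) (nat_lit 28281149415) (nat_lit 152) (nat_lit 23995188775) (nat_lit 0) (nat_lit 26331658304) (nat_lit 2) (nat_lit 5) (nat_lit 4) (nat_lit 4) (nat_lit 2) (nat_lit 4) (nat_lit 395) (nat_lit 198) (nat_lit 187)))))) (XT.nd (nat_lit 390) (nat_lit 0) (nat_lit 0) (XT.nd (nat_lit 156) (nat_lit 0) (nat_lit 0) (XT.nd (nat_lit 78) (nat_lit 0) (nat_lit 0) (XT.lf (nat_lit 0) (nat_lit 30840121916) (nat_lit 152) (nat_lit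 21323906406) (nat_lit 0) (nat_lit 28742852852) (nat_lit 2) (nat_lit 5) (nat_lit 4) (nat_lit 4) (nat_lit 2) (nat_lit 4) (nat_lit 396) (nat_lit 198) (nat_lit 186)) (XT.lf (nat_lit 0) (nat_lit 33442992308) (nat_lit 152) (nat_lit 18630506117) (nat_lit 0) (nat_lit 31202249505) (nat_lit 2) (nat_lit 5) (nat_lit 4) (nat_lit 4) (nat_lit 2) (nat_lit 4) (nat_lit 397) (nat_lit 198) (nat_lit 185))) (XT.nd (nat_lit 78) (nat_lit 0) (nat_lit 0) (XT.lf (nat_lit 0) (nat_lit 36092034946) (nat_lit 152) (nat_lit 15912634451) (nat_lit 0) (nat_lit 33711997250) (nat_lit 2) (nat_lit 5) (nat_lit 4) (nat_lit 4) (nat_lit 2) (nat_lit 4) (nat_lit 398) (nat_lit 198) (nat_lit 184)) (XT.nd (nat_lit 78) (nat_lit 0) (nat_lit 0) (XT.lf (nat_lit 0) (nat_lit 38789564525) (nat_lit 152) (nat_lit 13167916570) (nat_lit 0) (nat_lit 36274289069) (nat_lit 2) (nat_lit 5) (nat_lit 4) (nat_lit 4) (nat_lit 2) (nat_lit 4) (nat_lit 399) (nat_lit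 198) (nat_lit 183)) (XT.lf (nat_lit 0) (nat_lit 41537938112) (nat_lit 152) (nat_lit 10393954176) (nat_lit 0) (nat_lit 38891363859) (nat_lit 2) (nat_lit 5) (nat_lit 4) (nat_lit 4) (nat_lit 2) (nat_lit 4) (nat_lit 400) (nat_lit 198) (nat_lit 182))))) (XT.nd (nat_lit 39156) (nat_lit 0) (nat_lit 0) (XT.nd (nat_lit 78) (nat_lit 0) (nat_lit 0) (XT.lf (nat_lit 0) (nat_lit 44339557196) (nat_lit 152) (nat_lit 7588323418) (nat_lit 0) (nat_lit 41565508385) (nat_lit 2) (nat_lit 5) (nat_lit 4) (nat_lit 4) (nat_lit 2) (nat_lit 4) (nat_lit 401) (nat_lit 198) (nat_lit 181)) (XT.nd (nat_lit 78) (nat_lit 0) (nat_lit 0) (XT.lf (nat_lit 0) (nat_lit 47196869796) (nat_lit 152) (nat_lit 4748572775) (nat_lit 0) (nat_lit 44299059276) (nat_lit 2) (nat_lit 5) (nat_lit 4) (nat_lit 4) (nat_lit 2) (nat_lit 4) (nat_lit 402) (nat_lit 198) (nat_lit 180)) (XT.lf (nat_lit 0) (nat_lit 50112372592) (nat_lit 152) (nat_lit 1872220910)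 (nat_lit 0) (nat_lit 47094405073) (nat_lit 2) (nat_lit 5) (nat_lit 4) (nat_lit 4) (nat_lit 2) (nat_lit 4) (nat_lit 403) (nat_lit 198) (nat_lit 179)))) (XT.nd (nat_lit 78) (nat_lit 152) (nat_lit 0) (XT.lf (nat_lit 0) (nat_lit 25412505451) (nat_lit 76) (nat_lit 856335265) (nat_lit 76) (nat_lit 856335265) (nat_lit 4) (nat_lit 4) (nat_lit 5) (nat_lit 5) (nat_lit 5) (nat_lit 4) (nat_lit 382) (nat_lit 199) (nat_lit 199)) (XT.nd (nat_lit 78) (nat_lit 0) (nat_lit 0) (XT.lf (nat_lit 0) (nat_lit 426985770) (nat_lit 152) (nat_lit 55161717626) (nat_lit 0) (nat_lit 216289746) (nat_lit 2) (nat_lit 5) (nat_lit 4) (nat_lit 4) (nat_lit 2) (nat_lit 4) (nat_lit 383) (nat_lit 199) (nat_lit 198)) (XT.lf (nat_lit 0) (nat_lit 2601431018) (nat_lit 152) (nat_lit 52618049322) (nat_lit 0) (nat_lit 2186175748) (nat_lit 2) (nat_lit 5) (nat_lit 4) (nat_lit 4) (nat_lit 2) (nat_lit 4) (nat_lit 384) (nat_lit 199) (nat_lit 197)))))))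 (XT.nd (nat_lit 858) (nat_lit 0) (nat_lit 0) (XT.nd (nat_lit 390) (nat_lit 0) (nat_lit 0) (XT.nd (nat_lit 156) (nat_lit 0) (nat_lit 0) (XT.nd (nat_lit 78) (nat_lit 0) (nat_lit 0) (XT.lf (nat_lit 0) (nat_lit 4795608081) (nat_lit 152) (nat_lit 50078384980) (nat_lit 0) (nat_lit 4181751600) (nat_lit 2) (nat_lit 5) (nat_lit 4) (nat_lit 4) (nat_lit 2) (nat_lit 4) (nat_lit 385) (nat_lit 199) (nat_lit 196)) (XT.lf (nat_lit 0) (nat_lit 7011434199) (nat_lit 152) (nat_lit 47540505478) (nat_lit 0) (nat_lit 6204761010) (nat_lit 2) (nat_lit 5) (nat_lit 4) (nat_lit 4) (nat_lit 2) (nat_lit 4) (nat_lit 386) (nat_lit 199) (nat_lit 195))) (XT.nd (nat_lit 78) (nat_lit 0) (nat_lit 0) (XT.lf (nat_lit 0) (nat_lit 9250845533) (nat_lit 152) (nat_lit 45002193250) (nat_lit 0) (nat_lit 8256971655) (nat_lit 2) (nat_lit 5) (nat_lit 4) (nat_lit 4) (nat_lit 2) (nat_lit 4) (nat_lit 387) (nat_lit 199) (nat_lit 194)) (XT.nd (nat_lit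 78) (nat_lit 0) (nat_lit 0) (XT.lf (nat_lit 0) (nat_lit 11515798848) (nat_lit 152) (nat_lit 42461230354) (nat_lit 0) (nat_lit 10340176729) (nat_lit 2) (nat_lit 5) (nat_lit 4) (nat_lit 4) (nat_lit 2) (nat_lit 4) (nat_lit 388) (nat_lit 199) (nat_lit 193)) (XT.lf (nat_lit 0) (nat_lit 13808273231) (nat_lit 152) (nat_lit 39915396530) (nat_lit 0) (nat_lit 12456196510) (nat_lit 2) (nat_lit 5) (nat_lit 4) (nat_lit 4) (nat_lit 2) (nat_lit 4) (nat_lit 389) (nat_lit 199) (nat_lit 192))))) (XT.nd (nat_lit 234) (nat_lit 0) (nat_lit 0) (XT.nd (nat_lit 78) (nat_lit 0) (nat_lit 0) (XT.lf (nat_lit 0) (nat_lit 16130271815) (nat_lit 152) (nat_lit 37362467265) (nat_lit 0) (nat_lit 14606879945) (nat_lit 2) (nat_lit 5) (nat_lit 4) (nat_lit 4) (nat_lit 2) (nat_lit 4) (nat_lit 390) (nat_lit 199) (nat_lit 191)) (XT.nd (nat_lit 78) (nat_lit 0) (nat_lit 0) (XT.lf (nat_lit 0) (nat_lit 18483823529) (nat_lit 152) (nat_lit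 34800211842) (nat_lit 0) (nat_lit 16794106272) (nat_lit 2) (nat_lit 5) (nat_lit 4) (nat_lit 4) (nat_lit 2) (nat_lit 4) (nat_lit 391) (nat_lit 199) (nat_lit 190)) (XT.lf (nat_lit 0) (nat_lit 20870984877) (nat_lit 152) (nat_lit 32226391398) (nat_lit 0) (nat_lit 19019786662) (nat_lit 2) (nat_lit 5) (nat_lit 4) (nat_lit 4) (nat_lit 2) (nat_lit 4) (nat_lit 392) (nat_lit 199) (nat_lit 189)))) (XT.nd (nat_lit 78) (nat_lit 0) (nat_lit 0) (XT.lf (nat_lit 0) (nat_lit 23293841726) (nat_lit 152) (nat_lit 29638756963) (nat_lit 0) (nat_lit 21285865882) (nat_lit 2) (nat_lit 5) (nat_lit 4) (nat_lit 4) (nat_lit 2) (nat_lit 4) (nat_lit 393) (nat_lit 199) (nat_lit 188)) (XT.nd (nat_lit 78) (nat_lit 0) (nat_lit 0) (XT.lf (nat_lit 0) (nat_lit 25754511137) (nat_lit 152) (nat_lit 27035047499) (nat_lit 0) (nat_lit 23594324002) (nat_lit 2) (nat_lit 5) (nat_lit 4) (nat_lit 4) (nat_lit 2) (nat_lit 4) (nat_lit 394) (nat_lit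 199) (nat_lit 187)) (XT.lf (nat_lit 0) (nat_lit 28255143208) (nat_lit 152) (nat_lit 24412987918) (nat_lit 0) (nat_lit 25947178121) (nat_lit 2) (nat_lit 5) (nat_lit 4) (nat_lit 4) (nat_lit 2) (nat_lit 4) (nat_lit 395) (nat_lit 199) (nat_lit 186)))))) (XT.nd (nat_lit 468) (nat_lit 0) (nat_lit 0) (XT.nd (nat_lit 234) (nat_lit 0) (nat_lit 0) (XT.nd (nat_lit 78) (nat_lit 0) (nat_lit 0) (XT.lf (nat_lit 0) (nat_lit 30797922959) (nat_lit 152) (nat_lit 21770287101) (nat_lit 0) (nat_lit 28346484132) (nat_lit 2) (nat_lit 5) (nat_lit 4) (nat_lit 4) (nat_lit 2) (nat_lit 4) (nat_lit 396) (nat_lit 199) (nat_lit 185)) (XT.nd (nat_lit 78) (nat_lit 0) (nat_lit 0) (XT.lf (nat_lit 0) (nat_lit 33385072235) (nat_lit 152) (nat_lit 19104635892) (nat_lit 0) (nat_lit 30794338515) (nat_lit 2) (nat_lit 5) (nat_lit 4) (nat_lit 4) (nat_lit 2) (nat_lit 4) (nat_lit 397) (nat_lit 199) (nat_lit 184)) (XT.lf (nat_lit 0) (nat_lit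 36018851652) (nat_lit 152) (nat_lit 16413705080) (nat_lit 0) (nat_lit 33292880172) (nat_lit 2) (nat_lit 5) (nat_lit 4) (nat_lit 4) (nat_lit 2) (nat_lit 4) (nat_lit 398) (nat_lit 199) (nat_lit 183)))) (XT.nd (nat_lit 78) (nat_lit 0) (nat_lit 0) (XT.lf (nat_lit 0) (nat_lit 38701562571) (nat_lit 152) (nat_lit 13695143368) (nat_lit 0) (nat_lit 35844292295) (nat_lit 2) (nat_lit 5) (nat_lit 4) (nat_lit 4) (nat_lit 2) (nat_lit 4) (nat_lit 399) (nat_lit 199) (nat_lit 182)) (XT.nd (nat_lit 78) (nat_lit 0) (nat_lit 0) (XT.lf (nat_lit 0) (nat_lit 41435549109) (nat_lit 152) (nat_lit 10946575313) (nat_lit 0) (nat_lit 38450804273) (nat_lit 2) (nat_lit 5) (nat_lit 4) (nat_lit 4) (nat_lit 2) (nat_lit 4) (nat_lit 400) (nat_lit 199) (nat_lit 181)) (XT.lf (nat_lit 0) (nat_lit 44223200185) (nat_lit 152) (nat_lit 8165599254) (nat_lit 0) (nat_lit 41114693641) (nat_lit 2) (nat_lit 5) (nat_lit 4) (nat_lit 4) (nat_lit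 2) (nat_lit 4) (nat_lit 401) (nat_lit 199) (nat_lit 180))))) (XT.nd (nat_lit 39000) (nat_lit 0) (nat_lit 0) (XT.nd (nat_lit 78) (nat_lit 0) (nat_lit 0) (XT.lf (nat_lit 0) (nat_lit 47066951611) (nat_lit 152) (nat_lit 5349785211) (nat_lit 0) (nat_lit 43838288069) (nat_lit 2) (nat_lit 5) (nat_lit 4) (nat_lit 4) (nat_lit 2) (nat_lit 4) (nat_lit 402) (nat_lit 199) (nat_lit 179)) (XT.nd (nat_lit 38844) (nat_lit 0) (nat_lit 152) (XT.lf (nat_lit 0) (nat_lit 49969288219) (nat_lit 152) (nat_lit 2496672764) (nat_lit 0) (nat_lit 46623967397) (nat_lit 2) (nat_lit 5) (nat_lit 4) (nat_lit 4) (nat_lit 2) (nat_lit 4) (nat_lit 403) (nat_lit 199) (nat_lit 178)) (XT.lf (nat_lit 0) (nat_lit 19940227890) (nat_lit 76) (nat_lit 2849473860) (nat_lit 76) (nat_lit 2849473860) (nat_lit 4) (nat_lit 4) (nat_lit 5) (nat_lit 5) (nat_lit 5) (nat_lit 4) (nat_lit 380) (nat_lit 200) (nat_lit 200)))) (XT.nd (nat_lit 78) (nat_lit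 152) (nat_lit 0) (XT.lf (nat_lit 0) (nat_lit 45292220358) (nat_lit 76) (nat_lit 3836668711) (nat_lit 76) (nat_lit 3613141300) (nat_lit 4) (nat_lit 4) (nat_lit 5) (nat_lit 5) (nat_lit 5) (nat_lit 4) (nat_lit 381) (nat_lit 200) (nat_lit 199)) (XT.nd (nat_lit 78) (nat_lit 152) (nat_lit 0) (XT.lf (nat_lit 0) (nat_lit 50784887632) (nat_lit 76) (nat_lit 1953359699) (nat_lit 76) (nat_lit 1512815383) (nat_lit 4) (nat_lit 4) (nat_lit 5) (nat_lit 5) (nat_lit 5) (nat_lit 4) (nat_lit 382) (nat_lit 200) (nat_lit 198)) (XT.lf (nat_lit 0) (nat_lit 561645189) (nat_lit 76) (nat_lit 35835366) (nat_lit 152) (nat_lit 55208950163) (nat_lit 2) (nat_lit 5) (nat_lit 3) (nat_lit 5) (nat_lit 4) (nat_lit 4) (nat_lit 383) (nat_lit 200) (nat_lit 197))))))))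
noncomputable def xc3 : XT := (XT.nd (nat_lit 40404) (nat_lit 0) (nat_lit 0) (XT.nd (nat_lit 858) (nat_lit 0) (nat_lit 0) (XT.nd (nat_lit 390) (nat_lit 0) (nat_lit 0) (XT.nd (nat_lit 156) (nat_lit 0) (nat_lit 0) (XT.nd (nat_lit 78) (nat_lit 0) (nat_lit 0) (XT.lf (nat_lit 0) (nat_lit 2749166780) (nat_lit 152) (nat_lit 52740336307) (nat_lit 0) (nat_lit 1918293395) (nat_lit 2) (nat_lit 5) (nat_lit 4) (nat_lit 4) (nat_lit 2) (nat_lit 4) (nat_lit 384) (nat_lit 200) (nat_lit 196)) (XT.lf (nat_lit 0) (nat_lit 4921582140) (nat_lit 152) (nat_lit 50239083182) (nat_lit 0) (nat_lit 3897892046) (nat_lit 2) (nat_lit 5) (nat_lit 4) (nat_lit 4) (nat_lit 2) (nat_lit 4) (nat_lit 385) (nat_lit 200) (nat_lit 195))) (XT.nd (nat_lit 78) (nat_lit 0) (nat_lit 0) (XT.lf (nat_lit 0) (nat_lit 7116280392) (nat_lit 152) (nat_lit 47738496123) (nat_lit 0) (nat_lit 5905389610) (nat_lit 2) (nat_lit 5) (nat_lit 4) (nat_lit 4)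 (nat_lit 2) (nat_lit 4) (nat_lit 386) (nat_lit 200) (nat_lit 194)) (XT.nd (nat_lit 78) (nat_lit 0) (nat_lit 0) (XT.lf (nat_lit 0) (nat_lit 9335179234) (nat_lit 152) (nat_lit 45236390150) (nat_lit 0) (nat_lit 7942540211) (nat_lit 2) (nat_lit 5) (nat_lit 4) (nat_lit 4) (nat_lit 2) (nat_lit 4) (nat_lit 387) (nat_lit 200) (nat_lit 193)) (XT.lf (nat_lit 0) (nat_lit 11580217509) (nat_lit 152) (nat_lit 42730578958) (nat_lit 0) (nat_lit 10011123883) (nat_lit 2) (nat_lit 5) (nat_lit 4) (nat_lit 4) (nat_lit 2) (nat_lit 4) (nat_lit 388) (nat_lit 200) (nat_lit 192))))) (XT.nd (nat_lit 234) (nat_lit 0) (nat_lit 0) (XT.nd (nat_lit 78) (nat_lit 0) (nat_lit 0) (XT.lf (nat_lit 0) (nat_lit 13853356901) (nat_lit 152) (nat_lit 40218873003) (nat_lit 0) (nat_lit 12112948127) (nat_lit 2) (nat_lit 5) (nat_lit 4) (nat_lit 4) (nat_lit 2) (nat_lit 4) (nat_lit 389) (nat_lit 200) (nat_lit 191)) (XT.nd (nat_lit 78) (nat_lit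 0) (nat_lit 0) (XT.lf (nat_lit 0) (nat_lit 16156583649) (nat_lit 152) (nat_lit 37699077590) (nat_lit 0) (nat_lit 14249849488) (nat_lit 2) (nat_lit 5) (nat_lit 4) (nat_lit 4) (nat_lit 2) (nat_lit 4) (nat_lit 390) (nat_lit 200) (nat_lit 190)) (XT.lf (nat_lit 0) (nat_lit 18491910281) (nat_lit 152) (nat_lit 35168990956) (nat_lit 0) (nat_lit 16423695161) (nat_lit 2) (nat_lit 5) (nat_lit 4) (nat_lit 4) (nat_lit 2) (nat_lit 4) (nat_lit 391) (nat_lit 200) (nat_lit 189)))) (XT.nd (nat_lit 78) (nat_lit 0) (nat_lit 0) (XT.lf (nat_lit 0) (nat_lit 20861377373) (nat_lit 152) (nat_lit 32626402346) (nat_lit 0) (nat_lit 18636384624) (nat_lit 2) (nat_lit 5) (nat_lit 4) (nat_lit 4) (nat_lit 2) (nat_lit 4) (nat_lit 392) (nat_lit 200) (nat_lit 188)) (XT.nd (nat_lit 78) (nat_lit 0) (nat_lit 0) (XT.lf (nat_lit 0) (nat_lit 23267055334) (nat_lit 152) (nat_lit 30069090080) (nat_lit 0) (nat_lit 20889851294) (nat_lit 2)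 (nat_lit 5) (nat_lit 4) (nat_lit 4) (nat_lit 2) (nat_lit 4) (nat_lit 393) (nat_lit 200) (nat_lit 187)) (XT.lf (nat_lit 0) (nat_lit 25711046211) (nat_lit 152) (nat_lit 27494819615) (nat_lit 0) (nat_lit 23186064220) (nat_lit 2) (nat_lit 5) (nat_lit 4) (nat_lit 4) (nat_lit 2) (nat_lit 4) (nat_lit 394) (nat_lit 200) (nat_lit 186)))))) (XT.nd (nat_lit 468) (nat_lit 0) (nat_lit 0) (XT.nd (nat_lit 234) (nat_lit 0) (nat_lit 0) (XT.nd (nat_lit 78) (nat_lit 0) (nat_lit 0) (XT.lf (nat_lit 0) (nat_lit 28195485533) (nat_lit 152) (nat_lit 24901341586) (nat_lit 0) (nat_lit 25527029801) (nat_lit 2) (nat_lit 5) (nat_lit 4) (nat_lit 4) (nat_lit 2) (nat_lit 4) (nat_lit 395) (nat_lit 200) (nat_lit 185)) (XT.nd (nat_lit 78) (nat_lit 0) (nat_lit 0) (XT.lf (nat_lit 0) (nat_lit 30722544166) (nat_lit 152) (nat_lit 22286389849) (nat_lit 0) (nat_lit 27914793542) (nat_lit 2) (nat_lit 5) (nat_lit 4) (nat_lit 4) (nat_lit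 2) (nat_lit 4) (nat_lit 396) (nat_lit 200) (nat_lit 184)) (XT.lf (nat_lit 0) (nat_lit 33294430222) (nat_lit 152) (nat_lit 19647679494) (nat_lit 0) (nat_lit 30351441837) (nat_lit 2) (nat_lit 5) (nat_lit 4) (nat_lit 4) (nat_lit 2) (nat_lit 4) (nat_lit 397) (nat_lit 200) (nat_lit 183)))) (XT.nd (nat_lit 78) (nat_lit 0) (nat_lit 0) (XT.lf (nat_lit 0) (nat_lit 35913390979) (nat_lit 152) (nat_lit 16982904852) (nat_lit 0) (nat_lit 32839103798) (nat_lit 2) (nat_lit 5) (nat_lit 4) (nat_lit 4) (nat_lit 2) (nat_lit 4) (nat_lit 398) (nat_lit 200) (nat_lit 182)) (XT.nd (nat_lit 78) (nat_lit 0) (nat_lit 0) (XT.lf (nat_lit 0) (nat_lit 38581714849) (nat_lit 152) (nat_lit 14289737479) (nat_lit 0) (nat_lit 35379953109) (nat_lit 2) (nat_lit 5) (nat_lit 4) (nat_lit 4) (nat_lit 2) (nat_lit 4) (nat_lit 399) (nat_lit 200) (nat_lit 181)) (XT.lf (nat_lit 0) (nat_lit 41301733378) (nat_lit 152) (nat_lit 11565824122) (nat_lit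 0) (nat_lit 37976209929) (nat_lit 2) (nat_lit 5) (nat_lit 4) (nat_lit 4) (nat_lit 2) (nat_lit 4) (nat_lit 400) (nat_lit 200) (nat_lit 180))))) (XT.nd (nat_lit 38844) (nat_lit 0) (nat_lit 152) (XT.nd (nat_lit 78) (nat_lit 0) (nat_lit 0) (XT.lf (nat_lit 0) (nat_lit 44075823281) (nat_lit 152) (nat_lit 8808784663) (nat_lit 0) (nat_lit 40630142834) (nat_lit 2) (nat_lit 5) (nat_lit 4) (nat_lit 4) (nat_lit 2) (nat_lit 4) (nat_lit 401) (nat_lit 200) (nat_lit 179)) (XT.nd (nat_lit 78) (nat_lit 0) (nat_lit 0) (XT.lf (nat_lit 0) (nat_lit 46906408519) (nat_lit 152) (nat_lit 6016210037) (nat_lit 0) (nat_lit 43344070792) (nat_lit 2) (nat_lit 5) (nat_lit 4) (nat_lit 4) (nat_lit 2) (nat_lit 4) (nat_lit 402) (nat_lit 200) (nat_lit 178)) (XT.lf (nat_lit 0) (nat_lit 49795962421) (nat_lit 152) (nat_lit 3185660132) (nat_lit 0) (nat_lit 46120365199) (nat_lit 2) (nat_lit 5) (nat_lit 4) (nat_lit 4) (nat_lit 2) (nat_lit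 4) (nat_lit 403) (nat_lit 200) (nat_lit 177)))) (XT.nd (nat_lit 78) (nat_lit 0) (nat_lit 0) (XT.lf (nat_lit 0) (nat_lit 14661676573) (nat_lit 76) (nat_lit 4789467018) (nat_lit 76) (nat_lit 4789467018) (nat_lit 4) (nat_lit 4) (nat_lit 5) (nat_lit 5) (nat_lit 5) (nat_lit 4) (nat_lit 378) (nat_lit 201) (nat_lit 201)) (XT.nd (nat_lit 78) (nat_lit 0) (nat_lit 0) (XT.lf (nat_lit 0) (nat_lit 34544865172) (nat_lit 76) (nat_lit 7772057194) (nat_lit 76) (nat_lit 7541823960) (nat_lit 4) (nat_lit 4) (nat_lit 5) (nat_lit 5) (nat_lit 5) (nat_lit 4) (nat_lit 379) (nat_lit 201) (nat_lit 200)) (XT.lf (nat_lit 0) (nat_lit 39839128810) (nat_lit 76) (nat_lit 5946857564) (nat_lit 76) (nat_lit 5493096918) (nat_lit 4) (nat_lit 4) (nat_lit 5) (nat_lit 5) (nat_lit 5) (nat_lit 4) (nat_lit 380) (nat_lit 201) (nat_lit 199))))))) (XT.nd (nat_lit 858) (nat_lit 0) (nat_lit 0) (XT.nd (nat_lit 390) (nat_lit 0) (nat_lit 0) (XT.nd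 (nat_lit 156) (nat_lit 152) (nat_lit 0) (XT.nd (nat_lit 78) (nat_lit 0) (nat_lit 0) (XT.lf (nat_lit 0) (nat_lit 45210770117) (nat_lit 76) (nat_lit 4101740312) (nat_lit 76) (nat_lit 3430962762) (nat_lit 4) (nat_lit 4) (nat_lit 5) (nat_lit 5) (nat_lit 5) (nat_lit 4) (nat_lit 381) (nat_lit 201) (nat_lit 198)) (XT.lf (nat_lit 0) (nat_lit 50664482758) (nat_lit 76) (nat_lit 2235093200) (nat_lit 76) (nat_lit 1353619626) (nat_lit 4) (nat_lit 4) (nat_lit 5) (nat_lit 5) (nat_lit 5) (nat_lit 4) (nat_lit 382) (nat_lit 201) (nat_lit 197))) (XT.nd (nat_lit 78) (nat_lit 0) (nat_lit 0) (XT.lf (nat_lit 0) (nat_lit 396070712) (nat_lit 76) (nat_lit 334029550) (nat_lit 152) (nat_lit 55079141552) (nat_lit 2) (nat_lit 5) (nat_lit 3) (nat_lit 5) (nat_lit 4) (nat_lit 4) (nat_lit 383) (nat_lit 201) (nat_lit 196)) (XT.nd (nat_lit 78) (nat_lit 0) (nat_lit 0) (XT.lf (nat_lit 0) (nat_lit 2857158358) (nat_lit 152) (nat_lit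 52944266671) (nat_lit 0) (nat_lit 1609940853) (nat_lit 2) (nat_lit 5) (nat_lit 4) (nat_lit 4) (nat_lit 2) (nat_lit 4) (nat_lit 384) (nat_lit 201) (nat_lit 195)) (XT.lf (nat_lit 0) (nat_lit 5008445852) (nat_lit 152) (nat_lit 50480305989) (nat_lit 0) (nat_lit 3574027658) (nat_lit 2) (nat_lit 5) (nat_lit 4) (nat_lit 4) (nat_lit 2) (nat_lit 4) (nat_lit 385) (nat_lit 201) (nat_lit 194))))) (XT.nd (nat_lit 234) (nat_lit 0) (nat_lit 0) (XT.nd (nat_lit 78) (nat_lit 0) (nat_lit 0) (XT.lf (nat_lit 0) (nat_lit 7182631613) (nat_lit 152) (nat_lit 48015925186) (nat_lit 0) (nat_lit 5566465178) (nat_lit 2) (nat_lit 5) (nat_lit 4) (nat_lit 4) (nat_lit 2) (nat_lit 4) (nat_lit 386) (nat_lit 201) (nat_lit 193)) (XT.nd (nat_lit 78) (nat_lit 0) (nat_lit 0) (XT.lf (nat_lit 0) (nat_lit 9381615414) (nat_lit 152) (nat_lit 45548970917) (nat_lit 0) (nat_lit 7588994376) (nat_lit 2) (nat_lit 5) (nat_lit 4) (nat_lit 4) (nat_lit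 2) (nat_lit 4) (nat_lit 387) (nat_lit 201) (nat_lit 192)) (XT.lf (nat_lit 0) (nat_lit 11607318699) (nat_lit 152) (nat_lit 43077287593) (nat_lit 0) (nat_lit 9643382512) (nat_lit 2) (nat_lit 5) (nat_lit 4) (nat_lit 4) (nat_lit 2) (nat_lit 4) (nat_lit 388) (nat_lit 201) (nat_lit 191)))) (XT.nd (nat_lit 78) (nat_lit 0) (nat_lit 0) (XT.lf (nat_lit 0) (nat_lit 13861686256) (nat_lit 152) (nat_lit 40598715491) (nat_lit 0) (nat_lit 11731424682) (nat_lit 2) (nat_lit 5) (nat_lit 4) (nat_lit 4) (nat_lit 2) (nat_lit 4) (nat_lit 389) (nat_lit 201) (nat_lit 190)) (XT.nd (nat_lit 78) (nat_lit 0) (nat_lit 0) (XT.lf (nat_lit 0) (nat_lit 16146687920) (nat_lit 152) (nat_lit 38111088867) (nat_lit 0) (nat_lit 13854945389) (nat_lit 2) (nat_lit 5) (nat_lit 4) (nat_lit 4) (nat_lit 2) (nat_lit 4) (nat_lit 390) (nat_lit 201) (nat_lit 189)) (XT.lf (nat_lit 0) (nat_lit 18464320296) (nat_lit 152) (nat_lit 35612234067) (nat_lit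 0) (nat_lit 16015800136) (nat_lit 2) (nat_lit 5) (nat_lit 4) (nat_lit 4) (nat_lit 2) (nat_lit 4) (nat_lit 391) (nat_lit 201) (nat_lit 188)))))) (XT.nd (nat_lit 468) (nat_lit 0) (nat_lit 0) (XT.nd (nat_lit 234) (nat_lit 0) (nat_lit 0) (XT.nd (nat_lit 78) (nat_lit 0) (nat_lit 0) (XT.lf (nat_lit 0) (nat_lit 20816608500) (nat_lit 152) (nat_lit 33099967625) (nat_lit 0) (nat_lit 18215877048) (nat_lit 2) (nat_lit 5) (nat_lit 4) (nat_lit 4) (nat_lit 2) (nat_lit 4) (nat_lit 392) (nat_lit 201) (nat_lit 187)) (XT.nd (nat_lit 78) (nat_lit 0) (nat_lit 0) (XT.lf (nat_lit 0) (nat_lit 23205607928) (nat_lit 152) (nat_lit 30572094359) (nat_lit 0) (nat_lit 20457098524) (nat_lit 2) (nat_lit 5) (nat_lit 4) (nat_lit 4) (nat_lit 2) (nat_lit 4) (nat_lit 393) (nat_lit 201) (nat_lit 186)) (XT.lf (nat_lit 0) (nat_lit 25633406055) (nat_lit 152) (nat_lit 28026405445) (nat_lit 0) (nat_lit 22741422912) (nat_lit 2) (nat_lit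 5) (nat_lit 4) (nat_lit 4) (nat_lit 2) (nat_lit 4) (nat_lit 394) (nat_lit 201) (nat_lit 185)))) (XT.nd (nat_lit 78) (nat_lit 0) (nat_lit 0) (XT.lf (nat_lit 0) (nat_lit 28102124259) (nat_lit 152) (nat_lit 25460676497) (nat_lit 0) (nat_lit 25070846223) (nat_lit 2) (nat_lit 5) (nat_lit 4) (nat_lit 4) (nat_lit 2) (nat_lit 4) (nat_lit 395) (nat_lit 201) (nat_lit 184)) (XT.nd (nat_lit 78) (nat_lit 0) (nat_lit 0) (XT.lf (nat_lit 0) (nat_lit 30613919673) (nat_lit 152) (nat_lit 22872665614) (nat_lit 0) (nat_lit 27447403877) (nat_lit 2) (nat_lit 5) (nat_lit 4) (nat_lit 4) (nat_lit 2) (nat_lit 4) (nat_lit 396) (nat_lit 201) (nat_lit 183)) (XT.lf (nat_lit 0) (nat_lit 33170987068) (nat_lit 152) (nat_lit 20260111428) (nat_lit 0) (nat_lit 29873172476) (nat_lit 2) (nat_lit 5) (nat_lit 4) (nat_lit 4) (nat_lit 2) (nat_lit 4) (nat_lit 397) (nat_lit 201) (nat_lit 182))))) (XT.nd (nat_lit 234) (nat_lit 0) (nat_lit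 0) (XT.nd (nat_lit 78) (nat_lit 0) (nat_lit 0) (XT.lf (nat_lit 0) (nat_lit 35775560776) (nat_lit 152) (nat_lit 17620731125) (nat_lit 0) (nat_lit 32350271624) (nat_lit 2) (nat_lit 5) (nat_lit 4) (nat_lit 4) (nat_lit 2) (nat_lit 4) (nat_lit 398) (nat_lit 201) (nat_lit 181)) (XT.nd (nat_lit 78) (nat_lit 0) (nat_lit 0) (XT.lf (nat_lit 0) (nat_lit 38429916638) (nat_lit 152) (nat_lit 14952218451) (nat_lit 0) (nat_lit 34880865778) (nat_lit 2) (nat_lit 5) (nat_lit 4) (nat_lit 4) (nat_lit 2) (nat_lit 4) (nat_lit 399) (nat_lit 201) (nat_lit 180)) (XT.lf (nat_lit 0) (nat_lit 41136373993) (nat_lit 152) (nat_lit 12252241694) (nat_lit 0) (nat_lit 37467166135) (nat_lit 2) (nat_lit 5) (nat_lit 4) (nat_lit 4) (nat_lit 2) (nat_lit 4) (nat_lit 400) (nat_lit 201) (nat_lit 179)))) (XT.nd (nat_lit 78) (nat_lit 0) (nat_lit 0) (XT.lf (nat_lit 0) (nat_lit 43897297708) (nat_lit 152) (nat_lit 9518441652) (nat_lit 0) (nat_lit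 40111432570) (nat_lit 2) (nat_lit 5) (nat_lit 4) (nat_lit 4) (nat_lit 2) (nat_lit 4) (nat_lit 401) (nat_lit 201) (nat_lit 178)) (XT.nd (nat_lit 78) (nat_lit 0) (nat_lit 0) (XT.lf (nat_lit 0) (nat_lit 46715100240) (nat_lit 152) (nat_lit 6748429568) (nat_lit 0) (nat_lit 42815975607) (nat_lit 2) (nat_lit 5) (nat_lit 4) (nat_lit 4) (nat_lit 2) (nat_lit 4) (nat_lit 402) (nat_lit 201) (nat_lit 177)) (XT.lf (nat_lit 0) (nat_lit 49592243747) (nat_lit 152) (nat_lit 3939785042) (nat_lit 0) (nat_lit 45583158438) (nat_lit 2) (nat_lit 5) (nat_lit 4) (nat_lit 4) (nat_lit 2) (nat_lit 4) (nat_lit 403) (nat_lit 201) (nat_lit 176))))))))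
noncomputable def xc4 : XT := (XT.nd (nat_lit 1716) (nat_lit 0) (nat_lit 0) (XT.nd (nat_lit 858) (nat_lit 0) (nat_lit 0) (XT.nd (nat_lit 390) (nat_lit 152) (nat_lit 0) (XT.nd (nat_lit 156) (nat_lit 0) (nat_lit 0) (XT.nd (nat_lit 78) (nat_lit 0) (nat_lit 0) (XT.lf (nat_lit 0) (nat_lit 9562118676) (nat_lit 76) (nat_lit 6681203571) (nat_lit 76) (nat_lit 6681203571) (nat_lit 4) (nat_lit 4) (nat_lit 5) (nat_lit 5) (nat_lit 5) (nat_lit 4) (nat_lit 376) (nat_lit 202) (nat_lit 202)) (XT.lf (nat_lit 0) (nat_lit 24170030247) (nat_lit 76) (nat_lit 11606207148) (nat_lit 76) (nat_lit 11369066917) (nat_lit 4) (nat_lit 4) (nat_lit 5) (nat_lit 5) (nat_lit 5) (nat_lit 4) (nat_lit 377) (nat_lit 202) (nat_lit 201))) (XT.nd (nat_lit 78) (nat_lit 0) (nat_lit 0) (XT.lf (nat_lit 0) (nat_lit 29280786368) (nat_lit 76) (nat_lit 9834281176) (nat_lit 76) (nat_lit 9366907711) (nat_lit 4) (nat_lit 4) (nat_lit 5) (nat_lit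 5) (nat_lit 5) (nat_lit 4) (nat_lit 378) (nat_lit 202) (nat_lit 200)) (XT.nd (nat_lit 78) (nat_lit 0) (nat_lit 0) (XT.lf (nat_lit 0) (nat_lit 34460971424) (nat_lit 76) (nat_lit 8045080943) (nat_lit 76) (nat_lit 7354180066) (nat_lit 4) (nat_lit 4) (nat_lit 5) (nat_lit 5) (nat_lit 5) (nat_lit 4) (nat_lit 379) (nat_lit 202) (nat_lit 199)) (XT.lf (nat_lit 0) (nat_lit 39715111790) (nat_lit 76) (nat_lit 6237043071) (nat_lit 76) (nat_lit 5329125289) (nat_lit 4) (nat_lit 4) (nat_lit 5) (nat_lit 5) (nat_lit 5) (nat_lit 4) (nat_lit 380) (nat_lit 202) (nat_lit 198))))) (XT.nd (nat_lit 234) (nat_lit 0) (nat_lit 0) (XT.nd (nat_lit 78) (nat_lit 152) (nat_lit 0) (XT.lf (nat_lit 0) (nat_lit 45047798464) (nat_lit 76) (nat_lit 4408587719) (nat_lit 76) (nat_lit 3289973913) (nat_lit 4) (nat_lit 4) (nat_lit 5) (nat_lit 5) (nat_lit 5) (nat_lit 4) (nat_lit 381) (nat_lit 202) (nat_lit 197)) (XT.nd (nat_lit 78) (nat_lit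 152) (nat_lit 0) (XT.lf (nat_lit 0) (nat_lit 50463691074) (nat_lit 76) (nat_lit 2558117209) (nat_lit 76) (nat_lit 1234944157) (nat_lit 4) (nat_lit 4) (nat_lit 5) (nat_lit 5) (nat_lit 5) (nat_lit 4) (nat_lit 382) (nat_lit 202) (nat_lit 196)) (XT.lf (nat_lit 0) (nat_lit 148591509) (nat_lit 76) (nat_lit 674248772) (nat_lit 152) (nat_lit 54990652217) (nat_lit 2) (nat_lit 5) (nat_lit 3) (nat_lit 5) (nat_lit 4) (nat_lit 4) (nat_lit 383) (nat_lit 202) (nat_lit 195)))) (XT.nd (nat_lit 78) (nat_lit 0) (nat_lit 0) (XT.lf (nat_lit 0) (nat_lit 2925500116) (nat_lit 152) (nat_lit 53230018606) (nat_lit 0) (nat_lit 1260848688) (nat_lit 2) (nat_lit 5) (nat_lit 4) (nat_lit 4) (nat_lit 2) (nat_lit 4) (nat_lit 384) (nat_lit 202) (nat_lit 194)) (XT.nd (nat_lit 78) (nat_lit 0) (nat_lit 0) (XT.lf (nat_lit 0) (nat_lit 5056275118) (nat_lit 152) (nat_lit 50802264179) (nat_lit 0) (nat_lit 3209875449) (nat_lit 2) (nat_lit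 5) (nat_lit 4) (nat_lit 4) (nat_lit 2) (nat_lit 4) (nat_lit 385) (nat_lit 202) (nat_lit 193)) (XT.lf (nat_lit 0) (nat_lit 7210545838) (nat_lit 152) (nat_lit 48373035080) (nat_lit 0) (nat_lit 5187691566) (nat_lit 2) (nat_lit 5) (nat_lit 4) (nat_lit 4) (nat_lit 2) (nat_lit 4) (nat_lit 386) (nat_lit 202) (nat_lit 192)))))) (XT.nd (nat_lit 390) (nat_lit 0) (nat_lit 0) (XT.nd (nat_lit 156) (nat_lit 0) (nat_lit 0) (XT.nd (nat_lit 78) (nat_lit 0) (nat_lit 0) (XT.lf (nat_lit 0) (nat_lit 9390194649) (nat_lit 152) (nat_lit 45940208680) (nat_lit 0) (nat_lit 7196025228) (nat_lit 2) (nat_lit 5) (nat_lit 4) (nat_lit 4) (nat_lit 2) (nat_lit 4) (nat_lit 387) (nat_lit 202) (nat_lit 191)) (XT.lf (nat_lit 0) (nat_lit 11597126098) (nat_lit 152) (nat_lit 43501659208) (nat_lit 0) (nat_lit 9236631290) (nat_lit 2) (nat_lit 5) (nat_lit 4) (nat_lit 4) (nat_lit 2) (nat_lit 4) (nat_lit 388) (nat_lit 202) (nat_lit 190)))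 (XT.nd (nat_lit 78) (nat_lit 0) (nat_lit 0) (XT.lf (nat_lit 0) (nat_lit 13833268571) (nat_lit 152) (nat_lit 41055255895) (nat_lit 0) (nat_lit 11311292806) (nat_lit 2) (nat_lit 5) (nat_lit 4) (nat_lit 4) (nat_lit 2) (nat_lit 4) (nat_lit 389) (nat_lit 202) (nat_lit 189)) (XT.nd (nat_lit 78) (nat_lit 0) (nat_lit 0) (XT.lf (nat_lit 0) (nat_lit 16100575981) (nat_lit 152) (nat_lit 38598861104) (nat_lit 0) (nat_lit 13421822586) (nat_lit 2) (nat_lit 5) (nat_lit 4) (nat_lit 4) (nat_lit 2) (nat_lit 4) (nat_lit 390) (nat_lit 202) (nat_lit 188)) (XT.lf (nat_lit 0) (nat_lit 18401029468) (nat_lit 152) (nat_lit 36130328473) (nat_lit 0) (nat_lit 15570064783) (nat_lit 2) (nat_lit 5) (nat_lit 4) (nat_lit 4) (nat_lit 2) (nat_lit 4) (nat_lit 391) (nat_lit 202) (nat_lit 187))))) (XT.nd (nat_lit 234) (nat_lit 0) (nat_lit 0) (XT.nd (nat_lit 78) (nat_lit 0) (nat_lit 0) (XT.lf (nat_lit 0) (nat_lit 20736639139) (nat_lit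 152) (nat_lit 33647501031) (nat_lit 0) (nat_lit 17757896501) (nat_lit 2) (nat_lit 5) (nat_lit 4) (nat_lit 4) (nat_lit 2) (nat_lit 4) (nat_lit 392) (nat_lit 202) (nat_lit 186)) (XT.nd (nat_lit 78) (nat_lit 0) (nat_lit 0) (XT.lf (nat_lit 0) (nat_lit 23109445816) (nat_lit 152) (nat_lit 31148209317) (nat_lit 0) (nat_lit 19987229439) (nat_lit 2) (nat_lit 5) (nat_lit 4) (nat_lit 4) (nat_lit 2) (nat_lit 4) (nat_lit 393) (nat_lit 202) (nat_lit 185)) (XT.lf (nat_lit 0) (nat_lit 25521522827) (nat_lit 152) (nat_lit 28630269483) (nat_lit 0) (nat_lit 22260011557) (nat_lit 2) (nat_lit 5) (nat_lit 4) (nat_lit 4) (nat_lit 2) (nat_lit 4) (nat_lit 394) (nat_lit 202) (nat_lit 184)))) (XT.nd (nat_lit 78) (nat_lit 0) (nat_lit 0) (XT.lf (nat_lit 0) (nat_lit 27974977811) (nat_lit 152) (nat_lit 26091481389) (nat_lit 0) (nat_lit 24578228781) (nat_lit 2) (nat_lit 5) (nat_lit 4) (nat_lit 4) (nat_lit 2) (nat_lit 4) (nat_lit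 395) (nat_lit 202) (nat_lit 183)) (XT.nd (nat_lit 78) (nat_lit 0) (nat_lit 0) (XT.lf (nat_lit 0) (nat_lit 30471954564) (nat_lit 152) (nat_lit 23529626675) (nat_lit 0) (nat_lit 26943906738) (nat_lit 2) (nat_lit 5) (nat_lit 4) (nat_lit 4) (nat_lit 2) (nat_lit 4) (nat_lit 396) (nat_lit 202) (nat_lit 182)) (XT.lf (nat_lit 0) (nat_lit 33014634911) (nat_lit 152) (nat_lit 20942466829) (nat_lit 0) (nat_lit 29359112525) (nat_lit 2) (nat_lit 5) (nat_lit 4) (nat_lit 4) (nat_lit 2) (nat_lit 4) (nat_lit 397) (nat_lit 202) (nat_lit 181))))))) (XT.nd (nat_lit 39156) (nat_lit 0) (nat_lit 0) (XT.nd (nat_lit 390) (nat_lit 0) (nat_lit 0) (XT.nd (nat_lit 156) (nat_lit 0) (nat_lit 0) (XT.nd (nat_lit 78) (nat_lit 0) (nat_lit 0) (XT.lf (nat_lit 0) (nat_lit 35605240610) (nat_lit 152) (nat_lit 18327741224) (nat_lit 0) (nat_lit 31825956516) (nat_lit 2) (nat_lit 5) (nat_lit 4) (nat_lit 4) (nat_lit 2) (nat_lit 4) (nat_lit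 398) (nat_lit 202) (nat_lit 180)) (XT.lf (nat_lit 0) (nat_lit 38246035298) (nat_lit 152) (nat_lit 15683165149) (nat_lit 0) (nat_lit 34346594206) (nat_lit 2) (nat_lit 5) (nat_lit 4) (nat_lit 4) (nat_lit 2) (nat_lit 4) (nat_lit 399) (nat_lit 202) (nat_lit 179))) (XT.nd (nat_lit 78) (nat_lit 0) (nat_lit 0) (XT.lf (nat_lit 0) (nat_lit 40939326466) (nat_lit 152) (nat_lit 13006427810) (nat_lit 0) (nat_lit 36923228093) (nat_lit 2) (nat_lit 5) (nat_lit 4) (nat_lit 4) (nat_lit 2) (nat_lit 4) (nat_lit 400) (nat_lit 202) (nat_lit 178)) (XT.nd (nat_lit 78) (nat_lit 0) (nat_lit 0) (XT.lf (nat_lit 0) (nat_lit 43687467474) (nat_lit 152) (nat_lit 10295190309) (nat_lit 0) (nat_lit 39558109607) (nat_lit 2) (nat_lit 5) (nat_lit 4) (nat_lit 4) (nat_lit 2) (nat_lit 4) (nat_lit 401) (nat_lit 202) (nat_lit 177)) (XT.lf (nat_lit 0) (nat_lit 46492859612) (nat_lit 152) (nat_lit 7547083605) (nat_lit 0) (nat_lit 42253541069)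 (nat_lit 2) (nat_lit 5) (nat_lit 4) (nat_lit 4) (nat_lit 2) (nat_lit 4) (nat_lit 402) (nat_lit 202) (nat_lit 176))))) (XT.nd (nat_lit 38532) (nat_lit 0) (nat_lit 152) (XT.nd (nat_lit 38376) (nat_lit 0) (nat_lit 152) (XT.lf (nat_lit 0) (nat_lit 49357954191) (nat_lit 152) (nat_lit 4759706439) (nat_lit 0) (nat_lit 45011877712) (nat_lit 2) (nat_lit 5) (nat_lit 4) (nat_lit 4) (nat_lit 2) (nat_lit 4) (nat_lit 403) (nat_lit 202) (nat_lit 175)) (XT.nd (nat_lit 78) (nat_lit 0) (nat_lit 0) (XT.lf (nat_lit 0) (nat_lit 4627558733) (nat_lit 76) (nat_lit 8529346854) (nat_lit 76) (nat_lit 8529346854) (nat_lit 4) (nat_lit 4) (nat_lit 5) (nat_lit 5) (nat_lit 5) (nat_lit 4) (nat_lit 374) (nat_lit 203) (nat_lit 203)) (XT.lf (nat_lit 0) (nat_lit 14138998738) (nat_lit 76) (nat_lit 15348670144) (nat_lit 76) (nat_lit 15104415706) (nat_lit 4) (nat_lit 4) (nat_lit 5) (nat_lit 5) (nat_lit 5) (nat_lit 4) (nat_lit 375)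 (nat_lit 203) (nat_lit 202)))) (XT.nd (nat_lit 78) (nat_lit 0) (nat_lit 0) (XT.lf (nat_lit 0) (nat_lit 19080393570) (nat_lit 76) (nat_lit 13625414697) (nat_lit 76) (nat_lit 13144020028) (nat_lit 4) (nat_lit 4) (nat_lit 5) (nat_lit 5) (nat_lit 5) (nat_lit 4) (nat_lit 376) (nat_lit 203) (nat_lit 201)) (XT.nd (nat_lit 78) (nat_lit 0) (nat_lit 0) (XT.lf (nat_lit 0) (nat_lit 24083619686) (nat_lit 76) (nat_lit 11887421610) (nat_lit 76) (nat_lit 11175793706) (nat_lit 4) (nat_lit 4) (nat_lit 5) (nat_lit 5) (nat_lit 5) (nat_lit 4) (nat_lit 377) (nat_lit 203) (nat_lit 200)) (XT.lf (nat_lit 0) (nat_lit 29153048837) (nat_lit 76) (nat_lit 10133172248) (nat_lit 76) (nat_lit 9198016933) (nat_lit 4) (nat_lit 4) (nat_lit 5) (nat_lit 5) (nat_lit 5) (nat_lit 4) (nat_lit 378) (nat_lit 203) (nat_lit 199)))))) (XT.nd (nat_lit 468) (nat_lit 0) (nat_lit 0) (XT.nd (nat_lit 234) (nat_lit 152) (nat_lit 0) (XT.nd (nat_lit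 78) (nat_lit 0) (nat_lit 0) (XT.lf (nat_lit 0) (nat_lit 34293110622) (nat_lit 76) (nat_lit 8361133772) (nat_lit 76) (nat_lit 7208961552) (nat_lit 4) (nat_lit 4) (nat_lit 5) (nat_lit 5) (nat_lit 5) (nat_lit 4) (nat_lit 379) (nat_lit 203) (nat_lit 198)) (XT.nd (nat_lit 78) (nat_lit 0) (nat_lit 0) (XT.lf (nat_lit 0) (nat_lit 39508296356) (nat_lit 76) (nat_lit 6569757799) (nat_lit 76) (nat_lit 5206889556) (nat_lit 4) (nat_lit 4) (nat_lit 5) (nat_lit 5) (nat_lit 5) (nat_lit 4) (nat_lit 380) (nat_lit 203) (nat_lit 197)) (XT.lf (nat_lit 0) (nat_lit 44803162998) (nat_lit 76) (nat_lit 4757479050) (nat_lit 76) (nat_lit 3190051560) (nat_lit 4) (nat_lit 4) (nat_lit 5) (nat_lit 5) (nat_lit 5) (nat_lit 4) (nat_lit 381) (nat_lit 203) (nat_lit 196)))) (XT.nd (nat_lit 78) (nat_lit 152) (nat_lit 0) (XT.lf (nat_lit 0) (nat_lit 50182337130) (nat_lit 76) (nat_lit 2922713979) (nat_lit 76) (nat_lit 1156685279) (nat_lit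 4) (nat_lit 4) (nat_lit 5) (nat_lit 5) (nat_lit 5) (nat_lit 4) (nat_lit 382) (nat_lit 203) (nat_lit 195)) (XT.nd (nat_lit 78) (nat_lit 76) (nat_lit 0) (XT.lf (nat_lit 0) (nat_lit 877521614) (nat_lit 152) (nat_lit 177476531) (nat_lit 76) (nat_lit 54764136140) (nat_lit 3) (nat_lit 5) (nat_lit 5) (nat_lit 5) (nat_lit 4) (nat_lit 4) (nat_lit 383) (nat_lit 203) (nat_lit 194)) (XT.lf (nat_lit 0) (nat_lit 2954251768) (nat_lit 152) (nat_lit 53597841796) (nat_lit 0) (nat_lit 870711867) (nat_lit 2) (nat_lit 5) (nat_lit 4) (nat_lit 4) (nat_lit 2) (nat_lit 4) (nat_lit 384) (nat_lit 203) (nat_lit 193))))) (XT.nd (nat_lit 234) (nat_lit 0) (nat_lit 0) (XT.nd (nat_lit 78) (nat_lit 0) (nat_lit 0) (XT.lf (nat_lit 0) (nat_lit 5065111730) (nat_lit 152) (nat_lit 51205239074) (nat_lit 0) (nat_lit 2805117226) (nat_lit 2) (nat_lit 5) (nat_lit 4) (nat_lit 4) (nat_lit 2) (nat_lit 4) (nat_lit 385) (nat_lit 203) (nat_lit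 192)) (XT.nd (nat_lit 78) (nat_lit 0) (nat_lit 0) (XT.lf (nat_lit 0) (nat_lit 7200047459) (nat_lit 152) (nat_lit 48810137843) (nat_lit 0) (nat_lit 4768737807) (nat_lit 2) (nat_lit 5) (nat_lit 4) (nat_lit 4) (nat_lit 2) (nat_lit 4) (nat_lit 386) (nat_lit 203) (nat_lit 191)) (XT.lf (nat_lit 0) (nat_lit 9360924434) (nat_lit 152) (nat_lit 46410445296) (nat_lit 0) (nat_lit 6763289396) (nat_lit 2) (nat_lit 5) (nat_lit 4) (nat_lit 4) (nat_lit 2) (nat_lit 4) (nat_lit 387) (nat_lit 203) (nat_lit 190)))) (XT.nd (nat_lit 78) (nat_lit 0) (nat_lit 0) (XT.lf (nat_lit 0) (nat_lit 11549630800) (nat_lit 152) (nat_lit 44004064613) (nat_lit 0) (nat_lit 8790514803) (nat_lit 2) (nat_lit 5) (nat_lit 4) (nat_lit 4) (nat_lit 2) (nat_lit 4) (nat_lit 388) (nat_lit 203) (nat_lit 189)) (XT.nd (nat_lit 78) (nat_lit 0) (nat_lit 0) (XT.lf (nat_lit 0) (nat_lit 13768079018) (nat_lit 152) (nat_lit 41588893134) (nat_lit 0) (nat_lit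 10852185392) (nat_lit 2) (nat_lit 5) (nat_lit 4) (nat_lit 4) (nat_lit 2) (nat_lit 4) (nat_lit 389) (nat_lit 203) (nat_lit 188)) (XT.lf (nat_lit 0) (nat_lit 16018207539) (nat_lit 152) (nat_lit 39162820512) (nat_lit 0) (nat_lit 12950102622) (nat_lit 2) (nat_lit 5) (nat_lit 4) (nat_lit 4) (nat_lit 2) (nat_lit 4) (nat_lit 390) (nat_lit 203) (nat_lit 187))))))))
noncomputable def xc5 : XT := (XT.nd (nat_lit 39858) (nat_lit 0) (nat_lit 0) (XT.nd (nat_lit 858) (nat_lit 0) (nat_lit 0) (XT.nd (nat_lit 390) (nat_lit 0) (nat_lit 0) (XT.nd (nat_lit 156) (nat_lit 0) (nat_lit 0) (XT.nd (nat_lit 78) (nat_lit 0) (nat_lit 0) (XT.lf (nat_lit 0) (nat_lit 18301982494) (nat_lit 152) (nat_lit 36723726880) (nat_lit 0) (nat_lit 15086099625) (nat_lit 2) (nat_lit 5) (nat_lit 4) (nat_lit 4) (nat_lit 2) (nat_lit 4) (nat_lit 391) (nat_lit 203) (nat_lit 186)) (XT.lf (nat_lit 0) (nat_lit 20621399414) (nat_lit 152) (nat_lit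 34269480990) (nat_lit 0) (nat_lit 17262042805) (nat_lit 2) (nat_lit 5) (nat_lit 4) (nat_lit 4) (nat_lit 2) (nat_lit 4) (nat_lit 392) (nat_lit 203) (nat_lit 185))) (XT.nd (nat_lit 78) (nat_lit 0) (nat_lit 0) (XT.lf (nat_lit 0) (nat_lit 22978484975) (nat_lit 152) (nat_lit 31797938356) (nat_lit 0) (nat_lit 19479833473) (nat_lit 2) (nat_lit 5) (nat_lit 4) (nat_lit 4) (nat_lit 2) (nat_lit 4) (nat_lit 393) (nat_lit 203) (nat_lit 184)) (XT.nd (nat_lit 78) (nat_lit 0) (nat_lit 0) (XT.lf (nat_lit 0) (nat_lit 25375298765) (nat_lit 152) (nat_lit 29306939376) (nat_lit 0) (nat_lit 21741409504) (nat_lit 2) (nat_lit 5) (nat_lit 4) (nat_lit 4) (nat_lit 2) (nat_lit 4) (nat_lit 394) (nat_lit 203) (nat_lit 183)) (XT.lf (nat_lit 0) (nat_lit 27813935089) (nat_lit 152) (nat_lit 26794307451) (nat_lit 0) (nat_lit 24048747031) (nat_lit 2) (nat_lit 5) (nat_lit 4) (nat_lit 4) (nat_lit 2) (nat_lit 4) (nat_lit 395) (nat_lit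 203) (nat_lit 182))))) (XT.nd (nat_lit 234) (nat_lit 0) (nat_lit 0) (XT.nd (nat_lit 78) (nat_lit 0) (nat_lit 0) (XT.lf (nat_lit 0) (nat_lit 30296524793) (nat_lit 152) (nat_lit 24257847077) (nat_lit 0) (nat_lit 26403862176) (nat_lit 2) (nat_lit 5) (nat_lit 4) (nat_lit 4) (nat_lit 2) (nat_lit 4) (nat_lit 396) (nat_lit 203) (nat_lit 181)) (XT.nd (nat_lit 78) (nat_lit 0) (nat_lit 0) (XT.lf (nat_lit 0) (nat_lit 32825237131) (nat_lit 152) (nat_lit 21695341929) (nat_lit 0) (nat_lit 28808812805) (nat_lit 2) (nat_lit 5) (nat_lit 4) (nat_lit 4) (nat_lit 2) (nat_lit 4) (nat_lit 397) (nat_lit 203) (nat_lit 180)) (XT.lf (nat_lit 0) (nat_lit 35402281657) (nat_lit 152) (nat_lit 19104552924) (nat_lit 0) (nat_lit 31265700333) (nat_lit 2) (nat_lit 5) (nat_lit 4) (nat_lit 4) (nat_lit 2) (nat_lit 4) (nat_lit 398) (nat_lit 203) (nat_lit 179)))) (XT.nd (nat_lit 78) (nat_lit 0) (nat_lit 0) (XT.lf (nat_lit 0) (nat_lit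 38029910157) (nat_lit 152) (nat_lit 16483216267) (nat_lit 0) (nat_lit 33776671554) (nat_lit 2) (nat_lit 5) (nat_lit 4) (nat_lit 4) (nat_lit 2) (nat_lit 4) (nat_lit 399) (nat_lit 203) (nat_lit 178)) (XT.nd (nat_lit 78) (nat_lit 0) (nat_lit 0) (XT.lf (nat_lit 0) (nat_lit 40710418618) (nat_lit 152) (nat_lit 13829041469) (nat_lit 0) (nat_lit 36343920520) (nat_lit 2) (nat_lit 5) (nat_lit 4) (nat_lit 4) (nat_lit 2) (nat_lit 4) (nat_lit 400) (nat_lit 203) (nat_lit 177)) (XT.lf (nat_lit 0) (nat_lit 43446149232) (nat_lit 152) (nat_lit 11139709348) (nat_lit 0) (nat_lit 38969690458) (nat_lit 2) (nat_lit 5) (nat_lit 4) (nat_lit 4) (nat_lit 2) (nat_lit 4) (nat_lit 401) (nat_lit 203) (nat_lit 176)))))) (XT.nd (nat_lit 38532) (nat_lit 0) (nat_lit 152) (XT.nd (nat_lit 38298) (nat_lit 0) (nat_lit 152) (XT.nd (nat_lit 78) (nat_lit 0) (nat_lit 0) (XT.lf (nat_lit 0) (nat_lit 46239492442) (nat_lit 152) (nat_lit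 8412870003) (nat_lit 0) (nat_lit 41656275732) (nat_lit 2) (nat_lit 5) (nat_lit 4) (nat_lit 4) (nat_lit 2) (nat_lit 4) (nat_lit 402) (nat_lit 203) (nat_lit 175)) (XT.lf (nat_lit 0) (nat_lit 49092889035) (nat_lit 152) (nat_lit 5646140758) (nat_lit 0) (nat_lit 44406023842) (nat_lit 2) (nat_lit 5) (nat_lit 4) (nat_lit 4) (nat_lit 2) (nat_lit 4) (nat_lit 403) (nat_lit 203) (nat_lit 174))) (XT.nd (nat_lit 78) (nat_lit 76) (nat_lit 0) (XT.lf (nat_lit 0) (nat_lit 10184535270) (nat_lit 152) (nat_lit 152276340) (nat_lit 0) (nat_lit 10184535270) (nat_lit 5) (nat_lit 5) (nat_lit 7) (nat_lit 4) (nat_lit 5) (nat_lit 4) (nat_lit 372) (nat_lit 204) (nat_lit 204)) (XT.nd (nat_lit 78) (nat_lit 0) (nat_lit 0) (XT.lf (nat_lit 0) (nat_lit 4424482286) (nat_lit 76) (nat_lit 19008561658) (nat_lit 76) (nat_lit 18756979587) (nat_lit 4) (nat_lit 4) (nat_lit 5) (nat_lit 5) (nat_lit 5) (nat_lit 4) (nat_lit 373) (nat_lit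 204) (nat_lit 203)) (XT.lf (nat_lit 0) (nat_lit 9209958371) (nat_lit 76) (nat_lit 17329591489) (nat_lit 76) (nat_lit 16833754980) (nat_lit 4) (nat_lit 4) (nat_lit 5) (nat_lit 5) (nat_lit 5) (nat_lit 4) (nat_lit 374) (nat_lit 204) (nat_lit 202))))) (XT.nd (nat_lit 234) (nat_lit 0) (nat_lit 0) (XT.nd (nat_lit 78) (nat_lit 0) (nat_lit 0) (XT.lf (nat_lit 0) (nat_lit 14049995860) (nat_lit 76) (nat_lit 15638321040) (nat_lit 76) (nat_lit 14905344299) (nat_lit 4) (nat_lit 4) (nat_lit 5) (nat_lit 5) (nat_lit 5) (nat_lit 4) (nat_lit 375) (nat_lit 204) (nat_lit 201)) (XT.nd (nat_lit 78) (nat_lit 0) (nat_lit 0) (XT.lf (nat_lit 0) (nat_lit 18948823913) (nat_lit 76) (nat_lit 13933272500) (nat_lit 76) (nat_lit 12970062526) (nat_lit 4) (nat_lit 4) (nat_lit 5) (nat_lit 5) (nat_lit 5) (nat_lit 4) (nat_lit 376) (nat_lit 204) (nat_lit 200)) (XT.lf (nat_lit 0) (nat_lit 23910723060) (nat_lit 76) (nat_lit 12212956023)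 (nat_lit 76) (nat_lit 11026218637) (nat_lit 4) (nat_lit 4) (nat_lit 5) (nat_lit 5) (nat_lit 5) (nat_lit 4) (nat_lit 377) (nat_lit 204) (nat_lit 199)))) (XT.nd (nat_lit 78) (nat_lit 0) (nat_lit 0) (XT.lf (nat_lit 0) (nat_lit 28940028940) (nat_lit 76) (nat_lit 10475868418) (nat_lit 76) (nat_lit 9072114128) (nat_lit 4) (nat_lit 4) (nat_lit 5) (nat_lit 5) (nat_lit 5) (nat_lit 4) (nat_lit 378) (nat_lit 204) (nat_lit 198)) (XT.nd (nat_lit 78) (nat_lit 0) (nat_lit 0) (XT.lf (nat_lit 0) (nat_lit 34041136092) (nat_lit 76) (nat_lit 8720491843) (nat_lit 76) (nat_lit 7106041528) (nat_lit 4) (nat_lit 4) (nat_lit 5) (nat_lit 5) (nat_lit 5) (nat_lit 4) (nat_lit 379) (nat_lit 204) (nat_lit 197)) (XT.lf (nat_lit 0) (nat_lit 39218501794) (nat_lit 76) (nat_lit 6945292472) (nat_lit 76) (nat_lit 5126282911) (nat_lit 4) (nat_lit 4) (nat_lit 5) (nat_lit 5) (nat_lit 5) (nat_lit 4) (nat_lit 380) (nat_lit 204) (nat_lit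 196))))))) (XT.nd (nat_lit 858) (nat_lit 0) (nat_lit 0) (XT.nd (nat_lit 390) (nat_lit 0) (nat_lit 0) (XT.nd (nat_lit 156) (nat_lit 152) (nat_lit 0) (XT.nd (nat_lit 78) (nat_lit 0) (nat_lit 0) (XT.lf (nat_lit 0) (nat_lit 44476649959) (nat_lit 76) (nat_lit 5148719162) (nat_lit 76) (nat_lit 3131108390) (nat_lit 4) (nat_lit 4) (nat_lit 5) (nat_lit 5) (nat_lit 5) (nat_lit 4) (nat_lit 381) (nat_lit 204) (nat_lit 195)) (XT.lf (nat_lit 0) (nat_lit 49820175084) (nat_lit 76) (nat_lit 3329202089) (nat_lit 76) (nat_lit 1118774609) (nat_lit 4) (nat_lit 4) (nat_lit 5) (nat_lit 5) (nat_lit 5) (nat_lit 4) (nat_lit 382) (nat_lit 204) (nat_lit 194))) (XT.nd (nat_lit 78) (nat_lit 76) (nat_lit 0) (XT.lf (nat_lit 0) (nat_lit 894671072) (nat_lit 152) (nat_lit 581445890) (nat_lit 76) (nat_lit 54350040774) (nat_lit 3) (nat_lit 5) (nat_lit 5) (nat_lit 5) (nat_lit 4) (nat_lit 4) (nat_lit 383) (nat_lit 204) (nat_lit 193))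 (XT.nd (nat_lit 78) (nat_lit 0) (nat_lit 0) (XT.lf (nat_lit 0) (nat_lit 2943438437) (nat_lit 152) (nat_lit 54048057643) (nat_lit 0) (nat_lit 439189496) (nat_lit 2) (nat_lit 5) (nat_lit 4) (nat_lit 4) (nat_lit 2) (nat_lit 4) (nat_lit 384) (nat_lit 204) (nat_lit 192)) (XT.lf (nat_lit 0) (nat_lit 5034963409) (nat_lit 152) (nat_lit 51689582789) (nat_lit 0) (nat_lit 2359399319) (nat_lit 2) (nat_lit 5) (nat_lit 4) (nat_lit 4) (nat_lit 2) (nat_lit 4) (nat_lit 385) (nat_lit 204) (nat_lit 191))))) (XT.nd (nat_lit 234) (nat_lit 0) (nat_lit 0) (XT.nd (nat_lit 78) (nat_lit 0) (nat_lit 0) (XT.lf (nat_lit 0) (nat_lit 7151127303) (nat_lit 152) (nat_lit 49327615410) (nat_lit 0) (nat_lit 4309237826) (nat_lit 2) (nat_lit 5) (nat_lit 4) (nat_lit 4) (nat_lit 2) (nat_lit 4) (nat_lit 386) (nat_lit 204) (nat_lit 190)) (XT.nd (nat_lit 78) (nat_lit 0) (nat_lit 0) (XT.lf (nat_lit 0) (nat_lit 9293779195) (nat_lit 152)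 (nat_lit 46960091652) (nat_lit 0) (nat_lit 6290408760) (nat_lit 2) (nat_lit 5) (nat_lit 4) (nat_lit 4) (nat_lit 2) (nat_lit 4) (nat_lit 387) (nat_lit 204) (nat_lit 189)) (XT.lf (nat_lit 0) (nat_lit 11464791305) (nat_lit 152) (nat_lit 44584942803) (nat_lit 0) (nat_lit 8304643241) (nat_lit 2) (nat_lit 5) (nat_lit 4) (nat_lit 4) (nat_lit 2) (nat_lit 4) (nat_lit 388) (nat_lit 204) (nat_lit 188)))) (XT.nd (nat_lit 78) (nat_lit 0) (nat_lit 0) (XT.lf (nat_lit 0) (nat_lit 13666060635) (nat_lit 152) (nat_lit 42200093492) (nat_lit 0) (nat_lit 10353701280) (nat_lit 2) (nat_lit 5) (nat_lit 4) (nat_lit 4) (nat_lit 2) (nat_lit 4) (nat_lit 389) (nat_lit 204) (nat_lit 187)) (XT.nd (nat_lit 78) (nat_lit 0) (nat_lit 0) (XT.lf (nat_lit 0) (nat_lit 15899510622) (nat_lit 152) (nat_lit 39803459870) (nat_lit 0) (nat_lit 12439373316) (nat_lit 2) (nat_lit 5) (nat_lit 4) (nat_lit 4) (nat_lit 2) (nat_lit 4) (nat_lit 390)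 (nat_lit 204) (nat_lit 186)) (XT.lf (nat_lit 0) (nat_lit 18167092827) (nat_lit 152) (nat_lit 37392947790) (nat_lit 0) (nat_lit 14563481780) (nat_lit 2) (nat_lit 5) (nat_lit 4) (nat_lit 4) (nat_lit 2) (nat_lit 4) (nat_lit 391) (nat_lit 204) (nat_lit 185)))))) (XT.nd (nat_lit 468) (nat_lit 0) (nat_lit 0) (XT.nd (nat_lit 234) (nat_lit 0) (nat_lit 0) (XT.nd (nat_lit 78) (nat_lit 0) (nat_lit 0) (XT.lf (nat_lit 0) (nat_lit 20470788630) (nat_lit 152) (nat_lit 34966450980) (nat_lit 0) (nat_lit 16727882691) (nat_lit 2) (nat_lit 5) (nat_lit 4) (nat_lit 4) (nat_lit 2) (nat_lit 4) (nat_lit 392) (nat_lit 204) (nat_lit 184)) (XT.nd (nat_lit 78) (nat_lit 0) (nat_lit 0) (XT.lf (nat_lit 0) (nat_lit 22812610971) (nat_lit 152) (nat_lit 32521849200) (nat_lit 0) (nat_lit 18934467271) (nat_lit 2) (nat_lit 5) (nat_lit 4) (nat_lit 4) (nat_lit 2) (nat_lit 4) (nat_lit 393) (nat_lit 204) (nat_lit 183)) (XT.lf (nat_lit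 0) (nat_lit 25194606101) (nat_lit 152) (nat_lit 30057006390) (nat_lit 0) (nat_lit 21185163605) (nat_lit 2) (nat_lit 5) (nat_lit 4) (nat_lit 4) (nat_lit 2) (nat_lit 4) (nat_lit 394) (nat_lit 204) (nat_lit 182)))) (XT.nd (nat_lit 78) (nat_lit 0) (nat_lit 0) (XT.lf (nat_lit 0) (nat_lit 27618855376) (nat_lit 152) (nat_lit 27569768804) (nat_lit 0) (nat_lit 23481938320) (nat_lit 2) (nat_lit 5) (nat_lit 4) (nat_lit 4) (nat_lit 2) (nat_lit 4) (nat_lit 395) (nat_lit 204) (nat_lit 181)) (XT.nd (nat_lit 78) (nat_lit 0) (nat_lit 0) (XT.lf (nat_lit 0) (nat_lit 30087477071) (nat_lit 152) (nat_lit 25057963128) (nat_lit 0) (nat_lit 25826798308) (nat_lit 2) (nat_lit 5) (nat_lit 4) (nat_lit 4) (nat_lit 2) (nat_lit 4) (nat_lit 396) (nat_lit 204) (nat_lit 180)) (XT.lf (nat_lit 0) (nat_lit 32602628236) (nat_lit 152) (nat_lit 22519394579) (nat_lit 0) (nat_lit 28221792474) (nat_lit 2) (nat_lit 5) (nat_lit 4) (nat_lit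 4) (nat_lit 2) (nat_lit 4) (nat_lit 397) (nat_lit 204) (nat_lit 179))))) (XT.nd (nat_lit 234) (nat_lit 0) (nat_lit 0) (XT.nd (nat_lit 78) (nat_lit 0) (nat_lit 0) (XT.lf (nat_lit 0) (nat_lit 35166506574) (nat_lit 152) (nat_lit 19951844992) (nat_lit 0) (nat_lit 30669013532) (nat_lit 2) (nat_lit 5) (nat_lit 4) (nat_lit 4) (nat_lit 2) (nat_lit 4) (nat_lit 398) (nat_lit 204) (nat_lit 178)) (XT.nd (nat_lit 78) (nat_lit 0) (nat_lit 0) (XT.lf (nat_lit 0) (nat_lit 37781352368) (nat_lit 152) (nat_lit 17353070877) (nat_lit 0) (nat_lit 33170599831) (nat_lit 2) (nat_lit 5) (nat_lit 4) (nat_lit 4) (nat_lit 2) (nat_lit 4) (nat_lit 399) (nat_lit 204) (nat_lit 177)) (XT.lf (nat_lit 0) (nat_lit 40449450434) (nat_lit 152) (nat_lit 14720801459) (nat_lit 0) (nat_lit 35728737222) (nat_lit 2) (nat_lit 5) (nat_lit 4) (nat_lit 4) (nat_lit 2) (nat_lit 4) (nat_lit 400) (nat_lit 204) (nat_lit 176)))) (XT.nd (nat_lit 78)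 (nat_lit 0) (nat_lit 0) (XT.lf (nat_lit 0) (nat_lit 43173132121) (nat_lit 152) (nat_lit 12052736697) (nat_lit 0) (nat_lit 38345660972) (nat_lit 2) (nat_lit 5) (nat_lit 4) (nat_lit 4) (nat_lit 2) (nat_lit 4) (nat_lit 401) (nat_lit 204) (nat_lit 175)) (XT.nd (nat_lit 78) (nat_lit 0) (nat_lit 0) (XT.lf (nat_lit 0) (nat_lit 45954777344) (nat_lit 152) (nat_lit 9346545274) (nat_lit 0) (nat_lit 41023657713) (nat_lit 2) (nat_lit 5) (nat_lit 4) (nat_lit 4) (nat_lit 2) (nat_lit 4) (nat_lit 402) (nat_lit 204) (nat_lit 174)) (XT.lf (nat_lit 0) (nat_lit 48796816667) (nat_lit 152) (nat_lit 6599862555) (nat_lit 0) (nat_lit 43765067441) (nat_lit 2) (nat_lit 5) (nat_lit 4) (nat_lit 4) (nat_lit 2) (nat_lit 4) (nat_lit 403) (nat_lit 204) (nat_lit 173))))))))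
noncomputable def xc6 : XT := (XT.nd (nat_lit 1716) (nat_lit 0) (nat_lit 0) (XT.nd (nat_lit 858) (nat_lit 152) (nat_lit 0) (XT.nd (nat_lit 390) (nat_lit 0) (nat_lit 0) (XT.nd (nat_lit 156) (nat_lit 76) (nat_lit 0) (XT.nd (nat_lit 78) (nat_lit 0) (nat_lit 0) (XT.lf (nat_lit 0) (nat_lit 7359465171) (nat_lit 152) (nat_lit 4705484924) (nat_lit 0) (nat_lit 7359465171) (nat_lit 5) (nat_lit 5) (nat_lit 7) (nat_lit 4) (nat_lit 5) (nat_lit 4) (nat_lit 370) (nat_lit 205) (nat_lit 205)) (XT.lf (nat_lit 0) (nat_lit 17643179824) (nat_lit 152) (nat_lit 4901909962) (nat_lit 0) (nat_lit 17384050290) (nat_lit 5) (nat_lit 5) (nat_lit 7) (nat_lit 4) (nat_lit 5) (nat_lit 4) (nat_lit 371) (nat_lit 205) (nat_lit 204))) (XT.nd (nat_lit 78) (nat_lit 76) (nat_lit 0) (XT.lf (nat_lit 0) (nat_lit 20602028505) (nat_lit 152) (nat_lit 350158896) (nat_lit 0) (nat_lit 20091316901) (nat_lit 5) (nat_lit 5) (nat_lit 7) (nat_lit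 4) (nat_lit 5) (nat_lit 4) (nat_lit 372) (nat_lit 205) (nat_lit 203)) (XT.nd (nat_lit 78) (nat_lit 0) (nat_lit 0) (XT.lf (nat_lit 0) (nat_lit 4332809322) (nat_lit 76) (nat_lit 19306902080) (nat_lit 76) (nat_lit 18551936037) (nat_lit 4) (nat_lit 4) (nat_lit 5) (nat_lit 5) (nat_lit 5) (nat_lit 4) (nat_lit 373) (nat_lit 205) (nat_lit 202)) (XT.lf (nat_lit 0) (nat_lit 9074441625) (nat_lit 76) (nat_lit 17646685027) (nat_lit 76) (nat_lit 16654578753) (nat_lit 4) (nat_lit 4) (nat_lit 5) (nat_lit 5) (nat_lit 5) (nat_lit 4) (nat_lit 374) (nat_lit 205) (nat_lit 201))))) (XT.nd (nat_lit 234) (nat_lit 0) (nat_lit 0) (XT.nd (nat_lit 78) (nat_lit 0) (nat_lit 0) (XT.lf (nat_lit 0) (nat_lit 13871912335) (nat_lit 76) (nat_lit 15973621486) (nat_lit 76) (nat_lit 14751281978) (nat_lit 4) (nat_lit 4) (nat_lit 5) (nat_lit 5) (nat_lit 5) (nat_lit 4) (nat_lit 375) (nat_lit 205) (nat_lit 200)) (XT.nd (nat_lit 78) (nat_lit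 0) (nat_lit 0) (XT.lf (nat_lit 0) (nat_lit 18729413419) (nat_lit 76) (nat_lit 14286249556) (nat_lit 76) (nat_lit 12840382637) (nat_lit 4) (nat_lit 4) (nat_lit 5) (nat_lit 5) (nat_lit 5) (nat_lit 4) (nat_lit 376) (nat_lit 205) (nat_lit 199)) (XT.lf (nat_lit 0) (nat_lit 23651189294) (nat_lit 76) (nat_lit 12583094836) (nat_lit 76) (nat_lit 10920211012) (nat_lit 4) (nat_lit 4) (nat_lit 5) (nat_lit 5) (nat_lit 5) (nat_lit 4) (nat_lit 377) (nat_lit 205) (nat_lit 198)))) (XT.nd (nat_lit 78) (nat_lit 0) (nat_lit 0) (XT.lf (nat_lit 0) (nat_lit 28641540541) (nat_lit 76) (nat_lit 10862669131) (nat_lit 76) (nat_lit 8989089283) (nat_lit 4) (nat_lit 4) (nat_lit 5) (nat_lit 5) (nat_lit 5) (nat_lit 4) (nat_lit 378) (nat_lit 205) (nat_lit 197)) (XT.nd (nat_lit 78) (nat_lit 0) (nat_lit 0) (XT.lf (nat_lit 0) (nat_lit 33704827662) (nat_lit 76) (nat_lit 9123469158) (nat_lit 76) (nat_lit 7045330064) (nat_lit 4) (nat_lit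 4) (nat_lit 5) (nat_lit 5) (nat_lit 5) (nat_lit 4) (nat_lit 379) (nat_lit 205) (nat_lit 196)) (XT.lf (nat_lit 0) (nat_lit 38845474887) (nat_lit 76) (nat_lit 7363975226) (nat_lit 76) (nat_lit 5087234922) (nat_lit 4) (nat_lit 4) (nat_lit 5) (nat_lit 5) (nat_lit 5) (nat_lit 4) (nat_lit 380) (nat_lit 205) (nat_lit 195)))))) (XT.nd (nat_lit 390) (nat_lit 0) (nat_lit 0) (XT.nd (nat_lit 156) (nat_lit 152) (nat_lit 0) (XT.nd (nat_lit 78) (nat_lit 0) (nat_lit 0) (XT.lf (nat_lit 0) (nat_lit 44067974045) (nat_lit 76) (nat_lit 5582649915) (nat_lit 76) (nat_lit 3113092901) (nat_lit 4) (nat_lit 4) (nat_lit 5) (nat_lit 5) (nat_lit 5) (nat_lit 4) (nat_lit 381) (nat_lit 205) (nat_lit 194)) (XT.lf (nat_lit 0) (nat_lit 49376888484) (nat_lit 76) (nat_lit 3777936725) (nat_lit 76) (nat_lit 1121179023) (nat_lit 4) (nat_lit 4) (nat_lit 5) (nat_lit 5) (nat_lit 5) (nat_lit 4) (nat_lit 382) (nat_lit 205) (nat_lit 193)))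 (XT.nd (nat_lit 78) (nat_lit 76) (nat_lit 0) (XT.lf (nat_lit 0) (nat_lit 872875289) (nat_lit 152) (nat_lit 1066569105) (nat_lit 76) (nat_lit 53895167443) (nat_lit 3) (nat_lit 5) (nat_lit 5) (nat_lit 5) (nat_lit 4) (nat_lit 4) (nat_lit 383) (nat_lit 205) (nat_lit 192)) (XT.nd (nat_lit 78) (nat_lit 0) (nat_lit 0) (XT.lf (nat_lit 0) (nat_lit 2858610894) (nat_lit 76) (nat_lit 34774051) (nat_lit 152) (nat_lit 54546619755) (nat_lit 2) (nat_lit 5) (nat_lit 3) (nat_lit 5) (nat_lit 4) (nat_lit 4) (nat_lit 384) (nat_lit 205) (nat_lit 191)) (XT.lf (nat_lit 0) (nat_lit 4965803812) (nat_lit 152) (nat_lit 52255718536) (nat_lit 0) (nat_lit 1872332264) (nat_lit 2) (nat_lit 5) (nat_lit 4) (nat_lit 4) (nat_lit 2) (nat_lit 4) (nat_lit 385) (nat_lit 205) (nat_lit 190))))) (XT.nd (nat_lit 234) (nat_lit 0) (nat_lit 0) (XT.nd (nat_lit 78) (nat_lit 0) (nat_lit 0) (XT.lf (nat_lit 0) (nat_lit 7063742623) (nat_lit 152)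 (nat_lit 49925919946) (nat_lit 0) (nat_lit 3808790117) (nat_lit 2) (nat_lit 5) (nat_lit 4) (nat_lit 4) (nat_lit 2) (nat_lit 4) (nat_lit 386) (nat_lit 205) (nat_lit 189)) (XT.nd (nat_lit 78) (nat_lit 0) (nat_lit 0) (XT.lf (nat_lit 0) (nat_lit 9188700259) (nat_lit 152) (nat_lit 47589628021) (nat_lit 0) (nat_lit 5776970124) (nat_lit 2) (nat_lit 5) (nat_lit 4) (nat_lit 4) (nat_lit 2) (nat_lit 4) (nat_lit 387) (nat_lit 205) (nat_lit 188)) (XT.lf (nat_lit 0) (nat_lit 11342533481) (nat_lit 152) (nat_lit 45244801342) (nat_lit 0) (nat_lit 7778592055) (nat_lit 2) (nat_lit 5) (nat_lit 4) (nat_lit 4) (nat_lit 2) (nat_lit 4) (nat_lit 388) (nat_lit 205) (nat_lit 187)))) (XT.nd (nat_lit 78) (nat_lit 0) (nat_lit 0) (XT.lf (nat_lit 0) (nat_lit 13527124278) (nat_lit 152) (nat_lit 42889391030) (nat_lit 0) (nat_lit 9815404900) (nat_lit 2) (nat_lit 5) (nat_lit 4) (nat_lit 4) (nat_lit 2) (nat_lit 4) (nat_lit 389)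 (nat_lit 205) (nat_lit 186)) (XT.nd (nat_lit 78) (nat_lit 0) (nat_lit 0) (XT.lf (nat_lit 0) (nat_lit 15744381515) (nat_lit 152) (nat_lit 40521338960) (nat_lit 0) (nat_lit 11889188397) (nat_lit 2) (nat_lit 5) (nat_lit 4) (nat_lit 4) (nat_lit 2) (nat_lit 4) (nat_lit 390) (nat_lit 205) (nat_lit 185)) (XT.lf (nat_lit 0) (nat_lit 17996242603) (nat_lit 152) (nat_lit 38138575960) (nat_lit 0) (nat_lit 14001754592) (nat_lit 2) (nat_lit 5) (nat_lit 4) (nat_lit 4) (nat_lit 2) (nat_lit 4) (nat_lit 391) (nat_lit 205) (nat_lit 184))))))) (XT.nd (nat_lit 858) (nat_lit 0) (nat_lit 0) (XT.nd (nat_lit 390) (nat_lit 0) (nat_lit 0) (XT.nd (nat_lit 156) (nat_lit 0) (nat_lit 0) (XT.nd (nat_lit 78) (nat_lit 0) (nat_lit 0) (XT.lf (nat_lit 0) (nat_lit 20284675186) (nat_lit 152) (nat_lit 35739020004) (nat_lit 0) (nat_lit 16154949415) (nat_lit 2) (nat_lit 5) (nat_lit 4) (nat_lit 4) (nat_lit 2) (nat_lit 4) (nat_lit 392)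 (nat_lit 205) (nat_lit 183)) (XT.lf (nat_lit 0) (nat_lit 22611678866) (nat_lit 152) (nat_lit 33320574393) (nat_lit 0) (nat_lit 18350654299) (nat_lit 2) (nat_lit 5) (nat_lit 4) (nat_lit 4) (nat_lit 2) (nat_lit 4) (nat_lit 393) (nat_lit 205) (nat_lit 182))) (XT.nd (nat_lit 78) (nat_lit 0) (nat_lit 0) (XT.lf (nat_lit 0) (nat_lit 24979286947) (nat_lit 152) (nat_lit 30881125922) (nat_lit 0) (nat_lit 20590787821) (nat_lit 2) (nat_lit 5) (nat_lit 4) (nat_lit 4) (nat_lit 2) (nat_lit 4) (nat_lit 394) (nat_lit 205) (nat_lit 181)) (XT.nd (nat_lit 78) (nat_lit 0) (nat_lit 0) (XT.lf (nat_lit 0) (nat_lit 27389568214) (nat_lit 152) (nat_lit 28418543035) (nat_lit 0) (nat_lit 22877307379) (nat_lit 2) (nat_lit 5) (nat_lit 4) (nat_lit 4) (nat_lit 2) (nat_lit 4) (nat_lit 395) (nat_lit 205) (nat_lit 180)) (XT.lf (nat_lit 0) (nat_lit 29844628736) (nat_lit 152) (nat_lit 25930673958) (nat_lit 0) (nat_lit 25212210903)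 (nat_lit 2) (nat_lit 5) (nat_lit 4) (nat_lit 4) (nat_lit 2) (nat_lit 4) (nat_lit 396) (nat_lit 205) (nat_lit 179))))) (XT.nd (nat_lit 234) (nat_lit 0) (nat_lit 0) (XT.nd (nat_lit 78) (nat_lit 0) (nat_lit 0) (XT.lf (nat_lit 0) (nat_lit 32346613712) (nat_lit 152) (nat_lit 23415344828) (nat_lit 0) (nat_lit 27597538599) (nat_lit 2) (nat_lit 5) (nat_lit 4) (nat_lit 4) (nat_lit 2) (nat_lit 4) (nat_lit 397) (nat_lit 205) (nat_lit 178)) (XT.nd (nat_lit 78) (nat_lit 0) (nat_lit 0) (XT.lf (nat_lit 0) (nat_lit 34897709344) (nat_lit 152) (nat_lit 20870357782) (nat_lit 0) (nat_lit 30035374736) (nat_lit 2) (nat_lit 5) (nat_lit 4) (nat_lit 4) (nat_lit 2) (nat_lit 4) (nat_lit 398) (nat_lit 205) (nat_lit 177)) (XT.lf (nat_lit 0) (nat_lit 37500144743) (nat_lit 152) (nat_lit 18293489046) (nat_lit 0) (nat_lit 32527849460) (nat_lit 2) (nat_lit 5) (nat_lit 4) (nat_lit 4) (nat_lit 2) (nat_lit 4) (nat_lit 399) (nat_lit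 205) (nat_lit 176)))) (XT.nd (nat_lit 78) (nat_lit 0) (nat_lit 0) (XT.lf (nat_lit 0) (nat_lit 40156193882) (nat_lit 152) (nat_lit 15682486987) (nat_lit 0) (nat_lit 35077140663) (nat_lit 2) (nat_lit 5) (nat_lit 4) (nat_lit 4) (nat_lit 2) (nat_lit 4) (nat_lit 400) (nat_lit 205) (nat_lit 175)) (XT.nd (nat_lit 78) (nat_lit 0) (nat_lit 0) (XT.lf (nat_lit 0) (nat_lit 42868177582) (nat_lit 152) (nat_lit 13035070147) (nat_lit 0) (nat_lit 37685475880) (nat_lit 2) (nat_lit 5) (nat_lit 4) (nat_lit 4) (nat_lit 2) (nat_lit 4) (nat_lit 401) (nat_lit 205) (nat_lit 174)) (XT.lf (nat_lit 0) (nat_lit 45638465535) (nat_lit 152) (nat_lit 10348925250) (nat_lit 0) (nat_lit 40355134239) (nat_lit 2) (nat_lit 5) (nat_lit 4) (nat_lit 4) (nat_lit 2) (nat_lit 4) (nat_lit 402) (nat_lit 205) (nat_lit 173)))))) (XT.nd (nat_lit 38298) (nat_lit 0) (nat_lit 152) (XT.nd (nat_lit 38064) (nat_lit 0) (nat_lit 228) (XT.nd (nat_lit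 37908) (nat_lit 0) (nat_lit 228) (XT.lf (nat_lit 0) (nat_lit 48469478383) (nat_lit 152) (nat_lit 7621705177) (nat_lit 0) (nat_lit 43088448452) (nat_lit 2) (nat_lit 5) (nat_lit 4) (nat_lit 4) (nat_lit 2) (nat_lit 4) (nat_lit 403) (nat_lit 205) (nat_lit 172)) (XT.nd (nat_lit 78) (nat_lit 0) (nat_lit 0) (XT.lf (nat_lit 0) (nat_lit 4629352569) (nat_lit 152) (nat_lit 9134179204) (nat_lit 0) (nat_lit 4629352569) (nat_lit 5) (nat_lit 5) (nat_lit 7) (nat_lit 4) (nat_lit 5) (nat_lit 4) (nat_lit 368) (nat_lit 206) (nat_lit 206)) (XT.lf (nat_lit 0) (nat_lit 12093628311) (nat_lit 152) (nat_lit 13881278510) (nat_lit 0) (nat_lit 11826724892) (nat_lit 5) (nat_lit 5) (nat_lit 7) (nat_lit 4) (nat_lit 5) (nat_lit 4) (nat_lit 369) (nat_lit 206) (nat_lit 205)))) (XT.nd (nat_lit 78) (nat_lit 0) (nat_lit 0) (XT.lf (nat_lit 0) (nat_lit 14958877046) (nat_lit 152) (nat_lit 9457944250) (nat_lit 0) (nat_lit 14432844093)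 (nat_lit 5) (nat_lit 5) (nat_lit 7) (nat_lit 4) (nat_lit 5) (nat_lit 4) (nat_lit 370) (nat_lit 206) (nat_lit 204)) (XT.nd (nat_lit 78) (nat_lit 0) (nat_lit 0) (XT.lf (nat_lit 0) (nat_lit 17856954959) (nat_lit 152) (nat_lit 4994490579) (nat_lit 0) (nat_lit 17079339935) (nat_lit 5) (nat_lit 5) (nat_lit 7) (nat_lit 4) (nat_lit 5) (nat_lit 4) (nat_lit 371) (nat_lit 206) (nat_lit 203)) (XT.lf (nat_lit 0) (nat_lit 20790394351) (nat_lit 152) (nat_lit 487017392) (nat_lit 0) (nat_lit 19768524889) (nat_lit 5) (nat_lit 5) (nat_lit 7) (nat_lit 4) (nat_lit 5) (nat_lit 4) (nat_lit 372) (nat_lit 206) (nat_lit 202))))) (XT.nd (nat_lit 234) (nat_lit 0) (nat_lit 0) (XT.nd (nat_lit 78) (nat_lit 0) (nat_lit 0) (XT.lf (nat_lit 0) (nat_lit 4149383292) (nat_lit 76) (nat_lit 19652261539) (nat_lit 76) (nat_lit 18393251846) (nat_lit 4) (nat_lit 4) (nat_lit 5) (nat_lit 5) (nat_lit 5) (nat_lit 4) (nat_lit 373) (nat_lit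 206) (nat_lit 201)) (XT.nd (nat_lit 78) (nat_lit 0) (nat_lit 0) (XT.lf (nat_lit 0) (nat_lit 8848448815) (nat_lit 76) (nat_lit 18010251394) (nat_lit 76) (nat_lit 16521008467) (nat_lit 4) (nat_lit 4) (nat_lit 5) (nat_lit 5) (nat_lit 5) (nat_lit 4) (nat_lit 374) (nat_lit 206) (nat_lit 200)) (XT.lf (nat_lit 0) (nat_lit 13604592556) (nat_lit 76) (nat_lit 16354864463) (nat_lit 76) (nat_lit 14642094124) (nat_lit 4) (nat_lit 4) (nat_lit 5) (nat_lit 5) (nat_lit 5) (nat_lit 4) (nat_lit 375) (nat_lit 206) (nat_lit 199)))) (XT.nd (nat_lit 78) (nat_lit 0) (nat_lit 0) (XT.lf (nat_lit 0) (nat_lit 18421970368) (nat_lit 76) (nat_lit 14684654291) (nat_lit 76) (nat_lit 12754867047) (nat_lit 4) (nat_lit 4) (nat_lit 5) (nat_lit 5) (nat_lit 5) (nat_lit 4) (nat_lit 376) (nat_lit 206) (nat_lit 198)) (XT.nd (nat_lit 78) (nat_lit 0) (nat_lit 0) (XT.lf (nat_lit 0) (nat_lit 23304791611) (nat_lit 76) (nat_lit 12998161471)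 (nat_lit 76) (nat_lit 10857678203) (nat_lit 4) (nat_lit 4) (nat_lit 5) (nat_lit 5) (nat_lit 5) (nat_lit 4) (nat_lit 377) (nat_lit 206) (nat_lit 197)) (XT.lf (nat_lit 0) (nat_lit 28257322827) (nat_lit 76) (nat_lit 11293912368) (nat_lit 76) (nat_lit 8948869854) (nat_lit 4) (nat_lit 4) (nat_lit 5) (nat_lit 5) (nat_lit 5) (nat_lit 4) (nat_lit 378) (nat_lit 206) (nat_lit 196))))))))
noncomputable def xc7 : XT := (XT.nd (nat_lit 1794) (nat_lit 0) (nat_lit 0) (XT.nd (nat_lit 858) (nat_lit 0) (nat_lit 0) (XT.nd (nat_lit 390) (nat_lit 76) (nat_lit 0) (XT.nd (nat_lit 156) (nat_lit 76) (nat_lit 0) (XT.nd (nat_lit 78) (nat_lit 0) (nat_lit 0) (XT.lf (nat_lit 0) (nat_lit 33283891470) (nat_lit 76) (nat_lit 9570417834) (nat_lit 76) (nat_lit 7026774110) (nat_lit 4) (nat_lit 4) (nat_lit 5) (nat_lit 5) (nat_lit 5) (nat_lit 4) (nat_lit 379) (nat_lit 206) (nat_lit 195)) (XT.lf (nat_lit 0) (nat_lit 38388889688) (nat_lit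 76) (nat_lit 7826171901) (nat_lit 76) (nat_lit 5089711468) (nat_lit 4) (nat_lit 4) (nat_lit 5) (nat_lit 5) (nat_lit 5) (nat_lit 4) (nat_lit 380) (nat_lit 206) (nat_lit 194))) (XT.nd (nat_lit 78) (nat_lit 76) (nat_lit 0) (XT.lf (nat_lit 0) (nat_lit 43576778159) (nat_lit 76) (nat_lit 6059650472) (nat_lit 76) (nat_lit 3135989350) (nat_lit 4) (nat_lit 4) (nat_lit 5) (nat_lit 5) (nat_lit 5) (nat_lit 4) (nat_lit 381) (nat_lit 206) (nat_lit 193)) (XT.nd (nat_lit 78) (nat_lit 76) (nat_lit 0) (XT.lf (nat_lit 0) (nat_lit 48852089990) (nat_lit 76) (nat_lit 4269309983) (nat_lit 76) (nat_lit 1163900621) (nat_lit 4) (nat_lit 4) (nat_lit 5) (nat_lit 5) (nat_lit 5) (nat_lit 4) (nat_lit 382) (nat_lit 206) (nat_lit 192)) (XT.lf (nat_lit 0) (nat_lit 812115218) (nat_lit 152) (nat_lit 1633270071) (nat_lit 76) (nat_lit 53399118686) (nat_lit 3) (nat_lit 5) (nat_lit 5) (nat_lit 5) (nat_lit 4) (nat_lit 4) (nat_lit 383)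 (nat_lit 206) (nat_lit 191))))) (XT.nd (nat_lit 234) (nat_lit 0) (nat_lit 0) (XT.nd (nat_lit 78) (nat_lit 0) (nat_lit 0) (XT.lf (nat_lit 0) (nat_lit 2247938387) (nat_lit 76) (nat_lit 560493879) (nat_lit 152) (nat_lit 54642207139) (nat_lit 2) (nat_lit 5) (nat_lit 3) (nat_lit 5) (nat_lit 4) (nat_lit 4) (nat_lit 384) (nat_lit 206) (nat_lit 190)) (XT.nd (nat_lit 78) (nat_lit 0) (nat_lit 0) (XT.lf (nat_lit 0) (nat_lit 4857572508) (nat_lit 152) (nat_lit 52904140996) (nat_lit 0) (nat_lit 1343490469) (nat_lit 2) (nat_lit 5) (nat_lit 4) (nat_lit 4) (nat_lit 2) (nat_lit 4) (nat_lit 385) (nat_lit 206) (nat_lit 189)) (XT.lf (nat_lit 0) (nat_lit 6937817064) (nat_lit 152) (nat_lit 50605574241) (nat_lit 0) (nat_lit 3266957395) (nat_lit 2) (nat_lit 5) (nat_lit 4) (nat_lit 4) (nat_lit 2) (nat_lit 4) (nat_lit 386) (nat_lit 206) (nat_lit 188)))) (XT.nd (nat_lit 78) (nat_lit 0) (nat_lit 0) (XT.lf (nat_lit 0) (nat_lit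 9045595812) (nat_lit 152) (nat_lit 48299604485) (nat_lit 0) (nat_lit 5222524853) (nat_lit 2) (nat_lit 5) (nat_lit 4) (nat_lit 4) (nat_lit 2) (nat_lit 4) (nat_lit 387) (nat_lit 206) (nat_lit 187)) (XT.nd (nat_lit 78) (nat_lit 0) (nat_lit 0) (XT.lf (nat_lit 0) (nat_lit 11182750500) (nat_lit 152) (nat_lit 45984216804) (nat_lit 0) (nat_lit 7211901589) (nat_lit 2) (nat_lit 5) (nat_lit 4) (nat_lit 4) (nat_lit 2) (nat_lit 4) (nat_lit 388) (nat_lit 206) (nat_lit 186)) (XT.lf (nat_lit 0) (nat_lit 13351148547) (nat_lit 152) (nat_lit 43657388045) (nat_lit 0) (nat_lit 9236825896) (nat_lit 2) (nat_lit 5) (nat_lit 4) (nat_lit 4) (nat_lit 2) (nat_lit 4) (nat_lit 389) (nat_lit 206) (nat_lit 185)))))) (XT.nd (nat_lit 468) (nat_lit 0) (nat_lit 0) (XT.nd (nat_lit 234) (nat_lit 0) (nat_lit 0) (XT.nd (nat_lit 78) (nat_lit 0) (nat_lit 0) (XT.lf (nat_lit 0) (nat_lit 15552684668) (nat_lit 152) (nat_lit 41317085055)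 (nat_lit 0) (nat_lit 11299067124) (nat_lit 2) (nat_lit 5) (nat_lit 4) (nat_lit 4) (nat_lit 2) (nat_lit 4) (nat_lit 390) (nat_lit 206) (nat_lit 184)) (XT.nd (nat_lit 78) (nat_lit 0) (nat_lit 0) (XT.lf (nat_lit 0) (nat_lit 17789282535) (nat_lit 152) (nat_lit 38961262909) (nat_lit 0) (nat_lit 13400427231) (nat_lit 2) (nat_lit 5) (nat_lit 4) (nat_lit 4) (nat_lit 2) (nat_lit 4) (nat_lit 391) (nat_lit 206) (nat_lit 183)) (XT.lf (nat_lit 0) (nat_lit 20062896458) (nat_lit 152) (nat_lit 36587863122) (nat_lit 0) (nat_lit 15542742357) (nat_lit 2) (nat_lit 5) (nat_lit 4) (nat_lit 4) (nat_lit 2) (nat_lit 4) (nat_lit 392) (nat_lit 206) (nat_lit 182)))) (XT.nd (nat_lit 78) (nat_lit 0) (nat_lit 0) (XT.lf (nat_lit 0) (nat_lit 22375513089) (nat_lit 152) (nat_lit 34194811851) (nat_lit 0) (nat_lit 17727884429) (nat_lit 2) (nat_lit 5) (nat_lit 4) (nat_lit 4) (nat_lit 2) (nat_lit 4) (nat_lit 393) (nat_lit 206) (nat_lit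 181)) (XT.nd (nat_lit 78) (nat_lit 0) (nat_lit 0) (XT.lf (nat_lit 0) (nat_lit 24729153162) (nat_lit 152) (nat_lit 31780018078) (nat_lit 0) (nat_lit 19957762794) (nat_lit 2) (nat_lit 5) (nat_lit 4) (nat_lit 4) (nat_lit 2) (nat_lit 4) (nat_lit 394) (nat_lit 206) (nat_lit 180)) (XT.lf (nat_lit 0) (nat_lit 27125873255) (nat_lit 152) (nat_lit 29341371790) (nat_lit 0) (nat_lit 22234325888) (nat_lit 2) (nat_lit 5) (nat_lit 4) (nat_lit 4) (nat_lit 2) (nat_lit 4) (nat_lit 395) (nat_lit 206) (nat_lit 179))))) (XT.nd (nat_lit 234) (nat_lit 0) (nat_lit 0) (XT.nd (nat_lit 78) (nat_lit 0) (nat_lit 0) (XT.lf (nat_lit 0) (nat_lit 29567767589) (nat_lit 152) (nat_lit 26876742132) (nat_lit 0) (nat_lit 24559562943) (nat_lit 2) (nat_lit 5) (nat_lit 4) (nat_lit 4) (nat_lit 2) (nat_lit 4) (nat_lit 396) (nat_lit 206) (nat_lit 178)) (XT.nd (nat_lit 78) (nat_lit 0) (nat_lit 0) (XT.lf (nat_lit 0) (nat_lit 32056969859)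 (nat_lit 152) (nat_lit 24383975542) (nat_lit 0) (nat_lit 26935505718) (nat_lit 2) (nat_lit 5) (nat_lit 4) (nat_lit 4) (nat_lit 2) (nat_lit 4) (nat_lit 397) (nat_lit 206) (nat_lit 177)) (XT.lf (nat_lit 0) (nat_lit 34595655096) (nat_lit 152) (nat_lit 21860893876) (nat_lit 0) (nat_lit 29364230279) (nat_lit 2) (nat_lit 5) (nat_lit 4) (nat_lit 4) (nat_lit 2) (nat_lit 4) (nat_lit 398) (nat_lit 206) (nat_lit 176)))) (XT.nd (nat_lit 78) (nat_lit 0) (nat_lit 0) (XT.lf (nat_lit 0) (nat_lit 37186041568) (nat_lit 152) (nat_lit 19305292500) (nat_lit 0) (nat_lit 31847858815) (nat_lit 2) (nat_lit 5) (nat_lit 4) (nat_lit 4) (nat_lit 2) (nat_lit 4) (nat_lit 399) (nat_lit 206) (nat_lit 175)) (XT.nd (nat_lit 78) (nat_lit 0) (nat_lit 0) (XT.lf (nat_lit 0) (nat_lit 39830392720) (nat_lit 152) (nat_lit 16714938362) (nat_lit 0) (nat_lit 34388561485) (nat_lit 2) (nat_lit 5) (nat_lit 4) (nat_lit 4) (nat_lit 2) (nat_lit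 4) (nat_lit 400) (nat_lit 206) (nat_lit 174)) (XT.lf (nat_lit 0) (nat_lit 42531019150) (nat_lit 152) (nat_lit 14087568048) (nat_lit 0) (nat_lit 36988558320) (nat_lit 2) (nat_lit 5) (nat_lit 4) (nat_lit 4) (nat_lit 2) (nat_lit 4) (nat_lit 401) (nat_lit 206) (nat_lit 173))))))) (XT.nd (nat_lit 38532) (nat_lit 0) (nat_lit 0) (XT.nd (nat_lit 38064) (nat_lit 0) (nat_lit 152) (XT.nd (nat_lit 37830) (nat_lit 0) (nat_lit 228) (XT.nd (nat_lit 78) (nat_lit 0) (nat_lit 0) (XT.lf (nat_lit 0) (nat_lit 45290280629) (nat_lit 152) (nat_lit 11420885797) (nat_lit 0) (nat_lit 39650121164) (nat_lit 2) (nat_lit 5) (nat_lit 4) (nat_lit 4) (nat_lit 2) (nat_lit 4) (nat_lit 402) (nat_lit 206) (nat_lit 172)) (XT.lf (nat_lit 0) (nat_lit 48110588161) (nat_lit 152) (nat_lit 8712561497) (nat_lit 0) (nat_lit 42375575652) (nat_lit 2) (nat_lit 5) (nat_lit 4) (nat_lit 4) (nat_lit 2) (nat_lit 4) (nat_lit 403) (nat_lit 206) (nat_lit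 171))) (XT.nd (nat_lit 78) (nat_lit 0) (nat_lit 0) (XT.lf (nat_lit 0) (nat_lit 1986730123) (nat_lit 152) (nat_lit 13449612567) (nat_lit 0) (nat_lit 1986730123) (nat_lit 5) (nat_lit 5) (nat_lit 7) (nat_lit 4) (nat_lit 5) (nat_lit 4) (nat_lit 366) (nat_lit 207) (nat_lit 207)) (XT.nd (nat_lit 78) (nat_lit 0) (nat_lit 0) (XT.lf (nat_lit 0) (nat_lit 6726540934) (nat_lit 152) (nat_lit 22623017318) (nat_lit 0) (nat_lit 6451630412) (nat_lit 5) (nat_lit 5) (nat_lit 7) (nat_lit 4) (nat_lit 5) (nat_lit 4) (nat_lit 367) (nat_lit 207) (nat_lit 206)) (XT.lf (nat_lit 0) (nat_lit 9505850244) (nat_lit 152) (nat_lit 18316742043) (nat_lit 0) (nat_lit 8964036302) (nat_lit 5) (nat_lit 5) (nat_lit 7) (nat_lit 4) (nat_lit 5) (nat_lit 4) (nat_lit 368) (nat_lit 207) (nat_lit 205))))) (XT.nd (nat_lit 234) (nat_lit 76) (nat_lit 0) (XT.nd (nat_lit 78) (nat_lit 0) (nat_lit 0) (XT.lf (nat_lit 0) (nat_lit 12313816700) (nat_lit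 152) (nat_lit 13976636546) (nat_lit 0) (nat_lit 11512873226) (nat_lit 5) (nat_lit 5) (nat_lit 7) (nat_lit 4) (nat_lit 5) (nat_lit 4) (nat_lit 369) (nat_lit 207) (nat_lit 204)) (XT.nd (nat_lit 78) (nat_lit 0) (nat_lit 0) (XT.lf (nat_lit 0) (nat_lit 15152893867) (nat_lit 152) (nat_lit 9598908501) (nat_lit 0) (nat_lit 14100368321) (nat_lit 5) (nat_lit 5) (nat_lit 7) (nat_lit 4) (nat_lit 5) (nat_lit 4) (nat_lit 370) (nat_lit 207) (nat_lit 203)) (XT.lf (nat_lit 0) (nat_lit 18025562490) (nat_lit 152) (nat_lit 5179732709) (nat_lit 0) (nat_lit 16728782506) (nat_lit 5) (nat_lit 5) (nat_lit 7) (nat_lit 4) (nat_lit 5) (nat_lit 4) (nat_lit 371) (nat_lit 207) (nat_lit 202)))) (XT.nd (nat_lit 78) (nat_lit 76) (nat_lit 0) (XT.lf (nat_lit 0) (nat_lit 20934332668) (nat_lit 152) (nat_lit 715247754) (nat_lit 0) (nat_lit 19400412453) (nat_lit 5) (nat_lit 5) (nat_lit 7) (nat_lit 4) (nat_lit 5) (nat_lit 4) (nat_lit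 372) (nat_lit 207) (nat_lit 201)) (XT.nd (nat_lit 78) (nat_lit 0) (nat_lit 0) (XT.lf (nat_lit 0) (nat_lit 3874043919) (nat_lit 76) (nat_lit 20044941806) (nat_lit 76) (nat_lit 18280788357) (nat_lit 4) (nat_lit 4) (nat_lit 5) (nat_lit 5) (nat_lit 5) (nat_lit 4) (nat_lit 373) (nat_lit 207) (nat_lit 200)) (XT.lf (nat_lit 0) (nat_lit 8531782473) (nat_lit 76) (nat_lit 18420608271) (nat_lit 76) (nat_lit 16432927410) (nat_lit 4) (nat_lit 4) (nat_lit 5) (nat_lit 5) (nat_lit 5) (nat_lit 4) (nat_lit 374) (nat_lit 207) (nat_lit 199)))))) (XT.nd (nat_lit 468) (nat_lit 152) (nat_lit 0) (XT.nd (nat_lit 234) (nat_lit 0) (nat_lit 0) (XT.nd (nat_lit 78) (nat_lit 0) (nat_lit 0) (XT.lf (nat_lit 0) (nat_lit 13247802943) (nat_lit 76) (nat_lit 16782383097) (nat_lit 76) (nat_lit 14577685331) (nat_lit 4) (nat_lit 4) (nat_lit 5) (nat_lit 5) (nat_lit 5) (nat_lit 4) (nat_lit 375) (nat_lit 207) (nat_lit 198)) (XT.nd (nat_lit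 78) (nat_lit 0) (nat_lit 0) (XT.lf (nat_lit 0) (nat_lit 18026226122) (nat_lit 76) (nat_lit 15128834825) (nat_lit 76) (nat_lit 12713441035) (nat_lit 4) (nat_lit 4) (nat_lit 5) (nat_lit 5) (nat_lit 5) (nat_lit 4) (nat_lit 376) (nat_lit 207) (nat_lit 197)) (XT.lf (nat_lit 0) (nat_lit 22871227333) (nat_lit 76) (nat_lit 13458518607) (nat_lit 76) (nat_lit 10838565571) (nat_lit 4) (nat_lit 4) (nat_lit 5) (nat_lit 5) (nat_lit 5) (nat_lit 4) (nat_lit 377) (nat_lit 207) (nat_lit 196)))) (XT.nd (nat_lit 78) (nat_lit 0) (nat_lit 0) (XT.lf (nat_lit 0) (nat_lit 27787040072) (nat_lit 76) (nat_lit 11769974943) (nat_lit 76) (nat_lit 8951420697) (nat_lit 4) (nat_lit 4) (nat_lit 5) (nat_lit 5) (nat_lit 5) (nat_lit 4) (nat_lit 378) (nat_lit 207) (nat_lit 195)) (XT.nd (nat_lit 78) (nat_lit 0) (nat_lit 0) (XT.lf (nat_lit 0) (nat_lit 32777959708) (nat_lit 76) (nat_lit 10061728407) (nat_lit 76) (nat_lit 7050357453)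 (nat_lit 4) (nat_lit 4) (nat_lit 5) (nat_lit 5) (nat_lit 5) (nat_lit 4) (nat_lit 379) (nat_lit 207) (nat_lit 194)) (XT.lf (nat_lit 0) (nat_lit 37848347240) (nat_lit 76) (nat_lit 8332286357) (nat_lit 76) (nat_lit 5133714714) (nat_lit 4) (nat_lit 4) (nat_lit 5) (nat_lit 5) (nat_lit 5) (nat_lit 4) (nat_lit 380) (nat_lit 207) (nat_lit 193))))) (XT.nd (nat_lit 234) (nat_lit 76) (nat_lit 0) (XT.nd (nat_lit 78) (nat_lit 76) (nat_lit 0) (XT.lf (nat_lit 0) (nat_lit 43002633103) (nat_lit 76) (nat_lit 6580137629) (nat_lit 76) (nat_lit 3199817745) (nat_lit 4) (nat_lit 4) (nat_lit 5) (nat_lit 5) (nat_lit 5) (nat_lit 4) (nat_lit 381) (nat_lit 207) (nat_lit 192)) (XT.nd (nat_lit 78) (nat_lit 76) (nat_lit 0) (XT.lf (nat_lit 0) (nat_lit 48245321042) (nat_lit 76) (nat_lit 4803751220) (nat_lit 76) (nat_lit 1246976733) (nat_lit 4) (nat_lit 4) (nat_lit 5) (nat_lit 5) (nat_lit 5) (nat_lit 4) (nat_lit 382) (nat_lit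 207) (nat_lit 191)) (XT.lf (nat_lit 0) (nat_lit 712337769) (nat_lit 152) (nat_lit 2282043963) (nat_lit 76) (nat_lit 52861461063) (nat_lit 3) (nat_lit 5) (nat_lit 5) (nat_lit 5) (nat_lit 4) (nat_lit 4) (nat_lit 383) (nat_lit 207) (nat_lit 190)))) (XT.nd (nat_lit 78) (nat_lit 0) (nat_lit 0) (XT.lf (nat_lit 0) (nat_lit 1554511766) (nat_lit 76) (nat_lit 1129688621) (nat_lit 152) (nat_lit 54778527768) (nat_lit 2) (nat_lit 5) (nat_lit 3) (nat_lit 5) (nat_lit 4) (nat_lit 4) (nat_lit 384) (nat_lit 207) (nat_lit 189)) (XT.nd (nat_lit 78) (nat_lit 0) (nat_lit 0) (XT.lf (nat_lit 0) (nat_lit 4710174927) (nat_lit 152) (nat_lit 53635416754) (nat_lit 0) (nat_lit 772411839) (nat_lit 2) (nat_lit 5) (nat_lit 4) (nat_lit 4) (nat_lit 2) (nat_lit 4) (nat_lit 385) (nat_lit 207) (nat_lit 188)) (XT.lf (nat_lit 0) (nat_lit 6773240594) (nat_lit 152) (nat_lit 51367172167) (nat_lit 0) (nat_lit 2683266215) (nat_lit 2) (nat_lit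 5) (nat_lit 4) (nat_lit 4) (nat_lit 2) (nat_lit 4) (nat_lit 386) (nat_lit 207) (nat_lit 187))))))))
noncomputable def xc8 : XT := (XT.nd (nat_lit 39234) (nat_lit 0) (nat_lit 0) (XT.nd (nat_lit 858) (nat_lit 0) (nat_lit 0) (XT.nd (nat_lit 390) (nat_lit 0) (nat_lit 0) (XT.nd (nat_lit 156) (nat_lit 0) (nat_lit 0) (XT.nd (nat_lit 78) (nat_lit 0) (nat_lit 0) (XT.lf (nat_lit 0) (nat_lit 8864340809) (nat_lit 152) (nat_lit 49090641410) (nat_lit 0) (nat_lit 4626588479) (nat_lit 2) (nat_lit 5) (nat_lit 4) (nat_lit 4) (nat_lit 2) (nat_lit 4) (nat_lit 387) (nat_lit 207) (nat_lit 186)) (XT.lf (nat_lit 0) (nat_lit 10985302747) (nat_lit 152) (nat_lit 46803835282) (nat_lit 0) (nat_lit 6604076677) (nat_lit 2) (nat_lit 5) (nat_lit 4) (nat_lit 4) (nat_lit 2) (nat_lit 4) (nat_lit 388) (nat_lit 207) (nat_lit 185))) (XT.nd (nat_lit 78) (nat_lit 0) (nat_lit 0) (XT.lf (nat_lit 0) (nat_lit 13137979677) (nat_lit 152)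 (nat_lit 44504755602) (nat_lit 0) (nat_lit 8617458714) (nat_lit 2) (nat_lit 5) (nat_lit 4) (nat_lit 4) (nat_lit 2) (nat_lit 4) (nat_lit 389) (nat_lit 207) (nat_lit 184)) (XT.nd (nat_lit 78) (nat_lit 0) (nat_lit 0) (XT.lf (nat_lit 0) (nat_lit 15324252578) (nat_lit 152) (nat_lit 42191393466) (nat_lit 0) (nat_lit 10668493854) (nat_lit 2) (nat_lit 5) (nat_lit 4) (nat_lit 4) (nat_lit 2) (nat_lit 4) (nat_lit 390) (nat_lit 207) (nat_lit 183)) (XT.lf (nat_lit 0) (nat_lit 17546031785) (nat_lit 152) (nat_lit 39861727490) (nat_lit 0) (nat_lit 12758974265) (nat_lit 2) (nat_lit 5) (nat_lit 4) (nat_lit 4) (nat_lit 2) (nat_lit 4) (nat_lit 391) (nat_lit 207) (nat_lit 182))))) (XT.nd (nat_lit 234) (nat_lit 0) (nat_lit 0) (XT.nd (nat_lit 78) (nat_lit 0) (nat_lit 0) (XT.lf (nat_lit 0) (nat_lit 19805258659) (nat_lit 152) (nat_lit 37513722043) (nat_lit 0) (nat_lit 14890726579) (nat_lit 2) (nat_lit 5) (nat_lit 4)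 (nat_lit 4) (nat_lit 2) (nat_lit 4) (nat_lit 392) (nat_lit 207) (nat_lit 181)) (XT.nd (nat_lit 78) (nat_lit 0) (nat_lit 0) (XT.lf (nat_lit 0) (nat_lit 22103907281) (nat_lit 152) (nat_lit 35145325469) (nat_lit 0) (nat_lit 17065613494) (nat_lit 2) (nat_lit 5) (nat_lit 4) (nat_lit 4) (nat_lit 2) (nat_lit 4) (nat_lit 393) (nat_lit 207) (nat_lit 180)) (XT.lf (nat_lit 0) (nat_lit 24443986181) (nat_lit 152) (nat_lit 32754468296) (nat_lit 0) (nat_lit 19285535395) (nat_lit 2) (nat_lit 5) (nat_lit 4) (nat_lit 4) (nat_lit 2) (nat_lit 4) (nat_lit 394) (nat_lit 207) (nat_lit 179)))) (XT.nd (nat_lit 78) (nat_lit 0) (nat_lit 0) (XT.lf (nat_lit 0) (nat_lit 26827540086) (nat_lit 152) (nat_lit 30339061426) (nat_lit 0) (nat_lit 21552432020) (nat_lit 2) (nat_lit 5) (nat_lit 4) (nat_lit 4) (nat_lit 2) (nat_lit 4) (nat_lit 395) (nat_lit 207) (nat_lit 178)) (XT.nd (nat_lit 78) (nat_lit 0) (nat_lit 0) (XT.lf (nat_lit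 0) (nat_lit 29256651713) (nat_lit 152) (nat_lit 27896994309) (nat_lit 0) (nat_lit 23868284153) (nat_lit 2) (nat_lit 5) (nat_lit 4) (nat_lit 4) (nat_lit 2) (nat_lit 4) (nat_lit 396) (nat_lit 207) (nat_lit 177)) (XT.lf (nat_lit 0) (nat_lit 31733443589) (nat_lit 152) (nat_lit 25426133099) (nat_lit 0) (nat_lit 26235115353) (nat_lit 2) (nat_lit 5) (nat_lit 4) (nat_lit 4) (nat_lit 2) (nat_lit 4) (nat_lit 397) (nat_lit 207) (nat_lit 176)))))) (XT.nd (nat_lit 390) (nat_lit 0) (nat_lit 0) (XT.nd (nat_lit 156) (nat_lit 0) (nat_lit 0) (XT.nd (nat_lit 78) (nat_lit 0) (nat_lit 0) (XT.lf (nat_lit 0) (nat_lit 34260079898) (nat_lit 152) (nat_lit 22924318793) (nat_lit 0) (nat_lit 28654993726) (nat_lit 2) (nat_lit 5) (nat_lit 4) (nat_lit 4) (nat_lit 2) (nat_lit 4) (nat_lit 398) (nat_lit 207) (nat_lit 175)) (XT.lf (nat_lit 0) (nat_lit 36838768383) (nat_lit 152) (nat_lit 20389365338) (nat_lit 0) (nat_lit 31130033729)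 (nat_lit 2) (nat_lit 5) (nat_lit 4) (nat_lit 4) (nat_lit 2) (nat_lit 4) (nat_lit 399) (nat_lit 207) (nat_lit 174))) (XT.nd (nat_lit 78) (nat_lit 0) (nat_lit 0) (XT.lf (nat_lit 0) (nat_lit 39471762266) (nat_lit 152) (nat_lit 17819057726) (nat_lit 0) (nat_lit 33662398017) (nat_lit 2) (nat_lit 5) (nat_lit 4) (nat_lit 4) (nat_lit 2) (nat_lit 4) (nat_lit 400) (nat_lit 207) (nat_lit 173)) (XT.nd (nat_lit 78) (nat_lit 0) (nat_lit 0) (XT.lf (nat_lit 0) (nat_lit 42161362221) (nat_lit 152) (nat_lit 15211150058) (nat_lit 0) (nat_lit 36254299337) (nat_lit 2) (nat_lit 5) (nat_lit 4) (nat_lit 4) (nat_lit 2) (nat_lit 4) (nat_lit 401) (nat_lit 207) (nat_lit 172)) (XT.lf (nat_lit 0) (nat_lit 44909918384) (nat_lit 152) (nat_lit 12563363580) (nat_lit 0) (nat_lit 38908002456) (nat_lit 2) (nat_lit 5) (nat_lit 4) (nat_lit 4) (nat_lit 2) (nat_lit 4) (nat_lit 402) (nat_lit 207) (nat_lit 171))))) (XT.nd (nat_lit 37752)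 (nat_lit 0) (nat_lit 228) (XT.nd (nat_lit 37596) (nat_lit 0) (nat_lit 228) (XT.lf (nat_lit 0) (nat_lit 47719832406) (nat_lit 152) (nat_lit 9873384692) (nat_lit 0) (nat_lit 41625826144) (nat_lit 2) (nat_lit 5) (nat_lit 4) (nat_lit 4) (nat_lit 2) (nat_lit 4) (nat_lit 403) (nat_lit 207) (nat_lit 170)) (XT.nd (nat_lit 78) (nat_lit 152) (nat_lit 0) (XT.lf (nat_lit 0) (nat_lit 15371127347) (nat_lit 76) (nat_lit 569859172) (nat_lit 76) (nat_lit 569859172) (nat_lit 7) (nat_lit 4) (nat_lit 8) (nat_lit 5) (nat_lit 8) (nat_lit 4) (nat_lit 364) (nat_lit 208) (nat_lit 208)) (XT.lf (nat_lit 0) (nat_lit 1527360418) (nat_lit 152) (nat_lit 31149101985) (nat_lit 0) (nat_lit 1244202581) (nat_lit 5) (nat_lit 5) (nat_lit 7) (nat_lit 4) (nat_lit 5) (nat_lit 4) (nat_lit 365) (nat_lit 208) (nat_lit 207)))) (XT.nd (nat_lit 78) (nat_lit 0) (nat_lit 0) (XT.lf (nat_lit 0) (nat_lit 4228019705) (nat_lit 152) (nat_lit 26949060277)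 (nat_lit 0) (nat_lit 3669951346) (nat_lit 5) (nat_lit 5) (nat_lit 7) (nat_lit 4) (nat_lit 5) (nat_lit 4) (nat_lit 366) (nat_lit 208) (nat_lit 206)) (XT.nd (nat_lit 78) (nat_lit 0) (nat_lit 0) (XT.lf (nat_lit 0) (nat_lit 6953334975) (nat_lit 152) (nat_lit 22721236094) (nat_lit 0) (nat_lit 6128363196) (nat_lit 5) (nat_lit 5) (nat_lit 7) (nat_lit 4) (nat_lit 5) (nat_lit 4) (nat_lit 367) (nat_lit 208) (nat_lit 205)) (XT.lf (nat_lit 0) (nat_lit 9705687569) (nat_lit 152) (nat_lit 18461935222) (nat_lit 0) (nat_lit 8621586257) (nat_lit 5) (nat_lit 5) (nat_lit 7) (nat_lit 4) (nat_lit 5) (nat_lit 4) (nat_lit 368) (nat_lit 208) (nat_lit 204))))))) (XT.nd (nat_lit 858) (nat_lit 152) (nat_lit 0) (XT.nd (nat_lit 390) (nat_lit 0) (nat_lit 0) (XT.nd (nat_lit 156) (nat_lit 76) (nat_lit 0) (XT.nd (nat_lit 78) (nat_lit 0) (nat_lit 0) (XT.lf (nat_lit 0) (nat_lit 12487482457) (nat_lit 152) (nat_lit 14167435940)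 (nat_lit 0) (nat_lit 11151799074) (nat_lit 5) (nat_lit 5) (nat_lit 7) (nat_lit 4) (nat_lit 5) (nat_lit 4) (nat_lit 369) (nat_lit 208) (nat_lit 203)) (XT.lf (nat_lit 0) (nat_lit 15301150334) (nat_lit 152) (nat_lit 9833985774) (nat_lit 0) (nat_lit 13721212512) (nat_lit 5) (nat_lit 5) (nat_lit 7) (nat_lit 4) (nat_lit 5) (nat_lit 4) (nat_lit 370) (nat_lit 208) (nat_lit 202))) (XT.nd (nat_lit 78) (nat_lit 76) (nat_lit 0) (XT.lf (nat_lit 0) (nat_lit 18149149743) (nat_lit 152) (nat_lit 5457798214) (nat_lit 0) (nat_lit 16332071691) (nat_lit 5) (nat_lit 5) (nat_lit 7) (nat_lit 4) (nat_lit 5) (nat_lit 4) (nat_lit 371) (nat_lit 208) (nat_lit 201)) (XT.nd (nat_lit 78) (nat_lit 76) (nat_lit 0) (XT.lf (nat_lit 0) (nat_lit 21033969229) (nat_lit 152) (nat_lit 1035049407) (nat_lit 0) (nat_lit 18986657942) (nat_lit 5) (nat_lit 5) (nat_lit 7) (nat_lit 4) (nat_lit 5) (nat_lit 4) (nat_lit 372) (nat_lit 208) (nat_lit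 200)) (XT.lf (nat_lit 0) (nat_lit 3506550617) (nat_lit 76) (nat_lit 20485285999) (nat_lit 76) (nat_lit 18214447300) (nat_lit 4) (nat_lit 4) (nat_lit 5) (nat_lit 5) (nat_lit 5) (nat_lit 4) (nat_lit 373) (nat_lit 208) (nat_lit 199))))) (XT.nd (nat_lit 234) (nat_lit 0) (nat_lit 0) (XT.nd (nat_lit 78) (nat_lit 0) (nat_lit 0) (XT.lf (nat_lit 0) (nat_lit 8124165900) (nat_lit 76) (nat_lit 18878114221) (nat_lit 76) (nat_lit 16390258618) (nat_lit 4) (nat_lit 4) (nat_lit 5) (nat_lit 5) (nat_lit 5) (nat_lit 4) (nat_lit 374) (nat_lit 208) (nat_lit 198)) (XT.nd (nat_lit 78) (nat_lit 0) (nat_lit 0) (XT.lf (nat_lit 0) (nat_lit 12801231737) (nat_lit 76) (nat_lit 17256550947) (nat_lit 76) (nat_lit 14557999320) (nat_lit 4) (nat_lit 4) (nat_lit 5) (nat_lit 5) (nat_lit 5) (nat_lit 4) (nat_lit 375) (nat_lit 208) (nat_lit 197)) (XT.lf (nat_lit 0) (nat_lit 17541834885) (nat_lit 76) (nat_lit 15619179277) (nat_lit 76)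 (nat_lit 12716068403) (nat_lit 4) (nat_lit 4) (nat_lit 5) (nat_lit 5) (nat_lit 5) (nat_lit 4) (nat_lit 376) (nat_lit 208) (nat_lit 196)))) (XT.nd (nat_lit 78) (nat_lit 0) (nat_lit 0) (XT.lf (nat_lit 0) (nat_lit 22350117619) (nat_lit 76) (nat_lit 13964568497) (nat_lit 76) (nat_lit 10862856414) (nat_lit 4) (nat_lit 4) (nat_lit 5) (nat_lit 5) (nat_lit 5) (nat_lit 4) (nat_lit 377) (nat_lit 208) (nat_lit 195)) (XT.nd (nat_lit 78) (nat_lit 0) (nat_lit 0) (XT.lf (nat_lit 0) (nat_lit 27230281350) (nat_lit 76) (nat_lit 12291272833) (nat_lit 76) (nat_lit 8996744041) (nat_lit 4) (nat_lit 4) (nat_lit 5) (nat_lit 5) (nat_lit 5) (nat_lit 4) (nat_lit 378) (nat_lit 208) (nat_lit 194)) (XT.lf (nat_lit 0) (nat_lit 32186590300) (nat_lit 76) (nat_lit 10597830180) (nat_lit 76) (nat_lit 7116100699) (nat_lit 4) (nat_lit 4) (nat_lit 5) (nat_lit 5) (nat_lit 5) (nat_lit 4) (nat_lit 379) (nat_lit 208) (nat_lit 193))))))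 (XT.nd (nat_lit 468) (nat_lit 0) (nat_lit 0) (XT.nd (nat_lit 234) (nat_lit 152) (nat_lit 0) (XT.nd (nat_lit 78) (nat_lit 0) (nat_lit 0) (XT.lf (nat_lit 0) (nat_lit 37223375223) (nat_lit 76) (nat_lit 8882760831) (nat_lit 76) (nat_lit 5219283109) (nat_lit 4) (nat_lit 4) (nat_lit 5) (nat_lit 5) (nat_lit 5) (nat_lit 4) (nat_lit 380) (nat_lit 208) (nat_lit 192)) (XT.nd (nat_lit 78) (nat_lit 0) (nat_lit 0) (XT.lf (nat_lit 0) (nat_lit 42345037195) (nat_lit 76) (nat_lit 7144566182) (nat_lit 76) (nat_lit 3304633858) (nat_lit 4) (nat_lit 4) (nat_lit 5) (nat_lit 5) (nat_lit 5) (nat_lit 4) (nat_lit 381) (nat_lit 208) (nat_lit 191)) (XT.lf (nat_lit 0) (nat_lit 47556051453) (nat_lit 76) (nat_lit 5381727423) (nat_lit 76) (nat_lit 1370479950) (nat_lit 4) (nat_lit 4) (nat_lit 5) (nat_lit 5) (nat_lit 5) (nat_lit 4) (nat_lit 382) (nat_lit 208) (nat_lit 190)))) (XT.nd (nat_lit 78) (nat_lit 76) (nat_lit 0) (XT.lf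 (nat_lit 0) (nat_lit 573455757) (nat_lit 152) (nat_lit 3013457671) (nat_lit 76) (nat_lit 52281724775) (nat_lit 3) (nat_lit 5) (nat_lit 5) (nat_lit 5) (nat_lit 4) (nat_lit 4) (nat_lit 383) (nat_lit 208) (nat_lit 189)) (XT.nd (nat_lit 78) (nat_lit 0) (nat_lit 0) (XT.lf (nat_lit 0) (nat_lit 777725127) (nat_lit 76) (nat_lit 1742855634) (nat_lit 152) (nat_lit 54955700757) (nat_lit 2) (nat_lit 5) (nat_lit 3) (nat_lit 5) (nat_lit 4) (nat_lit 4) (nat_lit 384) (nat_lit 208) (nat_lit 188)) (XT.lf (nat_lit 0) (nat_lit 4523482274) (nat_lit 152) (nat_lit 54450184787) (nat_lit 0) (nat_lit 158597374) (nat_lit 2) (nat_lit 5) (nat_lit 4) (nat_lit 4) (nat_lit 2) (nat_lit 4) (nat_lit 385) (nat_lit 208) (nat_lit 187))))) (XT.nd (nat_lit 234) (nat_lit 0) (nat_lit 0) (XT.nd (nat_lit 78) (nat_lit 0) (nat_lit 0) (XT.lf (nat_lit 0) (nat_lit 6569869408) (nat_lit 152) (nat_lit 52211379199) (nat_lit 0) (nat_lit 2057206556)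 (nat_lit 2) (nat_lit 5) (nat_lit 4) (nat_lit 4) (nat_lit 2) (nat_lit 4) (nat_lit 386) (nat_lit 208) (nat_lit 186)) (XT.nd (nat_lit 78) (nat_lit 0) (nat_lit 0) (XT.lf (nat_lit 0) (nat_lit 8644776873) (nat_lit 152) (nat_lit 49963429994) (nat_lit 0) (nat_lit 3988640281) (nat_lit 2) (nat_lit 5) (nat_lit 4) (nat_lit 4) (nat_lit 2) (nat_lit 4) (nat_lit 387) (nat_lit 208) (nat_lit 185)) (XT.lf (nat_lit 0) (nat_lit 10750017695) (nat_lit 152) (nat_lit 47704372946) (nat_lit 0) (nat_lit 5954586210) (nat_lit 2) (nat_lit 5) (nat_lit 4) (nat_lit 4) (nat_lit 2) (nat_lit 4) (nat_lit 388) (nat_lit 208) (nat_lit 184)))) (XT.nd (nat_lit 78) (nat_lit 0) (nat_lit 0) (XT.lf (nat_lit 0) (nat_lit 12887431404) (nat_lit 152) (nat_lit 45432234121) (nat_lit 0) (nat_lit 7956762159) (nat_lit 2) (nat_lit 5) (nat_lit 4) (nat_lit 4) (nat_lit 2) (nat_lit 4) (nat_lit 389) (nat_lit 208) (nat_lit 183)) (XT.nd (nat_lit 78) (nat_lit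 0) (nat_lit 0) (XT.lf (nat_lit 0) (nat_lit 15058885645) (nat_lit 152) (nat_lit 43145028154) (nat_lit 0) (nat_lit 9996917603) (nat_lit 2) (nat_lit 5) (nat_lit 4) (nat_lit 4) (nat_lit 2) (nat_lit 4) (nat_lit 390) (nat_lit 208) (nat_lit 182)) (XT.lf (nat_lit 0) (nat_lit 17266277803) (nat_lit 152) (nat_lit 40840756517) (nat_lit 0) (nat_lit 12076835201) (nat_lit 2) (nat_lit 5) (nat_lit 4) (nat_lit 4) (nat_lit 2) (nat_lit 4) (nat_lit 391) (nat_lit 208) (nat_lit 181))))))))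
noncomputable def xc9 : XT := (XT.nd (nat_lit 39078) (nat_lit 0) (nat_lit 0) (XT.nd (nat_lit 858) (nat_lit 0) (nat_lit 0) (XT.nd (nat_lit 390) (nat_lit 0) (nat_lit 0) (XT.nd (nat_lit 156) (nat_lit 0) (nat_lit 0) (XT.nd (nat_lit 78) (nat_lit 0) (nat_lit 0) (XT.lf (nat_lit 0) (nat_lit 19511536668) (nat_lit 152) (nat_lit 38517405768) (nat_lit 0) (nat_lit 14198332359) (nat_lit 2) (nat_lit 5) (nat_lit 4) (nat_lit 4) (nat_lit 2) (nat_lit 4) (nat_lit 392) (nat_lit 208) (nat_lit 180)) (XT.lf (nat_lit 0) (nat_lit 21796624117) (nat_lit 152) (nat_lit 36172945794) (nat_lit 0) (nat_lit 16363262809) (nat_lit 2) (nat_lit 5) (nat_lit 4) (nat_lit 4) (nat_lit 2) (nat_lit 4) (nat_lit 393) (nat_lit 208) (nat_lit 179))) (XT.nd (nat_lit 78) (nat_lit 0) (nat_lit 0) (XT.lf (nat_lit 0) (nat_lit 24123536829) (nat_lit 152) (nat_lit 33805328039) (nat_lit 0) (nat_lit 18573518241) (nat_lit 2) (nat_lit 5) (nat_lit 4) (nat_lit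 4) (nat_lit 2) (nat_lit 4) (nat_lit 394) (nat_lit 208) (nat_lit 178)) (XT.nd (nat_lit 78) (nat_lit 0) (nat_lit 0) (XT.lf (nat_lit 0) (nat_lit 26494308027) (nat_lit 152) (nat_lit 31412483710) (nat_lit 0) (nat_lit 20831029944) (nat_lit 2) (nat_lit 5) (nat_lit 4) (nat_lit 4) (nat_lit 2) (nat_lit 4) (nat_lit 395) (nat_lit 208) (nat_lit 177)) (XT.lf (nat_lit 0) (nat_lit 28911009260) (nat_lit 152) (nat_lit 28992321973) (nat_lit 0) (nat_lit 23137770503) (nat_lit 2) (nat_lit 5) (nat_lit 4) (nat_lit 4) (nat_lit 2) (nat_lit 4) (nat_lit 396) (nat_lit 208) (nat_lit 176))))) (XT.nd (nat_lit 234) (nat_lit 0) (nat_lit 0) (XT.nd (nat_lit 78) (nat_lit 0) (nat_lit 0) (XT.lf (nat_lit 0) (nat_lit 31375752208) (nat_lit 152) (nat_lit 26542728123) (nat_lit 0) (nat_lit 25495755514) (nat_lit 2) (nat_lit 5) (nat_lit 4) (nat_lit 4) (nat_lit 2) (nat_lit 4) (nat_lit 397) (nat_lit 208) (nat_lit 175)) (XT.nd (nat_lit 78)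 (nat_lit 0) (nat_lit 0) (XT.lf (nat_lit 0) (nat_lit 33890690531) (nat_lit 152) (nat_lit 24061561737) (nat_lit 0) (nat_lit 27907045354) (nat_lit 2) (nat_lit 5) (nat_lit 4) (nat_lit 4) (nat_lit 2) (nat_lit 4) (nat_lit 398) (nat_lit 208) (nat_lit 174)) (XT.lf (nat_lit 0) (nat_lit 36458021747) (nat_lit 152) (nat_lit 21546654808) (nat_lit 0) (nat_lit 30373746976) (nat_lit 2) (nat_lit 5) (nat_lit 4) (nat_lit 4) (nat_lit 2) (nat_lit 4) (nat_lit 399) (nat_lit 208) (nat_lit 173)))) (XT.nd (nat_lit 78) (nat_lit 0) (nat_lit 0) (XT.lf (nat_lit 0) (nat_lit 39079989154) (nat_lit 152) (nat_lit 18995809843) (nat_lit 0) (nat_lit 32898015748) (nat_lit 2) (nat_lit 5) (nat_lit 4) (nat_lit 4) (nat_lit 2) (nat_lit 4) (nat_lit 400) (nat_lit 208) (nat_lit 172)) (XT.nd (nat_lit 78) (nat_lit 0) (nat_lit 0) (XT.lf (nat_lit 0) (nat_lit 41758883794) (nat_lit 152) (nat_lit 16406797948) (nat_lit 0) (nat_lit 35482057343) (nat_lit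 2) (nat_lit 5) (nat_lit 4) (nat_lit 4) (nat_lit 2) (nat_lit 4) (nat_lit 401) (nat_lit 208) (nat_lit 171)) (XT.lf (nat_lit 0) (nat_lit 44497046447) (nat_lit 152) (nat_lit 13777356881) (nat_lit 0) (nat_lit 38128129662) (nat_lit 2) (nat_lit 5) (nat_lit 4) (nat_lit 4) (nat_lit 2) (nat_lit 4) (nat_lit 402) (nat_lit 208) (nat_lit 170)))))) (XT.nd (nat_lit 37752) (nat_lit 0) (nat_lit 228) (XT.nd (nat_lit 37518) (nat_lit 0) (nat_lit 228) (XT.nd (nat_lit 37440) (nat_lit 0) (nat_lit 380) (XT.lf (nat_lit 0) (nat_lit 47296869682) (nat_lit 152) (nat_lit 11105189071) (nat_lit 0) (nat_lit 40838544807) (nat_lit 2) (nat_lit 5) (nat_lit 4) (nat_lit 4) (nat_lit 2) (nat_lit 4) (nat_lit 403) (nat_lit 208) (nat_lit 169)) (XT.lf (nat_lit 0) (nat_lit 9583274516) (nat_lit 76) (nat_lit 3034055637) (nat_lit 76) (nat_lit 3034055637) (nat_lit 7) (nat_lit 4) (nat_lit 8) (nat_lit 5) (nat_lit 8) (nat_lit 4) (nat_lit 362) (nat_lit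 209) (nat_lit 209))) (XT.nd (nat_lit 78) (nat_lit 152) (nat_lit 0) (XT.lf (nat_lit 0) (nat_lit 24893749756) (nat_lit 76) (nat_lit 3777867226) (nat_lit 76) (nat_lit 3477465076) (nat_lit 7) (nat_lit 4) (nat_lit 8) (nat_lit 5) (nat_lit 8) (nat_lit 4) (nat_lit 363) (nat_lit 209) (nat_lit 208)) (XT.nd (nat_lit 78) (nat_lit 152) (nat_lit 0) (XT.lf (nat_lit 0) (nat_lit 30693214107) (nat_lit 76) (nat_lit 1460707523) (nat_lit 76) (nat_lit 868652801) (nat_lit 7) (nat_lit 4) (nat_lit 8) (nat_lit 5) (nat_lit 8) (nat_lit 4) (nat_lit 364) (nat_lit 209) (nat_lit 207)) (XT.lf (nat_lit 0) (nat_lit 1760958280) (nat_lit 152) (nat_lit 31250267325) (nat_lit 0) (nat_lit 911237348) (nat_lit 5) (nat_lit 5) (nat_lit 7) (nat_lit 4) (nat_lit 5) (nat_lit 4) (nat_lit 365) (nat_lit 209) (nat_lit 206))))) (XT.nd (nat_lit 234) (nat_lit 0) (nat_lit 0) (XT.nd (nat_lit 78) (nat_lit 0) (nat_lit 0) (XT.lf (nat_lit 0) (nat_lit 4433852151)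 (nat_lit 152) (nat_lit 27098609251) (nat_lit 0) (nat_lit 3317227799) (nat_lit 5) (nat_lit 5) (nat_lit 7) (nat_lit 4) (nat_lit 5) (nat_lit 4) (nat_lit 366) (nat_lit 209) (nat_lit 205)) (XT.nd (nat_lit 78) (nat_lit 0) (nat_lit 0) (XT.lf (nat_lit 0) (nat_lit 7132210704) (nat_lit 152) (nat_lit 22917759470) (nat_lit 0) (nat_lit 5756456819) (nat_lit 5) (nat_lit 5) (nat_lit 7) (nat_lit 4) (nat_lit 5) (nat_lit 4) (nat_lit 367) (nat_lit 209) (nat_lit 204)) (XT.lf (nat_lit 0) (nat_lit 9858391730) (nat_lit 152) (nat_lit 18704064812) (nat_lit 0) (nat_lit 8231055774) (nat_lit 5) (nat_lit 5) (nat_lit 7) (nat_lit 4) (nat_lit 5) (nat_lit 4) (nat_lit 368) (nat_lit 209) (nat_lit 203)))) (XT.nd (nat_lit 78) (nat_lit 0) (nat_lit 0) (XT.lf (nat_lit 0) (nat_lit 12614777328) (nat_lit 152) (nat_lit 14453843410) (nat_lit 0) (nat_lit 10743186934) (nat_lit 5) (nat_lit 5) (nat_lit 7) (nat_lit 4) (nat_lit 5) (nat_lit 4)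 (nat_lit 369) (nat_lit 209) (nat_lit 202)) (XT.nd (nat_lit 78) (nat_lit 0) (nat_lit 0) (XT.lf (nat_lit 0) (nat_lit 15403775991) (nat_lit 152) (nat_lit 10163381476) (nat_lit 0) (nat_lit 13295045366) (nat_lit 5) (nat_lit 5) (nat_lit 7) (nat_lit 4) (nat_lit 5) (nat_lit 4) (nat_lit 370) (nat_lit 209) (nat_lit 201)) (XT.lf (nat_lit 0) (nat_lit 18227824708) (nat_lit 152) (nat_lit 5828930063) (nat_lit 0) (nat_lit 15888860849) (nat_lit 5) (nat_lit 5) (nat_lit 7) (nat_lit 4) (nat_lit 5) (nat_lit 4) (nat_lit 371) (nat_lit 209) (nat_lit 200))))))) (XT.nd (nat_lit 858) (nat_lit 152) (nat_lit 0) (XT.nd (nat_lit 390) (nat_lit 0) (nat_lit 0) (XT.nd (nat_lit 156) (nat_lit 0) (nat_lit 0) (XT.nd (nat_lit 78) (nat_lit 76) (nat_lit 0) (XT.lf (nat_lit 0) (nat_lit 21089391094) (nat_lit 152) (nat_lit 1446701788) (nat_lit 0) (nat_lit 18526899823) (nat_lit 5) (nat_lit 5) (nat_lit 7) (nat_lit 4) (nat_lit 5) (nat_lit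 4) (nat_lit 372) (nat_lit 209) (nat_lit 199)) (XT.lf (nat_lit 0) (nat_lit 3046582275) (nat_lit 76) (nat_lit 20973678884) (nat_lit 76) (nat_lit 18194170709) (nat_lit 4) (nat_lit 4) (nat_lit 5) (nat_lit 5) (nat_lit 5) (nat_lit 4) (nat_lit 373) (nat_lit 209) (nat_lit 198))) (XT.nd (nat_lit 78) (nat_lit 0) (nat_lit 0) (XT.lf (nat_lit 0) (nat_lit 7625242925) (nat_lit 76) (nat_lit 19383169006) (nat_lit 76) (nat_lit 16392964807) (nat_lit 4) (nat_lit 4) (nat_lit 5) (nat_lit 5) (nat_lit 5) (nat_lit 4) (nat_lit 374) (nat_lit 209) (nat_lit 197)) (XT.nd (nat_lit 78) (nat_lit 0) (nat_lit 0) (XT.lf (nat_lit 0) (nat_lit 12264488731) (nat_lit 76) (nat_lit 17777782334) (nat_lit 76) (nat_lit 14583018888) (nat_lit 4) (nat_lit 4) (nat_lit 5) (nat_lit 5) (nat_lit 5) (nat_lit 4) (nat_lit 375) (nat_lit 209) (nat_lit 196)) (XT.lf (nat_lit 0) (nat_lit 16968373401) (nat_lit 76) (nat_lit 16156116103) (nat_lit 76) (nat_lit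 12762751447) (nat_lit 4) (nat_lit 4) (nat_lit 5) (nat_lit 5) (nat_lit 5) (nat_lit 4) (nat_lit 376) (nat_lit 209) (nat_lit 195))))) (XT.nd (nat_lit 234) (nat_lit 0) (nat_lit 0) (XT.nd (nat_lit 78) (nat_lit 0) (nat_lit 0) (XT.lf (nat_lit 0) (nat_lit 21741007128) (nat_lit 76) (nat_lit 14516753323) (nat_lit 76) (nat_lit 10930571958) (nat_lit 4) (nat_lit 4) (nat_lit 5) (nat_lit 5) (nat_lit 5) (nat_lit 4) (nat_lit 377) (nat_lit 209) (nat_lit 194)) (XT.nd (nat_lit 78) (nat_lit 0) (nat_lit 0) (XT.lf (nat_lit 0) (nat_lit 26586560173) (nat_lit 76) (nat_lit 12858261541) (nat_lit 76) (nat_lit 9084879488) (nat_lit 4) (nat_lit 4) (nat_lit 5) (nat_lit 5) (nat_lit 5) (nat_lit 4) (nat_lit 378) (nat_lit 209) (nat_lit 193)) (XT.lf (nat_lit 0) (nat_lit 31509266514) (nat_lit 76) (nat_lit 11179191589) (nat_lit 76) (nat_lit 7224061295) (nat_lit 4) (nat_lit 4) (nat_lit 5) (nat_lit 5) (nat_lit 5) (nat_lit 4) (nat_lit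 379) (nat_lit 209) (nat_lit 192)))) (XT.nd (nat_lit 78) (nat_lit 0) (nat_lit 0) (XT.lf (nat_lit 0) (nat_lit 36513427547) (nat_lit 76) (nat_lit 9478076319) (nat_lit 76) (nat_lit 5346491422) (nat_lit 4) (nat_lit 4) (nat_lit 5) (nat_lit 5) (nat_lit 5) (nat_lit 4) (nat_lit 380) (nat_lit 209) (nat_lit 191)) (XT.nd (nat_lit 78) (nat_lit 0) (nat_lit 0) (XT.lf (nat_lit 0) (nat_lit 41603415837) (nat_lit 76) (nat_lit 7753429320) (nat_lit 76) (nat_lit 3450529275) (nat_lit 4) (nat_lit 4) (nat_lit 5) (nat_lit 5) (nat_lit 5) (nat_lit 4) (nat_lit 381) (nat_lit 209) (nat_lit 190)) (XT.lf (nat_lit 0) (nat_lit 46783678949) (nat_lit 76) (nat_lit 6003743619) (nat_lit 76) (nat_lit 1534518186) (nat_lit 4) (nat_lit 4) (nat_lit 5) (nat_lit 5) (nat_lit 5) (nat_lit 4) (nat_lit 382) (nat_lit 209) (nat_lit 189)))))) (XT.nd (nat_lit 468) (nat_lit 0) (nat_lit 0) (XT.nd (nat_lit 234) (nat_lit 0) (nat_lit 0) (XT.nd (nat_lit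 78) (nat_lit 76) (nat_lit 0) (XT.lf (nat_lit 0) (nat_lit 395347830) (nat_lit 152) (nat_lit 3828150294) (nat_lit 76) (nat_lit 51659403256) (nat_lit 3) (nat_lit 5) (nat_lit 5) (nat_lit 5) (nat_lit 4) (nat_lit 4) (nat_lit 383) (nat_lit 209) (nat_lit 188)) (XT.nd (nat_lit 78) (nat_lit 76) (nat_lit 0) (XT.lf (nat_lit 0) (nat_lit 2318229225) (nat_lit 152) (nat_lit 81478691) (nat_lit 76) (nat_lit 55091579450) (nat_lit 3) (nat_lit 5) (nat_lit 5) (nat_lit 5) (nat_lit 4) (nat_lit 4) (nat_lit 384) (nat_lit 209) (nat_lit 187)) (XT.lf (nat_lit 0) (nat_lit 3793808387) (nat_lit 76) (nat_lit 508410182) (nat_lit 152) (nat_lit 54845633996) (nat_lit 2) (nat_lit 5) (nat_lit 3) (nat_lit 5) (nat_lit 4) (nat_lit 4) (nat_lit 385) (nat_lit 209) (nat_lit 186)))) (XT.nd (nat_lit 78) (nat_lit 0) (nat_lit 0) (XT.lf (nat_lit 0) (nat_lit 6327525804) (nat_lit 152) (nat_lit 53138932993) (nat_lit 0) (nat_lit 1388231374) (nat_lit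 2) (nat_lit 5) (nat_lit 4) (nat_lit 4) (nat_lit 2) (nat_lit 4) (nat_lit 386) (nat_lit 209) (nat_lit 185)) (XT.nd (nat_lit 78) (nat_lit 0) (nat_lit 0) (XT.lf (nat_lit 0) (nat_lit 8386712152) (nat_lit 152) (nat_lit 50918732869) (nat_lit 0) (nat_lit 3308122830) (nat_lit 2) (nat_lit 5) (nat_lit 4) (nat_lit 4) (nat_lit 2) (nat_lit 4) (nat_lit 387) (nat_lit 209) (nat_lit 184)) (XT.lf (nat_lit 0) (nat_lit 10476689754) (nat_lit 152) (nat_lit 48686616675) (nat_lit 0) (nat_lit 5262862671) (nat_lit 2) (nat_lit 5) (nat_lit 4) (nat_lit 4) (nat_lit 2) (nat_lit 4) (nat_lit 388) (nat_lit 209) (nat_lit 183))))) (XT.nd (nat_lit 234) (nat_lit 0) (nat_lit 0) (XT.nd (nat_lit 78) (nat_lit 0) (nat_lit 0) (XT.lf (nat_lit 0) (nat_lit 12599284803) (nat_lit 152) (nat_lit 46440634018) (nat_lit 0) (nat_lit 7254158924) (nat_lit 2) (nat_lit 5) (nat_lit 4) (nat_lit 4) (nat_lit 2) (nat_lit 4) (nat_lit 389) (nat_lit 209) (nat_lit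 182)) (XT.nd (nat_lit 78) (nat_lit 0) (nat_lit 0) (XT.lf (nat_lit 0) (nat_lit 14756351994) (nat_lit 152) (nat_lit 44178822391) (nat_lit 0) (nat_lit 9283751555) (nat_lit 2) (nat_lit 5) (nat_lit 4) (nat_lit 4) (nat_lit 2) (nat_lit 4) (nat_lit 390) (nat_lit 209) (nat_lit 181)) (XT.lf (nat_lit 0) (nat_lit 16949776144) (nat_lit 152) (nat_lit 41899205452) (nat_lit 0) (nat_lit 11353413997) (nat_lit 2) (nat_lit 5) (nat_lit 4) (nat_lit 4) (nat_lit 2) (nat_lit 4) (nat_lit 391) (nat_lit 209) (nat_lit 180)))) (XT.nd (nat_lit 78) (nat_lit 0) (nat_lit 0) (XT.lf (nat_lit 0) (nat_lit 19181473836) (nat_lit 152) (nat_lit 39599791302) (nat_lit 0) (nat_lit 13464954690) (nat_lit 2) (nat_lit 5) (nat_lit 4) (nat_lit 4) (nat_lit 2) (nat_lit 4) (nat_lit 392) (nat_lit 209) (nat_lit 179)) (XT.nd (nat_lit 78) (nat_lit 0) (nat_lit 0) (XT.lf (nat_lit 0) (nat_lit 21453395097) (nat_lit 152) (nat_lit 37278570746) (nat_lit 0)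 (nat_lit 15620218672) (nat_lit 2) (nat_lit 5) (nat_lit 4) (nat_lit 4) (nat_lit 2) (nat_lit 4) (nat_lit 393) (nat_lit 209) (nat_lit 178)) (XT.lf (nat_lit 0) (nat_lit 23767525102) (nat_lit 152) (nat_lit 34933515533) (nat_lit 0) (nat_lit 17821089182) (nat_lit 2) (nat_lit 5) (nat_lit 4) (nat_lit 4) (nat_lit 2) (nat_lit 4) (nat_lit 394) (nat_lit 209) (nat_lit 177))))))))
noncomputable def xc10 : XT := (XT.nd (nat_lit 38922) (nat_lit 0) (nat_lit 0) (XT.nd (nat_lit 38064) (nat_lit 0) (nat_lit 228) (XT.nd (nat_lit 390) (nat_lit 0) (nat_lit 0) (XT.nd (nat_lit 156) (nat_lit 0) (nat_lit 0) (XT.nd (nat_lit 78) (nat_lit 0) (nat_lit 0) (XT.lf (nat_lit 0) (nat_lit 26125885906) (nat_lit 152) (nat_lit 32562576584) (nat_lit 0) (nat_lit 20069489310) (nat_lit 2) (nat_lit 5) (nat_lit 4) (nat_lit 4) (nat_lit 2) (nat_lit 4) (nat_lit 395) (nat_lit 209) (nat_lit 176)) (XT.lf (nat_lit 0) (nat_lit 28530538212) (nat_lit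 152) (nat_lit 30163682206) (nat_lit 0) (nat_lit 22367383680) (nat_lit 2) (nat_lit 5) (nat_lit 4) (nat_lit 4) (nat_lit 2) (nat_lit 4) (nat_lit 396) (nat_lit 209) (nat_lit 175))) (XT.nd (nat_lit 78) (nat_lit 0) (nat_lit 0) (XT.lf (nat_lit 0) (nat_lit 30983583173) (nat_lit 152) (nat_lit 27734736277) (nat_lit 0) (nat_lit 24716780158) (nat_lit 2) (nat_lit 5) (nat_lit 4) (nat_lit 4) (nat_lit 2) (nat_lit 4) (nat_lit 397) (nat_lit 209) (nat_lit 174)) (XT.nd (nat_lit 78) (nat_lit 0) (nat_lit 0) (XT.lf (nat_lit 0) (nat_lit 33487164226) (nat_lit 152) (nat_lit 25273616418) (nat_lit 0) (nat_lit 27119731617) (nat_lit 2) (nat_lit 5) (nat_lit 4) (nat_lit 4) (nat_lit 2) (nat_lit 4) (nat_lit 398) (nat_lit 209) (nat_lit 173)) (XT.lf (nat_lit 0) (nat_lit 36043468966) (nat_lit 152) (nat_lit 22778172135) (nat_lit 0) (nat_lit 29578337722) (nat_lit 2) (nat_lit 5) (nat_lit 4) (nat_lit 4) (nat_lit 2) (nat_lit 4) (nat_lit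 399) (nat_lit 209) (nat_lit 172))))) (XT.nd (nat_lit 234) (nat_lit 0) (nat_lit 0) (XT.nd (nat_lit 78) (nat_lit 0) (nat_lit 0) (XT.lf (nat_lit 0) (nat_lit 38654731059) (nat_lit 152) (nat_lit 20246222943) (nat_lit 0) (nat_lit 32094746771) (nat_lit 2) (nat_lit 5) (nat_lit 4) (nat_lit 4) (nat_lit 2) (nat_lit 4) (nat_lit 400) (nat_lit 209) (nat_lit 171)) (XT.nd (nat_lit 78) (nat_lit 0) (nat_lit 0) (XT.lf (nat_lit 0) (nat_lit 41323232188) (nat_lit 152) (nat_lit 17675556459) (nat_lit 0) (nat_lit 34671157566) (nat_lit 2) (nat_lit 5) (nat_lit 4) (nat_lit 4) (nat_lit 2) (nat_lit 4) (nat_lit 401) (nat_lit 209) (nat_lit 170)) (XT.lf (nat_lit 0) (nat_lit 44051304054) (nat_lit 152) (nat_lit 15063926470) (nat_lit 0) (nat_lit 37309821341) (nat_lit 2) (nat_lit 5) (nat_lit 4) (nat_lit 4) (nat_lit 2) (nat_lit 4) (nat_lit 402) (nat_lit 209) (nat_lit 169)))) (XT.nd (nat_lit 37284) (nat_lit 0) (nat_lit 380) (XT.lf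 (nat_lit 0) (nat_lit 46841330410) (nat_lit 152) (nat_lit 12409050969) (nat_lit 0) (nat_lit 40013043724) (nat_lit 2) (nat_lit 5) (nat_lit 4) (nat_lit 4) (nat_lit 2) (nat_lit 4) (nat_lit 403) (nat_lit 209) (nat_lit 168)) (XT.nd (nat_lit 78) (nat_lit 0) (nat_lit 0) (XT.lf (nat_lit 0) (nat_lit 3980503497) (nat_lit 76) (nat_lit 5431704406) (nat_lit 76) (nat_lit 5431704406) (nat_lit 7) (nat_lit 4) (nat_lit 8) (nat_lit 5) (nat_lit 8) (nat_lit 4) (nat_lit 360) (nat_lit 210) (nat_lit 210)) (XT.lf (nat_lit 0) (nat_lit 13506607584) (nat_lit 76) (nat_lit 8642855068) (nat_lit 76) (nat_lit 8333440854) (nat_lit 7) (nat_lit 4) (nat_lit 8) (nat_lit 5) (nat_lit 8) (nat_lit 4) (nat_lit 361) (nat_lit 210) (nat_lit 209)))))) (XT.nd (nat_lit 390) (nat_lit 0) (nat_lit 0) (XT.nd (nat_lit 156) (nat_lit 152) (nat_lit 0) (XT.nd (nat_lit 78) (nat_lit 0) (nat_lit 0) (XT.lf (nat_lit 0) (nat_lit 19116037225) (nat_lit 76)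 (nat_lit 6398730128) (nat_lit 76) (nat_lit 5788913764) (nat_lit 7) (nat_lit 4) (nat_lit 8) (nat_lit 5) (nat_lit 8) (nat_lit 4) (nat_lit 362) (nat_lit 210) (nat_lit 208)) (XT.lf (nat_lit 0) (nat_lit 24794197361) (nat_lit 76) (nat_lit 4129073108) (nat_lit 76) (nat_lit 3227604171) (nat_lit 7) (nat_lit 4) (nat_lit 8) (nat_lit 5) (nat_lit 8) (nat_lit 4) (nat_lit 363) (nat_lit 210) (nat_lit 207))) (XT.nd (nat_lit 78) (nat_lit 152) (nat_lit 0) (XT.lf (nat_lit 0) (nat_lit 30546049489) (nat_lit 76) (nat_lit 1831900810) (nat_lit 76) (nat_lit 647274036) (nat_lit 7) (nat_lit 4) (nat_lit 8) (nat_lit 5) (nat_lit 8) (nat_lit 4) (nat_lit 364) (nat_lit 210) (nat_lit 206)) (XT.nd (nat_lit 78) (nat_lit 0) (nat_lit 0) (XT.lf (nat_lit 0) (nat_lit 1945200282) (nat_lit 152) (nat_lit 31452686402) (nat_lit 0) (nat_lit 528173781) (nat_lit 5) (nat_lit 5) (nat_lit 7) (nat_lit 4) (nat_lit 5) (nat_lit 4) (nat_lit 365) (nat_lit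 210) (nat_lit 205)) (XT.lf (nat_lit 0) (nat_lit 4591137436) (nat_lit 152) (nat_lit 27348002730) (nat_lit 0) (nat_lit 2914981402) (nat_lit 5) (nat_lit 5) (nat_lit 7) (nat_lit 4) (nat_lit 5) (nat_lit 4) (nat_lit 366) (nat_lit 210) (nat_lit 204))))) (XT.nd (nat_lit 234) (nat_lit 0) (nat_lit 0) (XT.nd (nat_lit 78) (nat_lit 0) (nat_lit 0) (XT.lf (nat_lit 0) (nat_lit 7263324421) (nat_lit 152) (nat_lit 23212759164) (nat_lit 0) (nat_lit 5335586315) (nat_lit 5) (nat_lit 5) (nat_lit 7) (nat_lit 4) (nat_lit 5) (nat_lit 4) (nat_lit 367) (nat_lit 210) (nat_lit 203)) (XT.nd (nat_lit 78) (nat_lit 0) (nat_lit 0) (XT.lf (nat_lit 0) (nat_lit 9964096157) (nat_lit 152) (nat_lit 19043342385) (nat_lit 0) (nat_lit 7792103614) (nat_lit 5) (nat_lit 5) (nat_lit 7) (nat_lit 4) (nat_lit 5) (nat_lit 4) (nat_lit 368) (nat_lit 210) (nat_lit 202)) (XT.lf (nat_lit 0) (nat_lit 12695812542) (nat_lit 152) (nat_lit 14836109215)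 (nat_lit 0) (nat_lit 10286679767) (nat_lit 5) (nat_lit 5) (nat_lit 7) (nat_lit 4) (nat_lit 5) (nat_lit 4) (nat_lit 369) (nat_lit 210) (nat_lit 201)))) (XT.nd (nat_lit 78) (nat_lit 0) (nat_lit 0) (XT.lf (nat_lit 0) (nat_lit 15460860513) (nat_lit 152) (nat_lit 10587383428) (nat_lit 0) (nat_lit 12821494504) (nat_lit 5) (nat_lit 5) (nat_lit 7) (nat_lit 4) (nat_lit 5) (nat_lit 4) (nat_lit 370) (nat_lit 210) (nat_lit 200)) (XT.nd (nat_lit 78) (nat_lit 0) (nat_lit 0) (XT.lf (nat_lit 0) (nat_lit 18261656130) (nat_lit 152) (nat_lit 6293452547) (nat_lit 0) (nat_lit 15398762709) (nat_lit 5) (nat_lit 5) (nat_lit 7) (nat_lit 4) (nat_lit 5) (nat_lit 4) (nat_lit 371) (nat_lit 210) (nat_lit 199)) (XT.lf (nat_lit 0) (nat_lit 21100646691) (nat_lit 152) (nat_lit 1950564594) (nat_lit 0) (nat_lit 18020736366) (nat_lit 5) (nat_lit 5) (nat_lit 7) (nat_lit 4) (nat_lit 5) (nat_lit 4) (nat_lit 372) (nat_lit 210) (nat_lit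 198))))))) (XT.nd (nat_lit 858) (nat_lit 76) (nat_lit 0) (XT.nd (nat_lit 390) (nat_lit 76) (nat_lit 0) (XT.nd (nat_lit 156) (nat_lit 0) (nat_lit 0) (XT.nd (nat_lit 78) (nat_lit 0) (nat_lit 0) (XT.lf (nat_lit 0) (nat_lit 2493736979) (nat_lit 76) (nat_lit 21510547213) (nat_lit 76) (nat_lit 18219940864) (nat_lit 4) (nat_lit 4) (nat_lit 5) (nat_lit 5) (nat_lit 5) (nat_lit 4) (nat_lit 373) (nat_lit 210) (nat_lit 197)) (XT.lf (nat_lit 0) (nat_lit 7034577597) (nat_lit 76) (nat_lit 19936213938) (nat_lit 76) (nat_lit 16441048342) (nat_lit 4) (nat_lit 4) (nat_lit 5) (nat_lit 5) (nat_lit 5) (nat_lit 4) (nat_lit 374) (nat_lit 210) (nat_lit 196))) (XT.nd (nat_lit 78) (nat_lit 0) (nat_lit 0) (XT.lf (nat_lit 0) (nat_lit 11637104925) (nat_lit 76) (nat_lit 18346532705) (nat_lit 76) (nat_lit 14652765899) (nat_lit 4) (nat_lit 4) (nat_lit 5) (nat_lit 5) (nat_lit 5) (nat_lit 4) (nat_lit 375) (nat_lit 210) (nat_lit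 195)) (XT.nd (nat_lit 78) (nat_lit 0) (nat_lit 0) (XT.lf (nat_lit 0) (nat_lit 16305340589) (nat_lit 76) (nat_lit 16740114472) (nat_lit 76) (nat_lit 12853530958) (nat_lit 4) (nat_lit 4) (nat_lit 5) (nat_lit 5) (nat_lit 5) (nat_lit 4) (nat_lit 376) (nat_lit 210) (nat_lit 194)) (XT.lf (nat_lit 0) (nat_lit 21043363629) (nat_lit 76) (nat_lit 15115555575) (nat_lit 76) (nat_lit 11041771372) (nat_lit 4) (nat_lit 4) (nat_lit 5) (nat_lit 5) (nat_lit 5) (nat_lit 4) (nat_lit 377) (nat_lit 210) (nat_lit 193))))) (XT.nd (nat_lit 234) (nat_lit 76) (nat_lit 0) (XT.nd (nat_lit 78) (nat_lit 0) (nat_lit 0) (XT.lf (nat_lit 0) (nat_lit 25855314066) (nat_lit 76) (nat_lit 13471436494) (nat_lit 76) (nat_lit 9215904050) (nat_lit 4) (nat_lit 4) (nat_lit 5) (nat_lit 5) (nat_lit 5) (nat_lit 4) (nat_lit 378) (nat_lit 210) (nat_lit 192)) (XT.nd (nat_lit 78) (nat_lit 0) (nat_lit 0) (XT.lf (nat_lit 0) (nat_lit 30745396516)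 (nat_lit 76) (nat_lit 11806320621) (nat_lit 76) (nat_lit 7374333574) (nat_lit 4) (nat_lit 4) (nat_lit 5) (nat_lit 5) (nat_lit 5) (nat_lit 4) (nat_lit 379) (nat_lit 210) (nat_lit 191)) (XT.lf (nat_lit 0) (nat_lit 35717883867) (nat_lit 76) (nat_lit 10118753001) (nat_lit 76) (nat_lit 5515450806) (nat_lit 4) (nat_lit 4) (nat_lit 5) (nat_lit 5) (nat_lit 5) (nat_lit 4) (nat_lit 380) (nat_lit 210) (nat_lit 190)))) (XT.nd (nat_lit 78) (nat_lit 76) (nat_lit 0) (XT.lf (nat_lit 0) (nat_lit 40777121011) (nat_lit 76) (nat_lit 8407259060) (nat_lit 76) (nat_lit 3637631477) (nat_lit 4) (nat_lit 4) (nat_lit 5) (nat_lit 5) (nat_lit 5) (nat_lit 4) (nat_lit 381) (nat_lit 210) (nat_lit 189)) (XT.nd (nat_lit 78) (nat_lit 76) (nat_lit 0) (XT.lf (nat_lit 0) (nat_lit 45927528640) (nat_lit 76) (nat_lit 6670343317) (nat_lit 76) (nat_lit 1739234777) (nat_lit 4) (nat_lit 4) (nat_lit 5) (nat_lit 5) (nat_lit 5) (nat_lit 4)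 (nat_lit 382) (nat_lit 210) (nat_lit 188)) (XT.lf (nat_lit 0) (nat_lit 177858359) (nat_lit 152) (nat_lit 4726833700) (nat_lit 76) (nat_lit 50993952731) (nat_lit 3) (nat_lit 5) (nat_lit 5) (nat_lit 5) (nat_lit 4) (nat_lit 4) (nat_lit 383) (nat_lit 210) (nat_lit 187)))))) (XT.nd (nat_lit 468) (nat_lit 0) (nat_lit 0) (XT.nd (nat_lit 234) (nat_lit 0) (nat_lit 0) (XT.nd (nat_lit 78) (nat_lit 76) (nat_lit 0) (XT.lf (nat_lit 0) (nat_lit 2084460493) (nat_lit 152) (nat_lit 1008642657) (nat_lit 76) (nat_lit 54414430919) (nat_lit 3) (nat_lit 5) (nat_lit 5) (nat_lit 5) (nat_lit 4) (nat_lit 4) (nat_lit 384) (nat_lit 210) (nat_lit 186)) (XT.nd (nat_lit 78) (nat_lit 0) (nat_lit 0) (XT.lf (nat_lit 0) (nat_lit 2819990701) (nat_lit 76) (nat_lit 1223293098) (nat_lit 152) (nat_lit 55121584932) (nat_lit 2) (nat_lit 5) (nat_lit 3) (nat_lit 5) (nat_lit 4) (nat_lit 4) (nat_lit 385) (nat_lit 210) (nat_lit 185)) (XT.lf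 (nat_lit 0) (nat_lit 6045998025) (nat_lit 152) (nat_lit 54150644033) (nat_lit 0) (nat_lit 675756129) (nat_lit 2) (nat_lit 5) (nat_lit 4) (nat_lit 4) (nat_lit 2) (nat_lit 4) (nat_lit 386) (nat_lit 210) (nat_lit 184)))) (XT.nd (nat_lit 78) (nat_lit 0) (nat_lit 0) (XT.lf (nat_lit 0) (nat_lit 8089921153) (nat_lit 152) (nat_lit 51957384763) (nat_lit 0) (nat_lit 2584441497) (nat_lit 2) (nat_lit 5) (nat_lit 4) (nat_lit 4) (nat_lit 2) (nat_lit 4) (nat_lit 387) (nat_lit 210) (nat_lit 183)) (XT.nd (nat_lit 78) (nat_lit 0) (nat_lit 0) (XT.lf (nat_lit 0) (nat_lit 10165080094) (nat_lit 152) (nat_lit 49751424738) (nat_lit 0) (nat_lit 4528301642) (nat_lit 2) (nat_lit 5) (nat_lit 4) (nat_lit 4) (nat_lit 2) (nat_lit 4) (nat_lit 388) (nat_lit 210) (nat_lit 182)) (XT.lf (nat_lit 0) (nat_lit 12273288094) (nat_lit 152) (nat_lit 47530836421) (nat_lit 0) (nat_lit 6509035083) (nat_lit 2) (nat_lit 5) (nat_lit 4) (nat_lit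 4) (nat_lit 2) (nat_lit 4) (nat_lit 389) (nat_lit 210) (nat_lit 181))))) (XT.nd (nat_lit 234) (nat_lit 0) (nat_lit 0) (XT.nd (nat_lit 78) (nat_lit 0) (nat_lit 0) (XT.lf (nat_lit 0) (nat_lit 14416387277) (nat_lit 152) (nat_lit 45293679492) (nat_lit 0) (nat_lit 8528372557) (nat_lit 2) (nat_lit 5) (nat_lit 4) (nat_lit 4) (nat_lit 2) (nat_lit 4) (nat_lit 390) (nat_lit 210) (nat_lit 180)) (XT.nd (nat_lit 78) (nat_lit 0) (nat_lit 0) (XT.lf (nat_lit 0) (nat_lit 16596250253) (nat_lit 152) (nat_lit 43037999153) (nat_lit 0) (nat_lit 10588078535) (nat_lit 2) (nat_lit 5) (nat_lit 4) (nat_lit 4) (nat_lit 2) (nat_lit 4) (nat_lit 391) (nat_lit 210) (nat_lit 179)) (XT.lf (nat_lit 0) (nat_lit 18814781757) (nat_lit 152) (nat_lit 40761824421) (nat_lit 0) (nat_lit 12689952759) (nat_lit 2) (nat_lit 5) (nat_lit 4) (nat_lit 4) (nat_lit 2) (nat_lit 4) (nat_lit 392) (nat_lit 210) (nat_lit 178)))) (XT.nd (nat_lit 78)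 (nat_lit 0) (nat_lit 0) (XT.lf (nat_lit 0) (nat_lit 21073920312) (nat_lit 152) (nat_lit 38463166407) (nat_lit 0) (nat_lit 14835831819) (nat_lit 2) (nat_lit 5) (nat_lit 4) (nat_lit 4) (nat_lit 2) (nat_lit 4) (nat_lit 393) (nat_lit 210) (nat_lit 177)) (XT.nd (nat_lit 78) (nat_lit 0) (nat_lit 0) (XT.lf (nat_lit 0) (nat_lit 23375639922) (nat_lit 152) (nat_lit 36140016573) (nat_lit 0) (nat_lit 17027590754) (nat_lit 2) (nat_lit 5) (nat_lit 4) (nat_lit 4) (nat_lit 2) (nat_lit 4) (nat_lit 394) (nat_lit 210) (nat_lit 176)) (XT.lf (nat_lit 0) (nat_lit 25721951799) (nat_lit 152) (nat_lit 33790344983) (nat_lit 0) (nat_lit 19267144694) (nat_lit 2) (nat_lit 5) (nat_lit 4) (nat_lit 4) (nat_lit 2) (nat_lit 4) (nat_lit 395) (nat_lit 210) (nat_lit 175))))))))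
noncomputable def xc11 : XT := (XT.nd (nat_lit 38844) (nat_lit 0) (nat_lit 0) (XT.nd (nat_lit 37908) (nat_lit 0) (nat_lit 228) (XT.nd (nat_lit 390) (nat_lit 0) (nat_lit 0) (XT.nd (nat_lit 156) (nat_lit 0) (nat_lit 0) (XT.nd (nat_lit 78) (nat_lit 0) (nat_lit 0) (XT.lf (nat_lit 0) (nat_lit 28114906117) (nat_lit 152) (nat_lit 31412098527) (nat_lit 0) (nat_lit 21556450531) (nat_lit 2) (nat_lit 5) (nat_lit 4) (nat_lit 4) (nat_lit 2) (nat_lit 4) (nat_lit 396) (nat_lit 210) (nat_lit 174)) (XT.lf (nat_lit 0) (nat_lit 30556593809) (nat_lit 152) (nat_lit 29003199123) (nat_lit 0) (nat_lit 23897508628) (nat_lit 2) (nat_lit 5) (nat_lit 4) (nat_lit 4) (nat_lit 2) (nat_lit 4) (nat_lit 397) (nat_lit 210) (nat_lit 173))) (XT.nd (nat_lit 78) (nat_lit 0) (nat_lit 0) (XT.lf (nat_lit 0) (nat_lit 33049148387) (nat_lit 152) (nat_lit 26561541910) (nat_lit 0) (nat_lit 26292364571) (nat_lit 2) (nat_lit 5) (nat_lit 4)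 (nat_lit 4) (nat_lit 2) (nat_lit 4) (nat_lit 398) (nat_lit 210) (nat_lit 172)) (XT.nd (nat_lit 78) (nat_lit 0) (nat_lit 0) (XT.lf (nat_lit 0) (nat_lit 35594747812) (nat_lit 152) (nat_lit 24084993401) (nat_lit 0) (nat_lit 28743110952) (nat_lit 2) (nat_lit 5) (nat_lit 4) (nat_lit 4) (nat_lit 2) (nat_lit 4) (nat_lit 399) (nat_lit 210) (nat_lit 171)) (XT.lf (nat_lit 0) (nat_lit 38195616394) (nat_lit 152) (nat_lit 21571389619) (nat_lit 0) (nat_lit 31251889200) (nat_lit 2) (nat_lit 5) (nat_lit 4) (nat_lit 4) (nat_lit 2) (nat_lit 4) (nat_lit 400) (nat_lit 210) (nat_lit 170))))) (XT.nd (nat_lit 37284) (nat_lit 0) (nat_lit 380) (XT.nd (nat_lit 78) (nat_lit 0) (nat_lit 0) (XT.lf (nat_lit 0) (nat_lit 40854026737) (nat_lit 152) (nat_lit 19018534214) (nat_lit 0) (nat_lit 33820891451) (nat_lit 2) (nat_lit 5) (nat_lit 4) (nat_lit 4) (nat_lit 2) (nat_lit 4) (nat_lit 401) (nat_lit 210) (nat_lit 169)) (XT.nd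 (nat_lit 78) (nat_lit 0) (nat_lit 0) (XT.lf (nat_lit 0) (nat_lit 43572301723) (nat_lit 152) (nat_lit 16424196535) (nat_lit 0) (nat_lit 36452362465) (nat_lit 2) (nat_lit 5) (nat_lit 4) (nat_lit 4) (nat_lit 2) (nat_lit 4) (nat_lit 402) (nat_lit 210) (nat_lit 168)) (XT.lf (nat_lit 0) (nat_lit 46352816544) (nat_lit 152) (nat_lit 13786109683) (nat_lit 0) (nat_lit 39148601585) (nat_lit 2) (nat_lit 5) (nat_lit 4) (nat_lit 4) (nat_lit 2) (nat_lit 4) (nat_lit 403) (nat_lit 210) (nat_lit 167)))) (XT.nd (nat_lit 78) (nat_lit 76) (nat_lit 0) (XT.lf (nat_lit 0) (nat_lit 6330607381) (nat_lit 152) (nat_lit 1423886958) (nat_lit 0) (nat_lit 6330607381) (nat_lit 8) (nat_lit 5) (nat_lit 10) (nat_lit 4) (nat_lit 8) (nat_lit 4) (nat_lit 358) (nat_lit 211) (nat_lit 211)) (XT.nd (nat_lit 78) (nat_lit 0) (nat_lit 0) (XT.lf (nat_lit 0) (nat_lit 2474389783) (nat_lit 76) (nat_lit 13381028292) (nat_lit 76) (nat_lit 13062331651)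 (nat_lit 7) (nat_lit 4) (nat_lit 8) (nat_lit 5) (nat_lit 8) (nat_lit 4) (nat_lit 359) (nat_lit 211) (nat_lit 210)) (XT.lf (nat_lit 0) (nat_lit 7908979833) (nat_lit 76) (nat_lit 11203946231) (nat_lit 76) (nat_lit 10575835376) (nat_lit 7) (nat_lit 4) (nat_lit 8) (nat_lit 5) (nat_lit 8) (nat_lit 4) (nat_lit 360) (nat_lit 211) (nat_lit 209)))))) (XT.nd (nat_lit 468) (nat_lit 0) (nat_lit 0) (XT.nd (nat_lit 234) (nat_lit 152) (nat_lit 0) (XT.nd (nat_lit 78) (nat_lit 0) (nat_lit 0) (XT.lf (nat_lit 0) (nat_lit 13404068617) (nat_lit 76) (nat_lit 9004597126) (nat_lit 76) (nat_lit 8076084121) (nat_lit 7) (nat_lit 4) (nat_lit 8) (nat_lit 5) (nat_lit 8) (nat_lit 4) (nat_lit 361) (nat_lit 211) (nat_lit 208)) (XT.nd (nat_lit 78) (nat_lit 0) (nat_lit 0) (XT.lf (nat_lit 0) (nat_lit 18964457670) (nat_lit 76) (nat_lit 6781059214) (nat_lit 76) (nat_lit 5560893637) (nat_lit 7) (nat_lit 4) (nat_lit 8) (nat_lit 5)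 (nat_lit 8) (nat_lit 4) (nat_lit 362) (nat_lit 211) (nat_lit 207)) (XT.lf (nat_lit 0) (nat_lit 24595005583) (nat_lit 76) (nat_lit 4531389600) (nat_lit 76) (nat_lit 3028066184) (nat_lit 7) (nat_lit 4) (nat_lit 8) (nat_lit 5) (nat_lit 8) (nat_lit 4) (nat_lit 363) (nat_lit 211) (nat_lit 206)))) (XT.nd (nat_lit 78) (nat_lit 152) (nat_lit 0) (XT.lf (nat_lit 0) (nat_lit 30300632253) (nat_lit 76) (nat_lit 2253622551) (nat_lit 76) (nat_lit 475388614) (nat_lit 7) (nat_lit 4) (nat_lit 8) (nat_lit 5) (nat_lit 8) (nat_lit 4) (nat_lit 364) (nat_lit 211) (nat_lit 205)) (XT.nd (nat_lit 78) (nat_lit 0) (nat_lit 0) (XT.lf (nat_lit 0) (nat_lit 2080247411) (nat_lit 152) (nat_lit 31756536087) (nat_lit 0) (nat_lit 94677162) (nat_lit 5) (nat_lit 5) (nat_lit 7) (nat_lit 4) (nat_lit 5) (nat_lit 4) (nat_lit 365) (nat_lit 211) (nat_lit 204)) (XT.lf (nat_lit 0) (nat_lit 4700012997) (nat_lit 152) (nat_lit 27697458630)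 (nat_lit 0) (nat_lit 2462860676) (nat_lit 5) (nat_lit 5) (nat_lit 7) (nat_lit 4) (nat_lit 5) (nat_lit 4) (nat_lit 366) (nat_lit 211) (nat_lit 203))))) (XT.nd (nat_lit 234) (nat_lit 0) (nat_lit 0) (XT.nd (nat_lit 78) (nat_lit 0) (nat_lit 0) (XT.lf (nat_lit 0) (nat_lit 7346790692) (nat_lit 152) (nat_lit 23606492943) (nat_lit 0) (nat_lit 4865383933) (nat_lit 5) (nat_lit 5) (nat_lit 7) (nat_lit 4) (nat_lit 5) (nat_lit 4) (nat_lit 367) (nat_lit 211) (nat_lit 202)) (XT.nd (nat_lit 78) (nat_lit 0) (nat_lit 0) (XT.lf (nat_lit 0) (nat_lit 10022893214) (nat_lit 152) (nat_lit 19480064396) (nat_lit 0) (nat_lit 7304346225) (nat_lit 5) (nat_lit 5) (nat_lit 7) (nat_lit 4) (nat_lit 5) (nat_lit 4) (nat_lit 368) (nat_lit 211) (nat_lit 201)) (XT.lf (nat_lit 0) (nat_lit 12730658907) (nat_lit 152) (nat_lit 15314567373) (nat_lit 0) (nat_lit 9781878683) (nat_lit 5) (nat_lit 5) (nat_lit 7) (nat_lit 4) (nat_lit 5) (nat_lit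 4) (nat_lit 369) (nat_lit 211) (nat_lit 200)))) (XT.nd (nat_lit 78) (nat_lit 0) (nat_lit 0) (XT.lf (nat_lit 0) (nat_lit 15472453777) (nat_lit 152) (nat_lit 11106362118) (nat_lit 0) (nat_lit 12300146142) (nat_lit 5) (nat_lit 5) (nat_lit 7) (nat_lit 4) (nat_lit 5) (nat_lit 4) (nat_lit 370) (nat_lit 211) (nat_lit 199)) (XT.nd (nat_lit 78) (nat_lit 0) (nat_lit 0) (XT.lf (nat_lit 0) (nat_lit 18250673570) (nat_lit 152) (nat_lit 6851771560) (nat_lit 0) (nat_lit 14861349030) (nat_lit 5) (nat_lit 5) (nat_lit 7) (nat_lit 4) (nat_lit 5) (nat_lit 4) (nat_lit 371) (nat_lit 211) (nat_lit 198)) (XT.lf (nat_lit 0) (nat_lit 21067745854) (nat_lit 152) (nat_lit 2547078093) (nat_lit 0) (nat_lit 17467725290) (nat_lit 5) (nat_lit 5) (nat_lit 7) (nat_lit 4) (nat_lit 5) (nat_lit 4) (nat_lit 372) (nat_lit 211) (nat_lit 197))))))) (XT.nd (nat_lit 858) (nat_lit 152) (nat_lit 0) (XT.nd (nat_lit 390) (nat_lit 0) (nat_lit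 0) (XT.nd (nat_lit 156) (nat_lit 0) (nat_lit 0) (XT.nd (nat_lit 78) (nat_lit 0) (nat_lit 0) (XT.lf (nat_lit 0) (nat_lit 1847531659) (nat_lit 76) (nat_lit 22096360095) (nat_lit 76) (nat_lit 18291780285) (nat_lit 4) (nat_lit 4) (nat_lit 5) (nat_lit 5) (nat_lit 5) (nat_lit 4) (nat_lit 373) (nat_lit 211) (nat_lit 196)) (XT.lf (nat_lit 0) (nat_lit 6351653801) (nat_lit 76) (nat_lit 20537732258) (nat_lit 76) (nat_lit 16534551238) (nat_lit 4) (nat_lit 4) (nat_lit 5) (nat_lit 5) (nat_lit 5) (nat_lit 4) (nat_lit 374) (nat_lit 211) (nat_lit 195))) (XT.nd (nat_lit 78) (nat_lit 0) (nat_lit 0) (XT.lf (nat_lit 0) (nat_lit 10918532122) (nat_lit 76) (nat_lit 18963299024) (nat_lit 76) (nat_lit 14767301295) (nat_lit 4) (nat_lit 4) (nat_lit 5) (nat_lit 5) (nat_lit 5) (nat_lit 4) (nat_lit 375) (nat_lit 211) (nat_lit 194)) (XT.nd (nat_lit 78) (nat_lit 0) (nat_lit 0) (XT.lf (nat_lit 0) (nat_lit 15552157099) (nat_lit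 76) (nat_lit 17371684674) (nat_lit 76) (nat_lit 12988486257) (nat_lit 4) (nat_lit 4) (nat_lit 5) (nat_lit 5) (nat_lit 5) (nat_lit 4) (nat_lit 376) (nat_lit 211) (nat_lit 193)) (XT.lf (nat_lit 0) (nat_lit 20256577531) (nat_lit 76) (nat_lit 15761498478) (nat_lit 76) (nat_lit 11196551819) (nat_lit 4) (nat_lit 4) (nat_lit 5) (nat_lit 5) (nat_lit 5) (nat_lit 4) (nat_lit 377) (nat_lit 211) (nat_lit 192))))) (XT.nd (nat_lit 234) (nat_lit 0) (nat_lit 0) (XT.nd (nat_lit 78) (nat_lit 0) (nat_lit 0) (XT.lf (nat_lit 0) (nat_lit 25035904076) (nat_lit 76) (nat_lit 14131333476) (nat_lit 76) (nat_lit 9389932215) (nat_lit 4) (nat_lit 4) (nat_lit 5) (nat_lit 5) (nat_lit 5) (nat_lit 4) (nat_lit 378) (nat_lit 211) (nat_lit 191)) (XT.nd (nat_lit 78) (nat_lit 0) (nat_lit 0) (XT.lf (nat_lit 0) (nat_lit 29894312845) (nat_lit 76) (nat_lit 12479765253) (nat_lit 76) (nat_lit 7567048843) (nat_lit 4) (nat_lit 4) (nat_lit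 5) (nat_lit 5) (nat_lit 5) (nat_lit 4) (nat_lit 379) (nat_lit 211) (nat_lit 190)) (XT.lf (nat_lit 0) (nat_lit 34836049050) (nat_lit 76) (nat_lit 10805350691) (nat_lit 76) (nat_lit 5726308894) (nat_lit 4) (nat_lit 4) (nat_lit 5) (nat_lit 5) (nat_lit 5) (nat_lit 4) (nat_lit 380) (nat_lit 211) (nat_lit 189)))) (XT.nd (nat_lit 78) (nat_lit 0) (nat_lit 0) (XT.lf (nat_lit 0) (nat_lit 39865430711) (nat_lit 76) (nat_lit 9106626709) (nat_lit 76) (nat_lit 3866103954) (nat_lit 4) (nat_lit 4) (nat_lit 5) (nat_lit 5) (nat_lit 5) (nat_lit 4) (nat_lit 381) (nat_lit 211) (nat_lit 188)) (XT.nd (nat_lit 78) (nat_lit 0) (nat_lit 0) (XT.lf (nat_lit 0) (nat_lit 44986852436) (nat_lit 76) (nat_lit 7382108985) (nat_lit 76) (nat_lit 1984808600) (nat_lit 4) (nat_lit 4) (nat_lit 5) (nat_lit 5) (nat_lit 5) (nat_lit 4) (nat_lit 382) (nat_lit 211) (nat_lit 187)) (XT.lf (nat_lit 0) (nat_lit 50204789251) (nat_lit 76) (nat_lit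 5630290658) (nat_lit 76) (nat_lit 80778984) (nat_lit 4) (nat_lit 4) (nat_lit 5) (nat_lit 5) (nat_lit 5) (nat_lit 4) (nat_lit 383) (nat_lit 211) (nat_lit 186)))))) (XT.nd (nat_lit 468) (nat_lit 0) (nat_lit 0) (XT.nd (nat_lit 234) (nat_lit 0) (nat_lit 0) (XT.nd (nat_lit 78) (nat_lit 76) (nat_lit 0) (XT.lf (nat_lit 0) (nat_lit 1811594331) (nat_lit 152) (nat_lit 2019753132) (nat_lit 76) (nat_lit 53693912638) (nat_lit 3) (nat_lit 5) (nat_lit 5) (nat_lit 5) (nat_lit 4) (nat_lit 4) (nat_lit 384) (nat_lit 211) (nat_lit 185)) (XT.nd (nat_lit 78) (nat_lit 0) (nat_lit 0) (XT.lf (nat_lit 0) (nat_lit 1761377204) (nat_lit 76) (nat_lit 1983519628) (nat_lit 152) (nat_lit 55438477616) (nat_lit 2) (nat_lit 5) (nat_lit 3) (nat_lit 5) (nat_lit 4) (nat_lit 4) (nat_lit 385) (nat_lit 211) (nat_lit 184)) (XT.lf (nat_lit 0) (nat_lit 5643382002) (nat_lit 76) (nat_lit 82450638) (nat_lit 152) (nat_lit 55165738266) (nat_lit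 2) (nat_lit 5) (nat_lit 3) (nat_lit 5) (nat_lit 4) (nat_lit 4) (nat_lit 386) (nat_lit 211) (nat_lit 183)))) (XT.nd (nat_lit 78) (nat_lit 0) (nat_lit 0) (XT.lf (nat_lit 0) (nat_lit 7754144543) (nat_lit 152) (nat_lit 53080293238) (nat_lit 0) (nat_lit 1816963941) (nat_lit 2) (nat_lit 5) (nat_lit 4) (nat_lit 4) (nat_lit 2) (nat_lit 4) (nat_lit 387) (nat_lit 211) (nat_lit 182)) (XT.nd (nat_lit 78) (nat_lit 0) (nat_lit 0) (XT.lf (nat_lit 0) (nat_lit 9814916435) (nat_lit 152) (nat_lit 50899727552) (nat_lit 0) (nat_lit 3750261274) (nat_lit 2) (nat_lit 5) (nat_lit 4) (nat_lit 4) (nat_lit 2) (nat_lit 4) (nat_lit 388) (nat_lit 211) (nat_lit 181)) (XT.lf (nat_lit 0) (nat_lit 11909156426) (nat_lit 152) (nat_lit 48703793933) (nat_lit 0) (nat_lit 5720739557) (nat_lit 2) (nat_lit 5) (nat_lit 4) (nat_lit 4) (nat_lit 2) (nat_lit 4) (nat_lit 389) (nat_lit 211) (nat_lit 180))))) (XT.nd (nat_lit 234) (nat_lit 0)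 (nat_lit 0) (XT.nd (nat_lit 78) (nat_lit 0) (nat_lit 0) (XT.lf (nat_lit 0) (nat_lit 14038694436) (nat_lit 152) (nat_lit 46490573604) (nat_lit 0) (nat_lit 7730120568) (nat_lit 2) (nat_lit 5) (nat_lit 4) (nat_lit 4) (nat_lit 2) (nat_lit 4) (nat_lit 390) (nat_lit 211) (nat_lit 179)) (XT.nd (nat_lit 78) (nat_lit 0) (nat_lit 0) (XT.lf (nat_lit 0) (nat_lit 16205391224) (nat_lit 152) (nat_lit 44258132683) (nat_lit 0) (nat_lit 9780160076) (nat_lit 2) (nat_lit 5) (nat_lit 4) (nat_lit 4) (nat_lit 2) (nat_lit 4) (nat_lit 391) (nat_lit 211) (nat_lit 178)) (XT.lf (nat_lit 0) (nat_lit 18411140021) (nat_lit 152) (nat_lit 42004520492) (nat_lit 0) (nat_lit 11872649379) (nat_lit 2) (nat_lit 5) (nat_lit 4) (nat_lit 4) (nat_lit 2) (nat_lit 4) (nat_lit 392) (nat_lit 211) (nat_lit 177)))) (XT.nd (nat_lit 78) (nat_lit 0) (nat_lit 0) (XT.lf (nat_lit 0) (nat_lit 20657868182) (nat_lit 152) (nat_lit 39727767858) (nat_lit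 0) (nat_lit 14009416864) (nat_lit 2) (nat_lit 5) (nat_lit 4) (nat_lit 4) (nat_lit 2) (nat_lit 4) (nat_lit 393) (nat_lit 211) (nat_lit 176)) (XT.nd (nat_lit 78) (nat_lit 0) (nat_lit 0) (XT.lf (nat_lit 0) (nat_lit 22947538865) (nat_lit 152) (nat_lit 37425885383) (nat_lit 0) (nat_lit 16192329610) (nat_lit 2) (nat_lit 5) (nat_lit 4) (nat_lit 4) (nat_lit 2) (nat_lit 4) (nat_lit 394) (nat_lit 211) (nat_lit 175)) (XT.lf (nat_lit 0) (nat_lit 25282152754) (nat_lit 152) (nat_lit 35096861715) (nat_lit 0) (nat_lit 18423295017) (nat_lit 2) (nat_lit 5) (nat_lit 4) (nat_lit 4) (nat_lit 2) (nat_lit 4) (nat_lit 395) (nat_lit 211) (nat_lit 174))))))))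
noncomputable def xc12 : XT := (XT.nd (nat_lit 38610) (nat_lit 0) (nat_lit 0) (XT.nd (nat_lit 37752) (nat_lit 0) (nat_lit 228) (XT.nd (nat_lit 390) (nat_lit 0) (nat_lit 0) (XT.nd (nat_lit 156) (nat_lit 0) (nat_lit 0) (XT.nd (nat_lit 78) (nat_lit 0) (nat_lit 0) (XT.lf (nat_lit 0) (nat_lit 27663749804) (nat_lit 152) (nat_lit 32738661784) (nat_lit 0) (nat_lit 20704262473) (nat_lit 2) (nat_lit 5) (nat_lit 4) (nat_lit 4) (nat_lit 2) (nat_lit 4) (nat_lit 396) (nat_lit 211) (nat_lit 173)) (XT.lf (nat_lit 0) (nat_lit 30094411020) (nat_lit 152) (nat_lit 30349225027) (nat_lit 0) (nat_lit 23037225054) (nat_lit 2) (nat_lit 5) (nat_lit 4) (nat_lit 4) (nat_lit 2) (nat_lit 4) (nat_lit 397) (nat_lit 211) (nat_lit 172))) (XT.nd (nat_lit 78) (nat_lit 0) (nat_lit 0) (XT.lf (nat_lit 0) (nat_lit 32576260283) (nat_lit 152) (nat_lit 27926463588) (nat_lit 0) (nat_lit 25424221273) (nat_lit 2) (nat_lit 5) (nat_lit 4)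 (nat_lit 4) (nat_lit 2) (nat_lit 4) (nat_lit 398) (nat_lit 211) (nat_lit 171)) (XT.nd (nat_lit 78) (nat_lit 0) (nat_lit 0) (XT.lf (nat_lit 0) (nat_lit 35111466198) (nat_lit 152) (nat_lit 25468260489) (nat_lit 0) (nat_lit 27867336853) (nat_lit 2) (nat_lit 5) (nat_lit 4) (nat_lit 4) (nat_lit 2) (nat_lit 4) (nat_lit 399) (nat_lit 211) (nat_lit 170)) (XT.lf (nat_lit 0) (nat_lit 37702243993) (nat_lit 152) (nat_lit 22972467786) (nat_lit 0) (nat_lit 30368706557) (nat_lit 2) (nat_lit 5) (nat_lit 4) (nat_lit 4) (nat_lit 2) (nat_lit 4) (nat_lit 400) (nat_lit 211) (nat_lit 169))))) (XT.nd (nat_lit 37128) (nat_lit 0) (nat_lit 456) (XT.nd (nat_lit 78) (nat_lit 0) (nat_lit 0) (XT.lf (nat_lit 0) (nat_lit 40350857456) (nat_lit 152) (nat_lit 20436904690) (nat_lit 0) (nat_lit 32930516048) (nat_lit 2) (nat_lit 5) (nat_lit 4) (nat_lit 4) (nat_lit 2) (nat_lit 4) (nat_lit 401) (nat_lit 211) (nat_lit 168)) (XT.nd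 (nat_lit 78) (nat_lit 0) (nat_lit 0) (XT.lf (nat_lit 0) (nat_lit 43059620907) (nat_lit 152) (nat_lit 17859355660) (nat_lit 0) (nat_lit 35555003798) (nat_lit 2) (nat_lit 5) (nat_lit 4) (nat_lit 4) (nat_lit 2) (nat_lit 4) (nat_lit 402) (nat_lit 211) (nat_lit 167)) (XT.lf (nat_lit 0) (nat_lit 45830901229) (nat_lit 152) (nat_lit 15237568469) (nat_lit 0) (nat_lit 38244463051) (nat_lit 2) (nat_lit 5) (nat_lit 4) (nat_lit 4) (nat_lit 2) (nat_lit 4) (nat_lit 403) (nat_lit 211) (nat_lit 166)))) (XT.nd (nat_lit 78) (nat_lit 0) (nat_lit 0) (XT.lf (nat_lit 0) (nat_lit 3386812874) (nat_lit 152) (nat_lit 6597908479) (nat_lit 0) (nat_lit 3386812874) (nat_lit 8) (nat_lit 5) (nat_lit 10) (nat_lit 4) (nat_lit 8) (nat_lit 4) (nat_lit 356) (nat_lit 212) (nat_lit 212)) (XT.nd (nat_lit 78) (nat_lit 0) (nat_lit 0) (XT.lf (nat_lit 0) (nat_lit 9851133489) (nat_lit 152) (nat_lit 8071599426) (nat_lit 0) (nat_lit 9522875949)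 (nat_lit 8) (nat_lit 5) (nat_lit 10) (nat_lit 4) (nat_lit 8) (nat_lit 4) (nat_lit 357) (nat_lit 212) (nat_lit 211)) (XT.lf (nat_lit 0) (nat_lit 12958895449) (nat_lit 152) (nat_lit 2900316198) (nat_lit 0) (nat_lit 12311941268) (nat_lit 8) (nat_lit 5) (nat_lit 10) (nat_lit 4) (nat_lit 8) (nat_lit 4) (nat_lit 358) (nat_lit 212) (nat_lit 210)))))) (XT.nd (nat_lit 390) (nat_lit 152) (nat_lit 0) (XT.nd (nat_lit 156) (nat_lit 0) (nat_lit 0) (XT.nd (nat_lit 78) (nat_lit 0) (nat_lit 0) (XT.lf (nat_lit 0) (nat_lit 2368774647) (nat_lit 76) (nat_lit 13753622611) (nat_lit 76) (nat_lit 12797254216) (nat_lit 7) (nat_lit 4) (nat_lit 8) (nat_lit 5) (nat_lit 8) (nat_lit 4) (nat_lit 359) (nat_lit 212) (nat_lit 209)) (XT.lf (nat_lit 0) (nat_lit 7752852891) (nat_lit 76) (nat_lit 11597745190) (nat_lit 76) (nat_lit 10340974645) (nat_lit 7) (nat_lit 4) (nat_lit 8) (nat_lit 5) (nat_lit 8) (nat_lit 4) (nat_lit 360) (nat_lit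 212) (nat_lit 208))) (XT.nd (nat_lit 78) (nat_lit 0) (nat_lit 0) (XT.lf (nat_lit 0) (nat_lit 13198901086) (nat_lit 76) (nat_lit 9418983112) (nat_lit 76) (nat_lit 7870559995) (nat_lit 7) (nat_lit 4) (nat_lit 8) (nat_lit 5) (nat_lit 8) (nat_lit 4) (nat_lit 361) (nat_lit 212) (nat_lit 207)) (XT.nd (nat_lit 78) (nat_lit 0) (nat_lit 0) (XT.lf (nat_lit 0) (nat_lit 18711677917) (nat_lit 76) (nat_lit 7215432607) (nat_lit 76) (nat_lit 5383851652) (nat_lit 7) (nat_lit 4) (nat_lit 8) (nat_lit 5) (nat_lit 8) (nat_lit 4) (nat_lit 362) (nat_lit 212) (nat_lit 206)) (XT.lf (nat_lit 0) (nat_lit 24296000371) (nat_lit 76) (nat_lit 4985168241) (nat_lit 76) (nat_lit 2878676763) (nat_lit 7) (nat_lit 4) (nat_lit 8) (nat_lit 5) (nat_lit 8) (nat_lit 4) (nat_lit 363) (nat_lit 212) (nat_lit 205))))) (XT.nd (nat_lit 234) (nat_lit 0) (nat_lit 0) (XT.nd (nat_lit 78) (nat_lit 152) (nat_lit 0) (XT.lf (nat_lit 0) (nat_lit 29956747956)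 (nat_lit 76) (nat_lit 2726241239) (nat_lit 76) (nat_lit 352846342) (nat_lit 7) (nat_lit 4) (nat_lit 8) (nat_lit 5) (nat_lit 8) (nat_lit 4) (nat_lit 364) (nat_lit 212) (nat_lit 204)) (XT.nd (nat_lit 78) (nat_lit 0) (nat_lit 0) (XT.lf (nat_lit 0) (nat_lit 1772651866) (nat_lit 76) (nat_lit 397385717) (nat_lit 152) (nat_lit 31768516076) (nat_lit 5) (nat_lit 5) (nat_lit 6) (nat_lit 5) (nat_lit 7) (nat_lit 4) (nat_lit 365) (nat_lit 212) (nat_lit 203)) (XT.lf (nat_lit 0) (nat_lit 4760573965) (nat_lit 152) (nat_lit 28147282301) (nat_lit 0) (nat_lit 1960470566) (nat_lit 5) (nat_lit 5) (nat_lit 7) (nat_lit 4) (nat_lit 5) (nat_lit 4) (nat_lit 366) (nat_lit 212) (nat_lit 202)))) (XT.nd (nat_lit 78) (nat_lit 0) (nat_lit 0) (XT.lf (nat_lit 0) (nat_lit 7382682447) (nat_lit 152) (nat_lit 24099304846) (nat_lit 0) (nat_lit 4345438817) (nat_lit 5) (nat_lit 5) (nat_lit 7) (nat_lit 4) (nat_lit 5) (nat_lit 4) (nat_lit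 367) (nat_lit 212) (nat_lit 201)) (XT.nd (nat_lit 78) (nat_lit 0) (nat_lit 0) (XT.lf (nat_lit 0) (nat_lit 10034834277) (nat_lit 152) (nat_lit 20014612447) (nat_lit 0) (nat_lit 6767357413) (nat_lit 5) (nat_lit 5) (nat_lit 7) (nat_lit 4) (nat_lit 5) (nat_lit 4) (nat_lit 368) (nat_lit 212) (nat_lit 200)) (XT.lf (nat_lit 0) (nat_lit 12719346870) (nat_lit 152) (nat_lit 15889635956) (nat_lit 0) (nat_lit 9228342594) (nat_lit 5) (nat_lit 5) (nat_lit 7) (nat_lit 4) (nat_lit 5) (nat_lit 4) (nat_lit 369) (nat_lit 212) (nat_lit 199))))))) (XT.nd (nat_lit 858) (nat_lit 152) (nat_lit 0) (XT.nd (nat_lit 390) (nat_lit 0) (nat_lit 0) (XT.nd (nat_lit 156) (nat_lit 76) (nat_lit 0) (XT.nd (nat_lit 78) (nat_lit 0) (nat_lit 0) (XT.lf (nat_lit 0) (nat_lit 15438565915) (nat_lit 152) (nat_lit 11720771023) (nat_lit 0) (nat_lit 11730544735) (nat_lit 5) (nat_lit 5) (nat_lit 7) (nat_lit 4) (nat_lit 5) (nat_lit 4) (nat_lit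 370) (nat_lit 212) (nat_lit 198)) (XT.lf (nat_lit 0) (nat_lit 18194867431) (nat_lit 152) (nat_lit 7504374951) (nat_lit 0) (nat_lit 14276150227) (nat_lit 5) (nat_lit 5) (nat_lit 7) (nat_lit 4) (nat_lit 5) (nat_lit 4) (nat_lit 371) (nat_lit 212) (nat_lit 197))) (XT.nd (nat_lit 78) (nat_lit 76) (nat_lit 0) (XT.lf (nat_lit 0) (nat_lit 20990659835) (nat_lit 152) (nat_lit 3236763512) (nat_lit 0) (nat_lit 16867383384) (nat_lit 5) (nat_lit 5) (nat_lit 7) (nat_lit 4) (nat_lit 5) (nat_lit 4) (nat_lit 372) (nat_lit 212) (nat_lit 196)) (XT.nd (nat_lit 78) (nat_lit 0) (nat_lit 0) (XT.lf (nat_lit 0) (nat_lit 1107401672) (nat_lit 76) (nat_lit 22731629404) (nat_lit 76) (nat_lit 18409751743) (nat_lit 4) (nat_lit 4) (nat_lit 5) (nat_lit 5) (nat_lit 5) (nat_lit 4) (nat_lit 373) (nat_lit 212) (nat_lit 195)) (XT.lf (nat_lit 0) (nat_lit 5575874806) (nat_lit 76) (nat_lit 21188249566) (nat_lit 76) (nat_lit 16673555196)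 (nat_lit 4) (nat_lit 4) (nat_lit 5) (nat_lit 5) (nat_lit 5) (nat_lit 4) (nat_lit 374) (nat_lit 212) (nat_lit 194))))) (XT.nd (nat_lit 234) (nat_lit 0) (nat_lit 0) (XT.nd (nat_lit 78) (nat_lit 0) (nat_lit 0) (XT.lf (nat_lit 0) (nat_lit 10108142440) (nat_lit 76) (nat_lit 19628620214) (nat_lit 76) (nat_lit 14926725156) (nat_lit 4) (nat_lit 4) (nat_lit 5) (nat_lit 5) (nat_lit 5) (nat_lit 4) (nat_lit 375) (nat_lit 212) (nat_lit 193)) (XT.nd (nat_lit 78) (nat_lit 0) (nat_lit 0) (XT.lf (nat_lit 0) (nat_lit 14708164809) (nat_lit 76) (nat_lit 18051378566) (nat_lit 76) (nat_lit 13167735267) (nat_lit 4) (nat_lit 4) (nat_lit 5) (nat_lit 5) (nat_lit 5) (nat_lit 4) (nat_lit 376) (nat_lit 212) (nat_lit 192)) (XT.lf (nat_lit 0) (nat_lit 19379961350) (nat_lit 76) (nat_lit 16455146449) (nat_lit 76) (nat_lit 11395048547) (nat_lit 4) (nat_lit 4) (nat_lit 5) (nat_lit 5) (nat_lit 5) (nat_lit 4) (nat_lit 377) (nat_lit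 212) (nat_lit 191)))) (XT.nd (nat_lit 78) (nat_lit 0) (nat_lit 0) (XT.lf (nat_lit 0) (nat_lit 24127614214) (nat_lit 76) (nat_lit 14838529097) (nat_lit 76) (nat_lit 9607116046) (nat_lit 4) (nat_lit 4) (nat_lit 5) (nat_lit 5) (nat_lit 5) (nat_lit 4) (nat_lit 378) (nat_lit 212) (nat_lit 190)) (XT.nd (nat_lit 78) (nat_lit 0) (nat_lit 0) (XT.lf (nat_lit 0) (nat_lit 28955271836) (nat_lit 76) (nat_lit 13200113932) (nat_lit 76) (nat_lit 7802375494) (nat_lit 4) (nat_lit 4) (nat_lit 5) (nat_lit 5) (nat_lit 5) (nat_lit 4) (nat_lit 379) (nat_lit 212) (nat_lit 189)) (XT.lf (nat_lit 0) (nat_lit 33867152559) (nat_lit 76) (nat_lit 11538469328) (nat_lit 76) (nat_lit 5979249933) (nat_lit 4) (nat_lit 4) (nat_lit 5) (nat_lit 5) (nat_lit 5) (nat_lit 4) (nat_lit 380) (nat_lit 212) (nat_lit 188)))))) (XT.nd (nat_lit 468) (nat_lit 0) (nat_lit 0) (XT.nd (nat_lit 234) (nat_lit 152) (nat_lit 0) (XT.nd (nat_lit 78) (nat_lit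 0) (nat_lit 0) (XT.lf (nat_lit 0) (nat_lit 38867548315) (nat_lit 76) (nat_lit 9852143365) (nat_lit 76) (nat_lit 4136146339) (nat_lit 4) (nat_lit 4) (nat_lit 5) (nat_lit 5) (nat_lit 5) (nat_lit 4) (nat_lit 381) (nat_lit 212) (nat_lit 187)) (XT.nd (nat_lit 78) (nat_lit 0) (nat_lit 0) (XT.lf (nat_lit 0) (nat_lit 43960828384) (nat_lit 76) (nat_lit 8139662552) (nat_lit 76) (nat_lit 2271454236) (nat_lit 4) (nat_lit 4) (nat_lit 5) (nat_lit 5) (nat_lit 5) (nat_lit 4) (nat_lit 382) (nat_lit 212) (nat_lit 186)) (XT.lf (nat_lit 0) (nat_lit 49151443205) (nat_lit 76) (nat_lit 6399530547) (nat_lit 76) (nat_lit 383544279) (nat_lit 4) (nat_lit 4) (nat_lit 5) (nat_lit 5) (nat_lit 5) (nat_lit 4) (nat_lit 383) (nat_lit 212) (nat_lit 185)))) (XT.nd (nat_lit 78) (nat_lit 76) (nat_lit 0) (XT.lf (nat_lit 0) (nat_lit 1499392313) (nat_lit 152) (nat_lit 3115693611) (nat_lit 76) (nat_lit 52929395029) (nat_lit 3) (nat_lit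 5) (nat_lit 5) (nat_lit 5) (nat_lit 4) (nat_lit 4) (nat_lit 384) (nat_lit 212) (nat_lit 184)) (XT.nd (nat_lit 78) (nat_lit 0) (nat_lit 0) (XT.lf (nat_lit 0) (nat_lit 617042894) (nat_lit 76) (nat_lit 2789754049) (nat_lit 152) (nat_lit 55796588943) (nat_lit 2) (nat_lit 5) (nat_lit 3) (nat_lit 5) (nat_lit 4) (nat_lit 4) (nat_lit 385) (nat_lit 212) (nat_lit 183)) (XT.lf (nat_lit 0) (nat_lit 4473239472) (nat_lit 76) (nat_lit 899781282) (nat_lit 152) (nat_lit 55539016203) (nat_lit 2) (nat_lit 5) (nat_lit 3) (nat_lit 5) (nat_lit 4) (nat_lit 4) (nat_lit 386) (nat_lit 212) (nat_lit 182))))) (XT.nd (nat_lit 234) (nat_lit 0) (nat_lit 0) (XT.nd (nat_lit 78) (nat_lit 0) (nat_lit 0) (XT.lf (nat_lit 0) (nat_lit 7379088925) (nat_lit 152) (nat_lit 54288439476) (nat_lit 0) (nat_lit 1005019549) (nat_lit 2) (nat_lit 5) (nat_lit 4) (nat_lit 4) (nat_lit 2) (nat_lit 4) (nat_lit 387) (nat_lit 212) (nat_lit 181)) (XT.nd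 (nat_lit 78) (nat_lit 0) (nat_lit 0) (XT.lf (nat_lit 0) (nat_lit 9425892809) (nat_lit 152) (nat_lit 52132528488) (nat_lit 0) (nat_lit 2928061725) (nat_lit 2) (nat_lit 5) (nat_lit 4) (nat_lit 4) (nat_lit 2) (nat_lit 4) (nat_lit 388) (nat_lit 212) (nat_lit 180)) (XT.lf (nat_lit 0) (nat_lit 11506571627) (nat_lit 152) (nat_lit 49960531469) (nat_lit 0) (nat_lit 4888583545) (nat_lit 2) (nat_lit 5) (nat_lit 4) (nat_lit 4) (nat_lit 2) (nat_lit 4) (nat_lit 389) (nat_lit 212) (nat_lit 179)))) (XT.nd (nat_lit 78) (nat_lit 0) (nat_lit 0) (XT.lf (nat_lit 0) (nat_lit 13622943448) (nat_lit 152) (nat_lit 47770550557) (nat_lit 0) (nat_lit 6888298086) (nat_lit 2) (nat_lit 5) (nat_lit 4) (nat_lit 4) (nat_lit 2) (nat_lit 4) (nat_lit 390) (nat_lit 212) (nat_lit 178)) (XT.nd (nat_lit 78) (nat_lit 0) (nat_lit 0) (XT.lf (nat_lit 0) (nat_lit 15776857530) (nat_lit 152) (nat_lit 45560672177) (nat_lit 0) (nat_lit 8928952673)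 (nat_lit 2) (nat_lit 5) (nat_lit 4) (nat_lit 4) (nat_lit 2) (nat_lit 4) (nat_lit 391) (nat_lit 212) (nat_lit 177)) (XT.lf (nat_lit 0) (nat_lit 17970195933) (nat_lit 152) (nat_lit 43328965367) (nat_lit 0) (nat_lit 11012330401) (nat_lit 2) (nat_lit 5) (nat_lit 4) (nat_lit 4) (nat_lit 2) (nat_lit 4) (nat_lit 392) (nat_lit 212) (nat_lit 176))))))))
noncomputable def xc13 : XT := (XT.nd (nat_lit 38454) (nat_lit 0) (nat_lit 0) (XT.nd (nat_lit 37596) (nat_lit 0) (nat_lit 380) (XT.nd (nat_lit 390) (nat_lit 0) (nat_lit 0) (XT.nd (nat_lit 156) (nat_lit 0) (nat_lit 0) (XT.nd (nat_lit 78) (nat_lit 0) (nat_lit 0) (XT.lf (nat_lit 0) (nat_lit 20204875166) (nat_lit 152) (nat_lit 41073480091) (nat_lit 0) (nat_lit 13140251697) (nat_lit 2) (nat_lit 5) (nat_lit 4) (nat_lit 4) (nat_lit 2) (nat_lit 4) (nat_lit 393) (nat_lit 212) (nat_lit 175)) (XT.lf (nat_lit 0) (nat_lit 22482847862) (nat_lit 152) (nat_lit 38792245538)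 (nat_lit 0) (nat_lit 15314575911) (nat_lit 2) (nat_lit 5) (nat_lit 4) (nat_lit 4) (nat_lit 2) (nat_lit 4) (nat_lit 394) (nat_lit 212) (nat_lit 174))) (XT.nd (nat_lit 78) (nat_lit 0) (nat_lit 0) (XT.lf (nat_lit 0) (nat_lit 24806104482) (nat_lit 152) (nat_lit 36483268396) (nat_lit 0) (nat_lit 17537202936) (nat_lit 2) (nat_lit 5) (nat_lit 4) (nat_lit 4) (nat_lit 2) (nat_lit 4) (nat_lit 395) (nat_lit 212) (nat_lit 173)) (XT.nd (nat_lit 78) (nat_lit 0) (nat_lit 0) (XT.lf (nat_lit 0) (nat_lit 27176675056) (nat_lit 152) (nat_lit 34144531112) (nat_lit 0) (nat_lit 19810074875) (nat_lit 2) (nat_lit 5) (nat_lit 4) (nat_lit 4) (nat_lit 2) (nat_lit 4) (nat_lit 396) (nat_lit 212) (nat_lit 172)) (XT.lf (nat_lit 0) (nat_lit 29596630957) (nat_lit 152) (nat_lit 31773990128) (nat_lit 0) (nat_lit 22135177733) (nat_lit 2) (nat_lit 5) (nat_lit 4) (nat_lit 4) (nat_lit 2) (nat_lit 4) (nat_lit 397) (nat_lit 212) (nat_lit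 171))))) (XT.nd (nat_lit 234) (nat_lit 0) (nat_lit 0) (XT.nd (nat_lit 78) (nat_lit 0) (nat_lit 0) (XT.lf (nat_lit 0) (nat_lit 32068086710) (nat_lit 152) (nat_lit 29369574099) (nat_lit 0) (nat_lit 24514543151) (nat_lit 2) (nat_lit 5) (nat_lit 4) (nat_lit 4) (nat_lit 2) (nat_lit 4) (nat_lit 398) (nat_lit 212) (nat_lit 170)) (XT.nd (nat_lit 78) (nat_lit 0) (nat_lit 0) (XT.lf (nat_lit 0) (nat_lit 34593201838) (nat_lit 152) (nat_lit 26929182078) (nat_lit 0) (nat_lit 26950250188) (nat_lit 2) (nat_lit 5) (nat_lit 4) (nat_lit 4) (nat_lit 2) (nat_lit 4) (nat_lit 399) (nat_lit 212) (nat_lit 169)) (XT.lf (nat_lit 0) (nat_lit 37174182753) (nat_lit 152) (nat_lit 24450681685) (nat_lit 0) (nat_lit 29444427131) (nat_lit 2) (nat_lit 5) (nat_lit 4) (nat_lit 4) (nat_lit 2) (nat_lit 4) (nat_lit 400) (nat_lit 212) (nat_lit 168)))) (XT.nd (nat_lit 78) (nat_lit 0) (nat_lit 0) (XT.lf (nat_lit 0) (nat_lit 39813284681)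 (nat_lit 152) (nat_lit 21931907239) (nat_lit 0) (nat_lit 31999253358) (nat_lit 2) (nat_lit 5) (nat_lit 4) (nat_lit 4) (nat_lit 2) (nat_lit 4) (nat_lit 401) (nat_lit 212) (nat_lit 167)) (XT.nd (nat_lit 78) (nat_lit 0) (nat_lit 0) (XT.lf (nat_lit 0) (nat_lit 42512813634) (nat_lit 152) (nat_lit 19370657869) (nat_lit 0) (nat_lit 34616961242) (nat_lit 2) (nat_lit 5) (nat_lit 4) (nat_lit 4) (nat_lit 2) (nat_lit 4) (nat_lit 402) (nat_lit 212) (nat_lit 166)) (XT.lf (nat_lit 0) (nat_lit 45275128423) (nat_lit 152) (nat_lit 16764695590) (nat_lit 0) (nat_lit 37299838099) (nat_lit 2) (nat_lit 5) (nat_lit 4) (nat_lit 4) (nat_lit 2) (nat_lit 4) (nat_lit 403) (nat_lit 212) (nat_lit 165)))))) (XT.nd (nat_lit 390) (nat_lit 76) (nat_lit 0) (XT.nd (nat_lit 156) (nat_lit 0) (nat_lit 0) (XT.nd (nat_lit 78) (nat_lit 0) (nat_lit 0) (XT.lf (nat_lit 0) (nat_lit 534592462) (nat_lit 152) (nat_lit 11632592753) (nat_lit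 0) (nat_lit 534592462) (nat_lit 8) (nat_lit 5) (nat_lit 10) (nat_lit 4) (nat_lit 8) (nat_lit 4) (nat_lit 354) (nat_lit 213) (nat_lit 213)) (XT.lf (nat_lit 0) (nat_lit 4061788409) (nat_lit 152) (nat_lit 18277446268) (nat_lit 0) (nat_lit 3723683143) (nat_lit 8) (nat_lit 5) (nat_lit 10) (nat_lit 4) (nat_lit 8) (nat_lit 4) (nat_lit 355) (nat_lit 213) (nat_lit 212))) (XT.nd (nat_lit 78) (nat_lit 0) (nat_lit 0) (XT.lf (nat_lit 0) (nat_lit 7080236855) (nat_lit 152) (nat_lit 13249935508) (nat_lit 0) (nat_lit 6413874049) (nat_lit 8) (nat_lit 5) (nat_lit 10) (nat_lit 4) (nat_lit 8) (nat_lit 4) (nat_lit 356) (nat_lit 213) (nat_lit 211)) (XT.nd (nat_lit 78) (nat_lit 0) (nat_lit 0) (XT.lf (nat_lit 0) (nat_lit 10127167742) (nat_lit 152) (nat_lit 8178260257) (nat_lit 0) (nat_lit 9142108295) (nat_lit 8) (nat_lit 5) (nat_lit 10) (nat_lit 4) (nat_lit 8) (nat_lit 4) (nat_lit 357) (nat_lit 213) (nat_lit 210)) (XT.lf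 (nat_lit 0) (nat_lit 13205243436) (nat_lit 152) (nat_lit 3057988952) (nat_lit 0) (nat_lit 11910769775) (nat_lit 8) (nat_lit 5) (nat_lit 10) (nat_lit 4) (nat_lit 8) (nat_lit 4) (nat_lit 358) (nat_lit 213) (nat_lit 209))))) (XT.nd (nat_lit 234) (nat_lit 0) (nat_lit 0) (XT.nd (nat_lit 78) (nat_lit 0) (nat_lit 0) (XT.lf (nat_lit 0) (nat_lit 2157452090) (nat_lit 76) (nat_lit 14180440177) (nat_lit 76) (nat_lit 12585564366) (nat_lit 7) (nat_lit 4) (nat_lit 8) (nat_lit 5) (nat_lit 8) (nat_lit 4) (nat_lit 359) (nat_lit 213) (nat_lit 208)) (XT.nd (nat_lit 78) (nat_lit 0) (nat_lit 0) (XT.lf (nat_lit 0) (nat_lit 7492489745) (nat_lit 76) (nat_lit 12045149784) (nat_lit 76) (nat_lit 10158621400) (nat_lit 7) (nat_lit 4) (nat_lit 8) (nat_lit 5) (nat_lit 8) (nat_lit 4) (nat_lit 360) (nat_lit 213) (nat_lit 207)) (XT.lf (nat_lit 0) (nat_lit 12890925718) (nat_lit 76) (nat_lit 9886375113) (nat_lit 76) (nat_lit 7716688891)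 (nat_lit 7) (nat_lit 4) (nat_lit 8) (nat_lit 5) (nat_lit 8) (nat_lit 4) (nat_lit 361) (nat_lit 213) (nat_lit 206)))) (XT.nd (nat_lit 78) (nat_lit 0) (nat_lit 0) (XT.lf (nat_lit 0) (nat_lit 18357477090) (nat_lit 76) (nat_lit 7702229856) (nat_lit 76) (nat_lit 5257633112) (nat_lit 7) (nat_lit 4) (nat_lit 8) (nat_lit 5) (nat_lit 8) (nat_lit 4) (nat_lit 362) (nat_lit 213) (nat_lit 205)) (XT.nd (nat_lit 78) (nat_lit 0) (nat_lit 0) (XT.lf (nat_lit 0) (nat_lit 23896920459) (nat_lit 76) (nat_lit 5490805536) (nat_lit 76) (nat_lit 2779305374) (nat_lit 7) (nat_lit 4) (nat_lit 8) (nat_lit 5) (nat_lit 8) (nat_lit 4) (nat_lit 363) (nat_lit 213) (nat_lit 204)) (XT.lf (nat_lit 0) (nat_lit 29514096116) (nat_lit 76) (nat_lit 3250169842) (nat_lit 76) (nat_lit 279540146) (nat_lit 7) (nat_lit 4) (nat_lit 8) (nat_lit 5) (nat_lit 8) (nat_lit 4) (nat_lit 364) (nat_lit 213) (nat_lit 203))))))) (XT.nd (nat_lit 858) (nat_lit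 152) (nat_lit 0) (XT.nd (nat_lit 390) (nat_lit 76) (nat_lit 0) (XT.nd (nat_lit 156) (nat_lit 0) (nat_lit 0) (XT.nd (nat_lit 78) (nat_lit 0) (nat_lit 0) (XT.lf (nat_lit 0) (nat_lit 1268668965) (nat_lit 76) (nat_lit 943587553) (nat_lit 152) (nat_lit 31735160928) (nat_lit 5) (nat_lit 5) (nat_lit 6) (nat_lit 5) (nat_lit 7) (nat_lit 4) (nat_lit 365) (nat_lit 213) (nat_lit 202)) (XT.lf (nat_lit 0) (nat_lit 4772873260) (nat_lit 152) (nat_lit 28697866794) (nat_lit 0) (nat_lit 1407372090) (nat_lit 5) (nat_lit 5) (nat_lit 7) (nat_lit 4) (nat_lit 5) (nat_lit 4) (nat_lit 366) (nat_lit 213) (nat_lit 201))) (XT.nd (nat_lit 78) (nat_lit 0) (nat_lit 0) (XT.lf (nat_lit 0) (nat_lit 7371031049) (nat_lit 152) (nat_lit 24691625486) (nat_lit 0) (nat_lit 3775296644) (nat_lit 5) (nat_lit 5) (nat_lit 7) (nat_lit 4) (nat_lit 5) (nat_lit 4) (nat_lit 367) (nat_lit 213) (nat_lit 200)) (XT.nd (nat_lit 78) (nat_lit 0) (nat_lit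 0) (XT.lf (nat_lit 0) (nat_lit 9999929779) (nat_lit 152) (nat_lit 20647453619) (nat_lit 0) (nat_lit 6180667963) (nat_lit 5) (nat_lit 5) (nat_lit 7) (nat_lit 4) (nat_lit 5) (nat_lit 4) (nat_lit 368) (nat_lit 213) (nat_lit 199)) (XT.lf (nat_lit 0) (nat_lit 12661866547) (nat_lit 152) (nat_lit 16561817449) (nat_lit 0) (nat_lit 8625587826) (nat_lit 5) (nat_lit 5) (nat_lit 7) (nat_lit 4) (nat_lit 5) (nat_lit 4) (nat_lit 369) (nat_lit 213) (nat_lit 198))))) (XT.nd (nat_lit 234) (nat_lit 76) (nat_lit 0) (XT.nd (nat_lit 78) (nat_lit 0) (nat_lit 0) (XT.lf (nat_lit 0) (nat_lit 15359167316) (nat_lit 152) (nat_lit 12431147004) (nat_lit 0) (nat_lit 11112192571) (nat_lit 5) (nat_lit 5) (nat_lit 7) (nat_lit 4) (nat_lit 5) (nat_lit 4) (nat_lit 370) (nat_lit 213) (nat_lit 197)) (XT.nd (nat_lit 78) (nat_lit 0) (nat_lit 0) (XT.lf (nat_lit 0) (nat_lit 18094188951) (nat_lit 152) (nat_lit 8251832959) (nat_lit 0) (nat_lit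 13642654960) (nat_lit 5) (nat_lit 5) (nat_lit 7) (nat_lit 4) (nat_lit 5) (nat_lit 4) (nat_lit 371) (nat_lit 213) (nat_lit 196)) (XT.lf (nat_lit 0) (nat_lit 20869321278) (nat_lit 152) (nat_lit 4020223487) (nat_lit 0) (nat_lit 16219186077) (nat_lit 5) (nat_lit 5) (nat_lit 7) (nat_lit 4) (nat_lit 5) (nat_lit 4) (nat_lit 372) (nat_lit 213) (nat_lit 195)))) (XT.nd (nat_lit 78) (nat_lit 0) (nat_lit 0) (XT.lf (nat_lit 0) (nat_lit 272700300) (nat_lit 76) (nat_lit 23416910230) (nat_lit 76) (nat_lit 18573958320) (nat_lit 4) (nat_lit 4) (nat_lit 5) (nat_lit 5) (nat_lit 5) (nat_lit 4) (nat_lit 373) (nat_lit 213) (nat_lit 194)) (XT.nd (nat_lit 78) (nat_lit 0) (nat_lit 0) (XT.lf (nat_lit 0) (nat_lit 4706562748) (nat_lit 76) (nat_lit 21888334274) (nat_lit 76) (nat_lit 16858181676) (nat_lit 4) (nat_lit 4) (nat_lit 5) (nat_lit 5) (nat_lit 5) (nat_lit 4) (nat_lit 374) (nat_lit 213) (nat_lit 193)) (XT.lf (nat_lit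 0) (nat_lit 9205227774) (nat_lit 76) (nat_lit 20343077624) (nat_lit 76) (nat_lit 15131176785) (nat_lit 4) (nat_lit 4) (nat_lit 5) (nat_lit 5) (nat_lit 5) (nat_lit 4) (nat_lit 375) (nat_lit 213) (nat_lit 192)))))) (XT.nd (nat_lit 468) (nat_lit 152) (nat_lit 0) (XT.nd (nat_lit 234) (nat_lit 0) (nat_lit 0) (XT.nd (nat_lit 78) (nat_lit 0) (nat_lit 0) (XT.lf (nat_lit 0) (nat_lit 13772626252) (nat_lit 76) (nat_lit 18779790055) (nat_lit 76) (nat_lit 13391434613) (nat_lit 4) (nat_lit 4) (nat_lit 5) (nat_lit 5) (nat_lit 5) (nat_lit 4) (nat_lit 376) (nat_lit 213) (nat_lit 191)) (XT.nd (nat_lit 78) (nat_lit 0) (nat_lit 0) (XT.lf (nat_lit 0) (nat_lit 18412749111) (nat_lit 76) (nat_lit 17197105587) (nat_lit 76) (nat_lit 11637434997) (nat_lit 4) (nat_lit 4) (nat_lit 5) (nat_lit 5) (nat_lit 5) (nat_lit 4) (nat_lit 377) (nat_lit 213) (nat_lit 190)) (XT.lf (nat_lit 0) (nat_lit 23129650828) (nat_lit 76) (nat_lit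 15593641293) (nat_lit 76) (nat_lit 9867645316) (nat_lit 4) (nat_lit 4) (nat_lit 5) (nat_lit 5) (nat_lit 5) (nat_lit 4) (nat_lit 378) (nat_lit 213) (nat_lit 189)))) (XT.nd (nat_lit 78) (nat_lit 0) (nat_lit 0) (XT.lf (nat_lit 0) (nat_lit 27927452969) (nat_lit 76) (nat_lit 13967996087) (nat_lit 76) (nat_lit 8080519151) (nat_lit 4) (nat_lit 4) (nat_lit 5) (nat_lit 5) (nat_lit 5) (nat_lit 4) (nat_lit 379) (nat_lit 213) (nat_lit 188)) (XT.nd (nat_lit 78) (nat_lit 0) (nat_lit 0) (XT.lf (nat_lit 0) (nat_lit 32810347786) (nat_lit 76) (nat_lit 12318749502) (nat_lit 76) (nat_lit 6274494937) (nat_lit 4) (nat_lit 4) (nat_lit 5) (nat_lit 5) (nat_lit 5) (nat_lit 4) (nat_lit 380) (nat_lit 213) (nat_lit 187)) (XT.lf (nat_lit 0) (nat_lit 37782601887) (nat_lit 76) (nat_lit 10644460450) (nat_lit 76) (nat_lit 4447994594) (nat_lit 4) (nat_lit 4) (nat_lit 5) (nat_lit 5) (nat_lit 5) (nat_lit 4) (nat_lit 381) (nat_lit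 213) (nat_lit 186))))) (XT.nd (nat_lit 234) (nat_lit 76) (nat_lit 0) (XT.nd (nat_lit 78) (nat_lit 76) (nat_lit 0) (XT.lf (nat_lit 0) (nat_lit 42848559961) (nat_lit 76) (nat_lit 8943665958) (nat_lit 76) (nat_lit 2599422151) (nat_lit 4) (nat_lit 4) (nat_lit 5) (nat_lit 5) (nat_lit 5) (nat_lit 4) (nat_lit 382) (nat_lit 213) (nat_lit 185)) (XT.nd (nat_lit 78) (nat_lit 76) (nat_lit 0) (XT.lf (nat_lit 0) (nat_lit 48012648572) (nat_lit 76) (nat_lit 7214879897) (nat_lit 76) (nat_lit 727162349) (nat_lit 4) (nat_lit 4) (nat_lit 5) (nat_lit 5) (nat_lit 5) (nat_lit 4) (nat_lit 383) (nat_lit 213) (nat_lit 184)) (XT.lf (nat_lit 0) (nat_lit 1147581639) (nat_lit 152) (nat_lit 4297421712) (nat_lit 76) (nat_lit 52120210067) (nat_lit 3) (nat_lit 5) (nat_lit 5) (nat_lit 5) (nat_lit 4) (nat_lit 4) (nat_lit 384) (nat_lit 213) (nat_lit 183)))) (XT.nd (nat_lit 78) (nat_lit 76) (nat_lit 0) (XT.lf (nat_lit 0) (nat_lit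 3034590963) (nat_lit 152) (nat_lit 602030544) (nat_lit 76) (nat_lit 55588121954) (nat_lit 3) (nat_lit 5) (nat_lit 5) (nat_lit 5) (nat_lit 4) (nat_lit 4) (nat_lit 385) (nat_lit 213) (nat_lit 182)) (XT.nd (nat_lit 78) (nat_lit 0) (nat_lit 0) (XT.lf (nat_lit 0) (nat_lit 3217127920) (nat_lit 76) (nat_lit 1763501102) (nat_lit 152) (nat_lit 55953383949) (nat_lit 2) (nat_lit 5) (nat_lit 3) (nat_lit 5) (nat_lit 4) (nat_lit 4) (nat_lit 386) (nat_lit 213) (nat_lit 181)) (XT.lf (nat_lit 0) (nat_lit 6964426581) (nat_lit 152) (nat_lit 55582879137) (nat_lit 0) (nat_lit 147898857) (nat_lit 2) (nat_lit 5) (nat_lit 4) (nat_lit 4) (nat_lit 2) (nat_lit 4) (nat_lit 387) (nat_lit 213) (nat_lit 180))))))))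
noncomputable def xc14 : XT := (XT.nd (nat_lit 38298) (nat_lit 0) (nat_lit 152) (XT.nd (nat_lit 858) (nat_lit 0) (nat_lit 0) (XT.nd (nat_lit 390) (nat_lit 0) (nat_lit 0) (XT.nd (nat_lit 156) (nat_lit 0) (nat_lit 0) (XT.nd (nat_lit 78) (nat_lit 0) (nat_lit 0) (XT.lf (nat_lit 0) (nat_lit 8997669292) (nat_lit 152) (nat_lit 53450904750) (nat_lit 0) (nat_lit 2060984569) (nat_lit 2) (nat_lit 5) (nat_lit 4) (nat_lit 4) (nat_lit 2) (nat_lit 4) (nat_lit 388) (nat_lit 213) (nat_lit 179)) (XT.lf (nat_lit 0) (nat_lit 11065181922) (nat_lit 152) (nat_lit 51302147149) (nat_lit 0) (nat_lit 4011839919) (nat_lit 2) (nat_lit 5) (nat_lit 4) (nat_lit 4) (nat_lit 2) (nat_lit 4) (nat_lit 389) (nat_lit 213) (nat_lit 178))) (XT.nd (nat_lit 78) (nat_lit 0) (nat_lit 0) (XT.lf (nat_lit 0) (nat_lit 13168771037) (nat_lit 152) (nat_lit 49134728778) (nat_lit 0) (nat_lit 6002169539) (nat_lit 2) (nat_lit 5) (nat_lit 4) (nat_lit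 4) (nat_lit 2) (nat_lit 4) (nat_lit 390) (nat_lit 213) (nat_lit 177)) (XT.nd (nat_lit 78) (nat_lit 0) (nat_lit 0) (XT.lf (nat_lit 0) (nat_lit 15310274724) (nat_lit 152) (nat_lit 46946755778) (nat_lit 0) (nat_lit 8033712551) (nat_lit 2) (nat_lit 5) (nat_lit 4) (nat_lit 4) (nat_lit 2) (nat_lit 4) (nat_lit 391) (nat_lit 213) (nat_lit 176)) (XT.lf (nat_lit 0) (nat_lit 17491564199) (nat_lit 152) (nat_lit 44736316327) (nat_lit 0) (nat_lit 10108244090) (nat_lit 2) (nat_lit 5) (nat_lit 4) (nat_lit 4) (nat_lit 2) (nat_lit 4) (nat_lit 392) (nat_lit 213) (nat_lit 175))))) (XT.nd (nat_lit 234) (nat_lit 0) (nat_lit 0) (XT.nd (nat_lit 78) (nat_lit 0) (nat_lit 0) (XT.lf (nat_lit 0) (nat_lit 19714545445) (nat_lit 152) (nat_lit 42501478973) (nat_lit 0) (nat_lit 12227576853) (nat_lit 2) (nat_lit 5) (nat_lit 4) (nat_lit 4) (nat_lit 2) (nat_lit 4) (nat_lit 393) (nat_lit 213) (nat_lit 174)) (XT.nd (nat_lit 78) (nat_lit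 0) (nat_lit 0) (XT.lf (nat_lit 0) (nat_lit 21981160872) (nat_lit 152) (nat_lit 40240290946) (nat_lit 0) (nat_lit 14393562686) (nat_lit 2) (nat_lit 5) (nat_lit 4) (nat_lit 4) (nat_lit 2) (nat_lit 4) (nat_lit 394) (nat_lit 213) (nat_lit 173)) (XT.lf (nat_lit 0) (nat_lit 24293391017) (nat_lit 152) (nat_lit 37950776450) (nat_lit 0) (nat_lit 16608094195) (nat_lit 2) (nat_lit 5) (nat_lit 4) (nat_lit 4) (nat_lit 2) (nat_lit 4) (nat_lit 395) (nat_lit 213) (nat_lit 172)))) (XT.nd (nat_lit 78) (nat_lit 0) (nat_lit 0) (XT.lf (nat_lit 0) (nat_lit 26653256276) (nat_lit 152) (nat_lit 35630934938) (nat_lit 0) (nat_lit 18873106410) (nat_lit 2) (nat_lit 5) (nat_lit 4) (nat_lit 4) (nat_lit 2) (nat_lit 4) (nat_lit 396) (nat_lit 213) (nat_lit 171)) (XT.nd (nat_lit 78) (nat_lit 0) (nat_lit 0) (XT.lf (nat_lit 0) (nat_lit 29062818667) (nat_lit 152) (nat_lit 33278739366) (nat_lit 0) (nat_lit 21190578467) (nat_lit 2)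 (nat_lit 5) (nat_lit 4) (nat_lit 4) (nat_lit 2) (nat_lit 4) (nat_lit 397) (nat_lit 213) (nat_lit 170)) (XT.lf (nat_lit 0) (nat_lit 31524183633) (nat_lit 152) (nat_lit 30892134415) (nat_lit 0) (nat_lit 23562535342) (nat_lit 2) (nat_lit 5) (nat_lit 4) (nat_lit 4) (nat_lit 2) (nat_lit 4) (nat_lit 398) (nat_lit 213) (nat_lit 169)))))) (XT.nd (nat_lit 36972) (nat_lit 0) (nat_lit 456) (XT.nd (nat_lit 156) (nat_lit 0) (nat_lit 0) (XT.nd (nat_lit 78) (nat_lit 0) (nat_lit 0) (XT.lf (nat_lit 0) (nat_lit 34039501881) (nat_lit 152) (nat_lit 28469034704) (nat_lit 0) (nat_lit 25991049618) (nat_lit 2) (nat_lit 5) (nat_lit 4) (nat_lit 4) (nat_lit 2) (nat_lit 4) (nat_lit 399) (nat_lit 213) (nat_lit 168)) (XT.lf (nat_lit 0) (nat_lit 36610971262) (nat_lit 152) (nat_lit 26007322960) (nat_lit 0) (nat_lit 28478243297) (nat_lit 2) (nat_lit 5) (nat_lit 4) (nat_lit 4) (nat_lit 2) (nat_lit 4) (nat_lit 400) (nat_lit 213)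 (nat_lit 167))) (XT.nd (nat_lit 78) (nat_lit 0) (nat_lit 0) (XT.lf (nat_lit 0) (nat_lit 39240838691) (nat_lit 152) (nat_lit 23504848174) (nat_lit 0) (nat_lit 31026289657) (nat_lit 2) (nat_lit 5) (nat_lit 4) (nat_lit 4) (nat_lit 2) (nat_lit 4) (nat_lit 401) (nat_lit 213) (nat_lit 166)) (XT.nd (nat_lit 78) (nat_lit 0) (nat_lit 0) (XT.lf (nat_lit 0) (nat_lit 41931402110) (nat_lit 152) (nat_lit 20959423716) (nat_lit 0) (nat_lit 33637415146) (nat_lit 2) (nat_lit 5) (nat_lit 4) (nat_lit 4) (nat_lit 2) (nat_lit 4) (nat_lit 402) (nat_lit 213) (nat_lit 165)) (XT.lf (nat_lit 0) (nat_lit 44685012498) (nat_lit 152) (nat_lit 18368825430) (nat_lit 0) (nat_lit 36313901328) (nat_lit 2) (nat_lit 5) (nat_lit 4) (nat_lit 4) (nat_lit 2) (nat_lit 4) (nat_lit 403) (nat_lit 213) (nat_lit 164))))) (XT.nd (nat_lit 234) (nat_lit 0) (nat_lit 0) (XT.nd (nat_lit 78) (nat_lit 152) (nat_lit 0) (XT.lf (nat_lit 0) (nat_lit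 7647343940) (nat_lit 152) (nat_lit 2211734572) (nat_lit 152) (nat_lit 2211734572) (nat_lit 10) (nat_lit 4) (nat_lit 12) (nat_lit 5) (nat_lit 12) (nat_lit 4) (nat_lit 352) (nat_lit 214) (nat_lit 214)) (XT.nd (nat_lit 78) (nat_lit 152) (nat_lit 0) (XT.lf (nat_lit 0) (nat_lit 21345097617) (nat_lit 152) (nat_lit 1888490021) (nat_lit 152) (nat_lit 1529794145) (nat_lit 10) (nat_lit 4) (nat_lit 12) (nat_lit 5) (nat_lit 12) (nat_lit 4) (nat_lit 353) (nat_lit 214) (nat_lit 213)) (XT.lf (nat_lit 0) (nat_lit 1384994365) (nat_lit 152) (nat_lit 23320927611) (nat_lit 0) (nat_lit 698640674) (nat_lit 8) (nat_lit 5) (nat_lit 10) (nat_lit 4) (nat_lit 8) (nat_lit 4) (nat_lit 354) (nat_lit 214) (nat_lit 212)))) (XT.nd (nat_lit 78) (nat_lit 0) (nat_lit 0) (XT.lf (nat_lit 0) (nat_lit 4346103690) (nat_lit 152) (nat_lit 18387306923) (nat_lit 0) (nat_lit 3331492460) (nat_lit 8) (nat_lit 5) (nat_lit 10) (nat_lit 4) (nat_lit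 8) (nat_lit 4) (nat_lit 355) (nat_lit 214) (nat_lit 211)) (XT.nd (nat_lit 78) (nat_lit 0) (nat_lit 0) (XT.lf (nat_lit 0) (nat_lit 7333975283) (nat_lit 152) (nat_lit 13412338445) (nat_lit 0) (nat_lit 6000667412) (nat_lit 8) (nat_lit 5) (nat_lit 10) (nat_lit 4) (nat_lit 8) (nat_lit 4) (nat_lit 356) (nat_lit 214) (nat_lit 210)) (XT.lf (nat_lit 0) (nat_lit 10351219904) (nat_lit 152) (nat_lit 8391675116) (nat_lit 0) (nat_lit 8708497819) (nat_lit 8) (nat_lit 5) (nat_lit 10) (nat_lit 4) (nat_lit 8) (nat_lit 4) (nat_lit 357) (nat_lit 214) (nat_lit 209))))))) (XT.nd (nat_lit 858) (nat_lit 76) (nat_lit 0) (XT.nd (nat_lit 390) (nat_lit 152) (nat_lit 0) (XT.nd (nat_lit 156) (nat_lit 0) (nat_lit 0) (XT.nd (nat_lit 78) (nat_lit 76) (nat_lit 0) (XT.lf (nat_lit 0) (nat_lit 13400473981) (nat_lit 152) (nat_lit 3320929950) (nat_lit 0) (nat_lit 11457349746) (nat_lit 8) (nat_lit 5) (nat_lit 10) (nat_lit 4) (nat_lit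 8) (nat_lit 4) (nat_lit 358) (nat_lit 214) (nat_lit 208)) (XT.lf (nat_lit 0) (nat_lit 1840237461) (nat_lit 76) (nat_lit 14661853938) (nat_lit 76) (nat_lit 12427077130) (nat_lit 7) (nat_lit 4) (nat_lit 8) (nat_lit 5) (nat_lit 8) (nat_lit 4) (nat_lit 359) (nat_lit 214) (nat_lit 207))) (XT.nd (nat_lit 78) (nat_lit 0) (nat_lit 0) (XT.lf (nat_lit 0) (nat_lit 7127662894) (nat_lit 76) (nat_lit 12546550950) (nat_lit 76) (nat_lit 10028616304) (nat_lit 7) (nat_lit 4) (nat_lit 8) (nat_lit 5) (nat_lit 8) (nat_lit 4) (nat_lit 360) (nat_lit 214) (nat_lit 206)) (XT.nd (nat_lit 78) (nat_lit 0) (nat_lit 0) (XT.lf (nat_lit 0) (nat_lit 12479873409) (nat_lit 76) (nat_lit 10407181527) (nat_lit 76) (nat_lit 7614336360) (nat_lit 7) (nat_lit 4) (nat_lit 8) (nat_lit 5) (nat_lit 8) (nat_lit 4) (nat_lit 361) (nat_lit 214) (nat_lit 205)) (XT.lf (nat_lit 0) (nat_lit 17901545695) (nat_lit 76) (nat_lit 8241876317) (nat_lit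 76) (nat_lit 5182127730) (nat_lit 7) (nat_lit 4) (nat_lit 8) (nat_lit 5) (nat_lit 8) (nat_lit 4) (nat_lit 362) (nat_lit 214) (nat_lit 204))))) (XT.nd (nat_lit 234) (nat_lit 0) (nat_lit 0) (XT.nd (nat_lit 78) (nat_lit 152) (nat_lit 0) (XT.lf (nat_lit 0) (nat_lit 23397417136) (nat_lit 76) (nat_lit 6048743306) (nat_lit 76) (nat_lit 2729865186) (nat_lit 7) (nat_lit 4) (nat_lit 8) (nat_lit 5) (nat_lit 8) (nat_lit 4) (nat_lit 363) (nat_lit 214) (nat_lit 203)) (XT.nd (nat_lit 78) (nat_lit 152) (nat_lit 0) (XT.lf (nat_lit 0) (nat_lit 28972289950) (nat_lit 76) (nat_lit 3825866163) (nat_lit 76) (nat_lit 255405972) (nat_lit 7) (nat_lit 4) (nat_lit 8) (nat_lit 5) (nat_lit 8) (nat_lit 4) (nat_lit 364) (nat_lit 214) (nat_lit 202)) (XT.lf (nat_lit 0) (nat_lit 663491549) (nat_lit 76) (nat_lit 1542521346) (nat_lit 152) (nat_lit 31752074712) (nat_lit 5) (nat_lit 5) (nat_lit 6) (nat_lit 5) (nat_lit 7) (nat_lit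 4) (nat_lit 365) (nat_lit 214) (nat_lit 201)))) (XT.nd (nat_lit 78) (nat_lit 0) (nat_lit 0) (XT.lf (nat_lit 0) (nat_lit 4736921627) (nat_lit 152) (nat_lit 29349693200) (nat_lit 0) (nat_lit 803081956) (nat_lit 5) (nat_lit 5) (nat_lit 7) (nat_lit 4) (nat_lit 5) (nat_lit 4) (nat_lit 366) (nat_lit 214) (nat_lit 200)) (XT.nd (nat_lit 78) (nat_lit 0) (nat_lit 0) (XT.lf (nat_lit 0) (nat_lit 7311826316) (nat_lit 152) (nat_lit 25383972425) (nat_lit 0) (nat_lit 3154459234) (nat_lit 5) (nat_lit 5) (nat_lit 7) (nat_lit 4) (nat_lit 5) (nat_lit 4) (nat_lit 367) (nat_lit 214) (nat_lit 199)) (XT.lf (nat_lit 0) (nat_lit 9918149222) (nat_lit 152) (nat_lit 21379140879) (nat_lit 0) (nat_lit 5543765235) (nat_lit 5) (nat_lit 5) (nat_lit 7) (nat_lit 4) (nat_lit 5) (nat_lit 4) (nat_lit 368) (nat_lit 214) (nat_lit 198)))))) (XT.nd (nat_lit 468) (nat_lit 0) (nat_lit 0) (XT.nd (nat_lit 234) (nat_lit 76) (nat_lit 0) (XT.nd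 (nat_lit 78) (nat_lit 0) (nat_lit 0) (XT.lf (nat_lit 0) (nat_lit 12558167713) (nat_lit 152) (nat_lit 17331699197) (nat_lit 0) (nat_lit 7973087702) (nat_lit 5) (nat_lit 5) (nat_lit 7) (nat_lit 4) (nat_lit 5) (nat_lit 4) (nat_lit 369) (nat_lit 214) (nat_lit 197)) (XT.nd (nat_lit 78) (nat_lit 0) (nat_lit 0) (XT.lf (nat_lit 0) (nat_lit 15234188602) (nat_lit 152) (nat_lit 13238110778) (nat_lit 0) (nat_lit 10444549345) (nat_lit 5) (nat_lit 5) (nat_lit 7) (nat_lit 4) (nat_lit 5) (nat_lit 4) (nat_lit 370) (nat_lit 214) (nat_lit 196)) (XT.lf (nat_lit 0) (nat_lit 17948550159) (nat_lit 152) (nat_lit 9094798701) (nat_lit 0) (nat_lit 12960309692) (nat_lit 5) (nat_lit 5) (nat_lit 7) (nat_lit 4) (nat_lit 5) (nat_lit 4) (nat_lit 371) (nat_lit 214) (nat_lit 195)))) (XT.nd (nat_lit 78) (nat_lit 76) (nat_lit 0) (XT.lf (nat_lit 0) (nat_lit 20703624158) (nat_lit 152) (nat_lit 4898142595) (nat_lit 0) (nat_lit 15522566981)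 (nat_lit 5) (nat_lit 5) (nat_lit 7) (nat_lit 4) (nat_lit 5) (nat_lit 4) (nat_lit 372) (nat_lit 214) (nat_lit 194)) (XT.nd (nat_lit 78) (nat_lit 76) (nat_lit 0) (XT.lf (nat_lit 0) (nat_lit 23501817943) (nat_lit 152) (nat_lit 644475480) (nat_lit 0) (nat_lit 18133560078) (nat_lit 5) (nat_lit 5) (nat_lit 7) (nat_lit 4) (nat_lit 5) (nat_lit 4) (nat_lit 373) (nat_lit 214) (nat_lit 193)) (XT.lf (nat_lit 0) (nat_lit 3742958033) (nat_lit 76) (nat_lit 22638598108) (nat_lit 76) (nat_lit 17088592002) (nat_lit 4) (nat_lit 4) (nat_lit 5) (nat_lit 5) (nat_lit 5) (nat_lit 4) (nat_lit 374) (nat_lit 214) (nat_lit 192))))) (XT.nd (nat_lit 234) (nat_lit 0) (nat_lit 0) (XT.nd (nat_lit 78) (nat_lit 0) (nat_lit 0) (XT.lf (nat_lit 0) (nat_lit 8208999168) (nat_lit 76) (nat_lit 21107295537) (nat_lit 76) (nat_lit 15380834828) (nat_lit 4) (nat_lit 4) (nat_lit 5) (nat_lit 5) (nat_lit 5) (nat_lit 4) (nat_lit 375) (nat_lit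 214) (nat_lit 191)) (XT.nd (nat_lit 78) (nat_lit 0) (nat_lit 0) (XT.lf (nat_lit 0) (nat_lit 12744723964) (nat_lit 76) (nat_lit 19557555617) (nat_lit 76) (nat_lit 13659779760) (nat_lit 4) (nat_lit 4) (nat_lit 5) (nat_lit 5) (nat_lit 5) (nat_lit 4) (nat_lit 376) (nat_lit 214) (nat_lit 190)) (XT.lf (nat_lit 0) (nat_lit 17354095677) (nat_lit 76) (nat_lit 17988024208) (nat_lit 76) (nat_lit 11923922964) (nat_lit 4) (nat_lit 4) (nat_lit 5) (nat_lit 5) (nat_lit 5) (nat_lit 4) (nat_lit 377) (nat_lit 214) (nat_lit 189)))) (XT.nd (nat_lit 78) (nat_lit 0) (nat_lit 0) (XT.lf (nat_lit 0) (nat_lit 22041141912) (nat_lit 76) (nat_lit 16397329872) (nat_lit 76) (nat_lit 10171747670) (nat_lit 4) (nat_lit 4) (nat_lit 5) (nat_lit 5) (nat_lit 5) (nat_lit 4) (nat_lit 378) (nat_lit 214) (nat_lit 188)) (XT.nd (nat_lit 78) (nat_lit 0) (nat_lit 0) (XT.lf (nat_lit 0) (nat_lit 26809958148) (nat_lit 76) (nat_lit 14784082685)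 (nat_lit 76) (nat_lit 8401722853) (nat_lit 4) (nat_lit 4) (nat_lit 5) (nat_lit 5) (nat_lit 5) (nat_lit 4) (nat_lit 379) (nat_lit 214) (nat_lit 187)) (XT.lf (nat_lit 0) (nat_lit 31664711310) (nat_lit 76) (nat_lit 13146873011) (nat_lit 76) (nat_lit 6612301889) (nat_lit 4) (nat_lit 4) (nat_lit 5) (nat_lit 5) (nat_lit 5) (nat_lit 4) (nat_lit 380) (nat_lit 214) (nat_lit 186))))))))
noncomputable def xc15 : XT := (XT.nd (nat_lit 38220) (nat_lit 0) (nat_lit 228) (XT.nd (nat_lit 858) (nat_lit 0) (nat_lit 0) (XT.nd (nat_lit 390) (nat_lit 76) (nat_lit 0) (XT.nd (nat_lit 156) (nat_lit 76) (nat_lit 0) (XT.nd (nat_lit 78) (nat_lit 0) (nat_lit 0) (XT.lf (nat_lit 0) (nat_lit 36609643415) (nat_lit 76) (nat_lit 11484270280) (nat_lit 76) (nat_lit 4801921206) (nat_lit 4) (nat_lit 4) (nat_lit 5) (nat_lit 5) (nat_lit 5) (nat_lit 4) (nat_lit 381) (nat_lit 214) (nat_lit 185)) (XT.lf (nat_lit 0) (nat_lit 41649075280)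 (nat_lit 76) (nat_lit 9794821732) (nat_lit 76) (nat_lit 2968998918) (nat_lit 4) (nat_lit 4) (nat_lit 5) (nat_lit 5) (nat_lit 5) (nat_lit 4) (nat_lit 382) (nat_lit 214) (nat_lit 184))) (XT.nd (nat_lit 78) (nat_lit 76) (nat_lit 0) (XT.lf (nat_lit 0) (nat_lit 46787410290) (nat_lit 76) (nat_lit 8077051149) (nat_lit 76) (nat_lit 1111933443) (nat_lit 4) (nat_lit 4) (nat_lit 5) (nat_lit 5) (nat_lit 5) (nat_lit 4) (nat_lit 383) (nat_lit 214) (nat_lit 183)) (XT.nd (nat_lit 78) (nat_lit 0) (nat_lit 0) (XT.lf (nat_lit 0) (nat_lit 755854903) (nat_lit 152) (nat_lit 5565970011) (nat_lit 76) (nat_lit 51265650696) (nat_lit 3) (nat_lit 5) (nat_lit 5) (nat_lit 5) (nat_lit 4) (nat_lit 4) (nat_lit 384) (nat_lit 214) (nat_lit 182)) (XT.lf (nat_lit 0) (nat_lit 2628821594) (nat_lit 152) (nat_lit 1895146426) (nat_lit 76) (nat_lit 54723471780) (nat_lit 3) (nat_lit 5) (nat_lit 5) (nat_lit 5) (nat_lit 4) (nat_lit 4) (nat_lit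 385) (nat_lit 214) (nat_lit 181))))) (XT.nd (nat_lit 234) (nat_lit 0) (nat_lit 0) (XT.nd (nat_lit 78) (nat_lit 0) (nat_lit 0) (XT.lf (nat_lit 0) (nat_lit 1873949774) (nat_lit 76) (nat_lit 2674364805) (nat_lit 152) (nat_lit 56409203576) (nat_lit 2) (nat_lit 5) (nat_lit 3) (nat_lit 5) (nat_lit 4) (nat_lit 4) (nat_lit 386) (nat_lit 214) (nat_lit 180)) (XT.nd (nat_lit 78) (nat_lit 0) (nat_lit 0) (XT.lf (nat_lit 0) (nat_lit 5747022603) (nat_lit 76) (nat_lit 770175984) (nat_lit 152) (nat_lit 56201970705) (nat_lit 2) (nat_lit 5) (nat_lit 3) (nat_lit 5) (nat_lit 4) (nat_lit 4) (nat_lit 387) (nat_lit 214) (nat_lit 179)) (XT.lf (nat_lit 0) (nat_lit 8529871708) (nat_lit 152) (nat_lit 54856008317) (nat_lit 0) (nat_lit 1148272165) (nat_lit 2) (nat_lit 5) (nat_lit 4) (nat_lit 4) (nat_lit 2) (nat_lit 4) (nat_lit 388) (nat_lit 214) (nat_lit 178)))) (XT.nd (nat_lit 78) (nat_lit 0) (nat_lit 0) (XT.lf (nat_lit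 0) (nat_lit 10584601631) (nat_lit 152) (nat_lit 52729813257) (nat_lit 0) (nat_lit 3089742593) (nat_lit 2) (nat_lit 5) (nat_lit 4) (nat_lit 4) (nat_lit 2) (nat_lit 4) (nat_lit 389) (nat_lit 214) (nat_lit 177)) (XT.nd (nat_lit 78) (nat_lit 0) (nat_lit 0) (XT.lf (nat_lit 0) (nat_lit 12675780351) (nat_lit 152) (nat_lit 50584300267) (nat_lit 0) (nat_lit 5070960639) (nat_lit 2) (nat_lit 5) (nat_lit 4) (nat_lit 4) (nat_lit 2) (nat_lit 4) (nat_lit 390) (nat_lit 214) (nat_lit 176)) (XT.lf (nat_lit 0) (nat_lit 14805235111) (nat_lit 152) (nat_lit 48417594626) (nat_lit 0) (nat_lit 7093657462) (nat_lit 2) (nat_lit 5) (nat_lit 4) (nat_lit 4) (nat_lit 2) (nat_lit 4) (nat_lit 391) (nat_lit 214) (nat_lit 175)))))) (XT.nd (nat_lit 468) (nat_lit 0) (nat_lit 0) (XT.nd (nat_lit 234) (nat_lit 0) (nat_lit 0) (XT.nd (nat_lit 78) (nat_lit 0) (nat_lit 0) (XT.lf (nat_lit 0) (nat_lit 16974826600) (nat_lit 152) (nat_lit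 46227803096) (nat_lit 0) (nat_lit 9159600468) (nat_lit 2) (nat_lit 5) (nat_lit 4) (nat_lit 4) (nat_lit 2) (nat_lit 4) (nat_lit 392) (nat_lit 214) (nat_lit 174)) (XT.nd (nat_lit 78) (nat_lit 0) (nat_lit 0) (XT.lf (nat_lit 0) (nat_lit 19186450576) (nat_lit 152) (nat_lit 44013012268) (nat_lit 0) (nat_lit 11270594850) (nat_lit 2) (nat_lit 5) (nat_lit 4) (nat_lit 4) (nat_lit 2) (nat_lit 4) (nat_lit 393) (nat_lit 214) (nat_lit 173)) (XT.lf (nat_lit 0) (nat_lit 21442039528) (nat_lit 152) (nat_lit 41771286887) (nat_lit 0) (nat_lit 13428485166) (nat_lit 2) (nat_lit 5) (nat_lit 4) (nat_lit 4) (nat_lit 2) (nat_lit 4) (nat_lit 394) (nat_lit 214) (nat_lit 172)))) (XT.nd (nat_lit 78) (nat_lit 0) (nat_lit 0) (XT.lf (nat_lit 0) (nat_lit 23743564358) (nat_lit 152) (nat_lit 39500668164) (nat_lit 0) (nat_lit 15635156952) (nat_lit 2) (nat_lit 5) (nat_lit 4) (nat_lit 4) (nat_lit 2) (nat_lit 4) (nat_lit 395) (nat_lit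 214) (nat_lit 171)) (XT.nd (nat_lit 78) (nat_lit 0) (nat_lit 0) (XT.lf (nat_lit 0) (nat_lit 26093036106) (nat_lit 152) (nat_lit 37199172064) (nat_lit 0) (nat_lit 17892538367) (nat_lit 2) (nat_lit 5) (nat_lit 4) (nat_lit 4) (nat_lit 2) (nat_lit 4) (nat_lit 396) (nat_lit 214) (nat_lit 170)) (XT.lf (nat_lit 0) (nat_lit 28492507711) (nat_lit 152) (nat_lit 34864787570) (nat_lit 0) (nat_lit 20202601880) (nat_lit 2) (nat_lit 5) (nat_lit 4) (nat_lit 4) (nat_lit 2) (nat_lit 4) (nat_lit 397) (nat_lit 214) (nat_lit 169))))) (XT.nd (nat_lit 234) (nat_lit 0) (nat_lit 0) (XT.nd (nat_lit 78) (nat_lit 0) (nat_lit 0) (XT.lf (nat_lit 0) (nat_lit 30944075796) (nat_lit 152) (nat_lit 32495474928) (nat_lit 0) (nat_lit 22567365993) (nat_lit 2) (nat_lit 5) (nat_lit 4) (nat_lit 4) (nat_lit 2) (nat_lit 4) (nat_lit 398) (nat_lit 214) (nat_lit 168)) (XT.nd (nat_lit 78) (nat_lit 0) (nat_lit 0) (XT.lf (nat_lit 0) (nat_lit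 33449882510) (nat_lit 152) (nat_lit 30089163867) (nat_lit 0) (nat_lit 24988897006) (nat_lit 2) (nat_lit 5) (nat_lit 4) (nat_lit 4) (nat_lit 2) (nat_lit 4) (nat_lit 399) (nat_lit 214) (nat_lit 167)) (XT.lf (nat_lit 0) (nat_lit 36012117392) (nat_lit 152) (nat_lit 27643751783) (nat_lit 0) (nat_lit 27469310819) (nat_lit 2) (nat_lit 5) (nat_lit 4) (nat_lit 4) (nat_lit 2) (nat_lit 4) (nat_lit 400) (nat_lit 214) (nat_lit 166)))) (XT.nd (nat_lit 78) (nat_lit 0) (nat_lit 0) (XT.lf (nat_lit 0) (nat_lit 38633019288) (nat_lit 152) (nat_lit 25157101909) (nat_lit 0) (nat_lit 30010774783) (nat_lit 2) (nat_lit 5) (nat_lit 4) (nat_lit 4) (nat_lit 2) (nat_lit 4) (nat_lit 401) (nat_lit 214) (nat_lit 165)) (XT.nd (nat_lit 78) (nat_lit 0) (nat_lit 0) (XT.lf (nat_lit 0) (nat_lit 41314878306) (nat_lit 152) (nat_lit 22627041444) (nat_lit 0) (nat_lit 32615509597) (nat_lit 2) (nat_lit 5) (nat_lit 4) (nat_lit 4) (nat_lit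 2) (nat_lit 4) (nat_lit 402) (nat_lit 214) (nat_lit 164)) (XT.lf (nat_lit 0) (nat_lit 44060037818) (nat_lit 152) (nat_lit 20051359656) (nat_lit 0) (nat_lit 35285791240) (nat_lit 2) (nat_lit 5) (nat_lit 4) (nat_lit 4) (nat_lit 2) (nat_lit 4) (nat_lit 403) (nat_lit 214) (nat_lit 163))))))) (XT.nd (nat_lit 858) (nat_lit 152) (nat_lit 0) (XT.nd (nat_lit 390) (nat_lit 76) (nat_lit 0) (XT.nd (nat_lit 156) (nat_lit 152) (nat_lit 0) (XT.nd (nat_lit 78) (nat_lit 0) (nat_lit 0) (XT.lf (nat_lit 0) (nat_lit 1724827944) (nat_lit 152) (nat_lit 4876791929) (nat_lit 152) (nat_lit 4876791929) (nat_lit 10) (nat_lit 4) (nat_lit 12) (nat_lit 5) (nat_lit 12) (nat_lit 4) (nat_lit 350) (nat_lit 215) (nat_lit 215)) (XT.lf (nat_lit 0) (nat_lit 9312461738) (nat_lit 152) (nat_lit 7298477680) (nat_lit 152) (nat_lit 6929020927) (nat_lit 10) (nat_lit 4) (nat_lit 12) (nat_lit 5) (nat_lit 12) (nat_lit 4) (nat_lit 351) (nat_lit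 215) (nat_lit 214))) (XT.nd (nat_lit 78) (nat_lit 152) (nat_lit 0) (XT.lf (nat_lit 0) (nat_lit 15239868575) (nat_lit 152) (nat_lit 4815457530) (nat_lit 152) (nat_lit 4087304899) (nat_lit 10) (nat_lit 4) (nat_lit 12) (nat_lit 5) (nat_lit 12) (nat_lit 4) (nat_lit 352) (nat_lit 215) (nat_lit 213)) (XT.nd (nat_lit 78) (nat_lit 152) (nat_lit 0) (XT.lf (nat_lit 0) (nat_lit 21237055686) (nat_lit 152) (nat_lit 2302353777) (nat_lit 152) (nat_lit 1225952723) (nat_lit 10) (nat_lit 4) (nat_lit 12) (nat_lit 5) (nat_lit 12) (nat_lit 4) (nat_lit 353) (nat_lit 215) (nat_lit 212)) (XT.lf (nat_lit 0) (nat_lit 1646344945) (nat_lit 152) (nat_lit 23488202636) (nat_lit 0) (nat_lit 273037838) (nat_lit 8) (nat_lit 5) (nat_lit 10) (nat_lit 4) (nat_lit 8) (nat_lit 4) (nat_lit 354) (nat_lit 215) (nat_lit 211))))) (XT.nd (nat_lit 234) (nat_lit 76) (nat_lit 0) (XT.nd (nat_lit 78) (nat_lit 0) (nat_lit 0) (XT.lf (nat_lit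 0) (nat_lit 4576877417) (nat_lit 152) (nat_lit 18607124229) (nat_lit 0) (nat_lit 2884873669) (nat_lit 8) (nat_lit 5) (nat_lit 10) (nat_lit 4) (nat_lit 8) (nat_lit 4) (nat_lit 355) (nat_lit 215) (nat_lit 210)) (XT.nd (nat_lit 78) (nat_lit 0) (nat_lit 0) (XT.lf (nat_lit 0) (nat_lit 7535062744) (nat_lit 152) (nat_lit 13683167673) (nat_lit 0) (nat_lit 5533644782) (nat_lit 8) (nat_lit 5) (nat_lit 10) (nat_lit 4) (nat_lit 8) (nat_lit 4) (nat_lit 356) (nat_lit 215) (nat_lit 209)) (XT.lf (nat_lit 0) (nat_lit 10523485748) (nat_lit 152) (nat_lit 8712030484) (nat_lit 0) (nat_lit 8221665636) (nat_lit 8) (nat_lit 5) (nat_lit 10) (nat_lit 4) (nat_lit 8) (nat_lit 4) (nat_lit 357) (nat_lit 215) (nat_lit 208)))) (XT.nd (nat_lit 78) (nat_lit 76) (nat_lit 0) (XT.lf (nat_lit 0) (nat_lit 13544757673) (nat_lit 152) (nat_lit 3689368948) (nat_lit 0) (nat_lit 10951284988) (nat_lit 8) (nat_lit 5) (nat_lit 10) (nat_lit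 4) (nat_lit 8) (nat_lit 4) (nat_lit 358) (nat_lit 215) (nat_lit 207)) (XT.nd (nat_lit 78) (nat_lit 0) (nat_lit 0) (XT.lf (nat_lit 0) (nat_lit 1416853583) (nat_lit 76) (nat_lit 15198284545) (nat_lit 76) (nat_lit 12321654022) (nat_lit 7) (nat_lit 4) (nat_lit 8) (nat_lit 5) (nat_lit 8) (nat_lit 4) (nat_lit 359) (nat_lit 215) (nat_lit 206)) (XT.lf (nat_lit 0) (nat_lit 6658053557) (nat_lit 76) (nat_lit 13102386806) (nat_lit 76) (nat_lit 9950845761) (nat_lit 7) (nat_lit 4) (nat_lit 8) (nat_lit 5) (nat_lit 8) (nat_lit 4) (nat_lit 360) (nat_lit 215) (nat_lit 205)))))) (XT.nd (nat_lit 468) (nat_lit 0) (nat_lit 0) (XT.nd (nat_lit 234) (nat_lit 152) (nat_lit 0) (XT.nd (nat_lit 78) (nat_lit 0) (nat_lit 0) (XT.lf (nat_lit 0) (nat_lit 11965384986) (nat_lit 76) (nat_lit 10981857430) (nat_lit 76) (nat_lit 7563412966) (nat_lit 7) (nat_lit 4) (nat_lit 8) (nat_lit 5) (nat_lit 8) (nat_lit 4) (nat_lit 361) (nat_lit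 215) (nat_lit 204)) (XT.nd (nat_lit 78) (nat_lit 0) (nat_lit 0) (XT.lf (nat_lit 0) (nat_lit 17343485345) (nat_lit 76) (nat_lit 8834843528) (nat_lit 76) (nat_lit 5157269531) (nat_lit 7) (nat_lit 4) (nat_lit 8) (nat_lit 5) (nat_lit 8) (nat_lit 4) (nat_lit 362) (nat_lit 215) (nat_lit 203)) (XT.lf (nat_lit 0) (nat_lit 22797053943) (nat_lit 76) (nat_lit 6659469068) (nat_lit 76) (nat_lit 2730312999) (nat_lit 7) (nat_lit 4) (nat_lit 8) (nat_lit 5) (nat_lit 8) (nat_lit 4) (nat_lit 363) (nat_lit 215) (nat_lit 202)))) (XT.nd (nat_lit 78) (nat_lit 152) (nat_lit 0) (XT.lf (nat_lit 0) (nat_lit 28330856036) (nat_lit 76) (nat_lit 4453833237) (nat_lit 76) (nat_lit 280422731) (nat_lit 7) (nat_lit 4) (nat_lit 8) (nat_lit 5) (nat_lit 8) (nat_lit 4) (nat_lit 364) (nat_lit 215) (nat_lit 201)) (XT.nd (nat_lit 78) (nat_lit 76) (nat_lit 0) (XT.lf (nat_lit 0) (nat_lit 2151718537) (nat_lit 152) (nat_lit 42562105) (nat_lit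 76) (nat_lit 31776280308) (nat_lit 6) (nat_lit 5) (nat_lit 8) (nat_lit 5) (nat_lit 7) (nat_lit 4) (nat_lit 365) (nat_lit 215) (nat_lit 200)) (XT.lf (nat_lit 0) (nat_lit 4652687653) (nat_lit 152) (nat_lit 30103331079) (nat_lit 0) (nat_lit 147072146) (nat_lit 5) (nat_lit 5) (nat_lit 7) (nat_lit 4) (nat_lit 5) (nat_lit 4) (nat_lit 366) (nat_lit 215) (nat_lit 199))))) (XT.nd (nat_lit 234) (nat_lit 0) (nat_lit 0) (XT.nd (nat_lit 78) (nat_lit 0) (nat_lit 0) (XT.lf (nat_lit 0) (nat_lit 7205016517) (nat_lit 152) (nat_lit 26176950625) (nat_lit 0) (nat_lit 2482384106) (nat_lit 5) (nat_lit 5) (nat_lit 7) (nat_lit 4) (nat_lit 5) (nat_lit 4) (nat_lit 367) (nat_lit 215) (nat_lit 198)) (XT.nd (nat_lit 78) (nat_lit 0) (nat_lit 0) (XT.lf (nat_lit 0) (nat_lit 9789421146) (nat_lit 152) (nat_lit 22210313567) (nat_lit 0) (nat_lit 4856092711) (nat_lit 5) (nat_lit 5) (nat_lit 7) (nat_lit 4) (nat_lit 5) (nat_lit 4)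 (nat_lit 368) (nat_lit 215) (nat_lit 197)) (XT.lf (nat_lit 0) (nat_lit 12408159757) (nat_lit 152) (nat_lit 18199953911) (nat_lit 0) (nat_lit 7270272076) (nat_lit 5) (nat_lit 5) (nat_lit 7) (nat_lit 4) (nat_lit 5) (nat_lit 4) (nat_lit 369) (nat_lit 215) (nat_lit 196)))) (XT.nd (nat_lit 78) (nat_lit 0) (nat_lit 0) (XT.lf (nat_lit 0) (nat_lit 15063520568) (nat_lit 152) (nat_lit 14142367460) (nat_lit 0) (nat_lit 9727031676) (nat_lit 5) (nat_lit 5) (nat_lit 7) (nat_lit 4) (nat_lit 5) (nat_lit 4) (nat_lit 370) (nat_lit 215) (nat_lit 195)) (XT.nd (nat_lit 78) (nat_lit 0) (nat_lit 0) (XT.lf (nat_lit 0) (nat_lit 17757823797) (nat_lit 152) (nat_lit 10034008749) (nat_lit 0) (nat_lit 12228518197) (nat_lit 5) (nat_lit 5) (nat_lit 7) (nat_lit 4) (nat_lit 5) (nat_lit 4) (nat_lit 371) (nat_lit 215) (nat_lit 194)) (XT.lf (nat_lit 0) (nat_lit 20493423691) (nat_lit 152) (nat_lit 5871287950) (nat_lit 0) (nat_lit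 14776917402) (nat_lit 5) (nat_lit 5) (nat_lit 7) (nat_lit 4) (nat_lit 5) (nat_lit 4) (nat_lit 372) (nat_lit 215) (nat_lit 193))))))))
noncomputable def xc16 : XT := (XT.nd (nat_lit 1716) (nat_lit 0) (nat_lit 0) (XT.nd (nat_lit 858) (nat_lit 152) (nat_lit 0) (XT.nd (nat_lit 390) (nat_lit 0) (nat_lit 0) (XT.nd (nat_lit 156) (nat_lit 0) (nat_lit 0) (XT.nd (nat_lit 78) (nat_lit 76) (nat_lit 0) (XT.lf (nat_lit 0) (nat_lit 23272710578) (nat_lit 152) (nat_lit 1650567736) (nat_lit 0) (nat_lit 17374456049) (nat_lit 5) (nat_lit 5) (nat_lit 7) (nat_lit 4) (nat_lit 5) (nat_lit 4) (nat_lit 373) (nat_lit 215) (nat_lit 192)) (XT.lf (nat_lit 0) (nat_lit 2684218677) (nat_lit 76) (nat_lit 23439696637) (nat_lit 76) (nat_lit 17364987504) (nat_lit 4) (nat_lit 4) (nat_lit 5) (nat_lit 5) (nat_lit 5) (nat_lit 4) (nat_lit 374) (nat_lit 215) (nat_lit 191))) (XT.nd (nat_lit 78) (nat_lit 0) (nat_lit 0) (XT.lf (nat_lit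 0) (nat_lit 7118586131) (nat_lit 76) (nat_lit 21921941716) (nat_lit 76) (nat_lit 15675917434) (nat_lit 4) (nat_lit 4) (nat_lit 5) (nat_lit 5) (nat_lit 5) (nat_lit 4) (nat_lit 375) (nat_lit 215) (nat_lit 190)) (XT.nd (nat_lit 78) (nat_lit 0) (nat_lit 0) (XT.lf (nat_lit 0) (nat_lit 11623559781) (nat_lit 76) (nat_lit 20385354854) (nat_lit 76) (nat_lit 13973005186) (nat_lit 4) (nat_lit 4) (nat_lit 5) (nat_lit 5) (nat_lit 5) (nat_lit 4) (nat_lit 376) (nat_lit 215) (nat_lit 189)) (XT.lf (nat_lit 0) (nat_lit 16203076012) (nat_lit 76) (nat_lit 18828593403) (nat_lit 76) (nat_lit 12254762777) (nat_lit 4) (nat_lit 4) (nat_lit 5) (nat_lit 5) (nat_lit 5) (nat_lit 4) (nat_lit 377) (nat_lit 215) (nat_lit 188))))) (XT.nd (nat_lit 234) (nat_lit 0) (nat_lit 0) (XT.nd (nat_lit 78) (nat_lit 0) (nat_lit 0) (XT.lf (nat_lit 0) (nat_lit 20861136342) (nat_lit 76) (nat_lit 17250297087) (nat_lit 76) (nat_lit 10519688831)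 (nat_lit 4) (nat_lit 4) (nat_lit 5) (nat_lit 5) (nat_lit 5) (nat_lit 4) (nat_lit 378) (nat_lit 215) (nat_lit 187)) (XT.nd (nat_lit 78) (nat_lit 0) (nat_lit 0) (XT.lf (nat_lit 0) (nat_lit 25601810922) (nat_lit 76) (nat_lit 15649086810) (nat_lit 76) (nat_lit 8766267264) (nat_lit 4) (nat_lit 4) (nat_lit 5) (nat_lit 5) (nat_lit 5) (nat_lit 4) (nat_lit 379) (nat_lit 215) (nat_lit 186)) (XT.lf (nat_lit 0) (nat_lit 30429242088) (nat_lit 76) (nat_lit 14023563458) (nat_lit 76) (nat_lit 6992965960) (nat_lit 4) (nat_lit 4) (nat_lit 5) (nat_lit 5) (nat_lit 5) (nat_lit 4) (nat_lit 380) (nat_lit 215) (nat_lit 185)))) (XT.nd (nat_lit 78) (nat_lit 0) (nat_lit 0) (XT.lf (nat_lit 0) (nat_lit 35347647985) (nat_lit 76) (nat_lit 12372306670) (nat_lit 76) (nat_lit 5198235432) (nat_lit 4) (nat_lit 4) (nat_lit 5) (nat_lit 5) (nat_lit 5) (nat_lit 4) (nat_lit 381) (nat_lit 215) (nat_lit 184)) (XT.nd (nat_lit 78) (nat_lit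 0) (nat_lit 0) (XT.lf (nat_lit 0) (nat_lit 40361326248) (nat_lit 76) (nat_lit 10693873601) (nat_lit 76) (nat_lit 3380507470) (nat_lit 4) (nat_lit 4) (nat_lit 5) (nat_lit 5) (nat_lit 5) (nat_lit 4) (nat_lit 382) (nat_lit 215) (nat_lit 183)) (XT.lf (nat_lit 0) (nat_lit 45474657761) (nat_lit 76) (nat_lit 8986797658) (nat_lit 76) (nat_lit 1538193767) (nat_lit 4) (nat_lit 4) (nat_lit 5) (nat_lit 5) (nat_lit 5) (nat_lit 4) (nat_lit 383) (nat_lit 215) (nat_lit 182)))))) (XT.nd (nat_lit 390) (nat_lit 0) (nat_lit 0) (XT.nd (nat_lit 156) (nat_lit 76) (nat_lit 0) (XT.nd (nat_lit 78) (nat_lit 0) (nat_lit 0) (XT.lf (nat_lit 0) (nat_lit 323869820) (nat_lit 152) (nat_lit 6922446951) (nat_lit 76) (nat_lit 50364970214) (nat_lit 3) (nat_lit 5) (nat_lit 5) (nat_lit 5) (nat_lit 4) (nat_lit 4) (nat_lit 384) (nat_lit 215) (nat_lit 181)) (XT.lf (nat_lit 0) (nat_lit 2183202886) (nat_lit 152) (nat_lit 3275475386) (nat_lit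 76) (nat_lit 53812994403) (nat_lit 3) (nat_lit 5) (nat_lit 5) (nat_lit 5) (nat_lit 4) (nat_lit 4) (nat_lit 385) (nat_lit 215) (nat_lit 180))) (XT.nd (nat_lit 78) (nat_lit 0) (nat_lit 0) (XT.lf (nat_lit 0) (nat_lit 442531383) (nat_lit 76) (nat_lit 3633168290) (nat_lit 152) (nat_lit 56906873371) (nat_lit 2) (nat_lit 5) (nat_lit 3) (nat_lit 5) (nat_lit 4) (nat_lit 4) (nat_lit 386) (nat_lit 215) (nat_lit 179)) (XT.nd (nat_lit 78) (nat_lit 0) (nat_lit 0) (XT.lf (nat_lit 0) (nat_lit 4292673943) (nat_lit 76) (nat_lit 1738838321) (nat_lit 152) (nat_lit 56713115836) (nat_lit 2) (nat_lit 5) (nat_lit 3) (nat_lit 5) (nat_lit 4) (nat_lit 4) (nat_lit 387) (nat_lit 215) (nat_lit 178)) (XT.lf (nat_lit 0) (nat_lit 8022091302) (nat_lit 152) (nat_lit 56349066951) (nat_lit 0) (nat_lit 189126998) (nat_lit 2) (nat_lit 5) (nat_lit 4) (nat_lit 4) (nat_lit 2) (nat_lit 4) (nat_lit 388) (nat_lit 215) (nat_lit 177)))))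 (XT.nd (nat_lit 234) (nat_lit 0) (nat_lit 0) (XT.nd (nat_lit 78) (nat_lit 0) (nat_lit 0) (XT.lf (nat_lit 0) (nat_lit 10064410831) (nat_lit 152) (nat_lit 54244777271) (nat_lit 0) (nat_lit 2121485852) (nat_lit 2) (nat_lit 5) (nat_lit 4) (nat_lit 4) (nat_lit 2) (nat_lit 4) (nat_lit 389) (nat_lit 215) (nat_lit 176)) (XT.nd (nat_lit 78) (nat_lit 0) (nat_lit 0) (XT.lf (nat_lit 0) (nat_lit 12143540624) (nat_lit 152) (nat_lit 52120531640) (nat_lit 0) (nat_lit 4093857708) (nat_lit 2) (nat_lit 5) (nat_lit 4) (nat_lit 4) (nat_lit 2) (nat_lit 4) (nat_lit 390) (nat_lit 215) (nat_lit 175)) (XT.lf (nat_lit 0) (nat_lit 14261297397) (nat_lit 152) (nat_lit 49974473920) (nat_lit 0) (nat_lit 6107965999) (nat_lit 2) (nat_lit 5) (nat_lit 4) (nat_lit 4) (nat_lit 2) (nat_lit 4) (nat_lit 391) (nat_lit 215) (nat_lit 174)))) (XT.nd (nat_lit 78) (nat_lit 0) (nat_lit 0) (XT.lf (nat_lit 0) (nat_lit 16419531616) (nat_lit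 152) (nat_lit 47804728916) (nat_lit 0) (nat_lit 8165570623) (nat_lit 2) (nat_lit 5) (nat_lit 4) (nat_lit 4) (nat_lit 2) (nat_lit 4) (nat_lit 392) (nat_lit 215) (nat_lit 173)) (XT.nd (nat_lit 78) (nat_lit 0) (nat_lit 0) (XT.lf (nat_lit 0) (nat_lit 18620129117) (nat_lit 152) (nat_lit 45609400734) (nat_lit 0) (nat_lit 10268469490) (nat_lit 2) (nat_lit 5) (nat_lit 4) (nat_lit 4) (nat_lit 2) (nat_lit 4) (nat_lit 393) (nat_lit 215) (nat_lit 172)) (XT.lf (nat_lit 0) (nat_lit 20865012753) (nat_lit 152) (nat_lit 43386571127) (nat_lit 0) (nat_lit 12418500082) (nat_lit 2) (nat_lit 5) (nat_lit 4) (nat_lit 4) (nat_lit 2) (nat_lit 4) (nat_lit 394) (nat_lit 215) (nat_lit 171))))))) (XT.nd (nat_lit 37128) (nat_lit 0) (nat_lit 380) (XT.nd (nat_lit 390) (nat_lit 0) (nat_lit 0) (XT.nd (nat_lit 156) (nat_lit 0) (nat_lit 0) (XT.nd (nat_lit 78) (nat_lit 0) (nat_lit 0) (XT.lf (nat_lit 0) (nat_lit 23156144073) (nat_lit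 152) (nat_lit 41134297815) (nat_lit 0) (nat_lit 14617541067) (nat_lit 2) (nat_lit 5) (nat_lit 4) (nat_lit 4) (nat_lit 2) (nat_lit 4) (nat_lit 395) (nat_lit 215) (nat_lit 170)) (XT.lf (nat_lit 0) (nat_lit 25495525035) (nat_lit 152) (nat_lit 38850612793) (nat_lit 0) (nat_lit 16867513938) (nat_lit 2) (nat_lit 5) (nat_lit 4) (nat_lit 4) (nat_lit 2) (nat_lit 4) (nat_lit 396) (nat_lit 215) (nat_lit 169))) (XT.nd (nat_lit 78) (nat_lit 0) (nat_lit 0) (XT.lf (nat_lit 0) (nat_lit 27885199759) (nat_lit 152) (nat_lit 36533520608) (nat_lit 0) (nat_lit 19170384690) (nat_lit 2) (nat_lit 5) (nat_lit 4) (nat_lit 4) (nat_lit 2) (nat_lit 4) (nat_lit 397) (nat_lit 215) (nat_lit 168)) (XT.nd (nat_lit 78) (nat_lit 0) (nat_lit 0) (XT.lf (nat_lit 0) (nat_lit 30327256310) (nat_lit 152) (nat_lit 34180996616) (nat_lit 0) (nat_lit 21528165540) (nat_lit 2) (nat_lit 5) (nat_lit 4) (nat_lit 4) (nat_lit 2) (nat_lit 4) (nat_lit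 398) (nat_lit 215) (nat_lit 167)) (XT.lf (nat_lit 0) (nat_lit 32823828525) (nat_lit 152) (nat_lit 31790985214) (nat_lit 0) (nat_lit 23942916686) (nat_lit 2) (nat_lit 5) (nat_lit 4) (nat_lit 4) (nat_lit 2) (nat_lit 4) (nat_lit 399) (nat_lit 215) (nat_lit 166))))) (XT.nd (nat_lit 234) (nat_lit 0) (nat_lit 0) (XT.nd (nat_lit 78) (nat_lit 0) (nat_lit 0) (XT.lf (nat_lit 0) (nat_lit 35377097873) (nat_lit 152) (nat_lit 29361398043) (nat_lit 0) (nat_lit 26416748103) (nat_lit 2) (nat_lit 5) (nat_lit 4) (nat_lit 4) (nat_lit 2) (nat_lit 4) (nat_lit 400) (nat_lit 215) (nat_lit 165)) (XT.nd (nat_lit 78) (nat_lit 0) (nat_lit 0) (XT.lf (nat_lit 0) (nat_lit 37989295368) (nat_lit 152) (nat_lit 26890112162) (nat_lit 0) (nat_lit 28951821393) (nat_lit 2) (nat_lit 5) (nat_lit 4) (nat_lit 4) (nat_lit 2) (nat_lit 4) (nat_lit 401) (nat_lit 215) (nat_lit 164)) (XT.lf (nat_lit 0) (nat_lit 40662703511) (nat_lit 152) (nat_lit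 24374968195) (nat_lit 0) (nat_lit 31550351667) (nat_lit 2) (nat_lit 5) (nat_lit 4) (nat_lit 4) (nat_lit 2) (nat_lit 4) (nat_lit 402) (nat_lit 215) (nat_lit 163)))) (XT.nd (nat_lit 36348) (nat_lit 0) (nat_lit 760) (XT.lf (nat_lit 0) (nat_lit 43399658291) (nat_lit 152) (nat_lit 21813768444) (nat_lit 0) (nat_lit 34214609487) (nat_lit 2) (nat_lit 5) (nat_lit 4) (nat_lit 4) (nat_lit 2) (nat_lit 4) (nat_lit 403) (nat_lit 215) (nat_lit 162)) (XT.nd (nat_lit 78) (nat_lit 0) (nat_lit 0) (XT.lf (nat_lit 0) (nat_lit 3489071481) (nat_lit 152) (nat_lit 3943729275) (nat_lit 0) (nat_lit 3489071481) (nat_lit 12) (nat_lit 5) (nat_lit 14) (nat_lit 4) (nat_lit 12) (nat_lit 4) (nat_lit 348) (nat_lit 216) (nat_lit 216)) (XT.lf (nat_lit 0) (nat_lit 10232414875) (nat_lit 152) (nat_lit 2307743200) (nat_lit 0) (nat_lit 9851874419) (nat_lit 12) (nat_lit 5) (nat_lit 14) (nat_lit 4) (nat_lit 12) (nat_lit 4) (nat_lit 349)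 (nat_lit 216) (nat_lit 215)))))) (XT.nd (nat_lit 468) (nat_lit 76) (nat_lit 0) (XT.nd (nat_lit 234) (nat_lit 152) (nat_lit 0) (XT.nd (nat_lit 78) (nat_lit 0) (nat_lit 0) (XT.lf (nat_lit 0) (nat_lit 3393192004) (nat_lit 152) (nat_lit 10157331894) (nat_lit 152) (nat_lit 9407334685) (nat_lit 10) (nat_lit 4) (nat_lit 12) (nat_lit 5) (nat_lit 12) (nat_lit 4) (nat_lit 350) (nat_lit 216) (nat_lit 214)) (XT.nd (nat_lit 78) (nat_lit 0) (nat_lit 0) (XT.lf (nat_lit 0) (nat_lit 9201178549) (nat_lit 152) (nat_lit 7724757348) (nat_lit 152) (nat_lit 6616064262) (nat_lit 10) (nat_lit 4) (nat_lit 12) (nat_lit 5) (nat_lit 12) (nat_lit 4) (nat_lit 351) (nat_lit 216) (nat_lit 213)) (XT.lf (nat_lit 0) (nat_lit 15075362760) (nat_lit 152) (nat_lit 5263612569) (nat_lit 152) (nat_lit 3806671058) (nat_lit 10) (nat_lit 4) (nat_lit 12) (nat_lit 5) (nat_lit 12) (nat_lit 4) (nat_lit 352) (nat_lit 216) (nat_lit 212)))) (XT.nd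 (nat_lit 78) (nat_lit 152) (nat_lit 0) (XT.lf (nat_lit 0) (nat_lit 21020877419) (nat_lit 152) (nat_lit 2771747040) (nat_lit 152) (nat_lit 976700264) (nat_lit 10) (nat_lit 4) (nat_lit 12) (nat_lit 5) (nat_lit 12) (nat_lit 4) (nat_lit 353) (nat_lit 216) (nat_lit 211)) (XT.nd (nat_lit 78) (nat_lit 0) (nat_lit 0) (XT.lf (nat_lit 0) (nat_lit 1643369213) (nat_lit 76) (nat_lit 212134988) (nat_lit 152) (nat_lit 23557060924) (nat_lit 8) (nat_lit 5) (nat_lit 9) (nat_lit 5) (nat_lit 10) (nat_lit 4) (nat_lit 354) (nat_lit 216) (nat_lit 210)) (XT.lf (nat_lit 0) (nat_lit 4754311237) (nat_lit 152) (nat_lit 18937090258) (nat_lit 0) (nat_lit 2383436521) (nat_lit 8) (nat_lit 5) (nat_lit 10) (nat_lit 4) (nat_lit 8) (nat_lit 4) (nat_lit 355) (nat_lit 216) (nat_lit 209))))) (XT.nd (nat_lit 234) (nat_lit 76) (nat_lit 0) (XT.nd (nat_lit 78) (nat_lit 0) (nat_lit 0) (XT.lf (nat_lit 0) (nat_lit 7683674947) (nat_lit 152)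 (nat_lit 14062659841) (nat_lit 0) (nat_lit 5012398081) (nat_lit 8) (nat_lit 5) (nat_lit 10) (nat_lit 4) (nat_lit 8) (nat_lit 4) (nat_lit 356) (nat_lit 216) (nat_lit 208)) (XT.nd (nat_lit 78) (nat_lit 0) (nat_lit 0) (XT.lf (nat_lit 0) (nat_lit 10644115798) (nat_lit 152) (nat_lit 9139606282) (nat_lit 0) (nat_lit 7681186360) (nat_lit 8) (nat_lit 5) (nat_lit 10) (nat_lit 4) (nat_lit 8) (nat_lit 4) (nat_lit 357) (nat_lit 216) (nat_lit 207)) (XT.lf (nat_lit 0) (nat_lit 13638220585) (nat_lit 152) (nat_lit 4163627883) (nat_lit 0) (nat_lit 10392133309) (nat_lit 8) (nat_lit 5) (nat_lit 10) (nat_lit 4) (nat_lit 8) (nat_lit 4) (nat_lit 358) (nat_lit 216) (nat_lit 206)))) (XT.nd (nat_lit 78) (nat_lit 0) (nat_lit 0) (XT.lf (nat_lit 0) (nat_lit 886930507) (nat_lit 76) (nat_lit 15790200725) (nat_lit 76) (nat_lit 12269202927) (nat_lit 7) (nat_lit 4) (nat_lit 8) (nat_lit 5) (nat_lit 8) (nat_lit 4) (nat_lit 359)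 (nat_lit 216) (nat_lit 205)) (XT.nd (nat_lit 78) (nat_lit 0) (nat_lit 0) (XT.lf (nat_lit 0) (nat_lit 6083251396) (nat_lit 76) (nat_lit 13713143033) (nat_lit 76) (nat_lit 9925241815) (nat_lit 7) (nat_lit 4) (nat_lit 8) (nat_lit 5) (nat_lit 8) (nat_lit 4) (nat_lit 360) (nat_lit 216) (nat_lit 204)) (XT.lf (nat_lit 0) (nat_lit 11347010897) (nat_lit 76) (nat_lit 11610904965) (nat_lit 76) (nat_lit 7563874214) (nat_lit 7) (nat_lit 4) (nat_lit 8) (nat_lit 5) (nat_lit 8) (nat_lit 4) (nat_lit 361) (nat_lit 216) (nat_lit 203))))))))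
noncomputable def xc17 : XT := (XT.nd (nat_lit 1716) (nat_lit 152) (nat_lit 0) (XT.nd (nat_lit 858) (nat_lit 76) (nat_lit 0) (XT.nd (nat_lit 390) (nat_lit 0) (nat_lit 0) (XT.nd (nat_lit 156) (nat_lit 152) (nat_lit 0) (XT.nd (nat_lit 78) (nat_lit 0) (nat_lit 0) (XT.lf (nat_lit 0) (nat_lit 16682808413) (nat_lit 76) (nat_lit 9481649614) (nat_lit 76) (nat_lit 5183036792) (nat_lit 7) (nat_lit 4) (nat_lit 8) (nat_lit 5) (nat_lit 8) (nat_lit 4) (nat_lit 362) (nat_lit 216) (nat_lit 202)) (XT.lf (nat_lit 0) (nat_lit 22095306290) (nat_lit 76) (nat_lit 7323516466) (nat_lit 76) (nat_lit 2780649206) (nat_lit 7) (nat_lit 4) (nat_lit 8) (nat_lit 5) (nat_lit 8) (nat_lit 4) (nat_lit 363) (nat_lit 216) (nat_lit 201))) (XT.nd (nat_lit 78) (nat_lit 152) (nat_lit 0) (XT.lf (nat_lit 0) (nat_lit 27589233897) (nat_lit 76) (nat_lit 5134619773) (nat_lit 76) (nat_lit 354612282) (nat_lit 7) (nat_lit 4) (nat_lit 8) (nat_lit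 5) (nat_lit 8) (nat_lit 4) (nat_lit 364) (nat_lit 216) (nat_lit 200)) (XT.nd (nat_lit 78) (nat_lit 76) (nat_lit 0) (XT.lf (nat_lit 0) (nat_lit 2056270012) (nat_lit 152) (nat_lit 836012599) (nat_lit 76) (nat_lit 31092357444) (nat_lit 6) (nat_lit 5) (nat_lit 8) (nat_lit 5) (nat_lit 7) (nat_lit 4) (nat_lit 365) (nat_lit 216) (nat_lit 199)) (XT.lf (nat_lit 0) (nat_lit 3953199854) (nat_lit 76) (nat_lit 572400141) (nat_lit 152) (nat_lit 30392541066) (nat_lit 5) (nat_lit 5) (nat_lit 6) (nat_lit 5) (nat_lit 7) (nat_lit 4) (nat_lit 366) (nat_lit 216) (nat_lit 198))))) (XT.nd (nat_lit 234) (nat_lit 0) (nat_lit 0) (XT.nd (nat_lit 78) (nat_lit 0) (nat_lit 0) (XT.lf (nat_lit 0) (nat_lit 7050508323) (nat_lit 152) (nat_lit 27071252980) (nat_lit 0) (nat_lit 1758484011) (nat_lit 5) (nat_lit 5) (nat_lit 7) (nat_lit 4) (nat_lit 5) (nat_lit 4) (nat_lit 367) (nat_lit 216) (nat_lit 197)) (XT.nd (nat_lit 78) (nat_lit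 0) (nat_lit 0) (XT.lf (nat_lit 0) (nat_lit 9613633071) (nat_lit 152) (nat_lit 23141697949) (nat_lit 0) (nat_lit 4117049513) (nat_lit 5) (nat_lit 5) (nat_lit 7) (nat_lit 4) (nat_lit 5) (nat_lit 4) (nat_lit 368) (nat_lit 216) (nat_lit 196)) (XT.lf (nat_lit 0) (nat_lit 12211711604) (nat_lit 152) (nat_lit 19167340261) (nat_lit 0) (nat_lit 6516526836) (nat_lit 5) (nat_lit 5) (nat_lit 7) (nat_lit 4) (nat_lit 5) (nat_lit 4) (nat_lit 369) (nat_lit 216) (nat_lit 195)))) (XT.nd (nat_lit 78) (nat_lit 0) (nat_lit 0) (XT.lf (nat_lit 0) (nat_lit 14847014087) (nat_lit 152) (nat_lit 15144707176) (nat_lit 0) (nat_lit 8959012610) (nat_lit 5) (nat_lit 5) (nat_lit 7) (nat_lit 4) (nat_lit 5) (nat_lit 4) (nat_lit 370) (nat_lit 216) (nat_lit 194)) (XT.nd (nat_lit 78) (nat_lit 0) (nat_lit 0) (XT.lf (nat_lit 0) (nat_lit 17521843212) (nat_lit 152) (nat_lit 11070283772) (nat_lit 0) (nat_lit 11446641046) (nat_lit 5) (nat_lit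 5) (nat_lit 7) (nat_lit 4) (nat_lit 5) (nat_lit 4) (nat_lit 371) (nat_lit 216) (nat_lit 193)) (XT.lf (nat_lit 0) (nat_lit 20238536207) (nat_lit 152) (nat_lit 6940509874) (nat_lit 0) (nat_lit 13981585801) (nat_lit 5) (nat_lit 5) (nat_lit 7) (nat_lit 4) (nat_lit 5) (nat_lit 4) (nat_lit 372) (nat_lit 216) (nat_lit 192)))))) (XT.nd (nat_lit 390) (nat_lit 0) (nat_lit 0) (XT.nd (nat_lit 156) (nat_lit 0) (nat_lit 0) (XT.nd (nat_lit 78) (nat_lit 76) (nat_lit 0) (XT.lf (nat_lit 0) (nat_lit 22999466883) (nat_lit 152) (nat_lit 2751776941) (nat_lit 0) (nat_lit 16566061874) (nat_lit 5) (nat_lit 5) (nat_lit 7) (nat_lit 4) (nat_lit 5) (nat_lit 4) (nat_lit 373) (nat_lit 216) (nat_lit 191)) (XT.lf (nat_lit 0) (nat_lit 1529419568) (nat_lit 76) (nat_lit 24292329851) (nat_lit 76) (nat_lit 17687609693) (nat_lit 4) (nat_lit 4) (nat_lit 5) (nat_lit 5) (nat_lit 5) (nat_lit 4) (nat_lit 374) (nat_lit 216) (nat_lit 190)))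 (XT.nd (nat_lit 78) (nat_lit 0) (nat_lit 0) (XT.lf (nat_lit 0) (nat_lit 5933035875) (nat_lit 76) (nat_lit 22787727987) (nat_lit 76) (nat_lit 16016682442) (nat_lit 4) (nat_lit 4) (nat_lit 5) (nat_lit 5) (nat_lit 5) (nat_lit 4) (nat_lit 375) (nat_lit 216) (nat_lit 189)) (XT.nd (nat_lit 78) (nat_lit 0) (nat_lit 0) (XT.lf (nat_lit 0) (nat_lit 10408154043) (nat_lit 76) (nat_lit 21263911085) (nat_lit 76) (nat_lit 14331384581) (nat_lit 4) (nat_lit 4) (nat_lit 5) (nat_lit 5) (nat_lit 5) (nat_lit 4) (nat_lit 376) (nat_lit 216) (nat_lit 188)) (XT.lf (nat_lit 0) (nat_lit 14958684369) (nat_lit 76) (nat_lit 19719547652) (nat_lit 76) (nat_lit 12630243520) (nat_lit 4) (nat_lit 4) (nat_lit 5) (nat_lit 5) (nat_lit 5) (nat_lit 4) (nat_lit 377) (nat_lit 216) (nat_lit 187))))) (XT.nd (nat_lit 234) (nat_lit 0) (nat_lit 0) (XT.nd (nat_lit 78) (nat_lit 0) (nat_lit 0) (XT.lf (nat_lit 0) (nat_lit 19588603044) (nat_lit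 76) (nat_lit 18153288247) (nat_lit 76) (nat_lit 10911772824) (nat_lit 4) (nat_lit 4) (nat_lit 5) (nat_lit 5) (nat_lit 5) (nat_lit 4) (nat_lit 378) (nat_lit 216) (nat_lit 186)) (XT.nd (nat_lit 78) (nat_lit 0) (nat_lit 0) (XT.lf (nat_lit 0) (nat_lit 24301955628) (nat_lit 76) (nat_lit 16563764292) (nat_lit 76) (nat_lit 9174470917) (nat_lit 4) (nat_lit 4) (nat_lit 5) (nat_lit 5) (nat_lit 5) (nat_lit 4) (nat_lit 379) (nat_lit 216) (nat_lit 185)) (XT.lf (nat_lit 0) (nat_lit 29102860585) (nat_lit 76) (nat_lit 14949586883) (nat_lit 76) (nat_lit 7416819768) (nat_lit 4) (nat_lit 4) (nat_lit 5) (nat_lit 5) (nat_lit 5) (nat_lit 4) (nat_lit 380) (nat_lit 216) (nat_lit 184)))) (XT.nd (nat_lit 78) (nat_lit 0) (nat_lit 0) (XT.lf (nat_lit 0) (nat_lit 33995512881) (nat_lit 76) (nat_lit 13309345574) (nat_lit 76) (nat_lit 5637283566) (nat_lit 4) (nat_lit 4) (nat_lit 5) (nat_lit 5) (nat_lit 5) (nat_lit 4) (nat_lit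 381) (nat_lit 216) (nat_lit 183)) (XT.nd (nat_lit 78) (nat_lit 0) (nat_lit 0) (XT.lf (nat_lit 0) (nat_lit 38984187647) (nat_lit 76) (nat_lit 11641607144) (nat_lit 76) (nat_lit 3834307376) (nat_lit 4) (nat_lit 4) (nat_lit 5) (nat_lit 5) (nat_lit 5) (nat_lit 4) (nat_lit 382) (nat_lit 216) (nat_lit 182)) (XT.lf (nat_lit 0) (nat_lit 44073243922) (nat_lit 76) (nat_lit 9944914347) (nat_lit 76) (nat_lit 2006315783) (nat_lit 4) (nat_lit 4) (nat_lit 5) (nat_lit 5) (nat_lit 5) (nat_lit 4) (nat_lit 383) (nat_lit 216) (nat_lit 181))))))) (XT.nd (nat_lit 858) (nat_lit 0) (nat_lit 0) (XT.nd (nat_lit 390) (nat_lit 0) (nat_lit 0) (XT.nd (nat_lit 156) (nat_lit 76) (nat_lit 0) (XT.nd (nat_lit 78) (nat_lit 76) (nat_lit 0) (XT.lf (nat_lit 0) (nat_lit 49267128452) (nat_lit 76) (nat_lit 8217784634) (nat_lit 76) (nat_lit 151711510) (nat_lit 4) (nat_lit 4) (nat_lit 5) (nat_lit 5) (nat_lit 5) (nat_lit 4) (nat_lit 384)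 (nat_lit 216) (nat_lit 180)) (XT.lf (nat_lit 0) (nat_lit 1697345464) (nat_lit 152) (nat_lit 4744223539) (nat_lit 76) (nat_lit 52855894258) (nat_lit 3) (nat_lit 5) (nat_lit 5) (nat_lit 5) (nat_lit 4) (nat_lit 4) (nat_lit 385) (nat_lit 216) (nat_lit 179))) (XT.nd (nat_lit 78) (nat_lit 76) (nat_lit 0) (XT.lf (nat_lit 0) (nat_lit 3572737370) (nat_lit 152) (nat_lit 1057334967) (nat_lit 76) (nat_lit 56378816213) (nat_lit 3) (nat_lit 5) (nat_lit 5) (nat_lit 5) (nat_lit 4) (nat_lit 4) (nat_lit 386) (nat_lit 216) (nat_lit 178)) (XT.nd (nat_lit 78) (nat_lit 0) (nat_lit 0) (XT.lf (nat_lit 0) (nat_lit 2749502155) (nat_lit 76) (nat_lit 2755991078) (nat_lit 152) (nat_lit 57266153506) (nat_lit 2) (nat_lit 5) (nat_lit 3) (nat_lit 5) (nat_lit 4) (nat_lit 4) (nat_lit 387) (nat_lit 216) (nat_lit 177)) (XT.lf (nat_lit 0) (nat_lit 6648342346) (nat_lit 76) (nat_lit 833554674) (nat_lit 152) (nat_lit 57105843228) (nat_lit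 2) (nat_lit 5) (nat_lit 3) (nat_lit 5) (nat_lit 4) (nat_lit 4) (nat_lit 388) (nat_lit 216) (nat_lit 176))))) (XT.nd (nat_lit 234) (nat_lit 0) (nat_lit 0) (XT.nd (nat_lit 78) (nat_lit 0) (nat_lit 0) (XT.lf (nat_lit 0) (nat_lit 9504154985) (nat_lit 152) (nat_lit 55848362944) (nat_lit 0) (nat_lit 1106223645) (nat_lit 2) (nat_lit 5) (nat_lit 4) (nat_lit 4) (nat_lit 2) (nat_lit 4) (nat_lit 389) (nat_lit 216) (nat_lit 175)) (XT.nd (nat_lit 78) (nat_lit 0) (nat_lit 0) (XT.lf (nat_lit 0) (nat_lit 11571586790) (nat_lit 152) (nat_lit 53744765234) (nat_lit 0) (nat_lit 3070006968) (nat_lit 2) (nat_lit 5) (nat_lit 4) (nat_lit 4) (nat_lit 2) (nat_lit 4) (nat_lit 390) (nat_lit 216) (nat_lit 174)) (XT.lf (nat_lit 0) (nat_lit 13677986294) (nat_lit 152) (nat_lit 51618754040) (nat_lit 0) (nat_lit 5075776877) (nat_lit 2) (nat_lit 5) (nat_lit 4) (nat_lit 4) (nat_lit 2) (nat_lit 4) (nat_lit 391) (nat_lit 216) (nat_lit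 173)))) (XT.nd (nat_lit 78) (nat_lit 0) (nat_lit 0) (XT.lf (nat_lit 0) (nat_lit 15825194038) (nat_lit 152) (nat_lit 49468471683) (nat_lit 0) (nat_lit 7125285986) (nat_lit 2) (nat_lit 5) (nat_lit 4) (nat_lit 4) (nat_lit 2) (nat_lit 4) (nat_lit 392) (nat_lit 216) (nat_lit 172)) (XT.nd (nat_lit 78) (nat_lit 0) (nat_lit 0) (XT.lf (nat_lit 0) (nat_lit 18015086224) (nat_lit 152) (nat_lit 47292039274) (nat_lit 0) (nat_lit 9220325128) (nat_lit 2) (nat_lit 5) (nat_lit 4) (nat_lit 4) (nat_lit 2) (nat_lit 4) (nat_lit 393) (nat_lit 216) (nat_lit 171)) (XT.lf (nat_lit 0) (nat_lit 20249576350) (nat_lit 152) (nat_lit 45087555077) (nat_lit 0) (nat_lit 11362724920) (nat_lit 2) (nat_lit 5) (nat_lit 4) (nat_lit 4) (nat_lit 2) (nat_lit 4) (nat_lit 394) (nat_lit 216) (nat_lit 170)))))) (XT.nd (nat_lit 468) (nat_lit 0) (nat_lit 0) (XT.nd (nat_lit 234) (nat_lit 0) (nat_lit 0) (XT.nd (nat_lit 78) (nat_lit 0) (nat_lit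 0) (XT.lf (nat_lit 0) (nat_lit 22530616883) (nat_lit 152) (nat_lit 42853092844) (nat_lit 0) (nat_lit 13554357361) (nat_lit 2) (nat_lit 5) (nat_lit 4) (nat_lit 4) (nat_lit 2) (nat_lit 4) (nat_lit 395) (nat_lit 216) (nat_lit 169)) (XT.nd (nat_lit 78) (nat_lit 0) (nat_lit 0) (XT.lf (nat_lit 0) (nat_lit 24860200964) (nat_lit 152) (nat_lit 40586700131) (nat_lit 0) (nat_lit 15797137471) (nat_lit 2) (nat_lit 5) (nat_lit 4) (nat_lit 4) (nat_lit 2) (nat_lit 4) (nat_lit 396) (nat_lit 216) (nat_lit 168)) (XT.lf (nat_lit 0) (nat_lit 27240364154) (nat_lit 152) (nat_lit 38286396596) (nat_lit 0) (nat_lit 18093024960) (nat_lit 2) (nat_lit 5) (nat_lit 4) (nat_lit 4) (nat_lit 2) (nat_lit 4) (nat_lit 397) (nat_lit 216) (nat_lit 167)))) (XT.nd (nat_lit 78) (nat_lit 0) (nat_lit 0) (XT.lf (nat_lit 0) (nat_lit 29673186207) (nat_lit 152) (nat_lit 35950172264) (nat_lit 0) (nat_lit 20444025943) (nat_lit 2) (nat_lit 5)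 (nat_lit 4) (nat_lit 4) (nat_lit 2) (nat_lit 4) (nat_lit 398) (nat_lit 216) (nat_lit 166)) (XT.nd (nat_lit 78) (nat_lit 0) (nat_lit 0) (XT.lf (nat_lit 0) (nat_lit 32160792888) (nat_lit 152) (nat_lit 33575985775) (nat_lit 0) (nat_lit 22852194693) (nat_lit 2) (nat_lit 5) (nat_lit 4) (nat_lit 4) (nat_lit 2) (nat_lit 4) (nat_lit 399) (nat_lit 216) (nat_lit 165)) (XT.lf (nat_lit 0) (nat_lit 34705357835) (nat_lit 152) (nat_lit 31161762596) (nat_lit 0) (nat_lit 25319635436) (nat_lit 2) (nat_lit 5) (nat_lit 4) (nat_lit 4) (nat_lit 2) (nat_lit 4) (nat_lit 400) (nat_lit 216) (nat_lit 164))))) (XT.nd (nat_lit 36348) (nat_lit 0) (nat_lit 760) (XT.nd (nat_lit 78) (nat_lit 0) (nat_lit 0) (XT.lf (nat_lit 0) (nat_lit 37309104455) (nat_lit 152) (nat_lit 28705393213) (nat_lit 0) (nat_lit 27848504186) (nat_lit 2) (nat_lit 5) (nat_lit 4) (nat_lit 4) (nat_lit 2) (nat_lit 4) (nat_lit 401) (nat_lit 216) (nat_lit 163))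 (XT.nd (nat_lit 78) (nat_lit 0) (nat_lit 0) (XT.lf (nat_lit 0) (nat_lit 39974307865) (nat_lit 152) (nat_lit 26204731283) (nat_lit 0) (nat_lit 30441010637) (nat_lit 2) (nat_lit 5) (nat_lit 4) (nat_lit 4) (nat_lit 2) (nat_lit 4) (nat_lit 402) (nat_lit 216) (nat_lit 162)) (XT.lf (nat_lit 0) (nat_lit 42703296885) (nat_lit 152) (nat_lit 23657591761) (nat_lit 0) (nat_lit 33099420083) (nat_lit 2) (nat_lit 5) (nat_lit 4) (nat_lit 4) (nat_lit 2) (nat_lit 4) (nat_lit 403) (nat_lit 216) (nat_lit 161)))) (XT.nd (nat_lit 78) (nat_lit 0) (nat_lit 0) (XT.lf (nat_lit 0) (nat_lit 489285634) (nat_lit 152) (nat_lit 9421297184) (nat_lit 0) (nat_lit 489285634) (nat_lit 12) (nat_lit 5) (nat_lit 14) (nat_lit 4) (nat_lit 12) (nat_lit 4) (nat_lit 346) (nat_lit 217) (nat_lit 217)) (XT.nd (nat_lit 78) (nat_lit 0) (nat_lit 0) (XT.lf (nat_lit 0) (nat_lit 4144203858) (nat_lit 152) (nat_lit 13417042921) (nat_lit 0) (nat_lit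 3752247189) (nat_lit 12) (nat_lit 5) (nat_lit 14) (nat_lit 4) (nat_lit 12) (nat_lit 4) (nat_lit 347) (nat_lit 217) (nat_lit 216)) (XT.lf (nat_lit 0) (nat_lit 7336404689) (nat_lit 152) (nat_lit 7944481482) (nat_lit 0) (nat_lit 6563907563) (nat_lit 12) (nat_lit 5) (nat_lit 14) (nat_lit 4) (nat_lit 12) (nat_lit 4) (nat_lit 348) (nat_lit 217) (nat_lit 215))))))))
noncomputable def xc18 : XT := (XT.nd (nat_lit 1716) (nat_lit 228) (nat_lit 0) (XT.nd (nat_lit 858) (nat_lit 152) (nat_lit 0) (XT.nd (nat_lit 390) (nat_lit 228) (nat_lit 0) (XT.nd (nat_lit 156) (nat_lit 0) (nat_lit 0) (XT.nd (nat_lit 78) (nat_lit 152) (nat_lit 0) (XT.lf (nat_lit 0) (nat_lit 10557963062) (nat_lit 152) (nat_lit 2420128203) (nat_lit 0) (nat_lit 9416009184) (nat_lit 12) (nat_lit 5) (nat_lit 14) (nat_lit 4) (nat_lit 12) (nat_lit 4) (nat_lit 349) (nat_lit 217) (nat_lit 214)) (XT.lf (nat_lit 0) (nat_lit 3223751014) (nat_lit 152)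 (nat_lit 10618931584) (nat_lit 152) (nat_lit 9118281829) (nat_lit 10) (nat_lit 4) (nat_lit 12) (nat_lit 5) (nat_lit 12) (nat_lit 4) (nat_lit 350) (nat_lit 217) (nat_lit 213))) (XT.nd (nat_lit 78) (nat_lit 0) (nat_lit 0) (XT.lf (nat_lit 0) (nat_lit 8978514934) (nat_lit 152) (nat_lit 8208232409) (nat_lit 152) (nat_lit 6359334230) (nat_lit 10) (nat_lit 4) (nat_lit 12) (nat_lit 5) (nat_lit 12) (nat_lit 4) (nat_lit 351) (nat_lit 217) (nat_lit 212)) (XT.nd (nat_lit 78) (nat_lit 0) (nat_lit 0) (XT.lf (nat_lit 0) (nat_lit 14801026692) (nat_lit 152) (nat_lit 5768325854) (nat_lit 152) (nat_lit 3581322408) (nat_lit 10) (nat_lit 4) (nat_lit 12) (nat_lit 5) (nat_lit 12) (nat_lit 4) (nat_lit 352) (nat_lit 217) (nat_lit 211)) (XT.lf (nat_lit 0) (nat_lit 20696373921) (nat_lit 152) (nat_lit 3297079960) (nat_lit 152) (nat_lit 781818974) (nat_lit 10) (nat_lit 4) (nat_lit 12) (nat_lit 5) (nat_lit 12) (nat_lit 4)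 (nat_lit 353) (nat_lit 217) (nat_lit 210))))) (XT.nd (nat_lit 234) (nat_lit 76) (nat_lit 0) (XT.nd (nat_lit 78) (nat_lit 0) (nat_lit 0) (XT.lf (nat_lit 0) (nat_lit 1254134203) (nat_lit 76) (nat_lit 759704136) (nat_lit 152) (nat_lit 23405632279) (nat_lit 8) (nat_lit 5) (nat_lit 9) (nat_lit 5) (nat_lit 10) (nat_lit 4) (nat_lit 354) (nat_lit 217) (nat_lit 209)) (XT.nd (nat_lit 78) (nat_lit 0) (nat_lit 0) (XT.lf (nat_lit 0) (nat_lit 4878560188) (nat_lit 152) (nat_lit 19377493330) (nat_lit 0) (nat_lit 1826742867) (nat_lit 8) (nat_lit 5) (nat_lit 10) (nat_lit 4) (nat_lit 8) (nat_lit 4) (nat_lit 355) (nat_lit 217) (nat_lit 208)) (XT.lf (nat_lit 0) (nat_lit 7779941746) (nat_lit 152) (nat_lit 14551146544) (nat_lit 0) (nat_lit 4436471851) (nat_lit 8) (nat_lit 5) (nat_lit 10) (nat_lit 4) (nat_lit 8) (nat_lit 4) (nat_lit 356) (nat_lit 217) (nat_lit 207)))) (XT.nd (nat_lit 78) (nat_lit 76) (nat_lit 0) (XT.lf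 (nat_lit 0) (nat_lit 10713215459) (nat_lit 152) (nat_lit 9674776121) (nat_lit 0) (nat_lit 7086587727) (nat_lit 8) (nat_lit 5) (nat_lit 10) (nat_lit 4) (nat_lit 8) (nat_lit 4) (nat_lit 357) (nat_lit 217) (nat_lit 206)) (XT.nd (nat_lit 78) (nat_lit 76) (nat_lit 0) (XT.lf (nat_lit 0) (nat_lit 13680944383) (nat_lit 152) (nat_lit 4744121154) (nat_lit 0) (nat_lit 9779406129) (nat_lit 8) (nat_lit 5) (nat_lit 10) (nat_lit 4) (nat_lit 8) (nat_lit 4) (nat_lit 358) (nat_lit 217) (nat_lit 205)) (XT.lf (nat_lit 0) (nat_lit 250005196) (nat_lit 76) (nat_lit 16438119685) (nat_lit 76) (nat_lit 12269678012) (nat_lit 7) (nat_lit 4) (nat_lit 8) (nat_lit 5) (nat_lit 8) (nat_lit 4) (nat_lit 359) (nat_lit 217) (nat_lit 204)))))) (XT.nd (nat_lit 390) (nat_lit 152) (nat_lit 0) (XT.nd (nat_lit 156) (nat_lit 0) (nat_lit 0) (XT.nd (nat_lit 78) (nat_lit 0) (nat_lit 0) (XT.lf (nat_lit 0) (nat_lit 5402754156) (nat_lit 76)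 (nat_lit 14379353301) (nat_lit 76) (nat_lit 9951782095) (nat_lit 7) (nat_lit 4) (nat_lit 8) (nat_lit 5) (nat_lit 8) (nat_lit 4) (nat_lit 360) (nat_lit 217) (nat_lit 203)) (XT.lf (nat_lit 0) (nat_lit 10624210815) (nat_lit 76) (nat_lit 12294873784) (nat_lit 76) (nat_lit 7615720507) (nat_lit 7) (nat_lit 4) (nat_lit 8) (nat_lit 5) (nat_lit 8) (nat_lit 4) (nat_lit 361) (nat_lit 217) (nat_lit 202))) (XT.nd (nat_lit 78) (nat_lit 0) (nat_lit 0) (XT.lf (nat_lit 0) (nat_lit 15918937609) (nat_lit 76) (nat_lit 10182859745) (nat_lit 76) (nat_lit 5259452030) (nat_lit 7) (nat_lit 4) (nat_lit 8) (nat_lit 5) (nat_lit 8) (nat_lit 4) (nat_lit 362) (nat_lit 217) (nat_lit 201)) (XT.nd (nat_lit 78) (nat_lit 0) (nat_lit 0) (XT.lf (nat_lit 0) (nat_lit 21291561001) (nat_lit 76) (nat_lit 8041465735) (nat_lit 76) (nat_lit 2880917789) (nat_lit 7) (nat_lit 4) (nat_lit 8) (nat_lit 5) (nat_lit 8) (nat_lit 4) (nat_lit 363)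 (nat_lit 217) (nat_lit 200)) (XT.lf (nat_lit 0) (nat_lit 26746775514) (nat_lit 76) (nat_lit 5868820632) (nat_lit 76) (nat_lit 478039452) (nat_lit 7) (nat_lit 4) (nat_lit 8) (nat_lit 5) (nat_lit 8) (nat_lit 4) (nat_lit 364) (nat_lit 217) (nat_lit 199))))) (XT.nd (nat_lit 234) (nat_lit 0) (nat_lit 0) (XT.nd (nat_lit 78) (nat_lit 76) (nat_lit 0) (XT.lf (nat_lit 0) (nat_lit 1913206031) (nat_lit 152) (nat_lit 1730500349) (nat_lit 76) (nat_lit 30356822180) (nat_lit 6) (nat_lit 5) (nat_lit 8) (nat_lit 5) (nat_lit 7) (nat_lit 4) (nat_lit 365) (nat_lit 217) (nat_lit 198)) (XT.nd (nat_lit 78) (nat_lit 0) (nat_lit 0) (XT.lf (nat_lit 0) (nat_lit 3003236869) (nat_lit 76) (nat_lit 1348764296) (nat_lit 152) (nat_lit 30582965712) (nat_lit 5) (nat_lit 5) (nat_lit 6) (nat_lit 5) (nat_lit 7) (nat_lit 4) (nat_lit 366) (nat_lit 217) (nat_lit 197)) (XT.lf (nat_lit 0) (nat_lit 6848166725) (nat_lit 152) (nat_lit 28067660920)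 (nat_lit 0) (nat_lit 982126414) (nat_lit 5) (nat_lit 5) (nat_lit 7) (nat_lit 4) (nat_lit 5) (nat_lit 4) (nat_lit 367) (nat_lit 217) (nat_lit 196)))) (XT.nd (nat_lit 78) (nat_lit 0) (nat_lit 0) (XT.lf (nat_lit 0) (nat_lit 9390631396) (nat_lit 152) (nat_lit 24174107857) (nat_lit 0) (nat_lit 3325989874) (nat_lit 5) (nat_lit 5) (nat_lit 7) (nat_lit 4) (nat_lit 5) (nat_lit 4) (nat_lit 368) (nat_lit 217) (nat_lit 195)) (XT.nd (nat_lit 78) (nat_lit 0) (nat_lit 0) (XT.lf (nat_lit 0) (nat_lit 11968651601) (nat_lit 152) (nat_lit 20234703535) (nat_lit 0) (nat_lit 5711193370) (nat_lit 5) (nat_lit 5) (nat_lit 7) (nat_lit 4) (nat_lit 5) (nat_lit 4) (nat_lit 369) (nat_lit 217) (nat_lit 194)) (XT.lf (nat_lit 0) (nat_lit 14584479979) (nat_lit 152) (nat_lit 16246005757) (nat_lit 0) (nat_lit 8139821060) (nat_lit 5) (nat_lit 5) (nat_lit 7) (nat_lit 4) (nat_lit 5) (nat_lit 4) (nat_lit 370) (nat_lit 217) (nat_lit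 193))))))) (XT.nd (nat_lit 858) (nat_lit 152) (nat_lit 0) (XT.nd (nat_lit 390) (nat_lit 0) (nat_lit 0) (XT.nd (nat_lit 156) (nat_lit 76) (nat_lit 0) (XT.nd (nat_lit 78) (nat_lit 0) (nat_lit 0) (XT.lf (nat_lit 0) (nat_lit 17240402206) (nat_lit 152) (nat_lit 12204529254) (nat_lit 0) (nat_lit 10613995046) (nat_lit 5) (nat_lit 5) (nat_lit 7) (nat_lit 4) (nat_lit 5) (nat_lit 4) (nat_lit 371) (nat_lit 217) (nat_lit 192)) (XT.lf (nat_lit 0) (nat_lit 19938738990) (nat_lit 152) (nat_lit 8106742637) (nat_lit 0) (nat_lit 13135877227) (nat_lit 5) (nat_lit 5) (nat_lit 7) (nat_lit 4) (nat_lit 5) (nat_lit 4) (nat_lit 372) (nat_lit 217) (nat_lit 191))) (XT.nd (nat_lit 78) (nat_lit 76) (nat_lit 0) (XT.lf (nat_lit 0) (nat_lit 22681848101) (nat_lit 152) (nat_lit 3949065318) (nat_lit 0) (nat_lit 15707671190) (nat_lit 5) (nat_lit 5) (nat_lit 7) (nat_lit 4) (nat_lit 5) (nat_lit 4) (nat_lit 373) (nat_lit 217) (nat_lit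 190)) (XT.nd (nat_lit 78) (nat_lit 0) (nat_lit 0) (XT.lf (nat_lit 0) (nat_lit 277551658) (nat_lit 76) (nat_lit 25197242768) (nat_lit 76) (nat_lit 18056740470) (nat_lit 4) (nat_lit 4) (nat_lit 5) (nat_lit 5) (nat_lit 5) (nat_lit 4) (nat_lit 374) (nat_lit 217) (nat_lit 189)) (XT.lf (nat_lit 0) (nat_lit 4651312483) (nat_lit 76) (nat_lit 23705410864) (nat_lit 76) (nat_lit 16403427607) (nat_lit 4) (nat_lit 4) (nat_lit 5) (nat_lit 5) (nat_lit 5) (nat_lit 4) (nat_lit 375) (nat_lit 217) (nat_lit 188))))) (XT.nd (nat_lit 234) (nat_lit 0) (nat_lit 0) (XT.nd (nat_lit 78) (nat_lit 0) (nat_lit 0) (XT.lf (nat_lit 0) (nat_lit 9097444746) (nat_lit 76) (nat_lit 22193991980) (nat_lit 76) (nat_lit 14735231094) (nat_lit 4) (nat_lit 4) (nat_lit 5) (nat_lit 5) (nat_lit 5) (nat_lit 4) (nat_lit 376) (nat_lit 217) (nat_lit 187)) (XT.nd (nat_lit 78) (nat_lit 0) (nat_lit 0) (XT.lf (nat_lit 0) (nat_lit 13619833416) (nat_lit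 76) (nat_lit 20661665459) (nat_lit 76) (nat_lit 13050693282) (nat_lit 4) (nat_lit 4) (nat_lit 5) (nat_lit 5) (nat_lit 5) (nat_lit 4) (nat_lit 377) (nat_lit 217) (nat_lit 186)) (XT.lf (nat_lit 0) (nat_lit 18222430096) (nat_lit 76) (nat_lit 19107092375) (nat_lit 76) (nat_lit 11348342246) (nat_lit 4) (nat_lit 4) (nat_lit 5) (nat_lit 5) (nat_lit 5) (nat_lit 4) (nat_lit 378) (nat_lit 217) (nat_lit 185)))) (XT.nd (nat_lit 78) (nat_lit 0) (nat_lit 0) (XT.lf (nat_lit 0) (nat_lit 22909256471) (nat_lit 76) (nat_lit 17528914363) (nat_lit 76) (nat_lit 9626690495) (nat_lit 4) (nat_lit 4) (nat_lit 5) (nat_lit 5) (nat_lit 5) (nat_lit 4) (nat_lit 379) (nat_lit 217) (nat_lit 184)) (XT.nd (nat_lit 78) (nat_lit 0) (nat_lit 0) (XT.lf (nat_lit 0) (nat_lit 27684407827) (nat_lit 76) (nat_lit 15925752433) (nat_lit 76) (nat_lit 7884233672) (nat_lit 4) (nat_lit 4) (nat_lit 5) (nat_lit 5) (nat_lit 5) (nat_lit 4) (nat_lit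 380) (nat_lit 217) (nat_lit 183)) (XT.lf (nat_lit 0) (nat_lit 32552056626) (nat_lit 76) (nat_lit 14296205764) (nat_lit 76) (nat_lit 6119449243) (nat_lit 4) (nat_lit 4) (nat_lit 5) (nat_lit 5) (nat_lit 5) (nat_lit 4) (nat_lit 381) (nat_lit 217) (nat_lit 182)))))) (XT.nd (nat_lit 468) (nat_lit 0) (nat_lit 0) (XT.nd (nat_lit 234) (nat_lit 152) (nat_lit 0) (XT.nd (nat_lit 78) (nat_lit 0) (nat_lit 0) (XT.lf (nat_lit 0) (nat_lit 37516456154) (nat_lit 76) (nat_lit 12638850479) (nat_lit 76) (nat_lit 4330795162) (nat_lit 4) (nat_lit 4) (nat_lit 5) (nat_lit 5) (nat_lit 5) (nat_lit 4) (nat_lit 382) (nat_lit 217) (nat_lit 181)) (XT.nd (nat_lit 78) (nat_lit 0) (nat_lit 0) (XT.lf (nat_lit 0) (nat_lit 42581944235) (nat_lit 76) (nat_lit 10952238405) (nat_lit 76) (nat_lit 2516708528) (nat_lit 4) (nat_lit 4) (nat_lit 5) (nat_lit 5) (nat_lit 5) (nat_lit 4) (nat_lit 383) (nat_lit 217) (nat_lit 180)) (XT.lf (nat_lit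 0) (nat_lit 47752947024) (nat_lit 76) (nat_lit 9234895803) (nat_lit 76) (nat_lit 675604218) (nat_lit 4) (nat_lit 4) (nat_lit 5) (nat_lit 5) (nat_lit 5) (nat_lit 4) (nat_lit 384) (nat_lit 217) (nat_lit 179)))) (XT.nd (nat_lit 78) (nat_lit 76) (nat_lit 0) (XT.lf (nat_lit 0) (nat_lit 1170824792) (nat_lit 152) (nat_lit 6302674255) (nat_lit 76) (nat_lit 51851335046) (nat_lit 3) (nat_lit 5) (nat_lit 5) (nat_lit 5) (nat_lit 4) (nat_lit 4) (nat_lit 385) (nat_lit 217) (nat_lit 178)) (XT.nd (nat_lit 78) (nat_lit 76) (nat_lit 0) (XT.lf (nat_lit 0) (nat_lit 3033740000) (nat_lit 152) (nat_lit 2637613662) (nat_lit 76) (nat_lit 55365291453) (nat_lit 3) (nat_lit 5) (nat_lit 5) (nat_lit 5) (nat_lit 4) (nat_lit 4) (nat_lit 386) (nat_lit 217) (nat_lit 177)) (XT.lf (nat_lit 0) (nat_lit 1116158837) (nat_lit 76) (nat_lit 3822523032) (nat_lit 152) (nat_lit 57861566954) (nat_lit 2) (nat_lit 5) (nat_lit 3) (nat_lit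 5) (nat_lit 4) (nat_lit 4) (nat_lit 387) (nat_lit 217) (nat_lit 176))))) (XT.nd (nat_lit 234) (nat_lit 0) (nat_lit 0) (XT.nd (nat_lit 78) (nat_lit 0) (nat_lit 0) (XT.lf (nat_lit 0) (nat_lit 4994014584) (nat_lit 76) (nat_lit 1909108872) (nat_lit 152) (nat_lit 57713588516) (nat_lit 2) (nat_lit 5) (nat_lit 3) (nat_lit 5) (nat_lit 4) (nat_lit 4) (nat_lit 388) (nat_lit 217) (nat_lit 175)) (XT.nd (nat_lit 78) (nat_lit 0) (nat_lit 0) (XT.lf (nat_lit 0) (nat_lit 8903344549) (nat_lit 152) (nat_lit 57541971467) (nat_lit 0) (nat_lit 43068850) (nat_lit 2) (nat_lit 5) (nat_lit 4) (nat_lit 4) (nat_lit 2) (nat_lit 4) (nat_lit 389) (nat_lit 217) (nat_lit 174)) (XT.lf (nat_lit 0) (nat_lit 10959419085) (nat_lit 152) (nat_lit 55458420283) (nat_lit 0) (nat_lit 1998513792) (nat_lit 2) (nat_lit 5) (nat_lit 4) (nat_lit 4) (nat_lit 2) (nat_lit 4) (nat_lit 390) (nat_lit 217) (nat_lit 173)))) (XT.nd (nat_lit 78) (nat_lit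 0) (nat_lit 0) (XT.lf (nat_lit 0) (nat_lit 13054792114) (nat_lit 152) (nat_lit 53351871736) (nat_lit 0) (nat_lit 3996188185) (nat_lit 2) (nat_lit 5) (nat_lit 4) (nat_lit 4) (nat_lit 2) (nat_lit 4) (nat_lit 391) (nat_lit 217) (nat_lit 172)) (XT.nd (nat_lit 78) (nat_lit 0) (nat_lit 0) (XT.lf (nat_lit 0) (nat_lit 15191294542) (nat_lit 152) (nat_lit 51220485152) (nat_lit 0) (nat_lit 6037837569) (nat_lit 2) (nat_lit 5) (nat_lit 4) (nat_lit 4) (nat_lit 2) (nat_lit 4) (nat_lit 392) (nat_lit 217) (nat_lit 171)) (XT.lf (nat_lit 0) (nat_lit 17370793218) (nat_lit 152) (nat_lit 49062398154) (nat_lit 0) (nat_lit 8125245911) (nat_lit 2) (nat_lit 5) (nat_lit 4) (nat_lit 4) (nat_lit 2) (nat_lit 4) (nat_lit 393) (nat_lit 217) (nat_lit 170))))))))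
noncomputable def xc19 : XT := (XT.nd (nat_lit 37752) (nat_lit 0) (nat_lit 152) (XT.nd (nat_lit 36816) (nat_lit 0) (nat_lit 456) (XT.nd (nat_lit 390) (nat_lit 0) (nat_lit 0) (XT.nd (nat_lit 156) (nat_lit 0) (nat_lit 0) (XT.nd (nat_lit 78) (nat_lit 0) (nat_lit 0) (XT.lf (nat_lit 0) (nat_lit 19595192557) (nat_lit 152) (nat_lit 46875725036) (nat_lit 0) (nat_lit 10260237159) (nat_lit 2) (nat_lit 5) (nat_lit 4) (nat_lit 4) (nat_lit 2) (nat_lit 4) (nat_lit 394) (nat_lit 217) (nat_lit 169)) (XT.lf (nat_lit 0) (nat_lit 21866436210) (nat_lit 152) (nat_lit 44658555111) (nat_lit 0) (nat_lit 12444676839) (nat_lit 2) (nat_lit 5) (nat_lit 4) (nat_lit 4) (nat_lit 2) (nat_lit 4) (nat_lit 395) (nat_lit 217) (nat_lit 168))) (XT.nd (nat_lit 78) (nat_lit 0) (nat_lit 0) (XT.lf (nat_lit 0) (nat_lit 24186508758) (nat_lit 152) (nat_lit 42408951048) (nat_lit 0) (nat_lit 14680473686) (nat_lit 2) (nat_lit 5) (nat_lit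 4) (nat_lit 4) (nat_lit 2) (nat_lit 4) (nat_lit 396) (nat_lit 217) (nat_lit 167)) (XT.nd (nat_lit 78) (nat_lit 0) (nat_lit 0) (XT.lf (nat_lit 0) (nat_lit 26557437448) (nat_lit 152) (nat_lit 40124947173) (nat_lit 0) (nat_lit 16969581308) (nat_lit 2) (nat_lit 5) (nat_lit 4) (nat_lit 4) (nat_lit 2) (nat_lit 4) (nat_lit 397) (nat_lit 217) (nat_lit 166)) (XT.lf (nat_lit 0) (nat_lit 28981293967) (nat_lit 152) (nat_lit 37804547754) (nat_lit 0) (nat_lit 19313999896) (nat_lit 2) (nat_lit 5) (nat_lit 4) (nat_lit 4) (nat_lit 2) (nat_lit 4) (nat_lit 398) (nat_lit 217) (nat_lit 165))))) (XT.nd (nat_lit 234) (nat_lit 0) (nat_lit 0) (XT.nd (nat_lit 78) (nat_lit 0) (nat_lit 0) (XT.lf (nat_lit 0) (nat_lit 31460196247) (nat_lit 152) (nat_lit 35445725257) (nat_lit 0) (nat_lit 21715777971) (nat_lit 2) (nat_lit 5) (nat_lit 4) (nat_lit 4) (nat_lit 2) (nat_lit 4) (nat_lit 399) (nat_lit 217) (nat_lit 164)) (XT.nd (nat_lit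 78) (nat_lit 0) (nat_lit 0) (XT.lf (nat_lit 0) (nat_lit 33996310320) (nat_lit 152) (nat_lit 33046418577) (nat_lit 0) (nat_lit 24177014174) (nat_lit 2) (nat_lit 5) (nat_lit 4) (nat_lit 4) (nat_lit 2) (nat_lit 4) (nat_lit 400) (nat_lit 217) (nat_lit 163)) (XT.lf (nat_lit 0) (nat_lit 36591852206) (nat_lit 152) (nat_lit 30604531230) (nat_lit 0) (nat_lit 26699859101) (nat_lit 2) (nat_lit 5) (nat_lit 4) (nat_lit 4) (nat_lit 2) (nat_lit 4) (nat_lit 401) (nat_lit 217) (nat_lit 162)))) (XT.nd (nat_lit 78) (nat_lit 0) (nat_lit 0) (XT.lf (nat_lit 0) (nat_lit 39249089856) (nat_lit 152) (nat_lit 28117929530) (nat_lit 0) (nat_lit 29286517178) (nat_lit 2) (nat_lit 5) (nat_lit 4) (nat_lit 4) (nat_lit 2) (nat_lit 4) (nat_lit 402) (nat_lit 217) (nat_lit 161)) (XT.nd (nat_lit 36036) (nat_lit 0) (nat_lit 912) (XT.lf (nat_lit 0) (nat_lit 41970345128) (nat_lit 152) (nat_lit 25584440717) (nat_lit 0) (nat_lit 31939248593)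 (nat_lit 2) (nat_lit 5) (nat_lit 4) (nat_lit 4) (nat_lit 2) (nat_lit 4) (nat_lit 403) (nat_lit 217) (nat_lit 160)) (XT.lf (nat_lit 0) (nat_lit 5111095658) (nat_lit 152) (nat_lit 2398537304) (nat_lit 152) (nat_lit 2398537304) (nat_lit 14) (nat_lit 4) (nat_lit 16) (nat_lit 5) (nat_lit 16) (nat_lit 4) (nat_lit 344) (nat_lit 218) (nat_lit 218)))))) (XT.nd (nat_lit 468) (nat_lit 152) (nat_lit 0) (XT.nd (nat_lit 234) (nat_lit 152) (nat_lit 0) (XT.nd (nat_lit 78) (nat_lit 152) (nat_lit 0) (XT.lf (nat_lit 0) (nat_lit 16416455606) (nat_lit 152) (nat_lit 2150085469) (nat_lit 152) (nat_lit 1734258638) (nat_lit 14) (nat_lit 4) (nat_lit 16) (nat_lit 5) (nat_lit 16) (nat_lit 4) (nat_lit 345) (nat_lit 218) (nat_lit 217)) (XT.nd (nat_lit 78) (nat_lit 0) (nat_lit 0) (XT.lf (nat_lit 0) (nat_lit 1347580847) (nat_lit 152) (nat_lit 18901327990) (nat_lit 0) (nat_lit 551908807) (nat_lit 12) (nat_lit 5) (nat_lit 14)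 (nat_lit 4) (nat_lit 12) (nat_lit 4) (nat_lit 346) (nat_lit 218) (nat_lit 216)) (XT.lf (nat_lit 0) (nat_lit 4479518492) (nat_lit 152) (nat_lit 13532799474) (nat_lit 0) (nat_lit 3303305997) (nat_lit 12) (nat_lit 5) (nat_lit 14) (nat_lit 4) (nat_lit 12) (nat_lit 4) (nat_lit 347) (nat_lit 218) (nat_lit 215)))) (XT.nd (nat_lit 78) (nat_lit 152) (nat_lit 0) (XT.lf (nat_lit 0) (nat_lit 7639005784) (nat_lit 152) (nat_lit 8115600105) (nat_lit 0) (nat_lit 6093336536) (nat_lit 12) (nat_lit 5) (nat_lit 14) (nat_lit 4) (nat_lit 12) (nat_lit 4) (nat_lit 348) (nat_lit 218) (nat_lit 214)) (XT.nd (nat_lit 78) (nat_lit 152) (nat_lit 0) (XT.lf (nat_lit 0) (nat_lit 10828803441) (nat_lit 152) (nat_lit 2644996409) (nat_lit 0) (nat_lit 8924438316) (nat_lit 12) (nat_lit 5) (nat_lit 14) (nat_lit 4) (nat_lit 12) (nat_lit 4) (nat_lit 349) (nat_lit 218) (nat_lit 213)) (XT.lf (nat_lit 0) (nat_lit 2941184864) (nat_lit 152)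 (nat_lit 11138786268) (nat_lit 152) (nat_lit 8886172719) (nat_lit 10) (nat_lit 4) (nat_lit 12) (nat_lit 5) (nat_lit 12) (nat_lit 4) (nat_lit 350) (nat_lit 218) (nat_lit 212))))) (XT.nd (nat_lit 234) (nat_lit 152) (nat_lit 0) (XT.nd (nat_lit 78) (nat_lit 0) (nat_lit 0) (XT.lf (nat_lit 0) (nat_lit 8644276331) (nat_lit 152) (nat_lit 8749325317) (nat_lit 152) (nat_lit 6158606501) (nat_lit 10) (nat_lit 4) (nat_lit 12) (nat_lit 5) (nat_lit 12) (nat_lit 4) (nat_lit 351) (nat_lit 218) (nat_lit 211)) (XT.nd (nat_lit 78) (nat_lit 0) (nat_lit 0) (XT.lf (nat_lit 0) (nat_lit 14416620659) (nat_lit 152) (nat_lit 6330038396) (nat_lit 152) (nat_lit 3411062040) (nat_lit 10) (nat_lit 4) (nat_lit 12) (nat_lit 5) (nat_lit 12) (nat_lit 4) (nat_lit 352) (nat_lit 218) (nat_lit 210)) (XT.lf (nat_lit 0) (nat_lit 20263261646) (nat_lit 152) (nat_lit 3878811565) (nat_lit 152) (nat_lit 641138569) (nat_lit 10) (nat_lit 4)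 (nat_lit 12) (nat_lit 5) (nat_lit 12) (nat_lit 4) (nat_lit 353) (nat_lit 218) (nat_lit 209)))) (XT.nd (nat_lit 78) (nat_lit 0) (nat_lit 0) (XT.lf (nat_lit 0) (nat_lit 754094792) (nat_lit 76) (nat_lit 1364714075) (nat_lit 152) (nat_lit 23309579369) (nat_lit 8) (nat_lit 5) (nat_lit 9) (nat_lit 5) (nat_lit 10) (nat_lit 4) (nat_lit 354) (nat_lit 218) (nat_lit 208)) (XT.nd (nat_lit 78) (nat_lit 0) (nat_lit 0) (XT.lf (nat_lit 0) (nat_lit 4949732839) (nat_lit 152) (nat_lit 19928718263) (nat_lit 0) (nat_lit 1214306275) (nat_lit 8) (nat_lit 5) (nat_lit 10) (nat_lit 4) (nat_lit 8) (nat_lit 4) (nat_lit 355) (nat_lit 218) (nat_lit 207)) (XT.lf (nat_lit 0) (nat_lit 7823947258) (nat_lit 152) (nat_lit 15149054614) (nat_lit 0) (nat_lit 3805362856) (nat_lit 8) (nat_lit 5) (nat_lit 10) (nat_lit 4) (nat_lit 8) (nat_lit 4) (nat_lit 356) (nat_lit 218) (nat_lit 206))))))) (XT.nd (nat_lit 858) (nat_lit 76) (nat_lit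 0) (XT.nd (nat_lit 390) (nat_lit 152) (nat_lit 0) (XT.nd (nat_lit 156) (nat_lit 76) (nat_lit 0) (XT.nd (nat_lit 78) (nat_lit 0) (nat_lit 0) (XT.lf (nat_lit 0) (nat_lit 10730845108) (nat_lit 152) (nat_lit 10318007624) (nat_lit 0) (nat_lit 6437350185) (nat_lit 8) (nat_lit 5) (nat_lit 10) (nat_lit 4) (nat_lit 8) (nat_lit 4) (nat_lit 357) (nat_lit 218) (nat_lit 205)) (XT.lf (nat_lit 0) (nat_lit 13672966399) (nat_lit 152) (nat_lit 5431355991) (nat_lit 0) (nat_lit 9112568056) (nat_lit 8) (nat_lit 5) (nat_lit 10) (nat_lit 4) (nat_lit 8) (nat_lit 4) (nat_lit 358) (nat_lit 218) (nat_lit 204))) (XT.nd (nat_lit 78) (nat_lit 76) (nat_lit 0) (XT.lf (nat_lit 0) (nat_lit 16652881914) (nat_lit 152) (nat_lit 484829824) (nat_lit 0) (nat_lit 11833354039) (nat_lit 8) (nat_lit 5) (nat_lit 10) (nat_lit 4) (nat_lit 8) (nat_lit 4) (nat_lit 359) (nat_lit 218) (nat_lit 203)) (XT.nd (nat_lit 78) (nat_lit 0) (nat_lit 0)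 (XT.lf (nat_lit 0) (nat_lit 4615967229) (nat_lit 76) (nat_lit 15101599737) (nat_lit 76) (nat_lit 10030489790) (nat_lit 7) (nat_lit 4) (nat_lit 8) (nat_lit 5) (nat_lit 8) (nat_lit 4) (nat_lit 360) (nat_lit 218) (nat_lit 202)) (XT.lf (nat_lit 0) (nat_lit 9796353166) (nat_lit 76) (nat_lit 13034361532) (nat_lit 76) (nat_lit 7718997147) (nat_lit 7) (nat_lit 4) (nat_lit 8) (nat_lit 5) (nat_lit 8) (nat_lit 4) (nat_lit 361) (nat_lit 218) (nat_lit 201))))) (XT.nd (nat_lit 234) (nat_lit 152) (nat_lit 0) (XT.nd (nat_lit 78) (nat_lit 0) (nat_lit 0) (XT.lf (nat_lit 0) (nat_lit 15051205475) (nat_lit 76) (nat_lit 10939086631) (nat_lit 76) (nat_lit 5386582015) (nat_lit 7) (nat_lit 4) (nat_lit 8) (nat_lit 5) (nat_lit 8) (nat_lit 4) (nat_lit 362) (nat_lit 218) (nat_lit 200)) (XT.nd (nat_lit 78) (nat_lit 0) (nat_lit 0) (XT.lf (nat_lit 0) (nat_lit 20385115772) (nat_lit 76) (nat_lit 8813944211) (nat_lit 76) (nat_lit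 3031206360) (nat_lit 7) (nat_lit 4) (nat_lit 8) (nat_lit 5) (nat_lit 8) (nat_lit 4) (nat_lit 363) (nat_lit 218) (nat_lit 199)) (XT.lf (nat_lit 0) (nat_lit 25802744757) (nat_lit 76) (nat_lit 6657077351) (nat_lit 76) (nat_lit 650812089) (nat_lit 7) (nat_lit 4) (nat_lit 8) (nat_lit 5) (nat_lit 8) (nat_lit 4) (nat_lit 364) (nat_lit 218) (nat_lit 198)))) (XT.nd (nat_lit 78) (nat_lit 76) (nat_lit 0) (XT.lf (nat_lit 0) (nat_lit 1722401587) (nat_lit 152) (nat_lit 2726806944) (nat_lit 76) (nat_lit 29569031815) (nat_lit 6) (nat_lit 5) (nat_lit 8) (nat_lit 5) (nat_lit 7) (nat_lit 4) (nat_lit 365) (nat_lit 218) (nat_lit 197)) (XT.nd (nat_lit 78) (nat_lit 0) (nat_lit 0) (XT.lf (nat_lit 0) (nat_lit 1950525920) (nat_lit 76) (nat_lit 2179771670) (nat_lit 152) (nat_lit 30823328693) (nat_lit 5) (nat_lit 5) (nat_lit 6) (nat_lit 5) (nat_lit 7) (nat_lit 4) (nat_lit 366) (nat_lit 218) (nat_lit 196)) (XT.lf (nat_lit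 0) (nat_lit 6597814922) (nat_lit 152) (nat_lit 29167045093) (nat_lit 0) (nat_lit 152632945) (nat_lit 5) (nat_lit 5) (nat_lit 7) (nat_lit 4) (nat_lit 5) (nat_lit 4) (nat_lit 367) (nat_lit 218) (nat_lit 195)))))) (XT.nd (nat_lit 468) (nat_lit 76) (nat_lit 0) (XT.nd (nat_lit 234) (nat_lit 0) (nat_lit 0) (XT.nd (nat_lit 78) (nat_lit 0) (nat_lit 0) (XT.lf (nat_lit 0) (nat_lit 9120221265) (nat_lit 152) (nat_lit 25308445395) (nat_lit 0) (nat_lit 2482222578) (nat_lit 5) (nat_lit 5) (nat_lit 7) (nat_lit 4) (nat_lit 5) (nat_lit 4) (nat_lit 368) (nat_lit 218) (nat_lit 194)) (XT.nd (nat_lit 78) (nat_lit 0) (nat_lit 0) (XT.lf (nat_lit 0) (nat_lit 11678767365) (nat_lit 152) (nat_lit 21402976381) (nat_lit 0) (nat_lit 4853567990) (nat_lit 5) (nat_lit 5) (nat_lit 7) (nat_lit 4) (nat_lit 5) (nat_lit 4) (nat_lit 369) (nat_lit 218) (nat_lit 193)) (XT.lf (nat_lit 0) (nat_lit 14275688845) (nat_lit 152) (nat_lit 17447225504)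 (nat_lit 0) (nat_lit 7268741229) (nat_lit 5) (nat_lit 5) (nat_lit 7) (nat_lit 4) (nat_lit 5) (nat_lit 4) (nat_lit 370) (nat_lit 218) (nat_lit 192)))) (XT.nd (nat_lit 78) (nat_lit 0) (nat_lit 0) (XT.lf (nat_lit 0) (nat_lit 16913254860) (nat_lit 152) (nat_lit 13437736282) (nat_lit 0) (nat_lit 9729852642) (nat_lit 5) (nat_lit 5) (nat_lit 7) (nat_lit 4) (nat_lit 5) (nat_lit 4) (nat_lit 371) (nat_lit 218) (nat_lit 191)) (XT.nd (nat_lit 78) (nat_lit 0) (nat_lit 0) (XT.lf (nat_lit 0) (nat_lit 19593770079) (nat_lit 152) (nat_lit 9371005279) (nat_lit 0) (nat_lit 12239052712) (nat_lit 5) (nat_lit 5) (nat_lit 7) (nat_lit 4) (nat_lit 5) (nat_lit 4) (nat_lit 372) (nat_lit 218) (nat_lit 190)) (XT.lf (nat_lit 0) (nat_lit 22319576701) (nat_lit 152) (nat_lit 5243479041) (nat_lit 0) (nat_lit 14798533947) (nat_lit 5) (nat_lit 5) (nat_lit 7) (nat_lit 4) (nat_lit 5) (nat_lit 4) (nat_lit 373) (nat_lit 218) (nat_lit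 189))))) (XT.nd (nat_lit 234) (nat_lit 0) (nat_lit 0) (XT.nd (nat_lit 78) (nat_lit 76) (nat_lit 0) (XT.lf (nat_lit 0) (nat_lit 25093056497) (nat_lit 152) (nat_lit 1051550990) (nat_lit 0) (nat_lit 17410532784) (nat_lit 5) (nat_lit 5) (nat_lit 7) (nat_lit 4) (nat_lit 5) (nat_lit 4) (nat_lit 374) (nat_lit 218) (nat_lit 188)) (XT.nd (nat_lit 78) (nat_lit 0) (nat_lit 0) (XT.lf (nat_lit 0) (nat_lit 3272296002) (nat_lit 76) (nat_lit 24675792204) (nat_lit 76) (nat_lit 16836490863) (nat_lit 4) (nat_lit 4) (nat_lit 5) (nat_lit 5) (nat_lit 5) (nat_lit 4) (nat_lit 375) (nat_lit 218) (nat_lit 187)) (XT.lf (nat_lit 0) (nat_lit 7690286610) (nat_lit 76) (nat_lit 23176410231) (nat_lit 76) (nat_lit 15184897599) (nat_lit 4) (nat_lit 4) (nat_lit 5) (nat_lit 5) (nat_lit 5) (nat_lit 4) (nat_lit 376) (nat_lit 218) (nat_lit 186)))) (XT.nd (nat_lit 78) (nat_lit 0) (nat_lit 0) (XT.lf (nat_lit 0) (nat_lit 12185353284)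 (nat_lit 76) (nat_lit 21655770032) (nat_lit 76) (nat_lit 13516479448) (nat_lit 4) (nat_lit 4) (nat_lit 5) (nat_lit 5) (nat_lit 5) (nat_lit 4) (nat_lit 377) (nat_lit 218) (nat_lit 185)) (XT.nd (nat_lit 78) (nat_lit 0) (nat_lit 0) (XT.lf (nat_lit 0) (nat_lit 16761423755) (nat_lit 76) (nat_lit 20112542891) (nat_lit 76) (nat_lit 11829778567) (nat_lit 4) (nat_lit 4) (nat_lit 5) (nat_lit 5) (nat_lit 5) (nat_lit 4) (nat_lit 378) (nat_lit 218) (nat_lit 184)) (XT.lf (nat_lit 0) (nat_lit 21422496529) (nat_lit 76) (nat_lit 18545380358) (nat_lit 76) (nat_lit 10123321141) (nat_lit 4) (nat_lit 4) (nat_lit 5) (nat_lit 5) (nat_lit 5) (nat_lit 4) (nat_lit 379) (nat_lit 218) (nat_lit 183))))))))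
noncomputable def xc20 : XT := (XT.nd (nat_lit 1716) (nat_lit 0) (nat_lit 0) (XT.nd (nat_lit 858) (nat_lit 0) (nat_lit 0) (XT.nd (nat_lit 390) (nat_lit 152) (nat_lit 0) (XT.nd (nat_lit 156) (nat_lit 0) (nat_lit 0) (XT.nd (nat_lit 78) (nat_lit 0) (nat_lit 0) (XT.lf (nat_lit 0) (nat_lit 26172644388) (nat_lit 76) (nat_lit 16952913068) (nat_lit 76) (nat_lit 8395616091) (nat_lit 4) (nat_lit 4) (nat_lit 5) (nat_lit 5) (nat_lit 5) (nat_lit 4) (nat_lit 380) (nat_lit 218) (nat_lit 182)) (XT.lf (nat_lit 0) (nat_lit 31016017948) (nat_lit 76) (nat_lit 15333749544) (nat_lit 76) (nat_lit 6645153771) (nat_lit 4) (nat_lit 4) (nat_lit 5) (nat_lit 5) (nat_lit 5) (nat_lit 4) (nat_lit 381) (nat_lit 218) (nat_lit 181))) (XT.nd (nat_lit 78) (nat_lit 0) (nat_lit 0) (XT.lf (nat_lit 0) (nat_lit 35956849283) (nat_lit 76) (nat_lit 13686474983) (nat_lit 76) (nat_lit 4870404650) (nat_lit 4) (nat_lit 4) (nat_lit 5) (nat_lit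 5) (nat_lit 5) (nat_lit 4) (nat_lit 382) (nat_lit 218) (nat_lit 180)) (XT.nd (nat_lit 78) (nat_lit 0) (nat_lit 0) (XT.lf (nat_lit 0) (nat_lit 40999455623) (nat_lit 76) (nat_lit 12009650019) (nat_lit 76) (nat_lit 3069817978) (nat_lit 4) (nat_lit 4) (nat_lit 5) (nat_lit 5) (nat_lit 5) (nat_lit 4) (nat_lit 383) (nat_lit 218) (nat_lit 179)) (XT.lf (nat_lit 0) (nat_lit 46148243129) (nat_lit 76) (nat_lit 10301809466) (nat_lit 76) (nat_lit 1241820427) (nat_lit 4) (nat_lit 4) (nat_lit 5) (nat_lit 5) (nat_lit 5) (nat_lit 4) (nat_lit 384) (nat_lit 218) (nat_lit 178))))) (XT.nd (nat_lit 234) (nat_lit 76) (nat_lit 0) (XT.nd (nat_lit 78) (nat_lit 0) (nat_lit 0) (XT.lf (nat_lit 0) (nat_lit 603180803) (nat_lit 152) (nat_lit 7952189288) (nat_lit 76) (nat_lit 50798438996) (nat_lit 3) (nat_lit 5) (nat_lit 5) (nat_lit 5) (nat_lit 4) (nat_lit 4) (nat_lit 385) (nat_lit 218) (nat_lit 177)) (XT.nd (nat_lit 78) (nat_lit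 0) (nat_lit 0) (XT.lf (nat_lit 0) (nat_lit 2453982712) (nat_lit 152) (nat_lit 4308320907) (nat_lit 76) (nat_lit 54303690988) (nat_lit 3) (nat_lit 5) (nat_lit 5) (nat_lit 5) (nat_lit 4) (nat_lit 4) (nat_lit 386) (nat_lit 218) (nat_lit 176)) (XT.lf (nat_lit 0) (nat_lit 4336434896) (nat_lit 152) (nat_lit 596903649) (nat_lit 76) (nat_lit 57896945236) (nat_lit 3) (nat_lit 5) (nat_lit 5) (nat_lit 5) (nat_lit 4) (nat_lit 4) (nat_lit 387) (nat_lit 218) (nat_lit 175)))) (XT.nd (nat_lit 78) (nat_lit 0) (nat_lit 0) (XT.lf (nat_lit 0) (nat_lit 3248699296) (nat_lit 76) (nat_lit 3034711404) (nat_lit 152) (nat_lit 58363870666) (nat_lit 2) (nat_lit 5) (nat_lit 3) (nat_lit 5) (nat_lit 4) (nat_lit 4) (nat_lit 388) (nat_lit 218) (nat_lit 174)) (XT.nd (nat_lit 78) (nat_lit 0) (nat_lit 0) (XT.lf (nat_lit 0) (nat_lit 7181753170) (nat_lit 76) (nat_lit 1090180858) (nat_lit 152) (nat_lit 58247381321) (nat_lit 2) (nat_lit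 5) (nat_lit 3) (nat_lit 5) (nat_lit 4) (nat_lit 4) (nat_lit 389) (nat_lit 218) (nat_lit 173)) (XT.lf (nat_lit 0) (nat_lit 10306502605) (nat_lit 152) (nat_lit 57262994157) (nat_lit 0) (nat_lit 878441922) (nat_lit 2) (nat_lit 5) (nat_lit 4) (nat_lit 4) (nat_lit 2) (nat_lit 4) (nat_lit 390) (nat_lit 218) (nat_lit 172)))))) (XT.nd (nat_lit 390) (nat_lit 0) (nat_lit 0) (XT.nd (nat_lit 156) (nat_lit 0) (nat_lit 0) (XT.nd (nat_lit 78) (nat_lit 0) (nat_lit 0) (XT.lf (nat_lit 0) (nat_lit 12391170318) (nat_lit 152) (nat_lit 55175341382) (nat_lit 0) (nat_lit 2868256591) (nat_lit 2) (nat_lit 5) (nat_lit 4) (nat_lit 4) (nat_lit 2) (nat_lit 4) (nat_lit 391) (nat_lit 218) (nat_lit 171)) (XT.lf (nat_lit 0) (nat_lit 14517279236) (nat_lit 152) (nat_lit 53062300209) (nat_lit 0) (nat_lit 4902275176) (nat_lit 2) (nat_lit 5) (nat_lit 4) (nat_lit 4) (nat_lit 2) (nat_lit 4) (nat_lit 392) (nat_lit 218) (nat_lit 170)))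 (XT.nd (nat_lit 78) (nat_lit 0) (nat_lit 0) (XT.lf (nat_lit 0) (nat_lit 16686687125) (nat_lit 152) (nat_lit 50922024290) (nat_lit 0) (nat_lit 6982274974) (nat_lit 2) (nat_lit 5) (nat_lit 4) (nat_lit 4) (nat_lit 2) (nat_lit 4) (nat_lit 393) (nat_lit 218) (nat_lit 169)) (XT.nd (nat_lit 78) (nat_lit 0) (nat_lit 0) (XT.lf (nat_lit 0) (nat_lit 18901289584) (nat_lit 152) (nat_lit 48752643480) (nat_lit 0) (nat_lit 9110073460) (nat_lit 2) (nat_lit 5) (nat_lit 4) (nat_lit 4) (nat_lit 2) (nat_lit 4) (nat_lit 394) (nat_lit 218) (nat_lit 168)) (XT.lf (nat_lit 0) (nat_lit 21163021702) (nat_lit 152) (nat_lit 46552262206) (nat_lit 0) (nat_lit 11287529878) (nat_lit 2) (nat_lit 5) (nat_lit 4) (nat_lit 4) (nat_lit 2) (nat_lit 4) (nat_lit 395) (nat_lit 218) (nat_lit 167))))) (XT.nd (nat_lit 234) (nat_lit 0) (nat_lit 0) (XT.nd (nat_lit 78) (nat_lit 0) (nat_lit 0) (XT.lf (nat_lit 0) (nat_lit 23473859751) (nat_lit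 152) (nat_lit 44318957803) (nat_lit 0) (nat_lit 13516546857) (nat_lit 2) (nat_lit 5) (nat_lit 4) (nat_lit 4) (nat_lit 2) (nat_lit 4) (nat_lit 396) (nat_lit 218) (nat_lit 166)) (XT.nd (nat_lit 78) (nat_lit 0) (nat_lit 0) (XT.lf (nat_lit 0) (nat_lit 25835822908) (nat_lit 152) (nat_lit 42050778840) (nat_lit 0) (nat_lit 15799072083) (nat_lit 2) (nat_lit 5) (nat_lit 4) (nat_lit 4) (nat_lit 2) (nat_lit 4) (nat_lit 397) (nat_lit 218) (nat_lit 165)) (XT.lf (nat_lit 0) (nat_lit 28250975026) (nat_lit 152) (nat_lit 39745743414) (nat_lit 0) (nat_lit 18137099996) (nat_lit 2) (nat_lit 5) (nat_lit 4) (nat_lit 4) (nat_lit 2) (nat_lit 4) (nat_lit 398) (nat_lit 218) (nat_lit 164)))) (XT.nd (nat_lit 78) (nat_lit 0) (nat_lit 0) (XT.lf (nat_lit 0) (nat_lit 30721426431) (nat_lit 152) (nat_lit 37401837415) (nat_lit 0) (nat_lit 20532673533) (nat_lit 2) (nat_lit 5) (nat_lit 4) (nat_lit 4) (nat_lit 2) (nat_lit 4) (nat_lit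 399) (nat_lit 218) (nat_lit 163)) (XT.nd (nat_lit 78) (nat_lit 0) (nat_lit 0) (XT.lf (nat_lit 0) (nat_lit 33249335771) (nat_lit 152) (nat_lit 35017012771) (nat_lit 0) (nat_lit 22987885912) (nat_lit 2) (nat_lit 5) (nat_lit 4) (nat_lit 4) (nat_lit 2) (nat_lit 4) (nat_lit 400) (nat_lit 218) (nat_lit 162)) (XT.lf (nat_lit 0) (nat_lit 35836911897) (nat_lit 152) (nat_lit 32589185654) (nat_lit 0) (nat_lit 25504882466) (nat_lit 2) (nat_lit 5) (nat_lit 4) (nat_lit 4) (nat_lit 2) (nat_lit 4) (nat_lit 401) (nat_lit 218) (nat_lit 161))))))) (XT.nd (nat_lit 36660) (nat_lit 0) (nat_lit 380) (XT.nd (nat_lit 36192) (nat_lit 0) (nat_lit 608) (XT.nd (nat_lit 35958) (nat_lit 0) (nat_lit 912) (XT.nd (nat_lit 78) (nat_lit 0) (nat_lit 0) (XT.lf (nat_lit 0) (nat_lit 38486415800) (nat_lit 152) (nat_lit 30116234663) (nat_lit 0) (nat_lit 28085862511) (nat_lit 2) (nat_lit 5) (nat_lit 4) (nat_lit 4) (nat_lit 2) (nat_lit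 4) (nat_lit 402) (nat_lit 218) (nat_lit 160)) (XT.lf (nat_lit 0) (nat_lit 41200162579) (nat_lit 152) (nat_lit 27595998965) (nat_lit 0) (nat_lit 30733081273) (nat_lit 2) (nat_lit 5) (nat_lit 4) (nat_lit 4) (nat_lit 2) (nat_lit 4) (nat_lit 403) (nat_lit 218) (nat_lit 159))) (XT.nd (nat_lit 78) (nat_lit 152) (nat_lit 0) (XT.lf (nat_lit 0) (nat_lit 4254774467) (nat_lit 152) (nat_lit 937481082) (nat_lit 0) (nat_lit 4254774467) (nat_lit 16) (nat_lit 5) (nat_lit 18) (nat_lit 4) (nat_lit 16) (nat_lit 4) (nat_lit 342) (nat_lit 219) (nat_lit 219)) (XT.nd (nat_lit 78) (nat_lit 0) (nat_lit 0) (XT.lf (nat_lit 0) (nat_lit 4094580592) (nat_lit 152) (nat_lit 7840919456) (nat_lit 152) (nat_lit 7412617821) (nat_lit 14) (nat_lit 4) (nat_lit 16) (nat_lit 5) (nat_lit 16) (nat_lit 4) (nat_lit 343) (nat_lit 219) (nat_lit 218)) (XT.lf (nat_lit 0) (nat_lit 10164469761) (nat_lit 152) (nat_lit 5248538987) (nat_lit 152)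 (nat_lit 4404410521) (nat_lit 14) (nat_lit 4) (nat_lit 16) (nat_lit 5) (nat_lit 16) (nat_lit 4) (nat_lit 344) (nat_lit 219) (nat_lit 217))))) (XT.nd (nat_lit 234) (nat_lit 152) (nat_lit 0) (XT.nd (nat_lit 78) (nat_lit 152) (nat_lit 0) (XT.lf (nat_lit 0) (nat_lit 16302693708) (nat_lit 152) (nat_lit 2624037946) (nat_lit 152) (nat_lit 1376194110) (nat_lit 14) (nat_lit 4) (nat_lit 16) (nat_lit 5) (nat_lit 16) (nat_lit 4) (nat_lit 345) (nat_lit 219) (nat_lit 216)) (XT.nd (nat_lit 78) (nat_lit 0) (nat_lit 0) (XT.lf (nat_lit 0) (nat_lit 1659259975) (nat_lit 152) (nat_lit 19077580171) (nat_lit 0) (nat_lit 67220649) (nat_lit 12) (nat_lit 5) (nat_lit 14) (nat_lit 4) (nat_lit 12) (nat_lit 4) (nat_lit 346) (nat_lit 219) (nat_lit 215)) (XT.lf (nat_lit 0) (nat_lit 4758484082) (nat_lit 152) (nat_lit 13764413726) (nat_lit 0) (nat_lit 2796988003) (nat_lit 12) (nat_lit 5) (nat_lit 14) (nat_lit 4) (nat_lit 12)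 (nat_lit 4) (nat_lit 347) (nat_lit 219) (nat_lit 214)))) (XT.nd (nat_lit 78) (nat_lit 152) (nat_lit 0) (XT.lf (nat_lit 0) (nat_lit 7886210658) (nat_lit 152) (nat_lit 8400963940) (nat_lit 0) (nat_lit 5566018702) (nat_lit 12) (nat_lit 5) (nat_lit 14) (nat_lit 4) (nat_lit 12) (nat_lit 4) (nat_lit 348) (nat_lit 219) (nat_lit 213)) (XT.nd (nat_lit 78) (nat_lit 152) (nat_lit 0) (XT.lf (nat_lit 0) (nat_lit 11045172668) (nat_lit 152) (nat_lit 2982544305) (nat_lit 0) (nat_lit 8376732288) (nat_lit 12) (nat_lit 5) (nat_lit 14) (nat_lit 4) (nat_lit 12) (nat_lit 4) (nat_lit 349) (nat_lit 219) (nat_lit 212)) (XT.lf (nat_lit 0) (nat_lit 2545246651) (nat_lit 152) (nat_lit 11717350186) (nat_lit 152) (nat_lit 8710804540) (nat_lit 10) (nat_lit 4) (nat_lit 12) (nat_lit 5) (nat_lit 12) (nat_lit 4) (nat_lit 350) (nat_lit 219) (nat_lit 211)))))) (XT.nd (nat_lit 468) (nat_lit 76) (nat_lit 0) (XT.nd (nat_lit 234) (nat_lit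 152) (nat_lit 0) (XT.nd (nat_lit 78) (nat_lit 0) (nat_lit 0) (XT.lf (nat_lit 0) (nat_lit 8198170688) (nat_lit 152) (nat_lit 9348508870) (nat_lit 152) (nat_lit 6013705684) (nat_lit 10) (nat_lit 4) (nat_lit 12) (nat_lit 5) (nat_lit 12) (nat_lit 4) (nat_lit 351) (nat_lit 219) (nat_lit 210)) (XT.nd (nat_lit 78) (nat_lit 0) (nat_lit 0) (XT.lf (nat_lit 0) (nat_lit 13921808774) (nat_lit 152) (nat_lit 6949241012) (nat_lit 152) (nat_lit 3295741185) (nat_lit 10) (nat_lit 4) (nat_lit 12) (nat_lit 5) (nat_lit 12) (nat_lit 4) (nat_lit 352) (nat_lit 219) (nat_lit 209)) (XT.lf (nat_lit 0) (nat_lit 19721162146) (nat_lit 152) (nat_lit 4517450166) (nat_lit 152) (nat_lit 554536124) (nat_lit 10) (nat_lit 4) (nat_lit 12) (nat_lit 5) (nat_lit 12) (nat_lit 4) (nat_lit 353) (nat_lit 219) (nat_lit 208)))) (XT.nd (nat_lit 78) (nat_lit 0) (nat_lit 0) (XT.lf (nat_lit 0) (nat_lit 142814053) (nat_lit 76) (nat_lit 2027693456)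 (nat_lit 152) (nat_lit 23268818263) (nat_lit 8) (nat_lit 5) (nat_lit 9) (nat_lit 5) (nat_lit 10) (nat_lit 4) (nat_lit 354) (nat_lit 219) (nat_lit 207)) (XT.nd (nat_lit 78) (nat_lit 0) (nat_lit 0) (XT.lf (nat_lit 0) (nat_lit 4967891378) (nat_lit 152) (nat_lit 20591246711) (nat_lit 0) (nat_lit 545591607) (nat_lit 8) (nat_lit 5) (nat_lit 10) (nat_lit 4) (nat_lit 8) (nat_lit 4) (nat_lit 355) (nat_lit 219) (nat_lit 206)) (XT.lf (nat_lit 0) (nat_lit 7815729934) (nat_lit 152) (nat_lit 15856906495) (nat_lit 0) (nat_lit 3118519642) (nat_lit 8) (nat_lit 5) (nat_lit 10) (nat_lit 4) (nat_lit 8) (nat_lit 4) (nat_lit 356) (nat_lit 219) (nat_lit 205))))) (XT.nd (nat_lit 234) (nat_lit 76) (nat_lit 0) (XT.nd (nat_lit 78) (nat_lit 0) (nat_lit 0) (XT.lf (nat_lit 0) (nat_lit 10697020152) (nat_lit 152) (nat_lit 11069862838) (nat_lit 0) (nat_lit 5732906440) (nat_lit 8) (nat_lit 5) (nat_lit 10) (nat_lit 4) (nat_lit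 8) (nat_lit 4) (nat_lit 357) (nat_lit 219) (nat_lit 204)) (XT.nd (nat_lit 78) (nat_lit 0) (nat_lit 0) (XT.lf (nat_lit 0) (nat_lit 13614279662) (nat_lit 152) (nat_lit 6225932888) (nat_lit 0) (nat_lit 8391036417) (nat_lit 8) (nat_lit 5) (nat_lit 10) (nat_lit 4) (nat_lit 8) (nat_lit 4) (nat_lit 358) (nat_lit 219) (nat_lit 203)) (XT.lf (nat_lit 0) (nat_lit 16570057527) (nat_lit 152) (nat_lit 1320884083) (nat_lit 0) (nat_lit 11095232211) (nat_lit 8) (nat_lit 5) (nat_lit 10) (nat_lit 4) (nat_lit 8) (nat_lit 4) (nat_lit 359) (nat_lit 219) (nat_lit 202)))) (XT.nd (nat_lit 78) (nat_lit 0) (nat_lit 0) (XT.lf (nat_lit 0) (nat_lit 3722203130) (nat_lit 76) (nat_lit 15880513429) (nat_lit 76) (nat_lit 10161433674) (nat_lit 7) (nat_lit 4) (nat_lit 8) (nat_lit 5) (nat_lit 8) (nat_lit 4) (nat_lit 360) (nat_lit 219) (nat_lit 201)) (XT.nd (nat_lit 78) (nat_lit 0) (nat_lit 0) (XT.lf (nat_lit 0) (nat_lit 8862714581)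 (nat_lit 76) (nat_lit 13830014362) (nat_lit 76) (nat_lit 7873794376) (nat_lit 7) (nat_lit 4) (nat_lit 8) (nat_lit 5) (nat_lit 8) (nat_lit 4) (nat_lit 361) (nat_lit 219) (nat_lit 200)) (XT.lf (nat_lit 0) (nat_lit 14078853796) (nat_lit 76) (nat_lit 11750991051) (nat_lit 76) (nat_lit 5564537831) (nat_lit 7) (nat_lit 4) (nat_lit 8) (nat_lit 5) (nat_lit 8) (nat_lit 4) (nat_lit 362) (nat_lit 219) (nat_lit 199))))))))
noncomputable def xc21 : XT := (XT.nd (nat_lit 1716) (nat_lit 152) (nat_lit 0) (XT.nd (nat_lit 858) (nat_lit 76) (nat_lit 0) (XT.nd (nat_lit 390) (nat_lit 0) (nat_lit 0) (XT.nd (nat_lit 156) (nat_lit 152) (nat_lit 0) (XT.nd (nat_lit 78) (nat_lit 0) (nat_lit 0) (XT.lf (nat_lit 0) (nat_lit 19375178566) (nat_lit 76) (nat_lit 9641626873) (nat_lit 76) (nat_lit 3231646242) (nat_lit 7) (nat_lit 4) (nat_lit 8) (nat_lit 5) (nat_lit 8) (nat_lit 4) (nat_lit 363) (nat_lit 219) (nat_lit 198)) (XT.lf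 (nat_lit 0) (nat_lit 24756316747) (nat_lit 76) (nat_lit 7500078696) (nat_lit 76) (nat_lit 873081159) (nat_lit 7) (nat_lit 4) (nat_lit 8) (nat_lit 5) (nat_lit 8) (nat_lit 4) (nat_lit 364) (nat_lit 219) (nat_lit 197))) (XT.nd (nat_lit 78) (nat_lit 76) (nat_lit 0) (XT.lf (nat_lit 0) (nat_lit 1483689958) (nat_lit 152) (nat_lit 3825802945) (nat_lit 76) (nat_lit 28728297988) (nat_lit 6) (nat_lit 5) (nat_lit 8) (nat_lit 5) (nat_lit 7) (nat_lit 4) (nat_lit 365) (nat_lit 219) (nat_lit 196)) (XT.nd (nat_lit 78) (nat_lit 0) (nat_lit 0) (XT.lf (nat_lit 0) (nat_lit 794147163) (nat_lit 76) (nat_lit 3066148388) (nat_lit 152) (nat_lit 31113840036) (nat_lit 5) (nat_lit 5) (nat_lit 6) (nat_lit 5) (nat_lit 7) (nat_lit 4) (nat_lit 366) (nat_lit 219) (nat_lit 195)) (XT.lf (nat_lit 0) (nat_lit 5561134111) (nat_lit 76) (nat_lit 745263981) (nat_lit 152) (nat_lit 29632266076) (nat_lit 5) (nat_lit 5) (nat_lit 6) (nat_lit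 5) (nat_lit 7) (nat_lit 4) (nat_lit 367) (nat_lit 219) (nat_lit 194))))) (XT.nd (nat_lit 234) (nat_lit 0) (nat_lit 0) (XT.nd (nat_lit 78) (nat_lit 0) (nat_lit 0) (XT.lf (nat_lit 0) (nat_lit 8802166397) (nat_lit 152) (nat_lit 26545701734) (nat_lit 0) (nat_lit 1585010353) (nat_lit 5) (nat_lit 5) (nat_lit 7) (nat_lit 4) (nat_lit 5) (nat_lit 4) (nat_lit 368) (nat_lit 219) (nat_lit 193)) (XT.nd (nat_lit 78) (nat_lit 0) (nat_lit 0) (XT.lf (nat_lit 0) (nat_lit 11341805599) (nat_lit 152) (nat_lit 22673179620) (nat_lit 0) (nat_lit 3942901314) (nat_lit 5) (nat_lit 5) (nat_lit 7) (nat_lit 4) (nat_lit 5) (nat_lit 4) (nat_lit 369) (nat_lit 219) (nat_lit 192)) (XT.lf (nat_lit 0) (nat_lit 13920370867) (nat_lit 152) (nat_lit 18749416024) (nat_lit 0) (nat_lit 6345011979) (nat_lit 5) (nat_lit 5) (nat_lit 7) (nat_lit 4) (nat_lit 5) (nat_lit 4) (nat_lit 370) (nat_lit 219) (nat_lit 191)))) (XT.nd (nat_lit 78) (nat_lit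 0) (nat_lit 0) (XT.lf (nat_lit 0) (nat_lit 16540115318) (nat_lit 152) (nat_lit 14770982416) (nat_lit 0) (nat_lit 8793441281) (nat_lit 5) (nat_lit 5) (nat_lit 7) (nat_lit 4) (nat_lit 5) (nat_lit 4) (nat_lit 371) (nat_lit 219) (nat_lit 190)) (XT.nd (nat_lit 78) (nat_lit 0) (nat_lit 0) (XT.lf (nat_lit 0) (nat_lit 19203328047) (nat_lit 152) (nat_lit 10734402495) (nat_lit 0) (nat_lit 11290328624) (nat_lit 5) (nat_lit 5) (nat_lit 7) (nat_lit 4) (nat_lit 5) (nat_lit 4) (nat_lit 372) (nat_lit 219) (nat_lit 189)) (XT.lf (nat_lit 0) (nat_lit 21912336134) (nat_lit 152) (nat_lit 6636149150) (nat_lit 0) (nat_lit 13837855753) (nat_lit 5) (nat_lit 5) (nat_lit 7) (nat_lit 4) (nat_lit 5) (nat_lit 4) (nat_lit 373) (nat_lit 219) (nat_lit 188)))))) (XT.nd (nat_lit 390) (nat_lit 0) (nat_lit 0) (XT.nd (nat_lit 156) (nat_lit 0) (nat_lit 0) (XT.nd (nat_lit 78) (nat_lit 76) (nat_lit 0) (XT.lf (nat_lit 0) (nat_lit 24669506674)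 (nat_lit 152) (nat_lit 2472641385) (nat_lit 0) (nat_lit 16438248663) (nat_lit 5) (nat_lit 5) (nat_lit 7) (nat_lit 4) (nat_lit 5) (nat_lit 4) (nat_lit 374) (nat_lit 219) (nat_lit 187)) (XT.lf (nat_lit 0) (nat_lit 1794781467) (nat_lit 76) (nat_lit 25699719915) (nat_lit 76) (nat_lit 17316250613) (nat_lit 4) (nat_lit 4) (nat_lit 5) (nat_lit 5) (nat_lit 5) (nat_lit 4) (nat_lit 375) (nat_lit 219) (nat_lit 186))) (XT.nd (nat_lit 78) (nat_lit 0) (nat_lit 0) (XT.lf (nat_lit 0) (nat_lit 6185450078) (nat_lit 76) (nat_lit 24212024263) (nat_lit 76) (nat_lit 15680777010) (nat_lit 4) (nat_lit 4) (nat_lit 5) (nat_lit 5) (nat_lit 5) (nat_lit 4) (nat_lit 376) (nat_lit 219) (nat_lit 185)) (XT.nd (nat_lit 78) (nat_lit 0) (nat_lit 0) (XT.lf (nat_lit 0) (nat_lit 10653990544) (nat_lit 76) (nat_lit 22702730007) (nat_lit 76) (nat_lit 14028009014) (nat_lit 4) (nat_lit 4) (nat_lit 5) (nat_lit 5) (nat_lit 5) (nat_lit 4)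 (nat_lit 377) (nat_lit 219) (nat_lit 184)) (XT.lf (nat_lit 0) (nat_lit 15204307413) (nat_lit 76) (nat_lit 21170518345) (nat_lit 76) (nat_lit 12356502459) (nat_lit 4) (nat_lit 4) (nat_lit 5) (nat_lit 5) (nat_lit 5) (nat_lit 4) (nat_lit 378) (nat_lit 219) (nat_lit 183))))) (XT.nd (nat_lit 234) (nat_lit 0) (nat_lit 0) (XT.nd (nat_lit 78) (nat_lit 0) (nat_lit 0) (XT.lf (nat_lit 0) (nat_lit 19840376691) (nat_lit 76) (nat_lit 19614050452) (nat_lit 76) (nat_lit 10664796805) (nat_lit 4) (nat_lit 4) (nat_lit 5) (nat_lit 5) (nat_lit 5) (nat_lit 4) (nat_lit 379) (nat_lit 219) (nat_lit 182)) (XT.nd (nat_lit 78) (nat_lit 0) (nat_lit 0) (XT.lf (nat_lit 0) (nat_lit 24566249311) (nat_lit 76) (nat_lit 18031966307) (nat_lit 76) (nat_lit 8951413864) (nat_lit 4) (nat_lit 4) (nat_lit 5) (nat_lit 5) (nat_lit 5) (nat_lit 4) (nat_lit 380) (nat_lit 219) (nat_lit 181)) (XT.lf (nat_lit 0) (nat_lit 29386054678) (nat_lit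 76) (nat_lit 16422883507) (nat_lit 76) (nat_lit 7214856504) (nat_lit 4) (nat_lit 4) (nat_lit 5) (nat_lit 5) (nat_lit 5) (nat_lit 4) (nat_lit 381) (nat_lit 219) (nat_lit 180)))) (XT.nd (nat_lit 78) (nat_lit 0) (nat_lit 0) (XT.lf (nat_lit 0) (nat_lit 34304004271) (nat_lit 76) (nat_lit 14785396056) (nat_lit 76) (nat_lit 5453607345) (nat_lit 4) (nat_lit 4) (nat_lit 5) (nat_lit 5) (nat_lit 5) (nat_lit 4) (nat_lit 382) (nat_lit 219) (nat_lit 179)) (XT.nd (nat_lit 78) (nat_lit 0) (nat_lit 0) (XT.lf (nat_lit 0) (nat_lit 39324395329) (nat_lit 76) (nat_lit 13118073141) (nat_lit 76) (nat_lit 3666127432) (nat_lit 4) (nat_lit 4) (nat_lit 5) (nat_lit 5) (nat_lit 5) (nat_lit 4) (nat_lit 383) (nat_lit 219) (nat_lit 178)) (XT.lf (nat_lit 0) (nat_lit 44451614600) (nat_lit 76) (nat_lit 11419457878) (nat_lit 76) (nat_lit 1850854889) (nat_lit 4) (nat_lit 4) (nat_lit 5) (nat_lit 5) (nat_lit 5) (nat_lit 4) (nat_lit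 384) (nat_lit 219) (nat_lit 177))))))) (XT.nd (nat_lit 858) (nat_lit 0) (nat_lit 0) (XT.nd (nat_lit 390) (nat_lit 0) (nat_lit 0) (XT.nd (nat_lit 156) (nat_lit 76) (nat_lit 0) (XT.nd (nat_lit 78) (nat_lit 76) (nat_lit 0) (XT.lf (nat_lit 0) (nat_lit 49690142179) (nat_lit 76) (nat_lit 9688066039) (nat_lit 76) (nat_lit 6203555) (nat_lit 4) (nat_lit 4) (nat_lit 5) (nat_lit 5) (nat_lit 5) (nat_lit 4) (nat_lit 385) (nat_lit 219) (nat_lit 176)) (XT.lf (nat_lit 0) (nat_lit 1832958923) (nat_lit 152) (nat_lit 6070916544) (nat_lit 76) (nat_lit 53193087206) (nat_lit 3) (nat_lit 5) (nat_lit 5) (nat_lit 5) (nat_lit 4) (nat_lit 4) (nat_lit 386) (nat_lit 219) (nat_lit 175))) (XT.nd (nat_lit 78) (nat_lit 76) (nat_lit 0) (XT.lf (nat_lit 0) (nat_lit 3703993161) (nat_lit 152) (nat_lit 2379474978) (nat_lit 76) (nat_lit 56778136708) (nat_lit 3) (nat_lit 5) (nat_lit 5) (nat_lit 5) (nat_lit 4) (nat_lit 4) (nat_lit 387)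 (nat_lit 219) (nat_lit 174)) (XT.nd (nat_lit 78) (nat_lit 0) (nat_lit 0) (XT.lf (nat_lit 0) (nat_lit 1410871450) (nat_lit 76) (nat_lit 4211345804) (nat_lit 152) (nat_lit 59057257885) (nat_lit 2) (nat_lit 5) (nat_lit 3) (nat_lit 5) (nat_lit 4) (nat_lit 4) (nat_lit 388) (nat_lit 219) (nat_lit 173)) (XT.lf (nat_lit 0) (nat_lit 5324721585) (nat_lit 76) (nat_lit 2275071891) (nat_lit 152) (nat_lit 58952053921) (nat_lit 2) (nat_lit 5) (nat_lit 3) (nat_lit 5) (nat_lit 4) (nat_lit 4) (nat_lit 389) (nat_lit 219) (nat_lit 172))))) (XT.nd (nat_lit 234) (nat_lit 0) (nat_lit 0) (XT.nd (nat_lit 78) (nat_lit 0) (nat_lit 0) (XT.lf (nat_lit 0) (nat_lit 9318139076) (nat_lit 76) (nat_lit 296982541) (nat_lit 152) (nat_lit 58865935902) (nat_lit 2) (nat_lit 5) (nat_lit 3) (nat_lit 5) (nat_lit 4) (nat_lit 4) (nat_lit 390) (nat_lit 219) (nat_lit 171)) (XT.nd (nat_lit 78) (nat_lit 0) (nat_lit 0) (XT.lf (nat_lit 0) (nat_lit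 11686541042) (nat_lit 152) (nat_lit 57090756302) (nat_lit 0) (nat_lit 1690996526) (nat_lit 2) (nat_lit 5) (nat_lit 4) (nat_lit 4) (nat_lit 2) (nat_lit 4) (nat_lit 391) (nat_lit 219) (nat_lit 170)) (XT.lf (nat_lit 0) (nat_lit 13802559174) (nat_lit 152) (nat_lit 54995526207) (nat_lit 0) (nat_lit 3717606566) (nat_lit 2) (nat_lit 5) (nat_lit 4) (nat_lit 4) (nat_lit 2) (nat_lit 4) (nat_lit 392) (nat_lit 219) (nat_lit 169)))) (XT.nd (nat_lit 78) (nat_lit 0) (nat_lit 0) (XT.lf (nat_lit 0) (nat_lit 15962170183) (nat_lit 152) (nat_lit 52872542597) (nat_lit 0) (nat_lit 5790413603) (nat_lit 2) (nat_lit 5) (nat_lit 4) (nat_lit 4) (nat_lit 2) (nat_lit 4) (nat_lit 393) (nat_lit 219) (nat_lit 168)) (XT.nd (nat_lit 78) (nat_lit 0) (nat_lit 0) (XT.lf (nat_lit 0) (nat_lit 18167261107) (nat_lit 152) (nat_lit 50719950438) (nat_lit 0) (nat_lit 7911228827) (nat_lit 2) (nat_lit 5) (nat_lit 4) (nat_lit 4) (nat_lit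 2) (nat_lit 4) (nat_lit 394) (nat_lit 219) (nat_lit 167)) (XT.lf (nat_lit 0) (nat_lit 20419758726) (nat_lit 152) (nat_lit 48535868823) (nat_lit 0) (nat_lit 10081905377) (nat_lit 2) (nat_lit 5) (nat_lit 4) (nat_lit 4) (nat_lit 2) (nat_lit 4) (nat_lit 395) (nat_lit 219) (nat_lit 166)))))) (XT.nd (nat_lit 468) (nat_lit 0) (nat_lit 0) (XT.nd (nat_lit 234) (nat_lit 0) (nat_lit 0) (XT.nd (nat_lit 78) (nat_lit 0) (nat_lit 0) (XT.lf (nat_lit 0) (nat_lit 22721631242) (nat_lit 152) (nat_lit 46318389332) (nat_lit 0) (nat_lit 12304339961) (nat_lit 2) (nat_lit 5) (nat_lit 4) (nat_lit 4) (nat_lit 2) (nat_lit 4) (nat_lit 396) (nat_lit 219) (nat_lit 165)) (XT.nd (nat_lit 78) (nat_lit 0) (nat_lit 0) (XT.lf (nat_lit 0) (nat_lit 25074889998) (nat_lit 152) (nat_lit 44065574362) (nat_lit 0) (nat_lit 14580474512) (nat_lit 2) (nat_lit 5) (nat_lit 4) (nat_lit 4) (nat_lit 2) (nat_lit 4) (nat_lit 397) (nat_lit 219) (nat_lit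 164)) (XT.lf (nat_lit 0) (nat_lit 27481591241) (nat_lit 152) (nat_lit 41775455434) (nat_lit 0) (nat_lit 16912297886) (nat_lit 2) (nat_lit 5) (nat_lit 4) (nat_lit 4) (nat_lit 2) (nat_lit 4) (nat_lit 398) (nat_lit 219) (nat_lit 163)))) (XT.nd (nat_lit 78) (nat_lit 0) (nat_lit 0) (XT.lf (nat_lit 0) (nat_lit 29943837913) (nat_lit 152) (nat_lit 39446031472) (nat_lit 0) (nat_lit 19301847598) (nat_lit 2) (nat_lit 5) (nat_lit 4) (nat_lit 4) (nat_lit 2) (nat_lit 4) (nat_lit 399) (nat_lit 219) (nat_lit 162)) (XT.nd (nat_lit 78) (nat_lit 0) (nat_lit 0) (XT.lf (nat_lit 0) (nat_lit 32463781492) (nat_lit 152) (nat_lit 37075267058) (nat_lit 0) (nat_lit 21751211605) (nat_lit 2) (nat_lit 5) (nat_lit 4) (nat_lit 4) (nat_lit 2) (nat_lit 4) (nat_lit 400) (nat_lit 219) (nat_lit 161)) (XT.lf (nat_lit 0) (nat_lit 35043623871) (nat_lit 152) (nat_lit 34661090650) (nat_lit 0) (nat_lit 24262530126) (nat_lit 2) (nat_lit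 5) (nat_lit 4) (nat_lit 4) (nat_lit 2) (nat_lit 4) (nat_lit 401) (nat_lit 219) (nat_lit 160))))) (XT.nd (nat_lit 35880) (nat_lit 0) (nat_lit 912) (XT.nd (nat_lit 78) (nat_lit 0) (nat_lit 0) (XT.lf (nat_lit 0) (nat_lit 37685619281) (nat_lit 152) (nat_lit 32201392773) (nat_lit 0) (nat_lit 26837997519) (nat_lit 2) (nat_lit 5) (nat_lit 4) (nat_lit 4) (nat_lit 2) (nat_lit 4) (nat_lit 402) (nat_lit 219) (nat_lit 159)) (XT.nd (nat_lit 35724) (nat_lit 0) (nat_lit 1064) (XT.lf (nat_lit 0) (nat_lit 40392076260) (nat_lit 152) (nat_lit 29694024177) (nat_lit 0) (nat_lit 29479864192) (nat_lit 2) (nat_lit 5) (nat_lit 4) (nat_lit 4) (nat_lit 2) (nat_lit 4) (nat_lit 403) (nat_lit 219) (nat_lit 158)) (XT.lf (nat_lit 0) (nat_lit 1149744898) (nat_lit 152) (nat_lit 6714669184) (nat_lit 0) (nat_lit 1149744898) (nat_lit 16) (nat_lit 5) (nat_lit 18) (nat_lit 4) (nat_lit 16) (nat_lit 4) (nat_lit 340) (nat_lit 220) (nat_lit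 220)))) (XT.nd (nat_lit 78) (nat_lit 152) (nat_lit 0) (XT.lf (nat_lit 0) (nat_lit 5593718674) (nat_lit 152) (nat_lit 7707950166) (nat_lit 0) (nat_lit 5152567989) (nat_lit 16) (nat_lit 5) (nat_lit 18) (nat_lit 4) (nat_lit 16) (nat_lit 4) (nat_lit 341) (nat_lit 220) (nat_lit 219)) (XT.nd (nat_lit 78) (nat_lit 152) (nat_lit 0) (XT.lf (nat_lit 0) (nat_lit 8915675544) (nat_lit 152) (nat_lit 1933255219) (nat_lit 0) (nat_lit 8046223223) (nat_lit 16) (nat_lit 5) (nat_lit 18) (nat_lit 4) (nat_lit 16) (nat_lit 4) (nat_lit 342) (nat_lit 220) (nat_lit 218)) (XT.lf (nat_lit 0) (nat_lit 3977405836) (nat_lit 152) (nat_lit 8329090508) (nat_lit 152) (nat_lit 7043811357) (nat_lit 14) (nat_lit 4) (nat_lit 16) (nat_lit 5) (nat_lit 16) (nat_lit 4) (nat_lit 343) (nat_lit 220) (nat_lit 217))))))))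
noncomputable def xc22 : XT := (XT.nd (nat_lit 1716) (nat_lit 228) (nat_lit 0) (XT.nd (nat_lit 858) (nat_lit 228) (nat_lit 0) (XT.nd (nat_lit 390) (nat_lit 228) (nat_lit 0) (XT.nd (nat_lit 156) (nat_lit 152) (nat_lit 0) (XT.nd (nat_lit 78) (nat_lit 0) (nat_lit 0) (XT.lf (nat_lit 0) (nat_lit 9991254662) (nat_lit 152) (nat_lit 5759198139) (nat_lit 152) (nat_lit 4070203618) (nat_lit 14) (nat_lit 4) (nat_lit 16) (nat_lit 5) (nat_lit 16) (nat_lit 4) (nat_lit 344) (nat_lit 220) (nat_lit 216)) (XT.lf (nat_lit 0) (nat_lit 16075070507) (nat_lit 152) (nat_lit 3156530204) (nat_lit 152) (nat_lit 1075579014) (nat_lit 14) (nat_lit 4) (nat_lit 16) (nat_lit 5) (nat_lit 16) (nat_lit 4) (nat_lit 345) (nat_lit 220) (nat_lit 215))) (XT.nd (nat_lit 78) (nat_lit 0) (nat_lit 0) (XT.lf (nat_lit 0) (nat_lit 1433158450) (nat_lit 76) (nat_lit 485388395) (nat_lit 152) (nat_lit 18890782376) (nat_lit 12) (nat_lit 5) (nat_lit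 13) (nat_lit 5) (nat_lit 14) (nat_lit 4) (nat_lit 346) (nat_lit 220) (nat_lit 214)) (XT.nd (nat_lit 78) (nat_lit 0) (nat_lit 0) (XT.lf (nat_lit 0) (nat_lit 4981344385) (nat_lit 152) (nat_lit 14112088059) (nat_lit 0) (nat_lit 2232850794) (nat_lit 12) (nat_lit 5) (nat_lit 14) (nat_lit 4) (nat_lit 12) (nat_lit 4) (nat_lit 347) (nat_lit 220) (nat_lit 213)) (XT.lf (nat_lit 0) (nat_lit 8078235315) (nat_lit 152) (nat_lit 8800822334) (nat_lit 0) (nat_lit 4981493299) (nat_lit 12) (nat_lit 5) (nat_lit 14) (nat_lit 4) (nat_lit 12) (nat_lit 4) (nat_lit 348) (nat_lit 220) (nat_lit 212))))) (XT.nd (nat_lit 234) (nat_lit 76) (nat_lit 0) (XT.nd (nat_lit 78) (nat_lit 152) (nat_lit 0) (XT.lf (nat_lit 0) (nat_lit 11207259803) (nat_lit 152) (nat_lit 3433066835) (nat_lit 0) (nat_lit 7772412521) (nat_lit 12) (nat_lit 5) (nat_lit 14) (nat_lit 4) (nat_lit 12) (nat_lit 4) (nat_lit 349) (nat_lit 220) (nat_lit 211)) (XT.nd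 (nat_lit 78) (nat_lit 0) (nat_lit 0) (XT.lf (nat_lit 0) (nat_lit 2035590409) (nat_lit 152) (nat_lit 12355128881) (nat_lit 152) (nat_lit 8592024060) (nat_lit 10) (nat_lit 4) (nat_lit 12) (nat_lit 5) (nat_lit 12) (nat_lit 4) (nat_lit 350) (nat_lit 220) (nat_lit 210)) (XT.lf (nat_lit 0) (nat_lit 7639808203) (nat_lit 152) (nat_lit 10006306628) (nat_lit 152) (nat_lit 5924505166) (nat_lit 10) (nat_lit 4) (nat_lit 12) (nat_lit 5) (nat_lit 12) (nat_lit 4) (nat_lit 351) (nat_lit 220) (nat_lit 209)))) (XT.nd (nat_lit 78) (nat_lit 76) (nat_lit 0) (XT.lf (nat_lit 0) (nat_lit 13316158676) (nat_lit 152) (nat_lit 7626474754) (nat_lit 152) (nat_lit 3235259077) (nat_lit 10) (nat_lit 4) (nat_lit 12) (nat_lit 5) (nat_lit 12) (nat_lit 4) (nat_lit 352) (nat_lit 220) (nat_lit 208)) (XT.nd (nat_lit 78) (nat_lit 76) (nat_lit 0) (XT.lf (nat_lit 0) (nat_lit 19069601743) (nat_lit 152) (nat_lit 5213553794) (nat_lit 152)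 (nat_lit 521935967) (nat_lit 10) (nat_lit 4) (nat_lit 12) (nat_lit 5) (nat_lit 12) (nat_lit 4) (nat_lit 353) (nat_lit 220) (nat_lit 207)) (XT.lf (nat_lit 0) (nat_lit 2174557078) (nat_lit 228) (nat_lit 568919529) (nat_lit 76) (nat_lit 22708648845) (nat_lit 9) (nat_lit 5) (nat_lit 12) (nat_lit 5) (nat_lit 10) (nat_lit 4) (nat_lit 354) (nat_lit 220) (nat_lit 206)))))) (XT.nd (nat_lit 390) (nat_lit 152) (nat_lit 0) (XT.nd (nat_lit 156) (nat_lit 0) (nat_lit 0) (XT.nd (nat_lit 78) (nat_lit 0) (nat_lit 0) (XT.lf (nat_lit 0) (nat_lit 4751248721) (nat_lit 76) (nat_lit 183567514) (nat_lit 152) (nat_lit 21183854631) (nat_lit 8) (nat_lit 5) (nat_lit 9) (nat_lit 5) (nat_lit 10) (nat_lit 4) (nat_lit 355) (nat_lit 220) (nat_lit 205)) (XT.lf (nat_lit 0) (nat_lit 7755282595) (nat_lit 152) (nat_lit 16675320699) (nat_lit 0) (nat_lit 2375342052) (nat_lit 8) (nat_lit 5) (nat_lit 10) (nat_lit 4) (nat_lit 8) (nat_lit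 4) (nat_lit 356) (nat_lit 220) (nat_lit 204))) (XT.nd (nat_lit 78) (nat_lit 0) (nat_lit 0) (XT.lf (nat_lit 0) (nat_lit 10611711032) (nat_lit 152) (nat_lit 11930998725) (nat_lit 0) (nat_lit 4972640956) (nat_lit 8) (nat_lit 5) (nat_lit 10) (nat_lit 4) (nat_lit 8) (nat_lit 4) (nat_lit 357) (nat_lit 220) (nat_lit 203)) (XT.nd (nat_lit 78) (nat_lit 0) (nat_lit 0) (XT.lf (nat_lit 0) (nat_lit 13504832892) (nat_lit 152) (nat_lit 7128546136) (nat_lit 0) (nat_lit 7614180745) (nat_lit 8) (nat_lit 5) (nat_lit 10) (nat_lit 4) (nat_lit 8) (nat_lit 4) (nat_lit 358) (nat_lit 220) (nat_lit 202)) (XT.lf (nat_lit 0) (nat_lit 16437176145) (nat_lit 152) (nat_lit 2263766615) (nat_lit 0) (nat_lit 10302269560) (nat_lit 8) (nat_lit 5) (nat_lit 10) (nat_lit 4) (nat_lit 8) (nat_lit 4) (nat_lit 359) (nat_lit 220) (nat_lit 201))))) (XT.nd (nat_lit 234) (nat_lit 76) (nat_lit 0) (XT.nd (nat_lit 78) (nat_lit 0) (nat_lit 0)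 (XT.lf (nat_lit 0) (nat_lit 2720680900) (nat_lit 76) (nat_lit 16716774981) (nat_lit 76) (nat_lit 10344728165) (nat_lit 7) (nat_lit 4) (nat_lit 8) (nat_lit 5) (nat_lit 8) (nat_lit 4) (nat_lit 360) (nat_lit 220) (nat_lit 200)) (XT.nd (nat_lit 78) (nat_lit 0) (nat_lit 0) (XT.lf (nat_lit 0) (nat_lit 7822479258) (nat_lit 76) (nat_lit 14682527504) (nat_lit 76) (nat_lit 8080247454) (nat_lit 7) (nat_lit 4) (nat_lit 8) (nat_lit 5) (nat_lit 8) (nat_lit 4) (nat_lit 361) (nat_lit 220) (nat_lit 199)) (XT.lf (nat_lit 0) (nat_lit 13001032945) (nat_lit 76) (nat_lit 12619282436) (nat_lit 76) (nat_lit 5793474974) (nat_lit 7) (nat_lit 4) (nat_lit 8) (nat_lit 5) (nat_lit 8) (nat_lit 4) (nat_lit 362) (nat_lit 220) (nat_lit 198)))) (XT.nd (nat_lit 78) (nat_lit 76) (nat_lit 0) (XT.lf (nat_lit 0) (nat_lit 18260866911) (nat_lit 76) (nat_lit 10525236941) (nat_lit 76) (nat_lit 3482412574) (nat_lit 7) (nat_lit 4) (nat_lit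 8) (nat_lit 5) (nat_lit 8) (nat_lit 4) (nat_lit 363) (nat_lit 220) (nat_lit 197)) (XT.nd (nat_lit 78) (nat_lit 76) (nat_lit 0) (XT.lf (nat_lit 0) (nat_lit 23606577128) (nat_lit 76) (nat_lit 8398561270) (nat_lit 76) (nat_lit 1145040880) (nat_lit 7) (nat_lit 4) (nat_lit 8) (nat_lit 5) (nat_lit 8) (nat_lit 4) (nat_lit 364) (nat_lit 220) (nat_lit 196)) (XT.lf (nat_lit 0) (nat_lit 1196862560) (nat_lit 152) (nat_lit 5028448638) (nat_lit 76) (nat_lit 27833886078) (nat_lit 6) (nat_lit 5) (nat_lit 8) (nat_lit 5) (nat_lit 7) (nat_lit 4) (nat_lit 365) (nat_lit 220) (nat_lit 195))))))) (XT.nd (nat_lit 858) (nat_lit 76) (nat_lit 0) (XT.nd (nat_lit 390) (nat_lit 76) (nat_lit 0) (XT.nd (nat_lit 156) (nat_lit 0) (nat_lit 0) (XT.nd (nat_lit 78) (nat_lit 76) (nat_lit 0) (XT.lf (nat_lit 0) (nat_lit 3546247344) (nat_lit 152) (nat_lit 457798737) (nat_lit 76) (nat_lit 30992331978) (nat_lit 6) (nat_lit 5) (nat_lit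 8) (nat_lit 5) (nat_lit 7) (nat_lit 4) (nat_lit 366) (nat_lit 220) (nat_lit 194)) (XT.lf (nat_lit 0) (nat_lit 4266604989) (nat_lit 76) (nat_lit 1701918432) (nat_lit 152) (nat_lit 29993116910) (nat_lit 5) (nat_lit 5) (nat_lit 6) (nat_lit 5) (nat_lit 7) (nat_lit 4) (nat_lit 367) (nat_lit 220) (nat_lit 193))) (XT.nd (nat_lit 78) (nat_lit 0) (nat_lit 0) (XT.lf (nat_lit 0) (nat_lit 8436188880) (nat_lit 152) (nat_lit 27886957971) (nat_lit 0) (nat_lit 633569225) (nat_lit 5) (nat_lit 5) (nat_lit 7) (nat_lit 4) (nat_lit 5) (nat_lit 4) (nat_lit 368) (nat_lit 220) (nat_lit 192)) (XT.nd (nat_lit 78) (nat_lit 0) (nat_lit 0) (XT.lf (nat_lit 0) (nat_lit 10957471870) (nat_lit 152) (nat_lit 24046423138) (nat_lit 0) (nat_lit 2978397612) (nat_lit 5) (nat_lit 5) (nat_lit 7) (nat_lit 4) (nat_lit 5) (nat_lit 4) (nat_lit 369) (nat_lit 220) (nat_lit 191)) (XT.lf (nat_lit 0) (nat_lit 13518215574) (nat_lit 152) (nat_lit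 20153715156) (nat_lit 0) (nat_lit 5367826168) (nat_lit 5) (nat_lit 5) (nat_lit 7) (nat_lit 4) (nat_lit 5) (nat_lit 4) (nat_lit 370) (nat_lit 220) (nat_lit 190))))) (XT.nd (nat_lit 234) (nat_lit 76) (nat_lit 0) (XT.nd (nat_lit 78) (nat_lit 0) (nat_lit 0) (XT.lf (nat_lit 0) (nat_lit 16120657535) (nat_lit 152) (nat_lit 16205432629) (nat_lit 0) (nat_lit 7803942741) (nat_lit 5) (nat_lit 5) (nat_lit 7) (nat_lit 4) (nat_lit 5) (nat_lit 4) (nat_lit 371) (nat_lit 220) (nat_lit 189)) (XT.nd (nat_lit 78) (nat_lit 0) (nat_lit 0) (XT.lf (nat_lit 0) (nat_lit 18767071730) (nat_lit 152) (nat_lit 12198125602) (nat_lit 0) (nat_lit 10288875979) (nat_lit 5) (nat_lit 5) (nat_lit 7) (nat_lit 4) (nat_lit 5) (nat_lit 4) (nat_lit 372) (nat_lit 220) (nat_lit 188)) (XT.lf (nat_lit 0) (nat_lit 21459770561) (nat_lit 152) (nat_lit 8128292543) (nat_lit 0) (nat_lit 12824797180) (nat_lit 5) (nat_lit 5) (nat_lit 7) (nat_lit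 4) (nat_lit 5) (nat_lit 4) (nat_lit 373) (nat_lit 220) (nat_lit 187)))) (XT.nd (nat_lit 78) (nat_lit 76) (nat_lit 0) (XT.lf (nat_lit 0) (nat_lit 24201106871) (nat_lit 152) (nat_lit 3992377288) (nat_lit 0) (nat_lit 15413922200) (nat_lit 5) (nat_lit 5) (nat_lit 7) (nat_lit 4) (nat_lit 5) (nat_lit 4) (nat_lit 374) (nat_lit 220) (nat_lit 186)) (XT.nd (nat_lit 78) (nat_lit 0) (nat_lit 0) (XT.lf (nat_lit 0) (nat_lit 217477844) (nat_lit 76) (nat_lit 26778088689) (nat_lit 76) (nat_lit 17843126066) (nat_lit 4) (nat_lit 4) (nat_lit 5) (nat_lit 5) (nat_lit 5) (nat_lit 4) (nat_lit 375) (nat_lit 220) (nat_lit 185)) (XT.lf (nat_lit 0) (nat_lit 4581620246) (nat_lit 76) (nat_lit 25301738981) (nat_lit 76) (nat_lit 16223302618) (nat_lit 4) (nat_lit 4) (nat_lit 5) (nat_lit 5) (nat_lit 5) (nat_lit 4) (nat_lit 376) (nat_lit 220) (nat_lit 184)))))) (XT.nd (nat_lit 468) (nat_lit 76) (nat_lit 0) (XT.nd (nat_lit 234)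 (nat_lit 0) (nat_lit 0) (XT.nd (nat_lit 78) (nat_lit 0) (nat_lit 0) (XT.lf (nat_lit 0) (nat_lit 9024407111) (nat_lit 76) (nat_lit 23803460203) (nat_lit 76) (nat_lit 14585728947) (nat_lit 4) (nat_lit 4) (nat_lit 5) (nat_lit 5) (nat_lit 5) (nat_lit 4) (nat_lit 377) (nat_lit 220) (nat_lit 183)) (XT.nd (nat_lit 78) (nat_lit 0) (nat_lit 0) (XT.lf (nat_lit 0) (nat_lit 13549720483) (nat_lit 76) (nat_lit 22281943181) (nat_lit 76) (nat_lit 12928974165) (nat_lit 4) (nat_lit 4) (nat_lit 5) (nat_lit 5) (nat_lit 5) (nat_lit 4) (nat_lit 378) (nat_lit 220) (nat_lit 182)) (XT.lf (nat_lit 0) (nat_lit 18161514522) (nat_lit 76) (nat_lit 20735858433) (nat_lit 76) (nat_lit 11251590621) (nat_lit 4) (nat_lit 4) (nat_lit 5) (nat_lit 5) (nat_lit 5) (nat_lit 4) (nat_lit 379) (nat_lit 220) (nat_lit 181)))) (XT.nd (nat_lit 78) (nat_lit 0) (nat_lit 0) (XT.lf (nat_lit 0) (nat_lit 22863818949) (nat_lit 76) (nat_lit 19163855012)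 (nat_lit 76) (nat_lit 9552112640) (nat_lit 4) (nat_lit 4) (nat_lit 5) (nat_lit 5) (nat_lit 5) (nat_lit 4) (nat_lit 380) (nat_lit 220) (nat_lit 180)) (XT.nd (nat_lit 78) (nat_lit 0) (nat_lit 0) (XT.lf (nat_lit 0) (nat_lit 27660742575) (nat_lit 76) (nat_lit 17564559322) (nat_lit 76) (nat_lit 7829055242) (nat_lit 4) (nat_lit 4) (nat_lit 5) (nat_lit 5) (nat_lit 5) (nat_lit 4) (nat_lit 381) (nat_lit 220) (nat_lit 179)) (XT.lf (nat_lit 0) (nat_lit 32556476886) (nat_lit 76) (nat_lit 15936573920) (nat_lit 76) (nat_lit 6080912842) (nat_lit 4) (nat_lit 4) (nat_lit 5) (nat_lit 5) (nat_lit 5) (nat_lit 4) (nat_lit 382) (nat_lit 220) (nat_lit 178))))) (XT.nd (nat_lit 234) (nat_lit 76) (nat_lit 0) (XT.nd (nat_lit 78) (nat_lit 0) (nat_lit 0) (XT.lf (nat_lit 0) (nat_lit 37555299707) (nat_lit 76) (nat_lit 14278476296) (nat_lit 76) (nat_lit 4306157937) (nat_lit 4) (nat_lit 4) (nat_lit 5) (nat_lit 5) (nat_lit 5)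 (nat_lit 4) (nat_lit 383) (nat_lit 220) (nat_lit 177)) (XT.nd (nat_lit 78) (nat_lit 0) (nat_lit 0) (XT.lf (nat_lit 0) (nat_lit 42661578944) (nat_lit 76) (nat_lit 12588817625) (nat_lit 76) (nat_lit 2503239771) (nat_lit 4) (nat_lit 4) (nat_lit 5) (nat_lit 5) (nat_lit 5) (nat_lit 4) (nat_lit 384) (nat_lit 220) (nat_lit 176)) (XT.lf (nat_lit 0) (nat_lit 47879776392) (nat_lit 76) (nat_lit 10866121507) (nat_lit 76) (nat_lit 670582978) (nat_lit 4) (nat_lit 4) (nat_lit 5) (nat_lit 5) (nat_lit 5) (nat_lit 4) (nat_lit 385) (nat_lit 220) (nat_lit 175)))) (XT.nd (nat_lit 78) (nat_lit 0) (nat_lit 0) (XT.lf (nat_lit 0) (nat_lit 1170125989) (nat_lit 152) (nat_lit 7926940705) (nat_lit 76) (nat_lit 52032509675) (nat_lit 3) (nat_lit 5) (nat_lit 5) (nat_lit 5) (nat_lit 4) (nat_lit 4) (nat_lit 386) (nat_lit 220) (nat_lit 174)) (XT.nd (nat_lit 78) (nat_lit 0) (nat_lit 0) (XT.lf (nat_lit 0) (nat_lit 3030074843) (nat_lit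 152) (nat_lit 4254893015) (nat_lit 76) (nat_lit 55609593404) (nat_lit 3) (nat_lit 5) (nat_lit 5) (nat_lit 5) (nat_lit 4) (nat_lit 4) (nat_lit 387) (nat_lit 220) (nat_lit 173)) (XT.lf (nat_lit 0) (nat_lit 4923974269) (nat_lit 152) (nat_lit 510906775) (nat_lit 76) (nat_lit 59278290112) (nat_lit 3) (nat_lit 5) (nat_lit 5) (nat_lit 5) (nat_lit 4) (nat_lit 4) (nat_lit 388) (nat_lit 220) (nat_lit 172))))))))
noncomputable def xc23 : XT := (XT.nd (nat_lit 37284) (nat_lit 0) (nat_lit 228) (XT.nd (nat_lit 858) (nat_lit 0) (nat_lit 0) (XT.nd (nat_lit 390) (nat_lit 0) (nat_lit 0) (XT.nd (nat_lit 156) (nat_lit 0) (nat_lit 0) (XT.nd (nat_lit 78) (nat_lit 0) (nat_lit 0) (XT.lf (nat_lit 0) (nat_lit 3374130904) (nat_lit 76) (nat_lit 3511782436) (nat_lit 152) (nat_lit 59700108762) (nat_lit 2) (nat_lit 5) (nat_lit 3) (nat_lit 5) (nat_lit 4) (nat_lit 4) (nat_lit 389) (nat_lit 220) (nat_lit 171)) (XT.lf (nat_lit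 0) (nat_lit 7349447029) (nat_lit 76) (nat_lit 1541475754) (nat_lit 152) (nat_lit 59624628297) (nat_lit 2) (nat_lit 5) (nat_lit 3) (nat_lit 5) (nat_lit 4) (nat_lit 4) (nat_lit 390) (nat_lit 220) (nat_lit 170))) (XT.nd (nat_lit 78) (nat_lit 0) (nat_lit 0) (XT.lf (nat_lit 0) (nat_lit 10940288591) (nat_lit 152) (nat_lit 59099790159) (nat_lit 0) (nat_lit 463379314) (nat_lit 2) (nat_lit 5) (nat_lit 4) (nat_lit 4) (nat_lit 2) (nat_lit 4) (nat_lit 391) (nat_lit 220) (nat_lit 169)) (XT.nd (nat_lit 78) (nat_lit 0) (nat_lit 0) (XT.lf (nat_lit 0) (nat_lit 13046509842) (nat_lit 152) (nat_lit 57021852373) (nat_lit 0) (nat_lit 2482796593) (nat_lit 2) (nat_lit 5) (nat_lit 4) (nat_lit 4) (nat_lit 2) (nat_lit 4) (nat_lit 392) (nat_lit 220) (nat_lit 168)) (XT.lf (nat_lit 0) (nat_lit 15196609317) (nat_lit 152) (nat_lit 54915657413) (nat_lit 0) (nat_lit 4548620367) (nat_lit 2) (nat_lit 5) (nat_lit 4) (nat_lit 4)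 (nat_lit 2) (nat_lit 4) (nat_lit 393) (nat_lit 220) (nat_lit 167))))) (XT.nd (nat_lit 234) (nat_lit 0) (nat_lit 0) (XT.nd (nat_lit 78) (nat_lit 0) (nat_lit 0) (XT.lf (nat_lit 0) (nat_lit 17392465743) (nat_lit 152) (nat_lit 52779364913) (nat_lit 0) (nat_lit 6662655724) (nat_lit 2) (nat_lit 5) (nat_lit 4) (nat_lit 4) (nat_lit 2) (nat_lit 4) (nat_lit 394) (nat_lit 220) (nat_lit 166)) (XT.nd (nat_lit 78) (nat_lit 0) (nat_lit 0) (XT.lf (nat_lit 0) (nat_lit 19635997829) (nat_lit 152) (nat_lit 50611108211) (nat_lit 0) (nat_lit 8826749878) (nat_lit 2) (nat_lit 5) (nat_lit 4) (nat_lit 4) (nat_lit 2) (nat_lit 4) (nat_lit 395) (nat_lit 220) (nat_lit 165)) (XT.lf (nat_lit 0) (nat_lit 21929165943) (nat_lit 152) (nat_lit 48408992713) (nat_lit 0) (nat_lit 11042793788) (nat_lit 2) (nat_lit 5) (nat_lit 4) (nat_lit 4) (nat_lit 2) (nat_lit 4) (nat_lit 396) (nat_lit 220) (nat_lit 164)))) (XT.nd (nat_lit 78) (nat_lit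 0) (nat_lit 0) (XT.lf (nat_lit 0) (nat_lit 24273973824) (nat_lit 152) (nat_lit 46171094241) (nat_lit 0) (nat_lit 13312723800) (nat_lit 2) (nat_lit 5) (nat_lit 4) (nat_lit 4) (nat_lit 2) (nat_lit 4) (nat_lit 397) (nat_lit 220) (nat_lit 163)) (XT.nd (nat_lit 78) (nat_lit 0) (nat_lit 0) (XT.lf (nat_lit 0) (nat_lit 26672470334) (nat_lit 152) (nat_lit 43895457349) (nat_lit 0) (nat_lit 15638523350) (nat_lit 2) (nat_lit 5) (nat_lit 4) (nat_lit 4) (nat_lit 2) (nat_lit 4) (nat_lit 398) (nat_lit 220) (nat_lit 162)) (XT.lf (nat_lit 0) (nat_lit 29126751246) (nat_lit 152) (nat_lit 41580093617) (nat_lit 0) (nat_lit 18022224689) (nat_lit 2) (nat_lit 5) (nat_lit 4) (nat_lit 4) (nat_lit 2) (nat_lit 4) (nat_lit 399) (nat_lit 220) (nat_lit 161)))))) (XT.nd (nat_lit 35958) (nat_lit 0) (nat_lit 912) (XT.nd (nat_lit 234) (nat_lit 0) (nat_lit 0) (XT.nd (nat_lit 78) (nat_lit 0) (nat_lit 0) (XT.lf (nat_lit 0) (nat_lit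 31638961078) (nat_lit 152) (nat_lit 39222979912) (nat_lit 0) (nat_lit 20465910663) (nat_lit 2) (nat_lit 5) (nat_lit 4) (nat_lit 4) (nat_lit 2) (nat_lit 4) (nat_lit 400) (nat_lit 220) (nat_lit 160)) (XT.nd (nat_lit 78) (nat_lit 0) (nat_lit 0) (XT.lf (nat_lit 0) (nat_lit 34211294963) (nat_lit 152) (nat_lit 36822056619) (nat_lit 0) (nat_lit 22971716533) (nat_lit 2) (nat_lit 5) (nat_lit 4) (nat_lit 4) (nat_lit 2) (nat_lit 4) (nat_lit 401) (nat_lit 220) (nat_lit 159)) (XT.lf (nat_lit 0) (nat_lit 36846000574) (nat_lit 152) (nat_lit 34375225844) (nat_lit 0) (nat_lit 25541831836) (nat_lit 2) (nat_lit 5) (nat_lit 4) (nat_lit 4) (nat_lit 2) (nat_lit 4) (nat_lit 402) (nat_lit 220) (nat_lit 158)))) (XT.nd (nat_lit 35568) (nat_lit 0) (nat_lit 1216) (XT.lf (nat_lit 0) (nat_lit 39545380079) (nat_lit 152) (nat_lit 31880349580) (nat_lit 0) (nat_lit 28178502305) (nat_lit 2) (nat_lit 5) (nat_lit 4) (nat_lit 4)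 (nat_lit 2) (nat_lit 4) (nat_lit 403) (nat_lit 220) (nat_lit 157)) (XT.nd (nat_lit 78) (nat_lit 0) (nat_lit 0) (XT.lf (nat_lit 0) (nat_lit 4918052611) (nat_lit 152) (nat_lit 1844603513) (nat_lit 152) (nat_lit 1844603513) (nat_lit 18) (nat_lit 4) (nat_lit 20) (nat_lit 5) (nat_lit 20) (nat_lit 4) (nat_lit 338) (nat_lit 221) (nat_lit 221)) (XT.lf (nat_lit 0) (nat_lit 16145332999) (nat_lit 152) (nat_lit 969423975) (nat_lit 152) (nat_lit 501407213) (nat_lit 18) (nat_lit 4) (nat_lit 20) (nat_lit 5) (nat_lit 20) (nat_lit 4) (nat_lit 339) (nat_lit 221) (nat_lit 220))))) (XT.nd (nat_lit 234) (nat_lit 152) (nat_lit 0) (XT.nd (nat_lit 78) (nat_lit 0) (nat_lit 0) (XT.lf (nat_lit 0) (nat_lit 2717800204) (nat_lit 152) (nat_lit 13489380216) (nat_lit 0) (nat_lit 1822264314) (nat_lit 16) (nat_lit 5) (nat_lit 18) (nat_lit 4) (nat_lit 16) (nat_lit 4) (nat_lit 340) (nat_lit 221) (nat_lit 219)) (XT.nd (nat_lit 78)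 (nat_lit 0) (nat_lit 0) (XT.lf (nat_lit 0) (nat_lit 5977005005) (nat_lit 152) (nat_lit 7826285068) (nat_lit 0) (nat_lit 4653167480) (nat_lit 16) (nat_lit 5) (nat_lit 18) (nat_lit 4) (nat_lit 16) (nat_lit 4) (nat_lit 341) (nat_lit 221) (nat_lit 218)) (XT.lf (nat_lit 0) (nat_lit 9264957918) (nat_lit 152) (nat_lit 2108185319) (nat_lit 0) (nat_lit 7525293562) (nat_lit 16) (nat_lit 5) (nat_lit 18) (nat_lit 4) (nat_lit 16) (nat_lit 4) (nat_lit 342) (nat_lit 221) (nat_lit 217)))) (XT.nd (nat_lit 78) (nat_lit 0) (nat_lit 0) (XT.lf (nat_lit 0) (nat_lit 3742953940) (nat_lit 152) (nat_lit 8877557534) (nat_lit 152) (nat_lit 6734177809) (nat_lit 14) (nat_lit 4) (nat_lit 16) (nat_lit 5) (nat_lit 16) (nat_lit 4) (nat_lit 343) (nat_lit 221) (nat_lit 216)) (XT.nd (nat_lit 78) (nat_lit 0) (nat_lit 0) (XT.lf (nat_lit 0) (nat_lit 9702394664) (nat_lit 152) (nat_lit 6329498271) (nat_lit 152) (nat_lit 3794161876)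 (nat_lit 14) (nat_lit 4) (nat_lit 16) (nat_lit 5) (nat_lit 16) (nat_lit 4) (nat_lit 344) (nat_lit 221) (nat_lit 215)) (XT.lf (nat_lit 0) (nat_lit 15733387110) (nat_lit 152) (nat_lit 3748027527) (nat_lit 152) (nat_lit 832150676) (nat_lit 14) (nat_lit 4) (nat_lit 16) (nat_lit 5) (nat_lit 16) (nat_lit 4) (nat_lit 345) (nat_lit 221) (nat_lit 214))))))) (XT.nd (nat_lit 858) (nat_lit 228) (nat_lit 0) (XT.nd (nat_lit 390) (nat_lit 152) (nat_lit 0) (XT.nd (nat_lit 156) (nat_lit 152) (nat_lit 0) (XT.nd (nat_lit 78) (nat_lit 0) (nat_lit 0) (XT.lf (nat_lit 0) (nat_lit 1022803044) (nat_lit 76) (nat_lit 1099431758) (nat_lit 152) (nat_lit 18694495719) (nat_lit 12) (nat_lit 5) (nat_lit 13) (nat_lit 5) (nat_lit 14) (nat_lit 4) (nat_lit 346) (nat_lit 221) (nat_lit 213)) (XT.lf (nat_lit 0) (nat_lit 5148294135) (nat_lit 152) (nat_lit 14576126265) (nat_lit 0) (nat_lit 1610401435) (nat_lit 12) (nat_lit 5) (nat_lit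 14) (nat_lit 4) (nat_lit 12) (nat_lit 4) (nat_lit 347) (nat_lit 221) (nat_lit 212))) (XT.nd (nat_lit 78) (nat_lit 152) (nat_lit 0) (XT.lf (nat_lit 0) (nat_lit 8215247543) (nat_lit 152) (nat_lit 9315524677) (nat_lit 0) (nat_lit 4339249576) (nat_lit 12) (nat_lit 5) (nat_lit 14) (nat_lit 4) (nat_lit 12) (nat_lit 4) (nat_lit 348) (nat_lit 221) (nat_lit 211)) (XT.nd (nat_lit 78) (nat_lit 152) (nat_lit 0) (XT.lf (nat_lit 0) (nat_lit 11315206476) (nat_lit 152) (nat_lit 3996957661) (nat_lit 0) (nat_lit 7110950970) (nat_lit 12) (nat_lit 5) (nat_lit 14) (nat_lit 4) (nat_lit 12) (nat_lit 4) (nat_lit 349) (nat_lit 221) (nat_lit 210)) (XT.lf (nat_lit 0) (nat_lit 1411770807) (nat_lit 152) (nat_lit 13052679635) (nat_lit 152) (nat_lit 8529727488) (nat_lit 10) (nat_lit 4) (nat_lit 12) (nat_lit 5) (nat_lit 12) (nat_lit 4) (nat_lit 350) (nat_lit 221) (nat_lit 209))))) (XT.nd (nat_lit 234) (nat_lit 152) (nat_lit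 0) (XT.nd (nat_lit 78) (nat_lit 0) (nat_lit 0) (XT.lf (nat_lit 0) (nat_lit 6968700988) (nat_lit 152) (nat_lit 10723293366) (nat_lit 152) (nat_lit 5890927004) (nat_lit 10) (nat_lit 4) (nat_lit 12) (nat_lit 5) (nat_lit 12) (nat_lit 4) (nat_lit 351) (nat_lit 221) (nat_lit 208)) (XT.nd (nat_lit 78) (nat_lit 0) (nat_lit 0) (XT.lf (nat_lit 0) (nat_lit 12599141155) (nat_lit 152) (nat_lit 8362331378) (nat_lit 152) (nat_lit 3229562867) (nat_lit 10) (nat_lit 4) (nat_lit 12) (nat_lit 5) (nat_lit 12) (nat_lit 4) (nat_lit 352) (nat_lit 221) (nat_lit 207)) (XT.lf (nat_lit 0) (nat_lit 18308011111) (nat_lit 152) (nat_lit 5967730697) (nat_lit 152) (nat_lit 543309613) (nat_lit 10) (nat_lit 4) (nat_lit 12) (nat_lit 5) (nat_lit 12) (nat_lit 4) (nat_lit 353) (nat_lit 221) (nat_lit 206)))) (XT.nd (nat_lit 78) (nat_lit 76) (nat_lit 0) (XT.lf (nat_lit 0) (nat_lit 2127831941) (nat_lit 228) (nat_lit 1388080080) (nat_lit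 76) (nat_lit 21950980317) (nat_lit 9) (nat_lit 5) (nat_lit 12) (nat_lit 5) (nat_lit 10) (nat_lit 4) (nat_lit 354) (nat_lit 221) (nat_lit 205)) (XT.nd (nat_lit 78) (nat_lit 0) (nat_lit 0) (XT.lf (nat_lit 0) (nat_lit 3872399374) (nat_lit 76) (nat_lit 982225658) (nat_lit 152) (nat_lit 21279843640) (nat_lit 8) (nat_lit 5) (nat_lit 9) (nat_lit 5) (nat_lit 10) (nat_lit 4) (nat_lit 355) (nat_lit 221) (nat_lit 204)) (XT.lf (nat_lit 0) (nat_lit 7642552422) (nat_lit 152) (nat_lit 17605012345) (nat_lit 0) (nat_lit 1575180711) (nat_lit 8) (nat_lit 5) (nat_lit 10) (nat_lit 4) (nat_lit 8) (nat_lit 4) (nat_lit 356) (nat_lit 221) (nat_lit 203)))))) (XT.nd (nat_lit 468) (nat_lit 152) (nat_lit 0) (XT.nd (nat_lit 234) (nat_lit 76) (nat_lit 0) (XT.nd (nat_lit 78) (nat_lit 0) (nat_lit 0) (XT.lf (nat_lit 0) (nat_lit 10474843209) (nat_lit 152) (nat_lit 12902167732) (nat_lit 0) (nat_lit 4155889426) (nat_lit 8) (nat_lit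 5) (nat_lit 10) (nat_lit 4) (nat_lit 8) (nat_lit 4) (nat_lit 357) (nat_lit 221) (nat_lit 202)) (XT.nd (nat_lit 78) (nat_lit 0) (nat_lit 0) (XT.lf (nat_lit 0) (nat_lit 13344530457) (nat_lit 152) (nat_lit 8139984427) (nat_lit 0) (nat_lit 6781322236) (nat_lit 8) (nat_lit 5) (nat_lit 10) (nat_lit 4) (nat_lit 8) (nat_lit 4) (nat_lit 358) (nat_lit 221) (nat_lit 201)) (XT.lf (nat_lit 0) (nat_lit 16254121659) (nat_lit 152) (nat_lit 3314301297) (nat_lit 0) (nat_lit 9453773207) (nat_lit 8) (nat_lit 5) (nat_lit 10) (nat_lit 4) (nat_lit 8) (nat_lit 4) (nat_lit 359) (nat_lit 221) (nat_lit 200)))) (XT.nd (nat_lit 78) (nat_lit 0) (nat_lit 0) (XT.lf (nat_lit 0) (nat_lit 1610525424) (nat_lit 76) (nat_lit 17611115108) (nat_lit 76) (nat_lit 10580533422) (nat_lit 7) (nat_lit 4) (nat_lit 8) (nat_lit 5) (nat_lit 8) (nat_lit 4) (nat_lit 360) (nat_lit 221) (nat_lit 199)) (XT.nd (nat_lit 78) (nat_lit 0) (nat_lit 0)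 (XT.lf (nat_lit 0) (nat_lit 6674738254) (nat_lit 76) (nat_lit 15592645874) (nat_lit 76) (nat_lit 8338536776) (nat_lit 7) (nat_lit 4) (nat_lit 8) (nat_lit 5) (nat_lit 8) (nat_lit 4) (nat_lit 361) (nat_lit 221) (nat_lit 198)) (XT.lf (nat_lit 0) (nat_lit 11816801137) (nat_lit 76) (nat_lit 13544719488) (nat_lit 76) (nat_lit 6073593486) (nat_lit 7) (nat_lit 4) (nat_lit 8) (nat_lit 5) (nat_lit 8) (nat_lit 4) (nat_lit 362) (nat_lit 221) (nat_lit 197))))) (XT.nd (nat_lit 234) (nat_lit 76) (nat_lit 0) (XT.nd (nat_lit 78) (nat_lit 76) (nat_lit 0) (XT.lf (nat_lit 0) (nat_lit 17041207139) (nat_lit 76) (nat_lit 11465546500) (nat_lit 76) (nat_lit 3783724474) (nat_lit 7) (nat_lit 4) (nat_lit 8) (nat_lit 5) (nat_lit 8) (nat_lit 4) (nat_lit 363) (nat_lit 221) (nat_lit 196)) (XT.nd (nat_lit 78) (nat_lit 76) (nat_lit 0) (XT.lf (nat_lit 0) (nat_lit 22352521273) (nat_lit 76) (nat_lit 9353310157) (nat_lit 76) (nat_lit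 1466928884) (nat_lit 7) (nat_lit 4) (nat_lit 8) (nat_lit 5) (nat_lit 8) (nat_lit 4) (nat_lit 364) (nat_lit 221) (nat_lit 195)) (XT.lf (nat_lit 0) (nat_lit 861668769) (nat_lit 152) (nat_lit 6335794881) (nat_lit 76) (nat_lit 26885014561) (nat_lit 6) (nat_lit 5) (nat_lit 8) (nat_lit 5) (nat_lit 7) (nat_lit 4) (nat_lit 365) (nat_lit 221) (nat_lit 194)))) (XT.nd (nat_lit 78) (nat_lit 76) (nat_lit 0) (XT.lf (nat_lit 0) (nat_lit 3192037066) (nat_lit 152) (nat_lit 1797963946) (nat_lit 76) (nat_lit 30030247370) (nat_lit 6) (nat_lit 5) (nat_lit 8) (nat_lit 5) (nat_lit 7) (nat_lit 4) (nat_lit 366) (nat_lit 221) (nat_lit 193)) (XT.nd (nat_lit 78) (nat_lit 0) (nat_lit 0) (XT.lf (nat_lit 0) (nat_lit 2867270652) (nat_lit 76) (nat_lit 2715128624) (nat_lit 152) (nat_lit 30404087137) (nat_lit 5) (nat_lit 5) (nat_lit 6) (nat_lit 5) (nat_lit 7) (nat_lit 4) (nat_lit 367) (nat_lit 221) (nat_lit 192)) (XT.lf (nat_lit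 0) (nat_lit 7645270884) (nat_lit 76) (nat_lit 380354241) (nat_lit 152) (nat_lit 28956688033) (nat_lit 5) (nat_lit 5) (nat_lit 6) (nat_lit 5) (nat_lit 7) (nat_lit 4) (nat_lit 368) (nat_lit 221) (nat_lit 191))))))))
noncomputable def xc24 : XT := (XT.nd (nat_lit 1716) (nat_lit 0) (nat_lit 0) (XT.nd (nat_lit 858) (nat_lit 152) (nat_lit 0) (XT.nd (nat_lit 390) (nat_lit 76) (nat_lit 0) (XT.nd (nat_lit 156) (nat_lit 0) (nat_lit 0) (XT.nd (nat_lit 78) (nat_lit 0) (nat_lit 0) (XT.lf (nat_lit 0) (nat_lit 10525430354) (nat_lit 152) (nat_lit 25523906858) (nat_lit 0) (nat_lit 1959214117) (nat_lit 5) (nat_lit 5) (nat_lit 7) (nat_lit 4) (nat_lit 5) (nat_lit 4) (nat_lit 369) (nat_lit 221) (nat_lit 190)) (XT.lf (nat_lit 0) (nat_lit 13068871567) (nat_lit 152) (nat_lit 21661349957) (nat_lit 0) (nat_lit 4336329944) (nat_lit 5) (nat_lit 5) (nat_lit 7) (nat_lit 4) (nat_lit 5) (nat_lit 4) (nat_lit 370) (nat_lit 221)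 (nat_lit 189))) (XT.nd (nat_lit 78) (nat_lit 0) (nat_lit 0) (XT.lf (nat_lit 0) (nat_lit 15654514994) (nat_lit 152) (nat_lit 17742340324) (nat_lit 0) (nat_lit 6760492412) (nat_lit 5) (nat_lit 5) (nat_lit 7) (nat_lit 4) (nat_lit 5) (nat_lit 4) (nat_lit 371) (nat_lit 221) (nat_lit 188)) (XT.nd (nat_lit 78) (nat_lit 0) (nat_lit 0) (XT.lf (nat_lit 0) (nat_lit 18284619933) (nat_lit 152) (nat_lit 13763453582) (nat_lit 0) (nat_lit 9233819722) (nat_lit 5) (nat_lit 5) (nat_lit 7) (nat_lit 4) (nat_lit 5) (nat_lit 4) (nat_lit 372) (nat_lit 221) (nat_lit 187)) (XT.lf (nat_lit 0) (nat_lit 20961484535) (nat_lit 152) (nat_lit 9721213033) (nat_lit 0) (nat_lit 11758473033) (nat_lit 5) (nat_lit 5) (nat_lit 7) (nat_lit 4) (nat_lit 5) (nat_lit 4) (nat_lit 373) (nat_lit 221) (nat_lit 186))))) (XT.nd (nat_lit 234) (nat_lit 0) (nat_lit 0) (XT.nd (nat_lit 78) (nat_lit 76) (nat_lit 0) (XT.lf (nat_lit 0) (nat_lit 23687447807)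 (nat_lit 152) (nat_lit 5612086623) (nat_lit 0) (nat_lit 14336658353) (nat_lit 5) (nat_lit 5) (nat_lit 7) (nat_lit 4) (nat_lit 5) (nat_lit 4) (nat_lit 374) (nat_lit 221) (nat_lit 185)) (XT.nd (nat_lit 78) (nat_lit 76) (nat_lit 0) (XT.lf (nat_lit 0) (nat_lit 26464891659) (nat_lit 152) (nat_lit 1432483854) (nat_lit 0) (nat_lit 16970628465) (nat_lit 5) (nat_lit 5) (nat_lit 7) (nat_lit 4) (nat_lit 5) (nat_lit 4) (nat_lit 375) (nat_lit 221) (nat_lit 184)) (XT.lf (nat_lit 0) (nat_lit 2877395709) (nat_lit 76) (nat_lit 26446506562) (nat_lit 76) (nat_lit 16812948475) (nat_lit 4) (nat_lit 4) (nat_lit 5) (nat_lit 5) (nat_lit 5) (nat_lit 4) (nat_lit 376) (nat_lit 221) (nat_lit 183)))) (XT.nd (nat_lit 78) (nat_lit 0) (nat_lit 0) (XT.lf (nat_lit 0) (nat_lit 7295179077) (nat_lit 76) (nat_lit 24958922424) (nat_lit 76) (nat_lit 15190126577) (nat_lit 4) (nat_lit 4) (nat_lit 5) (nat_lit 5) (nat_lit 5) (nat_lit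 4) (nat_lit 377) (nat_lit 221) (nat_lit 182)) (XT.nd (nat_lit 78) (nat_lit 0) (nat_lit 0) (XT.lf (nat_lit 0) (nat_lit 11796217211) (nat_lit 76) (nat_lit 23447788547) (nat_lit 76) (nat_lit 13547693904) (nat_lit 4) (nat_lit 4) (nat_lit 5) (nat_lit 5) (nat_lit 5) (nat_lit 4) (nat_lit 378) (nat_lit 221) (nat_lit 181)) (XT.lf (nat_lit 0) (nat_lit 16384443056) (nat_lit 76) (nat_lit 21911784523) (nat_lit 76) (nat_lit 11884215321) (nat_lit 4) (nat_lit 4) (nat_lit 5) (nat_lit 5) (nat_lit 5) (nat_lit 4) (nat_lit 379) (nat_lit 221) (nat_lit 180)))))) (XT.nd (nat_lit 390) (nat_lit 152) (nat_lit 0) (XT.nd (nat_lit 156) (nat_lit 0) (nat_lit 0) (XT.nd (nat_lit 78) (nat_lit 0) (nat_lit 0) (XT.lf (nat_lit 0) (nat_lit 21063865742) (nat_lit 76) (nat_lit 20349568212) (nat_lit 76) (nat_lit 10198237301) (nat_lit 4) (nat_lit 4) (nat_lit 5) (nat_lit 5) (nat_lit 5) (nat_lit 4) (nat_lit 380) (nat_lit 221) (nat_lit 179))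 (XT.lf (nat_lit 0) (nat_lit 25838574085) (nat_lit 76) (nat_lit 18759774571) (nat_lit 76) (nat_lit 8488286662) (nat_lit 4) (nat_lit 4) (nat_lit 5) (nat_lit 5) (nat_lit 5) (nat_lit 4) (nat_lit 381) (nat_lit 221) (nat_lit 178))) (XT.nd (nat_lit 78) (nat_lit 0) (nat_lit 0) (XT.lf (nat_lit 0) (nat_lit 30712740160) (nat_lit 76) (nat_lit 17141014459) (nat_lit 76) (nat_lit 6752869270) (nat_lit 4) (nat_lit 4) (nat_lit 5) (nat_lit 5) (nat_lit 5) (nat_lit 4) (nat_lit 382) (nat_lit 221) (nat_lit 177)) (XT.nd (nat_lit 78) (nat_lit 0) (nat_lit 0) (XT.lf (nat_lit 0) (nat_lit 35690622948) (nat_lit 76) (nat_lit 15491873427) (nat_lit 76) (nat_lit 4990468743) (nat_lit 4) (nat_lit 4) (nat_lit 5) (nat_lit 5) (nat_lit 5) (nat_lit 4) (nat_lit 383) (nat_lit 221) (nat_lit 176)) (XT.lf (nat_lit 0) (nat_lit 40776572053) (nat_lit 76) (nat_lit 13810910477) (nat_lit 76) (nat_lit 3199545118) (nat_lit 4) (nat_lit 4) (nat_lit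 5) (nat_lit 5) (nat_lit 5) (nat_lit 4) (nat_lit 384) (nat_lit 221) (nat_lit 175))))) (XT.nd (nat_lit 234) (nat_lit 76) (nat_lit 0) (XT.nd (nat_lit 78) (nat_lit 76) (nat_lit 0) (XT.lf (nat_lit 0) (nat_lit 45975031511) (nat_lit 76) (nat_lit 12096656806) (nat_lit 76) (nat_lit 1378533510) (nat_lit 4) (nat_lit 4) (nat_lit 5) (nat_lit 5) (nat_lit 5) (nat_lit 4) (nat_lit 385) (nat_lit 221) (nat_lit 174)) (XT.nd (nat_lit 78) (nat_lit 0) (nat_lit 0) (XT.lf (nat_lit 0) (nat_lit 464904738) (nat_lit 152) (nat_lit 9878015159) (nat_lit 76) (nat_lit 50820944299) (nat_lit 3) (nat_lit 5) (nat_lit 5) (nat_lit 5) (nat_lit 4) (nat_lit 4) (nat_lit 386) (nat_lit 221) (nat_lit 173)) (XT.lf (nat_lit 0) (nat_lit 2314091082) (nat_lit 152) (nat_lit 6224796474) (nat_lit 76) (nat_lit 54390294268) (nat_lit 3) (nat_lit 5) (nat_lit 5) (nat_lit 5) (nat_lit 4) (nat_lit 4) (nat_lit 387) (nat_lit 221) (nat_lit 172)))) (XT.nd (nat_lit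 78) (nat_lit 76) (nat_lit 0) (XT.lf (nat_lit 0) (nat_lit 4197541470) (nat_lit 152) (nat_lit 2499090823) (nat_lit 76) (nat_lit 58051482471) (nat_lit 3) (nat_lit 5) (nat_lit 5) (nat_lit 5) (nat_lit 4) (nat_lit 4) (nat_lit 388) (nat_lit 221) (nat_lit 171)) (XT.nd (nat_lit 78) (nat_lit 0) (nat_lit 0) (XT.lf (nat_lit 0) (nat_lit 1328276729) (nat_lit 76) (nat_lit 4801393113) (nat_lit 152) (nat_lit 60492199484) (nat_lit 2) (nat_lit 5) (nat_lit 3) (nat_lit 5) (nat_lit 4) (nat_lit 4) (nat_lit 389) (nat_lit 221) (nat_lit 170)) (XT.lf (nat_lit 0) (nat_lit 5286018711) (nat_lit 76) (nat_lit 2838642420) (nat_lit 152) (nat_lit 60427046742) (nat_lit 2) (nat_lit 5) (nat_lit 3) (nat_lit 5) (nat_lit 4) (nat_lit 4) (nat_lit 390) (nat_lit 221) (nat_lit 169))))))) (XT.nd (nat_lit 858) (nat_lit 0) (nat_lit 0) (XT.nd (nat_lit 390) (nat_lit 0) (nat_lit 0) (XT.nd (nat_lit 156) (nat_lit 0) (nat_lit 0) (XT.nd (nat_lit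 78) (nat_lit 0) (nat_lit 0) (XT.lf (nat_lit 0) (nat_lit 9327856537) (nat_lit 76) (nat_lit 831901105) (nat_lit 152) (nat_lit 60380294056) (nat_lit 2) (nat_lit 5) (nat_lit 3) (nat_lit 5) (nat_lit 4) (nat_lit 4) (nat_lit 391) (nat_lit 221) (nat_lit 168)) (XT.lf (nat_lit 0) (nat_lit 12248470617) (nat_lit 152) (nat_lit 59143049283) (nat_lit 0) (nat_lit 1196766297) (nat_lit 2) (nat_lit 5) (nat_lit 4) (nat_lit 4) (nat_lit 2) (nat_lit 4) (nat_lit 392) (nat_lit 221) (nat_lit 167))) (XT.nd (nat_lit 78) (nat_lit 0) (nat_lit 0) (XT.lf (nat_lit 0) (nat_lit 14389335593) (nat_lit 152) (nat_lit 57053153982) (nat_lit 0) (nat_lit 3255810204) (nat_lit 2) (nat_lit 5) (nat_lit 4) (nat_lit 4) (nat_lit 2) (nat_lit 4) (nat_lit 393) (nat_lit 221) (nat_lit 166)) (XT.nd (nat_lit 78) (nat_lit 0) (nat_lit 0) (XT.lf (nat_lit 0) (nat_lit 16576226485) (nat_lit 152) (nat_lit 54932686395) (nat_lit 0) (nat_lit 5363263165) (nat_lit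 2) (nat_lit 5) (nat_lit 4) (nat_lit 4) (nat_lit 2) (nat_lit 4) (nat_lit 394) (nat_lit 221) (nat_lit 165)) (XT.lf (nat_lit 0) (nat_lit 18811054170) (nat_lit 152) (nat_lit 52779793686) (nat_lit 0) (nat_lit 7520966645) (nat_lit 2) (nat_lit 5) (nat_lit 4) (nat_lit 4) (nat_lit 2) (nat_lit 4) (nat_lit 395) (nat_lit 221) (nat_lit 164))))) (XT.nd (nat_lit 234) (nat_lit 0) (nat_lit 0) (XT.nd (nat_lit 78) (nat_lit 0) (nat_lit 0) (XT.lf (nat_lit 0) (nat_lit 21095771409) (nat_lit 152) (nat_lit 50592594686) (nat_lit 0) (nat_lit 9730806015) (nat_lit 2) (nat_lit 5) (nat_lit 4) (nat_lit 4) (nat_lit 2) (nat_lit 4) (nat_lit 396) (nat_lit 221) (nat_lit 163)) (XT.nd (nat_lit 78) (nat_lit 0) (nat_lit 0) (XT.lf (nat_lit 0) (nat_lit 23432374557) (nat_lit 152) (nat_lit 48369178250) (nat_lit 0) (nat_lit 11994712203) (nat_lit 2) (nat_lit 5) (nat_lit 4) (nat_lit 4) (nat_lit 2) (nat_lit 4) (nat_lit 397) (nat_lit 221) (nat_lit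 162)) (XT.lf (nat_lit 0) (nat_lit 25822905307) (nat_lit 152) (nat_lit 46107601589) (nat_lit 0) (nat_lit 14314663380) (nat_lit 2) (nat_lit 5) (nat_lit 4) (nat_lit 4) (nat_lit 2) (nat_lit 4) (nat_lit 398) (nat_lit 221) (nat_lit 161)))) (XT.nd (nat_lit 78) (nat_lit 0) (nat_lit 0) (XT.lf (nat_lit 0) (nat_lit 28269452471) (nat_lit 152) (nat_lit 43805888565) (nat_lit 0) (nat_lit 16692686687) (nat_lit 2) (nat_lit 5) (nat_lit 4) (nat_lit 4) (nat_lit 2) (nat_lit 4) (nat_lit 399) (nat_lit 221) (nat_lit 160)) (XT.nd (nat_lit 78) (nat_lit 0) (nat_lit 0) (XT.lf (nat_lit 0) (nat_lit 30774153810) (nat_lit 152) (nat_lit 41462027975) (nat_lit 0) (nat_lit 19130860009) (nat_lit 2) (nat_lit 5) (nat_lit 4) (nat_lit 4) (nat_lit 2) (nat_lit 4) (nat_lit 400) (nat_lit 221) (nat_lit 159)) (XT.lf (nat_lit 0) (nat_lit 33339197897) (nat_lit 152) (nat_lit 39073971784) (nat_lit 0) (nat_lit 21631313789) (nat_lit 2) (nat_lit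 5) (nat_lit 4) (nat_lit 4) (nat_lit 2) (nat_lit 4) (nat_lit 401) (nat_lit 221) (nat_lit 158)))))) (XT.nd (nat_lit 35802) (nat_lit 0) (nat_lit 912) (XT.nd (nat_lit 35568) (nat_lit 0) (nat_lit 1216) (XT.nd (nat_lit 78) (nat_lit 0) (nat_lit 0) (XT.lf (nat_lit 0) (nat_lit 35966826033) (nat_lit 152) (nat_lit 36639633341) (nat_lit 0) (nat_lit 24196232888) (nat_lit 2) (nat_lit 5) (nat_lit 4) (nat_lit 4) (nat_lit 2) (nat_lit 4) (nat_lit 402) (nat_lit 221) (nat_lit 157)) (XT.nd (nat_lit 35412) (nat_lit 0) (nat_lit 1368) (XT.lf (nat_lit 0) (nat_lit 38659334203) (nat_lit 152) (nat_lit 34156885555) (nat_lit 0) (nat_lit 26827858499) (nat_lit 2) (nat_lit 5) (nat_lit 4) (nat_lit 4) (nat_lit 2) (nat_lit 4) (nat_lit 403) (nat_lit 221) (nat_lit 156)) (XT.lf (nat_lit 0) (nat_lit 3493902590) (nat_lit 228) (nat_lit 1237571195) (nat_lit 0) (nat_lit 3493902590) (nat_lit 20) (nat_lit 5) (nat_lit 23) (nat_lit 4) (nat_lit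 20) (nat_lit 4) (nat_lit 336) (nat_lit 222) (nat_lit 222)))) (XT.nd (nat_lit 78) (nat_lit 0) (nat_lit 0) (XT.lf (nat_lit 0) (nat_lit 3594434302) (nat_lit 152) (nat_lit 6857206868) (nat_lit 152) (nat_lit 6375149603) (nat_lit 18) (nat_lit 4) (nat_lit 20) (nat_lit 5) (nat_lit 20) (nat_lit 4) (nat_lit 337) (nat_lit 222) (nat_lit 221)) (XT.nd (nat_lit 78) (nat_lit 0) (nat_lit 0) (XT.lf (nat_lit 0) (nat_lit 9777143020) (nat_lit 152) (nat_lit 4194287839) (nat_lit 152) (nat_lit 3244213813) (nat_lit 18) (nat_lit 4) (nat_lit 20) (nat_lit 5) (nat_lit 20) (nat_lit 4) (nat_lit 338) (nat_lit 222) (nat_lit 220)) (XT.lf (nat_lit 0) (nat_lit 16029125941) (nat_lit 152) (nat_lit 1496857748) (nat_lit 152) (nat_lit 92398517) (nat_lit 18) (nat_lit 4) (nat_lit 20) (nat_lit 5) (nat_lit 20) (nat_lit 4) (nat_lit 339) (nat_lit 222) (nat_lit 219))))) (XT.nd (nat_lit 234) (nat_lit 152) (nat_lit 0) (XT.nd (nat_lit 78) (nat_lit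 0) (nat_lit 0) (XT.lf (nat_lit 0) (nat_lit 3077561050) (nat_lit 152) (nat_lit 13669558219) (nat_lit 0) (nat_lit 1285706763) (nat_lit 16) (nat_lit 5) (nat_lit 18) (nat_lit 4) (nat_lit 16) (nat_lit 4) (nat_lit 340) (nat_lit 222) (nat_lit 218)) (XT.nd (nat_lit 78) (nat_lit 0) (nat_lit 0) (XT.lf (nat_lit 0) (nat_lit 6302761894) (nat_lit 152) (nat_lit 8063058270) (nat_lit 0) (nat_lit 4095080777) (nat_lit 16) (nat_lit 5) (nat_lit 18) (nat_lit 4) (nat_lit 16) (nat_lit 4) (nat_lit 341) (nat_lit 222) (nat_lit 217)) (XT.lf (nat_lit 0) (nat_lit 9557701257) (nat_lit 152) (nat_lit 2399905317) (nat_lit 0) (nat_lit 6946304770) (nat_lit 16) (nat_lit 5) (nat_lit 18) (nat_lit 4) (nat_lit 16) (nat_lit 4) (nat_lit 342) (nat_lit 222) (nat_lit 216)))) (XT.nd (nat_lit 78) (nat_lit 0) (nat_lit 0) (XT.lf (nat_lit 0) (nat_lit 3391020041) (nat_lit 152) (nat_lit 9486799777) (nat_lit 152) (nat_lit 6483446620) (nat_lit 14)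 (nat_lit 4) (nat_lit 16) (nat_lit 5) (nat_lit 16) (nat_lit 4) (nat_lit 343) (nat_lit 222) (nat_lit 215)) (XT.nd (nat_lit 78) (nat_lit 0) (nat_lit 0) (XT.lf (nat_lit 0) (nat_lit 9297637366) (nat_lit 152) (nat_lit 6959937705) (nat_lit 152) (nat_lit 3576044092) (nat_lit 14) (nat_lit 4) (nat_lit 16) (nat_lit 5) (nat_lit 16) (nat_lit 4) (nat_lit 344) (nat_lit 222) (nat_lit 214)) (XT.lf (nat_lit 0) (nat_lit 15277344959) (nat_lit 152) (nat_lit 4399046757) (nat_lit 152) (nat_lit 645696392) (nat_lit 14) (nat_lit 4) (nat_lit 16) (nat_lit 5) (nat_lit 16) (nat_lit 4) (nat_lit 345) (nat_lit 222) (nat_lit 213))))))))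
noncomputable def xc25 : XT := (XT.nd (nat_lit 1716) (nat_lit 228) (nat_lit 0) (XT.nd (nat_lit 858) (nat_lit 228) (nat_lit 0) (XT.nd (nat_lit 390) (nat_lit 152) (nat_lit 0) (XT.nd (nat_lit 156) (nat_lit 152) (nat_lit 0) (XT.nd (nat_lit 78) (nat_lit 0) (nat_lit 0) (XT.lf (nat_lit 0) (nat_lit 495734640) (nat_lit 76) (nat_lit 1774108159) (nat_lit 152) (nat_lit 18556448134) (nat_lit 12) (nat_lit 5) (nat_lit 13) (nat_lit 5) (nat_lit 14) (nat_lit 4) (nat_lit 346) (nat_lit 222) (nat_lit 212)) (XT.lf (nat_lit 0) (nat_lit 5259479208) (nat_lit 152) (nat_lit 15156933816) (nat_lit 0) (nat_lit 929096037) (nat_lit 12) (nat_lit 5) (nat_lit 14) (nat_lit 4) (nat_lit 12) (nat_lit 4) (nat_lit 347) (nat_lit 222) (nat_lit 211))) (XT.nd (nat_lit 78) (nat_lit 152) (nat_lit 0) (XT.lf (nat_lit 0) (nat_lit 8297367061) (nat_lit 152) (nat_lit 9945520710) (nat_lit 0) (nat_lit 3638726350) (nat_lit 12) (nat_lit 5) (nat_lit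 14) (nat_lit 4) (nat_lit 12) (nat_lit 4) (nat_lit 348) (nat_lit 222) (nat_lit 210)) (XT.nd (nat_lit 78) (nat_lit 152) (nat_lit 0) (XT.lf (nat_lit 0) (nat_lit 11369107010) (nat_lit 152) (nat_lit 4674709502) (nat_lit 0) (nat_lit 6391769658) (nat_lit 12) (nat_lit 5) (nat_lit 14) (nat_lit 4) (nat_lit 12) (nat_lit 4) (nat_lit 349) (nat_lit 222) (nat_lit 209)) (XT.lf (nat_lit 0) (nat_lit 673242762) (nat_lit 152) (nat_lit 13810611958) (nat_lit 152) (nat_lit 8523860392) (nat_lit 10) (nat_lit 4) (nat_lit 12) (nat_lit 5) (nat_lit 12) (nat_lit 4) (nat_lit 350) (nat_lit 222) (nat_lit 208))))) (XT.nd (nat_lit 234) (nat_lit 152) (nat_lit 0) (XT.nd (nat_lit 78) (nat_lit 0) (nat_lit 0) (XT.lf (nat_lit 0) (nat_lit 6184262637) (nat_lit 152) (nat_lit 11500095576) (nat_lit 152) (nat_lit 5912941859) (nat_lit 10) (nat_lit 4) (nat_lit 12) (nat_lit 5) (nat_lit 12) (nat_lit 4) (nat_lit 351) (nat_lit 222) (nat_lit 207))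 (XT.nd (nat_lit 78) (nat_lit 0) (nat_lit 0) (XT.lf (nat_lit 0) (nat_lit 11770129693) (nat_lit 152) (nat_lit 9157453867) (nat_lit 152) (nat_lit 3278647577) (nat_lit 10) (nat_lit 4) (nat_lit 12) (nat_lit 5) (nat_lit 12) (nat_lit 4) (nat_lit 352) (nat_lit 222) (nat_lit 206)) (XT.lf (nat_lit 0) (nat_lit 17435724784) (nat_lit 152) (nat_lit 6780639864) (nat_lit 152) (nat_lit 618675737) (nat_lit 10) (nat_lit 4) (nat_lit 12) (nat_lit 5) (nat_lit 12) (nat_lit 4) (nat_lit 353) (nat_lit 222) (nat_lit 205)))) (XT.nd (nat_lit 78) (nat_lit 76) (nat_lit 0) (XT.lf (nat_lit 0) (nat_lit 2028918454) (nat_lit 228) (nat_lit 2318170185) (nat_lit 76) (nat_lit 21136591876) (nat_lit 9) (nat_lit 5) (nat_lit 12) (nat_lit 5) (nat_lit 10) (nat_lit 4) (nat_lit 354) (nat_lit 222) (nat_lit 204)) (XT.nd (nat_lit 78) (nat_lit 0) (nat_lit 0) (XT.lf (nat_lit 0) (nat_lit 2881676424) (nat_lit 76) (nat_lit 1840222340) (nat_lit 152)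 (nat_lit 21430398626) (nat_lit 8) (nat_lit 5) (nat_lit 9) (nat_lit 5) (nat_lit 10) (nat_lit 4) (nat_lit 355) (nat_lit 222) (nat_lit 203)) (XT.lf (nat_lit 0) (nat_lit 7477440914) (nat_lit 152) (nat_lit 18646793784) (nat_lit 0) (nat_lit 717336446) (nat_lit 8) (nat_lit 5) (nat_lit 10) (nat_lit 4) (nat_lit 8) (nat_lit 4) (nat_lit 356) (nat_lit 222) (nat_lit 202)))))) (XT.nd (nat_lit 390) (nat_lit 152) (nat_lit 0) (XT.nd (nat_lit 156) (nat_lit 76) (nat_lit 0) (XT.nd (nat_lit 78) (nat_lit 0) (nat_lit 0) (XT.lf (nat_lit 0) (nat_lit 10286297088) (nat_lit 152) (nat_lit 13984218455) (nat_lit 0) (nat_lit 3281938183) (nat_lit 8) (nat_lit 5) (nat_lit 10) (nat_lit 4) (nat_lit 8) (nat_lit 4) (nat_lit 357) (nat_lit 222) (nat_lit 201)) (XT.lf (nat_lit 0) (nat_lit 13133232285) (nat_lit 152) (nat_lit 9261131541) (nat_lit 0) (nat_lit 5891733149) (nat_lit 8) (nat_lit 5) (nat_lit 10) (nat_lit 4) (nat_lit 8) (nat_lit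 4) (nat_lit 358) (nat_lit 222) (nat_lit 200))) (XT.nd (nat_lit 78) (nat_lit 76) (nat_lit 0) (XT.lf (nat_lit 0) (nat_lit 16020734118) (nat_lit 152) (nat_lit 4473406073) (nat_lit 0) (nat_lit 8549001747) (nat_lit 8) (nat_lit 5) (nat_lit 10) (nat_lit 4) (nat_lit 8) (nat_lit 4) (nat_lit 359) (nat_lit 222) (nat_lit 199)) (XT.nd (nat_lit 78) (nat_lit 0) (nat_lit 0) (XT.lf (nat_lit 0) (nat_lit 390766662) (nat_lit 76) (nat_lit 18564315272) (nat_lit 76) (nat_lit 10869055489) (nat_lit 7) (nat_lit 4) (nat_lit 8) (nat_lit 5) (nat_lit 8) (nat_lit 4) (nat_lit 360) (nat_lit 222) (nat_lit 198)) (XT.lf (nat_lit 0) (nat_lit 5418488689) (nat_lit 76) (nat_lit 16561164720) (nat_lit 76) (nat_lit 8648888033) (nat_lit 7) (nat_lit 4) (nat_lit 8) (nat_lit 5) (nat_lit 8) (nat_lit 4) (nat_lit 361) (nat_lit 222) (nat_lit 197))))) (XT.nd (nat_lit 234) (nat_lit 152) (nat_lit 0) (XT.nd (nat_lit 78) (nat_lit 0) (nat_lit 0) (XT.lf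 (nat_lit 0) (nat_lit 10525123607) (nat_lit 76) (nat_lit 14528110841) (nat_lit 76) (nat_lit 6405138130) (nat_lit 7) (nat_lit 4) (nat_lit 8) (nat_lit 5) (nat_lit 8) (nat_lit 4) (nat_lit 362) (nat_lit 222) (nat_lit 196)) (XT.nd (nat_lit 78) (nat_lit 0) (nat_lit 0) (XT.lf (nat_lit 0) (nat_lit 15715133526) (nat_lit 76) (nat_lit 12463377180) (nat_lit 76) (nat_lit 4135845223) (nat_lit 7) (nat_lit 4) (nat_lit 8) (nat_lit 5) (nat_lit 8) (nat_lit 4) (nat_lit 363) (nat_lit 222) (nat_lit 195)) (XT.lf (nat_lit 0) (nat_lit 20993053406) (nat_lit 76) (nat_lit 10365159602) (nat_lit 76) (nat_lit 1839026434) (nat_lit 7) (nat_lit 4) (nat_lit 8) (nat_lit 5) (nat_lit 8) (nat_lit 4) (nat_lit 364) (nat_lit 222) (nat_lit 194)))) (XT.nd (nat_lit 78) (nat_lit 76) (nat_lit 0) (XT.lf (nat_lit 0) (nat_lit 477815696) (nat_lit 152) (nat_lit 7748984013) (nat_lit 76) (nat_lit 25880854324) (nat_lit 6) (nat_lit 5) (nat_lit 8)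 (nat_lit 5) (nat_lit 7) (nat_lit 4) (nat_lit 365) (nat_lit 222) (nat_lit 193)) (XT.nd (nat_lit 78) (nat_lit 76) (nat_lit 0) (XT.lf (nat_lit 0) (nat_lit 2789721385) (nat_lit 152) (nat_lit 3243016153) (nat_lit 76) (nat_lit 29013258890) (nat_lit 6) (nat_lit 5) (nat_lit 8) (nat_lit 5) (nat_lit 7) (nat_lit 4) (nat_lit 366) (nat_lit 222) (nat_lit 192)) (XT.lf (nat_lit 0) (nat_lit 1361908382) (nat_lit 76) (nat_lit 3785779887) (nat_lit 152) (nat_lit 30865535860) (nat_lit 5) (nat_lit 5) (nat_lit 6) (nat_lit 5) (nat_lit 7) (nat_lit 4) (nat_lit 367) (nat_lit 222) (nat_lit 191))))))) (XT.nd (nat_lit 858) (nat_lit 152) (nat_lit 0) (XT.nd (nat_lit 390) (nat_lit 76) (nat_lit 0) (XT.nd (nat_lit 156) (nat_lit 0) (nat_lit 0) (XT.nd (nat_lit 78) (nat_lit 0) (nat_lit 0) (XT.lf (nat_lit 0) (nat_lit 6109276874) (nat_lit 76) (nat_lit 1463940013) (nat_lit 152) (nat_lit 29436382194) (nat_lit 5) (nat_lit 5) (nat_lit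 6) (nat_lit 5) (nat_lit 7) (nat_lit 4) (nat_lit 368) (nat_lit 222) (nat_lit 190)) (XT.lf (nat_lit 0) (nat_lit 10045303537) (nat_lit 152) (nat_lit 27106921783) (nat_lit 0) (nat_lit 884460277) (nat_lit 5) (nat_lit 5) (nat_lit 7) (nat_lit 4) (nat_lit 5) (nat_lit 4) (nat_lit 369) (nat_lit 222) (nat_lit 189))) (XT.nd (nat_lit 78) (nat_lit 0) (nat_lit 0) (XT.lf (nat_lit 0) (nat_lit 12571946217) (nat_lit 152) (nat_lit 23273637776) (nat_lit 0) (nat_lit 3249621999) (nat_lit 5) (nat_lit 5) (nat_lit 7) (nat_lit 4) (nat_lit 5) (nat_lit 4) (nat_lit 370) (nat_lit 222) (nat_lit 188)) (XT.nd (nat_lit 78) (nat_lit 0) (nat_lit 0) (XT.lf (nat_lit 0) (nat_lit 15141280387) (nat_lit 152) (nat_lit 19383048429) (nat_lit 0) (nat_lit 5662178540) (nat_lit 5) (nat_lit 5) (nat_lit 7) (nat_lit 4) (nat_lit 5) (nat_lit 4) (nat_lit 371) (nat_lit 222) (nat_lit 187)) (XT.lf (nat_lit 0) (nat_lit 17755551097) (nat_lit 152) (nat_lit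 15431754197) (nat_lit 0) (nat_lit 8124237959) (nat_lit 5) (nat_lit 5) (nat_lit 7) (nat_lit 4) (nat_lit 5) (nat_lit 4) (nat_lit 372) (nat_lit 222) (nat_lit 186))))) (XT.nd (nat_lit 234) (nat_lit 76) (nat_lit 0) (XT.nd (nat_lit 78) (nat_lit 0) (nat_lit 0) (XT.lf (nat_lit 0) (nat_lit 20417042660) (nat_lit 152) (nat_lit 11416302493) (nat_lit 0) (nat_lit 10637951571) (nat_lit 5) (nat_lit 5) (nat_lit 7) (nat_lit 4) (nat_lit 5) (nat_lit 4) (nat_lit 373) (nat_lit 222) (nat_lit 185)) (XT.nd (nat_lit 78) (nat_lit 0) (nat_lit 0) (XT.lf (nat_lit 0) (nat_lit 23128080652) (nat_lit 152) (nat_lit 7333184671) (nat_lit 0) (nat_lit 13205515823) (nat_lit 5) (nat_lit 5) (nat_lit 7) (nat_lit 4) (nat_lit 5) (nat_lit 4) (nat_lit 374) (nat_lit 222) (nat_lit 184)) (XT.lf (nat_lit 0) (nat_lit 25891033941) (nat_lit 152) (nat_lit 3178832957) (nat_lit 0) (nat_lit 15829174219) (nat_lit 5) (nat_lit 5) (nat_lit 7) (nat_lit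 4) (nat_lit 5) (nat_lit 4) (nat_lit 375) (nat_lit 222) (nat_lit 183)))) (XT.nd (nat_lit 78) (nat_lit 0) (nat_lit 0) (XT.lf (nat_lit 0) (nat_lit 1071287338) (nat_lit 76) (nat_lit 27647327289) (nat_lit 76) (nat_lit 17450229807) (nat_lit 4) (nat_lit 4) (nat_lit 5) (nat_lit 5) (nat_lit 5) (nat_lit 4) (nat_lit 376) (nat_lit 222) (nat_lit 182)) (XT.nd (nat_lit 78) (nat_lit 0) (nat_lit 0) (XT.lf (nat_lit 0) (nat_lit 5464795467) (nat_lit 76) (nat_lit 26170126297) (nat_lit 76) (nat_lit 15841730018) (nat_lit 4) (nat_lit 4) (nat_lit 5) (nat_lit 5) (nat_lit 5) (nat_lit 4) (nat_lit 377) (nat_lit 222) (nat_lit 181)) (XT.lf (nat_lit 0) (nat_lit 9942265407) (nat_lit 76) (nat_lit 24669073144) (nat_lit 76) (nat_lit 14213202305) (nat_lit 4) (nat_lit 4) (nat_lit 5) (nat_lit 5) (nat_lit 5) (nat_lit 4) (nat_lit 378) (nat_lit 222) (nat_lit 180)))))) (XT.nd (nat_lit 468) (nat_lit 152) (nat_lit 0) (XT.nd (nat_lit 234)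 (nat_lit 0) (nat_lit 0) (XT.nd (nat_lit 78) (nat_lit 0) (nat_lit 0) (XT.lf (nat_lit 0) (nat_lit 14507609511) (nat_lit 76) (nat_lit 23142856230) (nat_lit 76) (nat_lit 12563223683) (nat_lit 4) (nat_lit 4) (nat_lit 5) (nat_lit 5) (nat_lit 5) (nat_lit 4) (nat_lit 379) (nat_lit 222) (nat_lit 179)) (XT.nd (nat_lit 78) (nat_lit 0) (nat_lit 0) (XT.lf (nat_lit 0) (nat_lit 19164816915) (nat_lit 76) (nat_lit 21590141967) (nat_lit 76) (nat_lit 10890352423) (nat_lit 4) (nat_lit 4) (nat_lit 5) (nat_lit 5) (nat_lit 5) (nat_lit 4) (nat_lit 380) (nat_lit 222) (nat_lit 178)) (XT.lf (nat_lit 0) (nat_lit 23917957022) (nat_lit 76) (nat_lit 20009573616) (nat_lit 76) (nat_lit 9193126792) (nat_lit 4) (nat_lit 4) (nat_lit 5) (nat_lit 5) (nat_lit 5) (nat_lit 4) (nat_lit 381) (nat_lit 222) (nat_lit 177)))) (XT.nd (nat_lit 78) (nat_lit 0) (nat_lit 0) (XT.lf (nat_lit 0) (nat_lit 28771183063) (nat_lit 76) (nat_lit 18399770097)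 (nat_lit 76) (nat_lit 7470063777) (nat_lit 4) (nat_lit 4) (nat_lit 5) (nat_lit 5) (nat_lit 5) (nat_lit 4) (nat_lit 382) (nat_lit 222) (nat_lit 176)) (XT.nd (nat_lit 78) (nat_lit 0) (nat_lit 0) (XT.lf (nat_lit 0) (nat_lit 33728735720) (nat_lit 76) (nat_lit 16759324786) (nat_lit 76) (nat_lit 5719657791) (nat_lit 4) (nat_lit 4) (nat_lit 5) (nat_lit 5) (nat_lit 5) (nat_lit 4) (nat_lit 383) (nat_lit 222) (nat_lit 175)) (XT.lf (nat_lit 0) (nat_lit 38794946835) (nat_lit 76) (nat_lit 15086804283) (nat_lit 76) (nat_lit 3940379351) (nat_lit 4) (nat_lit 4) (nat_lit 5) (nat_lit 5) (nat_lit 5) (nat_lit 4) (nat_lit 384) (nat_lit 222) (nat_lit 174))))) (XT.nd (nat_lit 234) (nat_lit 76) (nat_lit 0) (XT.nd (nat_lit 78) (nat_lit 76) (nat_lit 0) (XT.lf (nat_lit 0) (nat_lit 43974243195) (nat_lit 76) (nat_lit 13380747163) (nat_lit 76) (nat_lit 2130673749) (nat_lit 4) (nat_lit 4) (nat_lit 5) (nat_lit 5) (nat_lit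 5) (nat_lit 4) (nat_lit 385) (nat_lit 222) (nat_lit 173)) (XT.nd (nat_lit 78) (nat_lit 76) (nat_lit 0) (XT.lf (nat_lit 0) (nat_lit 49271150398) (nat_lit 76) (nat_lit 11639662696) (nat_lit 76) (nat_lit 288959688) (nat_lit 4) (nat_lit 4) (nat_lit 5) (nat_lit 5) (nat_lit 5) (nat_lit 4) (nat_lit 386) (nat_lit 222) (nat_lit 172)) (XT.lf (nat_lit 0) (nat_lit 1555416261) (nat_lit 152) (nat_lit 8290906631) (nat_lit 76) (nat_lit 53119173893) (nat_lit 3) (nat_lit 5) (nat_lit 5) (nat_lit 5) (nat_lit 4) (nat_lit 4) (nat_lit 387) (nat_lit 222) (nat_lit 171)))) (XT.nd (nat_lit 78) (nat_lit 76) (nat_lit 0) (XT.lf (nat_lit 0) (nat_lit 3428721952) (nat_lit 152) (nat_lit 4582949123) (nat_lit 76) (nat_lit 56773072286) (nat_lit 3) (nat_lit 5) (nat_lit 5) (nat_lit 5) (nat_lit 4) (nat_lit 4) (nat_lit 388) (nat_lit 222) (nat_lit 170)) (XT.nd (nat_lit 78) (nat_lit 76) (nat_lit 0) (XT.lf (nat_lit 0) (nat_lit 5338232896)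 (nat_lit 152) (nat_lit 798732241) (nat_lit 76) (nat_lit 60522220333) (nat_lit 3) (nat_lit 5) (nat_lit 5) (nat_lit 5) (nat_lit 4) (nat_lit 4) (nat_lit 389) (nat_lit 222) (nat_lit 169)) (XT.lf (nat_lit 0) (nat_lit 3126051128) (nat_lit 76) (nat_lit 4189615985) (nat_lit 152) (nat_lit 61273892378) (nat_lit 2) (nat_lit 5) (nat_lit 3) (nat_lit 5) (nat_lit 4) (nat_lit 4) (nat_lit 390) (nat_lit 222) (nat_lit 168))))))))
noncomputable def xc26 : XT := (XT.nd (nat_lit 36894) (nat_lit 0) (nat_lit 304) (XT.nd (nat_lit 858) (nat_lit 0) (nat_lit 0) (XT.nd (nat_lit 390) (nat_lit 0) (nat_lit 0) (XT.nd (nat_lit 156) (nat_lit 0) (nat_lit 0) (XT.nd (nat_lit 78) (nat_lit 0) (nat_lit 0) (XT.lf (nat_lit 0) (nat_lit 7151323639) (nat_lit 76) (nat_lit 2189996914) (nat_lit 152) (nat_lit 61236874561) (nat_lit 2) (nat_lit 5) (nat_lit 3) (nat_lit 5) (nat_lit 4) (nat_lit 4) (nat_lit 391) (nat_lit 222) (nat_lit 167)) (XT.lf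 (nat_lit 0) (nat_lit 11264706180) (nat_lit 76) (nat_lit 144426315) (nat_lit 152) (nat_lit 61217932408) (nat_lit 2) (nat_lit 5) (nat_lit 3) (nat_lit 5) (nat_lit 4) (nat_lit 4) (nat_lit 392) (nat_lit 222) (nat_lit 166))) (XT.nd (nat_lit 78) (nat_lit 0) (nat_lit 0) (XT.lf (nat_lit 0) (nat_lit 13539643624) (nat_lit 152) (nat_lit 59286900021) (nat_lit 0) (nat_lit 1910853473) (nat_lit 2) (nat_lit 5) (nat_lit 4) (nat_lit 4) (nat_lit 2) (nat_lit 4) (nat_lit 393) (nat_lit 222) (nat_lit 165)) (XT.nd (nat_lit 78) (nat_lit 0) (nat_lit 0) (XT.lf (nat_lit 0) (nat_lit 15717830115) (nat_lit 152) (nat_lit 57181796427) (nat_lit 0) (nat_lit 4011915759) (nat_lit 2) (nat_lit 5) (nat_lit 4) (nat_lit 4) (nat_lit 2) (nat_lit 4) (nat_lit 394) (nat_lit 222) (nat_lit 164)) (XT.lf (nat_lit 0) (nat_lit 17944206925) (nat_lit 152) (nat_lit 55043820216) (nat_lit 0) (nat_lit 6163414700) (nat_lit 2) (nat_lit 5) (nat_lit 4) (nat_lit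 4) (nat_lit 2) (nat_lit 4) (nat_lit 395) (nat_lit 222) (nat_lit 163))))) (XT.nd (nat_lit 234) (nat_lit 0) (nat_lit 0) (XT.nd (nat_lit 78) (nat_lit 0) (nat_lit 0) (XT.lf (nat_lit 0) (nat_lit 20220719431) (nat_lit 152) (nat_lit 52871103252) (nat_lit 0) (nat_lit 8367230246) (nat_lit 2) (nat_lit 5) (nat_lit 4) (nat_lit 4) (nat_lit 2) (nat_lit 4) (nat_lit 396) (nat_lit 222) (nat_lit 162)) (XT.nd (nat_lit 78) (nat_lit 0) (nat_lit 0) (XT.lf (nat_lit 0) (nat_lit 22549356819) (nat_lit 152) (nat_lit 50661747047) (nat_lit 0) (nat_lit 10625288062) (nat_lit 2) (nat_lit 5) (nat_lit 4) (nat_lit 4) (nat_lit 2) (nat_lit 4) (nat_lit 397) (nat_lit 222) (nat_lit 161)) (XT.lf (nat_lit 0) (nat_lit 24932153821) (nat_lit 152) (nat_lit 48413821094) (nat_lit 0) (nat_lit 12939561207) (nat_lit 2) (nat_lit 5) (nat_lit 4) (nat_lit 4) (nat_lit 2) (nat_lit 4) (nat_lit 398) (nat_lit 222) (nat_lit 160)))) (XT.nd (nat_lit 78)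 (nat_lit 0) (nat_lit 0) (XT.lf (nat_lit 0) (nat_lit 27371192492) (nat_lit 152) (nat_lit 46125361185) (nat_lit 0) (nat_lit 15312071861) (nat_lit 2) (nat_lit 5) (nat_lit 4) (nat_lit 4) (nat_lit 2) (nat_lit 4) (nat_lit 399) (nat_lit 222) (nat_lit 159)) (XT.nd (nat_lit 78) (nat_lit 0) (nat_lit 0) (XT.lf (nat_lit 0) (nat_lit 29868604032) (nat_lit 152) (nat_lit 43794367697) (nat_lit 0) (nat_lit 17744893094) (nat_lit 2) (nat_lit 5) (nat_lit 4) (nat_lit 4) (nat_lit 2) (nat_lit 4) (nat_lit 400) (nat_lit 222) (nat_lit 158)) (XT.lf (nat_lit 0) (nat_lit 32426570644) (nat_lit 152) (nat_lit 41418803838) (nat_lit 0) (nat_lit 20240150669) (nat_lit 2) (nat_lit 5) (nat_lit 4) (nat_lit 4) (nat_lit 2) (nat_lit 4) (nat_lit 401) (nat_lit 222) (nat_lit 157)))))) (XT.nd (nat_lit 35568) (nat_lit 0) (nat_lit 1064) (XT.nd (nat_lit 35334) (nat_lit 0) (nat_lit 1368) (XT.nd (nat_lit 78) (nat_lit 0) (nat_lit 0) (XT.lf (nat_lit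 0) (nat_lit 35047327445) (nat_lit 152) (nat_lit 38996593873) (nat_lit 0) (nat_lit 22800024911) (nat_lit 2) (nat_lit 5) (nat_lit 4) (nat_lit 4) (nat_lit 2) (nat_lit 4) (nat_lit 402) (nat_lit 222) (nat_lit 156)) (XT.lf (nat_lit 0) (nat_lit 37733164417) (nat_lit 152) (nat_lit 36525621309) (nat_lit 0) (nat_lit 25426752602) (nat_lit 2) (nat_lit 5) (nat_lit 4) (nat_lit 4) (nat_lit 2) (nat_lit 4) (nat_lit 403) (nat_lit 222) (nat_lit 155))) (XT.nd (nat_lit 78) (nat_lit 0) (nat_lit 0) (XT.lf (nat_lit 0) (nat_lit 372270778) (nat_lit 228) (nat_lit 7122862529) (nat_lit 0) (nat_lit 372270778) (nat_lit 20) (nat_lit 5) (nat_lit 23) (nat_lit 4) (nat_lit 20) (nat_lit 4) (nat_lit 334) (nat_lit 223) (nat_lit 223)) (XT.nd (nat_lit 78) (nat_lit 0) (nat_lit 0) (XT.lf (nat_lit 0) (nat_lit 4083117234) (nat_lit 228) (nat_lit 8417195486) (nat_lit 0) (nat_lit 3586598252) (nat_lit 20) (nat_lit 5) (nat_lit 23) (nat_lit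 4) (nat_lit 20) (nat_lit 4) (nat_lit 335) (nat_lit 223) (nat_lit 222)) (XT.lf (nat_lit 0) (nat_lit 7447891134) (nat_lit 228) (nat_lit 2534688378) (nat_lit 0) (nat_lit 6469314888) (nat_lit 20) (nat_lit 5) (nat_lit 23) (nat_lit 4) (nat_lit 20) (nat_lit 4) (nat_lit 336) (nat_lit 223) (nat_lit 221))))) (XT.nd (nat_lit 234) (nat_lit 76) (nat_lit 0) (XT.nd (nat_lit 78) (nat_lit 76) (nat_lit 0) (XT.lf (nat_lit 0) (nat_lit 3474741032) (nat_lit 152) (nat_lit 7400463654) (nat_lit 152) (nat_lit 5953870647) (nat_lit 18) (nat_lit 4) (nat_lit 20) (nat_lit 5) (nat_lit 20) (nat_lit 4) (nat_lit 337) (nat_lit 223) (nat_lit 220)) (XT.nd (nat_lit 78) (nat_lit 76) (nat_lit 0) (XT.lf (nat_lit 0) (nat_lit 9600204893) (nat_lit 152) (nat_lit 4759897585) (nat_lit 152) (nat_lit 2858919373) (nat_lit 18) (nat_lit 4) (nat_lit 20) (nat_lit 5) (nat_lit 20) (nat_lit 4) (nat_lit 338) (nat_lit 223) (nat_lit 219)) (XT.lf (nat_lit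 0) (nat_lit 252925780) (nat_lit 228) (nat_lit 1828689563) (nat_lit 76) (nat_lit 15541130449) (nat_lit 17) (nat_lit 5) (nat_lit 20) (nat_lit 5) (nat_lit 18) (nat_lit 4) (nat_lit 339) (nat_lit 223) (nat_lit 218)))) (XT.nd (nat_lit 78) (nat_lit 0) (nat_lit 0) (XT.lf (nat_lit 0) (nat_lit 3379086689) (nat_lit 152) (nat_lit 13970029817) (nat_lit 0) (nat_lit 689348307) (nat_lit 16) (nat_lit 5) (nat_lit 18) (nat_lit 4) (nat_lit 16) (nat_lit 4) (nat_lit 340) (nat_lit 223) (nat_lit 217)) (XT.nd (nat_lit 78) (nat_lit 0) (nat_lit 0) (XT.lf (nat_lit 0) (nat_lit 6571273983) (nat_lit 152) (nat_lit 8418476663) (nat_lit 0) (nat_lit 3477820231) (nat_lit 16) (nat_lit 5) (nat_lit 18) (nat_lit 4) (nat_lit 16) (nat_lit 4) (nat_lit 341) (nat_lit 223) (nat_lit 216)) (XT.lf (nat_lit 0) (nat_lit 9794161354) (nat_lit 152) (nat_lit 2808670113) (nat_lit 0) (nat_lit 6308750934) (nat_lit 16) (nat_lit 5) (nat_lit 18) (nat_lit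 4) (nat_lit 16) (nat_lit 4) (nat_lit 342) (nat_lit 223) (nat_lit 215))))))) (XT.nd (nat_lit 858) (nat_lit 304) (nat_lit 0) (XT.nd (nat_lit 390) (nat_lit 152) (nat_lit 0) (XT.nd (nat_lit 156) (nat_lit 152) (nat_lit 0) (XT.nd (nat_lit 78) (nat_lit 0) (nat_lit 0) (XT.lf (nat_lit 0) (nat_lit 2921296625) (nat_lit 152) (nat_lit 10157349584) (nat_lit 152) (nat_lit 6291398707) (nat_lit 14) (nat_lit 4) (nat_lit 16) (nat_lit 5) (nat_lit 16) (nat_lit 4) (nat_lit 343) (nat_lit 223) (nat_lit 214)) (XT.lf (nat_lit 0) (nat_lit 8776629097) (nat_lit 152) (nat_lit 7651067308) (nat_lit 152) (nat_lit 3415659678) (nat_lit 14) (nat_lit 4) (nat_lit 16) (nat_lit 5) (nat_lit 16) (nat_lit 4) (nat_lit 344) (nat_lit 223) (nat_lit 213))) (XT.nd (nat_lit 78) (nat_lit 152) (nat_lit 0) (XT.lf (nat_lit 0) (nat_lit 14706545570) (nat_lit 152) (nat_lit 5110156746) (nat_lit 152) (nat_lit 516053240) (nat_lit 14) (nat_lit 4) (nat_lit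 16) (nat_lit 5) (nat_lit 16) (nat_lit 4) (nat_lit 345) (nat_lit 223) (nat_lit 212)) (XT.nd (nat_lit 78) (nat_lit 76) (nat_lit 0) (XT.lf (nat_lit 0) (nat_lit 2362927357) (nat_lit 228) (nat_lit 145609394) (nat_lit 76) (nat_lit 18329439233) (nat_lit 13) (nat_lit 5) (nat_lit 16) (nat_lit 5) (nat_lit 14) (nat_lit 4) (nat_lit 346) (nat_lit 223) (nat_lit 211)) (XT.lf (nat_lit 0) (nat_lit 5314996758) (nat_lit 152) (nat_lit 15855018212) (nat_lit 0) (nat_lit 188339285) (nat_lit 12) (nat_lit 5) (nat_lit 14) (nat_lit 4) (nat_lit 12) (nat_lit 4) (nat_lit 347) (nat_lit 223) (nat_lit 210))))) (XT.nd (nat_lit 234) (nat_lit 152) (nat_lit 0) (XT.nd (nat_lit 78) (nat_lit 0) (nat_lit 0) (XT.lf (nat_lit 0) (nat_lit 8324665626) (nat_lit 152) (nat_lit 10691360915) (nat_lit 0) (nat_lit 2879311512) (nat_lit 12) (nat_lit 5) (nat_lit 14) (nat_lit 4) (nat_lit 12) (nat_lit 4) (nat_lit 348) (nat_lit 223) (nat_lit 209)) (XT.nd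 (nat_lit 78) (nat_lit 0) (nat_lit 0) (XT.lf (nat_lit 0) (nat_lit 11369008502) (nat_lit 152) (nat_lit 5466914569) (nat_lit 0) (nat_lit 5614240173) (nat_lit 12) (nat_lit 5) (nat_lit 14) (nat_lit 4) (nat_lit 12) (nat_lit 4) (nat_lit 349) (nat_lit 223) (nat_lit 208)) (XT.lf (nat_lit 0) (nat_lit 14450685491) (nat_lit 152) (nat_lit 177114125) (nat_lit 0) (nat_lit 8395515013) (nat_lit 12) (nat_lit 5) (nat_lit 14) (nat_lit 4) (nat_lit 12) (nat_lit 4) (nat_lit 350) (nat_lit 223) (nat_lit 207)))) (XT.nd (nat_lit 78) (nat_lit 0) (nat_lit 0) (XT.lf (nat_lit 0) (nat_lit 5285807720) (nat_lit 152) (nat_lit 12337392017) (nat_lit 152) (nat_lit 5990568967) (nat_lit 10) (nat_lit 4) (nat_lit 12) (nat_lit 5) (nat_lit 12) (nat_lit 4) (nat_lit 351) (nat_lit 223) (nat_lit 206)) (XT.nd (nat_lit 78) (nat_lit 0) (nat_lit 0) (XT.lf (nat_lit 0) (nat_lit 10828399910) (nat_lit 152) (nat_lit 10012536987) (nat_lit 152) (nat_lit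 3382556098) (nat_lit 10) (nat_lit 4) (nat_lit 12) (nat_lit 5) (nat_lit 12) (nat_lit 4) (nat_lit 352) (nat_lit 223) (nat_lit 205)) (XT.lf (nat_lit 0) (nat_lit 16451980568) (nat_lit 152) (nat_lit 7652991603) (nat_lit 152) (nat_lit 748100193) (nat_lit 10) (nat_lit 4) (nat_lit 12) (nat_lit 5) (nat_lit 12) (nat_lit 4) (nat_lit 353) (nat_lit 223) (nat_lit 204)))))) (XT.nd (nat_lit 468) (nat_lit 152) (nat_lit 0) (XT.nd (nat_lit 234) (nat_lit 0) (nat_lit 0) (XT.nd (nat_lit 78) (nat_lit 76) (nat_lit 0) (XT.lf (nat_lit 0) (nat_lit 1877730188) (nat_lit 228) (nat_lit 3360002546) (nat_lit 76) (nat_lit 20264771921) (nat_lit 9) (nat_lit 5) (nat_lit 12) (nat_lit 5) (nat_lit 10) (nat_lit 4) (nat_lit 354) (nat_lit 223) (nat_lit 203)) (XT.nd (nat_lit 78) (nat_lit 0) (nat_lit 0) (XT.lf (nat_lit 0) (nat_lit 1778214189) (nat_lit 76) (nat_lit 2758307264) (nat_lit 152) (nat_lit 21635651140) (nat_lit 8) (nat_lit 5)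 (nat_lit 9) (nat_lit 5) (nat_lit 10) (nat_lit 4) (nat_lit 355) (nat_lit 223) (nat_lit 202)) (XT.lf (nat_lit 0) (nat_lit 7058854577) (nat_lit 76) (nat_lit 202899615) (nat_lit 152) (nat_lit 19600626092) (nat_lit 8) (nat_lit 5) (nat_lit 9) (nat_lit 5) (nat_lit 10) (nat_lit 4) (nat_lit 356) (nat_lit 223) (nat_lit 201)))) (XT.nd (nat_lit 78) (nat_lit 0) (nat_lit 0) (XT.lf (nat_lit 0) (nat_lit 10045907921) (nat_lit 152) (nat_lit 15178096375) (nat_lit 0) (nat_lit 2350023579) (nat_lit 8) (nat_lit 5) (nat_lit 10) (nat_lit 4) (nat_lit 8) (nat_lit 4) (nat_lit 357) (nat_lit 223) (nat_lit 200)) (XT.nd (nat_lit 78) (nat_lit 0) (nat_lit 0) (XT.lf (nat_lit 0) (nat_lit 12870753749) (nat_lit 152) (nat_lit 10492967123) (nat_lit 0) (nat_lit 4944636173) (nat_lit 8) (nat_lit 5) (nat_lit 10) (nat_lit 4) (nat_lit 8) (nat_lit 4) (nat_lit 358) (nat_lit 223) (nat_lit 199)) (XT.lf (nat_lit 0) (nat_lit 15736809591) (nat_lit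 152) (nat_lit 5742093753) (nat_lit 0) (nat_lit 7587164604) (nat_lit 8) (nat_lit 5) (nat_lit 10) (nat_lit 4) (nat_lit 8) (nat_lit 4) (nat_lit 359) (nat_lit 223) (nat_lit 198))))) (XT.nd (nat_lit 234) (nat_lit 76) (nat_lit 0) (XT.nd (nat_lit 78) (nat_lit 76) (nat_lit 0) (XT.lf (nat_lit 0) (nat_lit 18646579770) (nat_lit 152) (nat_lit 921325018) (nat_lit 0) (nat_lit 10279917878) (nat_lit 8) (nat_lit 5) (nat_lit 10) (nat_lit 4) (nat_lit 8) (nat_lit 4) (nat_lit 360) (nat_lit 223) (nat_lit 197)) (XT.nd (nat_lit 78) (nat_lit 0) (nat_lit 0) (XT.lf (nat_lit 0) (nat_lit 4052632868) (nat_lit 76) (nat_lit 17588930321) (nat_lit 76) (nat_lit 9011572404) (nat_lit 7) (nat_lit 4) (nat_lit 8) (nat_lit 5) (nat_lit 8) (nat_lit 4) (nat_lit 361) (nat_lit 223) (nat_lit 196)) (XT.lf (nat_lit 0) (nat_lit 9124871704) (nat_lit 76) (nat_lit 15570315769) (nat_lit 76) (nat_lit 6788398607) (nat_lit 7) (nat_lit 4) (nat_lit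 8) (nat_lit 5) (nat_lit 8) (nat_lit 4) (nat_lit 362) (nat_lit 223) (nat_lit 195)))) (XT.nd (nat_lit 78) (nat_lit 76) (nat_lit 0) (XT.lf (nat_lit 0) (nat_lit 14281487369) (nat_lit 76) (nat_lit 13519600873) (nat_lit 76) (nat_lit 4539082500) (nat_lit 7) (nat_lit 4) (nat_lit 8) (nat_lit 5) (nat_lit 8) (nat_lit 4) (nat_lit 363) (nat_lit 223) (nat_lit 194)) (XT.nd (nat_lit 78) (nat_lit 76) (nat_lit 0) (XT.lf (nat_lit 0) (nat_lit 19526985642) (nat_lit 76) (nat_lit 11434993745) (nat_lit 76) (nat_lit 2261658663) (nat_lit 7) (nat_lit 4) (nat_lit 8) (nat_lit 5) (nat_lit 8) (nat_lit 4) (nat_lit 364) (nat_lit 223) (nat_lit 193)) (XT.lf (nat_lit 0) (nat_lit 44967935) (nat_lit 152) (nat_lit 9269250860) (nat_lit 76) (nat_lit 24820527946) (nat_lit 6) (nat_lit 5) (nat_lit 8) (nat_lit 5) (nat_lit 7) (nat_lit 4) (nat_lit 365) (nat_lit 223) (nat_lit 192))))))))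
noncomputable def xc27 : XT := (XT.nd (nat_lit 1794) (nat_lit 76) (nat_lit 0) (XT.nd (nat_lit 858) (nat_lit 152) (nat_lit 0) (XT.nd (nat_lit 390) (nat_lit 0) (nat_lit 0) (XT.nd (nat_lit 156) (nat_lit 76) (nat_lit 0) (XT.nd (nat_lit 78) (nat_lit 0) (nat_lit 0) (XT.lf (nat_lit 0) (nat_lit 2338948761) (nat_lit 152) (nat_lit 4794218024) (nat_lit 76) (nat_lit 27940477907) (nat_lit 6) (nat_lit 5) (nat_lit 8) (nat_lit 5) (nat_lit 7) (nat_lit 4) (nat_lit 366) (nat_lit 223) (nat_lit 191)) (XT.lf (nat_lit 0) (nat_lit 4666421370) (nat_lit 152) (nat_lit 245903230) (nat_lit 76) (nat_lit 31129479913) (nat_lit 6) (nat_lit 5) (nat_lit 8) (nat_lit 5) (nat_lit 7) (nat_lit 4) (nat_lit 367) (nat_lit 223) (nat_lit 190))) (XT.nd (nat_lit 78) (nat_lit 0) (nat_lit 0) (XT.lf (nat_lit 0) (nat_lit 4466831752) (nat_lit 76) (nat_lit 2605525644) (nat_lit 152) (nat_lit 29966426637) (nat_lit 5) (nat_lit 5) (nat_lit 6) (nat_lit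 5) (nat_lit 7) (nat_lit 4) (nat_lit 368) (nat_lit 223) (nat_lit 189)) (XT.nd (nat_lit 78) (nat_lit 0) (nat_lit 0) (XT.lf (nat_lit 0) (nat_lit 9267376654) (nat_lit 76) (nat_lit 251714874) (nat_lit 152) (nat_lit 28547555894) (nat_lit 5) (nat_lit 5) (nat_lit 6) (nat_lit 5) (nat_lit 7) (nat_lit 4) (nat_lit 369) (nat_lit 223) (nat_lit 188)) (XT.lf (nat_lit 0) (nat_lit 12027005315) (nat_lit 152) (nat_lit 24991987410) (nat_lit 0) (nat_lit 2106752784) (nat_lit 5) (nat_lit 5) (nat_lit 7) (nat_lit 4) (nat_lit 5) (nat_lit 4) (nat_lit 370) (nat_lit 223) (nat_lit 187))))) (XT.nd (nat_lit 234) (nat_lit 0) (nat_lit 0) (XT.nd (nat_lit 78) (nat_lit 0) (nat_lit 0) (XT.lf (nat_lit 0) (nat_lit 14580505256) (nat_lit 152) (nat_lit 21128990573) (nat_lit 0) (nat_lit 4508041434) (nat_lit 5) (nat_lit 5) (nat_lit 7) (nat_lit 4) (nat_lit 5) (nat_lit 4) (nat_lit 371) (nat_lit 223) (nat_lit 186)) (XT.nd (nat_lit 78) (nat_lit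 0) (nat_lit 0) (XT.lf (nat_lit 0) (nat_lit 17179402927) (nat_lit 152) (nat_lit 17204485186) (nat_lit 0) (nat_lit 6959161153) (nat_lit 5) (nat_lit 5) (nat_lit 7) (nat_lit 4) (nat_lit 5) (nat_lit 4) (nat_lit 372) (nat_lit 223) (nat_lit 185)) (XT.lf (nat_lit 0) (nat_lit 19825969211) (nat_lit 152) (nat_lit 13215042070) (nat_lit 0) (nat_lit 9462253697) (nat_lit 5) (nat_lit 5) (nat_lit 7) (nat_lit 4) (nat_lit 5) (nat_lit 4) (nat_lit 373) (nat_lit 223) (nat_lit 184)))) (XT.nd (nat_lit 78) (nat_lit 0) (nat_lit 0) (XT.lf (nat_lit 0) (nat_lit 22522516640) (nat_lit 152) (nat_lit 9157175303) (nat_lit 0) (nat_lit 12019506233) (nat_lit 5) (nat_lit 5) (nat_lit 7) (nat_lit 4) (nat_lit 5) (nat_lit 4) (nat_lit 374) (nat_lit 223) (nat_lit 183)) (XT.nd (nat_lit 78) (nat_lit 0) (nat_lit 0) (XT.lf (nat_lit 0) (nat_lit 25271401422) (nat_lit 152) (nat_lit 5027339177) (nat_lit 0) (nat_lit 14633153255) (nat_lit 5) (nat_lit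 5) (nat_lit 7) (nat_lit 4) (nat_lit 5) (nat_lit 4) (nat_lit 375) (nat_lit 223) (nat_lit 182)) (XT.lf (nat_lit 0) (nat_lit 28075025493) (nat_lit 152) (nat_lit 821925097) (nat_lit 0) (nat_lit 17305478530) (nat_lit 5) (nat_lit 5) (nat_lit 7) (nat_lit 4) (nat_lit 5) (nat_lit 4) (nat_lit 376) (nat_lit 223) (nat_lit 181)))))) (XT.nd (nat_lit 468) (nat_lit 76) (nat_lit 0) (XT.nd (nat_lit 234) (nat_lit 0) (nat_lit 0) (XT.nd (nat_lit 78) (nat_lit 0) (nat_lit 0) (XT.lf (nat_lit 0) (nat_lit 3531656916) (nat_lit 76) (nat_lit 27438130154) (nat_lit 76) (nat_lit 16541108631) (nat_lit 4) (nat_lit 4) (nat_lit 5) (nat_lit 5) (nat_lit 5) (nat_lit 4) (nat_lit 377) (nat_lit 223) (nat_lit 180)) (XT.nd (nat_lit 78) (nat_lit 0) (nat_lit 0) (XT.lf (nat_lit 0) (nat_lit 7986245115) (nat_lit 76) (nat_lit 25946864111) (nat_lit 76) (nat_lit 14926080880) (nat_lit 4) (nat_lit 4) (nat_lit 5) (nat_lit 5) (nat_lit 5) (nat_lit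 4) (nat_lit 378) (nat_lit 223) (nat_lit 179)) (XT.lf (nat_lit 0) (nat_lit 12529373937) (nat_lit 76) (nat_lit 24430149246) (nat_lit 76) (nat_lit 13289209017) (nat_lit 4) (nat_lit 4) (nat_lit 5) (nat_lit 5) (nat_lit 5) (nat_lit 4) (nat_lit 379) (nat_lit 223) (nat_lit 178)))) (XT.nd (nat_lit 78) (nat_lit 0) (nat_lit 0) (XT.lf (nat_lit 0) (nat_lit 17165013105) (nat_lit 76) (nat_lit 22886660274) (nat_lit 76) (nat_lit 11629062765) (nat_lit 4) (nat_lit 4) (nat_lit 5) (nat_lit 5) (nat_lit 5) (nat_lit 4) (nat_lit 380) (nat_lit 223) (nat_lit 177)) (XT.nd (nat_lit 78) (nat_lit 0) (nat_lit 0) (XT.lf (nat_lit 0) (nat_lit 21897213178) (nat_lit 76) (nat_lit 21315048516) (nat_lit 76) (nat_lit 9944191511) (nat_lit 4) (nat_lit 4) (nat_lit 5) (nat_lit 5) (nat_lit 5) (nat_lit 4) (nat_lit 381) (nat_lit 223) (nat_lit 176)) (XT.lf (nat_lit 0) (nat_lit 26730109088) (nat_lit 76) (nat_lit 19713940717) (nat_lit 76) (nat_lit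 8233123038) (nat_lit 4) (nat_lit 4) (nat_lit 5) (nat_lit 5) (nat_lit 5) (nat_lit 4) (nat_lit 382) (nat_lit 223) (nat_lit 175))))) (XT.nd (nat_lit 234) (nat_lit 76) (nat_lit 0) (XT.nd (nat_lit 78) (nat_lit 0) (nat_lit 0) (XT.lf (nat_lit 0) (nat_lit 31667923754) (nat_lit 76) (nat_lit 18081937853) (nat_lit 76) (nat_lit 6494362237) (nat_lit 4) (nat_lit 4) (nat_lit 5) (nat_lit 5) (nat_lit 5) (nat_lit 4) (nat_lit 383) (nat_lit 223) (nat_lit 174)) (XT.nd (nat_lit 78) (nat_lit 0) (nat_lit 0) (XT.lf (nat_lit 0) (nat_lit 36714971771) (nat_lit 76) (nat_lit 16417613901) (nat_lit 76) (nat_lit 4726389802) (nat_lit 4) (nat_lit 4) (nat_lit 5) (nat_lit 5) (nat_lit 5) (nat_lit 4) (nat_lit 384) (nat_lit 223) (nat_lit 173)) (XT.lf (nat_lit 0) (nat_lit 41875663181) (nat_lit 76) (nat_lit 14719514597) (nat_lit 76) (nat_lit 2927660904) (nat_lit 4) (nat_lit 4) (nat_lit 5) (nat_lit 5) (nat_lit 5) (nat_lit 4) (nat_lit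 385) (nat_lit 223) (nat_lit 172)))) (XT.nd (nat_lit 78) (nat_lit 76) (nat_lit 0) (XT.lf (nat_lit 0) (nat_lit 47154507327) (nat_lit 76) (nat_lit 12986156166) (nat_lit 76) (nat_lit 1096603838) (nat_lit 4) (nat_lit 4) (nat_lit 5) (nat_lit 5) (nat_lit 5) (nat_lit 4) (nat_lit 386) (nat_lit 223) (nat_lit 171)) (XT.nd (nat_lit 78) (nat_lit 0) (nat_lit 0) (XT.lf (nat_lit 0) (nat_lit 753387461) (nat_lit 152) (nat_lit 10455028824) (nat_lit 76) (nat_lit 51795121592) (nat_lit 3) (nat_lit 5) (nat_lit 5) (nat_lit 5) (nat_lit 4) (nat_lit 4) (nat_lit 387) (nat_lit 223) (nat_lit 170)) (XT.lf (nat_lit 0) (nat_lit 2616843931) (nat_lit 152) (nat_lit 6764302524) (nat_lit 76) (nat_lit 55441942498) (nat_lit 3) (nat_lit 5) (nat_lit 5) (nat_lit 5) (nat_lit 4) (nat_lit 4) (nat_lit 388) (nat_lit 223) (nat_lit 169))))))) (XT.nd (nat_lit 858) (nat_lit 0) (nat_lit 0) (XT.nd (nat_lit 390) (nat_lit 0) (nat_lit 0) (XT.nd (nat_lit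 156) (nat_lit 0) (nat_lit 0) (XT.nd (nat_lit 78) (nat_lit 76) (nat_lit 0) (XT.lf (nat_lit 0) (nat_lit 4516792525) (nat_lit 152) (nat_lit 2996814970) (nat_lit 76) (nat_lit 59184219200) (nat_lit 3) (nat_lit 5) (nat_lit 5) (nat_lit 5) (nat_lit 4) (nat_lit 4) (nat_lit 389) (nat_lit 223) (nat_lit 168)) (XT.lf (nat_lit 0) (nat_lit 867656929) (nat_lit 76) (nat_lit 5595576912) (nat_lit 152) (nat_lit 62165905168) (nat_lit 2) (nat_lit 5) (nat_lit 3) (nat_lit 5) (nat_lit 4) (nat_lit 4) (nat_lit 390) (nat_lit 223) (nat_lit 167))) (XT.nd (nat_lit 78) (nat_lit 0) (nat_lit 0) (XT.lf (nat_lit 0) (nat_lit 4876846610) (nat_lit 76) (nat_lit 3602872641) (nat_lit 152) (nat_lit 62138338680) (nat_lit 2) (nat_lit 5) (nat_lit 3) (nat_lit 5) (nat_lit 4) (nat_lit 4) (nat_lit 391) (nat_lit 223) (nat_lit 166)) (XT.nd (nat_lit 78) (nat_lit 0) (nat_lit 0) (XT.lf (nat_lit 0) (nat_lit 8974614753) (nat_lit 76) (nat_lit 1564015439)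 (nat_lit 152) (nat_lit 62128572576) (nat_lit 2) (nat_lit 5) (nat_lit 3) (nat_lit 5) (nat_lit 4) (nat_lit 4) (nat_lit 392) (nat_lit 223) (nat_lit 165)) (XT.lf (nat_lit 0) (nat_lit 12646790961) (nat_lit 152) (nat_lit 61618847347) (nat_lit 0) (nat_lit 512574970) (nat_lit 2) (nat_lit 5) (nat_lit 4) (nat_lit 4) (nat_lit 2) (nat_lit 4) (nat_lit 393) (nat_lit 223) (nat_lit 164))))) (XT.nd (nat_lit 234) (nat_lit 0) (nat_lit 0) (XT.nd (nat_lit 78) (nat_lit 0) (nat_lit 0) (XT.lf (nat_lit 0) (nat_lit 14816526577) (nat_lit 152) (nat_lit 59528660251) (nat_lit 0) (nat_lit 2607432718) (nat_lit 2) (nat_lit 5) (nat_lit 4) (nat_lit 4) (nat_lit 2) (nat_lit 4) (nat_lit 394) (nat_lit 223) (nat_lit 163)) (XT.nd (nat_lit 78) (nat_lit 0) (nat_lit 0) (XT.lf (nat_lit 0) (nat_lit 17034698654) (nat_lit 152) (nat_lit 57405166076) (nat_lit 0) (nat_lit 4752907834) (nat_lit 2) (nat_lit 5) (nat_lit 4) (nat_lit 4) (nat_lit 2)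 (nat_lit 4) (nat_lit 395) (nat_lit 223) (nat_lit 162)) (XT.lf (nat_lit 0) (nat_lit 19303245400) (nat_lit 152) (nat_lit 55246509343) (nat_lit 0) (nat_lit 6950875007) (nat_lit 2) (nat_lit 5) (nat_lit 4) (nat_lit 4) (nat_lit 2) (nat_lit 4) (nat_lit 396) (nat_lit 223) (nat_lit 161)))) (XT.nd (nat_lit 78) (nat_lit 0) (nat_lit 0) (XT.lf (nat_lit 0) (nat_lit 21624149041) (nat_lit 152) (nat_lit 53050803846) (nat_lit 0) (nat_lit 9203254791) (nat_lit 2) (nat_lit 5) (nat_lit 4) (nat_lit 4) (nat_lit 2) (nat_lit 4) (nat_lit 397) (nat_lit 223) (nat_lit 160)) (XT.nd (nat_lit 78) (nat_lit 0) (nat_lit 0) (XT.lf (nat_lit 0) (nat_lit 23999437550) (nat_lit 152) (nat_lit 50816131007) (nat_lit 0) (nat_lit 11512015283) (nat_lit 2) (nat_lit 5) (nat_lit 4) (nat_lit 4) (nat_lit 2) (nat_lit 4) (nat_lit 398) (nat_lit 223) (nat_lit 159)) (XT.lf (nat_lit 0) (nat_lit 26431186422) (nat_lit 152) (nat_lit 48540538201) (nat_lit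 0) (nat_lit 13879173848) (nat_lit 2) (nat_lit 5) (nat_lit 4) (nat_lit 4) (nat_lit 2) (nat_lit 4) (nat_lit 399) (nat_lit 223) (nat_lit 158)))))) (XT.nd (nat_lit 35568) (nat_lit 0) (nat_lit 1064) (XT.nd (nat_lit 35334) (nat_lit 0) (nat_lit 1368) (XT.nd (nat_lit 78) (nat_lit 0) (nat_lit 0) (XT.lf (nat_lit 0) (nat_lit 28921520487) (nat_lit 152) (nat_lit 46222037045) (nat_lit 0) (nat_lit 16306798877) (nat_lit 2) (nat_lit 5) (nat_lit 4) (nat_lit 4) (nat_lit 2) (nat_lit 4) (nat_lit 400) (nat_lit 223) (nat_lit 157)) (XT.nd (nat_lit 78) (nat_lit 0) (nat_lit 0) (XT.lf (nat_lit 0) (nat_lit 31472615765) (nat_lit 152) (nat_lit 43858601664) (nat_lit 0) (nat_lit 18797011595) (nat_lit 2) (nat_lit 5) (nat_lit 4) (nat_lit 4) (nat_lit 2) (nat_lit 4) (nat_lit 401) (nat_lit 223) (nat_lit 156)) (XT.lf (nat_lit 0) (nat_lit 34086701367) (nat_lit 152) (nat_lit 41448166920) (nat_lit 0) (nat_lit 21351987916) (nat_lit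 2) (nat_lit 5) (nat_lit 4) (nat_lit 4) (nat_lit 2) (nat_lit 4) (nat_lit 402) (nat_lit 223) (nat_lit 155)))) (XT.nd (nat_lit 78) (nat_lit 228) (nat_lit 0) (XT.lf (nat_lit 0) (nat_lit 2266841975) (nat_lit 152) (nat_lit 2631741773) (nat_lit 152) (nat_lit 2631741773) (nat_lit 23) (nat_lit 4) (nat_lit 25) (nat_lit 5) (nat_lit 25) (nat_lit 4) (nat_lit 332) (nat_lit 224) (nat_lit 224)) (XT.nd (nat_lit 78) (nat_lit 228) (nat_lit 0) (XT.lf (nat_lit 0) (nat_lit 10807895823) (nat_lit 152) (nat_lit 2555727791) (nat_lit 152) (nat_lit 2028970803) (nat_lit 23) (nat_lit 4) (nat_lit 25) (nat_lit 5) (nat_lit 25) (nat_lit 4) (nat_lit 333) (nat_lit 224) (nat_lit 223)) (XT.lf (nat_lit 0) (nat_lit 1218430089) (nat_lit 228) (nat_lit 14307057425) (nat_lit 0) (nat_lit 210496555) (nat_lit 20) (nat_lit 5) (nat_lit 23) (nat_lit 4) (nat_lit 20) (nat_lit 4) (nat_lit 334) (nat_lit 224) (nat_lit 222))))) (XT.nd (nat_lit 234)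 (nat_lit 152) (nat_lit 0) (XT.nd (nat_lit 78) (nat_lit 152) (nat_lit 0) (XT.lf (nat_lit 0) (nat_lit 4520572738) (nat_lit 228) (nat_lit 8538073838) (nat_lit 0) (nat_lit 3030581940) (nat_lit 20) (nat_lit 5) (nat_lit 23) (nat_lit 4) (nat_lit 20) (nat_lit 4) (nat_lit 335) (nat_lit 224) (nat_lit 221)) (XT.nd (nat_lit 78) (nat_lit 152) (nat_lit 0) (XT.lf (nat_lit 0) (nat_lit 7849974765) (nat_lit 228) (nat_lit 2713378367) (nat_lit 0) (nat_lit 5891967206) (nat_lit 20) (nat_lit 5) (nat_lit 23) (nat_lit 4) (nat_lit 20) (nat_lit 4) (nat_lit 336) (nat_lit 224) (nat_lit 220)) (XT.lf (nat_lit 0) (nat_lit 3235249905) (nat_lit 152) (nat_lit 8005394654) (nat_lit 152) (nat_lit 5593001889) (nat_lit 18) (nat_lit 4) (nat_lit 20) (nat_lit 5) (nat_lit 20) (nat_lit 4) (nat_lit 337) (nat_lit 224) (nat_lit 219)))) (XT.nd (nat_lit 78) (nat_lit 152) (nat_lit 0) (XT.lf (nat_lit 0) (nat_lit 9305136236) (nat_lit 152) (nat_lit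 5386530488) (nat_lit 152) (nat_lit 2532987039) (nat_lit 18) (nat_lit 4) (nat_lit 20) (nat_lit 5) (nat_lit 20) (nat_lit 4) (nat_lit 338) (nat_lit 224) (nat_lit 218)) (XT.nd (nat_lit 78) (nat_lit 76) (nat_lit 0) (XT.lf (nat_lit 0) (nat_lit 539241021) (nat_lit 228) (nat_lit 2187185811) (nat_lit 76) (nat_lit 14902896560) (nat_lit 17) (nat_lit 5) (nat_lit 20) (nat_lit 5) (nat_lit 18) (nat_lit 4) (nat_lit 339) (nat_lit 224) (nat_lit 217)) (XT.lf (nat_lit 0) (nat_lit 3622640589) (nat_lit 152) (nat_lit 14391057556) (nat_lit 0) (nat_lit 32667856) (nat_lit 16) (nat_lit 5) (nat_lit 18) (nat_lit 4) (nat_lit 16) (nat_lit 4) (nat_lit 340) (nat_lit 224) (nat_lit 216))))))))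
noncomputable def xc28 : XT := (XT.nd (nat_lit 1716) (nat_lit 228) (nat_lit 0) (XT.nd (nat_lit 858) (nat_lit 228) (nat_lit 0) (XT.nd (nat_lit 390) (nat_lit 304) (nat_lit 0) (XT.nd (nat_lit 156) (nat_lit 152) (nat_lit 0) (XT.nd (nat_lit 78) (nat_lit 0) (nat_lit 0) (XT.lf (nat_lit 0) (nat_lit 6782775892) (nat_lit 152) (nat_lit 8892850806) (nat_lit 0) (nat_lit 2800846489) (nat_lit 16) (nat_lit 5) (nat_lit 18) (nat_lit 4) (nat_lit 16) (nat_lit 4) (nat_lit 341) (nat_lit 224) (nat_lit 215)) (XT.lf (nat_lit 0) (nat_lit 9974544827) (nat_lit 152) (nat_lit 3334836880) (nat_lit 0) (nat_lit 5612074968) (nat_lit 16) (nat_lit 5) (nat_lit 18) (nat_lit 4) (nat_lit 16) (nat_lit 4) (nat_lit 342) (nat_lit 224) (nat_lit 214))) (XT.nd (nat_lit 78) (nat_lit 0) (nat_lit 0) (XT.lf (nat_lit 0) (nat_lit 2333373254) (nat_lit 152) (nat_lit 10889792872) (nat_lit 152) (nat_lit 6157866260) (nat_lit 14) (nat_lit 4) (nat_lit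 16) (nat_lit 5) (nat_lit 16) (nat_lit 4) (nat_lit 343) (nat_lit 224) (nat_lit 213)) (XT.nd (nat_lit 78) (nat_lit 0) (nat_lit 0) (XT.lf (nat_lit 0) (nat_lit 8138914606) (nat_lit 152) (nat_lit 8403490982) (nat_lit 152) (nat_lit 3312868493) (nat_lit 14) (nat_lit 4) (nat_lit 16) (nat_lit 5) (nat_lit 16) (nat_lit 4) (nat_lit 344) (nat_lit 224) (nat_lit 212)) (XT.lf (nat_lit 0) (nat_lit 14020490186) (nat_lit 152) (nat_lit 5881978853) (nat_lit 152) (nat_lit 443107939) (nat_lit 14) (nat_lit 4) (nat_lit 16) (nat_lit 5) (nat_lit 16) (nat_lit 4) (nat_lit 345) (nat_lit 224) (nat_lit 211))))) (XT.nd (nat_lit 234) (nat_lit 152) (nat_lit 0) (XT.nd (nat_lit 78) (nat_lit 76) (nat_lit 0) (XT.lf (nat_lit 0) (nat_lit 2406038082) (nat_lit 228) (nat_lit 892718871) (nat_lit 76) (nat_lit 17552904884) (nat_lit 13) (nat_lit 5) (nat_lit 16) (nat_lit 5) (nat_lit 14) (nat_lit 4) (nat_lit 346) (nat_lit 224) (nat_lit 210))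 (XT.nd (nat_lit 78) (nat_lit 0) (nat_lit 0) (XT.lf (nat_lit 0) (nat_lit 4696193999) (nat_lit 76) (nat_lit 624706354) (nat_lit 152) (nat_lit 16052288136) (nat_lit 12) (nat_lit 5) (nat_lit 13) (nat_lit 5) (nat_lit 14) (nat_lit 4) (nat_lit 347) (nat_lit 224) (nat_lit 209)) (XT.lf (nat_lit 0) (nat_lit 8297167089) (nat_lit 152) (nat_lit 11553696996) (nat_lit 0) (nat_lit 2060341497) (nat_lit 12) (nat_lit 5) (nat_lit 14) (nat_lit 4) (nat_lit 12) (nat_lit 4) (nat_lit 348) (nat_lit 224) (nat_lit 208)))) (XT.nd (nat_lit 78) (nat_lit 152) (nat_lit 0) (XT.lf (nat_lit 0) (nat_lit 11314910865) (nat_lit 152) (nat_lit 6374265080) (nat_lit 0) (nat_lit 4777683123) (nat_lit 12) (nat_lit 5) (nat_lit 14) (nat_lit 4) (nat_lit 12) (nat_lit 4) (nat_lit 349) (nat_lit 224) (nat_lit 207)) (XT.nd (nat_lit 78) (nat_lit 152) (nat_lit 0) (XT.lf (nat_lit 0) (nat_lit 14370763485) (nat_lit 152) (nat_lit 1128167965) (nat_lit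 0) (nat_lit 7541883170) (nat_lit 12) (nat_lit 5) (nat_lit 14) (nat_lit 4) (nat_lit 12) (nat_lit 4) (nat_lit 350) (nat_lit 224) (nat_lit 206)) (XT.lf (nat_lit 0) (nat_lit 4272551178) (nat_lit 152) (nat_lit 13235914309) (nat_lit 152) (nat_lit 6123876157) (nat_lit 10) (nat_lit 4) (nat_lit 12) (nat_lit 5) (nat_lit 12) (nat_lit 4) (nat_lit 351) (nat_lit 224) (nat_lit 205)))))) (XT.nd (nat_lit 390) (nat_lit 76) (nat_lit 0) (XT.nd (nat_lit 156) (nat_lit 152) (nat_lit 0) (XT.nd (nat_lit 78) (nat_lit 0) (nat_lit 0) (XT.lf (nat_lit 0) (nat_lit 9773128936) (nat_lit 152) (nat_lit 10928327898) (nat_lit 152) (nat_lit 3541379224) (nat_lit 10) (nat_lit 4) (nat_lit 12) (nat_lit 5) (nat_lit 12) (nat_lit 4) (nat_lit 352) (nat_lit 224) (nat_lit 204)) (XT.lf (nat_lit 0) (nat_lit 15355918883) (nat_lit 152) (nat_lit 8585548165) (nat_lit 152) (nat_lit 931696071) (nat_lit 10) (nat_lit 4) (nat_lit 12) (nat_lit 5) (nat_lit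 12) (nat_lit 4) (nat_lit 353) (nat_lit 224) (nat_lit 203))) (XT.nd (nat_lit 78) (nat_lit 76) (nat_lit 0) (XT.lf (nat_lit 0) (nat_lit 1674135037) (nat_lit 228) (nat_lit 4514487501) (nat_lit 76) (nat_lit 19334758666) (nat_lit 9) (nat_lit 5) (nat_lit 12) (nat_lit 5) (nat_lit 10) (nat_lit 4) (nat_lit 354) (nat_lit 224) (nat_lit 202)) (XT.nd (nat_lit 78) (nat_lit 0) (nat_lit 0) (XT.lf (nat_lit 0) (nat_lit 561048480) (nat_lit 76) (nat_lit 3737282642) (nat_lit 152) (nat_lit 21895780530) (nat_lit 8) (nat_lit 5) (nat_lit 9) (nat_lit 5) (nat_lit 10) (nat_lit 4) (nat_lit 355) (nat_lit 224) (nat_lit 201)) (XT.lf (nat_lit 0) (nat_lit 5803141062) (nat_lit 76) (nat_lit 1197824060) (nat_lit 152) (nat_lit 19884056119) (nat_lit 8) (nat_lit 5) (nat_lit 9) (nat_lit 5) (nat_lit 10) (nat_lit 4) (nat_lit 356) (nat_lit 224) (nat_lit 200))))) (XT.nd (nat_lit 234) (nat_lit 76) (nat_lit 0) (XT.nd (nat_lit 78) (nat_lit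 0) (nat_lit 0) (XT.lf (nat_lit 0) (nat_lit 9753465659) (nat_lit 152) (nat_lit 16484844685) (nat_lit 0) (nat_lit 1359331322) (nat_lit 8) (nat_lit 5) (nat_lit 10) (nat_lit 4) (nat_lit 8) (nat_lit 4) (nat_lit 357) (nat_lit 224) (nat_lit 199)) (XT.nd (nat_lit 78) (nat_lit 0) (nat_lit 0) (XT.lf (nat_lit 0) (nat_lit 12556865496) (nat_lit 152) (nat_lit 11836567532) (nat_lit 0) (nat_lit 3939203747) (nat_lit 8) (nat_lit 5) (nat_lit 10) (nat_lit 4) (nat_lit 8) (nat_lit 4) (nat_lit 358) (nat_lit 224) (nat_lit 198)) (XT.lf (nat_lit 0) (nat_lit 15402099990) (nat_lit 152) (nat_lit 7121472899) (nat_lit 0) (nat_lit 6567421336) (nat_lit 8) (nat_lit 5) (nat_lit 10) (nat_lit 4) (nat_lit 8) (nat_lit 4) (nat_lit 359) (nat_lit 224) (nat_lit 197)))) (XT.nd (nat_lit 78) (nat_lit 76) (nat_lit 0) (XT.lf (nat_lit 0) (nat_lit 18291655266) (nat_lit 152) (nat_lit 2335440802) (nat_lit 0) (nat_lit 9246280589) (nat_lit 8) (nat_lit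 5) (nat_lit 10) (nat_lit 4) (nat_lit 8) (nat_lit 4) (nat_lit 360) (nat_lit 224) (nat_lit 196)) (XT.nd (nat_lit 78) (nat_lit 0) (nat_lit 0) (XT.lf (nat_lit 0) (nat_lit 2575977325) (nat_lit 76) (nat_lit 18676840724) (nat_lit 76) (nat_lit 9426906800) (nat_lit 7) (nat_lit 4) (nat_lit 8) (nat_lit 5) (nat_lit 8) (nat_lit 4) (nat_lit 361) (nat_lit 224) (nat_lit 195)) (XT.lf (nat_lit 0) (nat_lit 7614821907) (nat_lit 76) (nat_lit 16672244937) (nat_lit 76) (nat_lit 7223709803) (nat_lit 7) (nat_lit 4) (nat_lit 8) (nat_lit 5) (nat_lit 8) (nat_lit 4) (nat_lit 362) (nat_lit 224) (nat_lit 194))))))) (XT.nd (nat_lit 858) (nat_lit 76) (nat_lit 0) (XT.nd (nat_lit 390) (nat_lit 76) (nat_lit 0) (XT.nd (nat_lit 156) (nat_lit 76) (nat_lit 0) (XT.nd (nat_lit 78) (nat_lit 0) (nat_lit 0) (XT.lf (nat_lit 0) (nat_lit 12739015965) (nat_lit 76) (nat_lit 14635140491) (nat_lit 76) (nat_lit 4993788648) (nat_lit 7) (nat_lit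 4) (nat_lit 8) (nat_lit 5) (nat_lit 8) (nat_lit 4) (nat_lit 363) (nat_lit 224) (nat_lit 193)) (XT.lf (nat_lit 0) (nat_lit 17953036951) (nat_lit 76) (nat_lit 12563747393) (nat_lit 76) (nat_lit 2735194862) (nat_lit 7) (nat_lit 4) (nat_lit 8) (nat_lit 5) (nat_lit 8) (nat_lit 4) (nat_lit 364) (nat_lit 224) (nat_lit 192))) (XT.nd (nat_lit 78) (nat_lit 76) (nat_lit 0) (XT.lf (nat_lit 0) (nat_lit 23261440805) (nat_lit 76) (nat_lit 10456255688) (nat_lit 76) (nat_lit 445954915) (nat_lit 7) (nat_lit 4) (nat_lit 8) (nat_lit 5) (nat_lit 8) (nat_lit 4) (nat_lit 365) (nat_lit 224) (nat_lit 191)) (XT.nd (nat_lit 78) (nat_lit 0) (nat_lit 0) (XT.lf (nat_lit 0) (nat_lit 1839325318) (nat_lit 152) (nat_lit 6452924979) (nat_lit 76) (nat_lit 26810967041) (nat_lit 6) (nat_lit 5) (nat_lit 8) (nat_lit 5) (nat_lit 7) (nat_lit 4) (nat_lit 366) (nat_lit 224) (nat_lit 190)) (XT.lf (nat_lit 0) (nat_lit 4149902025) (nat_lit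 152) (nat_lit 1933769413) (nat_lit 76) (nat_lit 29988229387) (nat_lit 6) (nat_lit 5) (nat_lit 8) (nat_lit 5) (nat_lit 7) (nat_lit 4) (nat_lit 367) (nat_lit 224) (nat_lit 189))))) (XT.nd (nat_lit 234) (nat_lit 0) (nat_lit 0) (XT.nd (nat_lit 78) (nat_lit 0) (nat_lit 0) (XT.lf (nat_lit 0) (nat_lit 2716500371) (nat_lit 76) (nat_lit 3806108634) (nat_lit 152) (nat_lit 30547284507) (nat_lit 5) (nat_lit 5) (nat_lit 6) (nat_lit 5) (nat_lit 7) (nat_lit 4) (nat_lit 368) (nat_lit 224) (nat_lit 188)) (XT.nd (nat_lit 78) (nat_lit 0) (nat_lit 0) (XT.lf (nat_lit 0) (nat_lit 7489012893) (nat_lit 76) (nat_lit 1464134772) (nat_lit 152) (nat_lit 29145110926) (nat_lit 5) (nat_lit 5) (nat_lit 6) (nat_lit 5) (nat_lit 7) (nat_lit 4) (nat_lit 369) (nat_lit 224) (nat_lit 187)) (XT.lf (nat_lit 0) (nat_lit 11433572701) (nat_lit 152) (nat_lit 26817900328) (nat_lit 0) (nat_lit 906723674) (nat_lit 5) (nat_lit 5) (nat_lit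 7) (nat_lit 4) (nat_lit 5) (nat_lit 4) (nat_lit 370) (nat_lit 224) (nat_lit 186)))) (XT.nd (nat_lit 78) (nat_lit 0) (nat_lit 0) (XT.lf (nat_lit 0) (nat_lit 13971699603) (nat_lit 152) (nat_lit 22981692336) (nat_lit 0) (nat_lit 3297072624) (nat_lit 5) (nat_lit 5) (nat_lit 7) (nat_lit 4) (nat_lit 5) (nat_lit 4) (nat_lit 371) (nat_lit 224) (nat_lit 185)) (XT.nd (nat_lit 78) (nat_lit 0) (nat_lit 0) (XT.lf (nat_lit 0) (nat_lit 16555671995) (nat_lit 152) (nat_lit 19083195537) (nat_lit 0) (nat_lit 5737571276) (nat_lit 5) (nat_lit 5) (nat_lit 7) (nat_lit 4) (nat_lit 5) (nat_lit 4) (nat_lit 372) (nat_lit 224) (nat_lit 184)) (XT.lf (nat_lit 0) (nat_lit 19187747716) (nat_lit 152) (nat_lit 15119003476) (nat_lit 0) (nat_lit 8230352104) (nat_lit 5) (nat_lit 5) (nat_lit 7) (nat_lit 4) (nat_lit 5) (nat_lit 4) (nat_lit 373) (nat_lit 224) (nat_lit 183)))))) (XT.nd (nat_lit 468) (nat_lit 0) (nat_lit 0) (XT.nd (nat_lit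 234) (nat_lit 76) (nat_lit 0) (XT.nd (nat_lit 78) (nat_lit 0) (nat_lit 0) (XT.lf (nat_lit 0) (nat_lit 21870226637) (nat_lit 152) (nat_lit 11085652298) (nat_lit 0) (nat_lit 10777593265) (nat_lit 5) (nat_lit 5) (nat_lit 7) (nat_lit 4) (nat_lit 5) (nat_lit 4) (nat_lit 374) (nat_lit 224) (nat_lit 182)) (XT.nd (nat_lit 78) (nat_lit 0) (nat_lit 0) (XT.lf (nat_lit 0) (nat_lit 24605452673) (nat_lit 152) (nat_lit 6979617714) (nat_lit 0) (nat_lit 13381520505) (nat_lit 5) (nat_lit 5) (nat_lit 7) (nat_lit 4) (nat_lit 5) (nat_lit 4) (nat_lit 375) (nat_lit 224) (nat_lit 181)) (XT.lf (nat_lit 0) (nat_lit 27395815827) (nat_lit 152) (nat_lit 2797311927) (nat_lit 0) (nat_lit 16044409099) (nat_lit 5) (nat_lit 5) (nat_lit 7) (nat_lit 4) (nat_lit 5) (nat_lit 4) (nat_lit 376) (nat_lit 224) (nat_lit 180)))) (XT.nd (nat_lit 78) (nat_lit 0) (nat_lit 0) (XT.lf (nat_lit 0) (nat_lit 1494074274) (nat_lit 76) (nat_lit 28764041962)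 (nat_lit 76) (nat_lit 17288873525) (nat_lit 4) (nat_lit 4) (nat_lit 5) (nat_lit 5) (nat_lit 5) (nat_lit 4) (nat_lit 377) (nat_lit 224) (nat_lit 179)) (XT.nd (nat_lit 78) (nat_lit 0) (nat_lit 0) (XT.lf (nat_lit 0) (nat_lit 5926447191) (nat_lit 76) (nat_lit 27282277968) (nat_lit 76) (nat_lit 15686952533) (nat_lit 4) (nat_lit 4) (nat_lit 5) (nat_lit 5) (nat_lit 5) (nat_lit 4) (nat_lit 378) (nat_lit 224) (nat_lit 178)) (XT.lf (nat_lit 0) (nat_lit 10448007777) (nat_lit 76) (nat_lit 25774788393) (nat_lit 76) (nat_lit 14062805678) (nat_lit 4) (nat_lit 4) (nat_lit 5) (nat_lit 5) (nat_lit 5) (nat_lit 4) (nat_lit 379) (nat_lit 224) (nat_lit 177))))) (XT.nd (nat_lit 234) (nat_lit 0) (nat_lit 0) (XT.nd (nat_lit 78) (nat_lit 0) (nat_lit 0) (XT.lf (nat_lit 0) (nat_lit 15062706910) (nat_lit 76) (nat_lit 24240256013) (nat_lit 76) (nat_lit 12415013803) (nat_lit 4) (nat_lit 4) (nat_lit 5) (nat_lit 5) (nat_lit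 5) (nat_lit 4) (nat_lit 380) (nat_lit 224) (nat_lit 176)) (XT.nd (nat_lit 78) (nat_lit 0) (nat_lit 0) (XT.lf (nat_lit 0) (nat_lit 19774576853) (nat_lit 76) (nat_lit 22677339975) (nat_lit 76) (nat_lit 10742137090) (nat_lit 4) (nat_lit 4) (nat_lit 5) (nat_lit 5) (nat_lit 5) (nat_lit 4) (nat_lit 381) (nat_lit 224) (nat_lit 175)) (XT.lf (nat_lit 0) (nat_lit 24587734772) (nat_lit 76) (nat_lit 21084674624) (nat_lit 76) (nat_lit 9042713803) (nat_lit 4) (nat_lit 4) (nat_lit 5) (nat_lit 5) (nat_lit 5) (nat_lit 4) (nat_lit 382) (nat_lit 224) (nat_lit 174)))) (XT.nd (nat_lit 78) (nat_lit 0) (nat_lit 0) (XT.lf (nat_lit 0) (nat_lit 29506386340) (nat_lit 76) (nat_lit 19460868310) (nat_lit 76) (nat_lit 7315259007) (nat_lit 4) (nat_lit 4) (nat_lit 5) (nat_lit 5) (nat_lit 5) (nat_lit 4) (nat_lit 383) (nat_lit 224) (nat_lit 173)) (XT.nd (nat_lit 78) (nat_lit 0) (nat_lit 0) (XT.lf (nat_lit 0) (nat_lit 34534829408)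 (nat_lit 76) (nat_lit 17804502174) (nat_lit 76) (nat_lit 5558263277) (nat_lit 4) (nat_lit 4) (nat_lit 5) (nat_lit 5) (nat_lit 5) (nat_lit 4) (nat_lit 384) (nat_lit 224) (nat_lit 172)) (XT.lf (nat_lit 0) (nat_lit 39677457760) (nat_lit 76) (nat_lit 16114128906) (nat_lit 76) (nat_lit 3770191373) (nat_lit 4) (nat_lit 4) (nat_lit 5) (nat_lit 5) (nat_lit 5) (nat_lit 4) (nat_lit 385) (nat_lit 224) (nat_lit 171))))))))
noncomputable def xc29 : XT := (XT.nd (nat_lit 36660) (nat_lit 0) (nat_lit 456) (XT.nd (nat_lit 858) (nat_lit 0) (nat_lit 0) (XT.nd (nat_lit 390) (nat_lit 76) (nat_lit 0) (XT.nd (nat_lit 156) (nat_lit 76) (nat_lit 0) (XT.nd (nat_lit 78) (nat_lit 0) (nat_lit 0) (XT.lf (nat_lit 0) (nat_lit 44938764956) (nat_lit 76) (nat_lit 14388271480) (nat_lit 76) (nat_lit 1949480903) (nat_lit 4) (nat_lit 4) (nat_lit 5) (nat_lit 5) (nat_lit 5) (nat_lit 4) (nat_lit 386) (nat_lit 224) (nat_lit 170)) (XT.lf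 (nat_lit 0) (nat_lit 50323348255) (nat_lit 76) (nat_lit 12625421866) (nat_lit 76) (nat_lit 94540954) (nat_lit 4) (nat_lit 4) (nat_lit 5) (nat_lit 5) (nat_lit 5) (nat_lit 4) (nat_lit 387) (nat_lit 224) (nat_lit 169))) (XT.nd (nat_lit 78) (nat_lit 0) (nat_lit 0) (XT.lf (nat_lit 0) (nat_lit 1761198000) (nat_lit 152) (nat_lit 9045057062) (nat_lit 76) (nat_lit 54056929985) (nat_lit 3) (nat_lit 5) (nat_lit 5) (nat_lit 5) (nat_lit 4) (nat_lit 4) (nat_lit 388) (nat_lit 224) (nat_lit 168)) (XT.nd (nat_lit 78) (nat_lit 0) (nat_lit 0) (XT.lf (nat_lit 0) (nat_lit 3651862759) (nat_lit 152) (nat_lit 5293811573) (nat_lit 76) (nat_lit 57792535477) (nat_lit 3) (nat_lit 5) (nat_lit 5) (nat_lit 5) (nat_lit 4) (nat_lit 4) (nat_lit 389) (nat_lit 224) (nat_lit 167)) (XT.lf (nat_lit 0) (nat_lit 5580950193) (nat_lit 152) (nat_lit 1462039782) (nat_lit 76) (nat_lit 61627061023) (nat_lit 3) (nat_lit 5) (nat_lit 5) (nat_lit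 5) (nat_lit 4) (nat_lit 4) (nat_lit 390) (nat_lit 224) (nat_lit 166))))) (XT.nd (nat_lit 234) (nat_lit 0) (nat_lit 0) (XT.nd (nat_lit 78) (nat_lit 0) (nat_lit 0) (XT.lf (nat_lit 0) (nat_lit 2502438042) (nat_lit 76) (nat_lit 5071762837) (nat_lit 152) (nat_lit 63085474101) (nat_lit 2) (nat_lit 5) (nat_lit 3) (nat_lit 5) (nat_lit 4) (nat_lit 4) (nat_lit 391) (nat_lit 224) (nat_lit 165)) (XT.nd (nat_lit 78) (nat_lit 0) (nat_lit 0) (XT.lf (nat_lit 0) (nat_lit 6585046576) (nat_lit 76) (nat_lit 3039423498) (nat_lit 152) (nat_lit 63084616780) (nat_lit 2) (nat_lit 5) (nat_lit 3) (nat_lit 5) (nat_lit 4) (nat_lit 4) (nat_lit 392) (nat_lit 224) (nat_lit 164)) (XT.lf (nat_lit 0) (nat_lit 10760255690) (nat_lit 76) (nat_lit 958959862) (nat_lit 152) (nat_lit 63101291830) (nat_lit 2) (nat_lit 5) (nat_lit 3) (nat_lit 5) (nat_lit 4) (nat_lit 4) (nat_lit 393) (nat_lit 224) (nat_lit 163)))) (XT.nd (nat_lit 78) (nat_lit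 0) (nat_lit 0) (XT.lf (nat_lit 0) (nat_lit 13871528326) (nat_lit 152) (nat_lit 61975328524) (nat_lit 0) (nat_lit 1148586822) (nat_lit 2) (nat_lit 5) (nat_lit 4) (nat_lit 4) (nat_lit 2) (nat_lit 4) (nat_lit 394) (nat_lit 224) (nat_lit 162)) (XT.nd (nat_lit 78) (nat_lit 0) (nat_lit 0) (XT.lf (nat_lit 0) (nat_lit 16081734643) (nat_lit 152) (nat_lit 59865894579) (nat_lit 0) (nat_lit 3288213565) (nat_lit 2) (nat_lit 5) (nat_lit 4) (nat_lit 4) (nat_lit 2) (nat_lit 4) (nat_lit 395) (nat_lit 224) (nat_lit 161)) (XT.lf (nat_lit 0) (nat_lit 18342547641) (nat_lit 152) (nat_lit 57720888554) (nat_lit 0) (nat_lit 5480502706) (nat_lit 2) (nat_lit 5) (nat_lit 4) (nat_lit 4) (nat_lit 2) (nat_lit 4) (nat_lit 396) (nat_lit 224) (nat_lit 160)))))) (XT.nd (nat_lit 390) (nat_lit 0) (nat_lit 0) (XT.nd (nat_lit 156) (nat_lit 0) (nat_lit 0) (XT.nd (nat_lit 78) (nat_lit 0) (nat_lit 0) (XT.lf (nat_lit 0) (nat_lit 20655942789)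 (nat_lit 152) (nat_lit 55538436172) (nat_lit 0) (nat_lit 7727369837) (nat_lit 2) (nat_lit 5) (nat_lit 4) (nat_lit 4) (nat_lit 2) (nat_lit 4) (nat_lit 397) (nat_lit 224) (nat_lit 159)) (XT.lf (nat_lit 0) (nat_lit 23023941499) (nat_lit 152) (nat_lit 53316630436) (nat_lit 0) (nat_lit 10030778240) (nat_lit 2) (nat_lit 5) (nat_lit 4) (nat_lit 4) (nat_lit 2) (nat_lit 4) (nat_lit 398) (nat_lit 224) (nat_lit 158))) (XT.nd (nat_lit 78) (nat_lit 0) (nat_lit 0) (XT.lf (nat_lit 0) (nat_lit 25448612897) (nat_lit 152) (nat_lit 51053529962) (nat_lit 0) (nat_lit 12392740601) (nat_lit 2) (nat_lit 5) (nat_lit 4) (nat_lit 4) (nat_lit 2) (nat_lit 4) (nat_lit 399) (nat_lit 224) (nat_lit 157)) (XT.nd (nat_lit 78) (nat_lit 0) (nat_lit 0) (XT.lf (nat_lit 0) (nat_lit 27932075627) (nat_lit 152) (nat_lit 48747157283) (nat_lit 0) (nat_lit 14815320772) (nat_lit 2) (nat_lit 5) (nat_lit 4) (nat_lit 4) (nat_lit 2) (nat_lit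 4) (nat_lit 400) (nat_lit 224) (nat_lit 156)) (XT.lf (nat_lit 0) (nat_lit 30476499706) (nat_lit 152) (nat_lit 46395497123) (nat_lit 0) (nat_lit 17300635570) (nat_lit 2) (nat_lit 5) (nat_lit 4) (nat_lit 4) (nat_lit 2) (nat_lit 4) (nat_lit 401) (nat_lit 224) (nat_lit 155))))) (XT.nd (nat_lit 35178) (nat_lit 0) (nat_lit 1368) (XT.nd (nat_lit 35022) (nat_lit 0) (nat_lit 1748) (XT.lf (nat_lit 0) (nat_lit 33084108416) (nat_lit 152) (nat_lit 43996494633) (nat_lit 0) (nat_lit 19850856629) (nat_lit 2) (nat_lit 5) (nat_lit 4) (nat_lit 4) (nat_lit 2) (nat_lit 4) (nat_lit 402) (nat_lit 224) (nat_lit 154)) (XT.nd (nat_lit 78) (nat_lit 0) (nat_lit 0) (XT.lf (nat_lit 0) (nat_lit 1703690953) (nat_lit 228) (nat_lit 3807112262) (nat_lit 0) (nat_lit 1703690953) (nat_lit 25) (nat_lit 5) (nat_lit 28) (nat_lit 4) (nat_lit 25) (nat_lit 4) (nat_lit 330) (nat_lit 225) (nat_lit 225)) (XT.lf (nat_lit 0) (nat_lit 6819546418)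 (nat_lit 228) (nat_lit 1643675636) (nat_lit 0) (nat_lit 6276986720) (nat_lit 25) (nat_lit 5) (nat_lit 28) (nat_lit 4) (nat_lit 25) (nat_lit 4) (nat_lit 331) (nat_lit 225) (nat_lit 224)))) (XT.nd (nat_lit 78) (nat_lit 228) (nat_lit 0) (XT.lf (nat_lit 0) (nat_lit 4473505506) (nat_lit 152) (nat_lit 5828818740) (nat_lit 152) (nat_lit 4759502054) (nat_lit 23) (nat_lit 4) (nat_lit 25) (nat_lit 5) (nat_lit 25) (nat_lit 4) (nat_lit 332) (nat_lit 225) (nat_lit 223)) (XT.nd (nat_lit 78) (nat_lit 228) (nat_lit 0) (XT.lf (nat_lit 0) (nat_lit 10689291704) (nat_lit 152) (nat_lit 3143175116) (nat_lit 152) (nat_lit 1562443878) (nat_lit 23) (nat_lit 4) (nat_lit 25) (nat_lit 5) (nat_lit 25) (nat_lit 4) (nat_lit 333) (nat_lit 225) (nat_lit 222)) (XT.lf (nat_lit 0) (nat_lit 1244525292) (nat_lit 152) (nat_lit 391817324) (nat_lit 228) (nat_lit 14103057177) (nat_lit 20) (nat_lit 5) (nat_lit 22) (nat_lit 5) (nat_lit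 23) (nat_lit 4) (nat_lit 334) (nat_lit 225) (nat_lit 221))))))) (XT.nd (nat_lit 858) (nat_lit 456) (nat_lit 0) (XT.nd (nat_lit 390) (nat_lit 228) (nat_lit 0) (XT.nd (nat_lit 156) (nat_lit 228) (nat_lit 0) (XT.nd (nat_lit 78) (nat_lit 0) (nat_lit 0) (XT.lf (nat_lit 0) (nat_lit 4899347005) (nat_lit 228) (nat_lit 8779936164) (nat_lit 0) (nat_lit 2414582458) (nat_lit 20) (nat_lit 5) (nat_lit 23) (nat_lit 4) (nat_lit 20) (nat_lit 4) (nat_lit 335) (nat_lit 225) (nat_lit 220)) (XT.lf (nat_lit 0) (nat_lit 8194407409) (nat_lit 228) (nat_lit 3011368497) (nat_lit 0) (nat_lit 5255257657) (nat_lit 20) (nat_lit 5) (nat_lit 23) (nat_lit 4) (nat_lit 20) (nat_lit 4) (nat_lit 336) (nat_lit 225) (nat_lit 219))) (XT.nd (nat_lit 78) (nat_lit 76) (nat_lit 0) (XT.lf (nat_lit 0) (nat_lit 2875751657) (nat_lit 152) (nat_lit 8672528446) (nat_lit 152) (nat_lit 5292228009) (nat_lit 18) (nat_lit 4) (nat_lit 20) (nat_lit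 5) (nat_lit 20) (nat_lit 4) (nat_lit 337) (nat_lit 225) (nat_lit 218)) (XT.nd (nat_lit 78) (nat_lit 76) (nat_lit 0) (XT.lf (nat_lit 0) (nat_lit 8891679220) (nat_lit 152) (nat_lit 6074734089) (nat_lit 152) (nat_lit 2266132017) (nat_lit 18) (nat_lit 4) (nat_lit 20) (nat_lit 5) (nat_lit 20) (nat_lit 4) (nat_lit 338) (nat_lit 225) (nat_lit 217)) (XT.lf (nat_lit 0) (nat_lit 768600412) (nat_lit 228) (nat_lit 2664170067) (nat_lit 76) (nat_lit 14205376920) (nat_lit 17) (nat_lit 5) (nat_lit 20) (nat_lit 5) (nat_lit 18) (nat_lit 4) (nat_lit 339) (nat_lit 225) (nat_lit 216))))) (XT.nd (nat_lit 234) (nat_lit 152) (nat_lit 0) (XT.nd (nat_lit 78) (nat_lit 0) (nat_lit 0) (XT.lf (nat_lit 0) (nat_lit 3116610945) (nat_lit 76) (nat_lit 698539408) (nat_lit 152) (nat_lit 14241184706) (nat_lit 16) (nat_lit 5) (nat_lit 17) (nat_lit 5) (nat_lit 18) (nat_lit 4) (nat_lit 340) (nat_lit 225) (nat_lit 215)) (XT.nd (nat_lit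 78) (nat_lit 0) (nat_lit 0) (XT.lf (nat_lit 0) (nat_lit 6937452431) (nat_lit 152) (nat_lit 9486595200) (nat_lit 0) (nat_lit 2063568021) (nat_lit 16) (nat_lit 5) (nat_lit 18) (nat_lit 4) (nat_lit 16) (nat_lit 4) (nat_lit 341) (nat_lit 225) (nat_lit 214)) (XT.lf (nat_lit 0) (nat_lit 10099009290) (nat_lit 152) (nat_lit 3978865375) (nat_lit 0) (nat_lit 4855668126) (nat_lit 16) (nat_lit 5) (nat_lit 18) (nat_lit 4) (nat_lit 16) (nat_lit 4) (nat_lit 342) (nat_lit 225) (nat_lit 213)))) (XT.nd (nat_lit 78) (nat_lit 0) (nat_lit 0) (XT.lf (nat_lit 0) (nat_lit 1626736209) (nat_lit 152) (nat_lit 11684769642) (nat_lit 152) (nat_lit 6082732601) (nat_lit 14) (nat_lit 4) (nat_lit 16) (nat_lit 5) (nat_lit 16) (nat_lit 4) (nat_lit 343) (nat_lit 225) (nat_lit 212)) (XT.nd (nat_lit 78) (nat_lit 0) (nat_lit 0) (XT.lf (nat_lit 0) (nat_lit 7383936668) (nat_lit 152) (nat_lit 9217866184) (nat_lit 152) (nat_lit 3267580719)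 (nat_lit 14) (nat_lit 4) (nat_lit 16) (nat_lit 5) (nat_lit 16) (nat_lit 4) (nat_lit 344) (nat_lit 225) (nat_lit 211)) (XT.lf (nat_lit 0) (nat_lit 13218579341) (nat_lit 152) (nat_lit 6715187483) (nat_lit 152) (nat_lit 426796752) (nat_lit 14) (nat_lit 4) (nat_lit 16) (nat_lit 5) (nat_lit 16) (nat_lit 4) (nat_lit 345) (nat_lit 225) (nat_lit 210)))))) (XT.nd (nat_lit 468) (nat_lit 152) (nat_lit 0) (XT.nd (nat_lit 234) (nat_lit 152) (nat_lit 0) (XT.nd (nat_lit 78) (nat_lit 76) (nat_lit 0) (XT.lf (nat_lit 0) (nat_lit 2394447339) (nat_lit 228) (nat_lit 1755920172) (nat_lit 76) (nat_lit 16717135899) (nat_lit 13) (nat_lit 5) (nat_lit 16) (nat_lit 5) (nat_lit 14) (nat_lit 4) (nat_lit 346) (nat_lit 225) (nat_lit 209)) (XT.nd (nat_lit 78) (nat_lit 0) (nat_lit 0) (XT.lf (nat_lit 0) (nat_lit 3770118658) (nat_lit 76) (nat_lit 1503508716) (nat_lit 152) (nat_lit 16116504387) (nat_lit 12) (nat_lit 5) (nat_lit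 13) (nat_lit 5) (nat_lit 14) (nat_lit 4) (nat_lit 347) (nat_lit 225) (nat_lit 208)) (XT.lf (nat_lit 0) (nat_lit 8214847423) (nat_lit 152) (nat_lit 12533282452) (nat_lit 0) (nat_lit 1181100699) (nat_lit 12) (nat_lit 5) (nat_lit 14) (nat_lit 4) (nat_lit 12) (nat_lit 4) (nat_lit 348) (nat_lit 225) (nat_lit 207)))) (XT.nd (nat_lit 78) (nat_lit 152) (nat_lit 0) (XT.lf (nat_lit 0) (nat_lit 11206766830) (nat_lit 152) (nat_lit 7397553865) (nat_lit 0) (nat_lit 3881367533) (nat_lit 12) (nat_lit 5) (nat_lit 14) (nat_lit 4) (nat_lit 12) (nat_lit 4) (nat_lit 349) (nat_lit 225) (nat_lit 206)) (XT.nd (nat_lit 78) (nat_lit 152) (nat_lit 0) (XT.lf (nat_lit 0) (nat_lit 14237547247) (nat_lit 152) (nat_lit 2193887167) (nat_lit 0) (nat_lit 6628990113) (nat_lit 12) (nat_lit 5) (nat_lit 14) (nat_lit 4) (nat_lit 12) (nat_lit 4) (nat_lit 350) (nat_lit 225) (nat_lit 205)) (XT.lf (nat_lit 0) (nat_lit 3143607642) (nat_lit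 152) (nat_lit 14196447567) (nat_lit 152) (nat_lit 6312979911) (nat_lit 10) (nat_lit 4) (nat_lit 12) (nat_lit 5) (nat_lit 12) (nat_lit 4) (nat_lit 351) (nat_lit 225) (nat_lit 204))))) (XT.nd (nat_lit 234) (nat_lit 76) (nat_lit 0) (XT.nd (nat_lit 78) (nat_lit 76) (nat_lit 0) (XT.lf (nat_lit 0) (nat_lit 8603394689) (nat_lit 152) (nat_lit 11905626807) (nat_lit 152) (nat_lit 3755255731) (nat_lit 10) (nat_lit 4) (nat_lit 12) (nat_lit 5) (nat_lit 12) (nat_lit 4) (nat_lit 352) (nat_lit 225) (nat_lit 203)) (XT.nd (nat_lit 78) (nat_lit 76) (nat_lit 0) (XT.lf (nat_lit 0) (nat_lit 14146582003) (nat_lit 152) (nat_lit 9579124403) (nat_lit 152) (nat_lit 1169623794) (nat_lit 10) (nat_lit 4) (nat_lit 12) (nat_lit 5) (nat_lit 12) (nat_lit 4) (nat_lit 353) (nat_lit 225) (nat_lit 202)) (XT.lf (nat_lit 0) (nat_lit 1417955101) (nat_lit 228) (nat_lit 5782633823) (nat_lit 76) (nat_lit 18345739479) (nat_lit 9) (nat_lit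 5) (nat_lit 12) (nat_lit 5) (nat_lit 10) (nat_lit 4) (nat_lit 354) (nat_lit 225) (nat_lit 201)))) (XT.nd (nat_lit 78) (nat_lit 76) (nat_lit 0) (XT.lf (nat_lit 0) (nat_lit 4014529852) (nat_lit 228) (nat_lit 755841518) (nat_lit 76) (nat_lit 21447540057) (nat_lit 9) (nat_lit 5) (nat_lit 12) (nat_lit 5) (nat_lit 10) (nat_lit 4) (nat_lit 355) (nat_lit 225) (nat_lit 200)) (XT.nd (nat_lit 78) (nat_lit 0) (nat_lit 0) (XT.lf (nat_lit 0) (nat_lit 4433783281) (nat_lit 76) (nat_lit 2254029837) (nat_lit 152) (nat_lit 20221911659) (nat_lit 8) (nat_lit 5) (nat_lit 9) (nat_lit 5) (nat_lit 10) (nat_lit 4) (nat_lit 356) (nat_lit 225) (nat_lit 199)) (XT.lf (nat_lit 0) (nat_lit 9408714769) (nat_lit 152) (nat_lit 17905605206) (nat_lit 0) (nat_lit 308995756) (nat_lit 8) (nat_lit 5) (nat_lit 10) (nat_lit 4) (nat_lit 8) (nat_lit 4) (nat_lit 357) (nat_lit 225) (nat_lit 198))))))))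
noncomputable def xc30 : XT := (XT.nd (nat_lit 1716) (nat_lit 152) (nat_lit 0) (XT.nd (nat_lit 858) (nat_lit 76) (nat_lit 0) (XT.nd (nat_lit 390) (nat_lit 152) (nat_lit 0) (XT.nd (nat_lit 156) (nat_lit 76) (nat_lit 0) (XT.nd (nat_lit 78) (nat_lit 0) (nat_lit 0) (XT.lf (nat_lit 0) (nat_lit 12191293257) (nat_lit 152) (nat_lit 13293106789) (nat_lit 0) (nat_lit 2874557339) (nat_lit 8) (nat_lit 5) (nat_lit 10) (nat_lit 4) (nat_lit 8) (nat_lit 4) (nat_lit 358) (nat_lit 225) (nat_lit 197)) (XT.lf (nat_lit 0) (nat_lit 15016312848) (nat_lit 152) (nat_lit 8612748794) (nat_lit 0) (nat_lit 5488880906) (nat_lit 8) (nat_lit 5) (nat_lit 10) (nat_lit 4) (nat_lit 8) (nat_lit 4) (nat_lit 359) (nat_lit 225) (nat_lit 196))) (XT.nd (nat_lit 78) (nat_lit 76) (nat_lit 0) (XT.lf (nat_lit 0) (nat_lit 17886242006) (nat_lit 152) (nat_lit 3860441587) (nat_lit 0) (nat_lit 8154250818) (nat_lit 8) (nat_lit 5) (nat_lit 10)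 (nat_lit 4) (nat_lit 8) (nat_lit 4) (nat_lit 360) (nat_lit 225) (nat_lit 195)) (XT.nd (nat_lit 78) (nat_lit 0) (nat_lit 0) (XT.lf (nat_lit 0) (nat_lit 987231780) (nat_lit 76) (nat_lit 19825846531) (nat_lit 76) (nat_lit 9895254132) (nat_lit 7) (nat_lit 4) (nat_lit 8) (nat_lit 5) (nat_lit 8) (nat_lit 4) (nat_lit 361) (nat_lit 225) (nat_lit 194)) (XT.lf (nat_lit 0) (nat_lit 5993654755) (nat_lit 76) (nat_lit 17834861195) (nat_lit 76) (nat_lit 7711452087) (nat_lit 7) (nat_lit 4) (nat_lit 8) (nat_lit 5) (nat_lit 8) (nat_lit 4) (nat_lit 362) (nat_lit 225) (nat_lit 193))))) (XT.nd (nat_lit 234) (nat_lit 152) (nat_lit 0) (XT.nd (nat_lit 78) (nat_lit 0) (nat_lit 0) (XT.lf (nat_lit 0) (nat_lit 11086371525) (nat_lit 76) (nat_lit 15810970779) (nat_lit 76) (nat_lit 5500360984) (nat_lit 7) (nat_lit 4) (nat_lit 8) (nat_lit 5) (nat_lit 8) (nat_lit 4) (nat_lit 363) (nat_lit 225) (nat_lit 192)) (XT.nd (nat_lit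 78) (nat_lit 0) (nat_lit 0) (XT.lf (nat_lit 0) (nat_lit 16269832037) (nat_lit 76) (nat_lit 13752406836) (nat_lit 76) (nat_lit 3260048800) (nat_lit 7) (nat_lit 4) (nat_lit 8) (nat_lit 5) (nat_lit 8) (nat_lit 4) (nat_lit 364) (nat_lit 225) (nat_lit 191)) (XT.lf (nat_lit 0) (nat_lit 21548565529) (nat_lit 76) (nat_lit 11657370621) (nat_lit 76) (nat_lit 988557982) (nat_lit 7) (nat_lit 4) (nat_lit 8) (nat_lit 5) (nat_lit 8) (nat_lit 4) (nat_lit 365) (nat_lit 225) (nat_lit 190)))) (XT.nd (nat_lit 78) (nat_lit 76) (nat_lit 0) (XT.lf (nat_lit 0) (nat_lit 1290414489) (nat_lit 152) (nat_lit 8220586374) (nat_lit 76) (nat_lit 25623739339) (nat_lit 6) (nat_lit 5) (nat_lit 8) (nat_lit 5) (nat_lit 7) (nat_lit 4) (nat_lit 366) (nat_lit 225) (nat_lit 189)) (XT.nd (nat_lit 78) (nat_lit 76) (nat_lit 0) (XT.lf (nat_lit 0) (nat_lit 3584587408) (nat_lit 152) (nat_lit 3729740736) (nat_lit 76) (nat_lit 28789603957)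 (nat_lit 6) (nat_lit 5) (nat_lit 8) (nat_lit 5) (nat_lit 7) (nat_lit 4) (nat_lit 367) (nat_lit 225) (nat_lit 188)) (XT.lf (nat_lit 0) (nat_lit 856753316) (nat_lit 76) (nat_lit 5066738038) (nat_lit 152) (nat_lit 31179463351) (nat_lit 5) (nat_lit 5) (nat_lit 6) (nat_lit 5) (nat_lit 7) (nat_lit 4) (nat_lit 368) (nat_lit 225) (nat_lit 187)))))) (XT.nd (nat_lit 390) (nat_lit 76) (nat_lit 0) (XT.nd (nat_lit 156) (nat_lit 0) (nat_lit 0) (XT.nd (nat_lit 78) (nat_lit 0) (nat_lit 0) (XT.lf (nat_lit 0) (nat_lit 5602049934) (nat_lit 76) (nat_lit 2736256320) (nat_lit 152) (nat_lit 29793500606) (nat_lit 5) (nat_lit 5) (nat_lit 6) (nat_lit 5) (nat_lit 7) (nat_lit 4) (nat_lit 369) (nat_lit 225) (nat_lit 186)) (XT.lf (nat_lit 0) (nat_lit 10436066340) (nat_lit 76) (nat_lit 358509715) (nat_lit 152) (nat_lit 28397908489) (nat_lit 5) (nat_lit 5) (nat_lit 6) (nat_lit 5) (nat_lit 7) (nat_lit 4) (nat_lit 370) (nat_lit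 225) (nat_lit 185))) (XT.nd (nat_lit 78) (nat_lit 0) (nat_lit 0) (XT.lf (nat_lit 0) (nat_lit 13314331463) (nat_lit 152) (nat_lit 24942772585) (nat_lit 0) (nat_lit 2028213983) (nat_lit 5) (nat_lit 5) (nat_lit 7) (nat_lit 4) (nat_lit 5) (nat_lit 4) (nat_lit 371) (nat_lit 225) (nat_lit 184)) (XT.nd (nat_lit 78) (nat_lit 0) (nat_lit 0) (XT.lf (nat_lit 0) (nat_lit 15883813292) (nat_lit 152) (nat_lit 21069526841) (nat_lit 0) (nat_lit 4458400919) (nat_lit 5) (nat_lit 5) (nat_lit 7) (nat_lit 4) (nat_lit 5) (nat_lit 4) (nat_lit 372) (nat_lit 225) (nat_lit 183)) (XT.lf (nat_lit 0) (nat_lit 18501820505) (nat_lit 152) (nat_lit 17129850369) (nat_lit 0) (nat_lit 6941170371) (nat_lit 5) (nat_lit 5) (nat_lit 7) (nat_lit 4) (nat_lit 5) (nat_lit 4) (nat_lit 373) (nat_lit 225) (nat_lit 182))))) (XT.nd (nat_lit 234) (nat_lit 76) (nat_lit 0) (XT.nd (nat_lit 78) (nat_lit 0) (nat_lit 0) (XT.lf (nat_lit 0) (nat_lit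 21170640681) (nat_lit 152) (nat_lit 13120300732) (nat_lit 0) (nat_lit 9478691751) (nat_lit 5) (nat_lit 5) (nat_lit 7) (nat_lit 4) (nat_lit 5) (nat_lit 4) (nat_lit 374) (nat_lit 225) (nat_lit 181)) (XT.nd (nat_lit 78) (nat_lit 0) (nat_lit 0) (XT.lf (nat_lit 0) (nat_lit 23892605799) (nat_lit 152) (nat_lit 9037374441) (nat_lit 0) (nat_lit 12073182310) (nat_lit 5) (nat_lit 5) (nat_lit 7) (nat_lit 4) (nat_lit 5) (nat_lit 4) (nat_lit 375) (nat_lit 225) (nat_lit 180)) (XT.lf (nat_lit 0) (nat_lit 26670094276) (nat_lit 152) (nat_lit 4877503890) (nat_lit 0) (nat_lit 14726909078) (nat_lit 5) (nat_lit 5) (nat_lit 7) (nat_lit 4) (nat_lit 5) (nat_lit 4) (nat_lit 376) (nat_lit 225) (nat_lit 179)))) (XT.nd (nat_lit 78) (nat_lit 76) (nat_lit 0) (XT.lf (nat_lit 0) (nat_lit 29505533042) (nat_lit 152) (nat_lit 637054241) (nat_lit 0) (nat_lit 17442190846) (nat_lit 5) (nat_lit 5) (nat_lit 7) (nat_lit 4) (nat_lit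 5) (nat_lit 4) (nat_lit 377) (nat_lit 225) (nat_lit 178)) (XT.nd (nat_lit 78) (nat_lit 0) (nat_lit 0) (XT.lf (nat_lit 0) (nat_lit 3761071811) (nat_lit 76) (nat_lit 28676481578) (nat_lit 76) (nat_lit 16496482102) (nat_lit 4) (nat_lit 4) (nat_lit 5) (nat_lit 5) (nat_lit 5) (nat_lit 4) (nat_lit 378) (nat_lit 225) (nat_lit 177)) (XT.lf (nat_lit 0) (nat_lit 8261692362) (nat_lit 76) (nat_lit 27177948596) (nat_lit 76) (nat_lit 14884689625) (nat_lit 4) (nat_lit 4) (nat_lit 5) (nat_lit 5) (nat_lit 5) (nat_lit 4) (nat_lit 379) (nat_lit 225) (nat_lit 176))))))) (XT.nd (nat_lit 858) (nat_lit 76) (nat_lit 0) (XT.nd (nat_lit 390) (nat_lit 76) (nat_lit 0) (XT.nd (nat_lit 156) (nat_lit 0) (nat_lit 0) (XT.nd (nat_lit 78) (nat_lit 0) (nat_lit 0) (XT.lf (nat_lit 0) (nat_lit 12856061365) (nat_lit 76) (nat_lit 25652111937) (nat_lit 76) (nat_lit 13248892291) (nat_lit 4) (nat_lit 4) (nat_lit 5) (nat_lit 5) (nat_lit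 5) (nat_lit 4) (nat_lit 380) (nat_lit 225) (nat_lit 175)) (XT.lf (nat_lit 0) (nat_lit 17548193317) (nat_lit 76) (nat_lit 24097638346) (nat_lit 76) (nat_lit 11587660763) (nat_lit 4) (nat_lit 4) (nat_lit 5) (nat_lit 5) (nat_lit 5) (nat_lit 4) (nat_lit 381) (nat_lit 225) (nat_lit 174))) (XT.nd (nat_lit 78) (nat_lit 0) (nat_lit 0) (XT.lf (nat_lit 0) (nat_lit 22342188138) (nat_lit 76) (nat_lit 22513169546) (nat_lit 76) (nat_lit 9899543481) (nat_lit 4) (nat_lit 4) (nat_lit 5) (nat_lit 5) (nat_lit 5) (nat_lit 4) (nat_lit 382) (nat_lit 225) (nat_lit 173)) (XT.nd (nat_lit 78) (nat_lit 0) (nat_lit 0) (XT.lf (nat_lit 0) (nat_lit 27242234756) (nat_lit 76) (nat_lit 20897321049) (nat_lit 76) (nat_lit 8183065389) (nat_lit 4) (nat_lit 4) (nat_lit 5) (nat_lit 5) (nat_lit 5) (nat_lit 4) (nat_lit 383) (nat_lit 225) (nat_lit 172)) (XT.lf (nat_lit 0) (nat_lit 32252614766) (nat_lit 76) (nat_lit 19248680948) (nat_lit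 76) (nat_lit 6436726653) (nat_lit 4) (nat_lit 4) (nat_lit 5) (nat_lit 5) (nat_lit 5) (nat_lit 4) (nat_lit 384) (nat_lit 225) (nat_lit 171))))) (XT.nd (nat_lit 234) (nat_lit 76) (nat_lit 0) (XT.nd (nat_lit 78) (nat_lit 0) (nat_lit 0) (XT.lf (nat_lit 0) (nat_lit 37377706170) (nat_lit 76) (nat_lit 17565808685) (nat_lit 76) (nat_lit 4659001346) (nat_lit 4) (nat_lit 4) (nat_lit 5) (nat_lit 5) (nat_lit 5) (nat_lit 4) (nat_lit 385) (nat_lit 225) (nat_lit 170)) (XT.nd (nat_lit 78) (nat_lit 0) (nat_lit 0) (XT.lf (nat_lit 0) (nat_lit 42621987202) (nat_lit 76) (nat_lit 15847233788) (nat_lit 76) (nat_lit 2848336115) (nat_lit 4) (nat_lit 4) (nat_lit 5) (nat_lit 5) (nat_lit 5) (nat_lit 4) (nat_lit 386) (nat_lit 225) (nat_lit 169)) (XT.lf (nat_lit 0) (nat_lit 47990040243) (nat_lit 76) (nat_lit 14091454590) (nat_lit 76) (nat_lit 1003148826) (nat_lit 4) (nat_lit 4) (nat_lit 5) (nat_lit 5) (nat_lit 5) (nat_lit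 4) (nat_lit 387) (nat_lit 225) (nat_lit 168)))) (XT.nd (nat_lit 78) (nat_lit 0) (nat_lit 0) (XT.lf (nat_lit 0) (nat_lit 861036505) (nat_lit 152) (nat_lit 11427205629) (nat_lit 76) (nat_lit 52616824541) (nat_lit 3) (nat_lit 5) (nat_lit 5) (nat_lit 5) (nat_lit 4) (nat_lit 4) (nat_lit 388) (nat_lit 225) (nat_lit 167)) (XT.nd (nat_lit 78) (nat_lit 0) (nat_lit 0) (XT.lf (nat_lit 0) (nat_lit 2742687832) (nat_lit 152) (nat_lit 7691729137) (nat_lit 76) (nat_lit 56345953131) (nat_lit 3) (nat_lit 5) (nat_lit 5) (nat_lit 5) (nat_lit 4) (nat_lit 4) (nat_lit 389) (nat_lit 225) (nat_lit 166)) (XT.lf (nat_lit 0) (nat_lit 4663024362) (nat_lit 152) (nat_lit 3875267049) (nat_lit 76) (nat_lit 60174190422) (nat_lit 3) (nat_lit 5) (nat_lit 5) (nat_lit 5) (nat_lit 4) (nat_lit 4) (nat_lit 390) (nat_lit 225) (nat_lit 165)))))) (XT.nd (nat_lit 468) (nat_lit 0) (nat_lit 0) (XT.nd (nat_lit 234) (nat_lit 0) (nat_lit 0)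 (XT.nd (nat_lit 78) (nat_lit 0) (nat_lit 0) (XT.lf (nat_lit 0) (nat_lit 26023210) (nat_lit 76) (nat_lit 6597951000) (nat_lit 152) (nat_lit 64079108416) (nat_lit 2) (nat_lit 5) (nat_lit 3) (nat_lit 5) (nat_lit 4) (nat_lit 4) (nat_lit 391) (nat_lit 225) (nat_lit 164)) (XT.nd (nat_lit 78) (nat_lit 0) (nat_lit 0) (XT.lf (nat_lit 0) (nat_lit 4093913677) (nat_lit 76) (nat_lit 4571939681) (nat_lit 152) (nat_lit 64086900401) (nat_lit 2) (nat_lit 5) (nat_lit 3) (nat_lit 5) (nat_lit 4) (nat_lit 4) (nat_lit 392) (nat_lit 225) (nat_lit 163)) (XT.lf (nat_lit 0) (nat_lit 8254833404) (nat_lit 76) (nat_lit 2497619755) (nat_lit 152) (nat_lit 64111972834) (nat_lit 2) (nat_lit 5) (nat_lit 3) (nat_lit 5) (nat_lit 4) (nat_lit 4) (nat_lit 393) (nat_lit 225) (nat_lit 162)))) (XT.nd (nat_lit 78) (nat_lit 0) (nat_lit 0) (XT.lf (nat_lit 0) (nat_lit 12512418148) (nat_lit 76) (nat_lit 373178708) (nat_lit 152) (nat_lit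 64154347625) (nat_lit 2) (nat_lit 5) (nat_lit 3) (nat_lit 5) (nat_lit 4) (nat_lit 4) (nat_lit 394) (nat_lit 225) (nat_lit 161)) (XT.nd (nat_lit 78) (nat_lit 0) (nat_lit 0) (XT.lf (nat_lit 0) (nat_lit 15084482203) (nat_lit 152) (nat_lit 62428155875) (nat_lit 0) (nat_lit 1768052063) (nat_lit 2) (nat_lit 5) (nat_lit 4) (nat_lit 4) (nat_lit 2) (nat_lit 4) (nat_lit 395) (nat_lit 225) (nat_lit 160)) (XT.lf (nat_lit 0) (nat_lit 17337786709) (nat_lit 152) (nat_lit 60296402965) (nat_lit 0) (nat_lit 3954828552) (nat_lit 2) (nat_lit 5) (nat_lit 4) (nat_lit 4) (nat_lit 2) (nat_lit 4) (nat_lit 396) (nat_lit 225) (nat_lit 159))))) (XT.nd (nat_lit 234) (nat_lit 0) (nat_lit 0) (XT.nd (nat_lit 78) (nat_lit 0) (nat_lit 0) (XT.lf (nat_lit 0) (nat_lit 19643892057) (nat_lit 152) (nat_lit 58126817685) (nat_lit 0) (nat_lit 6196343593) (nat_lit 2) (nat_lit 5) (nat_lit 4) (nat_lit 4) (nat_lit 2) (nat_lit 4) (nat_lit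 397) (nat_lit 225) (nat_lit 158)) (XT.nd (nat_lit 78) (nat_lit 0) (nat_lit 0) (XT.lf (nat_lit 0) (nat_lit 22004813293) (nat_lit 152) (nat_lit 55917504281) (nat_lit 0) (nat_lit 8494555792) (nat_lit 2) (nat_lit 5) (nat_lit 4) (nat_lit 4) (nat_lit 2) (nat_lit 4) (nat_lit 398) (nat_lit 225) (nat_lit 157)) (XT.lf (nat_lit 0) (nat_lit 24422613356) (nat_lit 152) (nat_lit 53666532285) (nat_lit 0) (nat_lit 10851473296) (nat_lit 2) (nat_lit 5) (nat_lit 4) (nat_lit 4) (nat_lit 2) (nat_lit 4) (nat_lit 399) (nat_lit 225) (nat_lit 156)))) (XT.nd (nat_lit 78) (nat_lit 0) (nat_lit 0) (XT.lf (nat_lit 0) (nat_lit 26899404887) (nat_lit 152) (nat_lit 51371934827) (nat_lit 0) (nat_lit 13269155546) (nat_lit 2) (nat_lit 5) (nat_lit 4) (nat_lit 4) (nat_lit 2) (nat_lit 4) (nat_lit 400) (nat_lit 225) (nat_lit 155)) (XT.nd (nat_lit 78) (nat_lit 0) (nat_lit 0) (XT.lf (nat_lit 0) (nat_lit 29437352074) (nat_lit 152) (nat_lit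 49031706921) (nat_lit 0) (nat_lit 15749715081) (nat_lit 2) (nat_lit 5) (nat_lit 4) (nat_lit 4) (nat_lit 2) (nat_lit 4) (nat_lit 401) (nat_lit 225) (nat_lit 154)) (XT.lf (nat_lit 0) (nat_lit 32038672540) (nat_lit 152) (nat_lit 46643803706) (nat_lit 0) (nat_lit 18295319381) (nat_lit 2) (nat_lit 5) (nat_lit 4) (nat_lit 4) (nat_lit 2) (nat_lit 4) (nat_lit 402) (nat_lit 225) (nat_lit 153))))))))
noncomputable def xc31 : XT := (XT.nd (nat_lit 1794) (nat_lit 532) (nat_lit 0) (XT.nd (nat_lit 858) (nat_lit 456) (nat_lit 0) (XT.nd (nat_lit 390) (nat_lit 380) (nat_lit 0) (XT.nd (nat_lit 156) (nat_lit 152) (nat_lit 0) (XT.nd (nat_lit 78) (nat_lit 228) (nat_lit 0) (XT.lf (nat_lit 0) (nat_lit 4196886380) (nat_lit 152) (nat_lit 1360585994) (nat_lit 152) (nat_lit 1360585994) (nat_lit 28) (nat_lit 4) (nat_lit 30) (nat_lit 5) (nat_lit 30) (nat_lit 4) (nat_lit 328) (nat_lit 226) (nat_lit 226)) (XT.lf (nat_lit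 0) (nat_lit 578683630) (nat_lit 228) (nat_lit 13530652349) (nat_lit 0) (nat_lit 19847141) (nat_lit 25) (nat_lit 5) (nat_lit 28) (nat_lit 4) (nat_lit 25) (nat_lit 4) (nat_lit 329) (nat_lit 226) (nat_lit 225))) (XT.nd (nat_lit 78) (nat_lit 152) (nat_lit 0) (XT.lf (nat_lit 0) (nat_lit 3928289185) (nat_lit 228) (nat_lit 7674998796) (nat_lit 0) (nat_lit 2826892998) (nat_lit 25) (nat_lit 5) (nat_lit 28) (nat_lit 4) (nat_lit 25) (nat_lit 4) (nat_lit 330) (nat_lit 226) (nat_lit 224)) (XT.nd (nat_lit 78) (nat_lit 152) (nat_lit 0) (XT.lf (nat_lit 0) (nat_lit 7303629218) (nat_lit 228) (nat_lit 1763454053) (nat_lit 0) (nat_lit 5675476044) (nat_lit 25) (nat_lit 5) (nat_lit 28) (nat_lit 4) (nat_lit 25) (nat_lit 4) (nat_lit 331) (nat_lit 226) (nat_lit 223)) (XT.lf (nat_lit 0) (nat_lit 4292917589) (nat_lit 152) (nat_lit 6456001617) (nat_lit 152) (nat_lit 4316433891) (nat_lit 23) (nat_lit 4) (nat_lit 25) (nat_lit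 5) (nat_lit 25) (nat_lit 4) (nat_lit 332) (nat_lit 226) (nat_lit 222))))) (XT.nd (nat_lit 234) (nat_lit 152) (nat_lit 0) (XT.nd (nat_lit 78) (nat_lit 228) (nat_lit 0) (XT.lf (nat_lit 0) (nat_lit 10451979832) (nat_lit 152) (nat_lit 3791826082) (nat_lit 152) (nat_lit 1155739374) (nat_lit 23) (nat_lit 4) (nat_lit 25) (nat_lit 5) (nat_lit 25) (nat_lit 4) (nat_lit 333) (nat_lit 226) (nat_lit 221)) (XT.nd (nat_lit 78) (nat_lit 0) (nat_lit 0) (XT.lf (nat_lit 0) (nat_lit 936857676) (nat_lit 152) (nat_lit 1060680081) (nat_lit 228) (nat_lit 13747553771) (nat_lit 20) (nat_lit 5) (nat_lit 22) (nat_lit 5) (nat_lit 23) (nat_lit 4) (nat_lit 334) (nat_lit 226) (nat_lit 220)) (XT.lf (nat_lit 0) (nat_lit 5219771005) (nat_lit 228) (nat_lit 9142993801) (nat_lit 0) (nat_lit 1738061555) (nat_lit 20) (nat_lit 5) (nat_lit 23) (nat_lit 4) (nat_lit 20) (nat_lit 4) (nat_lit 335) (nat_lit 226) (nat_lit 219)))) (XT.nd (nat_lit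 78) (nat_lit 152) (nat_lit 0) (XT.lf (nat_lit 0) (nat_lit 8481490027) (nat_lit 228) (nat_lit 3428919146) (nat_lit 0) (nat_lit 4558629892) (nat_lit 20) (nat_lit 5) (nat_lit 23) (nat_lit 4) (nat_lit 20) (nat_lit 4) (nat_lit 336) (nat_lit 226) (nat_lit 218)) (XT.nd (nat_lit 78) (nat_lit 0) (nat_lit 0) (XT.lf (nat_lit 0) (nat_lit 2395932164) (nat_lit 152) (nat_lit 9402447965) (nat_lit 152) (nat_lit 5051286194) (nat_lit 18) (nat_lit 4) (nat_lit 20) (nat_lit 5) (nat_lit 20) (nat_lit 4) (nat_lit 337) (nat_lit 226) (nat_lit 217)) (XT.lf (nat_lit 0) (nat_lit 8359472574) (nat_lit 152) (nat_lit 6825109733) (nat_lit 152) (nat_lit 2058121131) (nat_lit 18) (nat_lit 4) (nat_lit 20) (nat_lit 5) (nat_lit 20) (nat_lit 4) (nat_lit 338) (nat_lit 226) (nat_lit 216)))))) (XT.nd (nat_lit 468) (nat_lit 152) (nat_lit 0) (XT.nd (nat_lit 234) (nat_lit 152) (nat_lit 0) (XT.nd (nat_lit 78) (nat_lit 76) (nat_lit 0) (XT.lf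 (nat_lit 0) (nat_lit 941204363) (nat_lit 228) (nat_lit 3260059113) (nat_lit 76) (nat_lit 13447962048) (nat_lit 17) (nat_lit 5) (nat_lit 20) (nat_lit 5) (nat_lit 18) (nat_lit 4) (nat_lit 339) (nat_lit 226) (nat_lit 215)) (XT.nd (nat_lit 78) (nat_lit 0) (nat_lit 0) (XT.lf (nat_lit 0) (nat_lit 2457842923) (nat_lit 76) (nat_lit 1493144053) (nat_lit 152) (nat_lit 14117567637) (nat_lit 16) (nat_lit 5) (nat_lit 17) (nat_lit 5) (nat_lit 18) (nat_lit 4) (nat_lit 340) (nat_lit 226) (nat_lit 214)) (XT.lf (nat_lit 0) (nat_lit 7035438753) (nat_lit 152) (nat_lit 10200228652) (nat_lit 0) (nat_lit 1265340601) (nat_lit 16) (nat_lit 5) (nat_lit 18) (nat_lit 4) (nat_lit 16) (nat_lit 4) (nat_lit 341) (nat_lit 226) (nat_lit 213)))) (XT.nd (nat_lit 78) (nat_lit 152) (nat_lit 0) (XT.lf (nat_lit 0) (nat_lit 10167663500) (nat_lit 152) (nat_lit 4741318343) (nat_lit 0) (nat_lit 4038869471) (nat_lit 16) (nat_lit 5) (nat_lit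 18) (nat_lit 4) (nat_lit 16) (nat_lit 4) (nat_lit 342) (nat_lit 226) (nat_lit 212)) (XT.nd (nat_lit 78) (nat_lit 0) (nat_lit 0) (XT.lf (nat_lit 0) (nat_lit 800768039) (nat_lit 152) (nat_lit 12542974532) (nat_lit 152) (nat_lit 6065932079) (nat_lit 14) (nat_lit 4) (nat_lit 16) (nat_lit 5) (nat_lit 16) (nat_lit 4) (nat_lit 343) (nat_lit 226) (nat_lit 211)) (XT.lf (nat_lit 0) (nat_lit 6511035592) (nat_lit 152) (nat_lit 10094904503) (nat_lit 152) (nat_lit 3279756784) (nat_lit 14) (nat_lit 4) (nat_lit 16) (nat_lit 5) (nat_lit 16) (nat_lit 4) (nat_lit 344) (nat_lit 226) (nat_lit 210))))) (XT.nd (nat_lit 234) (nat_lit 0) (nat_lit 0) (XT.nd (nat_lit 78) (nat_lit 152) (nat_lit 0) (XT.lf (nat_lit 0) (nat_lit 12300112338) (nat_lit 152) (nat_lit 7610510686) (nat_lit 152) (nat_lit 467105426) (nat_lit 14) (nat_lit 4) (nat_lit 16) (nat_lit 5) (nat_lit 16) (nat_lit 4) (nat_lit 345) (nat_lit 226) (nat_lit 209))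 (XT.nd (nat_lit 78) (nat_lit 76) (nat_lit 0) (XT.lf (nat_lit 0) (nat_lit 2328144998) (nat_lit 228) (nat_lit 2735967552) (nat_lit 76) (nat_lit 15821401994) (nat_lit 13) (nat_lit 5) (nat_lit 16) (nat_lit 5) (nat_lit 14) (nat_lit 4) (nat_lit 346) (nat_lit 226) (nat_lit 208)) (XT.lf (nat_lit 0) (nat_lit 2726202684) (nat_lit 76) (nat_lit 2445087364) (nat_lit 152) (nat_lit 16237964217) (nat_lit 12) (nat_lit 5) (nat_lit 13) (nat_lit 5) (nat_lit 14) (nat_lit 4) (nat_lit 347) (nat_lit 226) (nat_lit 207)))) (XT.nd (nat_lit 78) (nat_lit 0) (nat_lit 0) (XT.lf (nat_lit 0) (nat_lit 8077634699) (nat_lit 152) (nat_lit 13630973230) (nat_lit 0) (nat_lit 240820850) (nat_lit 12) (nat_lit 5) (nat_lit 14) (nat_lit 4) (nat_lit 12) (nat_lit 4) (nat_lit 348) (nat_lit 226) (nat_lit 206)) (XT.nd (nat_lit 78) (nat_lit 0) (nat_lit 0) (XT.lf (nat_lit 0) (nat_lit 11044481903) (nat_lit 152) (nat_lit 8537675060) (nat_lit 0)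 (nat_lit 2924510216) (nat_lit 12) (nat_lit 5) (nat_lit 14) (nat_lit 4) (nat_lit 12) (nat_lit 4) (nat_lit 349) (nat_lit 226) (nat_lit 205)) (XT.lf (nat_lit 0) (nat_lit 14050920375) (nat_lit 152) (nat_lit 3375202942) (nat_lit 0) (nat_lit 5656038167) (nat_lit 12) (nat_lit 5) (nat_lit 14) (nat_lit 4) (nat_lit 12) (nat_lit 4) (nat_lit 350) (nat_lit 226) (nat_lit 204))))))) (XT.nd (nat_lit 858) (nat_lit 228) (nat_lit 0) (XT.nd (nat_lit 390) (nat_lit 76) (nat_lit 0) (XT.nd (nat_lit 156) (nat_lit 76) (nat_lit 0) (XT.nd (nat_lit 78) (nat_lit 0) (nat_lit 0) (XT.lf (nat_lit 0) (nat_lit 1897990656) (nat_lit 152) (nat_lit 15219831093) (nat_lit 152) (nat_lit 6558045466) (nat_lit 10) (nat_lit 4) (nat_lit 12) (nat_lit 5) (nat_lit 12) (nat_lit 4) (nat_lit 351) (nat_lit 226) (nat_lit 203)) (XT.lf (nat_lit 0) (nat_lit 7318175070) (nat_lit 152) (nat_lit 12945287663) (nat_lit 152) (nat_lit 4024372502) (nat_lit 10)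 (nat_lit 4) (nat_lit 12) (nat_lit 5) (nat_lit 12) (nat_lit 4) (nat_lit 352) (nat_lit 226) (nat_lit 202))) (XT.nd (nat_lit 78) (nat_lit 76) (nat_lit 0) (XT.lf (nat_lit 0) (nat_lit 12822913227) (nat_lit 152) (nat_lit 10634588492) (nat_lit 152) (nat_lit 1462091260) (nat_lit 10) (nat_lit 4) (nat_lit 12) (nat_lit 5) (nat_lit 12) (nat_lit 4) (nat_lit 353) (nat_lit 226) (nat_lit 201)) (XT.nd (nat_lit 78) (nat_lit 0) (nat_lit 0) (XT.lf (nat_lit 0) (nat_lit 1108966535) (nat_lit 228) (nat_lit 7165549602) (nat_lit 76) (nat_lit 17296850169) (nat_lit 9) (nat_lit 5) (nat_lit 12) (nat_lit 5) (nat_lit 10) (nat_lit 4) (nat_lit 354) (nat_lit 226) (nat_lit 200)) (XT.lf (nat_lit 0) (nat_lit 3683960515) (nat_lit 228) (nat_lit 2175452054) (nat_lit 76) (nat_lit 20384207422) (nat_lit 9) (nat_lit 5) (nat_lit 12) (nat_lit 5) (nat_lit 10) (nat_lit 4) (nat_lit 355) (nat_lit 226) (nat_lit 199))))) (XT.nd (nat_lit 234) (nat_lit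 0) (nat_lit 0) (XT.nd (nat_lit 78) (nat_lit 0) (nat_lit 0) (XT.lf (nat_lit 0) (nat_lit 2949584708) (nat_lit 76) (nat_lit 3372439845) (nat_lit 152) (nat_lit 20614487927) (nat_lit 8) (nat_lit 5) (nat_lit 9) (nat_lit 5) (nat_lit 10) (nat_lit 4) (nat_lit 356) (nat_lit 226) (nat_lit 198)) (XT.nd (nat_lit 78) (nat_lit 0) (nat_lit 0) (XT.lf (nat_lit 0) (nat_lit 8201355500) (nat_lit 76) (nat_lit 817860286) (nat_lit 152) (nat_lit 18631620864) (nat_lit 8) (nat_lit 5) (nat_lit 9) (nat_lit 5) (nat_lit 10) (nat_lit 4) (nat_lit 357) (nat_lit 226) (nat_lit 197)) (XT.lf (nat_lit 0) (nat_lit 11773717599) (nat_lit 152) (nat_lit 14863857597) (nat_lit 0) (nat_lit 1749766675) (nat_lit 8) (nat_lit 5) (nat_lit 10) (nat_lit 4) (nat_lit 8) (nat_lit 4) (nat_lit 358) (nat_lit 226) (nat_lit 196)))) (XT.nd (nat_lit 78) (nat_lit 0) (nat_lit 0) (XT.lf (nat_lit 0) (nat_lit 14579111071) (nat_lit 152) (nat_lit 10217224493) (nat_lit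 0) (nat_lit 4350600901) (nat_lit 8) (nat_lit 5) (nat_lit 10) (nat_lit 4) (nat_lit 8) (nat_lit 4) (nat_lit 359) (nat_lit 226) (nat_lit 195)) (XT.nd (nat_lit 78) (nat_lit 0) (nat_lit 0) (XT.lf (nat_lit 0) (nat_lit 17429985745) (nat_lit 152) (nat_lit 5497659899) (nat_lit 0) (nat_lit 7002874364) (nat_lit 8) (nat_lit 5) (nat_lit 10) (nat_lit 4) (nat_lit 8) (nat_lit 4) (nat_lit 360) (nat_lit 226) (nat_lit 194)) (XT.lf (nat_lit 0) (nat_lit 20328832675) (nat_lit 152) (nat_lit 701039923) (nat_lit 0) (nat_lit 9708904585) (nat_lit 8) (nat_lit 5) (nat_lit 10) (nat_lit 4) (nat_lit 8) (nat_lit 4) (nat_lit 361) (nat_lit 226) (nat_lit 193)))))) (XT.nd (nat_lit 468) (nat_lit 76) (nat_lit 0) (XT.nd (nat_lit 234) (nat_lit 76) (nat_lit 0) (XT.nd (nat_lit 78) (nat_lit 0) (nat_lit 0) (XT.lf (nat_lit 0) (nat_lit 4259953694) (nat_lit 76) (nat_lit 19059180421) (nat_lit 76) (nat_lit 8252051643) (nat_lit 7) (nat_lit 4)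 (nat_lit 8) (nat_lit 5) (nat_lit 8) (nat_lit 4) (nat_lit 362) (nat_lit 226) (nat_lit 192)) (XT.nd (nat_lit 78) (nat_lit 0) (nat_lit 0) (XT.lf (nat_lit 0) (nat_lit 9322109991) (nat_lit 76) (nat_lit 17048119161) (nat_lit 76) (nat_lit 6059242142) (nat_lit 7) (nat_lit 4) (nat_lit 8) (nat_lit 5) (nat_lit 8) (nat_lit 4) (nat_lit 363) (nat_lit 226) (nat_lit 191)) (XT.lf (nat_lit 0) (nat_lit 14475900140) (nat_lit 76) (nat_lit 15002010709) (nat_lit 76) (nat_lit 3836679087) (nat_lit 7) (nat_lit 4) (nat_lit 8) (nat_lit 5) (nat_lit 8) (nat_lit 4) (nat_lit 364) (nat_lit 226) (nat_lit 190)))) (XT.nd (nat_lit 78) (nat_lit 76) (nat_lit 0) (XT.lf (nat_lit 0) (nat_lit 19725827454) (nat_lit 76) (nat_lit 12919067203) (nat_lit 76) (nat_lit 1582420433) (nat_lit 7) (nat_lit 4) (nat_lit 8) (nat_lit 5) (nat_lit 8) (nat_lit 4) (nat_lit 365) (nat_lit 226) (nat_lit 189)) (XT.nd (nat_lit 78) (nat_lit 0) (nat_lit 0) (XT.lf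 (nat_lit 0) (nat_lit 691736645) (nat_lit 152) (nat_lit 10098746766) (nat_lit 76) (nat_lit 24377757418) (nat_lit 6) (nat_lit 5) (nat_lit 8) (nat_lit 5) (nat_lit 7) (nat_lit 4) (nat_lit 366) (nat_lit 226) (nat_lit 188)) (XT.lf (nat_lit 0) (nat_lit 2969983555) (nat_lit 152) (nat_lit 5635386497) (nat_lit 76) (nat_lit 27532556281) (nat_lit 6) (nat_lit 5) (nat_lit 8) (nat_lit 5) (nat_lit 7) (nat_lit 4) (nat_lit 367) (nat_lit 226) (nat_lit 187))))) (XT.nd (nat_lit 234) (nat_lit 0) (nat_lit 0) (XT.nd (nat_lit 78) (nat_lit 76) (nat_lit 0) (XT.lf (nat_lit 0) (nat_lit 5285189721) (nat_lit 152) (nat_lit 1092295610) (nat_lit 76) (nat_lit 30760189903) (nat_lit 6) (nat_lit 5) (nat_lit 8) (nat_lit 5) (nat_lit 7) (nat_lit 4) (nat_lit 368) (nat_lit 226) (nat_lit 186)) (XT.nd (nat_lit 78) (nat_lit 0) (nat_lit 0) (XT.lf (nat_lit 0) (nat_lit 3604838975) (nat_lit 76) (nat_lit 4069191078) (nat_lit 152) (nat_lit 30493291487)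 (nat_lit 5) (nat_lit 5) (nat_lit 6) (nat_lit 5) (nat_lit 7) (nat_lit 4) (nat_lit 369) (nat_lit 226) (nat_lit 185)) (XT.lf (nat_lit 0) (nat_lit 8413201782) (nat_lit 76) (nat_lit 1702276921) (nat_lit 152) (nat_lit 29112979639) (nat_lit 5) (nat_lit 5) (nat_lit 6) (nat_lit 5) (nat_lit 7) (nat_lit 4) (nat_lit 370) (nat_lit 226) (nat_lit 184)))) (XT.nd (nat_lit 78) (nat_lit 0) (nat_lit 0) (XT.lf (nat_lit 0) (nat_lit 12607826436) (nat_lit 152) (nat_lit 27013944885) (nat_lit 0) (nat_lit 700356799) (nat_lit 5) (nat_lit 5) (nat_lit 7) (nat_lit 4) (nat_lit 5) (nat_lit 4) (nat_lit 371) (nat_lit 226) (nat_lit 183)) (XT.nd (nat_lit 78) (nat_lit 0) (nat_lit 0) (XT.lf (nat_lit 0) (nat_lit 15163239757) (nat_lit 152) (nat_lit 23165214729) (nat_lit 0) (nat_lit 3120532359) (nat_lit 5) (nat_lit 5) (nat_lit 7) (nat_lit 4) (nat_lit 5) (nat_lit 4) (nat_lit 372) (nat_lit 226) (nat_lit 182)) (XT.lf (nat_lit 0) (nat_lit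 17767588225) (nat_lit 152) (nat_lit 19249339798) (nat_lit 0) (nat_lit 5593582031) (nat_lit 5) (nat_lit 5) (nat_lit 7) (nat_lit 4) (nat_lit 5) (nat_lit 4) (nat_lit 373) (nat_lit 226) (nat_lit 181))))))))
noncomputable def xc32 : XT := (XT.nd (nat_lit 1716) (nat_lit 0) (nat_lit 0) (XT.nd (nat_lit 858) (nat_lit 152) (nat_lit 0) (XT.nd (nat_lit 390) (nat_lit 0) (nat_lit 0) (XT.nd (nat_lit 156) (nat_lit 76) (nat_lit 0) (XT.nd (nat_lit 78) (nat_lit 0) (nat_lit 0) (XT.lf (nat_lit 0) (nat_lit 20423147483) (nat_lit 152) (nat_lit 15262898454) (nat_lit 0) (nat_lit 8121666729) (nat_lit 5) (nat_lit 5) (nat_lit 7) (nat_lit 4) (nat_lit 5) (nat_lit 4) (nat_lit 374) (nat_lit 226) (nat_lit 180)) (XT.lf (nat_lit 0) (nat_lit 23132237924) (nat_lit 152) (nat_lit 11202407399) (nat_lit 0) (nat_lit 10706995462) (nat_lit 5) (nat_lit 5) (nat_lit 7) (nat_lit 4) (nat_lit 5) (nat_lit 4) (nat_lit 375) (nat_lit 226) (nat_lit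 179))) (XT.nd (nat_lit 78) (nat_lit 76) (nat_lit 0) (XT.lf (nat_lit 0) (nat_lit 25897226714) (nat_lit 152) (nat_lit 7064318630) (nat_lit 0) (nat_lit 13351827253) (nat_lit 5) (nat_lit 5) (nat_lit 7) (nat_lit 4) (nat_lit 5) (nat_lit 4) (nat_lit 376) (nat_lit 226) (nat_lit 178)) (XT.nd (nat_lit 78) (nat_lit 76) (nat_lit 0) (XT.lf (nat_lit 0) (nat_lit 28720529862) (nat_lit 152) (nat_lit 2845016343) (nat_lit 0) (nat_lit 16058473121) (nat_lit 5) (nat_lit 5) (nat_lit 7) (nat_lit 4) (nat_lit 5) (nat_lit 4) (nat_lit 377) (nat_lit 226) (nat_lit 177)) (XT.lf (nat_lit 0) (nat_lit 1488226899) (nat_lit 76) (nat_lit 30130693180) (nat_lit 76) (nat_lit 17355376945) (nat_lit 4) (nat_lit 4) (nat_lit 5) (nat_lit 5) (nat_lit 5) (nat_lit 4) (nat_lit 378) (nat_lit 226) (nat_lit 176))))) (XT.nd (nat_lit 234) (nat_lit 0) (nat_lit 0) (XT.nd (nat_lit 78) (nat_lit 0) (nat_lit 0) (XT.lf (nat_lit 0) (nat_lit 5968517320)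 (nat_lit 76) (nat_lit 28640855918) (nat_lit 76) (nat_lit 15755579008) (nat_lit 4) (nat_lit 4) (nat_lit 5) (nat_lit 5) (nat_lit 5) (nat_lit 4) (nat_lit 379) (nat_lit 226) (nat_lit 175)) (XT.nd (nat_lit 78) (nat_lit 0) (nat_lit 0) (XT.lf (nat_lit 0) (nat_lit 10543148332) (nat_lit 76) (nat_lit 27123461706) (nat_lit 76) (nat_lit 14131426860) (nat_lit 4) (nat_lit 4) (nat_lit 5) (nat_lit 5) (nat_lit 5) (nat_lit 4) (nat_lit 380) (nat_lit 226) (nat_lit 174)) (XT.lf (nat_lit 0) (nat_lit 15216117186) (nat_lit 76) (nat_lit 25577184666) (nat_lit 76) (nat_lit 12481501337) (nat_lit 4) (nat_lit 4) (nat_lit 5) (nat_lit 5) (nat_lit 5) (nat_lit 4) (nat_lit 381) (nat_lit 226) (nat_lit 173)))) (XT.nd (nat_lit 78) (nat_lit 0) (nat_lit 0) (XT.lf (nat_lit 0) (nat_lit 19991507057) (nat_lit 76) (nat_lit 24000673682) (nat_lit 76) (nat_lit 10804360759) (nat_lit 4) (nat_lit 4) (nat_lit 5) (nat_lit 5) (nat_lit 5) (nat_lit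 4) (nat_lit 382) (nat_lit 226) (nat_lit 172)) (XT.nd (nat_lit 78) (nat_lit 0) (nat_lit 0) (XT.lf (nat_lit 0) (nat_lit 24873490618) (nat_lit 76) (nat_lit 22392551221) (nat_lit 76) (nat_lit 9098539662) (nat_lit 4) (nat_lit 4) (nat_lit 5) (nat_lit 5) (nat_lit 5) (nat_lit 4) (nat_lit 383) (nat_lit 226) (nat_lit 171)) (XT.lf (nat_lit 0) (nat_lit 29866333679) (nat_lit 76) (nat_lit 20751412125) (nat_lit 76) (nat_lit 7362547522) (nat_lit 4) (nat_lit 4) (nat_lit 5) (nat_lit 5) (nat_lit 5) (nat_lit 4) (nat_lit 384) (nat_lit 226) (nat_lit 170)))))) (XT.nd (nat_lit 390) (nat_lit 76) (nat_lit 0) (XT.nd (nat_lit 156) (nat_lit 76) (nat_lit 0) (XT.nd (nat_lit 78) (nat_lit 0) (nat_lit 0) (XT.lf (nat_lit 0) (nat_lit 34974398918) (nat_lit 76) (nat_lit 19075822391) (nat_lit 76) (nat_lit 5594867454) (nat_lit 4) (nat_lit 4) (nat_lit 5) (nat_lit 5) (nat_lit 5) (nat_lit 4) (nat_lit 385) (nat_lit 226) (nat_lit 169))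 (XT.lf (nat_lit 0) (nat_lit 40202149693) (nat_lit 76) (nat_lit 17364317911) (nat_lit 76) (nat_lit 3793954883) (nat_lit 4) (nat_lit 4) (nat_lit 5) (nat_lit 5) (nat_lit 5) (nat_lit 4) (nat_lit 386) (nat_lit 226) (nat_lit 168))) (XT.nd (nat_lit 78) (nat_lit 76) (nat_lit 0) (XT.lf (nat_lit 0) (nat_lit 45554153942) (nat_lit 76) (nat_lit 15615403195) (nat_lit 76) (nat_lit 1958236195) (nat_lit 4) (nat_lit 4) (nat_lit 5) (nat_lit 5) (nat_lit 5) (nat_lit 4) (nat_lit 387) (nat_lit 226) (nat_lit 167)) (XT.nd (nat_lit 78) (nat_lit 76) (nat_lit 0) (XT.lf (nat_lit 0) (nat_lit 51035088174) (nat_lit 76) (nat_lit 13827550066) (nat_lit 76) (nat_lit 86107365) (nat_lit 4) (nat_lit 4) (nat_lit 5) (nat_lit 5) (nat_lit 5) (nat_lit 4) (nat_lit 388) (nat_lit 226) (nat_lit 166)) (XT.lf (nat_lit 0) (nat_lit 1788473321) (nat_lit 152) (nat_lit 10192662927) (nat_lit 76) (nat_lit 54843208158) (nat_lit 3) (nat_lit 5) (nat_lit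 5) (nat_lit 5) (nat_lit 4) (nat_lit 4) (nat_lit 389) (nat_lit 226) (nat_lit 165))))) (XT.nd (nat_lit 234) (nat_lit 0) (nat_lit 0) (XT.nd (nat_lit 78) (nat_lit 76) (nat_lit 0) (XT.lf (nat_lit 0) (nat_lit 3700313827) (nat_lit 152) (nat_lit 6391064631) (nat_lit 76) (nat_lit 58665340347) (nat_lit 3) (nat_lit 5) (nat_lit 5) (nat_lit 5) (nat_lit 4) (nat_lit 4) (nat_lit 390) (nat_lit 226) (nat_lit 164)) (XT.nd (nat_lit 78) (nat_lit 76) (nat_lit 0) (XT.lf (nat_lit 0) (nat_lit 5652764957) (nat_lit 152) (nat_lit 2504713042) (nat_lit 76) (nat_lit 62590104117) (nat_lit 3) (nat_lit 5) (nat_lit 5) (nat_lit 5) (nat_lit 4) (nat_lit 4) (nat_lit 391) (nat_lit 226) (nat_lit 163)) (XT.lf (nat_lit 0) (nat_lit 1499039337) (nat_lit 76) (nat_lit 6162903082) (nat_lit 152) (nat_lit 65136299219) (nat_lit 2) (nat_lit 5) (nat_lit 3) (nat_lit 5) (nat_lit 4) (nat_lit 4) (nat_lit 392) (nat_lit 226) (nat_lit 162)))) (XT.nd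 (nat_lit 78) (nat_lit 0) (nat_lit 0) (XT.lf (nat_lit 0) (nat_lit 5646085875) (nat_lit 76) (nat_lit 4094547923) (nat_lit 152) (nat_lit 65169524452) (nat_lit 2) (nat_lit 5) (nat_lit 3) (nat_lit 5) (nat_lit 4) (nat_lit 4) (nat_lit 393) (nat_lit 226) (nat_lit 161)) (XT.nd (nat_lit 78) (nat_lit 0) (nat_lit 0) (XT.lf (nat_lit 0) (nat_lit 9890201501) (nat_lit 76) (nat_lit 1975897912) (nat_lit 152) (nat_lit 65219814582) (nat_lit 2) (nat_lit 5) (nat_lit 3) (nat_lit 5) (nat_lit 4) (nat_lit 4) (nat_lit 394) (nat_lit 226) (nat_lit 160)) (XT.lf (nat_lit 0) (nat_lit 14042069950) (nat_lit 152) (nat_lit 65094188834) (nat_lit 0) (nat_lit 191095032) (nat_lit 2) (nat_lit 5) (nat_lit 4) (nat_lit 4) (nat_lit 2) (nat_lit 4) (nat_lit 395) (nat_lit 226) (nat_lit 159))))))) (XT.nd (nat_lit 35490) (nat_lit 0) (nat_lit 1064) (XT.nd (nat_lit 390) (nat_lit 0) (nat_lit 0) (XT.nd (nat_lit 156) (nat_lit 0) (nat_lit 0) (XT.nd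 (nat_lit 78) (nat_lit 0) (nat_lit 0) (XT.lf (nat_lit 0) (nat_lit 16288084656) (nat_lit 152) (nat_lit 62975303026) (nat_lit 0) (nat_lit 2372519431) (nat_lit 2) (nat_lit 5) (nat_lit 4) (nat_lit 4) (nat_lit 2) (nat_lit 4) (nat_lit 396) (nat_lit 226) (nat_lit 158)) (XT.lf (nat_lit 0) (nat_lit 18587112530) (nat_lit 152) (nat_lit 60818210078) (nat_lit 0) (nat_lit 4608838268) (nat_lit 2) (nat_lit 5) (nat_lit 4) (nat_lit 4) (nat_lit 2) (nat_lit 4) (nat_lit 397) (nat_lit 226) (nat_lit 157))) (XT.nd (nat_lit 78) (nat_lit 0) (nat_lit 0) (XT.lf (nat_lit 0) (nat_lit 20941162431) (nat_lit 152) (nat_lit 58621025152) (nat_lit 0) (nat_lit 6902005609) (nat_lit 2) (nat_lit 5) (nat_lit 4) (nat_lit 4) (nat_lit 2) (nat_lit 4) (nat_lit 398) (nat_lit 226) (nat_lit 156)) (XT.nd (nat_lit 78) (nat_lit 0) (nat_lit 0) (XT.lf (nat_lit 0) (nat_lit 23352291295) (nat_lit 152) (nat_lit 56381828377) (nat_lit 0) (nat_lit 9254025193)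 (nat_lit 2) (nat_lit 5) (nat_lit 4) (nat_lit 4) (nat_lit 2) (nat_lit 4) (nat_lit 399) (nat_lit 226) (nat_lit 155)) (XT.lf (nat_lit 0) (nat_lit 25822605935) (nat_lit 152) (nat_lit 54098663173) (nat_lit 0) (nat_lit 11666952181) (nat_lit 2) (nat_lit 5) (nat_lit 4) (nat_lit 4) (nat_lit 2) (nat_lit 4) (nat_lit 400) (nat_lit 226) (nat_lit 154))))) (XT.nd (nat_lit 34866) (nat_lit 0) (nat_lit 1748) (XT.nd (nat_lit 78) (nat_lit 0) (nat_lit 0) (XT.lf (nat_lit 0) (nat_lit 28354264877) (nat_lit 152) (nat_lit 51769534542) (nat_lit 0) (nat_lit 14142894956) (nat_lit 2) (nat_lit 5) (nat_lit 4) (nat_lit 4) (nat_lit 2) (nat_lit 4) (nat_lit 401) (nat_lit 226) (nat_lit 153)) (XT.nd (nat_lit 34710) (nat_lit 0) (nat_lit 2128) (XT.lf (nat_lit 0) (nat_lit 30949480251) (nat_lit 152) (nat_lit 49392407322) (nat_lit 0) (nat_lit 16684016965) (nat_lit 2) (nat_lit 5) (nat_lit 4) (nat_lit 4) (nat_lit 2) (nat_lit 4) (nat_lit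 402) (nat_lit 226) (nat_lit 152)) (XT.lf (nat_lit 0) (nat_lit 2337770074) (nat_lit 228) (nat_lit 1964134906) (nat_lit 0) (nat_lit 2337770074) (nat_lit 30) (nat_lit 5) (nat_lit 33) (nat_lit 4) (nat_lit 30) (nat_lit 4) (nat_lit 326) (nat_lit 227) (nat_lit 227)))) (XT.nd (nat_lit 78) (nat_lit 228) (nat_lit 0) (XT.lf (nat_lit 0) (nat_lit 2132261571) (nat_lit 152) (nat_lit 6007104216) (nat_lit 152) (nat_lit 5414234586) (nat_lit 28) (nat_lit 4) (nat_lit 30) (nat_lit 5) (nat_lit 30) (nat_lit 4) (nat_lit 327) (nat_lit 227) (nat_lit 226)) (XT.nd (nat_lit 78) (nat_lit 228) (nat_lit 0) (XT.lf (nat_lit 0) (nat_lit 8334198183) (nat_lit 152) (nat_lit 3335791307) (nat_lit 152) (nat_lit 2167320093) (nat_lit 28) (nat_lit 4) (nat_lit 30) (nat_lit 5) (nat_lit 30) (nat_lit 4) (nat_lit 328) (nat_lit 227) (nat_lit 225)) (XT.lf (nat_lit 0) (nat_lit 471524176) (nat_lit 152) (nat_lit 611644237) (nat_lit 228) (nat_lit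 13048259380) (nat_lit 25) (nat_lit 5) (nat_lit 27) (nat_lit 5) (nat_lit 28) (nat_lit 4) (nat_lit 329) (nat_lit 227) (nat_lit 224)))))) (XT.nd (nat_lit 468) (nat_lit 304) (nat_lit 0) (XT.nd (nat_lit 234) (nat_lit 228) (nat_lit 0) (XT.nd (nat_lit 78) (nat_lit 152) (nat_lit 0) (XT.lf (nat_lit 0) (nat_lit 4390069993) (nat_lit 228) (nat_lit 7857374712) (nat_lit 0) (nat_lit 2186315235) (nat_lit 25) (nat_lit 5) (nat_lit 28) (nat_lit 4) (nat_lit 25) (nat_lit 4) (nat_lit 330) (nat_lit 227) (nat_lit 223)) (XT.nd (nat_lit 78) (nat_lit 152) (nat_lit 0) (XT.lf (nat_lit 0) (nat_lit 7729658107) (nat_lit 228) (nat_lit 2003115549) (nat_lit 0) (nat_lit 5014488797) (nat_lit 25) (nat_lit 5) (nat_lit 28) (nat_lit 4) (nat_lit 25) (nat_lit 4) (nat_lit 331) (nat_lit 227) (nat_lit 222)) (XT.lf (nat_lit 0) (nat_lit 3991762405) (nat_lit 152) (nat_lit 7145580201) (nat_lit 152) (nat_lit 3933891909) (nat_lit 23) (nat_lit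 4) (nat_lit 25) (nat_lit 5) (nat_lit 25) (nat_lit 4) (nat_lit 332) (nat_lit 227) (nat_lit 221)))) (XT.nd (nat_lit 78) (nat_lit 228) (nat_lit 0) (XT.lf (nat_lit 0) (nat_lit 10095752845) (nat_lit 152) (nat_lit 4502247471) (nat_lit 152) (nat_lit 808501915) (nat_lit 23) (nat_lit 4) (nat_lit 25) (nat_lit 5) (nat_lit 25) (nat_lit 4) (nat_lit 333) (nat_lit 227) (nat_lit 220)) (XT.nd (nat_lit 78) (nat_lit 0) (nat_lit 0) (XT.lf (nat_lit 0) (nat_lit 507780562) (nat_lit 152) (nat_lit 1792486865) (nat_lit 228) (nat_lit 13452858730) (nat_lit 20) (nat_lit 5) (nat_lit 22) (nat_lit 5) (nat_lit 23) (nat_lit 4) (nat_lit 334) (nat_lit 227) (nat_lit 219)) (XT.lf (nat_lit 0) (nat_lit 5482124719) (nat_lit 228) (nat_lit 9627563982) (nat_lit 0) (nat_lit 1000428095) (nat_lit 20) (nat_lit 5) (nat_lit 23) (nat_lit 4) (nat_lit 20) (nat_lit 4) (nat_lit 335) (nat_lit 227) (nat_lit 218))))) (XT.nd (nat_lit 234) (nat_lit 152)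 (nat_lit 0) (XT.nd (nat_lit 78) (nat_lit 152) (nat_lit 0) (XT.lf (nat_lit 0) (nat_lit 8711473467) (nat_lit 228) (nat_lit 3966395165) (nat_lit 0) (nat_lit 3801475207) (nat_lit 20) (nat_lit 5) (nat_lit 23) (nat_lit 4) (nat_lit 20) (nat_lit 4) (nat_lit 336) (nat_lit 227) (nat_lit 217)) (XT.nd (nat_lit 78) (nat_lit 0) (nat_lit 0) (XT.lf (nat_lit 0) (nat_lit 1795372165) (nat_lit 152) (nat_lit 10195791002) (nat_lit 152) (nat_lit 4869965912) (nat_lit 18) (nat_lit 4) (nat_lit 20) (nat_lit 5) (nat_lit 20) (nat_lit 4) (nat_lit 337) (nat_lit 227) (nat_lit 216)) (XT.lf (nat_lit 0) (nat_lit 7708051261) (nat_lit 152) (nat_lit 7638313086) (nat_lit 152) (nat_lit 1908772627) (nat_lit 18) (nat_lit 4) (nat_lit 20) (nat_lit 5) (nat_lit 20) (nat_lit 4) (nat_lit 338) (nat_lit 227) (nat_lit 215)))) (XT.nd (nat_lit 78) (nat_lit 76) (nat_lit 0) (XT.lf (nat_lit 0) (nat_lit 1057203694) (nat_lit 228) (nat_lit 3975373629)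 (nat_lit 76) (nat_lit 12629990123) (nat_lit 17) (nat_lit 5) (nat_lit 20) (nat_lit 5) (nat_lit 18) (nat_lit 4) (nat_lit 339) (nat_lit 227) (nat_lit 214)) (XT.nd (nat_lit 78) (nat_lit 0) (nat_lit 0) (XT.lf (nat_lit 0) (nat_lit 1678758638) (nat_lit 76) (nat_lit 2351190240) (nat_lit 152) (nat_lit 14053096072) (nat_lit 16) (nat_lit 5) (nat_lit 17) (nat_lit 5) (nat_lit 18) (nat_lit 4) (nat_lit 340) (nat_lit 227) (nat_lit 213)) (XT.lf (nat_lit 0) (nat_lit 7076820478) (nat_lit 152) (nat_lit 11034374724) (nat_lit 0) (nat_lit 405466751) (nat_lit 16) (nat_lit 5) (nat_lit 18) (nat_lit 4) (nat_lit 16) (nat_lit 4) (nat_lit 341) (nat_lit 227) (nat_lit 212))))))))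
noncomputable def xc33 : XT := (XT.nd (nat_lit 1716) (nat_lit 228) (nat_lit 0) (XT.nd (nat_lit 858) (nat_lit 228) (nat_lit 0) (XT.nd (nat_lit 390) (nat_lit 228) (nat_lit 0) (XT.nd (nat_lit 156) (nat_lit 228) (nat_lit 0) (XT.nd (nat_lit 78) (nat_lit 0) (nat_lit 0) (XT.lf (nat_lit 0) (nat_lit 10180567446) (nat_lit 152) (nat_lit 5622862004) (nat_lit 0) (nat_lit 3160965295) (nat_lit 16) (nat_lit 5) (nat_lit 18) (nat_lit 4) (nat_lit 16) (nat_lit 4) (nat_lit 342) (nat_lit 227) (nat_lit 211)) (XT.lf (nat_lit 0) (nat_lit 13321300716) (nat_lit 152) (nat_lit 142418565) (nat_lit 0) (nat_lit 5963593299) (nat_lit 16) (nat_lit 5) (nat_lit 18) (nat_lit 4) (nat_lit 16) (nat_lit 4) (nat_lit 343) (nat_lit 227) (nat_lit 210))) (XT.nd (nat_lit 78) (nat_lit 76) (nat_lit 0) (XT.lf (nat_lit 0) (nat_lit 5519448650) (nat_lit 152) (nat_lit 11035372284) (nat_lit 152) (nat_lit 3349407327) (nat_lit 14) (nat_lit 4) (nat_lit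 16) (nat_lit 5) (nat_lit 16) (nat_lit 4) (nat_lit 344) (nat_lit 227) (nat_lit 209)) (XT.nd (nat_lit 78) (nat_lit 76) (nat_lit 0) (XT.lf (nat_lit 0) (nat_lit 11264286631) (nat_lit 152) (nat_lit 8568730780) (nat_lit 152) (nat_lit 564069182) (nat_lit 14) (nat_lit 4) (nat_lit 16) (nat_lit 5) (nat_lit 16) (nat_lit 4) (nat_lit 345) (nat_lit 227) (nat_lit 208)) (XT.lf (nat_lit 0) (nat_lit 2207073128) (nat_lit 228) (nat_lit 3833717361) (nat_lit 76) (nat_lit 14864920489) (nat_lit 13) (nat_lit 5) (nat_lit 16) (nat_lit 5) (nat_lit 14) (nat_lit 4) (nat_lit 346) (nat_lit 227) (nat_lit 207))))) (XT.nd (nat_lit 234) (nat_lit 152) (nat_lit 0) (XT.nd (nat_lit 78) (nat_lit 0) (nat_lit 0) (XT.lf (nat_lit 0) (nat_lit 1563533918) (nat_lit 76) (nat_lit 3450265037) (nat_lit 152) (nat_lit 16416773757) (nat_lit 12) (nat_lit 5) (nat_lit 13) (nat_lit 5) (nat_lit 14) (nat_lit 4) (nat_lit 347) (nat_lit 227) (nat_lit 206))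 (XT.nd (nat_lit 78) (nat_lit 0) (nat_lit 0) (XT.lf (nat_lit 0) (nat_lit 7116401531) (nat_lit 76) (nat_lit 776471407) (nat_lit 152) (nat_lit 14078720988) (nat_lit 12) (nat_lit 5) (nat_lit 13) (nat_lit 5) (nat_lit 14) (nat_lit 4) (nat_lit 348) (nat_lit 227) (nat_lit 205)) (XT.lf (nat_lit 0) (nat_lit 10827914280) (nat_lit 152) (nat_lit 9795624887) (nat_lit 0) (nat_lit 1906275084) (nat_lit 12) (nat_lit 5) (nat_lit 14) (nat_lit 4) (nat_lit 12) (nat_lit 4) (nat_lit 349) (nat_lit 227) (nat_lit 204)))) (XT.nd (nat_lit 78) (nat_lit 152) (nat_lit 0) (XT.lf (nat_lit 0) (nat_lit 13810719797) (nat_lit 152) (nat_lit 4673147507) (nat_lit 0) (nat_lit 4622177181) (nat_lit 12) (nat_lit 5) (nat_lit 14) (nat_lit 4) (nat_lit 12) (nat_lit 4) (nat_lit 350) (nat_lit 227) (nat_lit 203)) (XT.nd (nat_lit 78) (nat_lit 0) (nat_lit 0) (XT.lf (nat_lit 0) (nat_lit 534611817) (nat_lit 152) (nat_lit 16306959105) (nat_lit 152)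 (nat_lit 6859286956) (nat_lit 10) (nat_lit 4) (nat_lit 12) (nat_lit 5) (nat_lit 12) (nat_lit 4) (nat_lit 351) (nat_lit 227) (nat_lit 202)) (XT.lf (nat_lit 0) (nat_lit 5916347074) (nat_lit 152) (nat_lit 14048218908) (nat_lit 152) (nat_lit 4348964688) (nat_lit 10) (nat_lit 4) (nat_lit 12) (nat_lit 5) (nat_lit 12) (nat_lit 4) (nat_lit 352) (nat_lit 227) (nat_lit 201)))))) (XT.nd (nat_lit 390) (nat_lit 76) (nat_lit 0) (XT.nd (nat_lit 156) (nat_lit 76) (nat_lit 0) (XT.nd (nat_lit 78) (nat_lit 76) (nat_lit 0) (XT.lf (nat_lit 0) (nat_lit 11383755952) (nat_lit 152) (nat_lit 11752862682) (nat_lit 152) (nat_lit 1809354024) (nat_lit 10) (nat_lit 4) (nat_lit 12) (nat_lit 5) (nat_lit 12) (nat_lit 4) (nat_lit 353) (nat_lit 227) (nat_lit 200)) (XT.lf (nat_lit 0) (nat_lit 746899348) (nat_lit 228) (nat_lit 8664443211) (nat_lit 76) (nat_lit 16187174230) (nat_lit 9) (nat_lit 5) (nat_lit 12) (nat_lit 5) (nat_lit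 10) (nat_lit 4) (nat_lit 354) (nat_lit 227) (nat_lit 199))) (XT.nd (nat_lit 78) (nat_lit 76) (nat_lit 0) (XT.lf (nat_lit 0) (nat_lit 3300941124) (nat_lit 228) (nat_lit 3709971639) (nat_lit 76) (nat_lit 19260508838) (nat_lit 9) (nat_lit 5) (nat_lit 12) (nat_lit 5) (nat_lit 10) (nat_lit 4) (nat_lit 355) (nat_lit 227) (nat_lit 198)) (XT.nd (nat_lit 78) (nat_lit 0) (nat_lit 0) (XT.lf (nat_lit 0) (nat_lit 1349248471) (nat_lit 76) (nat_lit 4554031334) (nat_lit 152) (nat_lit 21062127950) (nat_lit 8) (nat_lit 5) (nat_lit 9) (nat_lit 5) (nat_lit 10) (nat_lit 4) (nat_lit 356) (nat_lit 227) (nat_lit 197)) (XT.lf (nat_lit 0) (nat_lit 6566770037) (nat_lit 76) (nat_lit 2013622315) (nat_lit 152) (nat_lit 19099963201) (nat_lit 8) (nat_lit 5) (nat_lit 9) (nat_lit 5) (nat_lit 10) (nat_lit 4) (nat_lit 357) (nat_lit 227) (nat_lit 196))))) (XT.nd (nat_lit 234) (nat_lit 76) (nat_lit 0) (XT.nd (nat_lit 78) (nat_lit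 0) (nat_lit 0) (XT.lf (nat_lit 0) (nat_lit 11303773650) (nat_lit 152) (nat_lit 16550192459) (nat_lit 0) (nat_lit 563848928) (nat_lit 8) (nat_lit 5) (nat_lit 10) (nat_lit 4) (nat_lit 8) (nat_lit 4) (nat_lit 358) (nat_lit 227) (nat_lit 195)) (XT.nd (nat_lit 78) (nat_lit 0) (nat_lit 0) (XT.lf (nat_lit 0) (nat_lit 14090112638) (nat_lit 152) (nat_lit 11936301967) (nat_lit 0) (nat_lit 3151586706) (nat_lit 8) (nat_lit 5) (nat_lit 10) (nat_lit 4) (nat_lit 8) (nat_lit 4) (nat_lit 359) (nat_lit 227) (nat_lit 194)) (XT.lf (nat_lit 0) (nat_lit 16922487812) (nat_lit 152) (nat_lit 7248526317) (nat_lit 0) (nat_lit 5791145171) (nat_lit 8) (nat_lit 5) (nat_lit 10) (nat_lit 4) (nat_lit 8) (nat_lit 4) (nat_lit 360) (nat_lit 227) (nat_lit 193)))) (XT.nd (nat_lit 78) (nat_lit 76) (nat_lit 0) (XT.lf (nat_lit 0) (nat_lit 19803374064) (nat_lit 152) (nat_lit 2482769394) (nat_lit 0) (nat_lit 8484830734) (nat_lit 8) (nat_lit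 5) (nat_lit 10) (nat_lit 4) (nat_lit 8) (nat_lit 4) (nat_lit 361) (nat_lit 227) (nat_lit 192)) (XT.nd (nat_lit 78) (nat_lit 0) (nat_lit 0) (XT.lf (nat_lit 0) (nat_lit 2412203840) (nat_lit 76) (nat_lit 20346272409) (nat_lit 76) (nat_lit 8845980839) (nat_lit 7) (nat_lit 4) (nat_lit 8) (nat_lit 5) (nat_lit 8) (nat_lit 4) (nat_lit 362) (nat_lit 227) (nat_lit 191)) (XT.lf (nat_lit 0) (nat_lit 7444689774) (nat_lit 76) (nat_lit 18347666640) (nat_lit 76) (nat_lit 6670920467) (nat_lit 7) (nat_lit 4) (nat_lit 8) (nat_lit 5) (nat_lit 8) (nat_lit 4) (nat_lit 363) (nat_lit 227) (nat_lit 190))))))) (XT.nd (nat_lit 858) (nat_lit 76) (nat_lit 0) (XT.nd (nat_lit 390) (nat_lit 76) (nat_lit 0) (XT.nd (nat_lit 156) (nat_lit 76) (nat_lit 0) (XT.nd (nat_lit 78) (nat_lit 0) (nat_lit 0) (XT.lf (nat_lit 0) (nat_lit 12569673746) (nat_lit 76) (nat_lit 16313650897) (nat_lit 76) (nat_lit 4465589575) (nat_lit 7) (nat_lit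 4) (nat_lit 8) (nat_lit 5) (nat_lit 8) (nat_lit 4) (nat_lit 364) (nat_lit 227) (nat_lit 189)) (XT.lf (nat_lit 0) (nat_lit 17791633898) (nat_lit 76) (nat_lit 14242447885) (nat_lit 76) (nat_lit 2228061177) (nat_lit 7) (nat_lit 4) (nat_lit 8) (nat_lit 5) (nat_lit 8) (nat_lit 4) (nat_lit 365) (nat_lit 227) (nat_lit 188))) (XT.nd (nat_lit 78) (nat_lit 0) (nat_lit 0) (XT.lf (nat_lit 0) (nat_lit 42768669) (nat_lit 152) (nat_lit 12089047267) (nat_lit 76) (nat_lit 23071932557) (nat_lit 6) (nat_lit 5) (nat_lit 8) (nat_lit 5) (nat_lit 7) (nat_lit 4) (nat_lit 366) (nat_lit 227) (nat_lit 187)) (XT.nd (nat_lit 78) (nat_lit 0) (nat_lit 0) (XT.lf (nat_lit 0) (nat_lit 2305553435) (nat_lit 152) (nat_lit 7652371821) (nat_lit 76) (nat_lit 26215987968) (nat_lit 6) (nat_lit 5) (nat_lit 8) (nat_lit 5) (nat_lit 7) (nat_lit 4) (nat_lit 367) (nat_lit 227) (nat_lit 186)) (XT.lf (nat_lit 0) (nat_lit 4605747810) (nat_lit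 152) (nat_lit 3135188530) (nat_lit 76) (nat_lit 29433191054) (nat_lit 6) (nat_lit 5) (nat_lit 8) (nat_lit 5) (nat_lit 7) (nat_lit 4) (nat_lit 368) (nat_lit 227) (nat_lit 185))))) (XT.nd (nat_lit 234) (nat_lit 0) (nat_lit 0) (XT.nd (nat_lit 78) (nat_lit 0) (nat_lit 0) (XT.lf (nat_lit 0) (nat_lit 1495634881) (nat_lit 76) (nat_lit 5464103749) (nat_lit 152) (nat_lit 31245095039) (nat_lit 5) (nat_lit 5) (nat_lit 6) (nat_lit 5) (nat_lit 7) (nat_lit 4) (nat_lit 369) (nat_lit 227) (nat_lit 184)) (XT.nd (nat_lit 78) (nat_lit 0) (nat_lit 0) (XT.lf (nat_lit 0) (nat_lit 6279091280) (nat_lit 76) (nat_lit 3107706531) (nat_lit 152) (nat_lit 29879618402) (nat_lit 5) (nat_lit 5) (nat_lit 6) (nat_lit 5) (nat_lit 7) (nat_lit 4) (nat_lit 370) (nat_lit 227) (nat_lit 183)) (XT.lf (nat_lit 0) (nat_lit 11156963986) (nat_lit 76) (nat_lit 701344958) (nat_lit 152) (nat_lit 28502415795) (nat_lit 5) (nat_lit 5) (nat_lit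 6) (nat_lit 5) (nat_lit 7) (nat_lit 4) (nat_lit 371) (nat_lit 227) (nat_lit 182)))) (XT.nd (nat_lit 78) (nat_lit 0) (nat_lit 0) (XT.lf (nat_lit 0) (nat_lit 14393321763) (nat_lit 152) (nat_lit 25372090383) (nat_lit 0) (nat_lit 1722796587) (nat_lit 5) (nat_lit 5) (nat_lit 7) (nat_lit 4) (nat_lit 5) (nat_lit 4) (nat_lit 372) (nat_lit 227) (nat_lit 181)) (XT.nd (nat_lit 78) (nat_lit 0) (nat_lit 0) (XT.lf (nat_lit 0) (nat_lit 16984409313) (nat_lit 152) (nat_lit 21479323745) (nat_lit 0) (nat_lit 4186409577) (nat_lit 5) (nat_lit 5) (nat_lit 7) (nat_lit 4) (nat_lit 5) (nat_lit 4) (nat_lit 373) (nat_lit 227) (nat_lit 180)) (XT.lf (nat_lit 0) (nat_lit 19627093894) (nat_lit 152) (nat_lit 17515317637) (nat_lit 0) (nat_lit 6705332450) (nat_lit 5) (nat_lit 5) (nat_lit 7) (nat_lit 4) (nat_lit 5) (nat_lit 4) (nat_lit 374) (nat_lit 227) (nat_lit 179)))))) (XT.nd (nat_lit 468) (nat_lit 0) (nat_lit 0) (XT.nd (nat_lit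 234) (nat_lit 76) (nat_lit 0) (XT.nd (nat_lit 78) (nat_lit 0) (nat_lit 0) (XT.lf (nat_lit 0) (nat_lit 22323684648) (nat_lit 152) (nat_lit 13476608364) (nat_lit 0) (nat_lit 9281766205) (nat_lit 5) (nat_lit 5) (nat_lit 7) (nat_lit 4) (nat_lit 5) (nat_lit 4) (nat_lit 375) (nat_lit 227) (nat_lit 178)) (XT.nd (nat_lit 78) (nat_lit 0) (nat_lit 0) (XT.lf (nat_lit 0) (nat_lit 25076537819) (nat_lit 152) (nat_lit 9359666957) (nat_lit 0) (nat_lit 11917962097) (nat_lit 5) (nat_lit 5) (nat_lit 7) (nat_lit 4) (nat_lit 5) (nat_lit 4) (nat_lit 376) (nat_lit 227) (nat_lit 177)) (XT.lf (nat_lit 0) (nat_lit 27888058813) (nat_lit 152) (nat_lit 5160896088) (nat_lit 0) (nat_lit 14616223596) (nat_lit 5) (nat_lit 5) (nat_lit 7) (nat_lit 4) (nat_lit 5) (nat_lit 4) (nat_lit 377) (nat_lit 227) (nat_lit 176)))) (XT.nd (nat_lit 78) (nat_lit 76) (nat_lit 0) (XT.lf (nat_lit 0) (nat_lit 30760704300) (nat_lit 152) (nat_lit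 876626929) (nat_lit 0) (nat_lit 17378908407) (nat_lit 5) (nat_lit 5) (nat_lit 7) (nat_lit 4) (nat_lit 5) (nat_lit 4) (nat_lit 378) (nat_lit 227) (nat_lit 175)) (XT.nd (nat_lit 78) (nat_lit 0) (nat_lit 0) (XT.lf (nat_lit 0) (nat_lit 3566478905) (nat_lit 76) (nat_lit 30164788628) (nat_lit 76) (nat_lit 16676234799) (nat_lit 4) (nat_lit 4) (nat_lit 5) (nat_lit 5) (nat_lit 5) (nat_lit 4) (nat_lit 379) (nat_lit 227) (nat_lit 174)) (XT.lf (nat_lit 0) (nat_lit 8121946819) (nat_lit 76) (nat_lit 28655590967) (nat_lit 76) (nat_lit 15063388656) (nat_lit 4) (nat_lit 4) (nat_lit 5) (nat_lit 5) (nat_lit 5) (nat_lit 4) (nat_lit 380) (nat_lit 227) (nat_lit 173))))) (XT.nd (nat_lit 234) (nat_lit 0) (nat_lit 0) (XT.nd (nat_lit 78) (nat_lit 0) (nat_lit 0) (XT.lf (nat_lit 0) (nat_lit 12776310723) (nat_lit 76) (nat_lit 27117271744) (nat_lit 76) (nat_lit 13424439838) (nat_lit 4) (nat_lit 4) (nat_lit 5) (nat_lit 5)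 (nat_lit 5) (nat_lit 4) (nat_lit 381) (nat_lit 227) (nat_lit 172)) (XT.nd (nat_lit 78) (nat_lit 0) (nat_lit 0) (XT.lf (nat_lit 0) (nat_lit 17533637537) (nat_lit 76) (nat_lit 25548486795) (nat_lit 76) (nat_lit 11757956254) (nat_lit 4) (nat_lit 4) (nat_lit 5) (nat_lit 5) (nat_lit 5) (nat_lit 4) (nat_lit 382) (nat_lit 227) (nat_lit 171)) (XT.lf (nat_lit 0) (nat_lit 22398084149) (nat_lit 76) (nat_lit 23947865338) (nat_lit 76) (nat_lit 10062481753) (nat_lit 4) (nat_lit 4) (nat_lit 5) (nat_lit 5) (nat_lit 5) (nat_lit 4) (nat_lit 383) (nat_lit 227) (nat_lit 170)))) (XT.nd (nat_lit 78) (nat_lit 0) (nat_lit 0) (XT.lf (nat_lit 0) (nat_lit 27373901045) (nat_lit 76) (nat_lit 22314008772) (nat_lit 76) (nat_lit 8336534853) (nat_lit 4) (nat_lit 4) (nat_lit 5) (nat_lit 5) (nat_lit 5) (nat_lit 4) (nat_lit 384) (nat_lit 227) (nat_lit 169)) (XT.nd (nat_lit 78) (nat_lit 0) (nat_lit 0) (XT.lf (nat_lit 0) (nat_lit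 32465436028) (nat_lit 76) (nat_lit 20645489454) (nat_lit 76) (nat_lit 6578607444) (nat_lit 4) (nat_lit 4) (nat_lit 5) (nat_lit 5) (nat_lit 5) (nat_lit 4) (nat_lit 385) (nat_lit 227) (nat_lit 168)) (XT.lf (nat_lit 0) (nat_lit 37677138010) (nat_lit 76) (nat_lit 18940849457) (nat_lit 76) (nat_lit 4787163474) (nat_lit 4) (nat_lit 4) (nat_lit 5) (nat_lit 5) (nat_lit 5) (nat_lit 4) (nat_lit 386) (nat_lit 227) (nat_lit 167))))))))
noncomputable def xc34 : XT := (XT.nd (nat_lit 36192) (nat_lit 0) (nat_lit 608) (XT.nd (nat_lit 858) (nat_lit 0) (nat_lit 0) (XT.nd (nat_lit 390) (nat_lit 76) (nat_lit 0) (XT.nd (nat_lit 156) (nat_lit 76) (nat_lit 0) (XT.nd (nat_lit 78) (nat_lit 0) (nat_lit 0) (XT.lf (nat_lit 0) (nat_lit 43013560907) (nat_lit 76) (nat_lit 17198599287) (nat_lit 76) (nat_lit 2960637603) (nat_lit 4) (nat_lit 4) (nat_lit 5) (nat_lit 5) (nat_lit 5) (nat_lit 4) (nat_lit 387) (nat_lit 227) (nat_lit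 166)) (XT.lf (nat_lit 0) (nat_lit 48479367612) (nat_lit 76) (nat_lit 15417216591) (nat_lit 76) (nat_lit 1097433838) (nat_lit 4) (nat_lit 4) (nat_lit 5) (nat_lit 5) (nat_lit 5) (nat_lit 4) (nat_lit 388) (nat_lit 227) (nat_lit 165))) (XT.nd (nat_lit 78) (nat_lit 0) (nat_lit 0) (XT.lf (nat_lit 0) (nat_lit 788385446) (nat_lit 152) (nat_lit 12798798227) (nat_lit 76) (nat_lit 53282987479) (nat_lit 3) (nat_lit 5) (nat_lit 5) (nat_lit 5) (nat_lit 4) (nat_lit 4) (nat_lit 389) (nat_lit 227) (nat_lit 164)) (XT.nd (nat_lit 78) (nat_lit 0) (nat_lit 0) (XT.lf (nat_lit 0) (nat_lit 2691977385) (nat_lit 152) (nat_lit 9011630796) (nat_lit 76) (nat_lit 57099192385) (nat_lit 3) (nat_lit 5) (nat_lit 5) (nat_lit 5) (nat_lit 4) (nat_lit 4) (nat_lit 390) (nat_lit 227) (nat_lit 163)) (XT.lf (nat_lit 0) (nat_lit 4636420197) (nat_lit 152) (nat_lit 5139289755) (nat_lit 76) (nat_lit 61018201512) (nat_lit 3) (nat_lit 5)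 (nat_lit 5) (nat_lit 5) (nat_lit 4) (nat_lit 4) (nat_lit 391) (nat_lit 227) (nat_lit 162))))) (XT.nd (nat_lit 234) (nat_lit 0) (nat_lit 0) (XT.nd (nat_lit 78) (nat_lit 76) (nat_lit 0) (XT.lf (nat_lit 0) (nat_lit 6623412911) (nat_lit 152) (nat_lit 1178391506) (nat_lit 76) (nat_lit 65043439235) (nat_lit 3) (nat_lit 5) (nat_lit 5) (nat_lit 5) (nat_lit 4) (nat_lit 4) (nat_lit 392) (nat_lit 227) (nat_lit 161)) (XT.nd (nat_lit 78) (nat_lit 0) (nat_lit 0) (XT.lf (nat_lit 0) (nat_lit 2931733612) (nat_lit 76) (nat_lit 5751139738) (nat_lit 152) (nat_lit 66274870758) (nat_lit 2) (nat_lit 5) (nat_lit 3) (nat_lit 5) (nat_lit 4) (nat_lit 4) (nat_lit 393) (nat_lit 227) (nat_lit 160)) (XT.lf (nat_lit 0) (nat_lit 7162772426) (nat_lit 76) (nat_lit 3638112092) (nat_lit 152) (nat_lit 66332845684) (nat_lit 2) (nat_lit 5) (nat_lit 3) (nat_lit 5) (nat_lit 4) (nat_lit 4) (nat_lit 394) (nat_lit 227) (nat_lit 159))))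 (XT.nd (nat_lit 78) (nat_lit 0) (nat_lit 0) (XT.lf (nat_lit 0) (nat_lit 11494969658) (nat_lit 76) (nat_lit 1472774589) (nat_lit 152) (nat_lit 66407705619) (nat_lit 2) (nat_lit 5) (nat_lit 3) (nat_lit 5) (nat_lit 4) (nat_lit 4) (nat_lit 395) (nat_lit 227) (nat_lit 158)) (XT.nd (nat_lit 78) (nat_lit 0) (nat_lit 0) (XT.lf (nat_lit 0) (nat_lit 15192524268) (nat_lit 152) (nat_lit 65759929523) (nat_lit 0) (nat_lit 732192742) (nat_lit 2) (nat_lit 5) (nat_lit 4) (nat_lit 4) (nat_lit 2) (nat_lit 4) (nat_lit 396) (nat_lit 227) (nat_lit 157)) (XT.lf (nat_lit 0) (nat_lit 17484680808) (nat_lit 152) (nat_lit 63614965053) (nat_lit 0) (nat_lit 2963466722) (nat_lit 2) (nat_lit 5) (nat_lit 4) (nat_lit 4) (nat_lit 2) (nat_lit 4) (nat_lit 397) (nat_lit 227) (nat_lit 156)))))) (XT.nd (nat_lit 34866) (nat_lit 0) (nat_lit 1748) (XT.nd (nat_lit 156) (nat_lit 0) (nat_lit 0) (XT.nd (nat_lit 78) (nat_lit 0) (nat_lit 0)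 (XT.lf (nat_lit 0) (nat_lit 19832059510) (nat_lit 152) (nat_lit 61429555347) (nat_lit 0) (nat_lit 5251736143) (nat_lit 2) (nat_lit 5) (nat_lit 4) (nat_lit 4) (nat_lit 2) (nat_lit 4) (nat_lit 398) (nat_lit 227) (nat_lit 155)) (XT.lf (nat_lit 0) (nat_lit 22236711482) (nat_lit 152) (nat_lit 59201790826) (nat_lit 0) (nat_lit 7599000464) (nat_lit 2) (nat_lit 5) (nat_lit 4) (nat_lit 4) (nat_lit 2) (nat_lit 4) (nat_lit 399) (nat_lit 227) (nat_lit 154))) (XT.nd (nat_lit 78) (nat_lit 0) (nat_lit 0) (XT.lf (nat_lit 0) (nat_lit 24700737877) (nat_lit 152) (nat_lit 56929724897) (nat_lit 0) (nat_lit 10007310692) (nat_lit 2) (nat_lit 5) (nat_lit 4) (nat_lit 4) (nat_lit 2) (nat_lit 4) (nat_lit 400) (nat_lit 227) (nat_lit 153)) (XT.nd (nat_lit 78) (nat_lit 0) (nat_lit 0) (XT.lf (nat_lit 0) (nat_lit 27226291727) (nat_lit 152) (nat_lit 54611372261) (nat_lit 0) (nat_lit 12478771177) (nat_lit 2) (nat_lit 5) (nat_lit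 4) (nat_lit 4) (nat_lit 2) (nat_lit 4) (nat_lit 401) (nat_lit 227) (nat_lit 152)) (XT.lf (nat_lit 0) (nat_lit 29815579828) (nat_lit 152) (nat_lit 52244707174) (nat_lit 0) (nat_lit 15015541447) (nat_lit 2) (nat_lit 5) (nat_lit 4) (nat_lit 4) (nat_lit 2) (nat_lit 4) (nat_lit 402) (nat_lit 227) (nat_lit 151))))) (XT.nd (nat_lit 234) (nat_lit 380) (nat_lit 0) (XT.nd (nat_lit 78) (nat_lit 228) (nat_lit 0) (XT.lf (nat_lit 0) (nat_lit 4903481574) (nat_lit 228) (nat_lit 737657027) (nat_lit 228) (nat_lit 737657027) (nat_lit 33) (nat_lit 4) (nat_lit 36) (nat_lit 5) (nat_lit 36) (nat_lit 4) (nat_lit 324) (nat_lit 228) (nat_lit 228)) (XT.nd (nat_lit 78) (nat_lit 0) (nat_lit 0) (XT.lf (nat_lit 0) (nat_lit 1867535958) (nat_lit 228) (nat_lit 9890461136) (nat_lit 0) (nat_lit 1256880238) (nat_lit 30) (nat_lit 5) (nat_lit 33) (nat_lit 4) (nat_lit 30) (nat_lit 4) (nat_lit 325) (nat_lit 228) (nat_lit 227)) (XT.lf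 (nat_lit 0) (nat_lit 5247826079) (nat_lit 228) (nat_lit 3988434237) (nat_lit 0) (nat_lit 4044300729) (nat_lit 30) (nat_lit 5) (nat_lit 33) (nat_lit 4) (nat_lit 30) (nat_lit 4) (nat_lit 326) (nat_lit 228) (nat_lit 226)))) (XT.nd (nat_lit 78) (nat_lit 228) (nat_lit 0) (XT.lf (nat_lit 0) (nat_lit 2011325177) (nat_lit 152) (nat_lit 6661911802) (nat_lit 152) (nat_lit 4882784868) (nat_lit 28) (nat_lit 4) (nat_lit 30) (nat_lit 5) (nat_lit 30) (nat_lit 4) (nat_lit 327) (nat_lit 228) (nat_lit 225)) (XT.nd (nat_lit 78) (nat_lit 228) (nat_lit 0) (XT.lf (nat_lit 0) (nat_lit 8155422393) (nat_lit 152) (nat_lit 4011715094) (nat_lit 152) (nat_lit 1673751672) (nat_lit 28) (nat_lit 4) (nat_lit 30) (nat_lit 5) (nat_lit 30) (nat_lit 4) (nat_lit 328) (nat_lit 228) (nat_lit 224)) (XT.lf (nat_lit 0) (nat_lit 222642152) (nat_lit 152) (nat_lit 1306010691) (nat_lit 228) (nat_lit 12607418941) (nat_lit 25) (nat_lit 5)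 (nat_lit 27) (nat_lit 5) (nat_lit 28) (nat_lit 4) (nat_lit 329) (nat_lit 228) (nat_lit 223))))))) (XT.nd (nat_lit 858) (nat_lit 456) (nat_lit 0) (XT.nd (nat_lit 390) (nat_lit 456) (nat_lit 0) (XT.nd (nat_lit 156) (nat_lit 228) (nat_lit 0) (XT.nd (nat_lit 78) (nat_lit 0) (nat_lit 0) (XT.lf (nat_lit 0) (nat_lit 4793127828) (nat_lit 228) (nat_lit 8161511631) (nat_lit 0) (nat_lit 1485088888) (nat_lit 25) (nat_lit 5) (nat_lit 28) (nat_lit 4) (nat_lit 25) (nat_lit 4) (nat_lit 330) (nat_lit 228) (nat_lit 222)) (XT.lf (nat_lit 0) (nat_lit 8098005341) (nat_lit 228) (nat_lit 2362869535) (nat_lit 0) (nat_lit 4293447419) (nat_lit 25) (nat_lit 5) (nat_lit 28) (nat_lit 4) (nat_lit 25) (nat_lit 4) (nat_lit 331) (nat_lit 228) (nat_lit 221))) (XT.nd (nat_lit 78) (nat_lit 76) (nat_lit 0) (XT.lf (nat_lit 0) (nat_lit 3569776807) (nat_lit 152) (nat_lit 7898157037) (nat_lit 152) (nat_lit 3611541850) (nat_lit 23)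 (nat_lit 4) (nat_lit 25) (nat_lit 5) (nat_lit 25) (nat_lit 4) (nat_lit 332) (nat_lit 228) (nat_lit 220)) (XT.nd (nat_lit 78) (nat_lit 76) (nat_lit 0) (XT.lf (nat_lit 0) (nat_lit 9620299479) (nat_lit 152) (nat_lit 5275060039) (nat_lit 152) (nat_lit 520428091) (nat_lit 23) (nat_lit 4) (nat_lit 25) (nat_lit 5) (nat_lit 25) (nat_lit 4) (nat_lit 333) (nat_lit 228) (nat_lit 219)) (XT.lf (nat_lit 0) (nat_lit 2545210269) (nat_lit 228) (nat_lit 42240305) (nat_lit 76) (nat_lit 13176047704) (nat_lit 22) (nat_lit 5) (nat_lit 25) (nat_lit 5) (nat_lit 23) (nat_lit 4) (nat_lit 334) (nat_lit 228) (nat_lit 218))))) (XT.nd (nat_lit 234) (nat_lit 152) (nat_lit 0) (XT.nd (nat_lit 78) (nat_lit 152) (nat_lit 0) (XT.lf (nat_lit 0) (nat_lit 5686637388) (nat_lit 228) (nat_lit 10234070120) (nat_lit 0) (nat_lit 201037545) (nat_lit 20) (nat_lit 5) (nat_lit 23) (nat_lit 4) (nat_lit 20) (nat_lit 4) (nat_lit 335) (nat_lit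 228) (nat_lit 217)) (XT.nd (nat_lit 78) (nat_lit 152) (nat_lit 0) (XT.lf (nat_lit 0) (nat_lit 8884558685) (nat_lit 228) (nat_lit 4624266193) (nat_lit 0) (nat_lit 2983132011) (nat_lit 20) (nat_lit 5) (nat_lit 23) (nat_lit 4) (nat_lit 20) (nat_lit 4) (nat_lit 336) (nat_lit 228) (nat_lit 216)) (XT.lf (nat_lit 0) (nat_lit 1073546900) (nat_lit 152) (nat_lit 11053250772) (nat_lit 152) (nat_lit 4748108729) (nat_lit 18) (nat_lit 4) (nat_lit 20) (nat_lit 5) (nat_lit 20) (nat_lit 4) (nat_lit 337) (nat_lit 228) (nat_lit 215)))) (XT.nd (nat_lit 78) (nat_lit 152) (nat_lit 0) (XT.lf (nat_lit 0) (nat_lit 6936846080) (nat_lit 152) (nat_lit 8515054716) (nat_lit 152) (nat_lit 1817956003) (nat_lit 18) (nat_lit 4) (nat_lit 20) (nat_lit 5) (nat_lit 20) (nat_lit 4) (nat_lit 338) (nat_lit 228) (nat_lit 214)) (XT.nd (nat_lit 78) (nat_lit 76) (nat_lit 0) (XT.lf (nat_lit 0) (nat_lit 1116699763) (nat_lit 228) (nat_lit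 4810738648) (nat_lit 76) (nat_lit 11750746413) (nat_lit 17) (nat_lit 5) (nat_lit 20) (nat_lit 5) (nat_lit 18) (nat_lit 4) (nat_lit 339) (nat_lit 228) (nat_lit 213)) (XT.lf (nat_lit 0) (nat_lit 778677336) (nat_lit 76) (nat_lit 3273427716) (nat_lit 152) (nat_lit 14047713677) (nat_lit 16) (nat_lit 5) (nat_lit 17) (nat_lit 5) (nat_lit 18) (nat_lit 4) (nat_lit 340) (nat_lit 228) (nat_lit 212)))))) (XT.nd (nat_lit 468) (nat_lit 228) (nat_lit 0) (XT.nd (nat_lit 234) (nat_lit 228) (nat_lit 0) (XT.nd (nat_lit 78) (nat_lit 0) (nat_lit 0) (XT.lf (nat_lit 0) (nat_lit 6539610171) (nat_lit 76) (nat_lit 527090306) (nat_lit 152) (nat_lit 11467738691) (nat_lit 16) (nat_lit 5) (nat_lit 17) (nat_lit 5) (nat_lit 18) (nat_lit 4) (nat_lit 341) (nat_lit 228) (nat_lit 211)) (XT.nd (nat_lit 78) (nat_lit 0) (nat_lit 0) (XT.lf (nat_lit 0) (nat_lit 10137732403) (nat_lit 152) (nat_lit 6624266638) (nat_lit 0) (nat_lit 2221188497)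 (nat_lit 16) (nat_lit 5) (nat_lit 18) (nat_lit 4) (nat_lit 16) (nat_lit 4) (nat_lit 342) (nat_lit 228) (nat_lit 210)) (XT.lf (nat_lit 0) (nat_lit 13251622635) (nat_lit 152) (nat_lit 1188499972) (nat_lit 0) (nat_lit 5006821189) (nat_lit 16) (nat_lit 5) (nat_lit 18) (nat_lit 4) (nat_lit 16) (nat_lit 4) (nat_lit 343) (nat_lit 228) (nat_lit 209)))) (XT.nd (nat_lit 78) (nat_lit 76) (nat_lit 0) (XT.lf (nat_lit 0) (nat_lit 4408309407) (nat_lit 152) (nat_lit 12040091295) (nat_lit 152) (nat_lit 3476593208) (nat_lit 14) (nat_lit 4) (nat_lit 16) (nat_lit 5) (nat_lit 16) (nat_lit 4) (nat_lit 344) (nat_lit 228) (nat_lit 208)) (XT.nd (nat_lit 78) (nat_lit 76) (nat_lit 0) (XT.lf (nat_lit 0) (nat_lit 10110197130) (nat_lit 152) (nat_lit 9590685047) (nat_lit 152) (nat_lit 717772746) (nat_lit 14) (nat_lit 4) (nat_lit 16) (nat_lit 5) (nat_lit 16) (nat_lit 4) (nat_lit 345) (nat_lit 228) (nat_lit 207)) (XT.lf (nat_lit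 0) (nat_lit 2031125936) (nat_lit 228) (nat_lit 5050128799) (nat_lit 76) (nat_lit 13846855622) (nat_lit 13) (nat_lit 5) (nat_lit 16) (nat_lit 5) (nat_lit 14) (nat_lit 4) (nat_lit 346) (nat_lit 228) (nat_lit 206))))) (XT.nd (nat_lit 234) (nat_lit 152) (nat_lit 0) (XT.nd (nat_lit 78) (nat_lit 0) (nat_lit 0) (XT.lf (nat_lit 0) (nat_lit 281096437) (nat_lit 76) (nat_lit 4519920045) (nat_lit 152) (nat_lit 16653089250) (nat_lit 12) (nat_lit 5) (nat_lit 13) (nat_lit 5) (nat_lit 14) (nat_lit 4) (nat_lit 347) (nat_lit 228) (nat_lit 205)) (XT.nd (nat_lit 78) (nat_lit 0) (nat_lit 0) (XT.lf (nat_lit 0) (nat_lit 5793364952) (nat_lit 76) (nat_lit 1862541359) (nat_lit 152) (nat_lit 14339973907) (nat_lit 12) (nat_lit 5) (nat_lit 13) (nat_lit 5) (nat_lit 14) (nat_lit 4) (nat_lit 348) (nat_lit 228) (nat_lit 204)) (XT.lf (nat_lit 0) (nat_lit 10556874728) (nat_lit 152) (nat_lit 11172502527) (nat_lit 0) (nat_lit 825772415)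 (nat_lit 12) (nat_lit 5) (nat_lit 14) (nat_lit 4) (nat_lit 12) (nat_lit 4) (nat_lit 349) (nat_lit 228) (nat_lit 203)))) (XT.nd (nat_lit 78) (nat_lit 152) (nat_lit 0) (XT.lf (nat_lit 0) (nat_lit 13516735628) (nat_lit 152) (nat_lit 6088854988) (nat_lit 0) (nat_lit 3526503781) (nat_lit 12) (nat_lit 5) (nat_lit 14) (nat_lit 4) (nat_lit 12) (nat_lit 4) (nat_lit 350) (nat_lit 228) (nat_lit 202)) (XT.nd (nat_lit 78) (nat_lit 152) (nat_lit 0) (XT.lf (nat_lit 0) (nat_lit 16520171410) (nat_lit 152) (nat_lit 929226742) (nat_lit 0) (nat_lit 6278357492) (nat_lit 12) (nat_lit 5) (nat_lit 14) (nat_lit 4) (nat_lit 12) (nat_lit 4) (nat_lit 351) (nat_lit 228) (nat_lit 201)) (XT.lf (nat_lit 0) (nat_lit 4396685801) (nat_lit 152) (nat_lit 15215384268) (nat_lit 152) (nat_lit 4729315912) (nat_lit 10) (nat_lit 4) (nat_lit 12) (nat_lit 5) (nat_lit 12) (nat_lit 4) (nat_lit 352) (nat_lit 228) (nat_lit 200))))))))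
noncomputable def xc35 : XT := (XT.nd (nat_lit 1794) (nat_lit 228) (nat_lit 0) (XT.nd (nat_lit 858) (nat_lit 152) (nat_lit 0) (XT.nd (nat_lit 390) (nat_lit 76) (nat_lit 0) (XT.nd (nat_lit 156) (nat_lit 76) (nat_lit 0) (XT.nd (nat_lit 78) (nat_lit 76) (nat_lit 0) (XT.lf (nat_lit 0) (nat_lit 9827852660) (nat_lit 152) (nat_lit 12934924106) (nat_lit 152) (nat_lit 2211715519) (nat_lit 10) (nat_lit 4) (nat_lit 12) (nat_lit 5) (nat_lit 12) (nat_lit 4) (nat_lit 353) (nat_lit 228) (nat_lit 199)) (XT.lf (nat_lit 0) (nat_lit 331437172) (nat_lit 228) (nat_lit 10280624361) (nat_lit 76) (nat_lit 15015742043) (nat_lit 9) (nat_lit 5) (nat_lit 12) (nat_lit 5) (nat_lit 10) (nat_lit 4) (nat_lit 354) (nat_lit 228) (nat_lit 198))) (XT.nd (nat_lit 78) (nat_lit 76) (nat_lit 0) (XT.lf (nat_lit 0) (nat_lit 2865137002) (nat_lit 228) (nat_lit 5360741118) (nat_lit 76) (nat_lit 18075462432) (nat_lit 9) (nat_lit 5) (nat_lit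 12) (nat_lit 5) (nat_lit 10) (nat_lit 4) (nat_lit 355) (nat_lit 228) (nat_lit 197)) (XT.nd (nat_lit 78) (nat_lit 76) (nat_lit 0) (XT.lf (nat_lit 0) (nat_lit 5434756419) (nat_lit 228) (nat_lit 361430605) (nat_lit 76) (nat_lit 21200142525) (nat_lit 9) (nat_lit 5) (nat_lit 12) (nat_lit 5) (nat_lit 10) (nat_lit 4) (nat_lit 356) (nat_lit 228) (nat_lit 196)) (XT.lf (nat_lit 0) (nat_lit 4815646107) (nat_lit 76) (nat_lit 3273185552) (nat_lit 152) (nat_lit 19623157455) (nat_lit 8) (nat_lit 5) (nat_lit 9) (nat_lit 5) (nat_lit 10) (nat_lit 4) (nat_lit 357) (nat_lit 228) (nat_lit 195))))) (XT.nd (nat_lit 234) (nat_lit 76) (nat_lit 0) (XT.nd (nat_lit 78) (nat_lit 0) (nat_lit 0) (XT.lf (nat_lit 0) (nat_lit 10089909237) (nat_lit 76) (nat_lit 697849701) (nat_lit 152) (nat_lit 17662443326) (nat_lit 8) (nat_lit 5) (nat_lit 9) (nat_lit 5) (nat_lit 10) (nat_lit 4) (nat_lit 358) (nat_lit 228) (nat_lit 194)) (XT.nd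 (nat_lit 78) (nat_lit 0) (nat_lit 0) (XT.lf (nat_lit 0) (nat_lit 13548890268) (nat_lit 152) (nat_lit 13771483321) (nat_lit 0) (nat_lit 1890790639) (nat_lit 8) (nat_lit 5) (nat_lit 10) (nat_lit 4) (nat_lit 8) (nat_lit 4) (nat_lit 359) (nat_lit 228) (nat_lit 193)) (XT.lf (nat_lit 0) (nat_lit 16363304764) (nat_lit 152) (nat_lit 9114570724) (nat_lit 0) (nat_lit 4518004446) (nat_lit 8) (nat_lit 5) (nat_lit 10) (nat_lit 4) (nat_lit 8) (nat_lit 4) (nat_lit 360) (nat_lit 228) (nat_lit 192)))) (XT.nd (nat_lit 78) (nat_lit 76) (nat_lit 0) (XT.lf (nat_lit 0) (nat_lit 19226753463) (nat_lit 152) (nat_lit 4378777929) (nat_lit 0) (nat_lit 7199704904) (nat_lit 8) (nat_lit 5) (nat_lit 10) (nat_lit 4) (nat_lit 8) (nat_lit 4) (nat_lit 361) (nat_lit 228) (nat_lit 191)) (XT.nd (nat_lit 78) (nat_lit 0) (nat_lit 0) (XT.lf (nat_lit 0) (nat_lit 448790654) (nat_lit 76) (nat_lit 21697261803) (nat_lit 76) (nat_lit 9493758642)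 (nat_lit 7) (nat_lit 4) (nat_lit 8) (nat_lit 5) (nat_lit 8) (nat_lit 4) (nat_lit 362) (nat_lit 228) (nat_lit 190)) (XT.lf (nat_lit 0) (nat_lit 5452470411) (nat_lit 76) (nat_lit 19710748743) (nat_lit 76) (nat_lit 7335930433) (nat_lit 7) (nat_lit 4) (nat_lit 8) (nat_lit 5) (nat_lit 8) (nat_lit 4) (nat_lit 363) (nat_lit 228) (nat_lit 189)))))) (XT.nd (nat_lit 468) (nat_lit 76) (nat_lit 0) (XT.nd (nat_lit 234) (nat_lit 76) (nat_lit 0) (XT.nd (nat_lit 78) (nat_lit 0) (nat_lit 0) (XT.lf (nat_lit 0) (nat_lit 10549487220) (nat_lit 76) (nat_lit 17688473495) (nat_lit 76) (nat_lit 5147329798) (nat_lit 7) (nat_lit 4) (nat_lit 8) (nat_lit 5) (nat_lit 8) (nat_lit 4) (nat_lit 364) (nat_lit 228) (nat_lit 188)) (XT.nd (nat_lit 78) (nat_lit 0) (nat_lit 0) (XT.lf (nat_lit 0) (nat_lit 15744294787) (nat_lit 76) (nat_lit 15628669021) (nat_lit 76) (nat_lit 2926044367) (nat_lit 7) (nat_lit 4) (nat_lit 8) (nat_lit 5)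 (nat_lit 8) (nat_lit 4) (nat_lit 365) (nat_lit 228) (nat_lit 187)) (XT.lf (nat_lit 0) (nat_lit 21041432262) (nat_lit 76) (nat_lit 13529535495) (nat_lit 76) (nat_lit 670133210) (nat_lit 7) (nat_lit 4) (nat_lit 8) (nat_lit 5) (nat_lit 8) (nat_lit 4) (nat_lit 366) (nat_lit 228) (nat_lit 186)))) (XT.nd (nat_lit 78) (nat_lit 0) (nat_lit 0) (XT.lf (nat_lit 0) (nat_lit 1590716477) (nat_lit 152) (nat_lit 9782459124) (nat_lit 76) (nat_lit 24838748618) (nat_lit 6) (nat_lit 5) (nat_lit 8) (nat_lit 5) (nat_lit 7) (nat_lit 4) (nat_lit 367) (nat_lit 228) (nat_lit 185)) (XT.nd (nat_lit 78) (nat_lit 0) (nat_lit 0) (XT.lf (nat_lit 0) (nat_lit 3876336299) (nat_lit 152) (nat_lit 5290428839) (nat_lit 76) (nat_lit 28045824971) (nat_lit 6) (nat_lit 5) (nat_lit 8) (nat_lit 5) (nat_lit 7) (nat_lit 4) (nat_lit 368) (nat_lit 228) (nat_lit 184)) (XT.lf (nat_lit 0) (nat_lit 6201800109) (nat_lit 152) (nat_lit 713211043)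 (nat_lit 76) (nat_lit 31329155100) (nat_lit 6) (nat_lit 5) (nat_lit 8) (nat_lit 5) (nat_lit 7) (nat_lit 4) (nat_lit 369) (nat_lit 228) (nat_lit 183))))) (XT.nd (nat_lit 234) (nat_lit 0) (nat_lit 0) (XT.nd (nat_lit 78) (nat_lit 0) (nat_lit 0) (XT.lf (nat_lit 0) (nat_lit 4031870079) (nat_lit 76) (nat_lit 4576026590) (nat_lit 152) (nat_lit 30698494658) (nat_lit 5) (nat_lit 5) (nat_lit 6) (nat_lit 5) (nat_lit 7) (nat_lit 4) (nat_lit 370) (nat_lit 228) (nat_lit 182)) (XT.nd (nat_lit 78) (nat_lit 0) (nat_lit 0) (XT.lf (nat_lit 0) (nat_lit 8886266107) (nat_lit 76) (nat_lit 2179578240) (nat_lit 152) (nat_lit 29335275660) (nat_lit 5) (nat_lit 5) (nat_lit 6) (nat_lit 5) (nat_lit 7) (nat_lit 4) (nat_lit 371) (nat_lit 228) (nat_lit 181)) (XT.lf (nat_lit 0) (nat_lit 13573386566) (nat_lit 152) (nat_lit 27692082141) (nat_lit 0) (nat_lit 263972279) (nat_lit 5) (nat_lit 5) (nat_lit 7) (nat_lit 4) (nat_lit 5)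 (nat_lit 4) (nat_lit 372) (nat_lit 228) (nat_lit 180)))) (XT.nd (nat_lit 78) (nat_lit 0) (nat_lit 0) (XT.lf (nat_lit 0) (nat_lit 16151599439) (nat_lit 152) (nat_lit 23821750739) (nat_lit 0) (nat_lit 2718423443) (nat_lit 5) (nat_lit 5) (nat_lit 7) (nat_lit 4) (nat_lit 5) (nat_lit 4) (nat_lit 373) (nat_lit 228) (nat_lit 179)) (XT.nd (nat_lit 78) (nat_lit 0) (nat_lit 0) (XT.lf (nat_lit 0) (nat_lit 18781784333) (nat_lit 152) (nat_lit 19879526413) (nat_lit 0) (nat_lit 5228451339) (nat_lit 5) (nat_lit 5) (nat_lit 7) (nat_lit 4) (nat_lit 5) (nat_lit 4) (nat_lit 374) (nat_lit 228) (nat_lit 178)) (XT.lf (nat_lit 0) (nat_lit 21466239468) (nat_lit 152) (nat_lit 15861964502) (nat_lit 0) (nat_lit 7796249194) (nat_lit 5) (nat_lit 5) (nat_lit 7) (nat_lit 4) (nat_lit 5) (nat_lit 4) (nat_lit 375) (nat_lit 228) (nat_lit 177))))))) (XT.nd (nat_lit 858) (nat_lit 152) (nat_lit 0) (XT.nd (nat_lit 390) (nat_lit 0)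 (nat_lit 0) (XT.nd (nat_lit 156) (nat_lit 76) (nat_lit 0) (XT.nd (nat_lit 78) (nat_lit 0) (nat_lit 0) (XT.lf (nat_lit 0) (nat_lit 24207310486) (nat_lit 152) (nat_lit 11765554514) (nat_lit 0) (nat_lit 10424060717) (nat_lit 5) (nat_lit 5) (nat_lit 7) (nat_lit 4) (nat_lit 5) (nat_lit 4) (nat_lit 376) (nat_lit 228) (nat_lit 176)) (XT.lf (nat_lit 0) (nat_lit 27007392496) (nat_lit 152) (nat_lit 7586717062) (nat_lit 0) (nat_lit 13114182052) (nat_lit 5) (nat_lit 5) (nat_lit 7) (nat_lit 4) (nat_lit 5) (nat_lit 4) (nat_lit 377) (nat_lit 228) (nat_lit 175))) (XT.nd (nat_lit 78) (nat_lit 76) (nat_lit 0) (XT.lf (nat_lit 0) (nat_lit 29868932172) (nat_lit 152) (nat_lit 3321800734) (nat_lit 0) (nat_lit 15868963792) (nat_lit 5) (nat_lit 5) (nat_lit 7) (nat_lit 4) (nat_lit 5) (nat_lit 4) (nat_lit 378) (nat_lit 228) (nat_lit 174)) (XT.nd (nat_lit 78) (nat_lit 0) (nat_lit 0) (XT.lf (nat_lit 0) (nat_lit 1053478249)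 (nat_lit 76) (nat_lit 31751078317) (nat_lit 76) (nat_lit 17647461455) (nat_lit 4) (nat_lit 4) (nat_lit 5) (nat_lit 5) (nat_lit 5) (nat_lit 4) (nat_lit 379) (nat_lit 228) (nat_lit 173)) (XT.lf (nat_lit 0) (nat_lit 5590341213) (nat_lit 76) (nat_lit 30249838473) (nat_lit 76) (nat_lit 16045592016) (nat_lit 4) (nat_lit 4) (nat_lit 5) (nat_lit 5) (nat_lit 5) (nat_lit 4) (nat_lit 380) (nat_lit 228) (nat_lit 172))))) (XT.nd (nat_lit 234) (nat_lit 0) (nat_lit 0) (XT.nd (nat_lit 78) (nat_lit 0) (nat_lit 0) (XT.lf (nat_lit 0) (nat_lit 10226642060) (nat_lit 76) (nat_lit 28719245285) (nat_lit 76) (nat_lit 14417300192) (nat_lit 4) (nat_lit 4) (nat_lit 5) (nat_lit 5) (nat_lit 5) (nat_lit 4) (nat_lit 381) (nat_lit 228) (nat_lit 171)) (XT.nd (nat_lit 78) (nat_lit 0) (nat_lit 0) (XT.lf (nat_lit 0) (nat_lit 14966431925) (nat_lit 76) (nat_lit 27157961341) (nat_lit 76) (nat_lit 12761163204) (nat_lit 4) (nat_lit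 4) (nat_lit 5) (nat_lit 5) (nat_lit 5) (nat_lit 4) (nat_lit 382) (nat_lit 228) (nat_lit 170)) (XT.lf (nat_lit 0) (nat_lit 19813852372) (nat_lit 76) (nat_lit 25564622413) (nat_lit 76) (nat_lit 11075733943) (nat_lit 4) (nat_lit 4) (nat_lit 5) (nat_lit 5) (nat_lit 5) (nat_lit 4) (nat_lit 383) (nat_lit 228) (nat_lit 169)))) (XT.nd (nat_lit 78) (nat_lit 0) (nat_lit 0) (XT.lf (nat_lit 0) (nat_lit 24773139012) (nat_lit 76) (nat_lit 23937836264) (nat_lit 76) (nat_lit 9359539702) (nat_lit 4) (nat_lit 4) (nat_lit 5) (nat_lit 5) (nat_lit 5) (nat_lit 4) (nat_lit 384) (nat_lit 228) (nat_lit 168)) (XT.nd (nat_lit 78) (nat_lit 0) (nat_lit 0) (XT.lf (nat_lit 0) (nat_lit 29848625201) (nat_lit 76) (nat_lit 22276181429) (nat_lit 76) (nat_lit 7611080895) (nat_lit 4) (nat_lit 4) (nat_lit 5) (nat_lit 5) (nat_lit 5) (nat_lit 4) (nat_lit 385) (nat_lit 228) (nat_lit 167)) (XT.lf (nat_lit 0) (nat_lit 35044745831) (nat_lit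 76) (nat_lit 20578205977) (nat_lit 76) (nat_lit 5828829742) (nat_lit 4) (nat_lit 4) (nat_lit 5) (nat_lit 5) (nat_lit 5) (nat_lit 4) (nat_lit 386) (nat_lit 228) (nat_lit 166)))))) (XT.nd (nat_lit 468) (nat_lit 76) (nat_lit 0) (XT.nd (nat_lit 234) (nat_lit 76) (nat_lit 0) (XT.nd (nat_lit 78) (nat_lit 0) (nat_lit 0) (XT.lf (nat_lit 0) (nat_lit 40366041202) (nat_lit 76) (nat_lit 18842426240) (nat_lit 76) (nat_lit 4011228936) (nat_lit 4) (nat_lit 4) (nat_lit 5) (nat_lit 5) (nat_lit 5) (nat_lit 4) (nat_lit 387) (nat_lit 228) (nat_lit 165)) (XT.nd (nat_lit 78) (nat_lit 0) (nat_lit 0) (XT.lf (nat_lit 0) (nat_lit 45817160988) (nat_lit 76) (nat_lit 17067325518) (nat_lit 76) (nat_lit 2156690282) (nat_lit 4) (nat_lit 4) (nat_lit 5) (nat_lit 5) (nat_lit 5) (nat_lit 4) (nat_lit 388) (nat_lit 228) (nat_lit 164)) (XT.lf (nat_lit 0) (nat_lit 51402868304) (nat_lit 76) (nat_lit 15251352751) (nat_lit 76) (nat_lit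 263593311) (nat_lit 4) (nat_lit 4) (nat_lit 5) (nat_lit 5) (nat_lit 5) (nat_lit 4) (nat_lit 389) (nat_lit 228) (nat_lit 163)))) (XT.nd (nat_lit 78) (nat_lit 0) (nat_lit 0) (XT.lf (nat_lit 0) (nat_lit 1637133965) (nat_lit 152) (nat_lit 11739255359) (nat_lit 76) (nat_lit 55474378057) (nat_lit 3) (nat_lit 5) (nat_lit 5) (nat_lit 5) (nat_lit 4) (nat_lit 4) (nat_lit 390) (nat_lit 228) (nat_lit 162)) (XT.nd (nat_lit 78) (nat_lit 0) (nat_lit 0) (XT.lf (nat_lit 0) (nat_lit 3573801712) (nat_lit 152) (nat_lit 7880516793) (nat_lit 76) (nat_lit 59387800151) (nat_lit 3) (nat_lit 5) (nat_lit 5) (nat_lit 5) (nat_lit 4) (nat_lit 4) (nat_lit 391) (nat_lit 228) (nat_lit 161)) (XT.lf (nat_lit 0) (nat_lit 5553245818) (nat_lit 152) (nat_lit 3932824829) (nat_lit 76) (nat_lit 63407613571) (nat_lit 3) (nat_lit 5) (nat_lit 5) (nat_lit 5) (nat_lit 4) (nat_lit 4) (nat_lit 392) (nat_lit 228) (nat_lit 160))))) (XT.nd (nat_lit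 234) (nat_lit 0) (nat_lit 0) (XT.nd (nat_lit 78) (nat_lit 0) (nat_lit 0) (XT.lf (nat_lit 0) (nat_lit 109404852) (nat_lit 76) (nat_lit 7468842709) (nat_lit 152) (nat_lit 67428977589) (nat_lit 2) (nat_lit 5) (nat_lit 3) (nat_lit 5) (nat_lit 4) (nat_lit 4) (nat_lit 393) (nat_lit 228) (nat_lit 159)) (XT.nd (nat_lit 78) (nat_lit 0) (nat_lit 0) (XT.lf (nat_lit 0) (nat_lit 4327747732) (nat_lit 76) (nat_lit 5361273670) (nat_lit 152) (nat_lit 67494413481) (nat_lit 2) (nat_lit 5) (nat_lit 3) (nat_lit 5) (nat_lit 4) (nat_lit 4) (nat_lit 394) (nat_lit 228) (nat_lit 158)) (XT.lf (nat_lit 0) (nat_lit 8647618814) (nat_lit 76) (nat_lit 3201235785) (nat_lit 152) (nat_lit 67576517073) (nat_lit 2) (nat_lit 5) (nat_lit 3) (nat_lit 5) (nat_lit 4) (nat_lit 4) (nat_lit 395) (nat_lit 228) (nat_lit 157)))) (XT.nd (nat_lit 78) (nat_lit 0) (nat_lit 0) (XT.lf (nat_lit 0) (nat_lit 13072792743) (nat_lit 76) (nat_lit 986841642)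 (nat_lit 152) (nat_lit 67675360107) (nat_lit 2) (nat_lit 5) (nat_lit 3) (nat_lit 5) (nat_lit 4) (nat_lit 4) (nat_lit 396) (nat_lit 228) (nat_lit 156)) (XT.nd (nat_lit 78) (nat_lit 0) (nat_lit 0) (XT.lf (nat_lit 0) (nat_lit 16335633600) (nat_lit 152) (nat_lit 66519526375) (nat_lit 0) (nat_lit 1258791251) (nat_lit 2) (nat_lit 5) (nat_lit 4) (nat_lit 4) (nat_lit 2) (nat_lit 4) (nat_lit 397) (nat_lit 228) (nat_lit 155)) (XT.lf (nat_lit 0) (nat_lit 18676535410) (nat_lit 152) (nat_lit 64345548924) (nat_lit 0) (nat_lit 3542305410) (nat_lit 2) (nat_lit 5) (nat_lit 4) (nat_lit 4) (nat_lit 2) (nat_lit 4) (nat_lit 398) (nat_lit 228) (nat_lit 154))))))))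
noncomputable def xc36 : XT := (XT.nd (nat_lit 36036) (nat_lit 0) (nat_lit 456) (XT.nd (nat_lit 35178) (nat_lit 0) (nat_lit 1140) (XT.nd (nat_lit 34710) (nat_lit 0) (nat_lit 1976) (XT.nd (nat_lit 156) (nat_lit 0) (nat_lit 0) (XT.nd (nat_lit 78) (nat_lit 0) (nat_lit 0) (XT.lf (nat_lit 0) (nat_lit 21074899138) (nat_lit 152) (nat_lit 62128883677) (nat_lit 0) (nat_lit 5884952971) (nat_lit 2) (nat_lit 5) (nat_lit 4) (nat_lit 4) (nat_lit 2) (nat_lit 4) (nat_lit 399) (nat_lit 228) (nat_lit 153)) (XT.lf (nat_lit 0) (nat_lit 23532820441) (nat_lit 152) (nat_lit 59867593744) (nat_lit 0) (nat_lit 8288780909) (nat_lit 2) (nat_lit 5) (nat_lit 4) (nat_lit 4) (nat_lit 2) (nat_lit 4) (nat_lit 400) (nat_lit 228) (nat_lit 152))) (XT.nd (nat_lit 78) (nat_lit 0) (nat_lit 0) (XT.lf (nat_lit 0) (nat_lit 26052447018) (nat_lit 152) (nat_lit 57559703240) (nat_lit 0) (nat_lit 10755889655) (nat_lit 2) (nat_lit 5) (nat_lit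 4) (nat_lit 4) (nat_lit 2) (nat_lit 4) (nat_lit 401) (nat_lit 228) (nat_lit 151)) (XT.nd (nat_lit 34398) (nat_lit 0) (nat_lit 2584) (XT.lf (nat_lit 0) (nat_lit 28635980484) (nat_lit 152) (nat_lit 55203195561) (nat_lit 0) (nat_lit 13288434935) (nat_lit 2) (nat_lit 5) (nat_lit 4) (nat_lit 4) (nat_lit 2) (nat_lit 4) (nat_lit 402) (nat_lit 228) (nat_lit 150)) (XT.lf (nat_lit 0) (nat_lit 2443560635) (nat_lit 228) (nat_lit 1246380522) (nat_lit 0) (nat_lit 2443560635) (nat_lit 36) (nat_lit 5) (nat_lit 39) (nat_lit 4) (nat_lit 36) (nat_lit 4) (nat_lit 322) (nat_lit 229) (nat_lit 229))))) (XT.nd (nat_lit 234) (nat_lit 152) (nat_lit 0) (XT.nd (nat_lit 78) (nat_lit 228) (nat_lit 0) (XT.lf (nat_lit 0) (nat_lit 3570937080) (nat_lit 228) (nat_lit 4792668487) (nat_lit 228) (nat_lit 4144823834) (nat_lit 33) (nat_lit 4) (nat_lit 36) (nat_lit 5) (nat_lit 36) (nat_lit 4) (nat_lit 323) (nat_lit 229) (nat_lit 228))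 (XT.nd (nat_lit 78) (nat_lit 228) (nat_lit 0) (XT.lf (nat_lit 0) (nat_lit 9748048432) (nat_lit 228) (nat_lit 2143787467) (nat_lit 228) (nat_lit 866967422) (nat_lit 33) (nat_lit 4) (nat_lit 36) (nat_lit 5) (nat_lit 36) (nat_lit 4) (nat_lit 324) (nat_lit 229) (nat_lit 227)) (XT.lf (nat_lit 0) (nat_lit 2418620676) (nat_lit 228) (nat_lit 10012594920) (nat_lit 0) (nat_lit 586119934) (nat_lit 30) (nat_lit 5) (nat_lit 33) (nat_lit 4) (nat_lit 30) (nat_lit 4) (nat_lit 325) (nat_lit 229) (nat_lit 226)))) (XT.nd (nat_lit 78) (nat_lit 152) (nat_lit 0) (XT.lf (nat_lit 0) (nat_lit 5761658575) (nat_lit 228) (nat_lit 4168980084) (nat_lit 0) (nat_lit 3353556249) (nat_lit 30) (nat_lit 5) (nat_lit 33) (nat_lit 4) (nat_lit 30) (nat_lit 4) (nat_lit 326) (nat_lit 229) (nat_lit 225)) (XT.nd (nat_lit 78) (nat_lit 0) (nat_lit 0) (XT.lf (nat_lit 0) (nat_lit 1769346718) (nat_lit 152) (nat_lit 7379229505) (nat_lit 152)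 (nat_lit 4412290690) (nat_lit 28) (nat_lit 4) (nat_lit 30) (nat_lit 5) (nat_lit 30) (nat_lit 4) (nat_lit 327) (nat_lit 229) (nat_lit 224)) (XT.lf (nat_lit 0) (nat_lit 7857289181) (nat_lit 152) (nat_lit 4749533963) (nat_lit 152) (nat_lit 1240035451) (nat_lit 28) (nat_lit 4) (nat_lit 30) (nat_lit 5) (nat_lit 30) (nat_lit 4) (nat_lit 328) (nat_lit 229) (nat_lit 223)))))) (XT.nd (nat_lit 390) (nat_lit 456) (nat_lit 0) (XT.nd (nat_lit 156) (nat_lit 152) (nat_lit 0) (XT.nd (nat_lit 78) (nat_lit 152) (nat_lit 0) (XT.lf (nat_lit 0) (nat_lit 1916755538) (nat_lit 228) (nat_lit 145241757) (nat_lit 76) (nat_lit 12081084975) (nat_lit 27) (nat_lit 5) (nat_lit 30) (nat_lit 5) (nat_lit 28) (nat_lit 4) (nat_lit 329) (nat_lit 229) (nat_lit 222)) (XT.lf (nat_lit 0) (nat_lit 5137814879) (nat_lit 228) (nat_lit 8587675304) (nat_lit 0) (nat_lit 722601236) (nat_lit 25) (nat_lit 5) (nat_lit 28) (nat_lit 4) (nat_lit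 25) (nat_lit 4) (nat_lit 330) (nat_lit 229) (nat_lit 221))) (XT.nd (nat_lit 78) (nat_lit 152) (nat_lit 0) (XT.lf (nat_lit 0) (nat_lit 8408992779) (nat_lit 228) (nat_lit 2843030360) (nat_lit 0) (nat_lit 3511721872) (nat_lit 25) (nat_lit 5) (nat_lit 28) (nat_lit 4) (nat_lit 25) (nat_lit 4) (nat_lit 331) (nat_lit 229) (nat_lit 220)) (XT.nd (nat_lit 78) (nat_lit 0) (nat_lit 0) (XT.lf (nat_lit 0) (nat_lit 3026592071) (nat_lit 152) (nat_lit 8714389715) (nat_lit 152) (nat_lit 3349102047) (nat_lit 23) (nat_lit 4) (nat_lit 25) (nat_lit 5) (nat_lit 25) (nat_lit 4) (nat_lit 332) (nat_lit 229) (nat_lit 219)) (XT.lf (nat_lit 0) (nat_lit 9025204288) (nat_lit 152) (nat_lit 6110939061) (nat_lit 152) (nat_lit 291266188) (nat_lit 23) (nat_lit 4) (nat_lit 25) (nat_lit 5) (nat_lit 25) (nat_lit 4) (nat_lit 333) (nat_lit 229) (nat_lit 218))))) (XT.nd (nat_lit 234) (nat_lit 228) (nat_lit 0) (XT.nd (nat_lit 78) (nat_lit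 152) (nat_lit 0) (XT.lf (nat_lit 0) (nat_lit 2738222217) (nat_lit 228) (nat_lit 702232455) (nat_lit 76) (nat_lit 12335593023) (nat_lit 22) (nat_lit 5) (nat_lit 25) (nat_lit 5) (nat_lit 23) (nat_lit 4) (nat_lit 334) (nat_lit 229) (nat_lit 217)) (XT.nd (nat_lit 78) (nat_lit 0) (nat_lit 0) (XT.lf (nat_lit 0) (nat_lit 5166006249) (nat_lit 152) (nat_lit 673959978) (nat_lit 228) (nat_lit 10295560707) (nat_lit 20) (nat_lit 5) (nat_lit 22) (nat_lit 5) (nat_lit 23) (nat_lit 4) (nat_lit 335) (nat_lit 229) (nat_lit 216)) (XT.lf (nat_lit 0) (nat_lit 9000896921) (nat_lit 228) (nat_lit 5403107069) (nat_lit 0) (nat_lit 2102885247) (nat_lit 20) (nat_lit 5) (nat_lit 23) (nat_lit 4) (nat_lit 20) (nat_lit 4) (nat_lit 336) (nat_lit 229) (nat_lit 215)))) (XT.nd (nat_lit 78) (nat_lit 76) (nat_lit 0) (XT.lf (nat_lit 0) (nat_lit 229825647) (nat_lit 152) (nat_lit 11975576510) (nat_lit 152) (nat_lit 4685608167) (nat_lit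 18) (nat_lit 4) (nat_lit 20) (nat_lit 5) (nat_lit 20) (nat_lit 4) (nat_lit 337) (nat_lit 229) (nat_lit 214)) (XT.nd (nat_lit 78) (nat_lit 76) (nat_lit 0) (XT.lf (nat_lit 0) (nat_lit 6045183161) (nat_lit 152) (nat_lit 9456100706) (nat_lit 152) (nat_lit 1785591907) (nat_lit 18) (nat_lit 4) (nat_lit 20) (nat_lit 5) (nat_lit 20) (nat_lit 4) (nat_lit 338) (nat_lit 229) (nat_lit 213)) (XT.lf (nat_lit 0) (nat_lit 1119744557) (nat_lit 228) (nat_lit 5766884100) (nat_lit 76) (nat_lit 10809462647) (nat_lit 17) (nat_lit 5) (nat_lit 20) (nat_lit 5) (nat_lit 18) (nat_lit 4) (nat_lit 339) (nat_lit 229) (nat_lit 212))))))) (XT.nd (nat_lit 858) (nat_lit 304) (nat_lit 0) (XT.nd (nat_lit 390) (nat_lit 152) (nat_lit 0) (XT.nd (nat_lit 156) (nat_lit 152) (nat_lit 0) (XT.nd (nat_lit 78) (nat_lit 76) (nat_lit 0) (XT.lf (nat_lit 0) (nat_lit 4019812528) (nat_lit 228) (nat_lit 238441996) (nat_lit 76) (nat_lit 13860565955)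 (nat_lit 17) (nat_lit 5) (nat_lit 20) (nat_lit 5) (nat_lit 18) (nat_lit 4) (nat_lit 340) (nat_lit 229) (nat_lit 211)) (XT.lf (nat_lit 0) (nat_lit 5472415107) (nat_lit 76) (nat_lit 1532178469) (nat_lit 152) (nat_lit 11549775900) (nat_lit 16) (nat_lit 5) (nat_lit 17) (nat_lit 5) (nat_lit 18) (nat_lit 4) (nat_lit 341) (nat_lit 229) (nat_lit 210))) (XT.nd (nat_lit 78) (nat_lit 152) (nat_lit 0) (XT.lf (nat_lit 0) (nat_lit 10039120942) (nat_lit 152) (nat_lit 7746407260) (nat_lit 0) (nat_lit 1218717913) (nat_lit 16) (nat_lit 5) (nat_lit 18) (nat_lit 4) (nat_lit 16) (nat_lit 4) (nat_lit 342) (nat_lit 229) (nat_lit 209)) (XT.nd (nat_lit 78) (nat_lit 152) (nat_lit 0) (XT.lf (nat_lit 0) (nat_lit 13126949973) (nat_lit 152) (nat_lit 2354016102) (nat_lit 0) (nat_lit 3987850303) (nat_lit 16) (nat_lit 5) (nat_lit 18) (nat_lit 4) (nat_lit 16) (nat_lit 4) (nat_lit 343) (nat_lit 229) (nat_lit 208)) (XT.lf (nat_lit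 0) (nat_lit 3176646963) (nat_lit 152) (nat_lit 13109939445) (nat_lit 152) (nat_lit 3661425561) (nat_lit 14) (nat_lit 4) (nat_lit 16) (nat_lit 5) (nat_lit 16) (nat_lit 4) (nat_lit 344) (nat_lit 229) (nat_lit 207))))) (XT.nd (nat_lit 234) (nat_lit 76) (nat_lit 0) (XT.nd (nat_lit 78) (nat_lit 76) (nat_lit 0) (XT.lf (nat_lit 0) (nat_lit 8836835407) (nat_lit 152) (nat_lit 10677266455) (nat_lit 152) (nat_lit 928350421) (nat_lit 14) (nat_lit 4) (nat_lit 16) (nat_lit 5) (nat_lit 16) (nat_lit 4) (nat_lit 345) (nat_lit 229) (nat_lit 206)) (XT.nd (nat_lit 78) (nat_lit 0) (nat_lit 0) (XT.lf (nat_lit 0) (nat_lit 1800149682) (nat_lit 228) (nat_lit 6386264751) (nat_lit 76) (nat_lit 12766317824) (nat_lit 13) (nat_lit 5) (nat_lit 16) (nat_lit 5) (nat_lit 14) (nat_lit 4) (nat_lit 346) (nat_lit 229) (nat_lit 205)) (XT.lf (nat_lit 0) (nat_lit 4543544267) (nat_lit 228) (nat_lit 1100331580) (nat_lit 76) (nat_lit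 15835674410) (nat_lit 13) (nat_lit 5) (nat_lit 16) (nat_lit 5) (nat_lit 14) (nat_lit 4) (nat_lit 347) (nat_lit 229) (nat_lit 204)))) (XT.nd (nat_lit 78) (nat_lit 0) (nat_lit 0) (XT.lf (nat_lit 0) (nat_lit 4350621579) (nat_lit 76) (nat_lit 3013545191) (nat_lit 152) (nat_lit 14658212934) (nat_lit 12) (nat_lit 5) (nat_lit 13) (nat_lit 5) (nat_lit 14) (nat_lit 4) (nat_lit 348) (nat_lit 229) (nat_lit 203)) (XT.nd (nat_lit 78) (nat_lit 0) (nat_lit 0) (XT.lf (nat_lit 0) (nat_lit 9909973909) (nat_lit 76) (nat_lit 324269585) (nat_lit 152) (nat_lit 12348358567) (nat_lit 12) (nat_lit 5) (nat_lit 13) (nat_lit 5) (nat_lit 14) (nat_lit 4) (nat_lit 349) (nat_lit 229) (nat_lit 202)) (XT.lf (nat_lit 0) (nat_lit 13168710989) (nat_lit 152) (nat_lit 7623562413) (nat_lit 0) (nat_lit 2368060583) (nat_lit 12) (nat_lit 5) (nat_lit 14) (nat_lit 4) (nat_lit 12) (nat_lit 4) (nat_lit 350) (nat_lit 229) (nat_lit 201))))))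 (XT.nd (nat_lit 468) (nat_lit 76) (nat_lit 0) (XT.nd (nat_lit 234) (nat_lit 76) (nat_lit 0) (XT.nd (nat_lit 78) (nat_lit 152) (nat_lit 0) (XT.lf (nat_lit 0) (nat_lit 16150519269) (nat_lit 152) (nat_lit 2500535017) (nat_lit 0) (nat_lit 5105614424) (nat_lit 12) (nat_lit 5) (nat_lit 14) (nat_lit 4) (nat_lit 12) (nat_lit 4) (nat_lit 351) (nat_lit 229) (nat_lit 200)) (XT.nd (nat_lit 78) (nat_lit 0) (nat_lit 0) (XT.lf (nat_lit 0) (nat_lit 2757863392) (nat_lit 152) (nat_lit 16447803597) (nat_lit 152) (nat_lit 5165758522) (nat_lit 10) (nat_lit 4) (nat_lit 12) (nat_lit 5) (nat_lit 12) (nat_lit 4) (nat_lit 352) (nat_lit 229) (nat_lit 199)) (XT.lf (nat_lit 0) (nat_lit 8153843825) (nat_lit 152) (nat_lit 14181805632) (nat_lit 152) (nat_lit 2669527322) (nat_lit 10) (nat_lit 4) (nat_lit 12) (nat_lit 5) (nat_lit 12) (nat_lit 4) (nat_lit 353) (nat_lit 229) (nat_lit 198)))) (XT.nd (nat_lit 78) (nat_lit 76) (nat_lit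 0) (XT.lf (nat_lit 0) (nat_lit 13642355668) (nat_lit 152) (nat_lit 11876330893) (nat_lit 152) (nat_lit 140525172) (nat_lit 10) (nat_lit 4) (nat_lit 12) (nat_lit 5) (nat_lit 12) (nat_lit 4) (nat_lit 354) (nat_lit 229) (nat_lit 197)) (XT.nd (nat_lit 78) (nat_lit 0) (nat_lit 0) (XT.lf (nat_lit 0) (nat_lit 2376167348) (nat_lit 228) (nat_lit 7129202908) (nat_lit 76) (nat_lit 16828032726) (nat_lit 9) (nat_lit 5) (nat_lit 12) (nat_lit 5) (nat_lit 10) (nat_lit 4) (nat_lit 355) (nat_lit 229) (nat_lit 196)) (XT.lf (nat_lit 0) (nat_lit 4926612531) (nat_lit 228) (nat_lit 2162495212) (nat_lit 76) (nat_lit 19939880112) (nat_lit 9) (nat_lit 5) (nat_lit 12) (nat_lit 5) (nat_lit 10) (nat_lit 4) (nat_lit 356) (nat_lit 229) (nat_lit 195))))) (XT.nd (nat_lit 234) (nat_lit 0) (nat_lit 0) (XT.nd (nat_lit 78) (nat_lit 0) (nat_lit 0) (XT.lf (nat_lit 0) (nat_lit 2946453602) (nat_lit 76) (nat_lit 4597650584) (nat_lit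 152) (nat_lit 20201660786) (nat_lit 8) (nat_lit 5) (nat_lit 9) (nat_lit 5) (nat_lit 10) (nat_lit 4) (nat_lit 357) (nat_lit 229) (nat_lit 194)) (XT.nd (nat_lit 78) (nat_lit 0) (nat_lit 0) (XT.lf (nat_lit 0) (nat_lit 8189373838) (nat_lit 76) (nat_lit 2035282784) (nat_lit 152) (nat_lit 18259892207) (nat_lit 8) (nat_lit 5) (nat_lit 9) (nat_lit 5) (nat_lit 10) (nat_lit 4) (nat_lit 358) (nat_lit 229) (nat_lit 193)) (XT.lf (nat_lit 0) (nat_lit 12954971050) (nat_lit 152) (nat_lit 15724372113) (nat_lit 0) (nat_lit 567111034) (nat_lit 8) (nat_lit 5) (nat_lit 10) (nat_lit 4) (nat_lit 8) (nat_lit 4) (nat_lit 359) (nat_lit 229) (nat_lit 192)))) (XT.nd (nat_lit 78) (nat_lit 0) (nat_lit 0) (XT.lf (nat_lit 0) (nat_lit 15751947993) (nat_lit 152) (nat_lit 11097423644) (nat_lit 0) (nat_lit 3182339736) (nat_lit 8) (nat_lit 5) (nat_lit 10) (nat_lit 4) (nat_lit 8) (nat_lit 4) (nat_lit 360) (nat_lit 229) (nat_lit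 191)) (XT.nd (nat_lit 78) (nat_lit 0) (nat_lit 0) (XT.lf (nat_lit 0) (nat_lit 18598467029) (nat_lit 152) (nat_lit 6390722237) (nat_lit 0) (nat_lit 5852404170) (nat_lit 8) (nat_lit 5) (nat_lit 10) (nat_lit 4) (nat_lit 8) (nat_lit 4) (nat_lit 361) (nat_lit 229) (nat_lit 190)) (XT.lf (nat_lit 0) (nat_lit 21497015409) (nat_lit 152) (nat_lit 1600155240) (nat_lit 0) (nat_lit 8579637401) (nat_lit 8) (nat_lit 5) (nat_lit 10) (nat_lit 4) (nat_lit 8) (nat_lit 4) (nat_lit 362) (nat_lit 229) (nat_lit 189))))))))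
noncomputable def xc37 : XT := (XT.nd (nat_lit 1716) (nat_lit 152) (nat_lit 0) (XT.nd (nat_lit 858) (nat_lit 76) (nat_lit 0) (XT.nd (nat_lit 390) (nat_lit 76) (nat_lit 0) (XT.nd (nat_lit 156) (nat_lit 76) (nat_lit 0) (XT.nd (nat_lit 78) (nat_lit 0) (nat_lit 0) (XT.lf (nat_lit 0) (nat_lit 3343711127) (nat_lit 76) (nat_lit 21138556513) (nat_lit 76) (nat_lit 8054853119) (nat_lit 7) (nat_lit 4) (nat_lit 8) (nat_lit 5) (nat_lit 8) (nat_lit 4) (nat_lit 363) (nat_lit 229) (nat_lit 188)) (XT.lf (nat_lit 0) (nat_lit 8413575351) (nat_lit 76) (nat_lit 19127679803) (nat_lit 76) (nat_lit 5882495450) (nat_lit 7) (nat_lit 4) (nat_lit 8) (nat_lit 5) (nat_lit 8) (nat_lit 4) (nat_lit 364) (nat_lit 229) (nat_lit 187))) (XT.nd (nat_lit 78) (nat_lit 76) (nat_lit 0) (XT.lf (nat_lit 0) (nat_lit 13582021185) (nat_lit 76) (nat_lit 17078941872) (nat_lit 76) (nat_lit 3676979890) (nat_lit 7) (nat_lit 4) (nat_lit 8) (nat_lit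 5) (nat_lit 8) (nat_lit 4) (nat_lit 365) (nat_lit 229) (nat_lit 186)) (XT.nd (nat_lit 78) (nat_lit 76) (nat_lit 0) (XT.lf (nat_lit 0) (nat_lit 18853564745) (nat_lit 76) (nat_lit 14990552561) (nat_lit 76) (nat_lit 1436379288) (nat_lit 7) (nat_lit 4) (nat_lit 8) (nat_lit 5) (nat_lit 8) (nat_lit 4) (nat_lit 366) (nat_lit 229) (nat_lit 185)) (XT.lf (nat_lit 0) (nat_lit 824848067) (nat_lit 152) (nat_lit 12027509647) (nat_lit 76) (nat_lit 23399634819) (nat_lit 6) (nat_lit 5) (nat_lit 8) (nat_lit 5) (nat_lit 7) (nat_lit 4) (nat_lit 367) (nat_lit 229) (nat_lit 184))))) (XT.nd (nat_lit 234) (nat_lit 0) (nat_lit 0) (XT.nd (nat_lit 78) (nat_lit 76) (nat_lit 0) (XT.lf (nat_lit 0) (nat_lit 3096317836) (nat_lit 152) (nat_lit 7559899755) (nat_lit 76) (nat_lit 26596879391) (nat_lit 6) (nat_lit 5) (nat_lit 8) (nat_lit 5) (nat_lit 7) (nat_lit 4) (nat_lit 368) (nat_lit 229) (nat_lit 183)) (XT.nd (nat_lit 78) (nat_lit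 76) (nat_lit 0) (XT.lf (nat_lit 0) (nat_lit 5408043732) (nat_lit 152) (nat_lit 3006391080) (nat_lit 76) (nat_lit 29870664103) (nat_lit 6) (nat_lit 5) (nat_lit 8) (nat_lit 5) (nat_lit 7) (nat_lit 4) (nat_lit 369) (nat_lit 229) (nat_lit 182)) (XT.lf (nat_lit 0) (nat_lit 1669574586) (nat_lit 76) (nat_lit 6108520095) (nat_lit 152) (nat_lit 31570323928) (nat_lit 5) (nat_lit 5) (nat_lit 6) (nat_lit 5) (nat_lit 7) (nat_lit 4) (nat_lit 370) (nat_lit 229) (nat_lit 181)))) (XT.nd (nat_lit 78) (nat_lit 0) (nat_lit 0) (XT.lf (nat_lit 0) (nat_lit 6501177723) (nat_lit 76) (nat_lit 3721696235) (nat_lit 152) (nat_lit 30220681251) (nat_lit 5) (nat_lit 5) (nat_lit 6) (nat_lit 5) (nat_lit 7) (nat_lit 4) (nat_lit 371) (nat_lit 229) (nat_lit 180)) (XT.nd (nat_lit 78) (nat_lit 0) (nat_lit 0) (XT.lf (nat_lit 0) (nat_lit 11432807044) (nat_lit 76) (nat_lit 1282236313) (nat_lit 152) (nat_lit 28857306506) (nat_lit 5)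 (nat_lit 5) (nat_lit 6) (nat_lit 5) (nat_lit 7) (nat_lit 4) (nat_lit 372) (nat_lit 229) (nat_lit 179)) (XT.lf (nat_lit 0) (nat_lit 15268430904) (nat_lit 152) (nat_lit 26278667561) (nat_lit 0) (nat_lit 1188340921) (nat_lit 5) (nat_lit 5) (nat_lit 7) (nat_lit 4) (nat_lit 5) (nat_lit 4) (nat_lit 373) (nat_lit 229) (nat_lit 178)))))) (XT.nd (nat_lit 390) (nat_lit 76) (nat_lit 0) (XT.nd (nat_lit 156) (nat_lit 0) (nat_lit 0) (XT.nd (nat_lit 78) (nat_lit 0) (nat_lit 0) (XT.lf (nat_lit 0) (nat_lit 17886480179) (nat_lit 152) (nat_lit 22357590597) (nat_lit 0) (nat_lit 3689732917) (nat_lit 5) (nat_lit 5) (nat_lit 7) (nat_lit 4) (nat_lit 5) (nat_lit 4) (nat_lit 374) (nat_lit 229) (nat_lit 177)) (XT.lf (nat_lit 0) (nat_lit 20559153161) (nat_lit 152) (nat_lit 18360560105) (nat_lit 0) (nat_lit 6249146404) (nat_lit 5) (nat_lit 5) (nat_lit 7) (nat_lit 4) (nat_lit 5) (nat_lit 4) (nat_lit 375) (nat_lit 229) (nat_lit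 176))) (XT.nd (nat_lit 78) (nat_lit 0) (nat_lit 0) (XT.lf (nat_lit 0) (nat_lit 23288785194) (nat_lit 152) (nat_lit 14284083533) (nat_lit 0) (nat_lit 8868817762) (nat_lit 5) (nat_lit 5) (nat_lit 7) (nat_lit 4) (nat_lit 5) (nat_lit 4) (nat_lit 376) (nat_lit 229) (nat_lit 175)) (XT.nd (nat_lit 78) (nat_lit 0) (nat_lit 0) (XT.lf (nat_lit 0) (nat_lit 26077761395) (nat_lit 152) (nat_lit 10124598913) (nat_lit 0) (nat_lit 11551036026) (nat_lit 5) (nat_lit 5) (nat_lit 7) (nat_lit 4) (nat_lit 5) (nat_lit 4) (nat_lit 377) (nat_lit 229) (nat_lit 174)) (XT.lf (nat_lit 0) (nat_lit 28928518731) (nat_lit 152) (nat_lit 5878471742) (nat_lit 0) (nat_lit 14298144880) (nat_lit 5) (nat_lit 5) (nat_lit 7) (nat_lit 4) (nat_lit 5) (nat_lit 4) (nat_lit 378) (nat_lit 229) (nat_lit 173))))) (XT.nd (nat_lit 234) (nat_lit 0) (nat_lit 0) (XT.nd (nat_lit 78) (nat_lit 76) (nat_lit 0) (XT.lf (nat_lit 0) (nat_lit 31843548157)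 (nat_lit 152) (nat_lit 1541991813) (nat_lit 0) (nat_lit 17112544712) (nat_lit 5) (nat_lit 5) (nat_lit 7) (nat_lit 4) (nat_lit 5) (nat_lit 4) (nat_lit 379) (nat_lit 229) (nat_lit 172)) (XT.nd (nat_lit 78) (nat_lit 0) (nat_lit 0) (XT.lf (nat_lit 0) (nat_lit 2946119432) (nat_lit 76) (nat_lit 31907597255) (nat_lit 76) (nat_lit 17078895175) (nat_lit 4) (nat_lit 4) (nat_lit 5) (nat_lit 5) (nat_lit 5) (nat_lit 4) (nat_lit 380) (nat_lit 229) (nat_lit 171)) (XT.lf (nat_lit 0) (nat_lit 7564883330) (nat_lit 76) (nat_lit 30384505072) (nat_lit 76) (nat_lit 15460949947) (nat_lit 4) (nat_lit 4) (nat_lit 5) (nat_lit 5) (nat_lit 5) (nat_lit 4) (nat_lit 381) (nat_lit 229) (nat_lit 170)))) (XT.nd (nat_lit 78) (nat_lit 0) (nat_lit 0) (XT.lf (nat_lit 0) (nat_lit 12287647030) (nat_lit 76) (nat_lit 28830503658) (nat_lit 76) (nat_lit 13814858199) (nat_lit 4) (nat_lit 4) (nat_lit 5) (nat_lit 5) (nat_lit 5) (nat_lit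 4) (nat_lit 382) (nat_lit 229) (nat_lit 169)) (XT.nd (nat_lit 78) (nat_lit 0) (nat_lit 0) (XT.lf (nat_lit 0) (nat_lit 17118537221) (nat_lit 76) (nat_lit 27244235147) (nat_lit 76) (nat_lit 12139181597) (nat_lit 4) (nat_lit 4) (nat_lit 5) (nat_lit 5) (nat_lit 5) (nat_lit 4) (nat_lit 383) (nat_lit 229) (nat_lit 168)) (XT.lf (nat_lit 0) (nat_lit 22061775068) (nat_lit 76) (nat_lit 25624313480) (nat_lit 76) (nat_lit 10432455957) (nat_lit 4) (nat_lit 4) (nat_lit 5) (nat_lit 5) (nat_lit 5) (nat_lit 4) (nat_lit 384) (nat_lit 229) (nat_lit 167))))))) (XT.nd (nat_lit 858) (nat_lit 0) (nat_lit 0) (XT.nd (nat_lit 390) (nat_lit 152) (nat_lit 0) (XT.nd (nat_lit 156) (nat_lit 0) (nat_lit 0) (XT.nd (nat_lit 78) (nat_lit 0) (nat_lit 0) (XT.lf (nat_lit 0) (nat_lit 27121679905) (nat_lit 76) (nat_lit 23969323190) (nat_lit 76) (nat_lit 8693189967) (nat_lit 4) (nat_lit 4) (nat_lit 5) (nat_lit 5) (nat_lit 5) (nat_lit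 4) (nat_lit 385) (nat_lit 229) (nat_lit 166)) (XT.lf (nat_lit 0) (nat_lit 32302673009) (nat_lit 76) (nat_lit 22277818171) (nat_lit 76) (nat_lit 6919863879) (nat_lit 4) (nat_lit 4) (nat_lit 5) (nat_lit 5) (nat_lit 5) (nat_lit 4) (nat_lit 386) (nat_lit 229) (nat_lit 165))) (XT.nd (nat_lit 78) (nat_lit 0) (nat_lit 0) (XT.lf (nat_lit 0) (nat_lit 37609281460) (nat_lit 76) (nat_lit 20548320408) (nat_lit 76) (nat_lit 5110928185) (nat_lit 4) (nat_lit 4) (nat_lit 5) (nat_lit 5) (nat_lit 5) (nat_lit 4) (nat_lit 387) (nat_lit 229) (nat_lit 164)) (XT.nd (nat_lit 78) (nat_lit 0) (nat_lit 0) (XT.lf (nat_lit 0) (nat_lit 43046142102) (nat_lit 76) (nat_lit 18779318689) (nat_lit 76) (nat_lit 3264802261) (nat_lit 4) (nat_lit 4) (nat_lit 5) (nat_lit 5) (nat_lit 5) (nat_lit 4) (nat_lit 388) (nat_lit 229) (nat_lit 163)) (XT.lf (nat_lit 0) (nat_lit 48618005588) (nat_lit 76) (nat_lit 16969267285) (nat_lit 76) (nat_lit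 1379872988) (nat_lit 4) (nat_lit 4) (nat_lit 5) (nat_lit 5) (nat_lit 5) (nat_lit 4) (nat_lit 389) (nat_lit 229) (nat_lit 162))))) (XT.nd (nat_lit 234) (nat_lit 76) (nat_lit 0) (XT.nd (nat_lit 78) (nat_lit 0) (nat_lit 0) (XT.lf (nat_lit 0) (nat_lit 534861859) (nat_lit 152) (nat_lit 14576321682) (nat_lit 76) (nat_lit 53789477623) (nat_lit 3) (nat_lit 5) (nat_lit 5) (nat_lit 5) (nat_lit 4) (nat_lit 4) (nat_lit 390) (nat_lit 229) (nat_lit 161)) (XT.nd (nat_lit 78) (nat_lit 0) (nat_lit 0) (XT.lf (nat_lit 0) (nat_lit 2463980999) (nat_lit 152) (nat_lit 10730789402) (nat_lit 76) (nat_lit 57697475413) (nat_lit 3) (nat_lit 5) (nat_lit 5) (nat_lit 5) (nat_lit 4) (nat_lit 4) (nat_lit 391) (nat_lit 229) (nat_lit 160)) (XT.lf (nat_lit 0) (nat_lit 4436096360) (nat_lit 152) (nat_lit 6795919075) (nat_lit 76) (nat_lit 61712022518) (nat_lit 3) (nat_lit 5) (nat_lit 5) (nat_lit 5) (nat_lit 4) (nat_lit 4) (nat_lit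 392) (nat_lit 229) (nat_lit 159)))) (XT.nd (nat_lit 78) (nat_lit 76) (nat_lit 0) (XT.lf (nat_lit 0) (nat_lit 6452931151) (nat_lit 152) (nat_lit 2768272466) (nat_lit 76) (nat_lit 65836626796) (nat_lit 3) (nat_lit 5) (nat_lit 5) (nat_lit 5) (nat_lit 4) (nat_lit 4) (nat_lit 393) (nat_lit 229) (nat_lit 158)) (XT.nd (nat_lit 78) (nat_lit 0) (nat_lit 0) (XT.lf (nat_lit 0) (nat_lit 1382650213) (nat_lit 76) (nat_lit 7146888320) (nat_lit 152) (nat_lit 68705532935) (nat_lit 2) (nat_lit 5) (nat_lit 3) (nat_lit 5) (nat_lit 4) (nat_lit 4) (nat_lit 394) (nat_lit 229) (nat_lit 157)) (XT.lf (nat_lit 0) (nat_lit 5690554159) (nat_lit 76) (nat_lit 4991995696) (nat_lit 152) (nat_lit 68794669205) (nat_lit 2) (nat_lit 5) (nat_lit 3) (nat_lit 5) (nat_lit 4) (nat_lit 4) (nat_lit 395) (nat_lit 229) (nat_lit 156)))))) (XT.nd (nat_lit 468) (nat_lit 0) (nat_lit 0) (XT.nd (nat_lit 234) (nat_lit 0) (nat_lit 0) (XT.nd (nat_lit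 78) (nat_lit 0) (nat_lit 0) (XT.lf (nat_lit 0) (nat_lit 10104109510) (nat_lit 76) (nat_lit 2782596951) (nat_lit 152) (nat_lit 68900340080) (nat_lit 2) (nat_lit 5) (nat_lit 3) (nat_lit 5) (nat_lit 4) (nat_lit 4) (nat_lit 396) (nat_lit 229) (nat_lit 155)) (XT.nd (nat_lit 78) (nat_lit 0) (nat_lit 0) (XT.lf (nat_lit 0) (nat_lit 14627172769) (nat_lit 76) (nat_lit 516761544) (nat_lit 152) (nat_lit 69022637896) (nat_lit 2) (nat_lit 5) (nat_lit 3) (nat_lit 5) (nat_lit 4) (nat_lit 4) (nat_lit 397) (nat_lit 229) (nat_lit 154)) (XT.lf (nat_lit 0) (nat_lit 17473580451) (nat_lit 152) (nat_lit 67371553836) (nat_lit 0) (nat_lit 1772219733) (nat_lit 2) (nat_lit 5) (nat_lit 4) (nat_lit 4) (nat_lit 2) (nat_lit 4) (nat_lit 398) (nat_lit 229) (nat_lit 153)))) (XT.nd (nat_lit 78) (nat_lit 0) (nat_lit 0) (XT.lf (nat_lit 0) (nat_lit 19865839087) (nat_lit 152) (nat_lit 65165664585) (nat_lit 0) (nat_lit 4110385003)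 (nat_lit 2) (nat_lit 5) (nat_lit 4) (nat_lit 4) (nat_lit 2) (nat_lit 4) (nat_lit 399) (nat_lit 229) (nat_lit 152)) (XT.nd (nat_lit 78) (nat_lit 0) (nat_lit 0) (XT.lf (nat_lit 0) (nat_lit 22317833117) (nat_lit 152) (nat_lit 62914836783) (nat_lit 0) (nat_lit 6509861202) (nat_lit 2) (nat_lit 5) (nat_lit 4) (nat_lit 4) (nat_lit 2) (nat_lit 4) (nat_lit 400) (nat_lit 229) (nat_lit 151)) (XT.lf (nat_lit 0) (nat_lit 24831705059) (nat_lit 152) (nat_lit 60617103688) (nat_lit 0) (nat_lit 8972744959) (nat_lit 2) (nat_lit 5) (nat_lit 4) (nat_lit 4) (nat_lit 2) (nat_lit 4) (nat_lit 401) (nat_lit 229) (nat_lit 150))))) (XT.nd (nat_lit 34398) (nat_lit 0) (nat_lit 2356) (XT.nd (nat_lit 34242) (nat_lit 0) (nat_lit 2584) (XT.lf (nat_lit 0) (nat_lit 27409651501) (nat_lit 152) (nat_lit 58270457572) (nat_lit 0) (nat_lit 11501188308) (nat_lit 2) (nat_lit 5) (nat_lit 4) (nat_lit 4) (nat_lit 2) (nat_lit 4) (nat_lit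 402) (nat_lit 229) (nat_lit 149)) (XT.nd (nat_lit 78) (nat_lit 228) (nat_lit 0) (XT.lf (nat_lit 0) (nat_lit 4693985674) (nat_lit 228) (nat_lit 604924139) (nat_lit 228) (nat_lit 604924139) (nat_lit 39) (nat_lit 4) (nat_lit 42) (nat_lit 5) (nat_lit 42) (nat_lit 4) (nat_lit 320) (nat_lit 230) (nat_lit 230)) (XT.lf (nat_lit 0) (nat_lit 2135929180) (nat_lit 228) (nat_lit 8429457435) (nat_lit 0) (nat_lit 1468649188) (nat_lit 36) (nat_lit 5) (nat_lit 39) (nat_lit 4) (nat_lit 36) (nat_lit 4) (nat_lit 321) (nat_lit 230) (nat_lit 229)))) (XT.nd (nat_lit 78) (nat_lit 228) (nat_lit 0) (XT.lf (nat_lit 0) (nat_lit 5515550041) (nat_lit 228) (nat_lit 2552259075) (nat_lit 0) (nat_lit 4200425396) (nat_lit 36) (nat_lit 5) (nat_lit 39) (nat_lit 4) (nat_lit 36) (nat_lit 4) (nat_lit 322) (nat_lit 230) (nat_lit 228)) (XT.nd (nat_lit 78) (nat_lit 0) (nat_lit 0) (XT.lf (nat_lit 0) (nat_lit 3451340205) (nat_lit 228)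 (nat_lit 5501824861) (nat_lit 228) (nat_lit 3557724824) (nat_lit 33) (nat_lit 4) (nat_lit 36) (nat_lit 5) (nat_lit 36) (nat_lit 4) (nat_lit 323) (nat_lit 230) (nat_lit 227)) (XT.lf (nat_lit 0) (nat_lit 9571252803) (nat_lit 228) (nat_lit 2872971763) (nat_lit 228) (nat_lit 318216006) (nat_lit 33) (nat_lit 4) (nat_lit 36) (nat_lit 5) (nat_lit 36) (nat_lit 4) (nat_lit 324) (nat_lit 230) (nat_lit 226))))))))
noncomputable def xc38 : XT := (XT.nd (nat_lit 1716) (nat_lit 532) (nat_lit 0) (XT.nd (nat_lit 858) (nat_lit 532) (nat_lit 0) (XT.nd (nat_lit 390) (nat_lit 532) (nat_lit 0) (XT.nd (nat_lit 156) (nat_lit 228) (nat_lit 0) (XT.nd (nat_lit 78) (nat_lit 0) (nat_lit 0) (XT.lf (nat_lit 0) (nat_lit 2763817309) (nat_lit 152) (nat_lit 148223428) (nat_lit 228) (nat_lit 10110170591) (nat_lit 30) (nat_lit 5) (nat_lit 32) (nat_lit 5) (nat_lit 33) (nat_lit 4) (nat_lit 325) (nat_lit 230) (nat_lit 225)) (XT.lf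 (nat_lit 0) (nat_lit 6217486615) (nat_lit 228) (nat_lit 4470065111) (nat_lit 0) (nat_lit 2602703147) (nat_lit 30) (nat_lit 5) (nat_lit 33) (nat_lit 4) (nat_lit 30) (nat_lit 4) (nat_lit 326) (nat_lit 230) (nat_lit 224))) (XT.nd (nat_lit 78) (nat_lit 76) (nat_lit 0) (XT.lf (nat_lit 0) (nat_lit 1406114756) (nat_lit 152) (nat_lit 8159684106) (nat_lit 152) (nat_lit 4002340941) (nat_lit 28) (nat_lit 4) (nat_lit 30) (nat_lit 5) (nat_lit 30) (nat_lit 4) (nat_lit 327) (nat_lit 230) (nat_lit 223)) (XT.nd (nat_lit 78) (nat_lit 76) (nat_lit 0) (XT.lf (nat_lit 0) (nat_lit 7439538041) (nat_lit 152) (nat_lit 5549892610) (nat_lit 152) (nat_lit 865792457) (nat_lit 28) (nat_lit 4) (nat_lit 30) (nat_lit 5) (nat_lit 30) (nat_lit 4) (nat_lit 328) (nat_lit 230) (nat_lit 222)) (XT.lf (nat_lit 0) (nat_lit 2249705424) (nat_lit 228) (nat_lit 628612692) (nat_lit 76) (nat_lit 11274090566) (nat_lit 27) (nat_lit 5) (nat_lit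 30) (nat_lit 5) (nat_lit 28) (nat_lit 4) (nat_lit 329) (nat_lit 230) (nat_lit 221))))) (XT.nd (nat_lit 234) (nat_lit 228) (nat_lit 0) (XT.nd (nat_lit 78) (nat_lit 152) (nat_lit 0) (XT.lf (nat_lit 0) (nat_lit 5321590234) (nat_lit 152) (nat_lit 103840268) (nat_lit 228) (nat_lit 9033396014) (nat_lit 25) (nat_lit 5) (nat_lit 27) (nat_lit 5) (nat_lit 28) (nat_lit 4) (nat_lit 330) (nat_lit 230) (nat_lit 220)) (XT.nd (nat_lit 78) (nat_lit 152) (nat_lit 0) (XT.lf (nat_lit 0) (nat_lit 8662892156) (nat_lit 228) (nat_lit 3444017583) (nat_lit 0) (nat_lit 2668629096) (nat_lit 25) (nat_lit 5) (nat_lit 28) (nat_lit 4) (nat_lit 25) (nat_lit 4) (nat_lit 331) (nat_lit 230) (nat_lit 219)) (XT.lf (nat_lit 0) (nat_lit 2361733569) (nat_lit 152) (nat_lit 9594991450) (nat_lit 152) (nat_lit 3146343185) (nat_lit 23) (nat_lit 4) (nat_lit 25) (nat_lit 5) (nat_lit 25) (nat_lit 4) (nat_lit 332) (nat_lit 230) (nat_lit 218))))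 (XT.nd (nat_lit 78) (nat_lit 228) (nat_lit 0) (XT.lf (nat_lit 0) (nat_lit 8309947286) (nat_lit 152) (nat_lit 7010614914) (nat_lit 152) (nat_lit 120815965) (nat_lit 23) (nat_lit 4) (nat_lit 25) (nat_lit 5) (nat_lit 25) (nat_lit 4) (nat_lit 333) (nat_lit 230) (nat_lit 217)) (XT.nd (nat_lit 78) (nat_lit 152) (nat_lit 0) (XT.lf (nat_lit 0) (nat_lit 2874590826) (nat_lit 228) (nat_lit 1482681207) (nat_lit 76) (nat_lit 11433659775) (nat_lit 22) (nat_lit 5) (nat_lit 25) (nat_lit 5) (nat_lit 23) (nat_lit 4) (nat_lit 334) (nat_lit 230) (nat_lit 216)) (XT.lf (nat_lit 0) (nat_lit 4320926512) (nat_lit 152) (nat_lit 1617425176) (nat_lit 228) (nat_lit 10213239602) (nat_lit 20) (nat_lit 5) (nat_lit 22) (nat_lit 5) (nat_lit 23) (nat_lit 4) (nat_lit 335) (nat_lit 230) (nat_lit 215)))))) (XT.nd (nat_lit 390) (nat_lit 304) (nat_lit 0) (XT.nd (nat_lit 156) (nat_lit 228) (nat_lit 0) (XT.nd (nat_lit 78) (nat_lit 0)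 (nat_lit 0) (XT.lf (nat_lit 0) (nat_lit 9060589831) (nat_lit 228) (nat_lit 6303598334) (nat_lit 0) (nat_lit 1159965768) (nat_lit 20) (nat_lit 5) (nat_lit 23) (nat_lit 4) (nat_lit 20) (nat_lit 4) (nat_lit 336) (nat_lit 230) (nat_lit 214)) (XT.lf (nat_lit 0) (nat_lit 12234125273) (nat_lit 228) (nat_lit 722156494) (nat_lit 0) (nat_lit 3952960754) (nat_lit 20) (nat_lit 5) (nat_lit 23) (nat_lit 4) (nat_lit 20) (nat_lit 4) (nat_lit 337) (nat_lit 230) (nat_lit 213))) (XT.nd (nat_lit 78) (nat_lit 76) (nat_lit 0) (XT.lf (nat_lit 0) (nat_lit 5032283382) (nat_lit 152) (nat_lit 10462273331) (nat_lit 152) (nat_lit 1811652058) (nat_lit 18) (nat_lit 4) (nat_lit 20) (nat_lit 5) (nat_lit 20) (nat_lit 4) (nat_lit 338) (nat_lit 230) (nat_lit 212)) (XT.nd (nat_lit 78) (nat_lit 0) (nat_lit 0) (XT.lf (nat_lit 0) (nat_lit 1066340737) (nat_lit 228) (nat_lit 6844645452) (nat_lit 76) (nat_lit 9805316343) (nat_lit 17)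 (nat_lit 5) (nat_lit 20) (nat_lit 5) (nat_lit 18) (nat_lit 4) (nat_lit 339) (nat_lit 230) (nat_lit 211)) (XT.lf (nat_lit 0) (nat_lit 3939367741) (nat_lit 228) (nat_lit 1360649059) (nat_lit 76) (nat_lit 12839860264) (nat_lit 17) (nat_lit 5) (nat_lit 20) (nat_lit 5) (nat_lit 18) (nat_lit 4) (nat_lit 340) (nat_lit 230) (nat_lit 210))))) (XT.nd (nat_lit 234) (nat_lit 228) (nat_lit 0) (XT.nd (nat_lit 78) (nat_lit 0) (nat_lit 0) (XT.lf (nat_lit 0) (nat_lit 4283863956) (nat_lit 76) (nat_lit 2602606386) (nat_lit 152) (nat_lit 11690119204) (nat_lit 16) (nat_lit 5) (nat_lit 17) (nat_lit 5) (nat_lit 18) (nat_lit 4) (nat_lit 341) (nat_lit 230) (nat_lit 209)) (XT.nd (nat_lit 78) (nat_lit 0) (nat_lit 0) (XT.lf (nat_lit 0) (nat_lit 9884646898) (nat_lit 152) (nat_lit 8990264381) (nat_lit 0) (nat_lit 152677597) (nat_lit 16) (nat_lit 5) (nat_lit 18) (nat_lit 4) (nat_lit 16) (nat_lit 4) (nat_lit 342) (nat_lit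 230) (nat_lit 208)) (XT.lf (nat_lit 0) (nat_lit 12947173791) (nat_lit 152) (nat_lit 3639985366) (nat_lit 0) (nat_lit 2905790276) (nat_lit 16) (nat_lit 5) (nat_lit 18) (nat_lit 4) (nat_lit 16) (nat_lit 4) (nat_lit 343) (nat_lit 230) (nat_lit 207)))) (XT.nd (nat_lit 78) (nat_lit 76) (nat_lit 0) (XT.lf (nat_lit 0) (nat_lit 1823385110) (nat_lit 152) (nat_lit 14245851554) (nat_lit 152) (nat_lit 3904065889) (nat_lit 14) (nat_lit 4) (nat_lit 16) (nat_lit 5) (nat_lit 16) (nat_lit 4) (nat_lit 344) (nat_lit 230) (nat_lit 206)) (XT.nd (nat_lit 78) (nat_lit 76) (nat_lit 0) (XT.lf (nat_lit 0) (nat_lit 7443088818) (nat_lit 152) (nat_lit 11829424446) (nat_lit 152) (nat_lit 1195986208) (nat_lit 14) (nat_lit 4) (nat_lit 16) (nat_lit 5) (nat_lit 16) (nat_lit 4) (nat_lit 345) (nat_lit 230) (nat_lit 205)) (XT.lf (nat_lit 0) (nat_lit 1513942543) (nat_lit 228) (nat_lit 7843292712) (nat_lit 76) (nat_lit 11622362935)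 (nat_lit 13) (nat_lit 5) (nat_lit 16) (nat_lit 5) (nat_lit 14) (nat_lit 4) (nat_lit 346) (nat_lit 230) (nat_lit 204))))))) (XT.nd (nat_lit 858) (nat_lit 152) (nat_lit 0) (XT.nd (nat_lit 390) (nat_lit 304) (nat_lit 0) (XT.nd (nat_lit 156) (nat_lit 0) (nat_lit 0) (XT.nd (nat_lit 78) (nat_lit 76) (nat_lit 0) (XT.lf (nat_lit 0) (nat_lit 4234236263) (nat_lit 228) (nat_lit 2596006981) (nat_lit 76) (nat_lit 14676892911) (nat_lit 13) (nat_lit 5) (nat_lit 16) (nat_lit 5) (nat_lit 14) (nat_lit 4) (nat_lit 347) (nat_lit 230) (nat_lit 203)) (XT.lf (nat_lit 0) (nat_lit 2786910761) (nat_lit 76) (nat_lit 4230488636) (nat_lit 152) (nat_lit 15033716141) (nat_lit 12) (nat_lit 5) (nat_lit 13) (nat_lit 5) (nat_lit 14) (nat_lit 4) (nat_lit 348) (nat_lit 230) (nat_lit 202))) (XT.nd (nat_lit 78) (nat_lit 0) (nat_lit 0) (XT.lf (nat_lit 0) (nat_lit 8309109167) (nat_lit 76) (nat_lit 1556235028) (nat_lit 152) (nat_lit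 12746683053) (nat_lit 12) (nat_lit 5) (nat_lit 13) (nat_lit 5) (nat_lit 14) (nat_lit 4) (nat_lit 349) (nat_lit 230) (nat_lit 201)) (XT.nd (nat_lit 78) (nat_lit 0) (nat_lit 0) (XT.lf (nat_lit 0) (nat_lit 12766341782) (nat_lit 152) (nat_lit 9278610786) (nat_lit 0) (nat_lit 1145835354) (nat_lit 12) (nat_lit 5) (nat_lit 14) (nat_lit 4) (nat_lit 12) (nat_lit 4) (nat_lit 350) (nat_lit 230) (nat_lit 200)) (XT.lf (nat_lit 0) (nat_lit 15727152486) (nat_lit 152) (nat_lit 4191118196) (nat_lit 0) (nat_lit 3869505827) (nat_lit 12) (nat_lit 5) (nat_lit 14) (nat_lit 4) (nat_lit 12) (nat_lit 4) (nat_lit 351) (nat_lit 230) (nat_lit 199))))) (XT.nd (nat_lit 234) (nat_lit 152) (nat_lit 0) (XT.nd (nat_lit 78) (nat_lit 0) (nat_lit 0) (XT.lf (nat_lit 0) (nat_lit 998447866) (nat_lit 152) (nat_lit 17746553767) (nat_lit 152) (nat_lit 5658673873) (nat_lit 10) (nat_lit 4) (nat_lit 12) (nat_lit 5) (nat_lit 12) (nat_lit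 4) (nat_lit 352) (nat_lit 230) (nat_lit 198)) (XT.nd (nat_lit 78) (nat_lit 0) (nat_lit 0) (XT.lf (nat_lit 0) (nat_lit 6360266721) (nat_lit 152) (nat_lit 15494596769) (nat_lit 152) (nat_lit 3183189464) (nat_lit 10) (nat_lit 4) (nat_lit 12) (nat_lit 5) (nat_lit 12) (nat_lit 4) (nat_lit 353) (nat_lit 230) (nat_lit 197)) (XT.lf (nat_lit 0) (nat_lit 11815611982) (nat_lit 152) (nat_lit 13202754038) (nat_lit 152) (nat_lit 674329829) (nat_lit 10) (nat_lit 4) (nat_lit 12) (nat_lit 5) (nat_lit 12) (nat_lit 4) (nat_lit 354) (nat_lit 230) (nat_lit 196)))) (XT.nd (nat_lit 78) (nat_lit 76) (nat_lit 0) (XT.lf (nat_lit 0) (nat_lit 1833604908) (nat_lit 228) (nat_lit 9016902270) (nat_lit 76) (nat_lit 15517129734) (nat_lit 9) (nat_lit 5) (nat_lit 12) (nat_lit 5) (nat_lit 10) (nat_lit 4) (nat_lit 355) (nat_lit 230) (nat_lit 195)) (XT.nd (nat_lit 78) (nat_lit 76) (nat_lit 0) (XT.lf (nat_lit 0) (nat_lit 4365434328)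 (nat_lit 228) (nat_lit 4081847792) (nat_lit 76) (nat_lit 18616518181) (nat_lit 9) (nat_lit 5) (nat_lit 12) (nat_lit 5) (nat_lit 10) (nat_lit 4) (nat_lit 356) (nat_lit 230) (nat_lit 194)) (XT.lf (nat_lit 0) (nat_lit 957559248) (nat_lit 76) (nat_lit 5988174711) (nat_lit 152) (nat_lit 20835978683) (nat_lit 8) (nat_lit 5) (nat_lit 9) (nat_lit 5) (nat_lit 10) (nat_lit 4) (nat_lit 357) (nat_lit 230) (nat_lit 193)))))) (XT.nd (nat_lit 468) (nat_lit 76) (nat_lit 0) (XT.nd (nat_lit 234) (nat_lit 76) (nat_lit 0) (XT.nd (nat_lit 78) (nat_lit 0) (nat_lit 0) (XT.lf (nat_lit 0) (nat_lit 6170049490) (nat_lit 76) (nat_lit 3438397253) (nat_lit 152) (nat_lit 18912603841) (nat_lit 8) (nat_lit 5) (nat_lit 9) (nat_lit 5) (nat_lit 10) (nat_lit 4) (nat_lit 358) (nat_lit 230) (nat_lit 192)) (XT.nd (nat_lit 78) (nat_lit 0) (nat_lit 0) (XT.lf (nat_lit 0) (nat_lit 11478940762) (nat_lit 76) (nat_lit 836940444) (nat_lit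 152) (nat_lit 16967779489) (nat_lit 8) (nat_lit 5) (nat_lit 9) (nat_lit 5) (nat_lit 10) (nat_lit 4) (nat_lit 359) (nat_lit 230) (nat_lit 191)) (XT.lf (nat_lit 0) (nat_lit 15087883303) (nat_lit 152) (nat_lit 13198817668) (nat_lit 0) (nat_lit 1782983955) (nat_lit 8) (nat_lit 5) (nat_lit 10) (nat_lit 4) (nat_lit 8) (nat_lit 4) (nat_lit 360) (nat_lit 230) (nat_lit 190)))) (XT.nd (nat_lit 78) (nat_lit 76) (nat_lit 0) (XT.lf (nat_lit 0) (nat_lit 17917965774) (nat_lit 152) (nat_lit 8520360326) (nat_lit 0) (nat_lit 4441751278) (nat_lit 8) (nat_lit 5) (nat_lit 10) (nat_lit 4) (nat_lit 8) (nat_lit 4) (nat_lit 361) (nat_lit 230) (nat_lit 189)) (XT.nd (nat_lit 78) (nat_lit 76) (nat_lit 0) (XT.lf (nat_lit 0) (nat_lit 20800556323) (nat_lit 152) (nat_lit 3757214751) (nat_lit 0) (nat_lit 7158016440) (nat_lit 8) (nat_lit 5) (nat_lit 10) (nat_lit 4) (nat_lit 8) (nat_lit 4) (nat_lit 362) (nat_lit 230) (nat_lit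 188)) (XT.lf (nat_lit 0) (nat_lit 1116569317) (nat_lit 76) (nat_lit 22632337549) (nat_lit 76) (nat_lit 8828316708) (nat_lit 7) (nat_lit 4) (nat_lit 8) (nat_lit 5) (nat_lit 8) (nat_lit 4) (nat_lit 363) (nat_lit 230) (nat_lit 187))))) (XT.nd (nat_lit 234) (nat_lit 76) (nat_lit 0) (XT.nd (nat_lit 78) (nat_lit 0) (nat_lit 0) (XT.lf (nat_lit 0) (nat_lit 6160071808) (nat_lit 76) (nat_lit 20632527381) (nat_lit 76) (nat_lit 6671728910) (nat_lit 7) (nat_lit 4) (nat_lit 8) (nat_lit 5) (nat_lit 8) (nat_lit 4) (nat_lit 364) (nat_lit 230) (nat_lit 186)) (XT.nd (nat_lit 78) (nat_lit 0) (nat_lit 0) (XT.lf (nat_lit 0) (nat_lit 11302923726) (nat_lit 76) (nat_lit 18594533666) (nat_lit 76) (nat_lit 4481523904) (nat_lit 7) (nat_lit 4) (nat_lit 8) (nat_lit 5) (nat_lit 8) (nat_lit 4) (nat_lit 365) (nat_lit 230) (nat_lit 185)) (XT.lf (nat_lit 0) (nat_lit 16549618824) (nat_lit 76) (nat_lit 16516575631) (nat_lit 76)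 (nat_lit 2255787918) (nat_lit 7) (nat_lit 4) (nat_lit 8) (nat_lit 5) (nat_lit 8) (nat_lit 4) (nat_lit 366) (nat_lit 230) (nat_lit 184)))) (XT.nd (nat_lit 78) (nat_lit 0) (nat_lit 0) (XT.lf (nat_lit 0) (nat_lit 7278998) (nat_lit 152) (nat_lit 14389485085) (nat_lit 76) (nat_lit 21897389091) (nat_lit 6) (nat_lit 5) (nat_lit 8) (nat_lit 5) (nat_lit 7) (nat_lit 4) (nat_lit 367) (nat_lit 230) (nat_lit 183)) (XT.nd (nat_lit 78) (nat_lit 0) (nat_lit 0) (XT.lf (nat_lit 0) (nat_lit 2265010853) (nat_lit 152) (nat_lit 9945584313) (nat_lit 76) (nat_lit 25085088246) (nat_lit 6) (nat_lit 5) (nat_lit 8) (nat_lit 5) (nat_lit 7) (nat_lit 4) (nat_lit 368) (nat_lit 230) (nat_lit 182)) (XT.lf (nat_lit 0) (nat_lit 4563398968) (nat_lit 152) (nat_lit 5415094200) (nat_lit 76) (nat_lit 28349605562) (nat_lit 6) (nat_lit 5) (nat_lit 8) (nat_lit 5) (nat_lit 7) (nat_lit 4) (nat_lit 369) (nat_lit 230) (nat_lit 181))))))))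
noncomputable def xc39 : XT := (XT.nd (nat_lit 1794) (nat_lit 76) (nat_lit 0) (XT.nd (nat_lit 858) (nat_lit 76) (nat_lit 0) (XT.nd (nat_lit 390) (nat_lit 76) (nat_lit 0) (XT.nd (nat_lit 156) (nat_lit 0) (nat_lit 0) (XT.nd (nat_lit 78) (nat_lit 76) (nat_lit 0) (XT.lf (nat_lit 0) (nat_lit 6904451642) (nat_lit 152) (nat_lit 794056067) (nat_lit 76) (nat_lit 31693793530) (nat_lit 6) (nat_lit 5) (nat_lit 8) (nat_lit 5) (nat_lit 7) (nat_lit 4) (nat_lit 370) (nat_lit 230) (nat_lit 180)) (XT.lf (nat_lit 0) (nat_lit 3999614777) (nat_lit 76) (nat_lit 5329046424) (nat_lit 152) (nat_lit 31159406222) (nat_lit 5) (nat_lit 5) (nat_lit 6) (nat_lit 5) (nat_lit 7) (nat_lit 4) (nat_lit 371) (nat_lit 230) (nat_lit 179))) (XT.nd (nat_lit 78) (nat_lit 0) (nat_lit 0) (XT.lf (nat_lit 0) (nat_lit 8909759612) (nat_lit 76) (nat_lit 2898658507) (nat_lit 152) (nat_lit 29808828461) (nat_lit 5) (nat_lit 5) (nat_lit 6) (nat_lit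 5) (nat_lit 7) (nat_lit 4) (nat_lit 372) (nat_lit 230) (nat_lit 178)) (XT.nd (nat_lit 78) (nat_lit 0) (nat_lit 0) (XT.lf (nat_lit 0) (nat_lit 13924865583) (nat_lit 76) (nat_lit 413238728) (nat_lit 152) (nat_lit 28442954607) (nat_lit 5) (nat_lit 5) (nat_lit 6) (nat_lit 5) (nat_lit 7) (nat_lit 4) (nat_lit 373) (nat_lit 230) (nat_lit 177)) (XT.lf (nat_lit 0) (nat_lit 16940399129) (nat_lit 152) (nat_lit 24951675487) (nat_lit 0) (nat_lit 2087832674) (nat_lit 5) (nat_lit 5) (nat_lit 7) (nat_lit 4) (nat_lit 5) (nat_lit 4) (nat_lit 374) (nat_lit 230) (nat_lit 176))))) (XT.nd (nat_lit 234) (nat_lit 76) (nat_lit 0) (XT.nd (nat_lit 78) (nat_lit 0) (nat_lit 0) (XT.lf (nat_lit 0) (nat_lit 19601633127) (nat_lit 152) (nat_lit 20974578411) (nat_lit 0) (nat_lit 4639105997) (nat_lit 5) (nat_lit 5) (nat_lit 7) (nat_lit 4) (nat_lit 5) (nat_lit 4) (nat_lit 375) (nat_lit 230) (nat_lit 175)) (XT.nd (nat_lit 78) (nat_lit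 0) (nat_lit 0) (XT.lf (nat_lit 0) (nat_lit 22320159350) (nat_lit 152) (nat_lit 16917454671) (nat_lit 0) (nat_lit 7250874284) (nat_lit 5) (nat_lit 5) (nat_lit 7) (nat_lit 4) (nat_lit 5) (nat_lit 4) (nat_lit 376) (nat_lit 230) (nat_lit 174)) (XT.lf (nat_lit 0) (nat_lit 25098353211) (nat_lit 152) (nat_lit 12776759208) (nat_lit 0) (nat_lit 9925419662) (nat_lit 5) (nat_lit 5) (nat_lit 7) (nat_lit 4) (nat_lit 5) (nat_lit 4) (nat_lit 377) (nat_lit 230) (nat_lit 173)))) (XT.nd (nat_lit 78) (nat_lit 76) (nat_lit 0) (XT.lf (nat_lit 0) (nat_lit 27938642256) (nat_lit 152) (nat_lit 8548873937) (nat_lit 0) (nat_lit 12665079113) (nat_lit 5) (nat_lit 5) (nat_lit 7) (nat_lit 4) (nat_lit 5) (nat_lit 4) (nat_lit 378) (nat_lit 230) (nat_lit 172)) (XT.nd (nat_lit 78) (nat_lit 76) (nat_lit 0) (XT.lf (nat_lit 0) (nat_lit 30843508293) (nat_lit 152) (nat_lit 4230104590) (nat_lit 0) (nat_lit 15472246515) (nat_lit 5)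 (nat_lit 5) (nat_lit 7) (nat_lit 4) (nat_lit 5) (nat_lit 4) (nat_lit 379) (nat_lit 230) (nat_lit 171)) (XT.lf (nat_lit 0) (nat_lit 186970991) (nat_lit 76) (nat_lit 33630315842) (nat_lit 76) (nat_lit 18164201019) (nat_lit 4) (nat_lit 4) (nat_lit 5) (nat_lit 5) (nat_lit 5) (nat_lit 4) (nat_lit 380) (nat_lit 230) (nat_lit 170)))))) (XT.nd (nat_lit 468) (nat_lit 76) (nat_lit 0) (XT.nd (nat_lit 234) (nat_lit 0) (nat_lit 0) (XT.nd (nat_lit 78) (nat_lit 0) (nat_lit 0) (XT.lf (nat_lit 0) (nat_lit 4788708724) (nat_lit 76) (nat_lit 32114506188) (nat_lit 76) (nat_lit 16556301031) (nat_lit 4) (nat_lit 4) (nat_lit 5) (nat_lit 5) (nat_lit 5) (nat_lit 4) (nat_lit 381) (nat_lit 230) (nat_lit 169)) (XT.nd (nat_lit 78) (nat_lit 0) (nat_lit 0) (XT.lf (nat_lit 0) (nat_lit 9494942168) (nat_lit 76) (nat_lit 30567575190) (nat_lit 76) (nat_lit 14919961942) (nat_lit 4) (nat_lit 4) (nat_lit 5) (nat_lit 5) (nat_lit 5)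 (nat_lit 4) (nat_lit 382) (nat_lit 230) (nat_lit 168)) (XT.lf (nat_lit 0) (nat_lit 14309783566) (nat_lit 76) (nat_lit 28988171161) (nat_lit 76) (nat_lit 13253753941) (nat_lit 4) (nat_lit 4) (nat_lit 5) (nat_lit 5) (nat_lit 5) (nat_lit 4) (nat_lit 383) (nat_lit 230) (nat_lit 167)))) (XT.nd (nat_lit 78) (nat_lit 0) (nat_lit 0) (XT.lf (nat_lit 0) (nat_lit 19237440060) (nat_lit 76) (nat_lit 27374914040) (nat_lit 76) (nat_lit 11556221119) (nat_lit 4) (nat_lit 4) (nat_lit 5) (nat_lit 5) (nat_lit 5) (nat_lit 4) (nat_lit 384) (nat_lit 230) (nat_lit 166)) (XT.nd (nat_lit 78) (nat_lit 0) (nat_lit 0) (XT.lf (nat_lit 0) (nat_lit 24282217371) (nat_lit 76) (nat_lit 25726394184) (nat_lit 76) (nat_lit 9825880193) (nat_lit 4) (nat_lit 4) (nat_lit 5) (nat_lit 5) (nat_lit 5) (nat_lit 4) (nat_lit 385) (nat_lit 230) (nat_lit 165)) (XT.lf (nat_lit 0) (nat_lit 29448523556) (nat_lit 76) (nat_lit 24041171138) (nat_lit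 76) (nat_lit 8061219217) (nat_lit 4) (nat_lit 4) (nat_lit 5) (nat_lit 5) (nat_lit 5) (nat_lit 4) (nat_lit 386) (nat_lit 230) (nat_lit 164))))) (XT.nd (nat_lit 234) (nat_lit 76) (nat_lit 0) (XT.nd (nat_lit 78) (nat_lit 0) (nat_lit 0) (XT.lf (nat_lit 0) (nat_lit 34740872863) (nat_lit 76) (nat_lit 22317772379) (nat_lit 76) (nat_lit 6260696252) (nat_lit 4) (nat_lit 4) (nat_lit 5) (nat_lit 5) (nat_lit 5) (nat_lit 4) (nat_lit 387) (nat_lit 230) (nat_lit 163)) (XT.nd (nat_lit 78) (nat_lit 0) (nat_lit 0) (XT.lf (nat_lit 0) (nat_lit 40163889675) (nat_lit 76) (nat_lit 20554692023) (nat_lit 76) (nat_lit 4422738028) (nat_lit 4) (nat_lit 4) (nat_lit 5) (nat_lit 5) (nat_lit 5) (nat_lit 4) (nat_lit 388) (nat_lit 230) (nat_lit 162)) (XT.lf (nat_lit 0) (nat_lit 45722312550) (nat_lit 76) (nat_lit 18750389514) (nat_lit 76) (nat_lit 2545738559) (nat_lit 4) (nat_lit 4) (nat_lit 5) (nat_lit 5) (nat_lit 5) (nat_lit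 4) (nat_lit 389) (nat_lit 230) (nat_lit 161)))) (XT.nd (nat_lit 78) (nat_lit 76) (nat_lit 0) (XT.lf (nat_lit 0) (nat_lit 51420998363) (nat_lit 76) (nat_lit 16903288279) (nat_lit 76) (nat_lit 628057751) (nat_lit 4) (nat_lit 4) (nat_lit 5) (nat_lit 5) (nat_lit 5) (nat_lit 4) (nat_lit 390) (nat_lit 230) (nat_lit 160)) (XT.nd (nat_lit 78) (nat_lit 0) (nat_lit 0) (XT.lf (nat_lit 0) (nat_lit 1305988312) (nat_lit 152) (nat_lit 13692598111) (nat_lit 76) (nat_lit 55945750314) (nat_lit 3) (nat_lit 5) (nat_lit 5) (nat_lit 5) (nat_lit 4) (nat_lit 4) (nat_lit 391) (nat_lit 230) (nat_lit 159)) (XT.lf (nat_lit 0) (nat_lit 3270988387) (nat_lit 152) (nat_lit 9770175975) (nat_lit 76) (nat_lit 59955184493) (nat_lit 3) (nat_lit 5) (nat_lit 5) (nat_lit 5) (nat_lit 4) (nat_lit 4) (nat_lit 392) (nat_lit 230) (nat_lit 158))))))) (XT.nd (nat_lit 34866) (nat_lit 0) (nat_lit 1748) (XT.nd (nat_lit 390) (nat_lit 0) (nat_lit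 0) (XT.nd (nat_lit 156) (nat_lit 76) (nat_lit 0) (XT.nd (nat_lit 78) (nat_lit 0) (nat_lit 0) (XT.lf (nat_lit 0) (nat_lit 5280915133) (nat_lit 152) (nat_lit 5754614988) (nat_lit 76) (nat_lit 64074824765) (nat_lit 3) (nat_lit 5) (nat_lit 5) (nat_lit 5) (nat_lit 4) (nat_lit 4) (nat_lit 393) (nat_lit 230) (nat_lit 157)) (XT.lf (nat_lit 0) (nat_lit 7337524796) (nat_lit 152) (nat_lit 1642406408) (nat_lit 76) (nat_lit 68308270814) (nat_lit 3) (nat_lit 5) (nat_lit 5) (nat_lit 5) (nat_lit 4) (nat_lit 4) (nat_lit 394) (nat_lit 230) (nat_lit 156))) (XT.nd (nat_lit 78) (nat_lit 0) (nat_lit 0) (XT.lf (nat_lit 0) (nat_lit 2621191851) (nat_lit 76) (nat_lit 6846619063) (nat_lit 152) (nat_lit 70063226418) (nat_lit 2) (nat_lit 5) (nat_lit 3) (nat_lit 5) (nat_lit 4) (nat_lit 4) (nat_lit 395) (nat_lit 230) (nat_lit 155)) (XT.nd (nat_lit 78) (nat_lit 0) (nat_lit 0) (XT.lf (nat_lit 0) (nat_lit 7023467028) (nat_lit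 76) (nat_lit 4642070220) (nat_lit 152) (nat_lit 70175526266) (nat_lit 2) (nat_lit 5) (nat_lit 3) (nat_lit 5) (nat_lit 4) (nat_lit 4) (nat_lit 396) (nat_lit 230) (nat_lit 154)) (XT.lf (nat_lit 0) (nat_lit 11535578663) (nat_lit 76) (nat_lit 2380943455) (nat_lit 152) (nat_lit 70304259977) (nat_lit 2) (nat_lit 5) (nat_lit 3) (nat_lit 5) (nat_lit 4) (nat_lit 4) (nat_lit 397) (nat_lit 230) (nat_lit 153))))) (XT.nd (nat_lit 234) (nat_lit 0) (nat_lit 0) (XT.nd (nat_lit 78) (nat_lit 0) (nat_lit 0) (XT.lf (nat_lit 0) (nat_lit 16161469378) (nat_lit 76) (nat_lit 61263027) (nat_lit 152) (nat_lit 70449540037) (nat_lit 2) (nat_lit 5) (nat_lit 3) (nat_lit 5) (nat_lit 4) (nat_lit 4) (nat_lit 398) (nat_lit 230) (nat_lit 152)) (XT.nd (nat_lit 78) (nat_lit 0) (nat_lit 0) (XT.lf (nat_lit 0) (nat_lit 18608474869) (nat_lit 152) (nat_lit 68314787047) (nat_lit 0) (nat_lit 2273745966) (nat_lit 2) (nat_lit 5) (nat_lit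 4) (nat_lit 4) (nat_lit 2) (nat_lit 4) (nat_lit 399) (nat_lit 230) (nat_lit 151)) (XT.lf (nat_lit 0) (nat_lit 21054714264) (nat_lit 152) (nat_lit 66074116654) (nat_lit 0) (nat_lit 4668997176) (nat_lit 2) (nat_lit 5) (nat_lit 4) (nat_lit 4) (nat_lit 2) (nat_lit 4) (nat_lit 400) (nat_lit 230) (nat_lit 150)))) (XT.nd (nat_lit 78) (nat_lit 0) (nat_lit 0) (XT.lf (nat_lit 0) (nat_lit 23562999182) (nat_lit 152) (nat_lit 63786245121) (nat_lit 0) (nat_lit 7127779002) (nat_lit 2) (nat_lit 5) (nat_lit 4) (nat_lit 4) (nat_lit 2) (nat_lit 4) (nat_lit 401) (nat_lit 230) (nat_lit 149)) (XT.nd (nat_lit 34086) (nat_lit 0) (nat_lit 3040) (XT.lf (nat_lit 0) (nat_lit 26135521329) (nat_lit 152) (nat_lit 61449173337) (nat_lit 0) (nat_lit 9652239894) (nat_lit 2) (nat_lit 5) (nat_lit 4) (nat_lit 4) (nat_lit 2) (nat_lit 4) (nat_lit 402) (nat_lit 230) (nat_lit 148)) (XT.lf (nat_lit 0) (nat_lit 2159295363) (nat_lit 304)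 (nat_lit 1369278740) (nat_lit 0) (nat_lit 2159295363) (nat_lit 42) (nat_lit 5) (nat_lit 46) (nat_lit 4) (nat_lit 42) (nat_lit 4) (nat_lit 318) (nat_lit 231) (nat_lit 231)))))) (XT.nd (nat_lit 468) (nat_lit 532) (nat_lit 0) (XT.nd (nat_lit 234) (nat_lit 304) (nat_lit 0) (XT.nd (nat_lit 78) (nat_lit 228) (nat_lit 0) (XT.lf (nat_lit 0) (nat_lit 3236974817) (nat_lit 228) (nat_lit 4529618696) (nat_lit 228) (nat_lit 3821701352) (nat_lit 39) (nat_lit 4) (nat_lit 42) (nat_lit 5) (nat_lit 42) (nat_lit 4) (nat_lit 319) (nat_lit 231) (nat_lit 230)) (XT.nd (nat_lit 78) (nat_lit 228) (nat_lit 0) (XT.lf (nat_lit 0) (nat_lit 9329777681) (nat_lit 228) (nat_lit 1937169514) (nat_lit 228) (nat_lit 541953777) (nat_lit 39) (nat_lit 4) (nat_lit 42) (nat_lit 5) (nat_lit 42) (nat_lit 4) (nat_lit 320) (nat_lit 231) (nat_lit 229)) (XT.lf (nat_lit 0) (nat_lit 2744359593) (nat_lit 228) (nat_lit 8550238437) (nat_lit 0)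 (nat_lit 741936554) (nat_lit 36) (nat_lit 5) (nat_lit 39) (nat_lit 4) (nat_lit 36) (nat_lit 4) (nat_lit 321) (nat_lit 231) (nat_lit 228)))) (XT.nd (nat_lit 78) (nat_lit 304) (nat_lit 0) (XT.lf (nat_lit 0) (nat_lit 6086260821) (nat_lit 228) (nat_lit 2730805155) (nat_lit 0) (nat_lit 3454862391) (nat_lit 36) (nat_lit 5) (nat_lit 39) (nat_lit 4) (nat_lit 36) (nat_lit 4) (nat_lit 322) (nat_lit 231) (nat_lit 227)) (XT.nd (nat_lit 78) (nat_lit 76) (nat_lit 0) (XT.lf (nat_lit 0) (nat_lit 3212041954) (nat_lit 228) (nat_lit 6272912608) (nat_lit 228) (nat_lit 3030858458) (nat_lit 33) (nat_lit 4) (nat_lit 36) (nat_lit 5) (nat_lit 36) (nat_lit 4) (nat_lit 323) (nat_lit 231) (nat_lit 226)) (XT.lf (nat_lit 0) (nat_lit 168074670) (nat_lit 304) (nat_lit 3493732198) (nat_lit 76) (nat_lit 9106649886) (nat_lit 32) (nat_lit 5) (nat_lit 36) (nat_lit 5) (nat_lit 33) (nat_lit 4) (nat_lit 324) (nat_lit 231) (nat_lit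 225))))) (XT.nd (nat_lit 234) (nat_lit 228) (nat_lit 0) (XT.nd (nat_lit 78) (nat_lit 152) (nat_lit 0) (XT.lf (nat_lit 0) (nat_lit 2396366645) (nat_lit 152) (nat_lit 956782127) (nat_lit 228) (nat_lit 9676212571) (nat_lit 30) (nat_lit 5) (nat_lit 32) (nat_lit 5) (nat_lit 33) (nat_lit 4) (nat_lit 325) (nat_lit 231) (nat_lit 224)) (XT.nd (nat_lit 78) (nat_lit 152) (nat_lit 0) (XT.lf (nat_lit 0) (nat_lit 6615708496) (nat_lit 228) (nat_lit 4891952401) (nat_lit 0) (nat_lit 1791085339) (nat_lit 30) (nat_lit 5) (nat_lit 33) (nat_lit 4) (nat_lit 30) (nat_lit 4) (nat_lit 326) (nat_lit 231) (nat_lit 223)) (XT.lf (nat_lit 0) (nat_lit 921311903) (nat_lit 152) (nat_lit 9003957558) (nat_lit 152) (nat_lit 3652577412) (nat_lit 28) (nat_lit 4) (nat_lit 30) (nat_lit 5) (nat_lit 30) (nat_lit 4) (nat_lit 327) (nat_lit 231) (nat_lit 222)))) (XT.nd (nat_lit 78) (nat_lit 228) (nat_lit 0) (XT.lf (nat_lit 0) (nat_lit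 6901803947) (nat_lit 152) (nat_lit 6413490378) (nat_lit 152) (nat_lit 550695680) (nat_lit 28) (nat_lit 4) (nat_lit 30) (nat_lit 5) (nat_lit 30) (nat_lit 4) (nat_lit 328) (nat_lit 231) (nat_lit 221)) (XT.nd (nat_lit 78) (nat_lit 152) (nat_lit 0) (XT.lf (nat_lit 0) (nat_lit 2525653257) (nat_lit 228) (nat_lit 1232237566) (nat_lit 76) (nat_lit 10406232553) (nat_lit 27) (nat_lit 5) (nat_lit 30) (nat_lit 5) (nat_lit 28) (nat_lit 4) (nat_lit 329) (nat_lit 231) (nat_lit 220)) (XT.lf (nat_lit 0) (nat_lit 4654367796) (nat_lit 152) (nat_lit 1008557691) (nat_lit 228) (nat_lit 8808816548) (nat_lit 25) (nat_lit 5) (nat_lit 27) (nat_lit 5) (nat_lit 28) (nat_lit 4) (nat_lit 330) (nat_lit 231) (nat_lit 219))))))))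
noncomputable def xc40 : XT := (XT.nd (nat_lit 1716) (nat_lit 532) (nat_lit 0) (XT.nd (nat_lit 858) (nat_lit 304) (nat_lit 0) (XT.nd (nat_lit 390) (nat_lit 304) (nat_lit 0) (XT.nd (nat_lit 156) (nat_lit 228) (nat_lit 0) (XT.nd (nat_lit 78) (nat_lit 152) (nat_lit 0) (XT.lf (nat_lit 0) (nat_lit 8859925326) (nat_lit 228) (nat_lit 4166356337) (nat_lit 0) (nat_lit 1763432408) (nat_lit 25) (nat_lit 5) (nat_lit 28) (nat_lit 4) (nat_lit 25) (nat_lit 4) (nat_lit 331) (nat_lit 231) (nat_lit 218)) (XT.lf (nat_lit 0) (nat_lit 1574620358) (nat_lit 152) (nat_lit 10540731698) (nat_lit 152) (nat_lit 3003088096) (nat_lit 23) (nat_lit 4) (nat_lit 25) (nat_lit 5) (nat_lit 25) (nat_lit 4) (nat_lit 332) (nat_lit 231) (nat_lit 217))) (XT.nd (nat_lit 78) (nat_lit 228) (nat_lit 0) (XT.lf (nat_lit 0) (nat_lit 7473903492) (nat_lit 152) (nat_lit 7974873725) (nat_lit 152) (nat_lit 8928487) (nat_lit 23) (nat_lit 4) (nat_lit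 25) (nat_lit 5) (nat_lit 25) (nat_lit 4) (nat_lit 333) (nat_lit 231) (nat_lit 216)) (XT.nd (nat_lit 78) (nat_lit 152) (nat_lit 0) (XT.lf (nat_lit 0) (nat_lit 2954435251) (nat_lit 228) (nat_lit 2384268507) (nat_lit 76) (nat_lit 10469459863) (nat_lit 22) (nat_lit 5) (nat_lit 25) (nat_lit 5) (nat_lit 23) (nat_lit 4) (nat_lit 334) (nat_lit 231) (nat_lit 215)) (XT.lf (nat_lit 0) (nat_lit 3353727387) (nat_lit 152) (nat_lit 2626181393) (nat_lit 228) (nat_lit 10190102505) (nat_lit 20) (nat_lit 5) (nat_lit 22) (nat_lit 5) (nat_lit 23) (nat_lit 4) (nat_lit 335) (nat_lit 231) (nat_lit 214))))) (XT.nd (nat_lit 234) (nat_lit 152) (nat_lit 0) (XT.nd (nat_lit 78) (nat_lit 152) (nat_lit 0) (XT.lf (nat_lit 0) (nat_lit 9063689572) (nat_lit 228) (nat_lit 7326526824) (nat_lit 0) (nat_lit 153549662) (nat_lit 20) (nat_lit 5) (nat_lit 23) (nat_lit 4) (nat_lit 20) (nat_lit 4) (nat_lit 336) (nat_lit 231) (nat_lit 213))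 (XT.nd (nat_lit 78) (nat_lit 152) (nat_lit 0) (XT.lf (nat_lit 0) (nat_lit 12209302132) (nat_lit 228) (nat_lit 1790722024) (nat_lit 0) (nat_lit 2929705468) (nat_lit 20) (nat_lit 5) (nat_lit 23) (nat_lit 4) (nat_lit 20) (nat_lit 4) (nat_lit 337) (nat_lit 231) (nat_lit 212)) (XT.lf (nat_lit 0) (nat_lit 3897261684) (nat_lit 152) (nat_lit 11534451769) (nat_lit 152) (nat_lit 1896159229) (nat_lit 18) (nat_lit 4) (nat_lit 20) (nat_lit 5) (nat_lit 20) (nat_lit 4) (nat_lit 338) (nat_lit 231) (nat_lit 211)))) (XT.nd (nat_lit 78) (nat_lit 76) (nat_lit 0) (XT.lf (nat_lit 0) (nat_lit 956441639) (nat_lit 228) (nat_lit 8044964437) (nat_lit 76) (nat_lit 8737430093) (nat_lit 17) (nat_lit 5) (nat_lit 20) (nat_lit 5) (nat_lit 18) (nat_lit 4) (nat_lit 339) (nat_lit 231) (nat_lit 210)) (XT.nd (nat_lit 78) (nat_lit 76) (nat_lit 0) (XT.lf (nat_lit 0) (nat_lit 3803215276) (nat_lit 228) (nat_lit 2604119219) (nat_lit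 76) (nat_lit 11755896938) (nat_lit 17) (nat_lit 5) (nat_lit 20) (nat_lit 5) (nat_lit 18) (nat_lit 4) (nat_lit 340) (nat_lit 231) (nat_lit 209)) (XT.lf (nat_lit 0) (nat_lit 2972918176) (nat_lit 76) (nat_lit 3739309383) (nat_lit 152) (nat_lit 11888891233) (nat_lit 16) (nat_lit 5) (nat_lit 17) (nat_lit 5) (nat_lit 18) (nat_lit 4) (nat_lit 341) (nat_lit 231) (nat_lit 208)))))) (XT.nd (nat_lit 390) (nat_lit 76) (nat_lit 0) (XT.nd (nat_lit 156) (nat_lit 228) (nat_lit 0) (XT.nd (nat_lit 78) (nat_lit 0) (nat_lit 0) (XT.lf (nat_lit 0) (nat_lit 8686436844) (nat_lit 76) (nat_lit 997325350) (nat_lit 152) (nat_lit 9369186417) (nat_lit 16) (nat_lit 5) (nat_lit 17) (nat_lit 5) (nat_lit 18) (nat_lit 4) (nat_lit 342) (nat_lit 231) (nat_lit 207)) (XT.lf (nat_lit 0) (nat_lit 12712137005) (nat_lit 152) (nat_lit 5047531427) (nat_lit 0) (nat_lit 1759695620) (nat_lit 16) (nat_lit 5) (nat_lit 18) (nat_lit 4) (nat_lit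 16) (nat_lit 4) (nat_lit 343) (nat_lit 231) (nat_lit 206))) (XT.nd (nat_lit 78) (nat_lit 76) (nat_lit 0) (XT.lf (nat_lit 0) (nat_lit 347341386) (nat_lit 152) (nat_lit 15448820166) (nat_lit 152) (nat_lit 4204726208) (nat_lit 14) (nat_lit 4) (nat_lit 16) (nat_lit 5) (nat_lit 16) (nat_lit 4) (nat_lit 344) (nat_lit 231) (nat_lit 205)) (XT.nd (nat_lit 78) (nat_lit 76) (nat_lit 0) (XT.lf (nat_lit 0) (nat_lit 5927739523) (nat_lit 152) (nat_lit 13048165758) (nat_lit 152) (nat_lit 1520913963) (nat_lit 14) (nat_lit 4) (nat_lit 16) (nat_lit 5) (nat_lit 16) (nat_lit 4) (nat_lit 345) (nat_lit 231) (nat_lit 204)) (XT.lf (nat_lit 0) (nat_lit 1172254434) (nat_lit 228) (nat_lit 9422485815) (nat_lit 76) (nat_lit 10413991382) (nat_lit 13) (nat_lit 5) (nat_lit 16) (nat_lit 5) (nat_lit 14) (nat_lit 4) (nat_lit 346) (nat_lit 231) (nat_lit 203))))) (XT.nd (nat_lit 234) (nat_lit 0) (nat_lit 0) (XT.nd (nat_lit 78) (nat_lit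 76) (nat_lit 0) (XT.lf (nat_lit 0) (nat_lit 3870120130) (nat_lit 228) (nat_lit 4212721870) (nat_lit 76) (nat_lit 13454126592) (nat_lit 13) (nat_lit 5) (nat_lit 16) (nat_lit 5) (nat_lit 14) (nat_lit 4) (nat_lit 347) (nat_lit 231) (nat_lit 202)) (XT.nd (nat_lit 78) (nat_lit 0) (nat_lit 0) (XT.lf (nat_lit 0) (nat_lit 1100866151) (nat_lit 76) (nat_lit 5514435041) (nat_lit 152) (nat_lit 15466811639) (nat_lit 12) (nat_lit 5) (nat_lit 13) (nat_lit 5) (nat_lit 14) (nat_lit 4) (nat_lit 348) (nat_lit 231) (nat_lit 201)) (XT.lf (nat_lit 0) (nat_lit 6586992784) (nat_lit 76) (nat_lit 2854765898) (nat_lit 152) (nat_lit 13201935131) (nat_lit 12) (nat_lit 5) (nat_lit 13) (nat_lit 5) (nat_lit 14) (nat_lit 4) (nat_lit 349) (nat_lit 231) (nat_lit 200)))) (XT.nd (nat_lit 78) (nat_lit 0) (nat_lit 0) (XT.lf (nat_lit 0) (nat_lit 12166610305) (nat_lit 76) (nat_lit 144050819) (nat_lit 152) (nat_lit 10912780152) (nat_lit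 12) (nat_lit 5) (nat_lit 13) (nat_lit 5) (nat_lit 14) (nat_lit 4) (nat_lit 350) (nat_lit 231) (nat_lit 199)) (XT.nd (nat_lit 78) (nat_lit 0) (nat_lit 0) (XT.lf (nat_lit 0) (nat_lit 15249701129) (nat_lit 152) (nat_lit 6002453490) (nat_lit 0) (nat_lit 2568951605) (nat_lit 12) (nat_lit 5) (nat_lit 14) (nat_lit 4) (nat_lit 12) (nat_lit 4) (nat_lit 351) (nat_lit 231) (nat_lit 198)) (XT.lf (nat_lit 0) (nat_lit 18238160356) (nat_lit 152) (nat_lit 865865703) (nat_lit 0) (nat_lit 5333883420) (nat_lit 12) (nat_lit 5) (nat_lit 14) (nat_lit 4) (nat_lit 12) (nat_lit 4) (nat_lit 352) (nat_lit 231) (nat_lit 197))))))) (XT.nd (nat_lit 858) (nat_lit 228) (nat_lit 0) (XT.nd (nat_lit 390) (nat_lit 76) (nat_lit 0) (XT.nd (nat_lit 156) (nat_lit 76) (nat_lit 0) (XT.nd (nat_lit 78) (nat_lit 0) (nat_lit 0) (XT.lf (nat_lit 0) (nat_lit 4445554144) (nat_lit 152) (nat_lit 16874444617) (nat_lit 152) (nat_lit 3753150776)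 (nat_lit 10) (nat_lit 4) (nat_lit 12) (nat_lit 5) (nat_lit 12) (nat_lit 4) (nat_lit 353) (nat_lit 231) (nat_lit 196)) (XT.lf (nat_lit 0) (nat_lit 9868698842) (nat_lit 152) (nat_lit 14595836844) (nat_lit 152) (nat_lit 1263846980) (nat_lit 10) (nat_lit 4) (nat_lit 12) (nat_lit 5) (nat_lit 12) (nat_lit 4) (nat_lit 354) (nat_lit 231) (nat_lit 195))) (XT.nd (nat_lit 78) (nat_lit 0) (nat_lit 0) (XT.lf (nat_lit 0) (nat_lit 1236975597) (nat_lit 228) (nat_lit 11025488647) (nat_lit 76) (nat_lit 14141608006) (nat_lit 9) (nat_lit 5) (nat_lit 12) (nat_lit 5) (nat_lit 10) (nat_lit 4) (nat_lit 355) (nat_lit 231) (nat_lit 194)) (XT.nd (nat_lit 78) (nat_lit 0) (nat_lit 0) (XT.lf (nat_lit 0) (nat_lit 3750731462) (nat_lit 228) (nat_lit 6121165451) (nat_lit 76) (nat_lit 17228900396) (nat_lit 9) (nat_lit 5) (nat_lit 12) (nat_lit 5) (nat_lit 10) (nat_lit 4) (nat_lit 356) (nat_lit 231) (nat_lit 193)) (XT.lf (nat_lit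 0) (nat_lit 6304279307) (nat_lit 228) (nat_lit 1130280035) (nat_lit 76) (nat_lit 20384971756) (nat_lit 9) (nat_lit 5) (nat_lit 12) (nat_lit 5) (nat_lit 10) (nat_lit 4) (nat_lit 357) (nat_lit 231) (nat_lit 192))))) (XT.nd (nat_lit 234) (nat_lit 0) (nat_lit 0) (XT.nd (nat_lit 78) (nat_lit 0) (nat_lit 0) (XT.lf (nat_lit 0) (nat_lit 4030171734) (nat_lit 76) (nat_lit 4908419128) (nat_lit 152) (nat_lit 19621148559) (nat_lit 8) (nat_lit 5) (nat_lit 9) (nat_lit 5) (nat_lit 10) (nat_lit 4) (nat_lit 358) (nat_lit 231) (nat_lit 191)) (XT.nd (nat_lit 78) (nat_lit 0) (nat_lit 0) (XT.lf (nat_lit 0) (nat_lit 9310379818) (nat_lit 76) (nat_lit 2318829924) (nat_lit 152) (nat_lit 17693662069) (nat_lit 8) (nat_lit 5) (nat_lit 9) (nat_lit 5) (nat_lit 10) (nat_lit 4) (nat_lit 359) (nat_lit 231) (nat_lit 190)) (XT.lf (nat_lit 0) (nat_lit 14370530446) (nat_lit 152) (nat_lit 15420588965) (nat_lit 0) (nat_lit 318714366)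 (nat_lit 8) (nat_lit 5) (nat_lit 10) (nat_lit 4) (nat_lit 8) (nat_lit 4) (nat_lit 360) (nat_lit 231) (nat_lit 189)))) (XT.nd (nat_lit 78) (nat_lit 0) (nat_lit 0) (XT.lf (nat_lit 0) (nat_lit 17184655086) (nat_lit 152) (nat_lit 10769553045) (nat_lit 0) (nat_lit 2966513619) (nat_lit 8) (nat_lit 5) (nat_lit 10) (nat_lit 4) (nat_lit 8) (nat_lit 4) (nat_lit 361) (nat_lit 231) (nat_lit 188)) (XT.nd (nat_lit 78) (nat_lit 0) (nat_lit 0) (XT.lf (nat_lit 0) (nat_lit 20051752596) (nat_lit 152) (nat_lit 6033030210) (nat_lit 0) (nat_lit 5672130171) (nat_lit 8) (nat_lit 5) (nat_lit 10) (nat_lit 4) (nat_lit 8) (nat_lit 4) (nat_lit 362) (nat_lit 231) (nat_lit 187)) (XT.lf (nat_lit 0) (nat_lit 22974328205) (nat_lit 152) (nat_lit 1206881751) (nat_lit 0) (nat_lit 8437928151) (nat_lit 8) (nat_lit 5) (nat_lit 10) (nat_lit 4) (nat_lit 8) (nat_lit 4) (nat_lit 363) (nat_lit 231) (nat_lit 186)))))) (XT.nd (nat_lit 468)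 (nat_lit 76) (nat_lit 0) (XT.nd (nat_lit 234) (nat_lit 76) (nat_lit 0) (XT.nd (nat_lit 78) (nat_lit 0) (nat_lit 0) (XT.lf (nat_lit 0) (nat_lit 3787007511) (nat_lit 76) (nat_lit 22204331144) (nat_lit 76) (nat_lit 7515719799) (nat_lit 7) (nat_lit 4) (nat_lit 8) (nat_lit 5) (nat_lit 8) (nat_lit 4) (nat_lit 364) (nat_lit 231) (nat_lit 185)) (XT.nd (nat_lit 78) (nat_lit 0) (nat_lit 0) (XT.lf (nat_lit 0) (nat_lit 8905010967) (nat_lit 76) (nat_lit 20176768706) (nat_lit 76) (nat_lit 5340379409) (nat_lit 7) (nat_lit 4) (nat_lit 8) (nat_lit 5) (nat_lit 8) (nat_lit 4) (nat_lit 365) (nat_lit 231) (nat_lit 184)) (XT.lf (nat_lit 0) (nat_lit 14127581345) (nat_lit 76) (nat_lit 18108938125) (nat_lit 76) (nat_lit 3129075089) (nat_lit 7) (nat_lit 4) (nat_lit 8) (nat_lit 5) (nat_lit 8) (nat_lit 4) (nat_lit 366) (nat_lit 231) (nat_lit 183)))) (XT.nd (nat_lit 78) (nat_lit 76) (nat_lit 0) (XT.lf (nat_lit 0) (nat_lit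 19459282056) (nat_lit 76) (nat_lit 15999032560) (nat_lit 76) (nat_lit 879874631) (nat_lit 7) (nat_lit 4) (nat_lit 8) (nat_lit 5) (nat_lit 8) (nat_lit 4) (nat_lit 367) (nat_lit 231) (nat_lit 182)) (XT.nd (nat_lit 78) (nat_lit 0) (nat_lit 0) (XT.lf (nat_lit 0) (nat_lit 1381688965) (nat_lit 152) (nat_lit 12449567090) (nat_lit 76) (nat_lit 23509130553) (nat_lit 6) (nat_lit 5) (nat_lit 8) (nat_lit 5) (nat_lit 7) (nat_lit 4) (nat_lit 368) (nat_lit 231) (nat_lit 181)) (XT.lf (nat_lit 0) (nat_lit 3667127777) (nat_lit 152) (nat_lit 7941425097) (nat_lit 76) (nat_lit 26764650397) (nat_lit 6) (nat_lit 5) (nat_lit 8) (nat_lit 5) (nat_lit 7) (nat_lit 4) (nat_lit 369) (nat_lit 231) (nat_lit 180))))) (XT.nd (nat_lit 234) (nat_lit 0) (nat_lit 0) (XT.nd (nat_lit 78) (nat_lit 76) (nat_lit 0) (XT.lf (nat_lit 0) (nat_lit 5995608314) (nat_lit 152) (nat_lit 3342084167) (nat_lit 76) (nat_lit 30100102956) (nat_lit 6)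 (nat_lit 5) (nat_lit 8) (nat_lit 5) (nat_lit 7) (nat_lit 4) (nat_lit 370) (nat_lit 231) (nat_lit 179)) (XT.nd (nat_lit 78) (nat_lit 0) (nat_lit 0) (XT.lf (nat_lit 0) (nat_lit 1379391436) (nat_lit 76) (nat_lit 7003033287) (nat_lit 152) (nat_lit 32152270820) (nat_lit 5) (nat_lit 5) (nat_lit 6) (nat_lit 5) (nat_lit 7) (nat_lit 4) (nat_lit 371) (nat_lit 231) (nat_lit 178)) (XT.lf (nat_lit 0) (nat_lit 6268677547) (nat_lit 76) (nat_lit 4581453141) (nat_lit 152) (nat_lit 30814117315) (nat_lit 5) (nat_lit 5) (nat_lit 6) (nat_lit 5) (nat_lit 7) (nat_lit 4) (nat_lit 372) (nat_lit 231) (nat_lit 177)))) (XT.nd (nat_lit 78) (nat_lit 0) (nat_lit 0) (XT.lf (nat_lit 0) (nat_lit 11263532330) (nat_lit 76) (nat_lit 2104584597) (nat_lit 152) (nat_lit 29460305845) (nat_lit 5) (nat_lit 5) (nat_lit 6) (nat_lit 5) (nat_lit 7) (nat_lit 4) (nat_lit 373) (nat_lit 231) (nat_lit 176)) (XT.nd (nat_lit 78) (nat_lit 0) (nat_lit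 0) (XT.lf (nat_lit 0) (nat_lit 15942714510) (nat_lit 152) (nat_lit 27664047759) (nat_lit 0) (nat_lit 421350891) (nat_lit 5) (nat_lit 5) (nat_lit 7) (nat_lit 4) (nat_lit 5) (nat_lit 4) (nat_lit 374) (nat_lit 231) (nat_lit 175)) (XT.lf (nat_lit 0) (nat_lit 18592842697) (nat_lit 152) (nat_lit 23706303515) (nat_lit 0) (nat_lit 2964721142) (nat_lit 5) (nat_lit 5) (nat_lit 7) (nat_lit 4) (nat_lit 5) (nat_lit 4) (nat_lit 375) (nat_lit 231) (nat_lit 174))))))))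
noncomputable def xc41 : XT := (XT.nd (nat_lit 1716) (nat_lit 0) (nat_lit 0) (XT.nd (nat_lit 858) (nat_lit 152) (nat_lit 0) (XT.nd (nat_lit 390) (nat_lit 76) (nat_lit 0) (XT.nd (nat_lit 156) (nat_lit 0) (nat_lit 0) (XT.nd (nat_lit 78) (nat_lit 0) (nat_lit 0) (XT.lf (nat_lit 0) (nat_lit 21300586581) (nat_lit 152) (nat_lit 19667968932) (nat_lit 0) (nat_lit 5568816544) (nat_lit 5) (nat_lit 5) (nat_lit 7) (nat_lit 4) (nat_lit 5) (nat_lit 4) (nat_lit 376) (nat_lit 231) (nat_lit 173)) (XT.lf (nat_lit 0) (nat_lit 24068312151) (nat_lit 152) (nat_lit 15545515368) (nat_lit 0) (nat_lit 8235912519) (nat_lit 5) (nat_lit 5) (nat_lit 7) (nat_lit 4) (nat_lit 5) (nat_lit 4) (nat_lit 377) (nat_lit 231) (nat_lit 172))) (XT.nd (nat_lit 78) (nat_lit 0) (nat_lit 0) (XT.lf (nat_lit 0) (nat_lit 26898437807) (nat_lit 152) (nat_lit 11335340680) (nat_lit 0) (nat_lit 10968339540) (nat_lit 5) (nat_lit 5) (nat_lit 7) (nat_lit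 4) (nat_lit 5) (nat_lit 4) (nat_lit 378) (nat_lit 231) (nat_lit 171)) (XT.nd (nat_lit 78) (nat_lit 0) (nat_lit 0) (XT.lf (nat_lit 0) (nat_lit 29793436476) (nat_lit 152) (nat_lit 7033766073) (nat_lit 0) (nat_lit 13768485164) (nat_lit 5) (nat_lit 5) (nat_lit 7) (nat_lit 4) (nat_lit 5) (nat_lit 4) (nat_lit 379) (nat_lit 231) (nat_lit 170)) (XT.lf (nat_lit 0) (nat_lit 32755837767) (nat_lit 152) (nat_lit 2637032891) (nat_lit 0) (nat_lit 16638796121) (nat_lit 5) (nat_lit 5) (nat_lit 7) (nat_lit 4) (nat_lit 5) (nat_lit 4) (nat_lit 380) (nat_lit 231) (nat_lit 169))))) (XT.nd (nat_lit 234) (nat_lit 0) (nat_lit 0) (XT.nd (nat_lit 78) (nat_lit 0) (nat_lit 0) (XT.lf (nat_lit 0) (nat_lit 1895692459) (nat_lit 76) (nat_lit 33910760283) (nat_lit 76) (nat_lit 17704310546) (nat_lit 4) (nat_lit 4) (nat_lit 5) (nat_lit 5) (nat_lit 5) (nat_lit 4) (nat_lit 381) (nat_lit 231) (nat_lit 168)) (XT.nd (nat_lit 78) (nat_lit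 0) (nat_lit 0) (XT.lf (nat_lit 0) (nat_lit 6585877110) (nat_lit 76) (nat_lit 32370693767) (nat_lit 76) (nat_lit 16077440058) (nat_lit 4) (nat_lit 4) (nat_lit 5) (nat_lit 5) (nat_lit 5) (nat_lit 4) (nat_lit 382) (nat_lit 231) (nat_lit 167)) (XT.lf (nat_lit 0) (nat_lit 11385137156) (nat_lit 76) (nat_lit 30797954284) (nat_lit 76) (nat_lit 14420424874) (nat_lit 4) (nat_lit 4) (nat_lit 5) (nat_lit 5) (nat_lit 5) (nat_lit 4) (nat_lit 383) (nat_lit 231) (nat_lit 166)))) (XT.nd (nat_lit 78) (nat_lit 0) (nat_lit 0) (XT.lf (nat_lit 0) (nat_lit 16297666124) (nat_lit 76) (nat_lit 29191167596) (nat_lit 76) (nat_lit 12731817117) (nat_lit 4) (nat_lit 4) (nat_lit 5) (nat_lit 5) (nat_lit 5) (nat_lit 4) (nat_lit 384) (nat_lit 231) (nat_lit 165)) (XT.nd (nat_lit 78) (nat_lit 0) (nat_lit 0) (XT.lf (nat_lit 0) (nat_lit 21327756516) (nat_lit 76) (nat_lit 27548929713) (nat_lit 76) (nat_lit 11010141303) (nat_lit 4)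 (nat_lit 4) (nat_lit 5) (nat_lit 5) (nat_lit 5) (nat_lit 4) (nat_lit 385) (nat_lit 231) (nat_lit 164)) (XT.lf (nat_lit 0) (nat_lit 26479803556) (nat_lit 76) (nat_lit 25869805671) (nat_lit 76) (nat_lit 9253893056) (nat_lit 4) (nat_lit 4) (nat_lit 5) (nat_lit 5) (nat_lit 5) (nat_lit 4) (nat_lit 386) (nat_lit 231) (nat_lit 163)))))) (XT.nd (nat_lit 390) (nat_lit 76) (nat_lit 0) (XT.nd (nat_lit 156) (nat_lit 76) (nat_lit 0) (XT.nd (nat_lit 78) (nat_lit 0) (nat_lit 0) (XT.lf (nat_lit 0) (nat_lit 31758309033) (nat_lit 76) (nat_lit 24152328274) (nat_lit 76) (nat_lit 7461537791) (nat_lit 4) (nat_lit 4) (nat_lit 5) (nat_lit 5) (nat_lit 5) (nat_lit 4) (nat_lit 387) (nat_lit 231) (nat_lit 162)) (XT.lf (nat_lit 0) (nat_lit 37167885234) (nat_lit 76) (nat_lit 22394996814) (nat_lit 76) (nat_lit 5631509370) (nat_lit 4) (nat_lit 4) (nat_lit 5) (nat_lit 5) (nat_lit 5) (nat_lit 4) (nat_lit 388) (nat_lit 231) (nat_lit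 161))) (XT.nd (nat_lit 78) (nat_lit 76) (nat_lit 0) (XT.lf (nat_lit 0) (nat_lit 42713258972) (nat_lit 76) (nat_lit 20596275758) (nat_lit 76) (nat_lit 3762208742) (nat_lit 4) (nat_lit 4) (nat_lit 5) (nat_lit 5) (nat_lit 5) (nat_lit 4) (nat_lit 389) (nat_lit 231) (nat_lit 160)) (XT.nd (nat_lit 78) (nat_lit 76) (nat_lit 0) (XT.lf (nat_lit 0) (nat_lit 48399275720) (nat_lit 76) (nat_lit 18754593408) (nat_lit 76) (nat_lit 1852002535) (nat_lit 4) (nat_lit 4) (nat_lit 5) (nat_lit 5) (nat_lit 5) (nat_lit 4) (nat_lit 390) (nat_lit 231) (nat_lit 159)) (XT.lf (nat_lit 0) (nat_lit 98811813) (nat_lit 152) (nat_lit 16768530909) (nat_lit 76) (nat_lit 54131094222) (nat_lit 3) (nat_lit 5) (nat_lit 5) (nat_lit 5) (nat_lit 4) (nat_lit 4) (nat_lit 391) (nat_lit 231) (nat_lit 158))))) (XT.nd (nat_lit 234) (nat_lit 76) (nat_lit 0) (XT.nd (nat_lit 78) (nat_lit 0) (nat_lit 0) (XT.lf (nat_lit 0) (nat_lit 2056903843)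 (nat_lit 152) (nat_lit 12858194396) (nat_lit 76) (nat_lit 58135564395) (nat_lit 3) (nat_lit 5) (nat_lit 5) (nat_lit 5) (nat_lit 4) (nat_lit 4) (nat_lit 392) (nat_lit 231) (nat_lit 157)) (XT.nd (nat_lit 78) (nat_lit 0) (nat_lit 0) (XT.lf (nat_lit 0) (nat_lit 4060123749) (nat_lit 152) (nat_lit 8854367023) (nat_lit 76) (nat_lit 62250385243) (nat_lit 3) (nat_lit 5) (nat_lit 5) (nat_lit 5) (nat_lit 4) (nat_lit 4) (nat_lit 393) (nat_lit 231) (nat_lit 156)) (XT.lf (nat_lit 0) (nat_lit 6110221917) (nat_lit 152) (nat_lit 4753550301) (nat_lit 76) (nat_lit 66479152240) (nat_lit 3) (nat_lit 5) (nat_lit 5) (nat_lit 5) (nat_lit 4) (nat_lit 4) (nat_lit 394) (nat_lit 231) (nat_lit 155)))) (XT.nd (nat_lit 78) (nat_lit 76) (nat_lit 0) (XT.lf (nat_lit 0) (nat_lit 8208989696) (nat_lit 152) (nat_lit 552160991) (nat_lit 76) (nat_lit 70825560427) (nat_lit 3) (nat_lit 5) (nat_lit 5) (nat_lit 5) (nat_lit 4) (nat_lit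 4) (nat_lit 395) (nat_lit 231) (nat_lit 154)) (XT.nd (nat_lit 78) (nat_lit 0) (nat_lit 0) (XT.lf (nat_lit 0) (nat_lit 3828173474) (nat_lit 76) (nat_lit 6566886230) (nat_lit 152) (nat_lit 71502032905) (nat_lit 2) (nat_lit 5) (nat_lit 3) (nat_lit 5) (nat_lit 4) (nat_lit 4) (nat_lit 396) (nat_lit 231) (nat_lit 153)) (XT.lf (nat_lit 0) (nat_lit 8329652464) (nat_lit 76) (nat_lit 4310330962) (nat_lit 152) (nat_lit 71637015058) (nat_lit 2) (nat_lit 5) (nat_lit 3) (nat_lit 5) (nat_lit 4) (nat_lit 4) (nat_lit 397) (nat_lit 231) (nat_lit 152))))))) (XT.nd (nat_lit 34710) (nat_lit 0) (nat_lit 1520) (XT.nd (nat_lit 34242) (nat_lit 0) (nat_lit 2584) (XT.nd (nat_lit 156) (nat_lit 0) (nat_lit 0) (XT.nd (nat_lit 78) (nat_lit 0) (nat_lit 0) (XT.lf (nat_lit 0) (nat_lit 12945220222) (nat_lit 76) (nat_lit 1995088881) (nat_lit 152) (nat_lit 71788361567) (nat_lit 2) (nat_lit 5) (nat_lit 3) (nat_lit 5) (nat_lit 4)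 (nat_lit 4) (nat_lit 398) (nat_lit 231) (nat_lit 151)) (XT.lf (nat_lit 0) (nat_lit 17301707817) (nat_lit 152) (nat_lit 71579002723) (nat_lit 0) (nat_lit 373431031) (nat_lit 2) (nat_lit 5) (nat_lit 4) (nat_lit 4) (nat_lit 2) (nat_lit 4) (nat_lit 399) (nat_lit 231) (nat_lit 150))) (XT.nd (nat_lit 78) (nat_lit 0) (nat_lit 0) (XT.lf (nat_lit 0) (nat_lit 19742360188) (nat_lit 152) (nat_lit 69348193893) (nat_lit 0) (nat_lit 2764580309) (nat_lit 2) (nat_lit 5) (nat_lit 4) (nat_lit 4) (nat_lit 2) (nat_lit 4) (nat_lit 400) (nat_lit 231) (nat_lit 149)) (XT.nd (nat_lit 78) (nat_lit 0) (nat_lit 0) (XT.lf (nat_lit 0) (nat_lit 22245220811) (nat_lit 152) (nat_lit 67069896692) (nat_lit 0) (nat_lit 5219379678) (nat_lit 2) (nat_lit 5) (nat_lit 4) (nat_lit 4) (nat_lit 2) (nat_lit 4) (nat_lit 401) (nat_lit 231) (nat_lit 148)) (XT.lf (nat_lit 0) (nat_lit 24812476652) (nat_lit 152) (nat_lit 64742120376) (nat_lit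 0) (nat_lit 7739974106) (nat_lit 2) (nat_lit 5) (nat_lit 4) (nat_lit 4) (nat_lit 2) (nat_lit 4) (nat_lit 402) (nat_lit 231) (nat_lit 147))))) (XT.nd (nat_lit 234) (nat_lit 456) (nat_lit 0) (XT.nd (nat_lit 78) (nat_lit 304) (nat_lit 0) (XT.lf (nat_lit 0) (nat_lit 3819501438) (nat_lit 228) (nat_lit 833099678) (nat_lit 228) (nat_lit 833099678) (nat_lit 46) (nat_lit 4) (nat_lit 49) (nat_lit 5) (nat_lit 49) (nat_lit 4) (nat_lit 316) (nat_lit 232) (nat_lit 232)) (XT.nd (nat_lit 78) (nat_lit 0) (nat_lit 0) (XT.lf (nat_lit 0) (nat_lit 1652771889) (nat_lit 304) (nat_lit 8594547812) (nat_lit 0) (nat_lit 923617024) (nat_lit 42) (nat_lit 5) (nat_lit 46) (nat_lit 4) (nat_lit 42) (nat_lit 4) (nat_lit 317) (nat_lit 232) (nat_lit 231)) (XT.lf (nat_lit 0) (nat_lit 5008368296) (nat_lit 304) (nat_lit 2797327323) (nat_lit 0) (nat_lit 3571296087) (nat_lit 42) (nat_lit 5) (nat_lit 46) (nat_lit 4) (nat_lit 42) (nat_lit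 4) (nat_lit 318) (nat_lit 232) (nat_lit 230)))) (XT.nd (nat_lit 78) (nat_lit 228) (nat_lit 0) (XT.lf (nat_lit 0) (nat_lit 3118841670) (nat_lit 228) (nat_lit 5298163459) (nat_lit 228) (nat_lit 3173792858) (nat_lit 39) (nat_lit 4) (nat_lit 42) (nat_lit 5) (nat_lit 42) (nat_lit 4) (nat_lit 319) (nat_lit 232) (nat_lit 229)) (XT.nd (nat_lit 78) (nat_lit 152) (nat_lit 0) (XT.lf (nat_lit 0) (nat_lit 65788271) (nat_lit 304) (nat_lit 2658100402) (nat_lit 76) (nat_lit 9088693224) (nat_lit 38) (nat_lit 5) (nat_lit 42) (nat_lit 5) (nat_lit 39) (nat_lit 4) (nat_lit 320) (nat_lit 232) (nat_lit 228)) (XT.lf (nat_lit 0) (nat_lit 3249175519) (nat_lit 152) (nat_lit 45736188) (nat_lit 228) (nat_lit 8746609433) (nat_lit 36) (nat_lit 5) (nat_lit 38) (nat_lit 5) (nat_lit 39) (nat_lit 4) (nat_lit 321) (nat_lit 232) (nat_lit 227)))))) (XT.nd (nat_lit 468) (nat_lit 456) (nat_lit 0) (XT.nd (nat_lit 234) (nat_lit 304)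 (nat_lit 0) (XT.nd (nat_lit 78) (nat_lit 304) (nat_lit 0) (XT.lf (nat_lit 0) (nat_lit 6599752288) (nat_lit 228) (nat_lit 3028555295) (nat_lit 0) (nat_lit 2649780795) (nat_lit 36) (nat_lit 5) (nat_lit 39) (nat_lit 4) (nat_lit 36) (nat_lit 4) (nat_lit 322) (nat_lit 232) (nat_lit 226)) (XT.nd (nat_lit 78) (nat_lit 76) (nat_lit 0) (XT.lf (nat_lit 0) (nat_lit 2852833231) (nat_lit 228) (nat_lit 7106605493) (nat_lit 228) (nat_lit 2563764368) (nat_lit 33) (nat_lit 4) (nat_lit 36) (nat_lit 5) (nat_lit 36) (nat_lit 4) (nat_lit 323) (nat_lit 232) (nat_lit 225)) (XT.lf (nat_lit 0) (nat_lit 590613132) (nat_lit 304) (nat_lit 3919498049) (nat_lit 76) (nat_lit 8266720580) (nat_lit 32) (nat_lit 5) (nat_lit 36) (nat_lit 5) (nat_lit 33) (nat_lit 4) (nat_lit 324) (nat_lit 232) (nat_lit 224)))) (XT.nd (nat_lit 78) (nat_lit 152) (nat_lit 0) (XT.lf (nat_lit 0) (nat_lit 1907986207) (nat_lit 152) (nat_lit 1828597735)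 (nat_lit 228) (nat_lit 9302380269) (nat_lit 30) (nat_lit 5) (nat_lit 32) (nat_lit 5) (nat_lit 33) (nat_lit 4) (nat_lit 325) (nat_lit 232) (nat_lit 223)) (XT.nd (nat_lit 78) (nat_lit 152) (nat_lit 0) (XT.lf (nat_lit 0) (nat_lit 6956672180) (nat_lit 228) (nat_lit 5435010594) (nat_lit 0) (nat_lit 917993642) (nat_lit 30) (nat_lit 5) (nat_lit 33) (nat_lit 4) (nat_lit 30) (nat_lit 4) (nat_lit 326) (nat_lit 232) (nat_lit 222)) (XT.lf (nat_lit 0) (nat_lit 314514546) (nat_lit 152) (nat_lit 9912787574) (nat_lit 152) (nat_lit 3362694484) (nat_lit 28) (nat_lit 4) (nat_lit 30) (nat_lit 5) (nat_lit 30) (nat_lit 4) (nat_lit 327) (nat_lit 232) (nat_lit 221))))) (XT.nd (nat_lit 234) (nat_lit 228) (nat_lit 0) (XT.nd (nat_lit 78) (nat_lit 228) (nat_lit 0) (XT.lf (nat_lit 0) (nat_lit 6243617035) (nat_lit 152) (nat_lit 7341081865) (nat_lit 152) (nat_lit 294469793) (nat_lit 28) (nat_lit 4) (nat_lit 30) (nat_lit 5)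 (nat_lit 30) (nat_lit 4) (nat_lit 328) (nat_lit 232) (nat_lit 220)) (XT.nd (nat_lit 78) (nat_lit 152) (nat_lit 0) (XT.lf (nat_lit 0) (nat_lit 2744840156) (nat_lit 228) (nat_lit 1956643818) (nat_lit 76) (nat_lit 9476752614) (nat_lit 27) (nat_lit 5) (nat_lit 30) (nat_lit 5) (nat_lit 28) (nat_lit 4) (nat_lit 329) (nat_lit 232) (nat_lit 219)) (XT.lf (nat_lit 0) (nat_lit 3865462647) (nat_lit 152) (nat_lit 1977960379) (nat_lit 228) (nat_lit 8643638763) (nat_lit 25) (nat_lit 5) (nat_lit 27) (nat_lit 5) (nat_lit 28) (nat_lit 4) (nat_lit 330) (nat_lit 232) (nat_lit 218)))) (XT.nd (nat_lit 78) (nat_lit 228) (nat_lit 0) (XT.lf (nat_lit 0) (nat_lit 9000264454) (nat_lit 228) (nat_lit 5010677792) (nat_lit 0) (nat_lit 795340859) (nat_lit 25) (nat_lit 5) (nat_lit 28) (nat_lit 4) (nat_lit 25) (nat_lit 4) (nat_lit 331) (nat_lit 232) (nat_lit 217)) (XT.nd (nat_lit 78) (nat_lit 76) (nat_lit 0) (XT.lf (nat_lit 0)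 (nat_lit 664564667) (nat_lit 152) (nat_lit 11552436836) (nat_lit 152) (nat_lit 2919211605) (nat_lit 23) (nat_lit 4) (nat_lit 25) (nat_lit 5) (nat_lit 25) (nat_lit 4) (nat_lit 332) (nat_lit 232) (nat_lit 216)) (XT.lf (nat_lit 0) (nat_lit 43625773) (nat_lit 228) (nat_lit 8960491741) (nat_lit 76) (nat_lit 6472276074) (nat_lit 22) (nat_lit 5) (nat_lit 25) (nat_lit 5) (nat_lit 23) (nat_lit 4) (nat_lit 333) (nat_lit 232) (nat_lit 215))))))))
noncomputable def xc42 : XT := (XT.nd (nat_lit 1716) (nat_lit 304) (nat_lit 0) (XT.nd (nat_lit 858) (nat_lit 532) (nat_lit 0) (XT.nd (nat_lit 390) (nat_lit 152) (nat_lit 0) (XT.nd (nat_lit 156) (nat_lit 152) (nat_lit 0) (XT.nd (nat_lit 78) (nat_lit 152) (nat_lit 0) (XT.lf (nat_lit 0) (nat_lit 2977825262) (nat_lit 228) (nat_lit 3407782148) (nat_lit 76) (nat_lit 9442150782) (nat_lit 22) (nat_lit 5) (nat_lit 25) (nat_lit 5) (nat_lit 23) (nat_lit 4) (nat_lit 334)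 (nat_lit 232) (nat_lit 214)) (XT.lf (nat_lit 0) (nat_lit 2263563748) (nat_lit 152) (nat_lit 3701110068) (nat_lit 228) (nat_lit 10226129198) (nat_lit 20) (nat_lit 5) (nat_lit 22) (nat_lit 5) (nat_lit 23) (nat_lit 4) (nat_lit 335) (nat_lit 232) (nat_lit 213))) (XT.nd (nat_lit 78) (nat_lit 152) (nat_lit 0) (XT.lf (nat_lit 0) (nat_lit 8083694041) (nat_lit 152) (nat_lit 935497385) (nat_lit 228) (nat_lit 7546281547) (nat_lit 20) (nat_lit 5) (nat_lit 22) (nat_lit 5) (nat_lit 23) (nat_lit 4) (nat_lit 336) (nat_lit 232) (nat_lit 212)) (XT.nd (nat_lit 78) (nat_lit 152) (nat_lit 0) (XT.lf (nat_lit 0) (nat_lit 12128701819) (nat_lit 228) (nat_lit 2981289367) (nat_lit 0) (nat_lit 1842564625) (nat_lit 20) (nat_lit 5) (nat_lit 23) (nat_lit 4) (nat_lit 20) (nat_lit 4) (nat_lit 337) (nat_lit 232) (nat_lit 211)) (XT.lf (nat_lit 0) (nat_lit 2639126302) (nat_lit 152) (nat_lit 12673572877) (nat_lit 152) (nat_lit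 2039187259) (nat_lit 18) (nat_lit 4) (nat_lit 20) (nat_lit 5) (nat_lit 20) (nat_lit 4) (nat_lit 338) (nat_lit 232) (nat_lit 210))))) (XT.nd (nat_lit 234) (nat_lit 0) (nat_lit 0) (XT.nd (nat_lit 78) (nat_lit 76) (nat_lit 0) (XT.lf (nat_lit 0) (nat_lit 789951234) (nat_lit 228) (nat_lit 9368889878) (nat_lit 76) (nat_lit 7604870792) (nat_lit 17) (nat_lit 5) (nat_lit 20) (nat_lit 5) (nat_lit 18) (nat_lit 4) (nat_lit 339) (nat_lit 232) (nat_lit 209)) (XT.nd (nat_lit 78) (nat_lit 76) (nat_lit 0) (XT.lf (nat_lit 0) (nat_lit 3611236167) (nat_lit 228) (nat_lit 3969939004) (nat_lit 76) (nat_lit 10607728826) (nat_lit 17) (nat_lit 5) (nat_lit 20) (nat_lit 5) (nat_lit 18) (nat_lit 4) (nat_lit 340) (nat_lit 232) (nat_lit 208)) (XT.lf (nat_lit 0) (nat_lit 1538432283) (nat_lit 76) (nat_lit 4943280696) (nat_lit 152) (nat_lit 12146265672) (nat_lit 16) (nat_lit 5) (nat_lit 17) (nat_lit 5) (nat_lit 18) (nat_lit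 4) (nat_lit 341) (nat_lit 232) (nat_lit 207)))) (XT.nd (nat_lit 78) (nat_lit 0) (nat_lit 0) (XT.lf (nat_lit 0) (nat_lit 7211675596) (nat_lit 76) (nat_lit 2217159317) (nat_lit 152) (nat_lit 9651736259) (nat_lit 16) (nat_lit 5) (nat_lit 17) (nat_lit 5) (nat_lit 18) (nat_lit 4) (nat_lit 342) (nat_lit 232) (nat_lit 206)) (XT.nd (nat_lit 78) (nat_lit 0) (nat_lit 0) (XT.lf (nat_lit 0) (nat_lit 12421634242) (nat_lit 152) (nat_lit 6577884180) (nat_lit 0) (nat_lit 548564893) (nat_lit 16) (nat_lit 5) (nat_lit 18) (nat_lit 4) (nat_lit 16) (nat_lit 4) (nat_lit 343) (nat_lit 232) (nat_lit 205)) (XT.lf (nat_lit 0) (nat_lit 15479164891) (nat_lit 152) (nat_lit 1228327824) (nat_lit 0) (nat_lit 3322937705) (nat_lit 16) (nat_lit 5) (nat_lit 18) (nat_lit 4) (nat_lit 16) (nat_lit 4) (nat_lit 344) (nat_lit 232) (nat_lit 204)))))) (XT.nd (nat_lit 390) (nat_lit 228) (nat_lit 0) (XT.nd (nat_lit 156) (nat_lit 76) (nat_lit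 0) (XT.nd (nat_lit 78) (nat_lit 76) (nat_lit 0) (XT.lf (nat_lit 0) (nat_lit 4289463433) (nat_lit 152) (nat_lit 14334555312) (nat_lit 152) (nat_lit 1903417604) (nat_lit 14) (nat_lit 4) (nat_lit 16) (nat_lit 5) (nat_lit 16) (nat_lit 4) (nat_lit 345) (nat_lit 232) (nat_lit 203)) (XT.lf (nat_lit 0) (nat_lit 774786793) (nat_lit 228) (nat_lit 11125223936) (nat_lit 76) (nat_lit 9140147307) (nat_lit 13) (nat_lit 5) (nat_lit 16) (nat_lit 5) (nat_lit 14) (nat_lit 4) (nat_lit 346) (nat_lit 232) (nat_lit 202))) (XT.nd (nat_lit 78) (nat_lit 76) (nat_lit 0) (XT.lf (nat_lit 0) (nat_lit 3450877709) (nat_lit 228) (nat_lit 5951888910) (nat_lit 76) (nat_lit 12166307016) (nat_lit 13) (nat_lit 5) (nat_lit 16) (nat_lit 5) (nat_lit 14) (nat_lit 4) (nat_lit 347) (nat_lit 232) (nat_lit 201)) (XT.nd (nat_lit 78) (nat_lit 76) (nat_lit 0) (XT.lf (nat_lit 0) (nat_lit 6164336008) (nat_lit 228) (nat_lit 695150634) (nat_lit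 76) (nat_lit 15255707567) (nat_lit 13) (nat_lit 5) (nat_lit 16) (nat_lit 5) (nat_lit 14) (nat_lit 4) (nat_lit 348) (nat_lit 232) (nat_lit 200)) (XT.lf (nat_lit 0) (nat_lit 4742119999) (nat_lit 76) (nat_lit 4220996832) (nat_lit 152) (nat_lit 13714512596) (nat_lit 12) (nat_lit 5) (nat_lit 13) (nat_lit 5) (nat_lit 14) (nat_lit 4) (nat_lit 349) (nat_lit 232) (nat_lit 199))))) (XT.nd (nat_lit 234) (nat_lit 228) (nat_lit 0) (XT.nd (nat_lit 78) (nat_lit 0) (nat_lit 0) (XT.lf (nat_lit 0) (nat_lit 10287736415) (nat_lit 76) (nat_lit 1524029011) (nat_lit 152) (nat_lit 11446242319) (nat_lit 12) (nat_lit 5) (nat_lit 13) (nat_lit 5) (nat_lit 14) (nat_lit 4) (nat_lit 350) (nat_lit 232) (nat_lit 198)) (XT.nd (nat_lit 78) (nat_lit 0) (nat_lit 0) (XT.lf (nat_lit 0) (nat_lit 14717748008) (nat_lit 152) (nat_lit 7936123617) (nat_lit 0) (nat_lit 1202815352) (nat_lit 12) (nat_lit 5) (nat_lit 14) (nat_lit 4) (nat_lit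 12) (nat_lit 4) (nat_lit 351) (nat_lit 232) (nat_lit 197)) (XT.lf (nat_lit 0) (nat_lit 17686991479) (nat_lit 152) (nat_lit 2832055212) (nat_lit 0) (nat_lit 3955041919) (nat_lit 12) (nat_lit 5) (nat_lit 14) (nat_lit 4) (nat_lit 12) (nat_lit 4) (nat_lit 352) (nat_lit 232) (nat_lit 196)))) (XT.nd (nat_lit 78) (nat_lit 76) (nat_lit 0) (XT.lf (nat_lit 0) (nat_lit 2408033045) (nat_lit 152) (nat_lit 18322554866) (nat_lit 152) (nat_lit 4379909282) (nat_lit 10) (nat_lit 4) (nat_lit 12) (nat_lit 5) (nat_lit 12) (nat_lit 4) (nat_lit 353) (nat_lit 232) (nat_lit 195)) (XT.nd (nat_lit 78) (nat_lit 76) (nat_lit 0) (XT.lf (nat_lit 0) (nat_lit 7799915059) (nat_lit 152) (nat_lit 16056796568) (nat_lit 152) (nat_lit 1909591738) (nat_lit 10) (nat_lit 4) (nat_lit 12) (nat_lit 5) (nat_lit 12) (nat_lit 4) (nat_lit 354) (nat_lit 232) (nat_lit 194)) (XT.lf (nat_lit 0) (nat_lit 585758090) (nat_lit 228) (nat_lit 13156717116)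 (nat_lit 76) (nat_lit 12700265631) (nat_lit 9) (nat_lit 5) (nat_lit 12) (nat_lit 5) (nat_lit 10) (nat_lit 4) (nat_lit 355) (nat_lit 232) (nat_lit 193))))))) (XT.nd (nat_lit 858) (nat_lit 152) (nat_lit 0) (XT.nd (nat_lit 390) (nat_lit 76) (nat_lit 0) (XT.nd (nat_lit 156) (nat_lit 76) (nat_lit 0) (XT.nd (nat_lit 78) (nat_lit 0) (nat_lit 0) (XT.lf (nat_lit 0) (nat_lit 3081966814) (nat_lit 228) (nat_lit 8282230115) (nat_lit 76) (nat_lit 15775814276) (nat_lit 9) (nat_lit 5) (nat_lit 12) (nat_lit 5) (nat_lit 10) (nat_lit 4) (nat_lit 356) (nat_lit 232) (nat_lit 192)) (XT.lf (nat_lit 0) (nat_lit 5618478600) (nat_lit 228) (nat_lit 3320311879) (nat_lit 76) (nat_lit 18920483942) (nat_lit 9) (nat_lit 5) (nat_lit 12) (nat_lit 5) (nat_lit 10) (nat_lit 4) (nat_lit 357) (nat_lit 232) (nat_lit 191))) (XT.nd (nat_lit 78) (nat_lit 0) (nat_lit 0) (XT.lf (nat_lit 0) (nat_lit 1767870774) (nat_lit 76) (nat_lit 6446632897)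 (nat_lit 152) (nat_lit 20386145478) (nat_lit 8) (nat_lit 5) (nat_lit 9) (nat_lit 5) (nat_lit 10) (nat_lit 4) (nat_lit 358) (nat_lit 232) (nat_lit 190)) (XT.nd (nat_lit 78) (nat_lit 0) (nat_lit 0) (XT.lf (nat_lit 0) (nat_lit 7020231103) (nat_lit 76) (nat_lit 3868565638) (nat_lit 152) (nat_lit 18475491863) (nat_lit 8) (nat_lit 5) (nat_lit 9) (nat_lit 5) (nat_lit 10) (nat_lit 4) (nat_lit 359) (nat_lit 232) (nat_lit 189)) (XT.lf (nat_lit 0) (nat_lit 12375277831) (nat_lit 76) (nat_lit 1235864661) (nat_lit 152) (nat_lit 16540694113) (nat_lit 8) (nat_lit 5) (nat_lit 9) (nat_lit 5) (nat_lit 10) (nat_lit 4) (nat_lit 360) (nat_lit 232) (nat_lit 188))))) (XT.nd (nat_lit 234) (nat_lit 76) (nat_lit 0) (XT.nd (nat_lit 78) (nat_lit 0) (nat_lit 0) (XT.lf (nat_lit 0) (nat_lit 16397894207) (nat_lit 152) (nat_lit 13140265708) (nat_lit 0) (nat_lit 1425402151) (nat_lit 8) (nat_lit 5) (nat_lit 10) (nat_lit 4) (nat_lit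 8) (nat_lit 4) (nat_lit 361) (nat_lit 232) (nat_lit 187)) (XT.nd (nat_lit 78) (nat_lit 0) (nat_lit 0) (XT.lf (nat_lit 0) (nat_lit 19249949931) (nat_lit 152) (nat_lit 8429590194) (nat_lit 0) (nat_lit 4120680246) (nat_lit 8) (nat_lit 5) (nat_lit 10) (nat_lit 4) (nat_lit 8) (nat_lit 4) (nat_lit 362) (nat_lit 232) (nat_lit 186)) (XT.lf (nat_lit 0) (nat_lit 22157921865) (nat_lit 152) (nat_lit 3628536221) (nat_lit 0) (nat_lit 6876440890) (nat_lit 8) (nat_lit 5) (nat_lit 10) (nat_lit 4) (nat_lit 8) (nat_lit 4) (nat_lit 363) (nat_lit 232) (nat_lit 185)))) (XT.nd (nat_lit 78) (nat_lit 0) (nat_lit 0) (XT.lf (nat_lit 0) (nat_lit 1292308907) (nat_lit 76) (nat_lit 23844464513) (nat_lit 76) (nat_lit 8415205585) (nat_lit 7) (nat_lit 4) (nat_lit 8) (nat_lit 5) (nat_lit 8) (nat_lit 4) (nat_lit 364) (nat_lit 232) (nat_lit 184)) (XT.nd (nat_lit 78) (nat_lit 0) (nat_lit 0) (XT.lf (nat_lit 0) (nat_lit 6386187643)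 (nat_lit 76) (nat_lit 21827029528) (nat_lit 76) (nat_lit 6254296861) (nat_lit 7) (nat_lit 4) (nat_lit 8) (nat_lit 5) (nat_lit 8) (nat_lit 4) (nat_lit 365) (nat_lit 232) (nat_lit 183)) (XT.lf (nat_lit 0) (nat_lit 11585335963) (nat_lit 76) (nat_lit 19769031427) (nat_lit 76) (nat_lit 4057003867) (nat_lit 7) (nat_lit 4) (nat_lit 8) (nat_lit 5) (nat_lit 8) (nat_lit 4) (nat_lit 366) (nat_lit 232) (nat_lit 182)))))) (XT.nd (nat_lit 468) (nat_lit 0) (nat_lit 0) (XT.nd (nat_lit 234) (nat_lit 76) (nat_lit 0) (XT.nd (nat_lit 78) (nat_lit 76) (nat_lit 0) (XT.lf (nat_lit 0) (nat_lit 16894296811) (nat_lit 76) (nat_lit 17668671959) (nat_lit 76) (nat_lit 1821406638) (nat_lit 7) (nat_lit 4) (nat_lit 8) (nat_lit 5) (nat_lit 8) (nat_lit 4) (nat_lit 367) (nat_lit 232) (nat_lit 181)) (XT.nd (nat_lit 78) (nat_lit 0) (nat_lit 0) (XT.lf (nat_lit 0) (nat_lit 445580336) (nat_lit 152) (nat_lit 15074036033) (nat_lit 76)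 (nat_lit 21867629262) (nat_lit 6) (nat_lit 5) (nat_lit 8) (nat_lit 5) (nat_lit 7) (nat_lit 4) (nat_lit 368) (nat_lit 232) (nat_lit 180)) (XT.lf (nat_lit 0) (nat_lit 2718447011) (nat_lit 152) (nat_lit 10587591243) (nat_lit 76) (nat_lit 25114413697) (nat_lit 6) (nat_lit 5) (nat_lit 8) (nat_lit 5) (nat_lit 7) (nat_lit 4) (nat_lit 369) (nat_lit 232) (nat_lit 179)))) (XT.nd (nat_lit 78) (nat_lit 76) (nat_lit 0) (XT.lf (nat_lit 0) (nat_lit 5034721588) (nat_lit 152) (nat_lit 6009315559) (nat_lit 76) (nat_lit 28441385276) (nat_lit 6) (nat_lit 5) (nat_lit 8) (nat_lit 5) (nat_lit 7) (nat_lit 4) (nat_lit 370) (nat_lit 232) (nat_lit 178)) (XT.nd (nat_lit 78) (nat_lit 76) (nat_lit 0) (XT.lf (nat_lit 0) (nat_lit 7396427998) (nat_lit 152) (nat_lit 1335208546) (nat_lit 76) (nat_lit 31851451060) (nat_lit 6) (nat_lit 5) (nat_lit 8) (nat_lit 5) (nat_lit 7) (nat_lit 4) (nat_lit 371) (nat_lit 232) (nat_lit 177))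 (XT.lf (nat_lit 0) (nat_lit 3507253108) (nat_lit 76) (nat_lit 6332090621) (nat_lit 152) (nat_lit 31874051474) (nat_lit 5) (nat_lit 5) (nat_lit 6) (nat_lit 5) (nat_lit 7) (nat_lit 4) (nat_lit 372) (nat_lit 232) (nat_lit 176))))) (XT.nd (nat_lit 234) (nat_lit 0) (nat_lit 0) (XT.nd (nat_lit 78) (nat_lit 0) (nat_lit 0) (XT.lf (nat_lit 0) (nat_lit 8482446543) (nat_lit 76) (nat_lit 3863524245) (nat_lit 152) (nat_lit 30531951057) (nat_lit 5) (nat_lit 5) (nat_lit 6) (nat_lit 5) (nat_lit 7) (nat_lit 4) (nat_lit 373) (nat_lit 232) (nat_lit 175)) (XT.nd (nat_lit 78) (nat_lit 0) (nat_lit 0) (XT.lf (nat_lit 0) (nat_lit 13568145745) (nat_lit 76) (nat_lit 1337263406) (nat_lit 152) (nat_lit 29172668635) (nat_lit 5) (nat_lit 5) (nat_lit 6) (nat_lit 5) (nat_lit 7) (nat_lit 4) (nat_lit 374) (nat_lit 232) (nat_lit 174)) (XT.lf (nat_lit 0) (nat_lit 17531900406) (nat_lit 152) (nat_lit 26558122360) (nat_lit 0) (nat_lit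 1224528785) (nat_lit 5) (nat_lit 5) (nat_lit 7) (nat_lit 4) (nat_lit 5) (nat_lit 4) (nat_lit 375) (nat_lit 232) (nat_lit 173)))) (XT.nd (nat_lit 78) (nat_lit 0) (nat_lit 0) (XT.lf (nat_lit 0) (nat_lit 20229175998) (nat_lit 152) (nat_lit 22538029677) (nat_lit 0) (nat_lit 3821174783) (nat_lit 5) (nat_lit 5) (nat_lit 7) (nat_lit 4) (nat_lit 5) (nat_lit 4) (nat_lit 376) (nat_lit 232) (nat_lit 172)) (XT.nd (nat_lit 78) (nat_lit 0) (nat_lit 0) (XT.lf (nat_lit 0) (nat_lit 22986738179) (nat_lit 152) (nat_lit 18433286696) (nat_lit 0) (nat_lit 6481038328) (nat_lit 5) (nat_lit 5) (nat_lit 7) (nat_lit 4) (nat_lit 5) (nat_lit 4) (nat_lit 377) (nat_lit 232) (nat_lit 171)) (XT.lf (nat_lit 0) (nat_lit 25806996467) (nat_lit 152) (nat_lit 14240306747) (nat_lit 0) (nat_lit 9206443572) (nat_lit 5) (nat_lit 5) (nat_lit 7) (nat_lit 4) (nat_lit 5) (nat_lit 4) (nat_lit 378) (nat_lit 232) (nat_lit 170))))))))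
noncomputable def xc43 : XT := (XT.nd (nat_lit 1794) (nat_lit 0) (nat_lit 0) (XT.nd (nat_lit 858) (nat_lit 152) (nat_lit 0) (XT.nd (nat_lit 390) (nat_lit 0) (nat_lit 0) (XT.nd (nat_lit 156) (nat_lit 76) (nat_lit 0) (XT.nd (nat_lit 78) (nat_lit 0) (nat_lit 0) (XT.lf (nat_lit 0) (nat_lit 28692415166) (nat_lit 152) (nat_lit 9955426063) (nat_lit 0) (nat_lit 11999771937) (nat_lit 5) (nat_lit 5) (nat_lit 7) (nat_lit 4) (nat_lit 5) (nat_lit 4) (nat_lit 379) (nat_lit 232) (nat_lit 169)) (XT.lf (nat_lit 0) (nat_lit 31645515516) (nat_lit 152) (nat_lit 5574900573) (nat_lit 0) (nat_lit 14863464196) (nat_lit 5) (nat_lit 5) (nat_lit 7) (nat_lit 4) (nat_lit 5) (nat_lit 4) (nat_lit 380) (nat_lit 232) (nat_lit 168))) (XT.nd (nat_lit 78) (nat_lit 76) (nat_lit 0) (XT.lf (nat_lit 0) (nat_lit 34668877896) (nat_lit 152) (nat_lit 1094902633) (nat_lit 0) (nat_lit 17800022604) (nat_lit 5) (nat_lit 5) (nat_lit 7) (nat_lit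 4) (nat_lit 5) (nat_lit 4) (nat_lit 381) (nat_lit 232) (nat_lit 167)) (XT.nd (nat_lit 78) (nat_lit 0) (nat_lit 0) (XT.lf (nat_lit 0) (nat_lit 3557909956) (nat_lit 76) (nat_lit 34241434930) (nat_lit 76) (nat_lit 17288303937) (nat_lit 4) (nat_lit 4) (nat_lit 5) (nat_lit 5) (nat_lit 5) (nat_lit 4) (nat_lit 382) (nat_lit 232) (nat_lit 166)) (XT.lf (nat_lit 0) (nat_lit 8342042475) (nat_lit 76) (nat_lit 32675165880) (nat_lit 76) (nat_lit 15640213818) (nat_lit 4) (nat_lit 4) (nat_lit 5) (nat_lit 5) (nat_lit 5) (nat_lit 4) (nat_lit 383) (nat_lit 232) (nat_lit 165))))) (XT.nd (nat_lit 234) (nat_lit 0) (nat_lit 0) (XT.nd (nat_lit 78) (nat_lit 0) (nat_lit 0) (XT.lf (nat_lit 0) (nat_lit 13239884524) (nat_lit 76) (nat_lit 31074661165) (nat_lit 76) (nat_lit 13960271172) (nat_lit 4) (nat_lit 4) (nat_lit 5) (nat_lit 5) (nat_lit 5) (nat_lit 4) (nat_lit 384) (nat_lit 232) (nat_lit 164)) (XT.nd (nat_lit 78) (nat_lit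 0) (nat_lit 0) (XT.lf (nat_lit 0) (nat_lit 18255715772) (nat_lit 76) (nat_lit 29438522286) (nat_lit 76) (nat_lit 12247008088) (nat_lit 4) (nat_lit 4) (nat_lit 5) (nat_lit 5) (nat_lit 5) (nat_lit 4) (nat_lit 385) (nat_lit 232) (nat_lit 163)) (XT.lf (nat_lit 0) (nat_lit 23393918982) (nat_lit 76) (nat_lit 27765319607) (nat_lit 76) (nat_lit 10498927540) (nat_lit 4) (nat_lit 4) (nat_lit 5) (nat_lit 5) (nat_lit 5) (nat_lit 4) (nat_lit 386) (nat_lit 232) (nat_lit 162)))) (XT.nd (nat_lit 78) (nat_lit 0) (nat_lit 0) (XT.lf (nat_lit 0) (nat_lit 28658983848) (nat_lit 76) (nat_lit 26053591106) (nat_lit 76) (nat_lit 8714502079) (nat_lit 4) (nat_lit 4) (nat_lit 5) (nat_lit 5) (nat_lit 5) (nat_lit 4) (nat_lit 387) (nat_lit 232) (nat_lit 161)) (XT.nd (nat_lit 78) (nat_lit 0) (nat_lit 0) (XT.lf (nat_lit 0) (nat_lit 34055510911) (nat_lit 76) (nat_lit 24301841098) (nat_lit 76) (nat_lit 6892172498) (nat_lit 4)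 (nat_lit 4) (nat_lit 5) (nat_lit 5) (nat_lit 5) (nat_lit 4) (nat_lit 388) (nat_lit 232) (nat_lit 160)) (XT.lf (nat_lit 0) (nat_lit 39588215584) (nat_lit 76) (nat_lit 22508538927) (nat_lit 76) (nat_lit 5030346470) (nat_lit 4) (nat_lit 4) (nat_lit 5) (nat_lit 5) (nat_lit 5) (nat_lit 4) (nat_lit 389) (nat_lit 232) (nat_lit 159)))))) (XT.nd (nat_lit 468) (nat_lit 76) (nat_lit 0) (XT.nd (nat_lit 234) (nat_lit 0) (nat_lit 0) (XT.nd (nat_lit 78) (nat_lit 76) (nat_lit 0) (XT.lf (nat_lit 0) (nat_lit 45261932268) (nat_lit 76) (nat_lit 20672117632) (nat_lit 76) (nat_lit 3127397158) (nat_lit 4) (nat_lit 4) (nat_lit 5) (nat_lit 5) (nat_lit 5) (nat_lit 4) (nat_lit 390) (nat_lit 232) (nat_lit 158)) (XT.nd (nat_lit 78) (nat_lit 76) (nat_lit 0) (XT.lf (nat_lit 0) (nat_lit 51081618581) (nat_lit 76) (nat_lit 18790972571) (nat_lit 76) (nat_lit 1181661789) (nat_lit 4) (nat_lit 4) (nat_lit 5) (nat_lit 5) (nat_lit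 5) (nat_lit 4) (nat_lit 391) (nat_lit 232) (nat_lit 157)) (XT.lf (nat_lit 0) (nat_lit 792781878) (nat_lit 152) (nat_lit 16062672605) (nat_lit 76) (nat_lit 56251572264) (nat_lit 3) (nat_lit 5) (nat_lit 5) (nat_lit 5) (nat_lit 4) (nat_lit 4) (nat_lit 392) (nat_lit 232) (nat_lit 156)))) (XT.nd (nat_lit 78) (nat_lit 0) (nat_lit 0) (XT.lf (nat_lit 0) (nat_lit 2789490289) (nat_lit 152) (nat_lit 12070237090) (nat_lit 76) (nat_lit 60361714059) (nat_lit 3) (nat_lit 5) (nat_lit 5) (nat_lit 5) (nat_lit 4) (nat_lit 4) (nat_lit 393) (nat_lit 232) (nat_lit 155)) (XT.nd (nat_lit 78) (nat_lit 0) (nat_lit 0) (XT.lf (nat_lit 0) (nat_lit 4833266617) (nat_lit 152) (nat_lit 7980480424) (nat_lit 76) (nat_lit 64585938288) (nat_lit 3) (nat_lit 5) (nat_lit 5) (nat_lit 5) (nat_lit 4) (nat_lit 4) (nat_lit 394) (nat_lit 232) (nat_lit 154)) (XT.lf (nat_lit 0) (nat_lit 6925896687) (nat_lit 152) (nat_lit 3789829033) (nat_lit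 76) (nat_lit 68927936019) (nat_lit 3) (nat_lit 5) (nat_lit 5) (nat_lit 5) (nat_lit 4) (nat_lit 4) (nat_lit 395) (nat_lit 232) (nat_lit 153))))) (XT.nd (nat_lit 234) (nat_lit 0) (nat_lit 0) (XT.nd (nat_lit 78) (nat_lit 0) (nat_lit 0) (XT.lf (nat_lit 0) (nat_lit 515436844) (nat_lit 76) (nat_lit 8558726860) (nat_lit 152) (nat_lit 72881019081) (nat_lit 2) (nat_lit 5) (nat_lit 3) (nat_lit 5) (nat_lit 4) (nat_lit 4) (nat_lit 396) (nat_lit 232) (nat_lit 152)) (XT.nd (nat_lit 78) (nat_lit 0) (nat_lit 0) (XT.lf (nat_lit 0) (nat_lit 5006592878) (nat_lit 76) (nat_lit 6306609939) (nat_lit 152) (nat_lit 73022067683) (nat_lit 2) (nat_lit 5) (nat_lit 3) (nat_lit 5) (nat_lit 4) (nat_lit 4) (nat_lit 397) (nat_lit 232) (nat_lit 151)) (XT.lf (nat_lit 0) (nat_lit 9612138348) (nat_lit 76) (nat_lit 3995676932) (nat_lit 152) (nat_lit 73179303947) (nat_lit 2) (nat_lit 5) (nat_lit 3) (nat_lit 5) (nat_lit 4) (nat_lit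 4) (nat_lit 398) (nat_lit 232) (nat_lit 150)))) (XT.nd (nat_lit 78) (nat_lit 0) (nat_lit 0) (XT.lf (nat_lit 0) (nat_lit 14336097518) (nat_lit 76) (nat_lit 1623908578) (nat_lit 152) (nat_lit 73352865266) (nat_lit 2) (nat_lit 5) (nat_lit 3) (nat_lit 5) (nat_lit 4) (nat_lit 4) (nat_lit 399) (nat_lit 232) (nat_lit 149)) (XT.nd (nat_lit 78) (nat_lit 0) (nat_lit 0) (XT.lf (nat_lit 0) (nat_lit 18379624170) (nat_lit 152) (nat_lit 72739929343) (nat_lit 0) (nat_lit 794946548) (nat_lit 2) (nat_lit 5) (nat_lit 4) (nat_lit 4) (nat_lit 2) (nat_lit 4) (nat_lit 400) (nat_lit 232) (nat_lit 148)) (XT.lf (nat_lit 0) (nat_lit 20877218487) (nat_lit 152) (nat_lit 70470927611) (nat_lit 0) (nat_lit 3245879453) (nat_lit 2) (nat_lit 5) (nat_lit 4) (nat_lit 4) (nat_lit 2) (nat_lit 4) (nat_lit 401) (nat_lit 232) (nat_lit 147))))))) (XT.nd (nat_lit 34554) (nat_lit 0) (nat_lit 1368) (XT.nd (nat_lit 34086) (nat_lit 0) (nat_lit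 2356) (XT.nd (nat_lit 33852) (nat_lit 0) (nat_lit 3040) (XT.nd (nat_lit 33774) (nat_lit 0) (nat_lit 3572) (XT.lf (nat_lit 0) (nat_lit 23439361410) (nat_lit 152) (nat_lit 68152176022) (nat_lit 0) (nat_lit 5762720033) (nat_lit 2) (nat_lit 5) (nat_lit 4) (nat_lit 4) (nat_lit 2) (nat_lit 4) (nat_lit 402) (nat_lit 232) (nat_lit 146)) (XT.lf (nat_lit 0) (nat_lit 1597808059) (nat_lit 304) (nat_lit 2100203314) (nat_lit 0) (nat_lit 1597808059) (nat_lit 49) (nat_lit 5) (nat_lit 53) (nat_lit 4) (nat_lit 49) (nat_lit 4) (nat_lit 314) (nat_lit 233) (nat_lit 233))) (XT.nd (nat_lit 78) (nat_lit 304) (nat_lit 0) (XT.lf (nat_lit 0) (nat_lit 1618525991) (nat_lit 228) (nat_lit 4966869025) (nat_lit 228) (nat_lit 4193308630) (nat_lit 46) (nat_lit 4) (nat_lit 49) (nat_lit 5) (nat_lit 49) (nat_lit 4) (nat_lit 315) (nat_lit 233) (nat_lit 232)) (XT.nd (nat_lit 78) (nat_lit 304) (nat_lit 0) (XT.lf (nat_lit 0) (nat_lit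 7581597117) (nat_lit 228) (nat_lit 2457825196) (nat_lit 228) (nat_lit 933235289) (nat_lit 46) (nat_lit 4) (nat_lit 49) (nat_lit 5) (nat_lit 49) (nat_lit 4) (nat_lit 316) (nat_lit 233) (nat_lit 231)) (XT.lf (nat_lit 0) (nat_lit 2323865489) (nat_lit 304) (nat_lit 8713850593) (nat_lit 0) (nat_lit 135763770) (nat_lit 42) (nat_lit 5) (nat_lit 46) (nat_lit 4) (nat_lit 42) (nat_lit 4) (nat_lit 317) (nat_lit 233) (nat_lit 230))))) (XT.nd (nat_lit 234) (nat_lit 380) (nat_lit 0) (XT.nd (nat_lit 78) (nat_lit 304) (nat_lit 0) (XT.lf (nat_lit 0) (nat_lit 5641231513) (nat_lit 304) (nat_lit 2973688205) (nat_lit 0) (nat_lit 2765831401) (nat_lit 42) (nat_lit 5) (nat_lit 46) (nat_lit 4) (nat_lit 42) (nat_lit 4) (nat_lit 318) (nat_lit 233) (nat_lit 229)) (XT.nd (nat_lit 78) (nat_lit 76) (nat_lit 0) (XT.lf (nat_lit 0) (nat_lit 2882472155) (nat_lit 228) (nat_lit 6128007185) (nat_lit 228) (nat_lit 2585327080) (nat_lit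 39) (nat_lit 4) (nat_lit 42) (nat_lit 5) (nat_lit 42) (nat_lit 4) (nat_lit 319) (nat_lit 233) (nat_lit 228)) (XT.lf (nat_lit 0) (nat_lit 605781752) (nat_lit 304) (nat_lit 2960787800) (nat_lit 76) (nat_lit 8252024239) (nat_lit 38) (nat_lit 5) (nat_lit 42) (nat_lit 5) (nat_lit 39) (nat_lit 4) (nat_lit 320) (nat_lit 233) (nat_lit 227)))) (XT.nd (nat_lit 78) (nat_lit 228) (nat_lit 0) (XT.lf (nat_lit 0) (nat_lit 2885356907) (nat_lit 152) (nat_lit 910139179) (nat_lit 228) (nat_lit 8253280857) (nat_lit 36) (nat_lit 5) (nat_lit 38) (nat_lit 5) (nat_lit 39) (nat_lit 4) (nat_lit 321) (nat_lit 233) (nat_lit 226)) (XT.nd (nat_lit 78) (nat_lit 228) (nat_lit 0) (XT.lf (nat_lit 0) (nat_lit 7056473126) (nat_lit 228) (nat_lit 3445769667) (nat_lit 0) (nat_lit 1784477136) (nat_lit 36) (nat_lit 5) (nat_lit 39) (nat_lit 4) (nat_lit 36) (nat_lit 4) (nat_lit 322) (nat_lit 233) (nat_lit 225)) (XT.lf (nat_lit 0) (nat_lit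 2373400164) (nat_lit 228) (nat_lit 8003631986) (nat_lit 228) (nat_lit 2156034413) (nat_lit 33) (nat_lit 4) (nat_lit 36) (nat_lit 5) (nat_lit 36) (nat_lit 4) (nat_lit 323) (nat_lit 233) (nat_lit 224)))))) (XT.nd (nat_lit 468) (nat_lit 532) (nat_lit 0) (XT.nd (nat_lit 234) (nat_lit 228) (nat_lit 0) (XT.nd (nat_lit 78) (nat_lit 152) (nat_lit 0) (XT.lf (nat_lit 0) (nat_lit 955978127) (nat_lit 304) (nat_lit 4465798463) (nat_lit 76) (nat_lit 7365888085) (nat_lit 32) (nat_lit 5) (nat_lit 36) (nat_lit 5) (nat_lit 33) (nat_lit 4) (nat_lit 324) (nat_lit 233) (nat_lit 223)) (XT.nd (nat_lit 78) (nat_lit 0) (nat_lit 0) (XT.lf (nat_lit 0) (nat_lit 1298249255) (nat_lit 152) (nat_lit 2764432032) (nat_lit 228) (nat_lit 8988347035) (nat_lit 30) (nat_lit 5) (nat_lit 32) (nat_lit 5) (nat_lit 33) (nat_lit 4) (nat_lit 325) (nat_lit 233) (nat_lit 222)) (XT.lf (nat_lit 0) (nat_lit 7223165710) (nat_lit 152) (nat_lit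 17679835) (nat_lit 228) (nat_lit 6082204322) (nat_lit 30) (nat_lit 5) (nat_lit 32) (nat_lit 5) (nat_lit 33) (nat_lit 4) (nat_lit 326) (nat_lit 233) (nat_lit 221)))) (XT.nd (nat_lit 78) (nat_lit 228) (nat_lit 0) (XT.lf (nat_lit 0) (nat_lit 10476148135) (nat_lit 228) (nat_lit 406713137) (nat_lit 0) (nat_lit 2721618718) (nat_lit 30) (nat_lit 5) (nat_lit 33) (nat_lit 4) (nat_lit 30) (nat_lit 4) (nat_lit 327) (nat_lit 233) (nat_lit 220)) (XT.nd (nat_lit 78) (nat_lit 76) (nat_lit 0) (XT.lf (nat_lit 0) (nat_lit 5464402191) (nat_lit 152) (nat_lit 8333477590) (nat_lit 152) (nat_lit 96890909) (nat_lit 28) (nat_lit 4) (nat_lit 30) (nat_lit 5) (nat_lit 30) (nat_lit 4) (nat_lit 328) (nat_lit 233) (nat_lit 219)) (XT.lf (nat_lit 0) (nat_lit 2907457644) (nat_lit 228) (nat_lit 2802464424) (nat_lit 76) (nat_lit 8484838581) (nat_lit 27) (nat_lit 5) (nat_lit 30) (nat_lit 5) (nat_lit 28) (nat_lit 4) (nat_lit 329)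 (nat_lit 233) (nat_lit 218))))) (XT.nd (nat_lit 234) (nat_lit 380) (nat_lit 0) (XT.nd (nat_lit 78) (nat_lit 0) (nat_lit 0) (XT.lf (nat_lit 0) (nat_lit 2954185454) (nat_lit 152) (nat_lit 3012895383) (nat_lit 228) (nat_lit 8537718330) (nat_lit 25) (nat_lit 5) (nat_lit 27) (nat_lit 5) (nat_lit 28) (nat_lit 4) (nat_lit 330) (nat_lit 233) (nat_lit 217)) (XT.nd (nat_lit 78) (nat_lit 0) (nat_lit 0) (XT.lf (nat_lit 0) (nat_lit 8845152612) (nat_lit 152) (nat_lit 241198099) (nat_lit 228) (nat_lit 5738840150) (nat_lit 25) (nat_lit 5) (nat_lit 27) (nat_lit 5) (nat_lit 28) (nat_lit 4) (nat_lit 331) (nat_lit 233) (nat_lit 216)) (XT.lf (nat_lit 0) (nat_lit 12265311432) (nat_lit 228) (nat_lit 362023713) (nat_lit 0) (nat_lit 2528960978) (nat_lit 25) (nat_lit 5) (nat_lit 28) (nat_lit 4) (nat_lit 25) (nat_lit 4) (nat_lit 332) (nat_lit 233) (nat_lit 215)))) (XT.nd (nat_lit 78) (nat_lit 152) (nat_lit 0) (XT.lf (nat_lit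 0) (nat_lit 38727460) (nat_lit 228) (nat_lit 10061449079) (nat_lit 76) (nat_lit 5397308720) (nat_lit 22) (nat_lit 5) (nat_lit 25) (nat_lit 5) (nat_lit 23) (nat_lit 4) (nat_lit 333) (nat_lit 233) (nat_lit 214)) (XT.nd (nat_lit 78) (nat_lit 152) (nat_lit 0) (XT.lf (nat_lit 0) (nat_lit 2944781295) (nat_lit 228) (nat_lit 4554116464) (nat_lit 76) (nat_lit 8350834884) (nat_lit 22) (nat_lit 5) (nat_lit 25) (nat_lit 5) (nat_lit 23) (nat_lit 4) (nat_lit 334) (nat_lit 233) (nat_lit 213)) (XT.lf (nat_lit 0) (nat_lit 1049483026) (nat_lit 152) (nat_lit 4843150458) (nat_lit 228) (nat_lit 10321351162) (nat_lit 20) (nat_lit 5) (nat_lit 22) (nat_lit 5) (nat_lit 23) (nat_lit 4) (nat_lit 335) (nat_lit 233) (nat_lit 212))))))))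
noncomputable def xc44 : XT := (XT.nd (nat_lit 1716) (nat_lit 304) (nat_lit 0) (XT.nd (nat_lit 858) (nat_lit 304) (nat_lit 0) (XT.nd (nat_lit 390) (nat_lit 304) (nat_lit 0) (XT.nd (nat_lit 156) (nat_lit 228) (nat_lit 0) (XT.nd (nat_lit 78) (nat_lit 0) (nat_lit 0) (XT.lf (nat_lit 0) (nat_lit 6825989916) (nat_lit 152) (nat_lit 2094211866) (nat_lit 228) (nat_lit 7669297508) (nat_lit 20) (nat_lit 5) (nat_lit 22) (nat_lit 5) (nat_lit 23) (nat_lit 4) (nat_lit 336) (nat_lit 233) (nat_lit 211)) (XT.lf (nat_lit 0) (nat_lit 11992253906) (nat_lit 228) (nat_lit 4294898823) (nat_lit 0) (nat_lit 690588295) (nat_lit 20) (nat_lit 5) (nat_lit 23) (nat_lit 4) (nat_lit 20) (nat_lit 4) (nat_lit 337) (nat_lit 233) (nat_lit 210))) (XT.nd (nat_lit 78) (nat_lit 76) (nat_lit 0) (XT.lf (nat_lit 0) (nat_lit 1256777892) (nat_lit 152) (nat_lit 13880632002) (nat_lit 152) (nat_lit 2240861125) (nat_lit 18) (nat_lit 4) (nat_lit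 20) (nat_lit 5) (nat_lit 20) (nat_lit 4) (nat_lit 338) (nat_lit 233) (nat_lit 209)) (XT.nd (nat_lit 78) (nat_lit 0) (nat_lit 0) (XT.lf (nat_lit 0) (nat_lit 566724046) (nat_lit 228) (nat_lit 10817578602) (nat_lit 76) (nat_lit 6406648825) (nat_lit 17) (nat_lit 5) (nat_lit 20) (nat_lit 5) (nat_lit 18) (nat_lit 4) (nat_lit 339) (nat_lit 233) (nat_lit 208)) (XT.lf (nat_lit 0) (nat_lit 3363262663) (nat_lit 228) (nat_lit 5459301850) (nat_lit 76) (nat_lit 9394352673) (nat_lit 17) (nat_lit 5) (nat_lit 20) (nat_lit 5) (nat_lit 18) (nat_lit 4) (nat_lit 340) (nat_lit 233) (nat_lit 207))))) (XT.nd (nat_lit 234) (nat_lit 228) (nat_lit 0) (XT.nd (nat_lit 78) (nat_lit 76) (nat_lit 0) (XT.lf (nat_lit 0) (nat_lit 6194925574) (nat_lit 228) (nat_lit 20440355) (nat_lit 76) (nat_lit 12441820649) (nat_lit 17) (nat_lit 5) (nat_lit 20) (nat_lit 5) (nat_lit 18) (nat_lit 4) (nat_lit 341) (nat_lit 233) (nat_lit 206)) (XT.nd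 (nat_lit 78) (nat_lit 0) (nat_lit 0) (XT.lf (nat_lit 0) (nat_lit 5613293867) (nat_lit 76) (nat_lit 3504851595) (nat_lit 152) (nat_lit 9992380136) (nat_lit 16) (nat_lit 5) (nat_lit 17) (nat_lit 5) (nat_lit 18) (nat_lit 4) (nat_lit 342) (nat_lit 233) (nat_lit 205)) (XT.lf (nat_lit 0) (nat_lit 11339393451) (nat_lit 76) (nat_lit 743161940) (nat_lit 152) (nat_lit 7496362612) (nat_lit 16) (nat_lit 5) (nat_lit 17) (nat_lit 5) (nat_lit 18) (nat_lit 4) (nat_lit 343) (nat_lit 233) (nat_lit 204)))) (XT.nd (nat_lit 78) (nat_lit 228) (nat_lit 0) (XT.lf (nat_lit 0) (nat_lit 15110461693) (nat_lit 152) (nat_lit 2920240563) (nat_lit 0) (nat_lit 2031479331) (nat_lit 16) (nat_lit 5) (nat_lit 18) (nat_lit 4) (nat_lit 16) (nat_lit 4) (nat_lit 344) (nat_lit 233) (nat_lit 203)) (XT.nd (nat_lit 78) (nat_lit 76) (nat_lit 0) (XT.lf (nat_lit 0) (nat_lit 2526829043) (nat_lit 152) (nat_lit 15689717137) (nat_lit 152) (nat_lit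 2343831356) (nat_lit 14) (nat_lit 4) (nat_lit 16) (nat_lit 5) (nat_lit 16) (nat_lit 4) (nat_lit 345) (nat_lit 233) (nat_lit 202)) (XT.lf (nat_lit 0) (nat_lit 321192318) (nat_lit 228) (nat_lit 12952994906) (nat_lit 76) (nat_lit 7799717642) (nat_lit 13) (nat_lit 5) (nat_lit 16) (nat_lit 5) (nat_lit 14) (nat_lit 4) (nat_lit 346) (nat_lit 233) (nat_lit 201)))))) (XT.nd (nat_lit 390) (nat_lit 228) (nat_lit 0) (XT.nd (nat_lit 156) (nat_lit 76) (nat_lit 0) (XT.nd (nat_lit 78) (nat_lit 0) (nat_lit 0) (XT.lf (nat_lit 0) (nat_lit 2976142671) (nat_lit 228) (nat_lit 7815027762) (nat_lit 76) (nat_lit 10812308903) (nat_lit 13) (nat_lit 5) (nat_lit 16) (nat_lit 5) (nat_lit 14) (nat_lit 4) (nat_lit 347) (nat_lit 233) (nat_lit 200)) (XT.lf (nat_lit 0) (nat_lit 5669076151) (nat_lit 228) (nat_lit 2592627236) (nat_lit 76) (nat_lit 13888536204) (nat_lit 13) (nat_lit 5) (nat_lit 16) (nat_lit 5) (nat_lit 14) (nat_lit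 4) (nat_lit 348) (nat_lit 233) (nat_lit 199))) (XT.nd (nat_lit 78) (nat_lit 0) (nat_lit 0) (XT.lf (nat_lit 0) (nat_lit 2772878787) (nat_lit 76) (nat_lit 5656121627) (nat_lit 152) (nat_lit 14284863330) (nat_lit 12) (nat_lit 5) (nat_lit 13) (nat_lit 5) (nat_lit 14) (nat_lit 4) (nat_lit 349) (nat_lit 233) (nat_lit 198)) (XT.nd (nat_lit 78) (nat_lit 0) (nat_lit 0) (XT.lf (nat_lit 0) (nat_lit 8285484422) (nat_lit 76) (nat_lit 2972500656) (nat_lit 152) (nat_lit 12036869463) (nat_lit 12) (nat_lit 5) (nat_lit 13) (nat_lit 5) (nat_lit 14) (nat_lit 4) (nat_lit 350) (nat_lit 233) (nat_lit 197)) (XT.lf (nat_lit 0) (nat_lit 13898408142) (nat_lit 76) (nat_lit 234676016) (nat_lit 152) (nat_lit 9761398025) (nat_lit 12) (nat_lit 5) (nat_lit 13) (nat_lit 5) (nat_lit 14) (nat_lit 4) (nat_lit 351) (nat_lit 233) (nat_lit 196))))) (XT.nd (nat_lit 234) (nat_lit 76) (nat_lit 0) (XT.nd (nat_lit 78) (nat_lit 152) (nat_lit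 0) (XT.lf (nat_lit 0) (nat_lit 17081415707) (nat_lit 152) (nat_lit 4921322002) (nat_lit 0) (nat_lit 2509794731) (nat_lit 12) (nat_lit 5) (nat_lit 14) (nat_lit 4) (nat_lit 12) (nat_lit 4) (nat_lit 352) (nat_lit 233) (nat_lit 195)) (XT.nd (nat_lit 78) (nat_lit 0) (nat_lit 0) (XT.lf (nat_lit 0) (nat_lit 245923065) (nat_lit 152) (nat_lit 19840192857) (nat_lit 152) (nat_lit 5064012634) (nat_lit 10) (nat_lit 4) (nat_lit 12) (nat_lit 5) (nat_lit 12) (nat_lit 4) (nat_lit 353) (nat_lit 233) (nat_lit 194)) (XT.lf (nat_lit 0) (nat_lit 5607452959) (nat_lit 152) (nat_lit 17586909777) (nat_lit 152) (nat_lit 2612128345) (nat_lit 10) (nat_lit 4) (nat_lit 12) (nat_lit 5) (nat_lit 12) (nat_lit 4) (nat_lit 354) (nat_lit 233) (nat_lit 193)))) (XT.nd (nat_lit 78) (nat_lit 76) (nat_lit 0) (XT.lf (nat_lit 0) (nat_lit 11070008552) (nat_lit 152) (nat_lit 15290615286) (nat_lit 152) (nat_lit 123017145) (nat_lit 10) (nat_lit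 4) (nat_lit 12) (nat_lit 5) (nat_lit 12) (nat_lit 4) (nat_lit 355) (nat_lit 233) (nat_lit 192)) (XT.nd (nat_lit 78) (nat_lit 0) (nat_lit 0) (XT.lf (nat_lit 0) (nat_lit 2358556026) (nat_lit 228) (nat_lit 10566930095) (nat_lit 76) (nat_lit 14255990133) (nat_lit 9) (nat_lit 5) (nat_lit 12) (nat_lit 5) (nat_lit 10) (nat_lit 4) (nat_lit 356) (nat_lit 233) (nat_lit 191)) (XT.lf (nat_lit 0) (nat_lit 4878527948) (nat_lit 228) (nat_lit 5633135334) (nat_lit 76) (nat_lit 17389590193) (nat_lit 9) (nat_lit 5) (nat_lit 12) (nat_lit 5) (nat_lit 10) (nat_lit 4) (nat_lit 357) (nat_lit 233) (nat_lit 190))))))) (XT.nd (nat_lit 858) (nat_lit 152) (nat_lit 0) (XT.nd (nat_lit 390) (nat_lit 76) (nat_lit 0) (XT.nd (nat_lit 156) (nat_lit 0) (nat_lit 0) (XT.nd (nat_lit 78) (nat_lit 76) (nat_lit 0) (XT.lf (nat_lit 0) (nat_lit 7441501044) (nat_lit 228) (nat_lit 606754552) (nat_lit 76) (nat_lit 20595381458) (nat_lit 9)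 (nat_lit 5) (nat_lit 12) (nat_lit 5) (nat_lit 10) (nat_lit 4) (nat_lit 358) (nat_lit 233) (nat_lit 189)) (XT.lf (nat_lit 0) (nat_lit 4606493516) (nat_lit 76) (nat_lit 5487501724) (nat_lit 152) (nat_lit 19313952024) (nat_lit 8) (nat_lit 5) (nat_lit 9) (nat_lit 5) (nat_lit 10) (nat_lit 4) (nat_lit 359) (nat_lit 233) (nat_lit 188))) (XT.nd (nat_lit 78) (nat_lit 0) (nat_lit 0) (XT.lf (nat_lit 0) (nat_lit 9935291064) (nat_lit 76) (nat_lit 2865661286) (nat_lit 152) (nat_lit 17395020873) (nat_lit 8) (nat_lit 5) (nat_lit 9) (nat_lit 5) (nat_lit 10) (nat_lit 4) (nat_lit 360) (nat_lit 233) (nat_lit 187)) (XT.nd (nat_lit 78) (nat_lit 0) (nat_lit 0) (XT.lf (nat_lit 0) (nat_lit 15372218717) (nat_lit 76) (nat_lit 186570387) (nat_lit 152) (nat_lit 15449792853) (nat_lit 8) (nat_lit 5) (nat_lit 9) (nat_lit 5) (nat_lit 10) (nat_lit 4) (nat_lit 361) (nat_lit 233) (nat_lit 186)) (XT.lf (nat_lit 0) (nat_lit 18394447725)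 (nat_lit 152) (nat_lit 10948988784) (nat_lit 0) (nat_lit 2502311030) (nat_lit 8) (nat_lit 5) (nat_lit 10) (nat_lit 4) (nat_lit 8) (nat_lit 4) (nat_lit 362) (nat_lit 233) (nat_lit 185))))) (XT.nd (nat_lit 234) (nat_lit 0) (nat_lit 0) (XT.nd (nat_lit 78) (nat_lit 76) (nat_lit 0) (XT.lf (nat_lit 0) (nat_lit 21288241333) (nat_lit 152) (nat_lit 6172298390) (nat_lit 0) (nat_lit 5248326686) (nat_lit 8) (nat_lit 5) (nat_lit 10) (nat_lit 4) (nat_lit 8) (nat_lit 4) (nat_lit 363) (nat_lit 233) (nat_lit 184)) (XT.nd (nat_lit 78) (nat_lit 76) (nat_lit 0) (XT.lf (nat_lit 0) (nat_lit 24240905059) (nat_lit 152) (nat_lit 1300324822) (nat_lit 0) (nat_lit 8057516672) (nat_lit 8) (nat_lit 5) (nat_lit 10) (nat_lit 4) (nat_lit 8) (nat_lit 4) (nat_lit 364) (nat_lit 233) (nat_lit 183)) (XT.lf (nat_lit 0) (nat_lit 3744252841) (nat_lit 76) (nat_lit 23546758108) (nat_lit 76) (nat_lit 7224074828) (nat_lit 7) (nat_lit 4)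 (nat_lit 8) (nat_lit 5) (nat_lit 8) (nat_lit 4) (nat_lit 365) (nat_lit 233) (nat_lit 182)))) (XT.nd (nat_lit 78) (nat_lit 0) (nat_lit 0) (XT.lf (nat_lit 0) (nat_lit 8920661298) (nat_lit 76) (nat_lit 21498306103) (nat_lit 76) (nat_lit 5040385063) (nat_lit 7) (nat_lit 4) (nat_lit 8) (nat_lit 5) (nat_lit 8) (nat_lit 4) (nat_lit 366) (nat_lit 233) (nat_lit 181)) (XT.nd (nat_lit 78) (nat_lit 0) (nat_lit 0) (XT.lf (nat_lit 0) (nat_lit 14207544611) (nat_lit 76) (nat_lit 19407214690) (nat_lit 76) (nat_lit 2817994853) (nat_lit 7) (nat_lit 4) (nat_lit 8) (nat_lit 5) (nat_lit 8) (nat_lit 4) (nat_lit 367) (nat_lit 233) (nat_lit 180)) (XT.lf (nat_lit 0) (nat_lit 19609522385) (nat_lit 76) (nat_lit 17271656700) (nat_lit 76) (nat_lit 554962303) (nat_lit 7) (nat_lit 4) (nat_lit 8) (nat_lit 5) (nat_lit 8) (nat_lit 4) (nat_lit 368) (nat_lit 233) (nat_lit 179)))))) (XT.nd (nat_lit 468) (nat_lit 0) (nat_lit 0) (XT.nd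 (nat_lit 234) (nat_lit 76) (nat_lit 0) (XT.nd (nat_lit 78) (nat_lit 0) (nat_lit 0) (XT.lf (nat_lit 0) (nat_lit 1716527724) (nat_lit 152) (nat_lit 13355904823) (nat_lit 76) (nat_lit 23397453506) (nat_lit 6) (nat_lit 5) (nat_lit 8) (nat_lit 5) (nat_lit 7) (nat_lit 4) (nat_lit 369) (nat_lit 233) (nat_lit 178)) (XT.nd (nat_lit 78) (nat_lit 0) (nat_lit 0) (XT.lf (nat_lit 0) (nat_lit 4020951856) (nat_lit 152) (nat_lit 8798080834) (nat_lit 76) (nat_lit 26716191124) (nat_lit 6) (nat_lit 5) (nat_lit 8) (nat_lit 5) (nat_lit 7) (nat_lit 4) (nat_lit 370) (nat_lit 233) (nat_lit 177)) (XT.lf (nat_lit 0) (nat_lit 6371152978) (nat_lit 152) (nat_lit 4143829835) (nat_lit 76) (nat_lit 30118262772) (nat_lit 6) (nat_lit 5) (nat_lit 8) (nat_lit 5) (nat_lit 7) (nat_lit 4) (nat_lit 371) (nat_lit 233) (nat_lit 176)))) (XT.nd (nat_lit 78) (nat_lit 0) (nat_lit 0) (XT.lf (nat_lit 0) (nat_lit 623073400) (nat_lit 76) (nat_lit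 8152100628) (nat_lit 152) (nat_lit 32989557096) (nat_lit 5) (nat_lit 5) (nat_lit 6) (nat_lit 5) (nat_lit 7) (nat_lit 4) (nat_lit 372) (nat_lit 233) (nat_lit 175)) (XT.nd (nat_lit 78) (nat_lit 0) (nat_lit 0) (XT.lf (nat_lit 0) (nat_lit 5579178147) (nat_lit 76) (nat_lit 5691594610) (nat_lit 152) (nat_lit 31658826633) (nat_lit 5) (nat_lit 5) (nat_lit 6) (nat_lit 5) (nat_lit 7) (nat_lit 4) (nat_lit 373) (nat_lit 233) (nat_lit 174)) (XT.lf (nat_lit 0) (nat_lit 10646344644) (nat_lit 76) (nat_lit 3173159362) (nat_lit 152) (nat_lit 30310583001) (nat_lit 5) (nat_lit 5) (nat_lit 6) (nat_lit 5) (nat_lit 7) (nat_lit 4) (nat_lit 374) (nat_lit 233) (nat_lit 173))))) (XT.nd (nat_lit 234) (nat_lit 0) (nat_lit 0) (XT.nd (nat_lit 78) (nat_lit 0) (nat_lit 0) (XT.lf (nat_lit 0) (nat_lit 15829000510) (nat_lit 76) (nat_lit 594594308) (nat_lit 152) (nat_lit 28943648124) (nat_lit 5) (nat_lit 5) (nat_lit 6) (nat_lit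 5) (nat_lit 7) (nat_lit 4) (nat_lit 375) (nat_lit 233) (nat_lit 172)) (XT.nd (nat_lit 78) (nat_lit 0) (nat_lit 0) (XT.lf (nat_lit 0) (nat_lit 19104991418) (nat_lit 152) (nat_lit 25530144727) (nat_lit 0) (nat_lit 2006421936) (nat_lit 5) (nat_lit 5) (nat_lit 7) (nat_lit 4) (nat_lit 5) (nat_lit 4) (nat_lit 376) (nat_lit 233) (nat_lit 171)) (XT.lf (nat_lit 0) (nat_lit 21852686230) (nat_lit 152) (nat_lit 21442596485) (nat_lit 0) (nat_lit 4659263704) (nat_lit 5) (nat_lit 5) (nat_lit 7) (nat_lit 4) (nat_lit 5) (nat_lit 4) (nat_lit 377) (nat_lit 233) (nat_lit 170)))) (XT.nd (nat_lit 78) (nat_lit 0) (nat_lit 0) (XT.lf (nat_lit 0) (nat_lit 24663364549) (nat_lit 152) (nat_lit 17266310460) (nat_lit 0) (nat_lit 7377851689) (nat_lit 5) (nat_lit 5) (nat_lit 7) (nat_lit 4) (nat_lit 5) (nat_lit 4) (nat_lit 378) (nat_lit 233) (nat_lit 169)) (XT.nd (nat_lit 78) (nat_lit 0) (nat_lit 0) (XT.lf (nat_lit 0) (nat_lit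 27539482307) (nat_lit 152) (nat_lit 12997637467) (nat_lit 0) (nat_lit 10164561356) (nat_lit 5) (nat_lit 5) (nat_lit 7) (nat_lit 4) (nat_lit 5) (nat_lit 4) (nat_lit 379) (nat_lit 233) (nat_lit 168)) (XT.lf (nat_lit 0) (nat_lit 30483552617) (nat_lit 152) (nat_lit 8632847600) (nat_lit 0) (nat_lit 13021827694) (nat_lit 5) (nat_lit 5) (nat_lit 7) (nat_lit 4) (nat_lit 5) (nat_lit 4) (nat_lit 380) (nat_lit 233) (nat_lit 167))))))))
noncomputable def xc45 : XT := (XT.nd (nat_lit 35256) (nat_lit 0) (nat_lit 1520) (XT.nd (nat_lit 858) (nat_lit 152) (nat_lit 0) (XT.nd (nat_lit 390) (nat_lit 0) (nat_lit 0) (XT.nd (nat_lit 156) (nat_lit 0) (nat_lit 0) (XT.nd (nat_lit 78) (nat_lit 76) (nat_lit 0) (XT.lf (nat_lit 0) (nat_lit 33498147969) (nat_lit 152) (nat_lit 4168126964) (nat_lit 0) (nat_lit 15952147344) (nat_lit 5) (nat_lit 5) (nat_lit 7) (nat_lit 4) (nat_lit 5) (nat_lit 4) (nat_lit 381) (nat_lit 233) (nat_lit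 166)) (XT.lf (nat_lit 0) (nat_lit 408394908) (nat_lit 76) (nat_lit 36181433306) (nat_lit 76) (nat_lit 18553611613) (nat_lit 4) (nat_lit 4) (nat_lit 5) (nat_lit 5) (nat_lit 5) (nat_lit 4) (nat_lit 382) (nat_lit 233) (nat_lit 165))) (XT.nd (nat_lit 78) (nat_lit 0) (nat_lit 0) (XT.lf (nat_lit 0) (nat_lit 5177840508) (nat_lit 76) (nat_lit 34621446230) (nat_lit 76) (nat_lit 16914186606) (nat_lit 4) (nat_lit 4) (nat_lit 5) (nat_lit 5) (nat_lit 5) (nat_lit 4) (nat_lit 383) (nat_lit 233) (nat_lit 164)) (XT.nd (nat_lit 78) (nat_lit 0) (nat_lit 0) (XT.lf (nat_lit 0) (nat_lit 10061423413) (nat_lit 76) (nat_lit 33027040518) (nat_lit 76) (nat_lit 15242656689) (nat_lit 4) (nat_lit 4) (nat_lit 5) (nat_lit 5) (nat_lit 5) (nat_lit 4) (nat_lit 384) (nat_lit 233) (nat_lit 163)) (XT.lf (nat_lit 0) (nat_lit 15063410831) (nat_lit 76) (nat_lit 31396823002) (nat_lit 76) (nat_lit 13537561304) (nat_lit 4) (nat_lit 4)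 (nat_lit 5) (nat_lit 5) (nat_lit 5) (nat_lit 4) (nat_lit 385) (nat_lit 233) (nat_lit 162))))) (XT.nd (nat_lit 234) (nat_lit 0) (nat_lit 0) (XT.nd (nat_lit 78) (nat_lit 0) (nat_lit 0) (XT.lf (nat_lit 0) (nat_lit 20188173430) (nat_lit 76) (nat_lit 29729369219) (nat_lit 76) (nat_lit 11797410561) (nat_lit 4) (nat_lit 4) (nat_lit 5) (nat_lit 5) (nat_lit 5) (nat_lit 4) (nat_lit 386) (nat_lit 233) (nat_lit 161)) (XT.nd (nat_lit 78) (nat_lit 0) (nat_lit 0) (XT.lf (nat_lit 0) (nat_lit 25440189159) (nat_lit 76) (nat_lit 28023222170) (nat_lit 76) (nat_lit 10020683939) (nat_lit 4) (nat_lit 4) (nat_lit 5) (nat_lit 5) (nat_lit 5) (nat_lit 4) (nat_lit 387) (nat_lit 233) (nat_lit 160)) (XT.lf (nat_lit 0) (nat_lit 30824047157) (nat_lit 76) (nat_lit 26276891048) (nat_lit 76) (nat_lit 8205828960) (nat_lit 4) (nat_lit 4) (nat_lit 5) (nat_lit 5) (nat_lit 5) (nat_lit 4) (nat_lit 388) (nat_lit 233) (nat_lit 159))))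 (XT.nd (nat_lit 78) (nat_lit 0) (nat_lit 0) (XT.lf (nat_lit 0) (nat_lit 36344451766) (nat_lit 76) (nat_lit 24488849931) (nat_lit 76) (nat_lit 6351259827) (nat_lit 4) (nat_lit 4) (nat_lit 5) (nat_lit 5) (nat_lit 5) (nat_lit 4) (nat_lit 389) (nat_lit 233) (nat_lit 158)) (XT.nd (nat_lit 78) (nat_lit 0) (nat_lit 0) (XT.lf (nat_lit 0) (nat_lit 42006226641) (nat_lit 76) (nat_lit 22657536455) (nat_lit 76) (nat_lit 4455356043) (nat_lit 4) (nat_lit 4) (nat_lit 5) (nat_lit 5) (nat_lit 5) (nat_lit 4) (nat_lit 390) (nat_lit 233) (nat_lit 157)) (XT.lf (nat_lit 0) (nat_lit 47814318964) (nat_lit 76) (nat_lit 20781350442) (nat_lit 76) (nat_lit 2516460994) (nat_lit 4) (nat_lit 4) (nat_lit 5) (nat_lit 5) (nat_lit 5) (nat_lit 4) (nat_lit 391) (nat_lit 233) (nat_lit 156)))))) (XT.nd (nat_lit 390) (nat_lit 76) (nat_lit 0) (XT.nd (nat_lit 156) (nat_lit 0) (nat_lit 0) (XT.nd (nat_lit 78) (nat_lit 76) (nat_lit 0) (XT.lf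 (nat_lit 0) (nat_lit 53773803767) (nat_lit 76) (nat_lit 18858652506) (nat_lit 76) (nat_lit 532880498) (nat_lit 4) (nat_lit 4) (nat_lit 5) (nat_lit 5) (nat_lit 5) (nat_lit 4) (nat_lit 392) (nat_lit 233) (nat_lit 155)) (XT.lf (nat_lit 0) (nat_lit 1467904490) (nat_lit 152) (nat_lit 15405035174) (nat_lit 76) (nat_lit 58407160920) (nat_lit 3) (nat_lit 5) (nat_lit 5) (nat_lit 5) (nat_lit 4) (nat_lit 4) (nat_lit 393) (nat_lit 233) (nat_lit 154))) (XT.nd (nat_lit 78) (nat_lit 0) (nat_lit 0) (XT.lf (nat_lit 0) (nat_lit 3505543110) (nat_lit 152) (nat_lit 11326016427) (nat_lit 76) (nat_lit 62626974693) (nat_lit 3) (nat_lit 5) (nat_lit 5) (nat_lit 5) (nat_lit 4) (nat_lit 4) (nat_lit 394) (nat_lit 233) (nat_lit 153)) (XT.nd (nat_lit 78) (nat_lit 0) (nat_lit 0) (XT.lf (nat_lit 0) (nat_lit 5592214239) (nat_lit 152) (nat_lit 7145790200) (nat_lit 76) (nat_lit 66964690429) (nat_lit 3) (nat_lit 5) (nat_lit 5)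 (nat_lit 5) (nat_lit 4) (nat_lit 4) (nat_lit 395) (nat_lit 233) (nat_lit 152)) (XT.lf (nat_lit 0) (nat_lit 7729741184) (nat_lit 152) (nat_lit 2860703869) (nat_lit 76) (nat_lit 71424098364) (nat_lit 3) (nat_lit 5) (nat_lit 5) (nat_lit 5) (nat_lit 4) (nat_lit 4) (nat_lit 396) (nat_lit 233) (nat_lit 151))))) (XT.nd (nat_lit 234) (nat_lit 0) (nat_lit 0) (XT.nd (nat_lit 78) (nat_lit 0) (nat_lit 0) (XT.lf (nat_lit 0) (nat_lit 1563496260) (nat_lit 76) (nat_lit 8371524707) (nat_lit 152) (nat_lit 74460628091) (nat_lit 2) (nat_lit 5) (nat_lit 3) (nat_lit 5) (nat_lit 4) (nat_lit 4) (nat_lit 397) (nat_lit 233) (nat_lit 150)) (XT.nd (nat_lit 78) (nat_lit 0) (nat_lit 0) (XT.lf (nat_lit 0) (nat_lit 6159311354) (nat_lit 76) (nat_lit 6064775268) (nat_lit 152) (nat_lit 74623582565) (nat_lit 2) (nat_lit 5) (nat_lit 3) (nat_lit 5) (nat_lit 4) (nat_lit 4) (nat_lit 398) (nat_lit 233) (nat_lit 149)) (XT.lf (nat_lit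 0) (nat_lit 10873823556) (nat_lit 76) (nat_lit 3697068629) (nat_lit 152) (nat_lit 74802695543) (nat_lit 2) (nat_lit 5) (nat_lit 3) (nat_lit 5) (nat_lit 4) (nat_lit 4) (nat_lit 399) (nat_lit 233) (nat_lit 148)))) (XT.nd (nat_lit 78) (nat_lit 0) (nat_lit 0) (XT.lf (nat_lit 0) (nat_lit 15711152345) (nat_lit 76) (nat_lit 1266335921) (nat_lit 152) (nat_lit 74998123532) (nat_lit 2) (nat_lit 5) (nat_lit 3) (nat_lit 5) (nat_lit 4) (nat_lit 4) (nat_lit 400) (nat_lit 233) (nat_lit 147)) (XT.nd (nat_lit 78) (nat_lit 0) (nat_lit 0) (XT.lf (nat_lit 0) (nat_lit 19457796869) (nat_lit 152) (nat_lit 73992309652) (nat_lit 0) (nat_lit 1205553910) (nat_lit 2) (nat_lit 5) (nat_lit 4) (nat_lit 4) (nat_lit 2) (nat_lit 4) (nat_lit 401) (nat_lit 233) (nat_lit 146)) (XT.lf (nat_lit 0) (nat_lit 22014975794) (nat_lit 152) (nat_lit 71682319933) (nat_lit 0) (nat_lit 3718749978) (nat_lit 2) (nat_lit 5) (nat_lit 4) (nat_lit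 4) (nat_lit 2) (nat_lit 4) (nat_lit 402) (nat_lit 233) (nat_lit 145))))))) (XT.nd (nat_lit 858) (nat_lit 1064) (nat_lit 0) (XT.nd (nat_lit 390) (nat_lit 760) (nat_lit 0) (XT.nd (nat_lit 156) (nat_lit 228) (nat_lit 0) (XT.nd (nat_lit 78) (nat_lit 304) (nat_lit 0) (XT.lf (nat_lit 0) (nat_lit 2484823004) (nat_lit 304) (nat_lit 1316577396) (nat_lit 304) (nat_lit 1316577396) (nat_lit 53) (nat_lit 4) (nat_lit 57) (nat_lit 5) (nat_lit 57) (nat_lit 4) (nat_lit 312) (nat_lit 234) (nat_lit 234)) (XT.lf (nat_lit 0) (nat_lit 477027158) (nat_lit 228) (nat_lit 162232635) (nat_lit 304) (nat_lit 9772778947) (nat_lit 49) (nat_lit 5) (nat_lit 52) (nat_lit 5) (nat_lit 53) (nat_lit 4) (nat_lit 313) (nat_lit 234) (nat_lit 233))) (XT.nd (nat_lit 78) (nat_lit 228) (nat_lit 0) (XT.lf (nat_lit 0) (nat_lit 3952431176) (nat_lit 304) (nat_lit 4258380762) (nat_lit 0) (nat_lit 2382103572) (nat_lit 49) (nat_lit 5) (nat_lit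 53) (nat_lit 4) (nat_lit 49) (nat_lit 4) (nat_lit 314) (nat_lit 234) (nat_lit 232)) (XT.nd (nat_lit 78) (nat_lit 0) (nat_lit 0) (XT.lf (nat_lit 0) (nat_lit 1501992300) (nat_lit 228) (nat_lit 5800309084) (nat_lit 228) (nat_lit 3478951970) (nat_lit 46) (nat_lit 4) (nat_lit 49) (nat_lit 5) (nat_lit 49) (nat_lit 4) (nat_lit 315) (nat_lit 234) (nat_lit 231)) (XT.lf (nat_lit 0) (nat_lit 7409329680) (nat_lit 228) (nat_lit 3308804521) (nat_lit 228) (nat_lit 258292542) (nat_lit 46) (nat_lit 4) (nat_lit 49) (nat_lit 5) (nat_lit 49) (nat_lit 4) (nat_lit 316) (nat_lit 234) (nat_lit 230))))) (XT.nd (nat_lit 234) (nat_lit 228) (nat_lit 0) (XT.nd (nat_lit 78) (nat_lit 228) (nat_lit 0) (XT.lf (nat_lit 0) (nat_lit 2218823414) (nat_lit 228) (nat_lit 725636062) (nat_lit 304) (nat_lit 8233899597) (nat_lit 42) (nat_lit 5) (nat_lit 45) (nat_lit 5) (nat_lit 46) (nat_lit 4) (nat_lit 317) (nat_lit 234) (nat_lit 229))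 (XT.nd (nat_lit 78) (nat_lit 228) (nat_lit 0) (XT.lf (nat_lit 0) (nat_lit 6217733364) (nat_lit 304) (nat_lit 3267794226) (nat_lit 0) (nat_lit 1901492863) (nat_lit 42) (nat_lit 5) (nat_lit 46) (nat_lit 4) (nat_lit 42) (nat_lit 4) (nat_lit 318) (nat_lit 234) (nat_lit 228)) (XT.lf (nat_lit 0) (nat_lit 2527659734) (nat_lit 228) (nat_lit 7019874980) (nat_lit 228) (nat_lit 2055789826) (nat_lit 39) (nat_lit 4) (nat_lit 42) (nat_lit 5) (nat_lit 42) (nat_lit 4) (nat_lit 319) (nat_lit 234) (nat_lit 227)))) (XT.nd (nat_lit 78) (nat_lit 152) (nat_lit 0) (XT.lf (nat_lit 0) (nat_lit 1089073972) (nat_lit 304) (nat_lit 3382240380) (nat_lit 76) (nat_lit 7355783843) (nat_lit 38) (nat_lit 5) (nat_lit 42) (nat_lit 5) (nat_lit 39) (nat_lit 4) (nat_lit 320) (nat_lit 234) (nat_lit 226)) (XT.nd (nat_lit 78) (nat_lit 0) (nat_lit 0) (XT.lf (nat_lit 0) (nat_lit 2402014516) (nat_lit 152) (nat_lit 1837261730) (nat_lit 228)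 (nat_lit 7819250305) (nat_lit 36) (nat_lit 5) (nat_lit 38) (nat_lit 5) (nat_lit 39) (nat_lit 4) (nat_lit 321) (nat_lit 234) (nat_lit 225)) (XT.lf (nat_lit 0) (nat_lit 7456822409) (nat_lit 228) (nat_lit 3982812826) (nat_lit 0) (nat_lit 858195326) (nat_lit 36) (nat_lit 5) (nat_lit 39) (nat_lit 4) (nat_lit 36) (nat_lit 4) (nat_lit 322) (nat_lit 234) (nat_lit 224)))))) (XT.nd (nat_lit 468) (nat_lit 380) (nat_lit 0) (XT.nd (nat_lit 234) (nat_lit 228) (nat_lit 0) (XT.nd (nat_lit 78) (nat_lit 228) (nat_lit 0) (XT.lf (nat_lit 0) (nat_lit 1773323831) (nat_lit 228) (nat_lit 8964775897) (nat_lit 228) (nat_lit 1807312324) (nat_lit 33) (nat_lit 4) (nat_lit 36) (nat_lit 5) (nat_lit 36) (nat_lit 4) (nat_lit 323) (nat_lit 234) (nat_lit 223)) (XT.nd (nat_lit 78) (nat_lit 152) (nat_lit 0) (XT.lf (nat_lit 0) (nat_lit 1264488906) (nat_lit 304) (nat_lit 5133110789) (nat_lit 76) (nat_lit 6403365267) (nat_lit 32)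 (nat_lit 5) (nat_lit 36) (nat_lit 5) (nat_lit 33) (nat_lit 4) (nat_lit 324) (nat_lit 234) (nat_lit 222)) (XT.lf (nat_lit 0) (nat_lit 566623009) (nat_lit 152) (nat_lit 3765102738) (nat_lit 228) (nat_lit 8733838472) (nat_lit 30) (nat_lit 5) (nat_lit 32) (nat_lit 5) (nat_lit 33) (nat_lit 4) (nat_lit 325) (nat_lit 234) (nat_lit 221)))) (XT.nd (nat_lit 78) (nat_lit 228) (nat_lit 0) (XT.lf (nat_lit 0) (nat_lit 6441992768) (nat_lit 152) (nat_lit 1035932146) (nat_lit 228) (nat_lit 5860669917) (nat_lit 30) (nat_lit 5) (nat_lit 32) (nat_lit 5) (nat_lit 33) (nat_lit 4) (nat_lit 326) (nat_lit 234) (nat_lit 220)) (XT.nd (nat_lit 78) (nat_lit 228) (nat_lit 0) (XT.lf (nat_lit 0) (nat_lit 10672241290) (nat_lit 228) (nat_lit 1242562163) (nat_lit 0) (nat_lit 1706499745) (nat_lit 30) (nat_lit 5) (nat_lit 33) (nat_lit 4) (nat_lit 30) (nat_lit 4) (nat_lit 327) (nat_lit 234) (nat_lit 219)) (XT.lf (nat_lit 0) (nat_lit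 41389872) (nat_lit 228) (nat_lit 9349736865) (nat_lit 76) (nat_lit 4521670718) (nat_lit 27) (nat_lit 5) (nat_lit 30) (nat_lit 5) (nat_lit 28) (nat_lit 4) (nat_lit 328) (nat_lit 234) (nat_lit 218))))) (XT.nd (nat_lit 234) (nat_lit 228) (nat_lit 0) (XT.nd (nat_lit 78) (nat_lit 152) (nat_lit 0) (XT.lf (nat_lit 0) (nat_lit 3013647813) (nat_lit 228) (nat_lit 3770438450) (nat_lit 76) (nat_lit 7429623733) (nat_lit 27) (nat_lit 5) (nat_lit 30) (nat_lit 5) (nat_lit 28) (nat_lit 4) (nat_lit 329) (nat_lit 234) (nat_lit 217)) (XT.nd (nat_lit 78) (nat_lit 0) (nat_lit 0) (XT.lf (nat_lit 0) (nat_lit 1919739954) (nat_lit 152) (nat_lit 4114267016) (nat_lit 228) (nat_lit 8490962697) (nat_lit 25) (nat_lit 5) (nat_lit 27) (nat_lit 5) (nat_lit 28) (nat_lit 4) (nat_lit 330) (nat_lit 234) (nat_lit 216)) (XT.lf (nat_lit 0) (nat_lit 7764875178) (nat_lit 152) (nat_lit 1359494777) (nat_lit 228) (nat_lit 5721900583) (nat_lit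 25) (nat_lit 5) (nat_lit 27) (nat_lit 5) (nat_lit 28) (nat_lit 4) (nat_lit 331) (nat_lit 234) (nat_lit 215)))) (XT.nd (nat_lit 78) (nat_lit 228) (nat_lit 0) (XT.lf (nat_lit 0) (nat_lit 12264358030) (nat_lit 228) (nat_lit 1497852838) (nat_lit 0) (nat_lit 1416374862) (nat_lit 25) (nat_lit 5) (nat_lit 28) (nat_lit 4) (nat_lit 25) (nat_lit 4) (nat_lit 332) (nat_lit 234) (nat_lit 214)) (XT.nd (nat_lit 78) (nat_lit 76) (nat_lit 0) (XT.lf (nat_lit 0) (nat_lit 4233214486) (nat_lit 152) (nat_lit 11263860087) (nat_lit 152) (nat_lit 23920250) (nat_lit 23) (nat_lit 4) (nat_lit 25) (nat_lit 5) (nat_lit 25) (nat_lit 4) (nat_lit 333) (nat_lit 234) (nat_lit 213)) (XT.lf (nat_lit 0) (nat_lit 2855274476) (nat_lit 228) (nat_lit 5824273105) (nat_lit 76) (nat_lit 7194558591) (nat_lit 22) (nat_lit 5) (nat_lit 25) (nat_lit 5) (nat_lit 23) (nat_lit 4) (nat_lit 334) (nat_lit 234) (nat_lit 212))))))))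
noncomputable def xc46 : XT := (XT.nd (nat_lit 1716) (nat_lit 304) (nat_lit 0) (XT.nd (nat_lit 858) (nat_lit 380) (nat_lit 0) (XT.nd (nat_lit 390) (nat_lit 228) (nat_lit 0) (XT.nd (nat_lit 156) (nat_lit 228) (nat_lit 0) (XT.nd (nat_lit 78) (nat_lit 152) (nat_lit 0) (XT.lf (nat_lit 0) (nat_lit 5766508415) (nat_lit 228) (nat_lit 283924962) (nat_lit 76) (nat_lit 10189059552) (nat_lit 22) (nat_lit 5) (nat_lit 25) (nat_lit 5) (nat_lit 23) (nat_lit 4) (nat_lit 335) (nat_lit 234) (nat_lit 211)) (XT.lf (nat_lit 0) (nat_lit 5444578445) (nat_lit 152) (nat_lit 3320550307) (nat_lit 228) (nat_lit 7850782409) (nat_lit 20) (nat_lit 5) (nat_lit 22) (nat_lit 5) (nat_lit 23) (nat_lit 4) (nat_lit 336) (nat_lit 234) (nat_lit 210))) (XT.nd (nat_lit 78) (nat_lit 228) (nat_lit 0) (XT.lf (nat_lit 0) (nat_lit 11267285077) (nat_lit 152) (nat_lit 537723013) (nat_lit 228) (nat_lit 5200144116) (nat_lit 20) (nat_lit 5) (nat_lit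 22) (nat_lit 5) (nat_lit 23) (nat_lit 4) (nat_lit 337) (nat_lit 234) (nat_lit 209)) (XT.nd (nat_lit 78) (nat_lit 228) (nat_lit 0) (XT.lf (nat_lit 0) (nat_lit 14908105119) (nat_lit 228) (nat_lit 246093674) (nat_lit 0) (nat_lit 2252778310) (nat_lit 20) (nat_lit 5) (nat_lit 23) (nat_lit 4) (nat_lit 20) (nat_lit 4) (nat_lit 338) (nat_lit 234) (nat_lit 208)) (XT.lf (nat_lit 0) (nat_lit 286565022) (nat_lit 228) (nat_lit 12392296454) (nat_lit 76) (nat_lit 5141717202) (nat_lit 17) (nat_lit 5) (nat_lit 20) (nat_lit 5) (nat_lit 18) (nat_lit 4) (nat_lit 339) (nat_lit 234) (nat_lit 207))))) (XT.nd (nat_lit 234) (nat_lit 152) (nat_lit 0) (XT.nd (nat_lit 78) (nat_lit 76) (nat_lit 0) (XT.lf (nat_lit 0) (nat_lit 3059078090) (nat_lit 228) (nat_lit 7073509140) (nat_lit 76) (nat_lit 8114708248) (nat_lit 17) (nat_lit 5) (nat_lit 20) (nat_lit 5) (nat_lit 18) (nat_lit 4) (nat_lit 340) (nat_lit 234) (nat_lit 206))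 (XT.nd (nat_lit 78) (nat_lit 76) (nat_lit 0) (XT.lf (nat_lit 0) (nat_lit 5867415225) (nat_lit 228) (nat_lit 1672986906) (nat_lit 76) (nat_lit 11147891951) (nat_lit 17) (nat_lit 5) (nat_lit 20) (nat_lit 5) (nat_lit 18) (nat_lit 4) (nat_lit 341) (nat_lit 234) (nat_lit 205)) (XT.lf (nat_lit 0) (nat_lit 3889895014) (nat_lit 76) (nat_lit 4861527350) (nat_lit 152) (nat_lit 10391415700) (nat_lit 16) (nat_lit 5) (nat_lit 17) (nat_lit 5) (nat_lit 18) (nat_lit 4) (nat_lit 342) (nat_lit 234) (nat_lit 204)))) (XT.nd (nat_lit 78) (nat_lit 152) (nat_lit 0) (XT.lf (nat_lit 0) (nat_lit 9579136943) (nat_lit 76) (nat_lit 2114354272) (nat_lit 152) (nat_lit 7918437235) (nat_lit 16) (nat_lit 5) (nat_lit 17) (nat_lit 5) (nat_lit 18) (nat_lit 4) (nat_lit 343) (nat_lit 234) (nat_lit 203)) (XT.nd (nat_lit 78) (nat_lit 152) (nat_lit 0) (XT.lf (nat_lit 0) (nat_lit 14686390931) (nat_lit 152) (nat_lit 4736653084) (nat_lit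 0) (nat_lit 673225157) (nat_lit 16) (nat_lit 5) (nat_lit 18) (nat_lit 4) (nat_lit 16) (nat_lit 4) (nat_lit 344) (nat_lit 234) (nat_lit 202)) (XT.lf (nat_lit 0) (nat_lit 638296188) (nat_lit 152) (nat_lit 17114835356) (nat_lit 152) (nat_lit 2842540049) (nat_lit 14) (nat_lit 4) (nat_lit 16) (nat_lit 5) (nat_lit 16) (nat_lit 4) (nat_lit 345) (nat_lit 234) (nat_lit 201)))))) (XT.nd (nat_lit 390) (nat_lit 228) (nat_lit 0) (XT.nd (nat_lit 156) (nat_lit 76) (nat_lit 0) (XT.nd (nat_lit 78) (nat_lit 76) (nat_lit 0) (XT.lf (nat_lit 0) (nat_lit 6200698028) (nat_lit 152) (nat_lit 14716562696) (nat_lit 152) (nat_lit 192685318) (nat_lit 14) (nat_lit 4) (nat_lit 16) (nat_lit 5) (nat_lit 16) (nat_lit 4) (nat_lit 346) (nat_lit 234) (nat_lit 200)) (XT.lf (nat_lit 0) (nat_lit 2445500198) (nat_lit 228) (nat_lit 9803766412) (nat_lit 76) (nat_lit 9390949149) (nat_lit 13) (nat_lit 5) (nat_lit 16) (nat_lit 5) (nat_lit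 14) (nat_lit 4) (nat_lit 347) (nat_lit 234) (nat_lit 199))) (XT.nd (nat_lit 78) (nat_lit 76) (nat_lit 0) (XT.lf (nat_lit 0) (nat_lit 5118506670) (nat_lit 228) (nat_lit 4614703506) (nat_lit 76) (nat_lit 12454386887) (nat_lit 13) (nat_lit 5) (nat_lit 16) (nat_lit 5) (nat_lit 14) (nat_lit 4) (nat_lit 348) (nat_lit 234) (nat_lit 198)) (XT.nd (nat_lit 78) (nat_lit 0) (nat_lit 0) (XT.lf (nat_lit 0) (nat_lit 677548453) (nat_lit 76) (nat_lit 7161394273) (nat_lit 152) (nat_lit 14913485698) (nat_lit 12) (nat_lit 5) (nat_lit 13) (nat_lit 5) (nat_lit 14) (nat_lit 4) (nat_lit 349) (nat_lit 234) (nat_lit 197)) (XT.lf (nat_lit 0) (nat_lit 6158104785) (nat_lit 76) (nat_lit 4490731410) (nat_lit 152) (nat_lit 12685177666) (nat_lit 12) (nat_lit 5) (nat_lit 13) (nat_lit 5) (nat_lit 14) (nat_lit 4) (nat_lit 350) (nat_lit 234) (nat_lit 196))))) (XT.nd (nat_lit 234) (nat_lit 228) (nat_lit 0) (XT.nd (nat_lit 78) (nat_lit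 0) (nat_lit 0) (XT.lf (nat_lit 0) (nat_lit 11739912678) (nat_lit 76) (nat_lit 1765487457) (nat_lit 152) (nat_lit 10428818689) (nat_lit 12) (nat_lit 5) (nat_lit 13) (nat_lit 5) (nat_lit 14) (nat_lit 4) (nat_lit 351) (nat_lit 234) (nat_lit 195)) (XT.nd (nat_lit 78) (nat_lit 0) (nat_lit 0) (XT.lf (nat_lit 0) (nat_lit 16420903894) (nat_lit 152) (nat_lit 7135491648) (nat_lit 0) (nat_lit 996879019) (nat_lit 12) (nat_lit 5) (nat_lit 14) (nat_lit 4) (nat_lit 12) (nat_lit 4) (nat_lit 352) (nat_lit 234) (nat_lit 194)) (XT.lf (nat_lit 0) (nat_lit 19405655009) (nat_lit 152) (nat_lit 2002805264) (nat_lit 0) (nat_lit 3783028923) (nat_lit 12) (nat_lit 5) (nat_lit 14) (nat_lit 4) (nat_lit 12) (nat_lit 4) (nat_lit 353) (nat_lit 234) (nat_lit 193)))) (XT.nd (nat_lit 78) (nat_lit 76) (nat_lit 0) (XT.lf (nat_lit 0) (nat_lit 3289396799) (nat_lit 152) (nat_lit 19187513463) (nat_lit 152) (nat_lit 3372070669) (nat_lit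 10) (nat_lit 4) (nat_lit 12) (nat_lit 5) (nat_lit 12) (nat_lit 4) (nat_lit 354) (nat_lit 234) (nat_lit 192)) (XT.nd (nat_lit 78) (nat_lit 76) (nat_lit 0) (XT.lf (nat_lit 0) (nat_lit 8723342607) (nat_lit 152) (nat_lit 16902978062) (nat_lit 152) (nat_lit 900334579) (nat_lit 10) (nat_lit 4) (nat_lit 12) (nat_lit 5) (nat_lit 12) (nat_lit 4) (nat_lit 355) (nat_lit 234) (nat_lit 191)) (XT.lf (nat_lit 0) (nat_lit 1579866992) (nat_lit 228) (nat_lit 12977261729) (nat_lit 76) (nat_lit 12668099966) (nat_lit 9) (nat_lit 5) (nat_lit 12) (nat_lit 5) (nat_lit 10) (nat_lit 4) (nat_lit 356) (nat_lit 234) (nat_lit 190))))))) (XT.nd (nat_lit 858) (nat_lit 152) (nat_lit 0) (XT.nd (nat_lit 390) (nat_lit 76) (nat_lit 0) (XT.nd (nat_lit 156) (nat_lit 76) (nat_lit 0) (XT.nd (nat_lit 78) (nat_lit 0) (nat_lit 0) (XT.lf (nat_lit 0) (nat_lit 4083780794) (nat_lit 228) (nat_lit 8070771314) (nat_lit 76) (nat_lit 15790952835)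 (nat_lit 9) (nat_lit 5) (nat_lit 12) (nat_lit 5) (nat_lit 10) (nat_lit 4) (nat_lit 357) (nat_lit 234) (nat_lit 189)) (XT.lf (nat_lit 0) (nat_lit 6631163482) (nat_lit 228) (nat_lit 3070899604) (nat_lit 76) (nat_lit 18986309936) (nat_lit 9) (nat_lit 5) (nat_lit 12) (nat_lit 5) (nat_lit 10) (nat_lit 4) (nat_lit 358) (nat_lit 234) (nat_lit 188))) (XT.nd (nat_lit 78) (nat_lit 0) (nat_lit 0) (XT.lf (nat_lit 0) (nat_lit 2067057965) (nat_lit 76) (nat_lit 7177052786) (nat_lit 152) (nat_lit 20209775187) (nat_lit 8) (nat_lit 5) (nat_lit 9) (nat_lit 5) (nat_lit 10) (nat_lit 4) (nat_lit 359) (nat_lit 234) (nat_lit 187)) (XT.nd (nat_lit 78) (nat_lit 0) (nat_lit 0) (XT.lf (nat_lit 0) (nat_lit 7370370872) (nat_lit 76) (nat_lit 4565756562) (nat_lit 152) (nat_lit 18306248502) (nat_lit 8) (nat_lit 5) (nat_lit 9) (nat_lit 5) (nat_lit 10) (nat_lit 4) (nat_lit 360) (nat_lit 234) (nat_lit 186)) (XT.lf (nat_lit 0)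 (nat_lit 12782556156) (nat_lit 76) (nat_lit 1896902762) (nat_lit 152) (nat_lit 16375976273) (nat_lit 8) (nat_lit 5) (nat_lit 9) (nat_lit 5) (nat_lit 10) (nat_lit 4) (nat_lit 361) (nat_lit 234) (nat_lit 185))))) (XT.nd (nat_lit 234) (nat_lit 76) (nat_lit 0) (XT.nd (nat_lit 78) (nat_lit 0) (nat_lit 0) (XT.lf (nat_lit 0) (nat_lit 17484498451) (nat_lit 152) (nat_lit 13593427397) (nat_lit 0) (nat_lit 815608413) (nat_lit 8) (nat_lit 5) (nat_lit 10) (nat_lit 4) (nat_lit 8) (nat_lit 4) (nat_lit 362) (nat_lit 234) (nat_lit 184)) (XT.nd (nat_lit 78) (nat_lit 0) (nat_lit 0) (XT.lf (nat_lit 0) (nat_lit 20364526695) (nat_lit 152) (nat_lit 8840390962) (nat_lit 0) (nat_lit 3552162916) (nat_lit 8) (nat_lit 5) (nat_lit 10) (nat_lit 4) (nat_lit 8) (nat_lit 4) (nat_lit 363) (nat_lit 234) (nat_lit 183)) (XT.lf (nat_lit 0) (nat_lit 23303825989) (nat_lit 152) (nat_lit 3991382404) (nat_lit 0) (nat_lit 6352167318)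 (nat_lit 8) (nat_lit 5) (nat_lit 10) (nat_lit 4) (nat_lit 8) (nat_lit 4) (nat_lit 364) (nat_lit 234) (nat_lit 182)))) (XT.nd (nat_lit 78) (nat_lit 0) (nat_lit 0) (XT.lf (nat_lit 0) (nat_lit 976898074) (nat_lit 76) (nat_lit 25337457121) (nat_lit 76) (nat_lit 8250560690) (nat_lit 7) (nat_lit 4) (nat_lit 8) (nat_lit 5) (nat_lit 8) (nat_lit 4) (nat_lit 365) (nat_lit 234) (nat_lit 181)) (XT.nd (nat_lit 78) (nat_lit 0) (nat_lit 0) (XT.lf (nat_lit 0) (nat_lit 6131228995) (nat_lit 76) (nat_lit 23298273171) (nat_lit 76) (nat_lit 6080077943) (nat_lit 7) (nat_lit 4) (nat_lit 8) (nat_lit 5) (nat_lit 8) (nat_lit 4) (nat_lit 366) (nat_lit 234) (nat_lit 180)) (XT.lf (nat_lit 0) (nat_lit 11396677806) (nat_lit 76) (nat_lit 21216179869) (nat_lit 76) (nat_lit 3870510081) (nat_lit 7) (nat_lit 4) (nat_lit 8) (nat_lit 5) (nat_lit 8) (nat_lit 4) (nat_lit 367) (nat_lit 234) (nat_lit 179)))))) (XT.nd (nat_lit 468) (nat_lit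 0) (nat_lit 0) (XT.nd (nat_lit 234) (nat_lit 76) (nat_lit 0) (XT.nd (nat_lit 78) (nat_lit 76) (nat_lit 0) (XT.lf (nat_lit 0) (nat_lit 16777845385) (nat_lit 76) (nat_lit 19089357909) (nat_lit 76) (nat_lit 1619926413) (nat_lit 7) (nat_lit 4) (nat_lit 8) (nat_lit 5) (nat_lit 8) (nat_lit 4) (nat_lit 368) (nat_lit 234) (nat_lit 178)) (XT.nd (nat_lit 78) (nat_lit 0) (nat_lit 0) (XT.lf (nat_lit 0) (nat_lit 660494454) (nat_lit 152) (nat_lit 16248784751) (nat_lit 76) (nat_lit 21612269569) (nat_lit 6) (nat_lit 5) (nat_lit 8) (nat_lit 5) (nat_lit 7) (nat_lit 4) (nat_lit 369) (nat_lit 234) (nat_lit 177)) (XT.lf (nat_lit 0) (nat_lit 2953413298) (nat_lit 152) (nat_lit 11710816777) (nat_lit 76) (nat_lit 24923013049) (nat_lit 6) (nat_lit 5) (nat_lit 8) (nat_lit 5) (nat_lit 7) (nat_lit 4) (nat_lit 370) (nat_lit 234) (nat_lit 176)))) (XT.nd (nat_lit 78) (nat_lit 76) (nat_lit 0) (XT.lf (nat_lit 0) (nat_lit 5292444239)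 (nat_lit 152) (nat_lit 7075843462) (nat_lit 76) (nat_lit 28317323399) (nat_lit 6) (nat_lit 5) (nat_lit 8) (nat_lit 5) (nat_lit 7) (nat_lit 4) (nat_lit 371) (nat_lit 234) (nat_lit 175)) (XT.nd (nat_lit 78) (nat_lit 76) (nat_lit 0) (XT.lf (nat_lit 0) (nat_lit 7679631090) (nat_lit 152) (nat_lit 2339814830) (nat_lit 76) (nat_lit 31798166520) (nat_lit 6) (nat_lit 5) (nat_lit 8) (nat_lit 5) (nat_lit 7) (nat_lit 4) (nat_lit 372) (nat_lit 234) (nat_lit 174)) (XT.lf (nat_lit 0) (nat_lit 2551190307) (nat_lit 76) (nat_lit 7590393036) (nat_lit 152) (nat_lit 32841917221) (nat_lit 5) (nat_lit 5) (nat_lit 6) (nat_lit 5) (nat_lit 7) (nat_lit 4) (nat_lit 373) (nat_lit 234) (nat_lit 173))))) (XT.nd (nat_lit 234) (nat_lit 0) (nat_lit 0) (XT.nd (nat_lit 78) (nat_lit 0) (nat_lit 0) (XT.lf (nat_lit 0) (nat_lit 7600363885) (nat_lit 76) (nat_lit 5079555448) (nat_lit 152) (nat_lit 31504390862) (nat_lit 5) (nat_lit 5)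 (nat_lit 6) (nat_lit 5) (nat_lit 7) (nat_lit 4) (nat_lit 374) (nat_lit 234) (nat_lit 172)) (XT.nd (nat_lit 78) (nat_lit 0) (nat_lit 0) (XT.lf (nat_lit 0) (nat_lit 12765550898) (nat_lit 76) (nat_lit 2508366764) (nat_lit 152) (nat_lit 30147861103) (nat_lit 5) (nat_lit 5) (nat_lit 6) (nat_lit 5) (nat_lit 7) (nat_lit 4) (nat_lit 375) (nat_lit 234) (nat_lit 171)) (XT.lf (nat_lit 0) (nat_lit 17927050542) (nat_lit 152) (nat_lit 28646928551) (nat_lit 0) (nat_lit 122972297) (nat_lit 5) (nat_lit 5) (nat_lit 7) (nat_lit 4) (nat_lit 5) (nat_lit 4) (nat_lit 376) (nat_lit 234) (nat_lit 170)))) (XT.nd (nat_lit 78) (nat_lit 0) (nat_lit 0) (XT.lf (nat_lit 0) (nat_lit 20665165385) (nat_lit 152) (nat_lit 24576074232) (nat_lit 0) (nat_lit 2768996806) (nat_lit 5) (nat_lit 5) (nat_lit 7) (nat_lit 4) (nat_lit 5) (nat_lit 4) (nat_lit 377) (nat_lit 234) (nat_lit 169)) (XT.nd (nat_lit 78) (nat_lit 0) (nat_lit 0) (XT.lf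 (nat_lit 0) (nat_lit 23466542763) (nat_lit 152) (nat_lit 20415995898) (nat_lit 0) (nat_lit 5480966092) (nat_lit 5) (nat_lit 5) (nat_lit 7) (nat_lit 4) (nat_lit 5) (nat_lit 4) (nat_lit 378) (nat_lit 234) (nat_lit 168)) (XT.lf (nat_lit 0) (nat_lit 26333630482) (nat_lit 152) (nat_lit 16163058529) (nat_lit 0) (nat_lit 8261249839) (nat_lit 5) (nat_lit 5) (nat_lit 7) (nat_lit 4) (nat_lit 5) (nat_lit 4) (nat_lit 379) (nat_lit 234) (nat_lit 167))))))))
noncomputable def xc47 : XT := (XT.nd (nat_lit 35178) (nat_lit 0) (nat_lit 1748) (XT.nd (nat_lit 858) (nat_lit 152) (nat_lit 0) (XT.nd (nat_lit 390) (nat_lit 0) (nat_lit 0) (XT.nd (nat_lit 156) (nat_lit 76) (nat_lit 0) (XT.nd (nat_lit 78) (nat_lit 0) (nat_lit 0) (XT.lf (nat_lit 0) (nat_lit 29268933763) (nat_lit 152) (nat_lit 11813545965) (nat_lit 0) (nat_lit 11112277419) (nat_lit 5) (nat_lit 5) (nat_lit 7) (nat_lit 4) (nat_lit 5) (nat_lit 4) (nat_lit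 380) (nat_lit 234) (nat_lit 166)) (XT.lf (nat_lit 0) (nat_lit 32275017436) (nat_lit 152) (nat_lit 7363657663) (nat_lit 0) (nat_lit 14036540023) (nat_lit 5) (nat_lit 5) (nat_lit 7) (nat_lit 4) (nat_lit 5) (nat_lit 4) (nat_lit 381) (nat_lit 234) (nat_lit 165))) (XT.nd (nat_lit 78) (nat_lit 76) (nat_lit 0) (XT.lf (nat_lit 0) (nat_lit 35354508174) (nat_lit 152) (nat_lit 2809505370) (nat_lit 0) (nat_lit 17036592830) (nat_lit 5) (nat_lit 5) (nat_lit 7) (nat_lit 4) (nat_lit 5) (nat_lit 4) (nat_lit 382) (nat_lit 234) (nat_lit 164)) (XT.nd (nat_lit 78) (nat_lit 0) (nat_lit 0) (XT.lf (nat_lit 0) (nat_lit 1889766419) (nat_lit 76) (nat_lit 36638495967) (nat_lit 76) (nat_lit 18243456418) (nat_lit 4) (nat_lit 4) (nat_lit 5) (nat_lit 5) (nat_lit 5) (nat_lit 4) (nat_lit 383) (nat_lit 234) (nat_lit 163)) (XT.lf (nat_lit 0) (nat_lit 6759505494) (nat_lit 76) (nat_lit 35050011619) (nat_lit 76) (nat_lit 16580094201)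 (nat_lit 4) (nat_lit 4) (nat_lit 5) (nat_lit 5) (nat_lit 5) (nat_lit 4) (nat_lit 384) (nat_lit 234) (nat_lit 162))))) (XT.nd (nat_lit 234) (nat_lit 0) (nat_lit 0) (XT.nd (nat_lit 78) (nat_lit 0) (nat_lit 0) (XT.lf (nat_lit 0) (nat_lit 11748052301) (nat_lit 76) (nat_lit 33425542998) (nat_lit 76) (nat_lit 14882928620) (nat_lit 4) (nat_lit 4) (nat_lit 5) (nat_lit 5) (nat_lit 5) (nat_lit 4) (nat_lit 385) (nat_lit 234) (nat_lit 161)) (XT.nd (nat_lit 78) (nat_lit 0) (nat_lit 0) (XT.lf (nat_lit 0) (nat_lit 16859765763) (nat_lit 76) (nat_lit 31763670667) (nat_lit 76) (nat_lit 13150476716) (nat_lit 4) (nat_lit 4) (nat_lit 5) (nat_lit 5) (nat_lit 5) (nat_lit 4) (nat_lit 386) (nat_lit 234) (nat_lit 160)) (XT.lf (nat_lit 0) (nat_lit 22099112426) (nat_lit 76) (nat_lit 30062942504) (nat_lit 76) (nat_lit 11381224696) (nat_lit 4) (nat_lit 4) (nat_lit 5) (nat_lit 5) (nat_lit 5) (nat_lit 4) (nat_lit 387) (nat_lit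 234) (nat_lit 159)))) (XT.nd (nat_lit 78) (nat_lit 0) (nat_lit 0) (XT.lf (nat_lit 0) (nat_lit 27470670361) (nat_lit 76) (nat_lit 28321872436) (nat_lit 76) (nat_lit 9573626611) (nat_lit 4) (nat_lit 4) (nat_lit 5) (nat_lit 5) (nat_lit 5) (nat_lit 4) (nat_lit 388) (nat_lit 234) (nat_lit 158)) (XT.nd (nat_lit 78) (nat_lit 0) (nat_lit 0) (XT.lf (nat_lit 0) (nat_lit 32979133161) (nat_lit 76) (nat_lit 26538939139) (nat_lit 76) (nat_lit 7726103007) (nat_lit 4) (nat_lit 4) (nat_lit 5) (nat_lit 5) (nat_lit 5) (nat_lit 4) (nat_lit 389) (nat_lit 234) (nat_lit 157)) (XT.lf (nat_lit 0) (nat_lit 38629314047) (nat_lit 76) (nat_lit 24712584711) (nat_lit 76) (nat_lit 5837039542) (nat_lit 4) (nat_lit 4) (nat_lit 5) (nat_lit 5) (nat_lit 5) (nat_lit 4) (nat_lit 390) (nat_lit 234) (nat_lit 156)))))) (XT.nd (nat_lit 468) (nat_lit 76) (nat_lit 0) (XT.nd (nat_lit 234) (nat_lit 0) (nat_lit 0) (XT.nd (nat_lit 78) (nat_lit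 76) (nat_lit 0) (XT.lf (nat_lit 0) (nat_lit 44426150070) (nat_lit 76) (nat_lit 22841213308) (nat_lit 76) (nat_lit 3904785580) (nat_lit 4) (nat_lit 4) (nat_lit 5) (nat_lit 5) (nat_lit 5) (nat_lit 4) (nat_lit 391) (nat_lit 234) (nat_lit 155)) (XT.nd (nat_lit 78) (nat_lit 76) (nat_lit 0) (XT.lf (nat_lit 0) (nat_lit 50374706425) (nat_lit 76) (nat_lit 20923189750) (nat_lit 76) (nat_lit 1927652741) (nat_lit 4) (nat_lit 4) (nat_lit 5) (nat_lit 5) (nat_lit 5) (nat_lit 4) (nat_lit 392) (nat_lit 234) (nat_lit 154)) (XT.lf (nat_lit 0) (nat_lit 94211569) (nat_lit 152) (nat_lit 18861675175) (nat_lit 76) (nat_lit 56385017961) (nat_lit 3) (nat_lit 5) (nat_lit 5) (nat_lit 5) (nat_lit 4) (nat_lit 4) (nat_lit 393) (nat_lit 234) (nat_lit 153)))) (XT.nd (nat_lit 78) (nat_lit 0) (nat_lit 0) (XT.lf (nat_lit 0) (nat_lit 2125891248) (nat_lit 152) (nat_lit 14793081592) (nat_lit 76) (nat_lit 60600549739) (nat_lit 3)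 (nat_lit 5) (nat_lit 5) (nat_lit 5) (nat_lit 4) (nat_lit 4) (nat_lit 394) (nat_lit 234) (nat_lit 152)) (XT.nd (nat_lit 78) (nat_lit 0) (nat_lit 0) (XT.lf (nat_lit 0) (nat_lit 4206776999) (nat_lit 152) (nat_lit 10622976883) (nat_lit 76) (nat_lit 64934108198) (nat_lit 3) (nat_lit 5) (nat_lit 5) (nat_lit 5) (nat_lit 4) (nat_lit 4) (nat_lit 395) (nat_lit 234) (nat_lit 151)) (XT.lf (nat_lit 0) (nat_lit 6338687070) (nat_lit 152) (nat_lit 6347717269) (nat_lit 76) (nat_lit 69389479941) (nat_lit 3) (nat_lit 5) (nat_lit 5) (nat_lit 5) (nat_lit 4) (nat_lit 4) (nat_lit 396) (nat_lit 234) (nat_lit 150))))) (XT.nd (nat_lit 234) (nat_lit 0) (nat_lit 0) (XT.nd (nat_lit 78) (nat_lit 76) (nat_lit 0) (XT.lf (nat_lit 0) (nat_lit 8523484297) (nat_lit 152) (nat_lit 1963567085) (nat_lit 76) (nat_lit 73970558014) (nat_lit 3) (nat_lit 5) (nat_lit 5) (nat_lit 5) (nat_lit 4) (nat_lit 4) (nat_lit 397) (nat_lit 234) (nat_lit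 149)) (XT.nd (nat_lit 78) (nat_lit 0) (nat_lit 0) (XT.lf (nat_lit 0) (nat_lit 2583722205) (nat_lit 76) (nat_lit 8204191837) (nat_lit 152) (nat_lit 76122459411) (nat_lit 2) (nat_lit 5) (nat_lit 3) (nat_lit 5) (nat_lit 4) (nat_lit 4) (nat_lit 398) (nat_lit 234) (nat_lit 148)) (XT.lf (nat_lit 0) (nat_lit 7289062595) (nat_lit 76) (nat_lit 5840428612) (nat_lit 152) (nat_lit 76306962350) (nat_lit 2) (nat_lit 5) (nat_lit 3) (nat_lit 5) (nat_lit 4) (nat_lit 4) (nat_lit 399) (nat_lit 234) (nat_lit 147)))) (XT.nd (nat_lit 78) (nat_lit 0) (nat_lit 0) (XT.lf (nat_lit 0) (nat_lit 12117486710) (nat_lit 76) (nat_lit 3413524461) (nat_lit 152) (nat_lit 76507623311) (nat_lit 2) (nat_lit 5) (nat_lit 3) (nat_lit 5) (nat_lit 4) (nat_lit 4) (nat_lit 400) (nat_lit 234) (nat_lit 146)) (XT.nd (nat_lit 78) (nat_lit 0) (nat_lit 0) (XT.lf (nat_lit 0) (nat_lit 17073213563) (nat_lit 76) (nat_lit 921358788) (nat_lit 152)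 (nat_lit 76724617627) (nat_lit 2) (nat_lit 5) (nat_lit 3) (nat_lit 5) (nat_lit 4) (nat_lit 4) (nat_lit 401) (nat_lit 234) (nat_lit 145)) (XT.lf (nat_lit 0) (nat_lit 20538075195) (nat_lit 152) (nat_lit 75335636703) (nat_lit 0) (nat_lit 1606277946) (nat_lit 2) (nat_lit 5) (nat_lit 4) (nat_lit 4) (nat_lit 2) (nat_lit 4) (nat_lit 402) (nat_lit 234) (nat_lit 144))))))) (XT.nd (nat_lit 858) (nat_lit 988) (nat_lit 0) (XT.nd (nat_lit 390) (nat_lit 836) (nat_lit 0) (XT.nd (nat_lit 156) (nat_lit 608) (nat_lit 0) (XT.nd (nat_lit 78) (nat_lit 0) (nat_lit 0) (XT.lf (nat_lit 0) (nat_lit 851050375) (nat_lit 304) (nat_lit 3249274937) (nat_lit 0) (nat_lit 851050375) (nat_lit 57) (nat_lit 5) (nat_lit 61) (nat_lit 4) (nat_lit 57) (nat_lit 4) (nat_lit 310) (nat_lit 235) (nat_lit 235)) (XT.lf (nat_lit 0) (nat_lit 5021706374) (nat_lit 304) (nat_lit 868833210) (nat_lit 0) (nat_lit 4176416043) (nat_lit 57) (nat_lit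 5) (nat_lit 61) (nat_lit 4) (nat_lit 57) (nat_lit 4) (nat_lit 311) (nat_lit 235) (nat_lit 234))) (XT.nd (nat_lit 78) (nat_lit 304) (nat_lit 0) (XT.lf (nat_lit 0) (nat_lit 4913101220) (nat_lit 304) (nat_lit 3495048011) (nat_lit 304) (nat_lit 1829087456) (nat_lit 53) (nat_lit 4) (nat_lit 57) (nat_lit 5) (nat_lit 57) (nat_lit 4) (nat_lit 312) (nat_lit 235) (nat_lit 233)) (XT.nd (nat_lit 78) (nat_lit 0) (nat_lit 0) (XT.lf (nat_lit 0) (nat_lit 353300832) (nat_lit 228) (nat_lit 1033905371) (nat_lit 304) (nat_lit 9027172752) (nat_lit 49) (nat_lit 5) (nat_lit 52) (nat_lit 5) (nat_lit 53) (nat_lit 4) (nat_lit 313) (nat_lit 235) (nat_lit 232)) (XT.lf (nat_lit 0) (nat_lit 4653210038) (nat_lit 304) (nat_lit 4432353817) (nat_lit 0) (nat_lit 1511182700) (nat_lit 49) (nat_lit 5) (nat_lit 53) (nat_lit 4) (nat_lit 49) (nat_lit 4) (nat_lit 314) (nat_lit 235) (nat_lit 231))))) (XT.nd (nat_lit 234) (nat_lit 304)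 (nat_lit 0) (XT.nd (nat_lit 78) (nat_lit 304) (nat_lit 0) (XT.lf (nat_lit 0) (nat_lit 1268823093) (nat_lit 228) (nat_lit 6694357055) (nat_lit 228) (nat_lit 2823174852) (nat_lit 46) (nat_lit 4) (nat_lit 49) (nat_lit 5) (nat_lit 49) (nat_lit 4) (nat_lit 315) (nat_lit 235) (nat_lit 230)) (XT.nd (nat_lit 78) (nat_lit 228) (nat_lit 0) (XT.lf (nat_lit 0) (nat_lit 352208992) (nat_lit 304) (nat_lit 3864115293) (nat_lit 76) (nat_lit 6766284427) (nat_lit 45) (nat_lit 5) (nat_lit 49) (nat_lit 5) (nat_lit 46) (nat_lit 4) (nat_lit 316) (nat_lit 235) (nat_lit 229)) (XT.lf (nat_lit 0) (nat_lit 1858973643) (nat_lit 228) (nat_lit 1651061619) (nat_lit 304) (nat_lit 7675695211) (nat_lit 42) (nat_lit 5) (nat_lit 45) (nat_lit 5) (nat_lit 46) (nat_lit 4) (nat_lit 317) (nat_lit 235) (nat_lit 228)))) (XT.nd (nat_lit 78) (nat_lit 304) (nat_lit 0) (XT.lf (nat_lit 0) (nat_lit 6738377589) (nat_lit 304) (nat_lit 3679902373)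 (nat_lit 0) (nat_lit 977525228) (nat_lit 42) (nat_lit 5) (nat_lit 46) (nat_lit 4) (nat_lit 42) (nat_lit 4) (nat_lit 318) (nat_lit 235) (nat_lit 227)) (XT.nd (nat_lit 78) (nat_lit 76) (nat_lit 0) (XT.lf (nat_lit 0) (nat_lit 2054094376) (nat_lit 228) (nat_lit 7974546146) (nat_lit 228) (nat_lit 1584718393) (nat_lit 39) (nat_lit 4) (nat_lit 42) (nat_lit 5) (nat_lit 42) (nat_lit 4) (nat_lit 319) (nat_lit 235) (nat_lit 226)) (XT.lf (nat_lit 0) (nat_lit 1516087227) (nat_lit 304) (nat_lit 3922826400) (nat_lit 76) (nat_lit 6399188914) (nat_lit 38) (nat_lit 5) (nat_lit 42) (nat_lit 5) (nat_lit 39) (nat_lit 4) (nat_lit 320) (nat_lit 235) (nat_lit 225)))))) (XT.nd (nat_lit 468) (nat_lit 380) (nat_lit 0) (XT.nd (nat_lit 234) (nat_lit 228) (nat_lit 0) (XT.nd (nat_lit 78) (nat_lit 228) (nat_lit 0) (XT.lf (nat_lit 0) (nat_lit 1798726008) (nat_lit 152) (nat_lit 2827913948) (nat_lit 228) (nat_lit 7444138525)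 (nat_lit 36) (nat_lit 5) (nat_lit 38) (nat_lit 5) (nat_lit 39) (nat_lit 4) (nat_lit 321) (nat_lit 235) (nat_lit 224)) (XT.nd (nat_lit 78) (nat_lit 228) (nat_lit 0) (XT.lf (nat_lit 0) (nat_lit 7669964477) (nat_lit 152) (nat_lit 132458756) (nat_lit 228) (nat_lit 4508968551) (nat_lit 36) (nat_lit 5) (nat_lit 38) (nat_lit 5) (nat_lit 39) (nat_lit 4) (nat_lit 322) (nat_lit 235) (nat_lit 223)) (XT.lf (nat_lit 0) (nat_lit 1052079894) (nat_lit 228) (nat_lit 9990877059) (nat_lit 228) (nat_lit 1517293393) (nat_lit 33) (nat_lit 4) (nat_lit 36) (nat_lit 5) (nat_lit 36) (nat_lit 4) (nat_lit 323) (nat_lit 235) (nat_lit 222)))) (XT.nd (nat_lit 78) (nat_lit 152) (nat_lit 0) (XT.lf (nat_lit 0) (nat_lit 1516415042) (nat_lit 304) (nat_lit 5922018116) (nat_lit 76) (nat_lit 5378311086) (nat_lit 32) (nat_lit 5) (nat_lit 36) (nat_lit 5) (nat_lit 33) (nat_lit 4) (nat_lit 324) (nat_lit 235) (nat_lit 221)) (XT.nd (nat_lit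 78) (nat_lit 152) (nat_lit 0) (XT.lf (nat_lit 0) (nat_lit 4546716340) (nat_lit 304) (nat_lit 281921035) (nat_lit 76) (nat_lit 8253864309) (nat_lit 32) (nat_lit 5) (nat_lit 36) (nat_lit 5) (nat_lit 33) (nat_lit 4) (nat_lit 325) (nat_lit 235) (nat_lit 220)) (XT.lf (nat_lit 0) (nat_lit 5539734355) (nat_lit 152) (nat_lit 2119383153) (nat_lit 228) (nat_lit 5697477385) (nat_lit 30) (nat_lit 5) (nat_lit 32) (nat_lit 5) (nat_lit 33) (nat_lit 4) (nat_lit 326) (nat_lit 235) (nat_lit 219))))) (XT.nd (nat_lit 234) (nat_lit 152) (nat_lit 0) (XT.nd (nat_lit 78) (nat_lit 228) (nat_lit 0) (XT.lf (nat_lit 0) (nat_lit 10812729623) (nat_lit 228) (nat_lit 2199900197) (nat_lit 0) (nat_lit 627941806) (nat_lit 30) (nat_lit 5) (nat_lit 33) (nat_lit 4) (nat_lit 30) (nat_lit 4) (nat_lit 327) (nat_lit 235) (nat_lit 218)) (XT.nd (nat_lit 78) (nat_lit 0) (nat_lit 0) (XT.lf (nat_lit 0) (nat_lit 120565823) (nat_lit 228) (nat_lit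 10394424400) (nat_lit 76) (nat_lit 3418275585) (nat_lit 27) (nat_lit 5) (nat_lit 30) (nat_lit 5) (nat_lit 28) (nat_lit 4) (nat_lit 328) (nat_lit 235) (nat_lit 217)) (XT.lf (nat_lit 0) (nat_lit 3063503451) (nat_lit 228) (nat_lit 4861411701) (nat_lit 76) (nat_lit 6310186038) (nat_lit 27) (nat_lit 5) (nat_lit 30) (nat_lit 5) (nat_lit 28) (nat_lit 4) (nat_lit 329) (nat_lit 235) (nat_lit 216)))) (XT.nd (nat_lit 78) (nat_lit 0) (nat_lit 0) (XT.lf (nat_lit 0) (nat_lit 761222263) (nat_lit 152) (nat_lit 5283037640) (nat_lit 228) (nat_lit 8503331009) (nat_lit 25) (nat_lit 5) (nat_lit 27) (nat_lit 5) (nat_lit 28) (nat_lit 4) (nat_lit 330) (nat_lit 235) (nat_lit 215)) (XT.nd (nat_lit 78) (nat_lit 0) (nat_lit 0) (XT.lf (nat_lit 0) (nat_lit 6561860464) (nat_lit 152) (nat_lit 2544697485) (nat_lit 228) (nat_lit 5763216532) (nat_lit 25) (nat_lit 5) (nat_lit 27) (nat_lit 5) (nat_lit 28) (nat_lit 4) (nat_lit 331)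 (nat_lit 235) (nat_lit 214)) (XT.lf (nat_lit 0) (nat_lit 12207752261) (nat_lit 228) (nat_lit 2756883228) (nat_lit 0) (nat_lit 238657559) (nat_lit 25) (nat_lit 5) (nat_lit 28) (nat_lit 4) (nat_lit 25) (nat_lit 4) (nat_lit 332) (nat_lit 235) (nat_lit 213))))))))
noncomputable def xc48 : XT := (XT.nd (nat_lit 1716) (nat_lit 380) (nat_lit 0) (XT.nd (nat_lit 858) (nat_lit 456) (nat_lit 0) (XT.nd (nat_lit 390) (nat_lit 304) (nat_lit 0) (XT.nd (nat_lit 156) (nat_lit 152) (nat_lit 0) (XT.nd (nat_lit 78) (nat_lit 76) (nat_lit 0) (XT.lf (nat_lit 0) (nat_lit 2905652734) (nat_lit 152) (nat_lit 12495451949) (nat_lit 152) (nat_lit 145816791) (nat_lit 23) (nat_lit 4) (nat_lit 25) (nat_lit 5) (nat_lit 25) (nat_lit 4) (nat_lit 333) (nat_lit 235) (nat_lit 212)) (XT.lf (nat_lit 0) (nat_lit 2709226597) (nat_lit 228) (nat_lit 7219361918) (nat_lit 76) (nat_lit 5972311565) (nat_lit 22) (nat_lit 5) (nat_lit 25) (nat_lit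 5) (nat_lit 23) (nat_lit 4) (nat_lit 334) (nat_lit 235) (nat_lit 211))) (XT.nd (nat_lit 78) (nat_lit 152) (nat_lit 0) (XT.lf (nat_lit 0) (nat_lit 5594703276) (nat_lit 228) (nat_lit 1720540137) (nat_lit 76) (nat_lit 8951851292) (nat_lit 22) (nat_lit 5) (nat_lit 25) (nat_lit 5) (nat_lit 23) (nat_lit 4) (nat_lit 335) (nat_lit 235) (nat_lit 210)) (XT.nd (nat_lit 78) (nat_lit 0) (nat_lit 0) (XT.lf (nat_lit 0) (nat_lit 3938252569) (nat_lit 152) (nat_lit 4615584268) (nat_lit 228) (nat_lit 8090894830) (nat_lit 20) (nat_lit 5) (nat_lit 22) (nat_lit 5) (nat_lit 23) (nat_lit 4) (nat_lit 336) (nat_lit 235) (nat_lit 209)) (XT.lf (nat_lit 0) (nat_lit 9721037607) (nat_lit 152) (nat_lit 1848016129) (nat_lit 228) (nat_lit 5465691981) (nat_lit 20) (nat_lit 5) (nat_lit 22) (nat_lit 5) (nat_lit 23) (nat_lit 4) (nat_lit 337) (nat_lit 235) (nat_lit 208))))) (XT.nd (nat_lit 234) (nat_lit 76) (nat_lit 0) (XT.nd (nat_lit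 78) (nat_lit 228) (nat_lit 0) (XT.lf (nat_lit 0) (nat_lit 14635468902) (nat_lit 228) (nat_lit 1848706227) (nat_lit 0) (nat_lit 953528107) (nat_lit 20) (nat_lit 5) (nat_lit 23) (nat_lit 4) (nat_lit 20) (nat_lit 4) (nat_lit 338) (nat_lit 235) (nat_lit 207)) (XT.nd (nat_lit 78) (nat_lit 76) (nat_lit 0) (XT.lf (nat_lit 0) (nat_lit 3757687322) (nat_lit 152) (nat_lit 14043136080) (nat_lit 152) (nat_lit 51781071) (nat_lit 18) (nat_lit 4) (nat_lit 20) (nat_lit 5) (nat_lit 20) (nat_lit 4) (nat_lit 339) (nat_lit 235) (nat_lit 206)) (XT.lf (nat_lit 0) (nat_lit 2698416655) (nat_lit 228) (nat_lit 8813971348) (nat_lit 76) (nat_lit 6767677415) (nat_lit 17) (nat_lit 5) (nat_lit 20) (nat_lit 5) (nat_lit 18) (nat_lit 4) (nat_lit 340) (nat_lit 235) (nat_lit 205)))) (XT.nd (nat_lit 78) (nat_lit 76) (nat_lit 0) (XT.lf (nat_lit 0) (nat_lit 5484107406) (nat_lit 228) (nat_lit 3450671696) (nat_lit 76) (nat_lit 9786992891)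 (nat_lit 17) (nat_lit 5) (nat_lit 20) (nat_lit 5) (nat_lit 18) (nat_lit 4) (nat_lit 341) (nat_lit 235) (nat_lit 204)) (XT.nd (nat_lit 78) (nat_lit 0) (nat_lit 0) (XT.lf (nat_lit 0) (nat_lit 2039973155) (nat_lit 76) (nat_lit 6288372029) (nat_lit 152) (nat_lit 10849191621) (nat_lit 16) (nat_lit 5) (nat_lit 17) (nat_lit 5) (nat_lit 18) (nat_lit 4) (nat_lit 342) (nat_lit 235) (nat_lit 203)) (XT.lf (nat_lit 0) (nat_lit 7693430952) (nat_lit 76) (nat_lit 3555292714) (nat_lit 152) (nat_lit 8398581176) (nat_lit 16) (nat_lit 5) (nat_lit 17) (nat_lit 5) (nat_lit 18) (nat_lit 4) (nat_lit 343) (nat_lit 235) (nat_lit 202)))))) (XT.nd (nat_lit 390) (nat_lit 228) (nat_lit 0) (XT.nd (nat_lit 156) (nat_lit 228) (nat_lit 0) (XT.nd (nat_lit 78) (nat_lit 0) (nat_lit 0) (XT.lf (nat_lit 0) (nat_lit 13445966476) (nat_lit 76) (nat_lit 767998048) (nat_lit 152) (nat_lit 5918536959) (nat_lit 16) (nat_lit 5) (nat_lit 17)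 (nat_lit 5) (nat_lit 18) (nat_lit 4) (nat_lit 344) (nat_lit 235) (nat_lit 201)) (XT.lf (nat_lit 0) (nat_lit 17246614024) (nat_lit 152) (nat_lit 1350899752) (nat_lit 0) (nat_lit 2035438254) (nat_lit 16) (nat_lit 5) (nat_lit 18) (nat_lit 4) (nat_lit 16) (nat_lit 4) (nat_lit 345) (nat_lit 235) (nat_lit 200))) (XT.nd (nat_lit 78) (nat_lit 76) (nat_lit 0) (XT.lf (nat_lit 0) (nat_lit 4150711204) (nat_lit 152) (nat_lit 16226488227) (nat_lit 152) (nat_lit 771058018) (nat_lit 14) (nat_lit 4) (nat_lit 16) (nat_lit 5) (nat_lit 16) (nat_lit 4) (nat_lit 346) (nat_lit 235) (nat_lit 199)) (XT.nd (nat_lit 78) (nat_lit 0) (nat_lit 0) (XT.lf (nat_lit 0) (nat_lit 1858486624) (nat_lit 228) (nat_lit 11919842591) (nat_lit 76) (nat_lit 7900985789) (nat_lit 13) (nat_lit 5) (nat_lit 16) (nat_lit 5) (nat_lit 14) (nat_lit 4) (nat_lit 347) (nat_lit 235) (nat_lit 198)) (XT.lf (nat_lit 0) (nat_lit 4512146485) (nat_lit 228)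 (nat_lit 6763146308) (nat_lit 76) (nat_lit 10952006475) (nat_lit 13) (nat_lit 5) (nat_lit 16) (nat_lit 5) (nat_lit 14) (nat_lit 4) (nat_lit 348) (nat_lit 235) (nat_lit 197))))) (XT.nd (nat_lit 234) (nat_lit 152) (nat_lit 0) (XT.nd (nat_lit 78) (nat_lit 76) (nat_lit 0) (XT.lf (nat_lit 0) (nat_lit 7207286414) (nat_lit 228) (nat_lit 1515539664) (nat_lit 76) (nat_lit 14070085339) (nat_lit 13) (nat_lit 5) (nat_lit 16) (nat_lit 5) (nat_lit 14) (nat_lit 4) (nat_lit 349) (nat_lit 235) (nat_lit 196)) (XT.nd (nat_lit 78) (nat_lit 0) (nat_lit 0) (XT.lf (nat_lit 0) (nat_lit 3903738629) (nat_lit 76) (nat_lit 6080047882) (nat_lit 152) (nat_lit 13391733411) (nat_lit 12) (nat_lit 5) (nat_lit 13) (nat_lit 5) (nat_lit 14) (nat_lit 4) (nat_lit 350) (nat_lit 235) (nat_lit 195)) (XT.lf (nat_lit 0) (nat_lit 9455336980) (nat_lit 76) (nat_lit 3367018189) (nat_lit 152) (nat_lit 11153930221) (nat_lit 12) (nat_lit 5)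 (nat_lit 13) (nat_lit 5) (nat_lit 14) (nat_lit 4) (nat_lit 351) (nat_lit 235) (nat_lit 194)))) (XT.nd (nat_lit 78) (nat_lit 152) (nat_lit 0) (XT.lf (nat_lit 0) (nat_lit 15113944088) (nat_lit 76) (nat_lit 596670369) (nat_lit 152) (nat_lit 8885564051) (nat_lit 12) (nat_lit 5) (nat_lit 13) (nat_lit 5) (nat_lit 14) (nat_lit 4) (nat_lit 352) (nat_lit 235) (nat_lit 193)) (XT.nd (nat_lit 78) (nat_lit 152) (nat_lit 0) (XT.lf (nat_lit 0) (nat_lit 18672557061) (nat_lit 152) (nat_lit 4372705525) (nat_lit 0) (nat_lit 2189834274) (nat_lit 12) (nat_lit 5) (nat_lit 14) (nat_lit 4) (nat_lit 12) (nat_lit 4) (nat_lit 353) (nat_lit 235) (nat_lit 192)) (XT.lf (nat_lit 0) (nat_lit 843721092) (nat_lit 152) (nat_lit 20860006211) (nat_lit 152) (nat_lit 4190082736) (nat_lit 10) (nat_lit 4) (nat_lit 12) (nat_lit 5) (nat_lit 12) (nat_lit 4) (nat_lit 354) (nat_lit 235) (nat_lit 191))))))) (XT.nd (nat_lit 858) (nat_lit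 228) (nat_lit 0) (XT.nd (nat_lit 390) (nat_lit 76) (nat_lit 0) (XT.nd (nat_lit 156) (nat_lit 0) (nat_lit 0) (XT.nd (nat_lit 78) (nat_lit 76) (nat_lit 0) (XT.lf (nat_lit 0) (nat_lit 6249890411) (nat_lit 152) (nat_lit 18586887402) (nat_lit 152) (nat_lit 1735215686) (nat_lit 10) (nat_lit 4) (nat_lit 12) (nat_lit 5) (nat_lit 12) (nat_lit 4) (nat_lit 355) (nat_lit 235) (nat_lit 190)) (XT.lf (nat_lit 0) (nat_lit 745219303) (nat_lit 228) (nat_lit 15515331133) (nat_lit 76) (nat_lit 11010756298) (nat_lit 9) (nat_lit 5) (nat_lit 12) (nat_lit 5) (nat_lit 10) (nat_lit 4) (nat_lit 356) (nat_lit 235) (nat_lit 189))) (XT.nd (nat_lit 78) (nat_lit 0) (nat_lit 0) (XT.lf (nat_lit 0) (nat_lit 3233542697) (nat_lit 228) (nat_lit 10635349791) (nat_lit 76) (nat_lit 14123175002) (nat_lit 9) (nat_lit 5) (nat_lit 12) (nat_lit 5) (nat_lit 10) (nat_lit 4) (nat_lit 357) (nat_lit 235) (nat_lit 188)) (XT.nd (nat_lit 78) (nat_lit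 0) (nat_lit 0) (XT.lf (nat_lit 0) (nat_lit 5765789068) (nat_lit 228) (nat_lit 5661215045) (nat_lit 76) (nat_lit 17308401845) (nat_lit 9) (nat_lit 5) (nat_lit 12) (nat_lit 5) (nat_lit 10) (nat_lit 4) (nat_lit 358) (nat_lit 235) (nat_lit 187)) (XT.lf (nat_lit 0) (nat_lit 8344171057) (nat_lit 228) (nat_lit 588580565) (nat_lit 76) (nat_lit 20569220035) (nat_lit 9) (nat_lit 5) (nat_lit 12) (nat_lit 5) (nat_lit 10) (nat_lit 4) (nat_lit 359) (nat_lit 235) (nat_lit 186))))) (XT.nd (nat_lit 234) (nat_lit 0) (nat_lit 0) (XT.nd (nat_lit 78) (nat_lit 0) (nat_lit 0) (XT.lf (nat_lit 0) (nat_lit 4678276064) (nat_lit 76) (nat_lit 6337636007) (nat_lit 152) (nat_lit 19275173216) (nat_lit 8) (nat_lit 5) (nat_lit 9) (nat_lit 5) (nat_lit 10) (nat_lit 4) (nat_lit 360) (nat_lit 235) (nat_lit 185)) (XT.nd (nat_lit 78) (nat_lit 0) (nat_lit 0) (XT.lf (nat_lit 0) (nat_lit 10066439630) (nat_lit 76) (nat_lit 3678721139)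 (nat_lit 152) (nat_lit 17359421174) (nat_lit 8) (nat_lit 5) (nat_lit 9) (nat_lit 5) (nat_lit 10) (nat_lit 4) (nat_lit 361) (nat_lit 235) (nat_lit 184)) (XT.lf (nat_lit 0) (nat_lit 15568904327) (nat_lit 76) (nat_lit 959627205) (nat_lit 152) (nat_lit 15414814024) (nat_lit 8) (nat_lit 5) (nat_lit 9) (nat_lit 5) (nat_lit 10) (nat_lit 4) (nat_lit 362) (nat_lit 235) (nat_lit 183)))) (XT.nd (nat_lit 78) (nat_lit 0) (nat_lit 0) (XT.lf (nat_lit 0) (nat_lit 19385970821) (nat_lit 152) (nat_lit 11635145281) (nat_lit 0) (nat_lit 1786467496) (nat_lit 8) (nat_lit 5) (nat_lit 10) (nat_lit 4) (nat_lit 8) (nat_lit 4) (nat_lit 363) (nat_lit 235) (nat_lit 182)) (XT.nd (nat_lit 78) (nat_lit 0) (nat_lit 0) (XT.lf (nat_lit 0) (nat_lit 22312294938) (nat_lit 152) (nat_lit 6808432849) (nat_lit 0) (nat_lit 4577553854) (nat_lit 8) (nat_lit 5) (nat_lit 10) (nat_lit 4) (nat_lit 8) (nat_lit 4) (nat_lit 364) (nat_lit 235)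 (nat_lit 181)) (XT.lf (nat_lit 0) (nat_lit 25300836344) (nat_lit 152) (nat_lit 1880861894) (nat_lit 0) (nat_lit 7434796463) (nat_lit 8) (nat_lit 5) (nat_lit 10) (nat_lit 4) (nat_lit 8) (nat_lit 4) (nat_lit 365) (nat_lit 235) (nat_lit 180)))))) (XT.nd (nat_lit 468) (nat_lit 76) (nat_lit 0) (XT.nd (nat_lit 234) (nat_lit 76) (nat_lit 0) (XT.nd (nat_lit 78) (nat_lit 0) (nat_lit 0) (XT.lf (nat_lit 0) (nat_lit 3214601685) (nat_lit 76) (nat_lit 25170505417) (nat_lit 76) (nat_lit 7176990977) (nat_lit 7) (nat_lit 4) (nat_lit 8) (nat_lit 5) (nat_lit 8) (nat_lit 4) (nat_lit 366) (nat_lit 235) (nat_lit 179)) (XT.nd (nat_lit 78) (nat_lit 0) (nat_lit 0) (XT.lf (nat_lit 0) (nat_lit 8459240301) (nat_lit 76) (nat_lit 23097148145) (nat_lit 76) (nat_lit 4979871996) (nat_lit 7) (nat_lit 4) (nat_lit 8) (nat_lit 5) (nat_lit 8) (nat_lit 4) (nat_lit 367) (nat_lit 235) (nat_lit 178)) (XT.lf (nat_lit 0) (nat_lit 13820203806)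 (nat_lit 76) (nat_lit 20978807769) (nat_lit 76) (nat_lit 2741374621) (nat_lit 7) (nat_lit 4) (nat_lit 8) (nat_lit 5) (nat_lit 8) (nat_lit 4) (nat_lit 368) (nat_lit 235) (nat_lit 177)))) (XT.nd (nat_lit 78) (nat_lit 76) (nat_lit 0) (XT.lf (nat_lit 0) (nat_lit 19302176539) (nat_lit 76) (nat_lit 18813633311) (nat_lit 76) (nat_lit 459542883) (nat_lit 7) (nat_lit 4) (nat_lit 8) (nat_lit 5) (nat_lit 8) (nat_lit 4) (nat_lit 369) (nat_lit 235) (nat_lit 176)) (XT.nd (nat_lit 78) (nat_lit 0) (nat_lit 0) (XT.lf (nat_lit 0) (nat_lit 1831173115) (nat_lit 152) (nat_lit 14750068497) (nat_lit 76) (nat_lit 23060284197) (nat_lit 6) (nat_lit 5) (nat_lit 8) (nat_lit 5) (nat_lit 7) (nat_lit 4) (nat_lit 370) (nat_lit 235) (nat_lit 175)) (XT.lf (nat_lit 0) (nat_lit 4159359219) (nat_lit 152) (nat_lit 10133811380) (nat_lit 76) (nat_lit 26447059306) (nat_lit 6) (nat_lit 5) (nat_lit 8) (nat_lit 5) (nat_lit 7) (nat_lit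 4) (nat_lit 371) (nat_lit 235) (nat_lit 174))))) (XT.nd (nat_lit 234) (nat_lit 0) (nat_lit 0) (XT.nd (nat_lit 78) (nat_lit 76) (nat_lit 0) (XT.lf (nat_lit 0) (nat_lit 6536017102) (nat_lit 152) (nat_lit 5415953815) (nat_lit 76) (nat_lit 29920586660) (nat_lit 6) (nat_lit 5) (nat_lit 8) (nat_lit 5) (nat_lit 7) (nat_lit 4) (nat_lit 372) (nat_lit 235) (nat_lit 173)) (XT.nd (nat_lit 78) (nat_lit 76) (nat_lit 0) (XT.lf (nat_lit 0) (nat_lit 8963223455) (nat_lit 152) (nat_lit 592373400) (nat_lit 76) (nat_lit 33483901379) (nat_lit 6) (nat_lit 5) (nat_lit 8) (nat_lit 5) (nat_lit 7) (nat_lit 4) (nat_lit 373) (nat_lit 235) (nat_lit 172)) (XT.lf (nat_lit 0) (nat_lit 4427541931) (nat_lit 76) (nat_lit 7058117448) (nat_lit 152) (nat_lit 32755135349) (nat_lit 5) (nat_lit 5) (nat_lit 6) (nat_lit 5) (nat_lit 7) (nat_lit 4) (nat_lit 374) (nat_lit 235) (nat_lit 171)))) (XT.nd (nat_lit 78) (nat_lit 0) (nat_lit 0)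 (XT.lf (nat_lit 0) (nat_lit 9575768894) (nat_lit 76) (nat_lit 4494090288) (nat_lit 152) (nat_lit 31408707647) (nat_lit 5) (nat_lit 5) (nat_lit 6) (nat_lit 5) (nat_lit 7) (nat_lit 4) (nat_lit 375) (nat_lit 235) (nat_lit 170)) (XT.nd (nat_lit 78) (nat_lit 0) (nat_lit 0) (XT.lf (nat_lit 0) (nat_lit 14845016544) (nat_lit 76) (nat_lit 1867256772) (nat_lit 152) (nat_lit 30041796993) (nat_lit 5) (nat_lit 5) (nat_lit 6) (nat_lit 5) (nat_lit 7) (nat_lit 4) (nat_lit 376) (nat_lit 235) (nat_lit 169)) (XT.lf (nat_lit 0) (nat_lit 19423138005) (nat_lit 152) (nat_lit 27836457925) (nat_lit 0) (nat_lit 808585943) (nat_lit 5) (nat_lit 5) (nat_lit 7) (nat_lit 4) (nat_lit 5) (nat_lit 4) (nat_lit 377) (nat_lit 235) (nat_lit 168))))))))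
noncomputable def xc49 : XT := (XT.nd (nat_lit 1716) (nat_lit 0) (nat_lit 0) (XT.nd (nat_lit 858) (nat_lit 152) (nat_lit 0) (XT.nd (nat_lit 390) (nat_lit 76) (nat_lit 0) (XT.nd (nat_lit 156) (nat_lit 0) (nat_lit 0) (XT.nd (nat_lit 78) (nat_lit 0) (nat_lit 0) (XT.lf (nat_lit 0) (nat_lit 22215485343) (nat_lit 152) (nat_lit 23692115214) (nat_lit 0) (nat_lit 3514129309) (nat_lit 5) (nat_lit 5) (nat_lit 7) (nat_lit 4) (nat_lit 5) (nat_lit 4) (nat_lit 378) (nat_lit 235) (nat_lit 167)) (XT.lf (nat_lit 0) (nat_lit 25073806033) (nat_lit 152) (nat_lit 19454455149) (nat_lit 0) (nat_lit 6288174297) (nat_lit 5) (nat_lit 5) (nat_lit 7) (nat_lit 4) (nat_lit 5) (nat_lit 4) (nat_lit 379) (nat_lit 235) (nat_lit 166))) (XT.nd (nat_lit 78) (nat_lit 0) (nat_lit 0) (XT.lf (nat_lit 0) (nat_lit 28000597636) (nat_lit 152) (nat_lit 15119774919) (nat_lit 0) (nat_lit 9133144831) (nat_lit 5) (nat_lit 5) (nat_lit 7) (nat_lit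 4) (nat_lit 5) (nat_lit 4) (nat_lit 380) (nat_lit 235) (nat_lit 165)) (XT.nd (nat_lit 78) (nat_lit 0) (nat_lit 0) (XT.lf (nat_lit 0) (nat_lit 30998417543) (nat_lit 152) (nat_lit 10684286941) (nat_lit 0) (nat_lit 12051526807) (nat_lit 5) (nat_lit 5) (nat_lit 7) (nat_lit 4) (nat_lit 5) (nat_lit 4) (nat_lit 381) (nat_lit 235) (nat_lit 164)) (XT.lf (nat_lit 0) (nat_lit 34069885208) (nat_lit 152) (nat_lit 6144115545) (nat_lit 0) (nat_lit 15045870267) (nat_lit 5) (nat_lit 5) (nat_lit 7) (nat_lit 4) (nat_lit 5) (nat_lit 4) (nat_lit 382) (nat_lit 235) (nat_lit 163))))) (XT.nd (nat_lit 234) (nat_lit 0) (nat_lit 0) (XT.nd (nat_lit 78) (nat_lit 76) (nat_lit 0) (XT.lf (nat_lit 0) (nat_lit 37217684438) (nat_lit 152) (nat_lit 1495293592) (nat_lit 0) (nat_lit 18118791629) (nat_lit 5) (nat_lit 5) (nat_lit 7) (nat_lit 4) (nat_lit 5) (nat_lit 4) (nat_lit 383) (nat_lit 235) (nat_lit 162)) (XT.nd (nat_lit 78) (nat_lit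 0) (nat_lit 0) (XT.lf (nat_lit 0) (nat_lit 3331245597) (nat_lit 76) (nat_lit 37145342111) (nat_lit 76) (nat_lit 17973752341) (nat_lit 4) (nat_lit 4) (nat_lit 5) (nat_lit 5) (nat_lit 5) (nat_lit 4) (nat_lit 384) (nat_lit 235) (nat_lit 161)) (XT.lf (nat_lit 0) (nat_lit 8306743266) (nat_lit 76) (nat_lit 35526454942) (nat_lit 76) (nat_lit 16284285600) (nat_lit 4) (nat_lit 4) (nat_lit 5) (nat_lit 5) (nat_lit 5) (nat_lit 4) (nat_lit 385) (nat_lit 235) (nat_lit 160)))) (XT.nd (nat_lit 78) (nat_lit 0) (nat_lit 0) (XT.lf (nat_lit 0) (nat_lit 13405787663) (nat_lit 76) (nat_lit 33870001497) (nat_lit 76) (nat_lit 14559308298) (nat_lit 4) (nat_lit 4) (nat_lit 5) (nat_lit 5) (nat_lit 5) (nat_lit 4) (nat_lit 386) (nat_lit 235) (nat_lit 159)) (XT.nd (nat_lit 78) (nat_lit 0) (nat_lit 0) (XT.lf (nat_lit 0) (nat_lit 18632834263) (nat_lit 76) (nat_lit 32174534388) (nat_lit 76) (nat_lit 12797313172) (nat_lit 4)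 (nat_lit 4) (nat_lit 5) (nat_lit 5) (nat_lit 5) (nat_lit 4) (nat_lit 387) (nat_lit 235) (nat_lit 158)) (XT.lf (nat_lit 0) (nat_lit 23992450388) (nat_lit 76) (nat_lit 30438572139) (nat_lit 76) (nat_lit 10996760616) (nat_lit 4) (nat_lit 4) (nat_lit 5) (nat_lit 5) (nat_lit 5) (nat_lit 4) (nat_lit 388) (nat_lit 235) (nat_lit 157)))))) (XT.nd (nat_lit 390) (nat_lit 152) (nat_lit 0) (XT.nd (nat_lit 156) (nat_lit 0) (nat_lit 0) (XT.nd (nat_lit 78) (nat_lit 0) (nat_lit 0) (XT.lf (nat_lit 0) (nat_lit 29489319199) (nat_lit 76) (nat_lit 28660597890) (nat_lit 76) (nat_lit 9156077331) (nat_lit 4) (nat_lit 4) (nat_lit 5) (nat_lit 5) (nat_lit 5) (nat_lit 4) (nat_lit 389) (nat_lit 235) (nat_lit 156)) (XT.lf (nat_lit 0) (nat_lit 35128243785) (nat_lit 76) (nat_lit 26839058072) (nat_lit 76) (nat_lit 7273654952) (nat_lit 4) (nat_lit 4) (nat_lit 5) (nat_lit 5) (nat_lit 5) (nat_lit 4) (nat_lit 390) (nat_lit 235)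 (nat_lit 155))) (XT.nd (nat_lit 78) (nat_lit 0) (nat_lit 0) (XT.lf (nat_lit 0) (nat_lit 40914151360) (nat_lit 76) (nat_lit 24972361047) (nat_lit 76) (nat_lit 5347848646) (nat_lit 4) (nat_lit 4) (nat_lit 5) (nat_lit 5) (nat_lit 5) (nat_lit 4) (nat_lit 391) (nat_lit 235) (nat_lit 154)) (XT.nd (nat_lit 78) (nat_lit 0) (nat_lit 0) (XT.lf (nat_lit 0) (nat_lit 46852097574) (nat_lit 76) (nat_lit 23058875721) (nat_lit 76) (nat_lit 3376975669) (nat_lit 4) (nat_lit 4) (nat_lit 5) (nat_lit 5) (nat_lit 5) (nat_lit 4) (nat_lit 392) (nat_lit 235) (nat_lit 153)) (XT.lf (nat_lit 0) (nat_lit 52947270921) (nat_lit 76) (nat_lit 21096930117) (nat_lit 76) (nat_lit 1359313898) (nat_lit 4) (nat_lit 4) (nat_lit 5) (nat_lit 5) (nat_lit 5) (nat_lit 4) (nat_lit 393) (nat_lit 235) (nat_lit 152))))) (XT.nd (nat_lit 234) (nat_lit 76) (nat_lit 0) (XT.nd (nat_lit 78) (nat_lit 0) (nat_lit 0) (XT.lf (nat_lit 0) (nat_lit 693105512)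 (nat_lit 152) (nat_lit 18384705394) (nat_lit 76) (nat_lit 58504892764) (nat_lit 3) (nat_lit 5) (nat_lit 5) (nat_lit 5) (nat_lit 4) (nat_lit 4) (nat_lit 394) (nat_lit 235) (nat_lit 151)) (XT.nd (nat_lit 78) (nat_lit 0) (nat_lit 0) (XT.lf (nat_lit 0) (nat_lit 2768374389) (nat_lit 152) (nat_lit 14224427403) (nat_lit 76) (nat_lit 62834415031) (nat_lit 3) (nat_lit 5) (nat_lit 5) (nat_lit 5) (nat_lit 4) (nat_lit 4) (nat_lit 395) (nat_lit 235) (nat_lit 150)) (XT.lf (nat_lit 0) (nat_lit 4894831186) (nat_lit 152) (nat_lit 9958708290) (nat_lit 76) (nat_lit 67285868143) (nat_lit 3) (nat_lit 5) (nat_lit 5) (nat_lit 5) (nat_lit 4) (nat_lit 4) (nat_lit 396) (nat_lit 235) (nat_lit 149)))) (XT.nd (nat_lit 78) (nat_lit 76) (nat_lit 0) (XT.lf (nat_lit 0) (nat_lit 7074333971) (nat_lit 152) (nat_lit 5583820729) (nat_lit 76) (nat_lit 71863141717) (nat_lit 3) (nat_lit 5) (nat_lit 5) (nat_lit 5) (nat_lit 4) (nat_lit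 4) (nat_lit 397) (nat_lit 235) (nat_lit 148)) (XT.nd (nat_lit 78) (nat_lit 76) (nat_lit 0) (XT.lf (nat_lit 0) (nat_lit 9308787164) (nat_lit 152) (nat_lit 1095942002) (nat_lit 76) (nat_lit 76570235315) (nat_lit 3) (nat_lit 5) (nat_lit 5) (nat_lit 5) (nat_lit 4) (nat_lit 4) (nat_lit 398) (nat_lit 235) (nat_lit 147)) (XT.lf (nat_lit 0) (nat_lit 3578682319) (nat_lit 76) (nat_lit 8055861364) (nat_lit 152) (nat_lit 77866980094) (nat_lit 2) (nat_lit 5) (nat_lit 3) (nat_lit 5) (nat_lit 4) (nat_lit 4) (nat_lit 399) (nat_lit 235) (nat_lit 146))))))) (XT.nd (nat_lit 34164) (nat_lit 0) (nat_lit 1900) (XT.nd (nat_lit 33696) (nat_lit 0) (nat_lit 3268) (XT.nd (nat_lit 33462) (nat_lit 0) (nat_lit 4180) (XT.nd (nat_lit 156) (nat_lit 0) (nat_lit 0) (XT.lf (nat_lit 0) (nat_lit 8398461121) (nat_lit 76) (nat_lit 5632674259) (nat_lit 152) (nat_lit 78072721610) (nat_lit 2) (nat_lit 5) (nat_lit 3) (nat_lit 5) (nat_lit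 4) (nat_lit 4) (nat_lit 400) (nat_lit 235) (nat_lit 145)) (XT.lf (nat_lit 0) (nat_lit 18425005264) (nat_lit 76) (nat_lit 588016225) (nat_lit 152) (nat_lit 78532954695) (nat_lit 2) (nat_lit 5) (nat_lit 3) (nat_lit 5) (nat_lit 4) (nat_lit 4) (nat_lit 402) (nat_lit 235) (nat_lit 143))) (XT.nd (nat_lit 78) (nat_lit 304) (nat_lit 0) (XT.lf (nat_lit 0) (nat_lit 856722856) (nat_lit 304) (nat_lit 1969214400) (nat_lit 304) (nat_lit 1969214400) (nat_lit 61) (nat_lit 4) (nat_lit 65) (nat_lit 5) (nat_lit 65) (nat_lit 4) (nat_lit 308) (nat_lit 236) (nat_lit 236)) (XT.nd (nat_lit 78) (nat_lit 304) (nat_lit 0) (XT.lf (nat_lit 0) (nat_lit 7436455532) (nat_lit 304) (nat_lit 1602429545) (nat_lit 304) (nat_lit 705661033) (nat_lit 61) (nat_lit 4) (nat_lit 65) (nat_lit 5) (nat_lit 65) (nat_lit 4) (nat_lit 309) (nat_lit 236) (nat_lit 235)) (XT.lf (nat_lit 0) (nat_lit 2532169480) (nat_lit 304) (nat_lit 6555654514)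 (nat_lit 0) (nat_lit 816230109) (nat_lit 57) (nat_lit 5) (nat_lit 61) (nat_lit 4) (nat_lit 57) (nat_lit 4) (nat_lit 310) (nat_lit 236) (nat_lit 234))))) (XT.nd (nat_lit 234) (nat_lit 304) (nat_lit 0) (XT.nd (nat_lit 78) (nat_lit 608) (nat_lit 0) (XT.lf (nat_lit 0) (nat_lit 5812376745) (nat_lit 304) (nat_lit 981379245) (nat_lit 0) (nat_lit 3275767149) (nat_lit 57) (nat_lit 5) (nat_lit 61) (nat_lit 4) (nat_lit 57) (nat_lit 4) (nat_lit 311) (nat_lit 236) (nat_lit 233)) (XT.nd (nat_lit 78) (nat_lit 304) (nat_lit 0) (XT.lf (nat_lit 0) (nat_lit 4743417443) (nat_lit 304) (nat_lit 4415520220) (nat_lit 304) (nat_lit 1082143416) (nat_lit 53) (nat_lit 4) (nat_lit 57) (nat_lit 5) (nat_lit 57) (nat_lit 4) (nat_lit 312) (nat_lit 236) (nat_lit 232)) (XT.lf (nat_lit 0) (nat_lit 113785855) (nat_lit 228) (nat_lit 1965388062) (nat_lit 304) (nat_lit 8340121855) (nat_lit 49) (nat_lit 5) (nat_lit 52) (nat_lit 5)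 (nat_lit 53) (nat_lit 4) (nat_lit 313) (nat_lit 236) (nat_lit 231)))) (XT.nd (nat_lit 78) (nat_lit 304) (nat_lit 0) (XT.lf (nat_lit 0) (nat_lit 5298565037) (nat_lit 304) (nat_lit 4722477810) (nat_lit 0) (nat_lit 582092504) (nat_lit 49) (nat_lit 5) (nat_lit 53) (nat_lit 4) (nat_lit 49) (nat_lit 4) (nat_lit 314) (nat_lit 236) (nat_lit 230)) (XT.nd (nat_lit 78) (nat_lit 76) (nat_lit 0) (XT.lf (nat_lit 0) (nat_lit 918814630) (nat_lit 228) (nat_lit 7649794145) (nat_lit 228) (nat_lit 2225404267) (nat_lit 46) (nat_lit 4) (nat_lit 49) (nat_lit 5) (nat_lit 49) (nat_lit 4) (nat_lit 315) (nat_lit 236) (nat_lit 229)) (XT.lf (nat_lit 0) (nat_lit 901888485) (nat_lit 304) (nat_lit 4280854644) (nat_lit 76) (nat_lit 5808511384) (nat_lit 45) (nat_lit 5) (nat_lit 49) (nat_lit 5) (nat_lit 46) (nat_lit 4) (nat_lit 316) (nat_lit 236) (nat_lit 228)))))) (XT.nd (nat_lit 468) (nat_lit 684) (nat_lit 0) (XT.nd (nat_lit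 234) (nat_lit 228) (nat_lit 0) (XT.nd (nat_lit 78) (nat_lit 228) (nat_lit 0) (XT.lf (nat_lit 0) (nat_lit 1381136462) (nat_lit 228) (nat_lit 2638619560) (nat_lit 304) (nat_lit 7175884405) (nat_lit 42) (nat_lit 5) (nat_lit 45) (nat_lit 5) (nat_lit 46) (nat_lit 4) (nat_lit 317) (nat_lit 236) (nat_lit 227)) (XT.nd (nat_lit 78) (nat_lit 228) (nat_lit 0) (XT.lf (nat_lit 0) (nat_lit 7196670803) (nat_lit 228) (nat_lit 7015758) (nat_lit 304) (nat_lit 4203424422) (nat_lit 42) (nat_lit 5) (nat_lit 45) (nat_lit 5) (nat_lit 46) (nat_lit 4) (nat_lit 318) (nat_lit 236) (nat_lit 226)) (XT.lf (nat_lit 0) (nat_lit 1461362288) (nat_lit 228) (nat_lit 8992854861) (nat_lit 228) (nat_lit 1171701164) (nat_lit 39) (nat_lit 4) (nat_lit 42) (nat_lit 5) (nat_lit 42) (nat_lit 4) (nat_lit 319) (nat_lit 236) (nat_lit 225)))) (XT.nd (nat_lit 78) (nat_lit 152) (nat_lit 0) (XT.lf (nat_lit 0) (nat_lit 1887194635) (nat_lit 304)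 (nat_lit 4583018217) (nat_lit 76) (nat_lit 5381403592) (nat_lit 38) (nat_lit 5) (nat_lit 42) (nat_lit 5) (nat_lit 39) (nat_lit 4) (nat_lit 320) (nat_lit 236) (nat_lit 224)) (XT.nd (nat_lit 78) (nat_lit 0) (nat_lit 0) (XT.lf (nat_lit 0) (nat_lit 1074964238) (nat_lit 152) (nat_lit 3882961450) (nat_lit 228) (nat_lit 7127617751) (nat_lit 36) (nat_lit 5) (nat_lit 38) (nat_lit 5) (nat_lit 39) (nat_lit 4) (nat_lit 321) (nat_lit 236) (nat_lit 223)) (XT.lf (nat_lit 0) (nat_lit 6897240726) (nat_lit 152) (nat_lit 1204090370) (nat_lit 228) (nat_lit 4225851746) (nat_lit 36) (nat_lit 5) (nat_lit 38) (nat_lit 5) (nat_lit 39) (nat_lit 4) (nat_lit 322) (nat_lit 236) (nat_lit 222))))) (XT.nd (nat_lit 234) (nat_lit 380) (nat_lit 0) (XT.nd (nat_lit 78) (nat_lit 76) (nat_lit 0) (XT.lf (nat_lit 0) (nat_lit 209038139) (nat_lit 228) (nat_lit 11082832067) (nat_lit 228) (nat_lit 1285724205) (nat_lit 33) (nat_lit 4) (nat_lit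 36) (nat_lit 5) (nat_lit 36) (nat_lit 4) (nat_lit 323) (nat_lit 236) (nat_lit 221)) (XT.nd (nat_lit 78) (nat_lit 0) (nat_lit 0) (XT.lf (nat_lit 0) (nat_lit 1711976665) (nat_lit 304) (nat_lit 6833209781) (nat_lit 76) (nat_lit 4289829863) (nat_lit 32) (nat_lit 5) (nat_lit 36) (nat_lit 5) (nat_lit 33) (nat_lit 4) (nat_lit 324) (nat_lit 236) (nat_lit 220)) (XT.lf (nat_lit 0) (nat_lit 4711706296) (nat_lit 304) (nat_lit 1240277613) (nat_lit 76) (nat_lit 7149755646) (nat_lit 32) (nat_lit 5) (nat_lit 36) (nat_lit 5) (nat_lit 33) (nat_lit 4) (nat_lit 325) (nat_lit 236) (nat_lit 219)))) (XT.nd (nat_lit 78) (nat_lit 228) (nat_lit 0) (XT.lf (nat_lit 0) (nat_lit 4515602088) (nat_lit 152) (nat_lit 3268979560) (nat_lit 228) (nat_lit 5592484129) (nat_lit 30) (nat_lit 5) (nat_lit 32) (nat_lit 5) (nat_lit 33) (nat_lit 4) (nat_lit 326) (nat_lit 236) (nat_lit 218)) (XT.nd (nat_lit 78) (nat_lit 228) (nat_lit 0)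 (XT.lf (nat_lit 0) (nat_lit 10377537900) (nat_lit 152) (nat_lit 525246987) (nat_lit 228) (nat_lit 2759365754) (nat_lit 30) (nat_lit 5) (nat_lit 32) (nat_lit 5) (nat_lit 33) (nat_lit 4) (nat_lit 327) (nat_lit 236) (nat_lit 217)) (XT.lf (nat_lit 0) (nat_lit 142596817) (nat_lit 228) (nat_lit 11564412563) (nat_lit 76) (nat_lit 2249212197) (nat_lit 27) (nat_lit 5) (nat_lit 30) (nat_lit 5) (nat_lit 28) (nat_lit 4) (nat_lit 328) (nat_lit 236) (nat_lit 216))))))))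
noncomputable def xc50 : XT := (XT.nd (nat_lit 1716) (nat_lit 456) (nat_lit 0) (XT.nd (nat_lit 858) (nat_lit 456) (nat_lit 0) (XT.nd (nat_lit 390) (nat_lit 380) (nat_lit 0) (XT.nd (nat_lit 156) (nat_lit 304) (nat_lit 0) (XT.nd (nat_lit 78) (nat_lit 0) (nat_lit 0) (XT.lf (nat_lit 0) (nat_lit 3057068121) (nat_lit 228) (nat_lit 6076337451) (nat_lit 76) (nat_lit 5125547347) (nat_lit 27) (nat_lit 5) (nat_lit 30) (nat_lit 5) (nat_lit 28) (nat_lit 4) (nat_lit 329) (nat_lit 236) (nat_lit 215)) (XT.lf (nat_lit 0) (nat_lit 6002870033) (nat_lit 228) (nat_lit 512186401) (nat_lit 76) (nat_lit 8057475594) (nat_lit 27) (nat_lit 5) (nat_lit 30) (nat_lit 5) (nat_lit 28) (nat_lit 4) (nat_lit 330) (nat_lit 236) (nat_lit 214))) (XT.nd (nat_lit 78) (nat_lit 152) (nat_lit 0) (XT.lf (nat_lit 0) (nat_lit 5235057291) (nat_lit 152) (nat_lit 3797841836) (nat_lit 228) (nat_lit 5862824099) (nat_lit 25) (nat_lit 5) (nat_lit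 27) (nat_lit 5) (nat_lit 28) (nat_lit 4) (nat_lit 331) (nat_lit 236) (nat_lit 213)) (XT.nd (nat_lit 78) (nat_lit 152) (nat_lit 0) (XT.lf (nat_lit 0) (nat_lit 11080073909) (nat_lit 152) (nat_lit 1025225853) (nat_lit 228) (nat_lit 3124844251) (nat_lit 25) (nat_lit 5) (nat_lit 27) (nat_lit 5) (nat_lit 28) (nat_lit 4) (nat_lit 332) (nat_lit 236) (nat_lit 212)) (XT.lf (nat_lit 0) (nat_lit 1452581990) (nat_lit 152) (nat_lit 13796419344) (nat_lit 152) (nat_lit 326297922) (nat_lit 23) (nat_lit 4) (nat_lit 25) (nat_lit 5) (nat_lit 25) (nat_lit 4) (nat_lit 333) (nat_lit 236) (nat_lit 211))))) (XT.nd (nat_lit 234) (nat_lit 152) (nat_lit 0) (XT.nd (nat_lit 78) (nat_lit 152) (nat_lit 0) (XT.lf (nat_lit 0) (nat_lit 2506510042) (nat_lit 228) (nat_lit 8740601911) (nat_lit 76) (nat_lit 4683025823) (nat_lit 22) (nat_lit 5) (nat_lit 25) (nat_lit 5) (nat_lit 23) (nat_lit 4) (nat_lit 334) (nat_lit 236) (nat_lit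 210)) (XT.nd (nat_lit 78) (nat_lit 152) (nat_lit 0) (XT.lf (nat_lit 0) (nat_lit 5366979672) (nat_lit 228) (nat_lit 3282096987) (nat_lit 76) (nat_lit 7648040080) (nat_lit 22) (nat_lit 5) (nat_lit 25) (nat_lit 5) (nat_lit 23) (nat_lit 4) (nat_lit 335) (nat_lit 236) (nat_lit 209)) (XT.lf (nat_lit 0) (nat_lit 2305696081) (nat_lit 152) (nat_lit 5980445332) (nat_lit 228) (nat_lit 8389844576) (nat_lit 20) (nat_lit 5) (nat_lit 22) (nat_lit 5) (nat_lit 23) (nat_lit 4) (nat_lit 336) (nat_lit 236) (nat_lit 208)))) (XT.nd (nat_lit 78) (nat_lit 152) (nat_lit 0) (XT.lf (nat_lit 0) (nat_lit 8049722291) (nat_lit 152) (nat_lit 3227691905) (nat_lit 228) (nat_lit 5789336334) (nat_lit 20) (nat_lit 5) (nat_lit 22) (nat_lit 5) (nat_lit 23) (nat_lit 4) (nat_lit 337) (nat_lit 236) (nat_lit 207)) (XT.nd (nat_lit 78) (nat_lit 152) (nat_lit 0) (XT.lf (nat_lit 0) (nat_lit 13889680527) (nat_lit 152) (nat_lit 421553806)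 (nat_lit 228) (nat_lit 3159482799) (nat_lit 20) (nat_lit 5) (nat_lit 22) (nat_lit 5) (nat_lit 23) (nat_lit 4) (nat_lit 338) (nat_lit 236) (nat_lit 206)) (XT.lf (nat_lit 0) (nat_lit 1957167459) (nat_lit 152) (nat_lit 15475357584) (nat_lit 152) (nat_lit 454445560) (nat_lit 18) (nat_lit 4) (nat_lit 20) (nat_lit 5) (nat_lit 20) (nat_lit 4) (nat_lit 339) (nat_lit 236) (nat_lit 205)))))) (XT.nd (nat_lit 390) (nat_lit 304) (nat_lit 0) (XT.nd (nat_lit 156) (nat_lit 76) (nat_lit 0) (XT.nd (nat_lit 78) (nat_lit 0) (nat_lit 0) (XT.lf (nat_lit 0) (nat_lit 2280963217) (nat_lit 228) (nat_lit 10682209265) (nat_lit 76) (nat_lit 5352083157) (nat_lit 17) (nat_lit 5) (nat_lit 20) (nat_lit 5) (nat_lit 18) (nat_lit 4) (nat_lit 340) (nat_lit 236) (nat_lit 204)) (XT.lf (nat_lit 0) (nat_lit 5044667187) (nat_lit 228) (nat_lit 5355048043) (nat_lit 76) (nat_lit 8357934335) (nat_lit 17) (nat_lit 5) (nat_lit 20) (nat_lit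 5) (nat_lit 18) (nat_lit 4) (nat_lit 341) (nat_lit 236) (nat_lit 203))) (XT.nd (nat_lit 78) (nat_lit 0) (nat_lit 0) (XT.lf (nat_lit 0) (nat_lit 61911853) (nat_lit 76) (nat_lit 7786632387) (nat_lit 152) (nat_lit 11366107899) (nat_lit 16) (nat_lit 5) (nat_lit 17) (nat_lit 5) (nat_lit 18) (nat_lit 4) (nat_lit 342) (nat_lit 236) (nat_lit 202)) (XT.nd (nat_lit 78) (nat_lit 0) (nat_lit 0) (XT.lf (nat_lit 0) (nat_lit 5680627774) (nat_lit 76) (nat_lit 5067236338) (nat_lit 152) (nat_lit 8937213976) (nat_lit 16) (nat_lit 5) (nat_lit 17) (nat_lit 5) (nat_lit 18) (nat_lit 4) (nat_lit 343) (nat_lit 236) (nat_lit 201)) (XT.lf (nat_lit 0) (nat_lit 11399433322) (nat_lit 76) (nat_lit 2293226396) (nat_lit 152) (nat_lit 6478253763) (nat_lit 16) (nat_lit 5) (nat_lit 17) (nat_lit 5) (nat_lit 18) (nat_lit 4) (nat_lit 344) (nat_lit 236) (nat_lit 200))))) (XT.nd (nat_lit 234) (nat_lit 76) (nat_lit 0) (XT.nd (nat_lit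 78) (nat_lit 228) (nat_lit 0) (XT.lf (nat_lit 0) (nat_lit 16690674050) (nat_lit 152) (nat_lit 3454427191) (nat_lit 0) (nat_lit 527326497) (nat_lit 16) (nat_lit 5) (nat_lit 18) (nat_lit 4) (nat_lit 16) (nat_lit 4) (nat_lit 345) (nat_lit 236) (nat_lit 199)) (XT.nd (nat_lit 78) (nat_lit 76) (nat_lit 0) (XT.lf (nat_lit 0) (nat_lit 1972401648) (nat_lit 152) (nat_lit 17808526582) (nat_lit 152) (nat_lit 1408038798) (nat_lit 14) (nat_lit 4) (nat_lit 16) (nat_lit 5) (nat_lit 16) (nat_lit 4) (nat_lit 346) (nat_lit 236) (nat_lit 198)) (XT.lf (nat_lit 0) (nat_lit 1214589023) (nat_lit 228) (nat_lit 14165105299) (nat_lit 76) (nat_lit 6341116912) (nat_lit 13) (nat_lit 5) (nat_lit 16) (nat_lit 5) (nat_lit 14) (nat_lit 4) (nat_lit 347) (nat_lit 236) (nat_lit 197)))) (XT.nd (nat_lit 78) (nat_lit 76) (nat_lit 0) (XT.lf (nat_lit 0) (nat_lit 3849465767) (nat_lit 228) (nat_lit 9039832921) (nat_lit 76) (nat_lit 9380082208)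 (nat_lit 13) (nat_lit 5) (nat_lit 16) (nat_lit 5) (nat_lit 14) (nat_lit 4) (nat_lit 348) (nat_lit 236) (nat_lit 196)) (XT.nd (nat_lit 78) (nat_lit 76) (nat_lit 0) (XT.lf (nat_lit 0) (nat_lit 6526369660) (nat_lit 228) (nat_lit 3822734923) (nat_lit 76) (nat_lit 12486456810) (nat_lit 13) (nat_lit 5) (nat_lit 16) (nat_lit 5) (nat_lit 14) (nat_lit 4) (nat_lit 349) (nat_lit 236) (nat_lit 195)) (XT.lf (nat_lit 0) (nat_lit 1520416119) (nat_lit 76) (nat_lit 7741838795) (nat_lit 152) (nat_lit 14157154077) (nat_lit 12) (nat_lit 5) (nat_lit 13) (nat_lit 5) (nat_lit 14) (nat_lit 4) (nat_lit 350) (nat_lit 236) (nat_lit 194))))))) (XT.nd (nat_lit 858) (nat_lit 152) (nat_lit 0) (XT.nd (nat_lit 390) (nat_lit 152) (nat_lit 0) (XT.nd (nat_lit 156) (nat_lit 152) (nat_lit 0) (XT.nd (nat_lit 78) (nat_lit 0) (nat_lit 0) (XT.lf (nat_lit 0) (nat_lit 7042684818) (nat_lit 76) (nat_lit 5040667606) (nat_lit 152) (nat_lit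 11937366215) (nat_lit 12) (nat_lit 5) (nat_lit 13) (nat_lit 5) (nat_lit 14) (nat_lit 4) (nat_lit 351) (nat_lit 236) (nat_lit 193)) (XT.lf (nat_lit 0) (nat_lit 12672816536) (nat_lit 76) (nat_lit 2281832897) (nat_lit 152) (nat_lit 9686490653) (nat_lit 12) (nat_lit 5) (nat_lit 13) (nat_lit 5) (nat_lit 14) (nat_lit 4) (nat_lit 352) (nat_lit 236) (nat_lit 192))) (XT.nd (nat_lit 78) (nat_lit 152) (nat_lit 0) (XT.lf (nat_lit 0) (nat_lit 17883817545) (nat_lit 152) (nat_lit 6870647347) (nat_lit 0) (nat_lit 526595677) (nat_lit 12) (nat_lit 5) (nat_lit 14) (nat_lit 4) (nat_lit 12) (nat_lit 4) (nat_lit 353) (nat_lit 236) (nat_lit 191)) (XT.nd (nat_lit 78) (nat_lit 152) (nat_lit 0) (XT.lf (nat_lit 0) (nat_lit 20890784531) (nat_lit 152) (nat_lit 1697919237) (nat_lit 0) (nat_lit 3351814422) (nat_lit 12) (nat_lit 5) (nat_lit 14) (nat_lit 4) (nat_lit 12) (nat_lit 4) (nat_lit 354) (nat_lit 236) (nat_lit 190))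 (XT.lf (nat_lit 0) (nat_lit 3647490694) (nat_lit 152) (nat_lit 20343814684) (nat_lit 152) (nat_lit 2628389972) (nat_lit 10) (nat_lit 4) (nat_lit 12) (nat_lit 5) (nat_lit 12) (nat_lit 4) (nat_lit 355) (nat_lit 236) (nat_lit 189))))) (XT.nd (nat_lit 234) (nat_lit 76) (nat_lit 0) (XT.nd (nat_lit 78) (nat_lit 76) (nat_lit 0) (XT.lf (nat_lit 0) (nat_lit 9134919132) (nat_lit 152) (nat_lit 18035764205) (nat_lit 152) (nat_lit 149024345) (nat_lit 10) (nat_lit 4) (nat_lit 12) (nat_lit 5) (nat_lit 12) (nat_lit 4) (nat_lit 356) (nat_lit 236) (nat_lit 188)) (XT.nd (nat_lit 78) (nat_lit 0) (nat_lit 0) (XT.lf (nat_lit 0) (nat_lit 2327070732) (nat_lit 228) (nat_lit 13329111659) (nat_lit 76) (nat_lit 12384799411) (nat_lit 9) (nat_lit 5) (nat_lit 12) (nat_lit 5) (nat_lit 10) (nat_lit 4) (nat_lit 357) (nat_lit 236) (nat_lit 187)) (XT.lf (nat_lit 0) (nat_lit 4844621649) (nat_lit 228) (nat_lit 8379964257) (nat_lit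 76) (nat_lit 15560191053) (nat_lit 9) (nat_lit 5) (nat_lit 12) (nat_lit 5) (nat_lit 10) (nat_lit 4) (nat_lit 358) (nat_lit 236) (nat_lit 186)))) (XT.nd (nat_lit 78) (nat_lit 76) (nat_lit 0) (XT.lf (nat_lit 0) (nat_lit 7408736206) (nat_lit 228) (nat_lit 3331589334) (nat_lit 76) (nat_lit 18811460503) (nat_lit 9) (nat_lit 5) (nat_lit 12) (nat_lit 5) (nat_lit 10) (nat_lit 4) (nat_lit 359) (nat_lit 236) (nat_lit 185)) (XT.nd (nat_lit 78) (nat_lit 0) (nat_lit 0) (XT.lf (nat_lit 0) (nat_lit 1856654324) (nat_lit 76) (nat_lit 8182847867) (nat_lit 152) (nat_lit 20302641650) (nat_lit 8) (nat_lit 5) (nat_lit 9) (nat_lit 5) (nat_lit 10) (nat_lit 4) (nat_lit 360) (nat_lit 236) (nat_lit 184)) (XT.lf (nat_lit 0) (nat_lit 7221495833) (nat_lit 76) (nat_lit 5533582447) (nat_lit 152) (nat_lit 18400986876) (nat_lit 8) (nat_lit 5) (nat_lit 9) (nat_lit 5) (nat_lit 10) (nat_lit 4) (nat_lit 361) (nat_lit 236) (nat_lit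 183)))))) (XT.nd (nat_lit 468) (nat_lit 76) (nat_lit 0) (XT.nd (nat_lit 234) (nat_lit 76) (nat_lit 0) (XT.nd (nat_lit 78) (nat_lit 0) (nat_lit 0) (XT.lf (nat_lit 0) (nat_lit 12701317757) (nat_lit 76) (nat_lit 2823856909) (nat_lit 152) (nat_lit 16470066395) (nat_lit 8) (nat_lit 5) (nat_lit 9) (nat_lit 5) (nat_lit 10) (nat_lit 4) (nat_lit 362) (nat_lit 236) (nat_lit 182)) (XT.nd (nat_lit 78) (nat_lit 0) (nat_lit 0) (XT.lf (nat_lit 0) (nat_lit 18300908291) (nat_lit 76) (nat_lit 51303531) (nat_lit 152) (nat_lit 14508192994) (nat_lit 8) (nat_lit 5) (nat_lit 9) (nat_lit 5) (nat_lit 10) (nat_lit 4) (nat_lit 363) (nat_lit 236) (nat_lit 181)) (XT.lf (nat_lit 0) (nat_lit 21265445521) (nat_lit 152) (nat_lit 9753937657) (nat_lit 0) (nat_lit 2732125647) (nat_lit 8) (nat_lit 5) (nat_lit 10) (nat_lit 4) (nat_lit 8) (nat_lit 4) (nat_lit 364) (nat_lit 236) (nat_lit 180)))) (XT.nd (nat_lit 78) (nat_lit 76) (nat_lit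 0) (XT.lf (nat_lit 0) (nat_lit 24241756578) (nat_lit 152) (nat_lit 4847382939) (nat_lit 0) (nat_lit 5580962145) (nat_lit 8) (nat_lit 5) (nat_lit 10) (nat_lit 4) (nat_lit 8) (nat_lit 4) (nat_lit 365) (nat_lit 236) (nat_lit 179)) (XT.nd (nat_lit 78) (nat_lit 0) (nat_lit 0) (XT.lf (nat_lit 0) (nat_lit 168230859) (nat_lit 76) (nat_lit 27116638772) (nat_lit 76) (nat_lit 8332082631) (nat_lit 7) (nat_lit 4) (nat_lit 8) (nat_lit 5) (nat_lit 8) (nat_lit 4) (nat_lit 366) (nat_lit 236) (nat_lit 178)) (XT.lf (nat_lit 0) (nat_lit 5392665402) (nat_lit 76) (nat_lit 25051763084) (nat_lit 76) (nat_lit 6147049944) (nat_lit 7) (nat_lit 4) (nat_lit 8) (nat_lit 5) (nat_lit 8) (nat_lit 4) (nat_lit 367) (nat_lit 236) (nat_lit 177))))) (XT.nd (nat_lit 234) (nat_lit 0) (nat_lit 0) (XT.nd (nat_lit 78) (nat_lit 76) (nat_lit 0) (XT.lf (nat_lit 0) (nat_lit 10734013302) (nat_lit 76) (nat_lit 22941657254) (nat_lit 76) (nat_lit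 3920286834) (nat_lit 7) (nat_lit 4) (nat_lit 8) (nat_lit 5) (nat_lit 8) (nat_lit 4) (nat_lit 368) (nat_lit 236) (nat_lit 176)) (XT.nd (nat_lit 78) (nat_lit 76) (nat_lit 0) (XT.lf (nat_lit 0) (nat_lit 16196941758) (nat_lit 76) (nat_lit 20784477501) (nat_lit 76) (nat_lit 1649847586) (nat_lit 7) (nat_lit 4) (nat_lit 8) (nat_lit 5) (nat_lit 8) (nat_lit 4) (nat_lit 369) (nat_lit 236) (nat_lit 175)) (XT.lf (nat_lit 0) (nat_lit 653250708) (nat_lit 152) (nat_lit 17918491651) (nat_lit 76) (nat_lit 21126376941) (nat_lit 6) (nat_lit 5) (nat_lit 8) (nat_lit 5) (nat_lit 7) (nat_lit 4) (nat_lit 370) (nat_lit 236) (nat_lit 174)))) (XT.nd (nat_lit 78) (nat_lit 0) (nat_lit 0) (XT.lf (nat_lit 0) (nat_lit 2970907845) (nat_lit 152) (nat_lit 13320405601) (nat_lit 76) (nat_lit 24505836282) (nat_lit 6) (nat_lit 5) (nat_lit 8) (nat_lit 5) (nat_lit 7) (nat_lit 4) (nat_lit 371) (nat_lit 236) (nat_lit 173)) (XT.nd (nat_lit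 78) (nat_lit 0) (nat_lit 0) (XT.lf (nat_lit 0) (nat_lit 5337343429) (nat_lit 152) (nat_lit 8620189847) (nat_lit 76) (nat_lit 27972260948) (nat_lit 6) (nat_lit 5) (nat_lit 8) (nat_lit 5) (nat_lit 7) (nat_lit 4) (nat_lit 372) (nat_lit 236) (nat_lit 172)) (XT.lf (nat_lit 0) (nat_lit 7754625220) (nat_lit 152) (nat_lit 3813737405) (nat_lit 76) (nat_lit 31528679854) (nat_lit 6) (nat_lit 5) (nat_lit 8) (nat_lit 5) (nat_lit 7) (nat_lit 4) (nat_lit 373) (nat_lit 236) (nat_lit 171))))))))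
noncomputable def xc51 : XT := (XT.nd (nat_lit 1794) (nat_lit 76) (nat_lit 0) (XT.nd (nat_lit 858) (nat_lit 152) (nat_lit 0) (XT.nd (nat_lit 390) (nat_lit 0) (nat_lit 0) (XT.nd (nat_lit 156) (nat_lit 0) (nat_lit 0) (XT.nd (nat_lit 78) (nat_lit 0) (nat_lit 0) (XT.lf (nat_lit 0) (nat_lit 1125106415) (nat_lit 76) (nat_lit 9110574202) (nat_lit 152) (nat_lit 34063909346) (nat_lit 5) (nat_lit 5) (nat_lit 6) (nat_lit 5) (nat_lit 7) (nat_lit 4) (nat_lit 374) (nat_lit 236) (nat_lit 170)) (XT.lf (nat_lit 0) (nat_lit 6256867308) (nat_lit 76) (nat_lit 6553499977) (nat_lit 152) (nat_lit 32727289467) (nat_lit 5) (nat_lit 5) (nat_lit 6) (nat_lit 5) (nat_lit 7) (nat_lit 4) (nat_lit 375) (nat_lit 236) (nat_lit 169))) (XT.nd (nat_lit 78) (nat_lit 0) (nat_lit 0) (XT.lf (nat_lit 0) (nat_lit 11510128484) (nat_lit 76) (nat_lit 3933416885) (nat_lit 152) (nat_lit 31369900971) (nat_lit 5) (nat_lit 5) (nat_lit 6) (nat_lit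 5) (nat_lit 7) (nat_lit 4) (nat_lit 376) (nat_lit 236) (nat_lit 168)) (XT.nd (nat_lit 78) (nat_lit 0) (nat_lit 0) (XT.lf (nat_lit 0) (nat_lit 16889480170) (nat_lit 76) (nat_lit 1248035533) (nat_lit 152) (nat_lit 29990557791) (nat_lit 5) (nat_lit 5) (nat_lit 6) (nat_lit 5) (nat_lit 7) (nat_lit 4) (nat_lit 377) (nat_lit 236) (nat_lit 167)) (XT.lf (nat_lit 0) (nat_lit 20909099132) (nat_lit 152) (nat_lit 27097531036) (nat_lit 0) (nat_lit 1475622743) (nat_lit 5) (nat_lit 5) (nat_lit 7) (nat_lit 4) (nat_lit 5) (nat_lit 4) (nat_lit 378) (nat_lit 236) (nat_lit 166))))) (XT.nd (nat_lit 234) (nat_lit 0) (nat_lit 0) (XT.nd (nat_lit 78) (nat_lit 0) (nat_lit 0) (XT.lf (nat_lit 0) (nat_lit 23758908143) (nat_lit 152) (nat_lit 22874703305) (nat_lit 0) (nat_lit 4243610685) (nat_lit 5) (nat_lit 5) (nat_lit 7) (nat_lit 4) (nat_lit 5) (nat_lit 4) (nat_lit 379) (nat_lit 236) (nat_lit 165)) (XT.nd (nat_lit 78) (nat_lit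 0) (nat_lit 0) (XT.lf (nat_lit 0) (nat_lit 26677435980) (nat_lit 152) (nat_lit 18554423400) (nat_lit 0) (nat_lit 7082700592) (nat_lit 5) (nat_lit 5) (nat_lit 7) (nat_lit 4) (nat_lit 5) (nat_lit 4) (nat_lit 380) (nat_lit 236) (nat_lit 164)) (XT.lf (nat_lit 0) (nat_lit 29667232814) (nat_lit 152) (nat_lit 14132916319) (nat_lit 0) (nat_lit 9995373220) (nat_lit 5) (nat_lit 5) (nat_lit 7) (nat_lit 4) (nat_lit 5) (nat_lit 4) (nat_lit 381) (nat_lit 236) (nat_lit 163)))) (XT.nd (nat_lit 78) (nat_lit 0) (nat_lit 0) (XT.lf (nat_lit 0) (nat_lit 32730911087) (nat_lit 152) (nat_lit 9606318610) (nat_lit 0) (nat_lit 12984173625) (nat_lit 5) (nat_lit 5) (nat_lit 7) (nat_lit 4) (nat_lit 5) (nat_lit 4) (nat_lit 382) (nat_lit 236) (nat_lit 162)) (XT.nd (nat_lit 78) (nat_lit 0) (nat_lit 0) (XT.lf (nat_lit 0) (nat_lit 35871147802) (nat_lit 152) (nat_lit 4970674993) (nat_lit 0) (nat_lit 16051713379) (nat_lit 5) (nat_lit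 5) (nat_lit 7) (nat_lit 4) (nat_lit 5) (nat_lit 4) (nat_lit 383) (nat_lit 236) (nat_lit 161)) (XT.lf (nat_lit 0) (nat_lit 39090686852) (nat_lit 152) (nat_lit 221934905) (nat_lit 0) (nat_lit 19200672857) (nat_lit 5) (nat_lit 5) (nat_lit 7) (nat_lit 4) (nat_lit 5) (nat_lit 4) (nat_lit 384) (nat_lit 236) (nat_lit 160)))))) (XT.nd (nat_lit 468) (nat_lit 76) (nat_lit 0) (XT.nd (nat_lit 234) (nat_lit 0) (nat_lit 0) (XT.nd (nat_lit 78) (nat_lit 0) (nat_lit 0) (XT.lf (nat_lit 0) (nat_lit 4736476758) (nat_lit 76) (nat_lit 37701394583) (nat_lit 76) (nat_lit 17742856730) (nat_lit 4) (nat_lit 4) (nat_lit 5) (nat_lit 5) (nat_lit 5) (nat_lit 4) (nat_lit 385) (nat_lit 236) (nat_lit 159)) (XT.nd (nat_lit 78) (nat_lit 0) (nat_lit 0) (XT.lf (nat_lit 0) (nat_lit 9823221091) (nat_lit 76) (nat_lit 36050202191) (nat_lit 76) (nat_lit 16025136322) (nat_lit 4) (nat_lit 4) (nat_lit 5) (nat_lit 5) (nat_lit 5) (nat_lit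 4) (nat_lit 386) (nat_lit 236) (nat_lit 158)) (XT.lf (nat_lit 0) (nat_lit 15038325882) (nat_lit 76) (nat_lit 34359842902) (nat_lit 76) (nat_lit 14270186725) (nat_lit 4) (nat_lit 4) (nat_lit 5) (nat_lit 5) (nat_lit 5) (nat_lit 4) (nat_lit 387) (nat_lit 236) (nat_lit 157)))) (XT.nd (nat_lit 78) (nat_lit 0) (nat_lit 0) (XT.lf (nat_lit 0) (nat_lit 20386348019) (nat_lit 76) (nat_lit 32628839701) (nat_lit 76) (nat_lit 12476474488) (nat_lit 4) (nat_lit 4) (nat_lit 5) (nat_lit 5) (nat_lit 5) (nat_lit 4) (nat_lit 388) (nat_lit 236) (nat_lit 156)) (XT.nd (nat_lit 78) (nat_lit 0) (nat_lit 0) (XT.lf (nat_lit 0) (nat_lit 25871960529) (nat_lit 76) (nat_lit 30855680062) (nat_lit 76) (nat_lit 10642432289) (nat_lit 4) (nat_lit 4) (nat_lit 5) (nat_lit 5) (nat_lit 5) (nat_lit 4) (nat_lit 389) (nat_lit 236) (nat_lit 155)) (XT.lf (nat_lit 0) (nat_lit 31499956668) (nat_lit 76) (nat_lit 29038814622) (nat_lit 76) (nat_lit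 8766457568) (nat_lit 4) (nat_lit 4) (nat_lit 5) (nat_lit 5) (nat_lit 5) (nat_lit 4) (nat_lit 390) (nat_lit 236) (nat_lit 154))))) (XT.nd (nat_lit 234) (nat_lit 76) (nat_lit 0) (XT.nd (nat_lit 78) (nat_lit 0) (nat_lit 0) (XT.lf (nat_lit 0) (nat_lit 37275254100) (nat_lit 76) (nat_lit 27176655828) (nat_lit 76) (nat_lit 6846911123) (nat_lit 4) (nat_lit 4) (nat_lit 5) (nat_lit 5) (nat_lit 5) (nat_lit 4) (nat_lit 391) (nat_lit 236) (nat_lit 153)) (XT.nd (nat_lit 78) (nat_lit 0) (nat_lit 0) (XT.lf (nat_lit 0) (nat_lit 43202899204) (nat_lit 76) (nat_lit 25267576553) (nat_lit 76) (nat_lit 4882115681) (nat_lit 4) (nat_lit 4) (nat_lit 5) (nat_lit 5) (nat_lit 5) (nat_lit 4) (nat_lit 392) (nat_lit 236) (nat_lit 152)) (XT.lf (nat_lit 0) (nat_lit 49288071475) (nat_lit 76) (nat_lit 23309908667) (nat_lit 76) (nat_lit 2870354429) (nat_lit 4) (nat_lit 4) (nat_lit 5) (nat_lit 5) (nat_lit 5) (nat_lit 4) (nat_lit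 393) (nat_lit 236) (nat_lit 151)))) (XT.nd (nat_lit 78) (nat_lit 76) (nat_lit 0) (XT.lf (nat_lit 0) (nat_lit 55536088053) (nat_lit 76) (nat_lit 21301941587) (nat_lit 76) (nat_lit 809869519) (nat_lit 4) (nat_lit 4) (nat_lit 5) (nat_lit 5) (nat_lit 5) (nat_lit 4) (nat_lit 394) (nat_lit 236) (nat_lit 150)) (XT.nd (nat_lit 78) (nat_lit 0) (nat_lit 0) (XT.lf (nat_lit 0) (nat_lit 1275749554) (nat_lit 152) (nat_lit 17953288656) (nat_lit 76) (nat_lit 60663776246) (nat_lit 3) (nat_lit 5) (nat_lit 5) (nat_lit 5) (nat_lit 4) (nat_lit 4) (nat_lit 395) (nat_lit 236) (nat_lit 149)) (XT.lf (nat_lit 0) (nat_lit 3396911910) (nat_lit 152) (nat_lit 13696832167) (nat_lit 76) (nat_lit 65111424860) (nat_lit 3) (nat_lit 5) (nat_lit 5) (nat_lit 5) (nat_lit 4) (nat_lit 4) (nat_lit 396) (nat_lit 236) (nat_lit 148))))))) (XT.nd (nat_lit 34008) (nat_lit 0) (nat_lit 2584) (XT.nd (nat_lit 33540) (nat_lit 0) (nat_lit 4180)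 (XT.nd (nat_lit 156) (nat_lit 76) (nat_lit 0) (XT.nd (nat_lit 78) (nat_lit 0) (nat_lit 0) (XT.lf (nat_lit 0) (nat_lit 5571274461) (nat_lit 152) (nat_lit 9330937444) (nat_lit 76) (nat_lit 69685004748) (nat_lit 3) (nat_lit 5) (nat_lit 5) (nat_lit 5) (nat_lit 4) (nat_lit 4) (nat_lit 397) (nat_lit 236) (nat_lit 147)) (XT.lf (nat_lit 0) (nat_lit 7800737135) (nat_lit 152) (nat_lit 4851789628) (nat_lit 76) (nat_lit 74388512241) (nat_lit 3) (nat_lit 5) (nat_lit 5) (nat_lit 5) (nat_lit 4) (nat_lit 4) (nat_lit 398) (nat_lit 236) (nat_lit 146))) (XT.nd (nat_lit 78) (nat_lit 76) (nat_lit 0) (XT.lf (nat_lit 0) (nat_lit 10087248007) (nat_lit 152) (nat_lit 255474900) (nat_lit 76) (nat_lit 79226057202) (nat_lit 3) (nat_lit 5) (nat_lit 5) (nat_lit 5) (nat_lit 4) (nat_lit 4) (nat_lit 399) (nat_lit 236) (nat_lit 145)) (XT.nd (nat_lit 156) (nat_lit 0) (nat_lit 0) (XT.lf (nat_lit 0) (nat_lit 4550825941) (nat_lit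 76) (nat_lit 7925724379) (nat_lit 152) (nat_lit 79694785992) (nat_lit 2) (nat_lit 5) (nat_lit 3) (nat_lit 5) (nat_lit 4) (nat_lit 4) (nat_lit 400) (nat_lit 236) (nat_lit 144)) (XT.lf (nat_lit 0) (nat_lit 14561309361) (nat_lit 76) (nat_lit 2887971641) (nat_lit 152) (nat_lit 80164457415) (nat_lit 2) (nat_lit 5) (nat_lit 3) (nat_lit 5) (nat_lit 4) (nat_lit 4) (nat_lit 402) (nat_lit 236) (nat_lit 142))))) (XT.nd (nat_lit 234) (nat_lit 304) (nat_lit 0) (XT.nd (nat_lit 78) (nat_lit 684) (nat_lit 0) (XT.lf (nat_lit 0) (nat_lit 4637229096) (nat_lit 380) (nat_lit 6085227) (nat_lit 380) (nat_lit 6085227) (nat_lit 70) (nat_lit 4) (nat_lit 75) (nat_lit 5) (nat_lit 75) (nat_lit 4) (nat_lit 306) (nat_lit 237) (nat_lit 237)) (XT.nd (nat_lit 78) (nat_lit 304) (nat_lit 0) (XT.lf (nat_lit 0) (nat_lit 3245163757) (nat_lit 380) (nat_lit 3875336148) (nat_lit 0) (nat_lit 2321492190) (nat_lit 65) (nat_lit 5) (nat_lit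 70) (nat_lit 4) (nat_lit 65) (nat_lit 4) (nat_lit 307) (nat_lit 237) (nat_lit 236)) (XT.lf (nat_lit 0) (nat_lit 1657841728) (nat_lit 304) (nat_lit 4877105078) (nat_lit 304) (nat_lit 3056664999) (nat_lit 61) (nat_lit 4) (nat_lit 65) (nat_lit 5) (nat_lit 65) (nat_lit 4) (nat_lit 308) (nat_lit 237) (nat_lit 235)))) (XT.nd (nat_lit 78) (nat_lit 228) (nat_lit 0) (XT.lf (nat_lit 0) (nat_lit 132773168) (nat_lit 380) (nat_lit 2421559587) (nat_lit 76) (nat_lit 7192753179) (nat_lit 60) (nat_lit 5) (nat_lit 65) (nat_lit 5) (nat_lit 61) (nat_lit 4) (nat_lit 309) (nat_lit 237) (nat_lit 234)) (XT.nd (nat_lit 78) (nat_lit 0) (nat_lit 0) (XT.lf (nat_lit 0) (nat_lit 3179670560) (nat_lit 228) (nat_lit 128728459) (nat_lit 304) (nat_lit 6599527285) (nat_lit 57) (nat_lit 5) (nat_lit 60) (nat_lit 5) (nat_lit 61) (nat_lit 4) (nat_lit 310) (nat_lit 237) (nat_lit 233)) (XT.lf (nat_lit 0) (nat_lit 6549118033) (nat_lit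 304) (nat_lit 1206569658) (nat_lit 0) (nat_lit 2318972718) (nat_lit 57) (nat_lit 5) (nat_lit 61) (nat_lit 4) (nat_lit 57) (nat_lit 4) (nat_lit 311) (nat_lit 237) (nat_lit 232)))))) (XT.nd (nat_lit 468) (nat_lit 456) (nat_lit 0) (XT.nd (nat_lit 234) (nat_lit 532) (nat_lit 0) (XT.nd (nat_lit 78) (nat_lit 304) (nat_lit 0) (XT.lf (nat_lit 0) (nat_lit 4460446413) (nat_lit 304) (nat_lit 5395375715) (nat_lit 304) (nat_lit 391670005) (nat_lit 53) (nat_lit 4) (nat_lit 57) (nat_lit 5) (nat_lit 57) (nat_lit 4) (nat_lit 312) (nat_lit 237) (nat_lit 231)) (XT.nd (nat_lit 78) (nat_lit 228) (nat_lit 0) (XT.lf (nat_lit 0) (nat_lit 2718091197) (nat_lit 380) (nat_lit 237010090) (nat_lit 76) (nat_lit 7471622494) (nat_lit 52) (nat_lit 5) (nat_lit 57) (nat_lit 5) (nat_lit 53) (nat_lit 4) (nat_lit 313) (nat_lit 237) (nat_lit 230)) (XT.lf (nat_lit 0) (nat_lit 5478981642) (nat_lit 228) (nat_lit 414058617) (nat_lit 304)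 (nat_lit 4718927815) (nat_lit 49) (nat_lit 5) (nat_lit 52) (nat_lit 5) (nat_lit 53) (nat_lit 4) (nat_lit 314) (nat_lit 237) (nat_lit 229)))) (XT.nd (nat_lit 78) (nat_lit 304) (nat_lit 0) (XT.lf (nat_lit 0) (nat_lit 451661078) (nat_lit 228) (nat_lit 8667455201) (nat_lit 228) (nat_lit 1685117890) (nat_lit 46) (nat_lit 4) (nat_lit 49) (nat_lit 5) (nat_lit 49) (nat_lit 4) (nat_lit 315) (nat_lit 237) (nat_lit 228)) (XT.nd (nat_lit 78) (nat_lit 228) (nat_lit 0) (XT.lf (nat_lit 0) (nat_lit 1396266458) (nat_lit 304) (nat_lit 4815196392) (nat_lit 76) (nat_lit 4790983337) (nat_lit 45) (nat_lit 5) (nat_lit 49) (nat_lit 5) (nat_lit 46) (nat_lit 4) (nat_lit 316) (nat_lit 237) (nat_lit 227)) (XT.lf (nat_lit 0) (nat_lit 784894343) (nat_lit 228) (nat_lit 3689172799) (nat_lit 304) (nat_lit 6734030449) (nat_lit 42) (nat_lit 5) (nat_lit 45) (nat_lit 5) (nat_lit 46) (nat_lit 4) (nat_lit 317) (nat_lit 237) (nat_lit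 226))))) (XT.nd (nat_lit 234) (nat_lit 152) (nat_lit 0) (XT.nd (nat_lit 78) (nat_lit 304) (nat_lit 0) (XT.lf (nat_lit 0) (nat_lit 6550655945) (nat_lit 228) (nat_lit 1073527943) (nat_lit 304) (nat_lit 3796460310) (nat_lit 42) (nat_lit 5) (nat_lit 45) (nat_lit 5) (nat_lit 46) (nat_lit 4) (nat_lit 318) (nat_lit 237) (nat_lit 225)) (XT.nd (nat_lit 78) (nat_lit 76) (nat_lit 0) (XT.lf (nat_lit 0) (nat_lit 748945548) (nat_lit 228) (nat_lit 10075690910) (nat_lit 228) (nat_lit 816377252) (nat_lit 39) (nat_lit 4) (nat_lit 42) (nat_lit 5) (nat_lit 42) (nat_lit 4) (nat_lit 319) (nat_lit 237) (nat_lit 224)) (XT.lf (nat_lit 0) (nat_lit 2202720464) (nat_lit 304) (nat_lit 5363392698) (nat_lit 76) (nat_lit 4301538549) (nat_lit 38) (nat_lit 5) (nat_lit 42) (nat_lit 5) (nat_lit 39) (nat_lit 4) (nat_lit 320) (nat_lit 237) (nat_lit 223)))) (XT.nd (nat_lit 78) (nat_lit 0) (nat_lit 0) (XT.lf (nat_lit 0) (nat_lit 230096793)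 (nat_lit 152) (nat_lit 5003326124) (nat_lit 228) (nat_lit 6869411411) (nat_lit 36) (nat_lit 5) (nat_lit 38) (nat_lit 5) (nat_lit 39) (nat_lit 4) (nat_lit 321) (nat_lit 237) (nat_lit 222)) (XT.nd (nat_lit 78) (nat_lit 0) (nat_lit 0) (XT.lf (nat_lit 0) (nat_lit 6004837377) (nat_lit 152) (nat_lit 2340556122) (nat_lit 228) (nat_lit 4000076444) (nat_lit 36) (nat_lit 5) (nat_lit 38) (nat_lit 5) (nat_lit 39) (nat_lit 4) (nat_lit 322) (nat_lit 237) (nat_lit 221)) (XT.lf (nat_lit 0) (nat_lit 11492329290) (nat_lit 228) (nat_lit 741775289) (nat_lit 0) (nat_lit 363136652) (nat_lit 36) (nat_lit 5) (nat_lit 39) (nat_lit 4) (nat_lit 36) (nat_lit 4) (nat_lit 323) (nat_lit 237) (nat_lit 220))))))))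
noncomputable def xc52 : XT := (XT.nd (nat_lit 1716) (nat_lit 684) (nat_lit 0) (XT.nd (nat_lit 858) (nat_lit 456) (nat_lit 0) (XT.nd (nat_lit 390) (nat_lit 380) (nat_lit 0) (XT.nd (nat_lit 156) (nat_lit 380) (nat_lit 0) (XT.nd (nat_lit 78) (nat_lit 0) (nat_lit 0) (XT.lf (nat_lit 0) (nat_lit 1851344654) (nat_lit 304) (nat_lit 7867481971) (nat_lit 76) (nat_lit 3136970499) (nat_lit 32) (nat_lit 5) (nat_lit 36) (nat_lit 5) (nat_lit 33) (nat_lit 4) (nat_lit 324) (nat_lit 237) (nat_lit 219)) (XT.lf (nat_lit 0) (nat_lit 4821393055) (nat_lit 304) (nat_lit 2320340981) (nat_lit 76) (nat_lit 5981724009) (nat_lit 32) (nat_lit 5) (nat_lit 36) (nat_lit 5) (nat_lit 33) (nat_lit 4) (nat_lit 325) (nat_lit 237) (nat_lit 218))) (XT.nd (nat_lit 78) (nat_lit 228) (nat_lit 0) (XT.lf (nat_lit 0) (nat_lit 3368701097) (nat_lit 152) (nat_lit 4485725869) (nat_lit 228) (nat_lit 5545598408) (nat_lit 30) (nat_lit 5) (nat_lit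 32) (nat_lit 5) (nat_lit 33) (nat_lit 4) (nat_lit 326) (nat_lit 237) (nat_lit 217)) (XT.nd (nat_lit 78) (nat_lit 228) (nat_lit 0) (XT.lf (nat_lit 0) (nat_lit 9186615311) (nat_lit 152) (nat_lit 1757614324) (nat_lit 228) (nat_lit 2741777146) (nat_lit 30) (nat_lit 5) (nat_lit 32) (nat_lit 5) (nat_lit 33) (nat_lit 4) (nat_lit 327) (nat_lit 237) (nat_lit 216)) (XT.lf (nat_lit 0) (nat_lit 107502104) (nat_lit 228) (nat_lit 12860723674) (nat_lit 76) (nat_lit 1013459042) (nat_lit 27) (nat_lit 5) (nat_lit 30) (nat_lit 5) (nat_lit 28) (nat_lit 4) (nat_lit 328) (nat_lit 237) (nat_lit 215))))) (XT.nd (nat_lit 234) (nat_lit 228) (nat_lit 0) (XT.nd (nat_lit 78) (nat_lit 152) (nat_lit 0) (XT.lf (nat_lit 0) (nat_lit 2994336200) (nat_lit 228) (nat_lit 7416277289) (nat_lit 76) (nat_lit 3874672538) (nat_lit 27) (nat_lit 5) (nat_lit 30) (nat_lit 5) (nat_lit 28) (nat_lit 4) (nat_lit 329) (nat_lit 237) (nat_lit 214))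 (XT.nd (nat_lit 78) (nat_lit 152) (nat_lit 0) (XT.lf (nat_lit 0) (nat_lit 5913305872) (nat_lit 228) (nat_lit 1894484225) (nat_lit 76) (nat_lit 6791919568) (nat_lit 27) (nat_lit 5) (nat_lit 30) (nat_lit 5) (nat_lit 28) (nat_lit 4) (nat_lit 330) (nat_lit 237) (nat_lit 213)) (XT.lf (nat_lit 0) (nat_lit 3783306318) (nat_lit 152) (nat_lit 5120022811) (nat_lit 228) (nat_lit 6020810319) (nat_lit 25) (nat_lit 5) (nat_lit 27) (nat_lit 5) (nat_lit 28) (nat_lit 4) (nat_lit 331) (nat_lit 237) (nat_lit 212)))) (XT.nd (nat_lit 78) (nat_lit 228) (nat_lit 0) (XT.lf (nat_lit 0) (nat_lit 9587601856) (nat_lit 152) (nat_lit 2362444512) (nat_lit 228) (nat_lit 3309321660) (nat_lit 25) (nat_lit 5) (nat_lit 27) (nat_lit 5) (nat_lit 28) (nat_lit 4) (nat_lit 332) (nat_lit 237) (nat_lit 211)) (XT.nd (nat_lit 78) (nat_lit 228) (nat_lit 0) (XT.lf (nat_lit 0) (nat_lit 15041854993) (nat_lit 228) (nat_lit 124783972) (nat_lit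 0) (nat_lit 439477298) (nat_lit 25) (nat_lit 5) (nat_lit 28) (nat_lit 4) (nat_lit 25) (nat_lit 4) (nat_lit 333) (nat_lit 237) (nat_lit 210)) (XT.lf (nat_lit 0) (nat_lit 2246947681) (nat_lit 228) (nat_lit 10389322324) (nat_lit 76) (nat_lit 3325574805) (nat_lit 22) (nat_lit 5) (nat_lit 25) (nat_lit 5) (nat_lit 23) (nat_lit 4) (nat_lit 334) (nat_lit 237) (nat_lit 209)))))) (XT.nd (nat_lit 390) (nat_lit 152) (nat_lit 0) (XT.nd (nat_lit 156) (nat_lit 152) (nat_lit 0) (XT.nd (nat_lit 78) (nat_lit 152) (nat_lit 0) (XT.lf (nat_lit 0) (nat_lit 5083138622) (nat_lit 228) (nat_lit 4969959980) (nat_lit 76) (nat_lit 6276486664) (nat_lit 22) (nat_lit 5) (nat_lit 25) (nat_lit 5) (nat_lit 23) (nat_lit 4) (nat_lit 335) (nat_lit 237) (nat_lit 208)) (XT.lf (nat_lit 0) (nat_lit 545482476) (nat_lit 152) (nat_lit 7416326095) (nat_lit 228) (nat_lit 8747892866) (nat_lit 20) (nat_lit 5) (nat_lit 22) (nat_lit 5) (nat_lit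 23) (nat_lit 4) (nat_lit 336) (nat_lit 237) (nat_lit 207))) (XT.nd (nat_lit 78) (nat_lit 152) (nat_lit 0) (XT.lf (nat_lit 0) (nat_lit 6251878755) (nat_lit 152) (nat_lit 4677955885) (nat_lit 228) (nat_lit 6171359971) (nat_lit 20) (nat_lit 5) (nat_lit 22) (nat_lit 5) (nat_lit 23) (nat_lit 4) (nat_lit 337) (nat_lit 237) (nat_lit 206)) (XT.nd (nat_lit 78) (nat_lit 152) (nat_lit 0) (XT.lf (nat_lit 0) (nat_lit 12055303077) (nat_lit 152) (nat_lit 1885782073) (nat_lit 228) (nat_lit 3564783471) (nat_lit 20) (nat_lit 5) (nat_lit 22) (nat_lit 5) (nat_lit 23) (nat_lit 4) (nat_lit 338) (nat_lit 237) (nat_lit 205)) (XT.lf (nat_lit 0) (nat_lit 28043112) (nat_lit 152) (nat_lit 16979671186) (nat_lit 152) (nat_lit 916077080) (nat_lit 18) (nat_lit 4) (nat_lit 20) (nat_lit 5) (nat_lit 20) (nat_lit 4) (nat_lit 339) (nat_lit 237) (nat_lit 204))))) (XT.nd (nat_lit 234) (nat_lit 76) (nat_lit 0) (XT.nd (nat_lit 78)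 (nat_lit 0) (nat_lit 0) (XT.lf (nat_lit 0) (nat_lit 1806353010) (nat_lit 228) (nat_lit 12679855333) (nat_lit 76) (nat_lit 3866688547) (nat_lit 17) (nat_lit 5) (nat_lit 20) (nat_lit 5) (nat_lit 18) (nat_lit 4) (nat_lit 340) (nat_lit 237) (nat_lit 203)) (XT.nd (nat_lit 78) (nat_lit 0) (nat_lit 0) (XT.lf (nat_lit 0) (nat_lit 4548710591) (nat_lit 228) (nat_lit 7387779965) (nat_lit 76) (nat_lit 6859467592) (nat_lit 17) (nat_lit 5) (nat_lit 20) (nat_lit 5) (nat_lit 18) (nat_lit 4) (nat_lit 341) (nat_lit 237) (nat_lit 202)) (XT.lf (nat_lit 0) (nat_lit 7331267860) (nat_lit 228) (nat_lit 2006092128) (nat_lit 76) (nat_lit 9916266482) (nat_lit 17) (nat_lit 5) (nat_lit 20) (nat_lit 5) (nat_lit 18) (nat_lit 4) (nat_lit 342) (nat_lit 237) (nat_lit 201)))) (XT.nd (nat_lit 78) (nat_lit 0) (nat_lit 0) (XT.lf (nat_lit 0) (nat_lit 3538968650) (nat_lit 76) (nat_lit 6651506260) (nat_lit 152) (nat_lit 9534806288)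 (nat_lit 16) (nat_lit 5) (nat_lit 17) (nat_lit 5) (nat_lit 18) (nat_lit 4) (nat_lit 343) (nat_lit 237) (nat_lit 200)) (XT.nd (nat_lit 78) (nat_lit 0) (nat_lit 0) (XT.lf (nat_lit 0) (nat_lit 9225026648) (nat_lit 76) (nat_lit 3890394109) (nat_lit 152) (nat_lit 7096315980) (nat_lit 16) (nat_lit 5) (nat_lit 17) (nat_lit 5) (nat_lit 18) (nat_lit 4) (nat_lit 344) (nat_lit 237) (nat_lit 199)) (XT.lf (nat_lit 0) (nat_lit 15017125099) (nat_lit 76) (nat_lit 1071868510) (nat_lit 152) (nat_lit 4625014565) (nat_lit 16) (nat_lit 5) (nat_lit 17) (nat_lit 5) (nat_lit 18) (nat_lit 4) (nat_lit 345) (nat_lit 237) (nat_lit 198))))))) (XT.nd (nat_lit 858) (nat_lit 228) (nat_lit 0) (XT.nd (nat_lit 390) (nat_lit 228) (nat_lit 0) (XT.nd (nat_lit 156) (nat_lit 0) (nat_lit 0) (XT.nd (nat_lit 78) (nat_lit 228) (nat_lit 0) (XT.lf (nat_lit 0) (nat_lit 19131157237) (nat_lit 152) (nat_lit 329574828) (nat_lit 0) (nat_lit 1771281354)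 (nat_lit 16) (nat_lit 5) (nat_lit 18) (nat_lit 4) (nat_lit 16) (nat_lit 4) (nat_lit 346) (nat_lit 237) (nat_lit 197)) (XT.lf (nat_lit 0) (nat_lit 513244767) (nat_lit 228) (nat_lit 16541516416) (nat_lit 76) (nat_lit 4709979528) (nat_lit 13) (nat_lit 5) (nat_lit 16) (nat_lit 5) (nat_lit 14) (nat_lit 4) (nat_lit 347) (nat_lit 237) (nat_lit 196))) (XT.nd (nat_lit 78) (nat_lit 0) (nat_lit 0) (XT.lf (nat_lit 0) (nat_lit 3129885475) (nat_lit 228) (nat_lit 11446752684) (nat_lit 76) (nat_lit 7737240561) (nat_lit 13) (nat_lit 5) (nat_lit 16) (nat_lit 5) (nat_lit 14) (nat_lit 4) (nat_lit 348) (nat_lit 237) (nat_lit 195)) (XT.nd (nat_lit 78) (nat_lit 0) (nat_lit 0) (XT.lf (nat_lit 0) (nat_lit 5789084479) (nat_lit 228) (nat_lit 6259274730) (nat_lit 76) (nat_lit 10832251802) (nat_lit 13) (nat_lit 5) (nat_lit 16) (nat_lit 5) (nat_lit 14) (nat_lit 4) (nat_lit 349) (nat_lit 237) (nat_lit 194)) (XT.lf (nat_lit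 0) (nat_lit 8493165351) (nat_lit 228) (nat_lit 974549806) (nat_lit 76) (nat_lit 13997717629) (nat_lit 13) (nat_lit 5) (nat_lit 16) (nat_lit 5) (nat_lit 14) (nat_lit 4) (nat_lit 350) (nat_lit 237) (nat_lit 193))))) (XT.nd (nat_lit 234) (nat_lit 152) (nat_lit 0) (XT.nd (nat_lit 78) (nat_lit 0) (nat_lit 0) (XT.lf (nat_lit 0) (nat_lit 4499848050) (nat_lit 76) (nat_lit 6787898122) (nat_lit 152) (nat_lit 12779811225) (nat_lit 12) (nat_lit 5) (nat_lit 13) (nat_lit 5) (nat_lit 14) (nat_lit 4) (nat_lit 351) (nat_lit 237) (nat_lit 192)) (XT.nd (nat_lit 78) (nat_lit 0) (nat_lit 0) (XT.lf (nat_lit 0) (nat_lit 10102333758) (nat_lit 76) (nat_lit 4040241190) (nat_lit 152) (nat_lit 10545916837) (nat_lit 12) (nat_lit 5) (nat_lit 13) (nat_lit 5) (nat_lit 14) (nat_lit 4) (nat_lit 352) (nat_lit 237) (nat_lit 191)) (XT.lf (nat_lit 0) (nat_lit 15818407241) (nat_lit 76) (nat_lit 1232184540) (nat_lit 152) (nat_lit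 8278473369) (nat_lit 12) (nat_lit 5) (nat_lit 13) (nat_lit 5) (nat_lit 14) (nat_lit 4) (nat_lit 353) (nat_lit 237) (nat_lit 190)))) (XT.nd (nat_lit 78) (nat_lit 152) (nat_lit 0) (XT.lf (nat_lit 0) (nat_lit 20030090089) (nat_lit 152) (nat_lit 4352526521) (nat_lit 0) (nat_lit 1606748033) (nat_lit 12) (nat_lit 5) (nat_lit 14) (nat_lit 4) (nat_lit 12) (nat_lit 4) (nat_lit 354) (nat_lit 237) (nat_lit 189)) (XT.nd (nat_lit 78) (nat_lit 0) (nat_lit 0) (XT.lf (nat_lit 0) (nat_lit 913869514) (nat_lit 152) (nat_lit 22175295088) (nat_lit 152) (nat_lit 3580637883) (nat_lit 10) (nat_lit 4) (nat_lit 12) (nat_lit 5) (nat_lit 12) (nat_lit 4) (nat_lit 355) (nat_lit 237) (nat_lit 188)) (XT.lf (nat_lit 0) (nat_lit 6375878530) (nat_lit 152) (nat_lit 19877692407) (nat_lit 152) (nat_lit 1116709816) (nat_lit 10) (nat_lit 4) (nat_lit 12) (nat_lit 5) (nat_lit 12) (nat_lit 4) (nat_lit 356) (nat_lit 237) (nat_lit 187))))))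 (XT.nd (nat_lit 468) (nat_lit 76) (nat_lit 0) (XT.nd (nat_lit 234) (nat_lit 76) (nat_lit 0) (XT.nd (nat_lit 78) (nat_lit 0) (nat_lit 0) (XT.lf (nat_lit 0) (nat_lit 1363572836) (nat_lit 228) (nat_lit 16154410691) (nat_lit 76) (nat_lit 10574307094) (nat_lit 9) (nat_lit 5) (nat_lit 12) (nat_lit 5) (nat_lit 10) (nat_lit 4) (nat_lit 357) (nat_lit 237) (nat_lit 186)) (XT.nd (nat_lit 78) (nat_lit 0) (nat_lit 0) (XT.lf (nat_lit 0) (nat_lit 3866856321) (nat_lit 228) (nat_lit 11229522846) (nat_lit 76) (nat_lit 13740149996) (nat_lit 9) (nat_lit 5) (nat_lit 12) (nat_lit 5) (nat_lit 10) (nat_lit 4) (nat_lit 358) (nat_lit 237) (nat_lit 185)) (XT.lf (nat_lit 0) (nat_lit 6417119003) (nat_lit 228) (nat_lit 6204700891) (nat_lit 76) (nat_lit 16982148826) (nat_lit 9) (nat_lit 5) (nat_lit 12) (nat_lit 5) (nat_lit 10) (nat_lit 4) (nat_lit 359) (nat_lit 237) (nat_lit 184)))) (XT.nd (nat_lit 78) (nat_lit 76) (nat_lit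 0) (XT.lf (nat_lit 0) (nat_lit 9016589268) (nat_lit 228) (nat_lit 1075554205) (nat_lit 76) (nat_lit 20303136398) (nat_lit 9) (nat_lit 5) (nat_lit 12) (nat_lit 5) (nat_lit 10) (nat_lit 4) (nat_lit 360) (nat_lit 237) (nat_lit 183)) (XT.nd (nat_lit 78) (nat_lit 0) (nat_lit 0) (XT.lf (nat_lit 0) (nat_lit 4245238892) (nat_lit 76) (nat_lit 7463107439) (nat_lit 152) (nat_lit 19501583485) (nat_lit 8) (nat_lit 5) (nat_lit 9) (nat_lit 5) (nat_lit 10) (nat_lit 4) (nat_lit 361) (nat_lit 237) (nat_lit 182)) (XT.lf (nat_lit 0) (nat_lit 9703077541) (nat_lit 76) (nat_lit 4762477431) (nat_lit 152) (nat_lit 17583951031) (nat_lit 8) (nat_lit 5) (nat_lit 9) (nat_lit 5) (nat_lit 10) (nat_lit 4) (nat_lit 362) (nat_lit 237) (nat_lit 181))))) (XT.nd (nat_lit 234) (nat_lit 76) (nat_lit 0) (XT.nd (nat_lit 78) (nat_lit 0) (nat_lit 0) (XT.lf (nat_lit 0) (nat_lit 15281325090) (nat_lit 76) (nat_lit 1998754665) (nat_lit 152)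 (nat_lit 15634978628) (nat_lit 8) (nat_lit 5) (nat_lit 9) (nat_lit 5) (nat_lit 10) (nat_lit 4) (nat_lit 363) (nat_lit 237) (nat_lit 180)) (XT.nd (nat_lit 78) (nat_lit 0) (nat_lit 0) (XT.lf (nat_lit 0) (nat_lit 20162363013) (nat_lit 152) (nat_lit 12830470570) (nat_lit 0) (nat_lit 814270187) (nat_lit 8) (nat_lit 5) (nat_lit 10) (nat_lit 4) (nat_lit 8) (nat_lit 4) (nat_lit 364) (nat_lit 237) (nat_lit 179)) (XT.lf (nat_lit 0) (nat_lit 23126799946) (nat_lit 152) (nat_lit 7944319966) (nat_lit 0) (nat_lit 3654945412) (nat_lit 8) (nat_lit 5) (nat_lit 10) (nat_lit 4) (nat_lit 8) (nat_lit 4) (nat_lit 365) (nat_lit 237) (nat_lit 178)))) (XT.nd (nat_lit 78) (nat_lit 76) (nat_lit 0) (XT.lf (nat_lit 0) (nat_lit 26156767586) (nat_lit 152) (nat_lit 2951798776) (nat_lit 0) (nat_lit 6564756053) (nat_lit 8) (nat_lit 5) (nat_lit 10) (nat_lit 4) (nat_lit 8) (nat_lit 4) (nat_lit 366) (nat_lit 237) (nat_lit 177))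 (XT.nd (nat_lit 78) (nat_lit 0) (nat_lit 0) (XT.lf (nat_lit 0) (nat_lit 2194273577) (nat_lit 76) (nat_lit 27081732600) (nat_lit 76) (nat_lit 7373063787) (nat_lit 7) (nat_lit 4) (nat_lit 8) (nat_lit 5) (nat_lit 8) (nat_lit 4) (nat_lit 367) (nat_lit 237) (nat_lit 176)) (XT.lf (nat_lit 0) (nat_lit 7516577201) (nat_lit 76) (nat_lit 24979621475) (nat_lit 76) (nat_lit 5157693167) (nat_lit 7) (nat_lit 4) (nat_lit 8) (nat_lit 5) (nat_lit 8) (nat_lit 4) (nat_lit 368) (nat_lit 237) (nat_lit 175))))))))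
noncomputable def xc53 : XT := (XT.nd (nat_lit 1716) (nat_lit 152) (nat_lit 0) (XT.nd (nat_lit 858) (nat_lit 76) (nat_lit 0) (XT.nd (nat_lit 390) (nat_lit 76) (nat_lit 0) (XT.nd (nat_lit 156) (nat_lit 76) (nat_lit 0) (XT.nd (nat_lit 78) (nat_lit 0) (nat_lit 0) (XT.lf (nat_lit 0) (nat_lit 12961016067) (nat_lit 76) (nat_lit 22830203572) (nat_lit 76) (nat_lit 2898314590) (nat_lit 7) (nat_lit 4) (nat_lit 8) (nat_lit 5) (nat_lit 8) (nat_lit 4) (nat_lit 369) (nat_lit 237) (nat_lit 174)) (XT.lf (nat_lit 0) (nat_lit 18532347453) (nat_lit 76) (nat_lit 20631600759) (nat_lit 76) (nat_lit 592953840) (nat_lit 7) (nat_lit 4) (nat_lit 8) (nat_lit 5) (nat_lit 8) (nat_lit 4) (nat_lit 370) (nat_lit 237) (nat_lit 173))) (XT.nd (nat_lit 78) (nat_lit 0) (nat_lit 0) (XT.lf (nat_lit 0) (nat_lit 1726051662) (nat_lit 152) (nat_lit 16638410525) (nat_lit 76) (nat_lit 22491958112) (nat_lit 6) (nat_lit 5) (nat_lit 8) (nat_lit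 5) (nat_lit 7) (nat_lit 4) (nat_lit 371) (nat_lit 237) (nat_lit 172)) (XT.nd (nat_lit 78) (nat_lit 0) (nat_lit 0) (XT.lf (nat_lit 0) (nat_lit 4082562685) (nat_lit 152) (nat_lit 11955322744) (nat_lit 76) (nat_lit 25951486965) (nat_lit 6) (nat_lit 5) (nat_lit 8) (nat_lit 5) (nat_lit 7) (nat_lit 4) (nat_lit 372) (nat_lit 237) (nat_lit 171)) (XT.lf (nat_lit 0) (nat_lit 6490208979) (nat_lit 152) (nat_lit 7165499402) (nat_lit 76) (nat_lit 29501210908) (nat_lit 6) (nat_lit 5) (nat_lit 8) (nat_lit 5) (nat_lit 7) (nat_lit 4) (nat_lit 373) (nat_lit 237) (nat_lit 170))))) (XT.nd (nat_lit 234) (nat_lit 0) (nat_lit 0) (XT.nd (nat_lit 78) (nat_lit 76) (nat_lit 0) (XT.lf (nat_lit 0) (nat_lit 8951094314) (nat_lit 152) (nat_lit 2264755217) (nat_lit 76) (nat_lit 33144231639) (nat_lit 6) (nat_lit 5) (nat_lit 8) (nat_lit 5) (nat_lit 7) (nat_lit 4) (nat_lit 374) (nat_lit 237) (nat_lit 169)) (XT.nd (nat_lit 78) (nat_lit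 0) (nat_lit 0) (XT.lf (nat_lit 0) (nat_lit 2805946131) (nat_lit 76) (nat_lit 8688395317) (nat_lit 152) (nat_lit 34104758721) (nat_lit 5) (nat_lit 5) (nat_lit 6) (nat_lit 5) (nat_lit 7) (nat_lit 4) (nat_lit 375) (nat_lit 237) (nat_lit 168)) (XT.lf (nat_lit 0) (nat_lit 8043686457) (nat_lit 76) (nat_lit 6074866034) (nat_lit 152) (nat_lit 32756615039) (nat_lit 5) (nat_lit 5) (nat_lit 6) (nat_lit 5) (nat_lit 7) (nat_lit 4) (nat_lit 376) (nat_lit 237) (nat_lit 167)))) (XT.nd (nat_lit 78) (nat_lit 0) (nat_lit 0) (XT.lf (nat_lit 0) (nat_lit 13407969357) (nat_lit 76) (nat_lit 3395847602) (nat_lit 152) (nat_lit 31386247406) (nat_lit 5) (nat_lit 5) (nat_lit 6) (nat_lit 5) (nat_lit 7) (nat_lit 4) (nat_lit 377) (nat_lit 237) (nat_lit 166)) (XT.nd (nat_lit 78) (nat_lit 0) (nat_lit 0) (XT.lf (nat_lit 0) (nat_lit 18903482070) (nat_lit 76) (nat_lit 648999133) (nat_lit 152) (nat_lit 29992458414) (nat_lit 5) (nat_lit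 5) (nat_lit 6) (nat_lit 5) (nat_lit 7) (nat_lit 4) (nat_lit 378) (nat_lit 237) (nat_lit 165)) (XT.lf (nat_lit 0) (nat_lit 22387787872) (nat_lit 152) (nat_lit 26426791564) (nat_lit 0) (nat_lit 2125772491) (nat_lit 5) (nat_lit 5) (nat_lit 7) (nat_lit 4) (nat_lit 5) (nat_lit 4) (nat_lit 379) (nat_lit 237) (nat_lit 164)))))) (XT.nd (nat_lit 390) (nat_lit 76) (nat_lit 0) (XT.nd (nat_lit 156) (nat_lit 0) (nat_lit 0) (XT.nd (nat_lit 78) (nat_lit 0) (nat_lit 0) (XT.lf (nat_lit 0) (nat_lit 25298292636) (nat_lit 152) (nat_lit 22120492557) (nat_lit 0) (nat_lit 4959153050) (nat_lit 5) (nat_lit 5) (nat_lit 7) (nat_lit 4) (nat_lit 5) (nat_lit 4) (nat_lit 380) (nat_lit 237) (nat_lit 163)) (XT.lf (nat_lit 0) (nat_lit 28280300078) (nat_lit 152) (nat_lit 17712559163) (nat_lit 0) (nat_lit 7866282623) (nat_lit 5) (nat_lit 5) (nat_lit 7) (nat_lit 4) (nat_lit 5) (nat_lit 4) (nat_lit 381) (nat_lit 237) (nat_lit 162)))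 (XT.nd (nat_lit 78) (nat_lit 0) (nat_lit 0) (XT.lf (nat_lit 0) (nat_lit 31336415836) (nat_lit 152) (nat_lit 13199139790) (nat_lit 0) (nat_lit 10849701421) (nat_lit 5) (nat_lit 5) (nat_lit 7) (nat_lit 4) (nat_lit 5) (nat_lit 4) (nat_lit 382) (nat_lit 237) (nat_lit 161)) (XT.nd (nat_lit 78) (nat_lit 0) (nat_lit 0) (XT.lf (nat_lit 0) (nat_lit 34469310301) (nat_lit 152) (nat_lit 8576290674) (nat_lit 0) (nat_lit 13912016313) (nat_lit 5) (nat_lit 5) (nat_lit 7) (nat_lit 4) (nat_lit 5) (nat_lit 4) (nat_lit 383) (nat_lit 237) (nat_lit 160)) (XT.lf (nat_lit 0) (nat_lit 37681720955) (nat_lit 152) (nat_lit 3839972433) (nat_lit 0) (nat_lit 17055903110) (nat_lit 5) (nat_lit 5) (nat_lit 7) (nat_lit 4) (nat_lit 5) (nat_lit 4) (nat_lit 384) (nat_lit 237) (nat_lit 159))))) (XT.nd (nat_lit 234) (nat_lit 0) (nat_lit 0) (XT.nd (nat_lit 78) (nat_lit 0) (nat_lit 0) (XT.lf (nat_lit 0) (nat_lit 1034133126) (nat_lit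 76) (nat_lit 39952262352) (nat_lit 76) (nat_lit 19259916490) (nat_lit 4) (nat_lit 4) (nat_lit 5) (nat_lit 5) (nat_lit 5) (nat_lit 4) (nat_lit 385) (nat_lit 237) (nat_lit 158)) (XT.nd (nat_lit 78) (nat_lit 0) (nat_lit 0) (XT.lf (nat_lit 0) (nat_lit 6108935650) (nat_lit 76) (nat_lit 38306177780) (nat_lit 76) (nat_lit 17549241611) (nat_lit 4) (nat_lit 4) (nat_lit 5) (nat_lit 5) (nat_lit 5) (nat_lit 4) (nat_lit 386) (nat_lit 237) (nat_lit 157)) (XT.lf (nat_lit 0) (nat_lit 11312446452) (nat_lit 76) (nat_lit 36620777539) (nat_lit 76) (nat_lit 15801132333) (nat_lit 4) (nat_lit 4) (nat_lit 5) (nat_lit 5) (nat_lit 5) (nat_lit 4) (nat_lit 387) (nat_lit 237) (nat_lit 156)))) (XT.nd (nat_lit 78) (nat_lit 0) (nat_lit 0) (XT.lf (nat_lit 0) (nat_lit 16649212288) (nat_lit 76) (nat_lit 34894588948) (nat_lit 76) (nat_lit 14014061182) (nat_lit 4) (nat_lit 4) (nat_lit 5) (nat_lit 5) (nat_lit 5) (nat_lit 4) (nat_lit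 388) (nat_lit 237) (nat_lit 155)) (XT.nd (nat_lit 78) (nat_lit 0) (nat_lit 0) (XT.lf (nat_lit 0) (nat_lit 22123896351) (nat_lit 76) (nat_lit 33126103687) (nat_lit 76) (nat_lit 12186466641) (nat_lit 4) (nat_lit 4) (nat_lit 5) (nat_lit 5) (nat_lit 5) (nat_lit 4) (nat_lit 389) (nat_lit 237) (nat_lit 154)) (XT.lf (nat_lit 0) (nat_lit 27741282347) (nat_lit 76) (nat_lit 31313776478) (nat_lit 76) (nat_lit 10316751780) (nat_lit 4) (nat_lit 4) (nat_lit 5) (nat_lit 5) (nat_lit 5) (nat_lit 4) (nat_lit 390) (nat_lit 237) (nat_lit 153))))))) (XT.nd (nat_lit 33852) (nat_lit 0) (nat_lit 3572) (XT.nd (nat_lit 390) (nat_lit 152) (nat_lit 0) (XT.nd (nat_lit 156) (nat_lit 0) (nat_lit 0) (XT.nd (nat_lit 78) (nat_lit 0) (nat_lit 0) (XT.lf (nat_lit 0) (nat_lit 33506278671) (nat_lit 76) (nat_lit 29456023735) (nat_lit 76) (nat_lit 8403282870) (nat_lit 4) (nat_lit 4) (nat_lit 5) (nat_lit 5) (nat_lit 5) (nat_lit 4) (nat_lit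 391) (nat_lit 237) (nat_lit 152)) (XT.lf (nat_lit 0) (nat_lit 39423922697) (nat_lit 76) (nat_lit 27551222177) (nat_lit 76) (nat_lit 6444387947) (nat_lit 4) (nat_lit 4) (nat_lit 5) (nat_lit 5) (nat_lit 5) (nat_lit 4) (nat_lit 392) (nat_lit 237) (nat_lit 151))) (XT.nd (nat_lit 78) (nat_lit 0) (nat_lit 0) (XT.lf (nat_lit 0) (nat_lit 45499385184) (nat_lit 76) (nat_lit 25597707416) (nat_lit 76) (nat_lit 4438355355) (nat_lit 4) (nat_lit 4) (nat_lit 5) (nat_lit 5) (nat_lit 5) (nat_lit 4) (nat_lit 393) (nat_lit 237) (nat_lit 150)) (XT.nd (nat_lit 78) (nat_lit 0) (nat_lit 0) (XT.lf (nat_lit 0) (nat_lit 51737974788) (nat_lit 76) (nat_lit 23593772497) (nat_lit 76) (nat_lit 2383432251) (nat_lit 4) (nat_lit 4) (nat_lit 5) (nat_lit 5) (nat_lit 5) (nat_lit 4) (nat_lit 394) (nat_lit 237) (nat_lit 149)) (XT.lf (nat_lit 0) (nat_lit 58145142703) (nat_lit 76) (nat_lit 21537666408) (nat_lit 76) (nat_lit 277823069)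 (nat_lit 4) (nat_lit 4) (nat_lit 5) (nat_lit 5) (nat_lit 5) (nat_lit 4) (nat_lit 395) (nat_lit 237) (nat_lit 148))))) (XT.nd (nat_lit 234) (nat_lit 76) (nat_lit 0) (XT.nd (nat_lit 78) (nat_lit 0) (nat_lit 0) (XT.lf (nat_lit 0) (nat_lit 1843620380) (nat_lit 152) (nat_lit 17565355221) (nat_lit 76) (nat_lit 62864250094) (nat_lit 3) (nat_lit 5) (nat_lit 5) (nat_lit 5) (nat_lit 4) (nat_lit 4) (nat_lit 396) (nat_lit 237) (nat_lit 147)) (XT.nd (nat_lit 78) (nat_lit 0) (nat_lit 0) (XT.lf (nat_lit 0) (nat_lit 4012992412) (nat_lit 152) (nat_lit 13208191408) (nat_lit 76) (nat_lit 67434243878) (nat_lit 3) (nat_lit 5) (nat_lit 5) (nat_lit 5) (nat_lit 4) (nat_lit 4) (nat_lit 397) (nat_lit 237) (nat_lit 146)) (XT.lf (nat_lit 0) (nat_lit 6237609922) (nat_lit 152) (nat_lit 8737520204) (nat_lit 76) (nat_lit 72134269718) (nat_lit 3) (nat_lit 5) (nat_lit 5) (nat_lit 5) (nat_lit 4) (nat_lit 4) (nat_lit 398) (nat_lit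 237) (nat_lit 145)))) (XT.nd (nat_lit 78) (nat_lit 76) (nat_lit 0) (XT.lf (nat_lit 0) (nat_lit 8519416751) (nat_lit 152) (nat_lit 4149435197) (nat_lit 76) (nat_lit 76968434432) (nat_lit 3) (nat_lit 5) (nat_lit 5) (nat_lit 5) (nat_lit 4) (nat_lit 4) (nat_lit 399) (nat_lit 237) (nat_lit 144)) (XT.nd (nat_lit 156) (nat_lit 0) (nat_lit 0) (XT.lf (nat_lit 0) (nat_lit 571219162) (nat_lit 76) (nat_lit 10294678457) (nat_lit 152) (nat_lit 81375233793) (nat_lit 2) (nat_lit 5) (nat_lit 3) (nat_lit 5) (nat_lit 4) (nat_lit 4) (nat_lit 400) (nat_lit 237) (nat_lit 143)) (XT.lf (nat_lit 0) (nat_lit 10566109646) (nat_lit 76) (nat_lit 5263629889) (nat_lit 152) (nat_lit 81854068652) (nat_lit 2) (nat_lit 5) (nat_lit 3) (nat_lit 5) (nat_lit 4) (nat_lit 4) (nat_lit 402) (nat_lit 237) (nat_lit 141)))))) (XT.nd (nat_lit 468) (nat_lit 836) (nat_lit 0) (XT.nd (nat_lit 234) (nat_lit 684) (nat_lit 0) (XT.nd (nat_lit 78)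 (nat_lit 456) (nat_lit 0) (XT.lf (nat_lit 0) (nat_lit 1800602925) (nat_lit 380) (nat_lit 911014304) (nat_lit 0) (nat_lit 1800602925) (nat_lit 75) (nat_lit 5) (nat_lit 80) (nat_lit 4) (nat_lit 75) (nat_lit 4) (nat_lit 304) (nat_lit 238) (nat_lit 238)) (XT.nd (nat_lit 78) (nat_lit 76) (nat_lit 0) (XT.lf (nat_lit 0) (nat_lit 3652706831) (nat_lit 380) (nat_lit 3243210667) (nat_lit 380) (nat_lit 2263287502) (nat_lit 70) (nat_lit 4) (nat_lit 75) (nat_lit 5) (nat_lit 75) (nat_lit 4) (nat_lit 305) (nat_lit 238) (nat_lit 237)) (XT.lf (nat_lit 0) (nat_lit 908262871) (nat_lit 456) (nat_lit 87531250) (nat_lit 76) (nat_lit 8304037295) (nat_lit 69) (nat_lit 5) (nat_lit 75) (nat_lit 5) (nat_lit 70) (nat_lit 4) (nat_lit 306) (nat_lit 238) (nat_lit 236)))) (XT.nd (nat_lit 78) (nat_lit 380) (nat_lit 0) (XT.lf (nat_lit 0) (nat_lit 4115213980) (nat_lit 380) (nat_lit 3986009618) (nat_lit 0) (nat_lit 1343392186)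 (nat_lit 65) (nat_lit 5) (nat_lit 70) (nat_lit 4) (nat_lit 65) (nat_lit 4) (nat_lit 307) (nat_lit 238) (nat_lit 235)) (XT.nd (nat_lit 78) (nat_lit 76) (nat_lit 0) (XT.lf (nat_lit 0) (nat_lit 1490981187) (nat_lit 304) (nat_lit 5873514037) (nat_lit 304) (nat_lit 2231043203) (nat_lit 61) (nat_lit 4) (nat_lit 65) (nat_lit 5) (nat_lit 65) (nat_lit 4) (nat_lit 308) (nat_lit 238) (nat_lit 234)) (XT.lf (nat_lit 0) (nat_lit 903552848) (nat_lit 380) (nat_lit 2653548882) (nat_lit 76) (nat_lit 6194917507) (nat_lit 60) (nat_lit 5) (nat_lit 65) (nat_lit 5) (nat_lit 61) (nat_lit 4) (nat_lit 309) (nat_lit 238) (nat_lit 233))))) (XT.nd (nat_lit 234) (nat_lit 228) (nat_lit 0) (XT.nd (nat_lit 78) (nat_lit 380) (nat_lit 0) (XT.lf (nat_lit 0) (nat_lit 2890320685) (nat_lit 228) (nat_lit 1148473439) (nat_lit 304) (nat_lit 5875357442) (nat_lit 57) (nat_lit 5) (nat_lit 60) (nat_lit 5) (nat_lit 61) (nat_lit 4) (nat_lit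 310) (nat_lit 238) (nat_lit 232)) (XT.nd (nat_lit 78) (nat_lit 380) (nat_lit 0) (XT.lf (nat_lit 0) (nat_lit 7232573993) (nat_lit 304) (nat_lit 1544601216) (nat_lit 0) (nat_lit 1305196715) (nat_lit 57) (nat_lit 5) (nat_lit 61) (nat_lit 4) (nat_lit 57) (nat_lit 4) (nat_lit 311) (nat_lit 238) (nat_lit 231)) (XT.lf (nat_lit 0) (nat_lit 238195546) (nat_lit 380) (nat_lit 6194869828) (nat_lit 76) (nat_lit 3823340017) (nat_lit 52) (nat_lit 5) (nat_lit 57) (nat_lit 5) (nat_lit 53) (nat_lit 4) (nat_lit 312) (nat_lit 238) (nat_lit 230)))) (XT.nd (nat_lit 78) (nat_lit 228) (nat_lit 0) (XT.lf (nat_lit 0) (nat_lit 3304402467) (nat_lit 380) (nat_lit 699624643) (nat_lit 76) (nat_lit 6432645775) (nat_lit 52) (nat_lit 5) (nat_lit 57) (nat_lit 5) (nat_lit 53) (nat_lit 4) (nat_lit 313) (nat_lit 238) (nat_lit 229)) (XT.nd (nat_lit 78) (nat_lit 0) (nat_lit 0) (XT.lf (nat_lit 0) (nat_lit 4956634929) (nat_lit 228)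 (nat_lit 1482830059) (nat_lit 304) (nat_lit 4183718160) (nat_lit 49) (nat_lit 5) (nat_lit 52) (nat_lit 5) (nat_lit 53) (nat_lit 4) (nat_lit 314) (nat_lit 238) (nat_lit 228)) (XT.lf (nat_lit 0) (nat_lit 9616462604) (nat_lit 304) (nat_lit 130449553) (nat_lit 0) (nat_lit 1070076788) (nat_lit 49) (nat_lit 5) (nat_lit 53) (nat_lit 4) (nat_lit 49) (nat_lit 4) (nat_lit 315) (nat_lit 238) (nat_lit 227))))))))
noncomputable def xc54 : XT := (XT.nd (nat_lit 1716) (nat_lit 836) (nat_lit 0) (XT.nd (nat_lit 858) (nat_lit 760) (nat_lit 0) (XT.nd (nat_lit 390) (nat_lit 608) (nat_lit 0) (XT.nd (nat_lit 156) (nat_lit 304) (nat_lit 0) (XT.nd (nat_lit 78) (nat_lit 228) (nat_lit 0) (XT.lf (nat_lit 0) (nat_lit 1835774892) (nat_lit 304) (nat_lit 5467607437) (nat_lit 76) (nat_lit 3712811184) (nat_lit 45) (nat_lit 5) (nat_lit 49) (nat_lit 5) (nat_lit 46) (nat_lit 4) (nat_lit 316) (nat_lit 238) (nat_lit 226)) (XT.lf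 (nat_lit 0) (nat_lit 69726299) (nat_lit 228) (nat_lit 4803639296) (nat_lit 304) (nat_lit 6349747257) (nat_lit 42) (nat_lit 5) (nat_lit 45) (nat_lit 5) (nat_lit 46) (nat_lit 4) (nat_lit 317) (nat_lit 238) (nat_lit 225))) (XT.nd (nat_lit 78) (nat_lit 304) (nat_lit 0) (XT.lf (nat_lit 0) (nat_lit 5787164852) (nat_lit 228) (nat_lit 2203488562) (nat_lit 304) (nat_lit 3446050754) (nat_lit 42) (nat_lit 5) (nat_lit 45) (nat_lit 5) (nat_lit 46) (nat_lit 4) (nat_lit 318) (nat_lit 238) (nat_lit 224)) (XT.nd (nat_lit 78) (nat_lit 304) (nat_lit 0) (XT.lf (nat_lit 0) (nat_lit 11141027445) (nat_lit 304) (nat_lit 82143527) (nat_lit 0) (nat_lit 435463163) (nat_lit 42) (nat_lit 5) (nat_lit 46) (nat_lit 4) (nat_lit 42) (nat_lit 4) (nat_lit 319) (nat_lit 238) (nat_lit 223)) (XT.lf (nat_lit 0) (nat_lit 2462940416) (nat_lit 304) (nat_lit 6264631724) (nat_lit 76) (nat_lit 3158650215) (nat_lit 38) (nat_lit 5) (nat_lit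 42) (nat_lit 5) (nat_lit 39) (nat_lit 4) (nat_lit 320) (nat_lit 238) (nat_lit 222))))) (XT.nd (nat_lit 234) (nat_lit 456) (nat_lit 0) (XT.nd (nat_lit 78) (nat_lit 152) (nat_lit 0) (XT.lf (nat_lit 0) (nat_lit 5460453158) (nat_lit 304) (nat_lit 722240556) (nat_lit 76) (nat_lit 5939760117) (nat_lit 38) (nat_lit 5) (nat_lit 42) (nat_lit 5) (nat_lit 39) (nat_lit 4) (nat_lit 321) (nat_lit 238) (nat_lit 221)) (XT.nd (nat_lit 78) (nat_lit 0) (nat_lit 0) (XT.lf (nat_lit 0) (nat_lit 4991974660) (nat_lit 152) (nat_lit 3542849042) (nat_lit 228) (nat_lit 3831445365) (nat_lit 36) (nat_lit 5) (nat_lit 38) (nat_lit 5) (nat_lit 39) (nat_lit 4) (nat_lit 322) (nat_lit 238) (nat_lit 220)) (XT.lf (nat_lit 0) (nat_lit 10801463044) (nat_lit 152) (nat_lit 847105946) (nat_lit 228) (nat_lit 970517195) (nat_lit 36) (nat_lit 5) (nat_lit 38) (nat_lit 5) (nat_lit 39) (nat_lit 4) (nat_lit 323) (nat_lit 238) (nat_lit 219))))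 (XT.nd (nat_lit 78) (nat_lit 152) (nat_lit 0) (XT.lf (nat_lit 0) (nat_lit 1934640786) (nat_lit 304) (nat_lit 9025738418) (nat_lit 76) (nat_lit 1918725640) (nat_lit 32) (nat_lit 5) (nat_lit 36) (nat_lit 5) (nat_lit 33) (nat_lit 4) (nat_lit 324) (nat_lit 238) (nat_lit 218)) (XT.nd (nat_lit 78) (nat_lit 152) (nat_lit 0) (XT.lf (nat_lit 0) (nat_lit 4875872459) (nat_lit 304) (nat_lit 3523054883) (nat_lit 76) (nat_lit 4748748788) (nat_lit 32) (nat_lit 5) (nat_lit 36) (nat_lit 5) (nat_lit 33) (nat_lit 4) (nat_lit 325) (nat_lit 238) (nat_lit 217)) (XT.lf (nat_lit 0) (nat_lit 2098029233) (nat_lit 152) (nat_lit 5770685256) (nat_lit 228) (nat_lit 5556779254) (nat_lit 30) (nat_lit 5) (nat_lit 32) (nat_lit 5) (nat_lit 33) (nat_lit 4) (nat_lit 326) (nat_lit 238) (nat_lit 216)))))) (XT.nd (nat_lit 390) (nat_lit 380) (nat_lit 0) (XT.nd (nat_lit 156) (nat_lit 304) (nat_lit 0) (XT.nd (nat_lit 78) (nat_lit 76)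 (nat_lit 0) (XT.lf (nat_lit 0) (nat_lit 7873204032) (nat_lit 152) (nat_lit 3057739759) (nat_lit 228) (nat_lit 2781401790) (nat_lit 30) (nat_lit 5) (nat_lit 32) (nat_lit 5) (nat_lit 33) (nat_lit 4) (nat_lit 327) (nat_lit 238) (nat_lit 215)) (XT.lf (nat_lit 0) (nat_lit 20764603) (nat_lit 228) (nat_lit 272321978) (nat_lit 76) (nat_lit 13716425798) (nat_lit 29) (nat_lit 5) (nat_lit 32) (nat_lit 5) (nat_lit 30) (nat_lit 5) (nat_lit 328) (nat_lit 238) (nat_lit 214))) (XT.nd (nat_lit 78) (nat_lit 152) (nat_lit 0) (XT.lf (nat_lit 0) (nat_lit 2875252874) (nat_lit 228) (nat_lit 8882402034) (nat_lit 76) (nat_lit 2556468614) (nat_lit 27) (nat_lit 5) (nat_lit 30) (nat_lit 5) (nat_lit 28) (nat_lit 4) (nat_lit 329) (nat_lit 238) (nat_lit 213)) (XT.nd (nat_lit 78) (nat_lit 152) (nat_lit 0) (XT.lf (nat_lit 0) (nat_lit 5768171828) (nat_lit 228) (nat_lit 3401733229) (nat_lit 76) (nat_lit 5459462035) (nat_lit 27)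 (nat_lit 5) (nat_lit 30) (nat_lit 5) (nat_lit 28) (nat_lit 4) (nat_lit 330) (nat_lit 238) (nat_lit 212)) (XT.lf (nat_lit 0) (nat_lit 2205339024) (nat_lit 152) (nat_lit 6512395714) (nat_lit 228) (nat_lit 6237313238) (nat_lit 25) (nat_lit 5) (nat_lit 27) (nat_lit 5) (nat_lit 28) (nat_lit 4) (nat_lit 331) (nat_lit 238) (nat_lit 211))))) (XT.nd (nat_lit 234) (nat_lit 152) (nat_lit 0) (XT.nd (nat_lit 78) (nat_lit 228) (nat_lit 0) (XT.lf (nat_lit 0) (nat_lit 7970099533) (nat_lit 152) (nat_lit 3769417108) (nat_lit 228) (nat_lit 3551544180) (nat_lit 25) (nat_lit 5) (nat_lit 27) (nat_lit 5) (nat_lit 28) (nat_lit 4) (nat_lit 332) (nat_lit 238) (nat_lit 210)) (XT.nd (nat_lit 78) (nat_lit 228) (nat_lit 0) (XT.lf (nat_lit 0) (nat_lit 13829884305) (nat_lit 152) (nat_lit 972923296) (nat_lit 228) (nat_lit 835892136) (nat_lit 25) (nat_lit 5) (nat_lit 27) (nat_lit 5) (nat_lit 28) (nat_lit 4) (nat_lit 333) (nat_lit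 238) (nat_lit 209)) (XT.lf (nat_lit 0) (nat_lit 1930312712) (nat_lit 228) (nat_lit 12166963787) (nat_lit 76) (nat_lit 1898772389) (nat_lit 22) (nat_lit 5) (nat_lit 25) (nat_lit 5) (nat_lit 23) (nat_lit 4) (nat_lit 334) (nat_lit 238) (nat_lit 208)))) (XT.nd (nat_lit 78) (nat_lit 152) (nat_lit 0) (XT.lf (nat_lit 0) (nat_lit 4742932110) (nat_lit 228) (nat_lit 6785603947) (nat_lit 76) (nat_lit 4835992599) (nat_lit 22) (nat_lit 5) (nat_lit 25) (nat_lit 5) (nat_lit 23) (nat_lit 4) (nat_lit 335) (nat_lit 238) (nat_lit 207)) (XT.nd (nat_lit 78) (nat_lit 152) (nat_lit 0) (XT.lf (nat_lit 0) (nat_lit 7593473556) (nat_lit 228) (nat_lit 1317701453) (nat_lit 76) (nat_lit 7834344904) (nat_lit 22) (nat_lit 5) (nat_lit 25) (nat_lit 5) (nat_lit 23) (nat_lit 4) (nat_lit 336) (nat_lit 238) (nat_lit 206)) (XT.lf (nat_lit 0) (nat_lit 4325936068) (nat_lit 152) (nat_lit 6200075289) (nat_lit 228) (nat_lit 6612096699)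 (nat_lit 20) (nat_lit 5) (nat_lit 22) (nat_lit 5) (nat_lit 23) (nat_lit 4) (nat_lit 337) (nat_lit 238) (nat_lit 205))))))) (XT.nd (nat_lit 858) (nat_lit 304) (nat_lit 0) (XT.nd (nat_lit 390) (nat_lit 304) (nat_lit 0) (XT.nd (nat_lit 156) (nat_lit 228) (nat_lit 0) (XT.nd (nat_lit 78) (nat_lit 0) (nat_lit 0) (XT.lf (nat_lit 0) (nat_lit 10093890572) (nat_lit 152) (nat_lit 3421459038) (nat_lit 228) (nat_lit 4028119262) (nat_lit 20) (nat_lit 5) (nat_lit 22) (nat_lit 5) (nat_lit 23) (nat_lit 4) (nat_lit 338) (nat_lit 238) (nat_lit 204)) (XT.lf (nat_lit 0) (nat_lit 15964977174) (nat_lit 152) (nat_lit 586204542) (nat_lit 228) (nat_lit 1411162404) (nat_lit 20) (nat_lit 5) (nat_lit 22) (nat_lit 5) (nat_lit 23) (nat_lit 4) (nat_lit 339) (nat_lit 238) (nat_lit 203))) (XT.nd (nat_lit 78) (nat_lit 0) (nat_lit 0) (XT.lf (nat_lit 0) (nat_lit 1274171327) (nat_lit 228) (nat_lit 14808655067) (nat_lit 76) (nat_lit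 2310195667) (nat_lit 17) (nat_lit 5) (nat_lit 20) (nat_lit 5) (nat_lit 18) (nat_lit 4) (nat_lit 340) (nat_lit 238) (nat_lit 202)) (XT.nd (nat_lit 78) (nat_lit 0) (nat_lit 0) (XT.lf (nat_lit 0) (nat_lit 3995804258) (nat_lit 228) (nat_lit 9550643636) (nat_lit 76) (nat_lit 5290283320) (nat_lit 17) (nat_lit 5) (nat_lit 20) (nat_lit 5) (nat_lit 18) (nat_lit 4) (nat_lit 341) (nat_lit 238) (nat_lit 201)) (XT.lf (nat_lit 0) (nat_lit 6758240508) (nat_lit 228) (nat_lit 4202027581) (nat_lit 76) (nat_lit 8334760470) (nat_lit 17) (nat_lit 5) (nat_lit 20) (nat_lit 5) (nat_lit 18) (nat_lit 4) (nat_lit 342) (nat_lit 238) (nat_lit 200))))) (XT.nd (nat_lit 234) (nat_lit 228) (nat_lit 0) (XT.nd (nat_lit 78) (nat_lit 0) (nat_lit 0) (XT.lf (nat_lit 0) (nat_lit 1266582226) (nat_lit 76) (nat_lit 8309486794) (nat_lit 152) (nat_lit 10191880278) (nat_lit 16) (nat_lit 5) (nat_lit 17) (nat_lit 5) (nat_lit 18) (nat_lit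 4) (nat_lit 343) (nat_lit 238) (nat_lit 199)) (XT.nd (nat_lit 78) (nat_lit 0) (nat_lit 0) (XT.lf (nat_lit 0) (nat_lit 6920846486) (nat_lit 76) (nat_lit 5560896769) (nat_lit 152) (nat_lit 7773263665) (nat_lit 16) (nat_lit 5) (nat_lit 17) (nat_lit 5) (nat_lit 18) (nat_lit 4) (nat_lit 344) (nat_lit 238) (nat_lit 198)) (XT.lf (nat_lit 0) (nat_lit 12682077231) (nat_lit 76) (nat_lit 2754528574) (nat_lit 152) (nat_lit 5321257099) (nat_lit 16) (nat_lit 5) (nat_lit 17) (nat_lit 5) (nat_lit 18) (nat_lit 4) (nat_lit 345) (nat_lit 238) (nat_lit 197)))) (XT.nd (nat_lit 78) (nat_lit 228) (nat_lit 0) (XT.lf (nat_lit 0) (nat_lit 18444315873) (nat_lit 152) (nat_lit 2722725378) (nat_lit 0) (nat_lit 109883068) (nat_lit 16) (nat_lit 5) (nat_lit 18) (nat_lit 4) (nat_lit 16) (nat_lit 4) (nat_lit 346) (nat_lit 238) (nat_lit 196)) (XT.nd (nat_lit 78) (nat_lit 76) (nat_lit 0) (XT.lf (nat_lit 0) (nat_lit 2757503677)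 (nat_lit 152) (nat_lit 18802507725) (nat_lit 152) (nat_lit 251058015) (nat_lit 14) (nat_lit 4) (nat_lit 16) (nat_lit 5) (nat_lit 16) (nat_lit 4) (nat_lit 347) (nat_lit 238) (nat_lit 195)) (XT.lf (nat_lit 0) (nat_lit 2352776849) (nat_lit 228) (nat_lit 13986008729) (nat_lit 76) (nat_lit 6022046041) (nat_lit 13) (nat_lit 5) (nat_lit 16) (nat_lit 5) (nat_lit 14) (nat_lit 4) (nat_lit 348) (nat_lit 238) (nat_lit 194)))))) (XT.nd (nat_lit 468) (nat_lit 228) (nat_lit 0) (XT.nd (nat_lit 234) (nat_lit 0) (nat_lit 0) (XT.nd (nat_lit 78) (nat_lit 76) (nat_lit 0) (XT.lf (nat_lit 0) (nat_lit 4994786640) (nat_lit 228) (nat_lit 8827288100) (nat_lit 76) (nat_lit 9106024892) (nat_lit 13) (nat_lit 5) (nat_lit 16) (nat_lit 5) (nat_lit 14) (nat_lit 4) (nat_lit 349) (nat_lit 238) (nat_lit 193)) (XT.nd (nat_lit 78) (nat_lit 76) (nat_lit 0) (XT.lf (nat_lit 0) (nat_lit 7682178955) (nat_lit 228) (nat_lit 3570482909)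 (nat_lit 76) (nat_lit 12260779661) (nat_lit 13) (nat_lit 5) (nat_lit 16) (nat_lit 5) (nat_lit 14) (nat_lit 4) (nat_lit 350) (nat_lit 238) (nat_lit 192)) (XT.lf (nat_lit 0) (nat_lit 1824604778) (nat_lit 76) (nat_lit 8610236442) (nat_lit 152) (nat_lit 13682001368) (nat_lit 12) (nat_lit 5) (nat_lit 13) (nat_lit 5) (nat_lit 14) (nat_lit 4) (nat_lit 351) (nat_lit 238) (nat_lit 191)))) (XT.nd (nat_lit 78) (nat_lit 0) (nat_lit 0) (XT.lf (nat_lit 0) (nat_lit 7400249700) (nat_lit 76) (nat_lit 5873431722) (nat_lit 152) (nat_lit 11464593558) (nat_lit 12) (nat_lit 5) (nat_lit 13) (nat_lit 5) (nat_lit 14) (nat_lit 4) (nat_lit 352) (nat_lit 238) (nat_lit 190)) (XT.nd (nat_lit 78) (nat_lit 0) (nat_lit 0) (XT.lf (nat_lit 0) (nat_lit 13090264167) (nat_lit 76) (nat_lit 3075911199) (nat_lit 152) (nat_lit 9213156475) (nat_lit 12) (nat_lit 5) (nat_lit 13) (nat_lit 5) (nat_lit 14) (nat_lit 4) (nat_lit 353) (nat_lit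 238) (nat_lit 189)) (XT.lf (nat_lit 0) (nat_lit 18899620038) (nat_lit 76) (nat_lit 215230439) (nat_lit 152) (nat_lit 6925722845) (nat_lit 12) (nat_lit 5) (nat_lit 13) (nat_lit 5) (nat_lit 14) (nat_lit 4) (nat_lit 354) (nat_lit 238) (nat_lit 188))))) (XT.nd (nat_lit 234) (nat_lit 0) (nat_lit 0) (XT.nd (nat_lit 78) (nat_lit 228) (nat_lit 0) (XT.lf (nat_lit 0) (nat_lit 22148344114) (nat_lit 152) (nat_lit 1915244605) (nat_lit 0) (nat_lit 2658206658) (nat_lit 12) (nat_lit 5) (nat_lit 14) (nat_lit 4) (nat_lit 12) (nat_lit 4) (nat_lit 355) (nat_lit 238) (nat_lit 187)) (XT.nd (nat_lit 78) (nat_lit 76) (nat_lit 0) (XT.lf (nat_lit 0) (nat_lit 3483968236) (nat_lit 152) (nat_lit 21795469748) (nat_lit 152) (nat_lit 2143851334) (nat_lit 10) (nat_lit 4) (nat_lit 12) (nat_lit 5) (nat_lit 12) (nat_lit 4) (nat_lit 356) (nat_lit 238) (nat_lit 186)) (XT.lf (nat_lit 0) (nat_lit 342207117) (nat_lit 228) (nat_lit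 19113715595) (nat_lit 76) (nat_lit 8690116066) (nat_lit 9) (nat_lit 5) (nat_lit 12) (nat_lit 5) (nat_lit 10) (nat_lit 4) (nat_lit 357) (nat_lit 238) (nat_lit 185)))) (XT.nd (nat_lit 78) (nat_lit 0) (nat_lit 0) (XT.lf (nat_lit 0) (nat_lit 2831638726) (nat_lit 228) (nat_lit 14212380718) (nat_lit 76) (nat_lit 11846688348) (nat_lit 9) (nat_lit 5) (nat_lit 12) (nat_lit 5) (nat_lit 10) (nat_lit 4) (nat_lit 358) (nat_lit 238) (nat_lit 184)) (XT.nd (nat_lit 78) (nat_lit 0) (nat_lit 0) (XT.lf (nat_lit 0) (nat_lit 5368452986) (nat_lit 228) (nat_lit 9210425723) (nat_lit 76) (nat_lit 15079686576) (nat_lit 9) (nat_lit 5) (nat_lit 12) (nat_lit 5) (nat_lit 10) (nat_lit 4) (nat_lit 359) (nat_lit 238) (nat_lit 183)) (XT.lf (nat_lit 0) (nat_lit 7954866531) (nat_lit 228) (nat_lit 4103479967) (nat_lit 76) (nat_lit 18391935698) (nat_lit 9) (nat_lit 5) (nat_lit 12) (nat_lit 5) (nat_lit 10) (nat_lit 4) (nat_lit 360)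 (nat_lit 238) (nat_lit 182))))))))
noncomputable def xc55 : XT := (XT.nd (nat_lit 1794) (nat_lit 228) (nat_lit 0) (XT.nd (nat_lit 858) (nat_lit 76) (nat_lit 0) (XT.nd (nat_lit 390) (nat_lit 152) (nat_lit 0) (XT.nd (nat_lit 156) (nat_lit 0) (nat_lit 0) (XT.nd (nat_lit 78) (nat_lit 0) (nat_lit 0) (XT.lf (nat_lit 0) (nat_lit 1135068195) (nat_lit 76) (nat_lit 9468982107) (nat_lit 152) (nat_lit 20662172688) (nat_lit 8) (nat_lit 5) (nat_lit 9) (nat_lit 5) (nat_lit 10) (nat_lit 4) (nat_lit 361) (nat_lit 238) (nat_lit 181)) (XT.lf (nat_lit 0) (nat_lit 6571563858) (nat_lit 76) (nat_lit 6777182711) (nat_lit 152) (nat_lit 18757441232) (nat_lit 8) (nat_lit 5) (nat_lit 9) (nat_lit 5) (nat_lit 10) (nat_lit 4) (nat_lit 362) (nat_lit 238) (nat_lit 180))) (XT.nd (nat_lit 78) (nat_lit 0) (nat_lit 0) (XT.lf (nat_lit 0) (nat_lit 12129090061) (nat_lit 76) (nat_lit 4022033355) (nat_lit 152) (nat_lit 16820994069)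 (nat_lit 8) (nat_lit 5) (nat_lit 9) (nat_lit 5) (nat_lit 10) (nat_lit 4) (nat_lit 363) (nat_lit 238) (nat_lit 179)) (XT.nd (nat_lit 78) (nat_lit 0) (nat_lit 0) (XT.lf (nat_lit 0) (nat_lit 17812502894) (nat_lit 76) (nat_lit 1201126627) (nat_lit 152) (nat_lit 14851139159) (nat_lit 8) (nat_lit 5) (nat_lit 9) (nat_lit 5) (nat_lit 10) (nat_lit 4) (nat_lit 364) (nat_lit 238) (nat_lit 178)) (XT.lf (nat_lit 0) (nat_lit 21954992214) (nat_lit 152) (nat_lit 11174379036) (nat_lit 0) (nat_lit 1655063337) (nat_lit 8) (nat_lit 5) (nat_lit 10) (nat_lit 4) (nat_lit 8) (nat_lit 4) (nat_lit 365) (nat_lit 238) (nat_lit 177))))) (XT.nd (nat_lit 234) (nat_lit 76) (nat_lit 0) (XT.nd (nat_lit 78) (nat_lit 76) (nat_lit 0) (XT.lf (nat_lit 0) (nat_lit 24973767353) (nat_lit 152) (nat_lit 6201090680) (nat_lit 0) (nat_lit 4557181196) (nat_lit 8) (nat_lit 5) (nat_lit 10) (nat_lit 4) (nat_lit 8) (nat_lit 4) (nat_lit 366) (nat_lit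 238) (nat_lit 176)) (XT.nd (nat_lit 78) (nat_lit 76) (nat_lit 0) (XT.lf (nat_lit 0) (nat_lit 28061046738) (nat_lit 152) (nat_lit 1116509161) (nat_lit 0) (nat_lit 7531201086) (nat_lit 8) (nat_lit 5) (nat_lit 10) (nat_lit 4) (nat_lit 8) (nat_lit 4) (nat_lit 367) (nat_lit 238) (nat_lit 175)) (XT.lf (nat_lit 0) (nat_lit 4165084151) (nat_lit 76) (nat_lit 27094481178) (nat_lit 76) (nat_lit 6454674852) (nat_lit 7) (nat_lit 4) (nat_lit 8) (nat_lit 5) (nat_lit 8) (nat_lit 4) (nat_lit 368) (nat_lit 238) (nat_lit 174)))) (XT.nd (nat_lit 78) (nat_lit 76) (nat_lit 0) (XT.lf (nat_lit 0) (nat_lit 9591571960) (nat_lit 76) (nat_lit 24952599052) (nat_lit 76) (nat_lit 4206034789) (nat_lit 7) (nat_lit 4) (nat_lit 8) (nat_lit 5) (nat_lit 8) (nat_lit 4) (nat_lit 369) (nat_lit 238) (nat_lit 173)) (XT.nd (nat_lit 78) (nat_lit 76) (nat_lit 0) (XT.lf (nat_lit 0) (nat_lit 15145475134) (nat_lit 76) (nat_lit 22761312527)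 (nat_lit 76) (nat_lit 1911099781) (nat_lit 7) (nat_lit 4) (nat_lit 8) (nat_lit 5) (nat_lit 8) (nat_lit 4) (nat_lit 370) (nat_lit 238) (nat_lit 172)) (XT.lf (nat_lit 0) (nat_lit 423702934) (nat_lit 152) (nat_lit 20090725383) (nat_lit 76) (nat_lit 20403665097) (nat_lit 6) (nat_lit 5) (nat_lit 8) (nat_lit 5) (nat_lit 7) (nat_lit 4) (nat_lit 371) (nat_lit 238) (nat_lit 171)))))) (XT.nd (nat_lit 468) (nat_lit 0) (nat_lit 0) (XT.nd (nat_lit 234) (nat_lit 76) (nat_lit 0) (XT.nd (nat_lit 78) (nat_lit 0) (nat_lit 0) (XT.lf (nat_lit 0) (nat_lit 2770578459) (nat_lit 152) (nat_lit 15424266701) (nat_lit 76) (nat_lit 23856498986) (nat_lit 6) (nat_lit 5) (nat_lit 8) (nat_lit 5) (nat_lit 7) (nat_lit 4) (nat_lit 372) (nat_lit 238) (nat_lit 170)) (XT.nd (nat_lit 78) (nat_lit 0) (nat_lit 0) (XT.lf (nat_lit 0) (nat_lit 5168869902) (nat_lit 152) (nat_lit 10650588116) (nat_lit 76) (nat_lit 27399722964) (nat_lit 6)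 (nat_lit 5) (nat_lit 8) (nat_lit 5) (nat_lit 7) (nat_lit 4) (nat_lit 373) (nat_lit 238) (nat_lit 169)) (XT.lf (nat_lit 0) (nat_lit 7620672857) (nat_lit 152) (nat_lit 5765518452) (nat_lit 76) (nat_lit 31036433050) (nat_lit 6) (nat_lit 5) (nat_lit 8) (nat_lit 5) (nat_lit 7) (nat_lit 4) (nat_lit 374) (nat_lit 238) (nat_lit 168)))) (XT.nd (nat_lit 78) (nat_lit 76) (nat_lit 0) (XT.lf (nat_lit 0) (nat_lit 10128129676) (nat_lit 152) (nat_lit 764789201) (nat_lit 76) (nat_lit 34769806952) (nat_lit 6) (nat_lit 5) (nat_lit 8) (nat_lit 5) (nat_lit 7) (nat_lit 4) (nat_lit 375) (nat_lit 238) (nat_lit 167)) (XT.nd (nat_lit 78) (nat_lit 0) (nat_lit 0) (XT.lf (nat_lit 0) (nat_lit 4442661534) (nat_lit 76) (nat_lit 8293475387) (nat_lit 152) (nat_lit 34203150889) (nat_lit 5) (nat_lit 5) (nat_lit 6) (nat_lit 5) (nat_lit 7) (nat_lit 4) (nat_lit 376) (nat_lit 238) (nat_lit 166)) (XT.lf (nat_lit 0) (nat_lit 9792314545)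 (nat_lit 76) (nat_lit 5620634549) (nat_lit 152) (nat_lit 32841497379) (nat_lit 5) (nat_lit 5) (nat_lit 6) (nat_lit 5) (nat_lit 7) (nat_lit 4) (nat_lit 377) (nat_lit 238) (nat_lit 165))))) (XT.nd (nat_lit 234) (nat_lit 0) (nat_lit 0) (XT.nd (nat_lit 78) (nat_lit 0) (nat_lit 0) (XT.lf (nat_lit 0) (nat_lit 15273623481) (nat_lit 76) (nat_lit 2879783744) (nat_lit 152) (nat_lit 31456168701) (nat_lit 5) (nat_lit 5) (nat_lit 6) (nat_lit 5) (nat_lit 7) (nat_lit 4) (nat_lit 378) (nat_lit 238) (nat_lit 164)) (XT.nd (nat_lit 78) (nat_lit 0) (nat_lit 0) (XT.lf (nat_lit 0) (nat_lit 20891377835) (nat_lit 76) (nat_lit 68528052) (nat_lit 152) (nat_lit 30045954374) (nat_lit 5) (nat_lit 5) (nat_lit 6) (nat_lit 5) (nat_lit 7) (nat_lit 4) (nat_lit 379) (nat_lit 238) (nat_lit 163)) (XT.lf (nat_lit 0) (nat_lit 23861962527) (nat_lit 152) (nat_lit 25821098372) (nat_lit 0) (nat_lit 2760646679) (nat_lit 5) (nat_lit 5)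 (nat_lit 7) (nat_lit 4) (nat_lit 5) (nat_lit 4) (nat_lit 380) (nat_lit 238) (nat_lit 162)))) (XT.nd (nat_lit 78) (nat_lit 0) (nat_lit 0) (XT.lf (nat_lit 0) (nat_lit 26836407453) (nat_lit 152) (nat_lit 21426343314) (nat_lit 0) (nat_lit 5662394645) (nat_lit 5) (nat_lit 5) (nat_lit 7) (nat_lit 4) (nat_lit 5) (nat_lit 4) (nat_lit 381) (nat_lit 238) (nat_lit 161)) (XT.nd (nat_lit 78) (nat_lit 0) (nat_lit 0) (XT.lf (nat_lit 0) (nat_lit 29885180962) (nat_lit 152) (nat_lit 16925718443) (nat_lit 0) (nat_lit 8640588581) (nat_lit 5) (nat_lit 5) (nat_lit 7) (nat_lit 4) (nat_lit 5) (nat_lit 4) (nat_lit 382) (nat_lit 238) (nat_lit 160)) (XT.lf (nat_lit 0) (nat_lit 33010947030) (nat_lit 152) (nat_lit 12315291174) (nat_lit 0) (nat_lit 11697830793) (nat_lit 5) (nat_lit 5) (nat_lit 7) (nat_lit 4) (nat_lit 5) (nat_lit 4) (nat_lit 383) (nat_lit 238) (nat_lit 159))))))) (XT.nd (nat_lit 858) (nat_lit 152) (nat_lit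 0) (XT.nd (nat_lit 390) (nat_lit 0) (nat_lit 0) (XT.nd (nat_lit 156) (nat_lit 76) (nat_lit 0) (XT.nd (nat_lit 78) (nat_lit 0) (nat_lit 0) (XT.lf (nat_lit 0) (nat_lit 36216436911) (nat_lit 152) (nat_lit 7591032977) (nat_lit 0) (nat_lit 14836792656) (nat_lit 5) (nat_lit 5) (nat_lit 7) (nat_lit 4) (nat_lit 5) (nat_lit 4) (nat_lit 384) (nat_lit 238) (nat_lit 158)) (XT.lf (nat_lit 0) (nat_lit 39504451516) (nat_lit 152) (nat_lit 2748815861) (nat_lit 0) (nat_lit 18060216954) (nat_lit 5) (nat_lit 5) (nat_lit 7) (nat_lit 4) (nat_lit 5) (nat_lit 4) (nat_lit 385) (nat_lit 238) (nat_lit 157))) (XT.nd (nat_lit 78) (nat_lit 0) (nat_lit 0) (XT.lf (nat_lit 0) (nat_lit 2259685848) (nat_lit 76) (nat_lit 40639899504) (nat_lit 76) (nat_lit 19132955906) (nat_lit 4) (nat_lit 4) (nat_lit 5) (nat_lit 5) (nat_lit 5) (nat_lit 4) (nat_lit 386) (nat_lit 238) (nat_lit 156)) (XT.nd (nat_lit 78) (nat_lit 0) (nat_lit 0) (XT.lf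 (nat_lit 0) (nat_lit 7451940349) (nat_lit 76) (nat_lit 38959313872) (nat_lit 76) (nat_lit 17391487714) (nat_lit 4) (nat_lit 4) (nat_lit 5) (nat_lit 5) (nat_lit 5) (nat_lit 4) (nat_lit 387) (nat_lit 238) (nat_lit 155)) (XT.lf (nat_lit 0) (nat_lit 12777777738) (nat_lit 76) (nat_lit 37237799660) (nat_lit 76) (nat_lit 15610864221) (nat_lit 4) (nat_lit 4) (nat_lit 5) (nat_lit 5) (nat_lit 5) (nat_lit 4) (nat_lit 388) (nat_lit 238) (nat_lit 154))))) (XT.nd (nat_lit 234) (nat_lit 0) (nat_lit 0) (XT.nd (nat_lit 78) (nat_lit 0) (nat_lit 0) (XT.lf (nat_lit 0) (nat_lit 18241851658) (nat_lit 76) (nat_lit 35473852630) (nat_lit 76) (nat_lit 13789529540) (nat_lit 4) (nat_lit 4) (nat_lit 5) (nat_lit 5) (nat_lit 5) (nat_lit 4) (nat_lit 389) (nat_lit 238) (nat_lit 153)) (XT.nd (nat_lit 78) (nat_lit 0) (nat_lit 0) (XT.lf (nat_lit 0) (nat_lit 23848936545) (nat_lit 76) (nat_lit 33665931472) (nat_lit 76) (nat_lit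 11925892215) (nat_lit 4) (nat_lit 4) (nat_lit 5) (nat_lit 5) (nat_lit 5) (nat_lit 4) (nat_lit 390) (nat_lit 238) (nat_lit 152)) (XT.lf (nat_lit 0) (nat_lit 29603931791) (nat_lit 76) (nat_lit 31812456447) (nat_lit 76) (nat_lit 10018323824) (nat_lit 4) (nat_lit 4) (nat_lit 5) (nat_lit 5) (nat_lit 5) (nat_lit 4) (nat_lit 391) (nat_lit 238) (nat_lit 151)))) (XT.nd (nat_lit 78) (nat_lit 0) (nat_lit 0) (XT.lf (nat_lit 0) (nat_lit 35511866034) (nat_lit 76) (nat_lit 29911808014) (nat_lit 76) (nat_lit 8065157560) (nat_lit 4) (nat_lit 4) (nat_lit 5) (nat_lit 5) (nat_lit 5) (nat_lit 4) (nat_lit 392) (nat_lit 238) (nat_lit 150)) (XT.nd (nat_lit 78) (nat_lit 0) (nat_lit 0) (XT.lf (nat_lit 0) (nat_lit 41577901547) (nat_lit 76) (nat_lit 27962325413) (nat_lit 76) (nat_lit 6064686774) (nat_lit 4) (nat_lit 4) (nat_lit 5) (nat_lit 5) (nat_lit 5) (nat_lit 4) (nat_lit 393) (nat_lit 238) (nat_lit 149)) (XT.lf (nat_lit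 0) (nat_lit 47807338748) (nat_lit 76) (nat_lit 25962305211) (nat_lit 76) (nat_lit 4015163480) (nat_lit 4) (nat_lit 4) (nat_lit 5) (nat_lit 5) (nat_lit 5) (nat_lit 4) (nat_lit 394) (nat_lit 238) (nat_lit 148)))))) (XT.nd (nat_lit 546) (nat_lit 76) (nat_lit 0) (XT.nd (nat_lit 234) (nat_lit 0) (nat_lit 0) (XT.nd (nat_lit 78) (nat_lit 76) (nat_lit 0) (XT.lf (nat_lit 0) (nat_lit 54205620836) (nat_lit 76) (nat_lit 23909999820) (nat_lit 76) (nat_lit 1914796834) (nat_lit 4) (nat_lit 4) (nat_lit 5) (nat_lit 5) (nat_lit 5) (nat_lit 4) (nat_lit 395) (nat_lit 238) (nat_lit 147)) (XT.nd (nat_lit 78) (nat_lit 0) (nat_lit 0) (XT.lf (nat_lit 0) (nat_lit 233599350) (nat_lit 152) (nat_lit 21567657715) (nat_lit 76) (nat_lit 60542380295) (nat_lit 3) (nat_lit 5) (nat_lit 5) (nat_lit 5) (nat_lit 4) (nat_lit 4) (nat_lit 396) (nat_lit 238) (nat_lit 146)) (XT.lf (nat_lit 0) (nat_lit 2398126219) (nat_lit 152) (nat_lit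 17218970515) (nat_lit 76) (nat_lit 65108892425) (nat_lit 3) (nat_lit 5) (nat_lit 5) (nat_lit 5) (nat_lit 4) (nat_lit 4) (nat_lit 397) (nat_lit 238) (nat_lit 145)))) (XT.nd (nat_lit 78) (nat_lit 0) (nat_lit 0) (XT.lf (nat_lit 0) (nat_lit 4618039686) (nat_lit 152) (nat_lit 12756529032) (nat_lit 76) (nat_lit 69805538018) (nat_lit 3) (nat_lit 5) (nat_lit 5) (nat_lit 5) (nat_lit 4) (nat_lit 4) (nat_lit 398) (nat_lit 238) (nat_lit 144)) (XT.nd (nat_lit 78) (nat_lit 0) (nat_lit 0) (XT.lf (nat_lit 0) (nat_lit 6895279484) (nat_lit 152) (nat_lit 8176434045) (nat_lit 76) (nat_lit 74636420939) (nat_lit 3) (nat_lit 5) (nat_lit 5) (nat_lit 5) (nat_lit 4) (nat_lit 4) (nat_lit 399) (nat_lit 238) (nat_lit 143)) (XT.lf (nat_lit 0) (nat_lit 9231835433) (nat_lit 152) (nat_lit 3474683529) (nat_lit 76) (nat_lit 79605762348) (nat_lit 3) (nat_lit 5) (nat_lit 5) (nat_lit 5) (nat_lit 4) (nat_lit 4) (nat_lit 400) (nat_lit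 238) (nat_lit 142))))) (XT.nd (nat_lit 32994) (nat_lit 0) (nat_lit 5092) (XT.nd (nat_lit 32838) (nat_lit 0) (nat_lit 5548) (XT.lf (nat_lit 0) (nat_lit 6435915166) (nat_lit 76) (nat_lit 7717066788) (nat_lit 152) (nat_lit 83603264765) (nat_lit 2) (nat_lit 5) (nat_lit 3) (nat_lit 5) (nat_lit 4) (nat_lit 4) (nat_lit 402) (nat_lit 238) (nat_lit 140)) (XT.nd (nat_lit 78) (nat_lit 380) (nat_lit 0) (XT.lf (nat_lit 0) (nat_lit 2576485517) (nat_lit 380) (nat_lit 903982316) (nat_lit 380) (nat_lit 903982316) (nat_lit 80) (nat_lit 4) (nat_lit 85) (nat_lit 5) (nat_lit 85) (nat_lit 4) (nat_lit 302) (nat_lit 239) (nat_lit 239)) (XT.lf (nat_lit 0) (nat_lit 1365469090) (nat_lit 380) (nat_lit 7173567676) (nat_lit 0) (nat_lit 356148229) (nat_lit 75) (nat_lit 5) (nat_lit 80) (nat_lit 4) (nat_lit 75) (nat_lit 4) (nat_lit 303) (nat_lit 239) (nat_lit 238)))) (XT.nd (nat_lit 78) (nat_lit 456) (nat_lit 0) (XT.lf (nat_lit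 0) (nat_lit 4569733729) (nat_lit 380) (nat_lit 1875539577) (nat_lit 0) (nat_lit 2580489702) (nat_lit 75) (nat_lit 5) (nat_lit 80) (nat_lit 4) (nat_lit 75) (nat_lit 4) (nat_lit 304) (nat_lit 239) (nat_lit 237)) (XT.nd (nat_lit 78) (nat_lit 76) (nat_lit 0) (XT.lf (nat_lit 0) (nat_lit 3545144537) (nat_lit 380) (nat_lit 4278662046) (nat_lit 380) (nat_lit 1338036306) (nat_lit 70) (nat_lit 4) (nat_lit 75) (nat_lit 5) (nat_lit 75) (nat_lit 4) (nat_lit 305) (nat_lit 239) (nat_lit 236)) (XT.lf (nat_lit 0) (nat_lit 1776036270) (nat_lit 456) (nat_lit 258943679) (nat_lit 76) (nat_lit 7268495733) (nat_lit 69) (nat_lit 5) (nat_lit 75) (nat_lit 5) (nat_lit 70) (nat_lit 4) (nat_lit 306) (nat_lit 239) (nat_lit 235))))))))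
noncomputable def xc56 : XT := (XT.nd (nat_lit 1716) (nat_lit 1292) (nat_lit 0) (XT.nd (nat_lit 858) (nat_lit 1140) (nat_lit 0) (XT.nd (nat_lit 390) (nat_lit 912) (nat_lit 0) (XT.nd (nat_lit 156) (nat_lit 304) (nat_lit 0) (XT.nd (nat_lit 78) (nat_lit 304) (nat_lit 0) (XT.lf (nat_lit 0) (nat_lit 4932403097) (nat_lit 380) (nat_lit 4207453263) (nat_lit 0) (nat_lit 310009097) (nat_lit 65) (nat_lit 5) (nat_lit 70) (nat_lit 4) (nat_lit 65) (nat_lit 4) (nat_lit 307) (nat_lit 239) (nat_lit 234)) (XT.lf (nat_lit 0) (nat_lit 1212718291) (nat_lit 304) (nat_lit 6928526326) (nat_lit 304) (nat_lit 1460841995) (nat_lit 61) (nat_lit 4) (nat_lit 65) (nat_lit 5) (nat_lit 65) (nat_lit 4) (nat_lit 308) (nat_lit 239) (nat_lit 233))) (XT.nd (nat_lit 78) (nat_lit 228) (nat_lit 0) (XT.lf (nat_lit 0) (nat_lit 1621121490) (nat_lit 380) (nat_lit 2997477928) (nat_lit 76) (nat_lit 5140954409) (nat_lit 60) (nat_lit 5) (nat_lit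 65) (nat_lit 5) (nat_lit 61) (nat_lit 4) (nat_lit 309) (nat_lit 239) (nat_lit 232)) (XT.nd (nat_lit 78) (nat_lit 0) (nat_lit 0) (XT.lf (nat_lit 0) (nat_lit 2488339459) (nat_lit 228) (nat_lit 2227651290) (nat_lit 304) (nat_lit 5206984647) (nat_lit 57) (nat_lit 5) (nat_lit 60) (nat_lit 5) (nat_lit 61) (nat_lit 4) (nat_lit 310) (nat_lit 239) (nat_lit 231)) (XT.lf (nat_lit 0) (nat_lit 7863341820) (nat_lit 304) (nat_lit 1995769287) (nat_lit 0) (nat_lit 233553317) (nat_lit 57) (nat_lit 5) (nat_lit 61) (nat_lit 4) (nat_lit 57) (nat_lit 4) (nat_lit 311) (nat_lit 239) (nat_lit 230))))) (XT.nd (nat_lit 234) (nat_lit 304) (nat_lit 0) (XT.nd (nat_lit 78) (nat_lit 228) (nat_lit 0) (XT.lf (nat_lit 0) (nat_lit 806184766) (nat_lit 380) (nat_lit 6722388291) (nat_lit 76) (nat_lit 2739228707) (nat_lit 52) (nat_lit 5) (nat_lit 57) (nat_lit 5) (nat_lit 53) (nat_lit 4) (nat_lit 312) (nat_lit 239) (nat_lit 229)) (XT.nd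 (nat_lit 78) (nat_lit 228) (nat_lit 0) (XT.lf (nat_lit 0) (nat_lit 3837526261) (nat_lit 380) (nat_lit 1276682401) (nat_lit 76) (nat_lit 5334975931) (nat_lit 52) (nat_lit 5) (nat_lit 57) (nat_lit 5) (nat_lit 53) (nat_lit 4) (nat_lit 313) (nat_lit 239) (nat_lit 228)) (XT.lf (nat_lit 0) (nat_lit 4319038975) (nat_lit 228) (nat_lit 2613570915) (nat_lit 304) (nat_lit 3704351683) (nat_lit 49) (nat_lit 5) (nat_lit 52) (nat_lit 5) (nat_lit 53) (nat_lit 4) (nat_lit 314) (nat_lit 239) (nat_lit 227)))) (XT.nd (nat_lit 78) (nat_lit 304) (nat_lit 0) (XT.lf (nat_lit 0) (nat_lit 10012124247) (nat_lit 228) (nat_lit 53670503) (nat_lit 304) (nat_lit 766352393) (nat_lit 49) (nat_lit 5) (nat_lit 52) (nat_lit 5) (nat_lit 53) (nat_lit 4) (nat_lit 315) (nat_lit 239) (nat_lit 226)) (XT.nd (nat_lit 78) (nat_lit 0) (nat_lit 0) (XT.lf (nat_lit 0) (nat_lit 2220797822) (nat_lit 304) (nat_lit 6238657847) (nat_lit 76) (nat_lit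 2573052834) (nat_lit 45) (nat_lit 5) (nat_lit 49) (nat_lit 5) (nat_lit 46) (nat_lit 4) (nat_lit 316) (nat_lit 239) (nat_lit 225)) (XT.lf (nat_lit 0) (nat_lit 5225353859) (nat_lit 304) (nat_lit 750064812) (nat_lit 76) (nat_lit 5265060052) (nat_lit 45) (nat_lit 5) (nat_lit 49) (nat_lit 5) (nat_lit 46) (nat_lit 4) (nat_lit 317) (nat_lit 239) (nat_lit 224)))))) (XT.nd (nat_lit 390) (nat_lit 456) (nat_lit 0) (XT.nd (nat_lit 156) (nat_lit 456) (nat_lit 0) (XT.nd (nat_lit 78) (nat_lit 0) (nat_lit 0) (XT.lf (nat_lit 0) (nat_lit 4905530398) (nat_lit 228) (nat_lit 3397884959) (nat_lit 304) (nat_lit 3151889570) (nat_lit 42) (nat_lit 5) (nat_lit 45) (nat_lit 5) (nat_lit 46) (nat_lit 4) (nat_lit 318) (nat_lit 239) (nat_lit 223)) (XT.lf (nat_lit 0) (nat_lit 10653704370) (nat_lit 228) (nat_lit 764871359) (nat_lit 304) (nat_lit 259771980) (nat_lit 42) (nat_lit 5) (nat_lit 45) (nat_lit 5) (nat_lit 46) (nat_lit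 4) (nat_lit 319) (nat_lit 239) (nat_lit 222))) (XT.nd (nat_lit 78) (nat_lit 152) (nat_lit 0) (XT.lf (nat_lit 0) (nat_lit 2668081869) (nat_lit 304) (nat_lit 7287522785) (nat_lit 76) (nat_lit 1951739949) (nat_lit 38) (nat_lit 5) (nat_lit 42) (nat_lit 5) (nat_lit 39) (nat_lit 4) (nat_lit 320) (nat_lit 239) (nat_lit 221)) (XT.nd (nat_lit 78) (nat_lit 152) (nat_lit 0) (XT.lf (nat_lit 0) (nat_lit 5635518998) (nat_lit 304) (nat_lit 1790382401) (nat_lit 76) (nat_lit 4718628568) (nat_lit 38) (nat_lit 5) (nat_lit 42) (nat_lit 5) (nat_lit 39) (nat_lit 4) (nat_lit 321) (nat_lit 239) (nat_lit 220)) (XT.lf (nat_lit 0) (nat_lit 3857767549) (nat_lit 152) (nat_lit 4812019677) (nat_lit 228) (nat_lit 3719811162) (nat_lit 36) (nat_lit 5) (nat_lit 38) (nat_lit 5) (nat_lit 39) (nat_lit 4) (nat_lit 322) (nat_lit 239) (nat_lit 219))))) (XT.nd (nat_lit 234) (nat_lit 152) (nat_lit 0) (XT.nd (nat_lit 78) (nat_lit 304)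 (nat_lit 0) (XT.lf (nat_lit 0) (nat_lit 9623753847) (nat_lit 152) (nat_lit 2131011349) (nat_lit 228) (nat_lit 888561986) (nat_lit 36) (nat_lit 5) (nat_lit 38) (nat_lit 5) (nat_lit 39) (nat_lit 4) (nat_lit 323) (nat_lit 239) (nat_lit 218)) (XT.nd (nat_lit 78) (nat_lit 0) (nat_lit 0) (XT.lf (nat_lit 0) (nat_lit 1961937844) (nat_lit 304) (nat_lit 10308991191) (nat_lit 76) (nat_lit 634030801) (nat_lit 32) (nat_lit 5) (nat_lit 36) (nat_lit 5) (nat_lit 33) (nat_lit 4) (nat_lit 324) (nat_lit 239) (nat_lit 217)) (XT.lf (nat_lit 0) (nat_lit 4875192112) (nat_lit 304) (nat_lit 4849470233) (nat_lit 76) (nat_lit 3449752627) (nat_lit 32) (nat_lit 5) (nat_lit 36) (nat_lit 5) (nat_lit 33) (nat_lit 4) (nat_lit 325) (nat_lit 239) (nat_lit 216)))) (XT.nd (nat_lit 78) (nat_lit 0) (nat_lit 0) (XT.lf (nat_lit 0) (nat_lit 702476201) (nat_lit 152) (nat_lit 7124980501) (nat_lit 228) (nat_lit 5626036437) (nat_lit 30)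 (nat_lit 5) (nat_lit 32) (nat_lit 5) (nat_lit 33) (nat_lit 4) (nat_lit 326) (nat_lit 239) (nat_lit 215)) (XT.nd (nat_lit 78) (nat_lit 0) (nat_lit 0) (XT.lf (nat_lit 0) (nat_lit 6436156423) (nat_lit 152) (nat_lit 4426759322) (nat_lit 228) (nat_lit 2878274311) (nat_lit 30) (nat_lit 5) (nat_lit 32) (nat_lit 5) (nat_lit 33) (nat_lit 4) (nat_lit 327) (nat_lit 239) (nat_lit 214)) (XT.lf (nat_lit 0) (nat_lit 12260066477) (nat_lit 152) (nat_lit 1676611281) (nat_lit 228) (nat_lit 102505669) (nat_lit 30) (nat_lit 5) (nat_lit 32) (nat_lit 5) (nat_lit 33) (nat_lit 4) (nat_lit 328) (nat_lit 239) (nat_lit 213))))))) (XT.nd (nat_lit 858) (nat_lit 532) (nat_lit 0) (XT.nd (nat_lit 390) (nat_lit 380) (nat_lit 0) (XT.nd (nat_lit 156) (nat_lit 152) (nat_lit 0) (XT.nd (nat_lit 78) (nat_lit 0) (nat_lit 0) (XT.lf (nat_lit 0) (nat_lit 2699714090) (nat_lit 228) (nat_lit 10475992767) (nat_lit 76) (nat_lit 1169783746)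 (nat_lit 27) (nat_lit 5) (nat_lit 30) (nat_lit 5) (nat_lit 28) (nat_lit 4) (nat_lit 329) (nat_lit 239) (nat_lit 212)) (XT.lf (nat_lit 0) (nat_lit 5567341083) (nat_lit 228) (nat_lit 5035250426) (nat_lit 76) (nat_lit 4058938712) (nat_lit 27) (nat_lit 5) (nat_lit 30) (nat_lit 5) (nat_lit 28) (nat_lit 4) (nat_lit 330) (nat_lit 239) (nat_lit 211))) (XT.nd (nat_lit 78) (nat_lit 0) (nat_lit 0) (XT.lf (nat_lit 0) (nat_lit 499776602) (nat_lit 152) (nat_lit 7976177181) (nat_lit 228) (nat_lit 6512522034) (nat_lit 25) (nat_lit 5) (nat_lit 27) (nat_lit 5) (nat_lit 28) (nat_lit 4) (nat_lit 331) (nat_lit 239) (nat_lit 210)) (XT.nd (nat_lit 78) (nat_lit 0) (nat_lit 0) (XT.lf (nat_lit 0) (nat_lit 6226153588) (nat_lit 152) (nat_lit 5247373035) (nat_lit 228) (nat_lit 3851723462) (nat_lit 25) (nat_lit 5) (nat_lit 27) (nat_lit 5) (nat_lit 28) (nat_lit 4) (nat_lit 332) (nat_lit 239) (nat_lit 209)) (XT.lf (nat_lit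 0) (nat_lit 12048672803) (nat_lit 152) (nat_lit 2464640834) (nat_lit 228) (nat_lit 1160314609) (nat_lit 25) (nat_lit 5) (nat_lit 27) (nat_lit 5) (nat_lit 28) (nat_lit 4) (nat_lit 333) (nat_lit 239) (nat_lit 208))))) (XT.nd (nat_lit 234) (nat_lit 152) (nat_lit 0) (XT.nd (nat_lit 78) (nat_lit 0) (nat_lit 0) (XT.lf (nat_lit 0) (nat_lit 1556328462) (nat_lit 228) (nat_lit 14075079577) (nat_lit 76) (nat_lit 401371853) (nat_lit 22) (nat_lit 5) (nat_lit 25) (nat_lit 5) (nat_lit 23) (nat_lit 4) (nat_lit 334) (nat_lit 239) (nat_lit 207)) (XT.nd (nat_lit 78) (nat_lit 0) (nat_lit 0) (XT.lf (nat_lit 0) (nat_lit 4346062868) (nat_lit 228) (nat_lit 8730615373) (nat_lit 76) (nat_lit 3325299200) (nat_lit 22) (nat_lit 5) (nat_lit 25) (nat_lit 5) (nat_lit 23) (nat_lit 4) (nat_lit 335) (nat_lit 239) (nat_lit 206)) (XT.lf (nat_lit 0) (nat_lit 7174385875) (nat_lit 228) (nat_lit 3298533884) (nat_lit 76) (nat_lit 6310745814)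 (nat_lit 22) (nat_lit 5) (nat_lit 25) (nat_lit 5) (nat_lit 23) (nat_lit 4) (nat_lit 336) (nat_lit 239) (nat_lit 205)))) (XT.nd (nat_lit 78) (nat_lit 0) (nat_lit 0) (XT.lf (nat_lit 0) (nat_lit 2270211369) (nat_lit 152) (nat_lit 7795380123) (nat_lit 228) (nat_lit 7111931627) (nat_lit 20) (nat_lit 5) (nat_lit 22) (nat_lit 5) (nat_lit 23) (nat_lit 4) (nat_lit 337) (nat_lit 239) (nat_lit 204)) (XT.nd (nat_lit 78) (nat_lit 0) (nat_lit 0) (XT.lf (nat_lit 0) (nat_lit 8003729154) (nat_lit 152) (nat_lit 5029926554) (nat_lit 228) (nat_lit 4549895029) (nat_lit 20) (nat_lit 5) (nat_lit 22) (nat_lit 5) (nat_lit 23) (nat_lit 4) (nat_lit 338) (nat_lit 239) (nat_lit 203)) (XT.lf (nat_lit 0) (nat_lit 13841382050) (nat_lit 152) (nat_lit 2207451359) (nat_lit 228) (nat_lit 1954239956) (nat_lit 20) (nat_lit 5) (nat_lit 22) (nat_lit 5) (nat_lit 23) (nat_lit 4) (nat_lit 339) (nat_lit 239) (nat_lit 202)))))) (XT.nd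 (nat_lit 468) (nat_lit 228) (nat_lit 0) (XT.nd (nat_lit 234) (nat_lit 76) (nat_lit 0) (XT.nd (nat_lit 78) (nat_lit 0) (nat_lit 0) (XT.lf (nat_lit 0) (nat_lit 683953155) (nat_lit 228) (nat_lit 17070468584) (nat_lit 76) (nat_lit 681244475) (nat_lit 17) (nat_lit 5) (nat_lit 20) (nat_lit 5) (nat_lit 18) (nat_lit 4) (nat_lit 340) (nat_lit 239) (nat_lit 201)) (XT.nd (nat_lit 78) (nat_lit 0) (nat_lit 0) (XT.lf (nat_lit 0) (nat_lit 3385465067) (nat_lit 228) (nat_lit 11845528936) (nat_lit 76) (nat_lit 3649010388) (nat_lit 17) (nat_lit 5) (nat_lit 20) (nat_lit 5) (nat_lit 18) (nat_lit 4) (nat_lit 341) (nat_lit 239) (nat_lit 200)) (XT.lf (nat_lit 0) (nat_lit 6128366347) (nat_lit 228) (nat_lit 6529021408) (nat_lit 76) (nat_lit 6681524684) (nat_lit 17) (nat_lit 5) (nat_lit 20) (nat_lit 5) (nat_lit 18) (nat_lit 4) (nat_lit 342) (nat_lit 239) (nat_lit 199)))) (XT.nd (nat_lit 78) (nat_lit 76) (nat_lit 0) (XT.lf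 (nat_lit 0) (nat_lit 8915053705) (nat_lit 228) (nat_lit 1116300509) (nat_lit 76) (nat_lit 9781437133) (nat_lit 17) (nat_lit 5) (nat_lit 20) (nat_lit 5) (nat_lit 18) (nat_lit 4) (nat_lit 343) (nat_lit 239) (nat_lit 198)) (XT.nd (nat_lit 78) (nat_lit 0) (nat_lit 0) (XT.lf (nat_lit 0) (nat_lit 4484879476) (nat_lit 76) (nat_lit 7306194040) (nat_lit 152) (nat_lit 8509688326) (nat_lit 16) (nat_lit 5) (nat_lit 17) (nat_lit 5) (nat_lit 18) (nat_lit 4) (nat_lit 344) (nat_lit 239) (nat_lit 197)) (XT.lf (nat_lit 0) (nat_lit 10216141574) (nat_lit 76) (nat_lit 4511629150) (nat_lit 152) (nat_lit 6076414623) (nat_lit 16) (nat_lit 5) (nat_lit 17) (nat_lit 5) (nat_lit 18) (nat_lit 4) (nat_lit 345) (nat_lit 239) (nat_lit 196))))) (XT.nd (nat_lit 234) (nat_lit 0) (nat_lit 0) (XT.nd (nat_lit 78) (nat_lit 228) (nat_lit 0) (XT.lf (nat_lit 0) (nat_lit 16060277114) (nat_lit 76) (nat_lit 1656490138) (nat_lit 152) (nat_lit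 3607062820) (nat_lit 16) (nat_lit 5) (nat_lit 17) (nat_lit 5) (nat_lit 18) (nat_lit 4) (nat_lit 346) (nat_lit 239) (nat_lit 195)) (XT.nd (nat_lit 78) (nat_lit 76) (nat_lit 0) (XT.lf (nat_lit 0) (nat_lit 153101709) (nat_lit 152) (nat_lit 20621173246) (nat_lit 152) (nat_lit 1085467116) (nat_lit 14) (nat_lit 4) (nat_lit 16) (nat_lit 5) (nat_lit 16) (nat_lit 4) (nat_lit 347) (nat_lit 239) (nat_lit 194)) (XT.lf (nat_lit 0) (nat_lit 1517460862) (nat_lit 228) (nat_lit 16659819825) (nat_lit 76) (nat_lit 4232999934) (nat_lit 13) (nat_lit 5) (nat_lit 16) (nat_lit 5) (nat_lit 14) (nat_lit 4) (nat_lit 348) (nat_lit 239) (nat_lit 193)))) (XT.nd (nat_lit 78) (nat_lit 0) (nat_lit 0) (XT.lf (nat_lit 0) (nat_lit 4142782096) (nat_lit 228) (nat_lit 11529018929) (nat_lit 76) (nat_lit 7306267727) (nat_lit 13) (nat_lit 5) (nat_lit 16) (nat_lit 5) (nat_lit 14) (nat_lit 4) (nat_lit 349) (nat_lit 239) (nat_lit 192))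 (XT.nd (nat_lit 78) (nat_lit 0) (nat_lit 0) (XT.lf (nat_lit 0) (nat_lit 6813971930) (nat_lit 228) (nat_lit 6299320275) (nat_lit 76) (nat_lit 10450623410) (nat_lit 13) (nat_lit 5) (nat_lit 16) (nat_lit 5) (nat_lit 14) (nat_lit 4) (nat_lit 350) (nat_lit 239) (nat_lit 191)) (XT.lf (nat_lit 0) (nat_lit 9533364413) (nat_lit 228) (nat_lit 966154224) (nat_lit 76) (nat_lit 13668814479) (nat_lit 13) (nat_lit 5) (nat_lit 16) (nat_lit 5) (nat_lit 14) (nat_lit 4) (nat_lit 351) (nat_lit 239) (nat_lit 190))))))))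
noncomputable def xc57 : XT := (XT.nd (nat_lit 1716) (nat_lit 152) (nat_lit 0) (XT.nd (nat_lit 858) (nat_lit 152) (nat_lit 0) (XT.nd (nat_lit 390) (nat_lit 152) (nat_lit 0) (XT.nd (nat_lit 156) (nat_lit 152) (nat_lit 0) (XT.nd (nat_lit 78) (nat_lit 0) (nat_lit 0) (XT.lf (nat_lit 0) (nat_lit 4564203318) (nat_lit 76) (nat_lit 7783006308) (nat_lit 152) (nat_lit 12443323542) (nat_lit 12) (nat_lit 5) (nat_lit 13) (nat_lit 5) (nat_lit 14) (nat_lit 4) (nat_lit 352) (nat_lit 239) (nat_lit 189)) (XT.lf (nat_lit 0) (nat_lit 10228917770) (nat_lit 76) (nat_lit 4995715036) (nat_lit 152) (nat_lit 10207426639) (nat_lit 12) (nat_lit 5) (nat_lit 13) (nat_lit 5) (nat_lit 14) (nat_lit 4) (nat_lit 353) (nat_lit 239) (nat_lit 188))) (XT.nd (nat_lit 78) (nat_lit 152) (nat_lit 0) (XT.lf (nat_lit 0) (nat_lit 16013710519) (nat_lit 76) (nat_lit 2144965586) (nat_lit 152) (nat_lit 7935080562) (nat_lit 12) (nat_lit 5) (nat_lit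 13) (nat_lit 5) (nat_lit 14) (nat_lit 4) (nat_lit 354) (nat_lit 239) (nat_lit 187)) (XT.nd (nat_lit 78) (nat_lit 152) (nat_lit 0) (XT.lf (nat_lit 0) (nat_lit 21159321621) (nat_lit 152) (nat_lit 4859985148) (nat_lit 0) (nat_lit 756673696) (nat_lit 12) (nat_lit 5) (nat_lit 14) (nat_lit 4) (nat_lit 12) (nat_lit 4) (nat_lit 355) (nat_lit 239) (nat_lit 186)) (XT.lf (nat_lit 0) (nat_lit 456661338) (nat_lit 152) (nat_lit 23790771956) (nat_lit 152) (nat_lit 3231346402) (nat_lit 10) (nat_lit 4) (nat_lit 12) (nat_lit 5) (nat_lit 12) (nat_lit 4) (nat_lit 356) (nat_lit 239) (nat_lit 185))))) (XT.nd (nat_lit 234) (nat_lit 76) (nat_lit 0) (XT.nd (nat_lit 78) (nat_lit 76) (nat_lit 0) (XT.lf (nat_lit 0) (nat_lit 5985209534) (nat_lit 152) (nat_lit 21464241757) (nat_lit 152) (nat_lit 752604913) (nat_lit 10) (nat_lit 4) (nat_lit 12) (nat_lit 5) (nat_lit 12) (nat_lit 4) (nat_lit 357) (nat_lit 239) (nat_lit 184))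 (XT.nd (nat_lit 78) (nat_lit 0) (nat_lit 0) (XT.lf (nat_lit 0) (nat_lit 1738064306) (nat_lit 228) (nat_lit 17331144254) (nat_lit 76) (nat_lit 9878151628) (nat_lit 9) (nat_lit 5) (nat_lit 12) (nat_lit 5) (nat_lit 10) (nat_lit 4) (nat_lit 358) (nat_lit 239) (nat_lit 183)) (XT.lf (nat_lit 0) (nat_lit 4261821845) (nat_lit 228) (nat_lit 12351390189) (nat_lit 76) (nat_lit 13102411406) (nat_lit 9) (nat_lit 5) (nat_lit 12) (nat_lit 5) (nat_lit 10) (nat_lit 4) (nat_lit 359) (nat_lit 239) (nat_lit 182)))) (XT.nd (nat_lit 78) (nat_lit 76) (nat_lit 0) (XT.lf (nat_lit 0) (nat_lit 6835558961) (nat_lit 228) (nat_lit 7265998736) (nat_lit 76) (nat_lit 16406176597) (nat_lit 9) (nat_lit 5) (nat_lit 12) (nat_lit 5) (nat_lit 10) (nat_lit 4) (nat_lit 360) (nat_lit 239) (nat_lit 181)) (XT.nd (nat_lit 78) (nat_lit 76) (nat_lit 0) (XT.lf (nat_lit 0) (nat_lit 9461524551) (nat_lit 228) (nat_lit 2070526349) (nat_lit 76)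 (nat_lit 19792333987) (nat_lit 9) (nat_lit 5) (nat_lit 12) (nat_lit 5) (nat_lit 10) (nat_lit 4) (nat_lit 361) (nat_lit 239) (nat_lit 180)) (XT.lf (nat_lit 0) (nat_lit 3304040434) (nat_lit 76) (nat_lit 8869733171) (nat_lit 152) (nat_lit 19991562376) (nat_lit 8) (nat_lit 5) (nat_lit 9) (nat_lit 5) (nat_lit 10) (nat_lit 4) (nat_lit 362) (nat_lit 239) (nat_lit 179)))))) (XT.nd (nat_lit 390) (nat_lit 152) (nat_lit 0) (XT.nd (nat_lit 156) (nat_lit 0) (nat_lit 0) (XT.nd (nat_lit 78) (nat_lit 0) (nat_lit 0) (XT.lf (nat_lit 0) (nat_lit 8841448826) (nat_lit 76) (nat_lit 6122907514) (nat_lit 152) (nat_lit 18067275640) (nat_lit 8) (nat_lit 5) (nat_lit 9) (nat_lit 5) (nat_lit 10) (nat_lit 4) (nat_lit 363) (nat_lit 239) (nat_lit 178)) (XT.lf (nat_lit 0) (nat_lit 14505329804) (nat_lit 76) (nat_lit 3310082046) (nat_lit 152) (nat_lit 16109226970) (nat_lit 8) (nat_lit 5) (nat_lit 9) (nat_lit 5) (nat_lit 10) (nat_lit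 4) (nat_lit 364) (nat_lit 239) (nat_lit 177))) (XT.nd (nat_lit 78) (nat_lit 0) (nat_lit 0) (XT.lf (nat_lit 0) (nat_lit 20300632390) (nat_lit 76) (nat_lit 428798960) (nat_lit 152) (nat_lit 14115705449) (nat_lit 8) (nat_lit 5) (nat_lit 9) (nat_lit 5) (nat_lit 10) (nat_lit 4) (nat_lit 365) (nat_lit 239) (nat_lit 176)) (XT.nd (nat_lit 78) (nat_lit 0) (nat_lit 0) (XT.lf (nat_lit 0) (nat_lit 23733218105) (nat_lit 152) (nat_lit 9585766830) (nat_lit 0) (nat_lit 2474217589) (nat_lit 8) (nat_lit 5) (nat_lit 10) (nat_lit 4) (nat_lit 8) (nat_lit 4) (nat_lit 366) (nat_lit 239) (nat_lit 175)) (XT.lf (nat_lit 0) (nat_lit 26809947484) (nat_lit 152) (nat_lit 4519314102) (nat_lit 0) (nat_lit 5440986293) (nat_lit 8) (nat_lit 5) (nat_lit 10) (nat_lit 4) (nat_lit 8) (nat_lit 4) (nat_lit 367) (nat_lit 239) (nat_lit 174))))) (XT.nd (nat_lit 234) (nat_lit 76) (nat_lit 0) (XT.nd (nat_lit 78) (nat_lit 0) (nat_lit 0)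 (XT.lf (nat_lit 0) (nat_lit 676605662) (nat_lit 76) (nat_lit 29288084300) (nat_lit 76) (nat_lit 7812365172) (nat_lit 7) (nat_lit 4) (nat_lit 8) (nat_lit 5) (nat_lit 8) (nat_lit 4) (nat_lit 368) (nat_lit 239) (nat_lit 173)) (XT.nd (nat_lit 78) (nat_lit 0) (nat_lit 0) (XT.lf (nat_lit 0) (nat_lit 6085665260) (nat_lit 76) (nat_lit 27153518461) (nat_lit 76) (nat_lit 5574150851) (nat_lit 7) (nat_lit 4) (nat_lit 8) (nat_lit 5) (nat_lit 8) (nat_lit 4) (nat_lit 369) (nat_lit 239) (nat_lit 172)) (XT.lf (nat_lit 0) (nat_lit 11622647842) (nat_lit 76) (nat_lit 24969335128) (nat_lit 76) (nat_lit 3289337923) (nat_lit 7) (nat_lit 4) (nat_lit 8) (nat_lit 5) (nat_lit 8) (nat_lit 4) (nat_lit 370) (nat_lit 239) (nat_lit 171)))) (XT.nd (nat_lit 78) (nat_lit 76) (nat_lit 0) (XT.lf (nat_lit 0) (nat_lit 17292391547) (nat_lit 76) (nat_lit 22733625790) (nat_lit 76) (nat_lit 955929950) (nat_lit 7) (nat_lit 4) (nat_lit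 8) (nat_lit 5) (nat_lit 8) (nat_lit 4) (nat_lit 371) (nat_lit 239) (nat_lit 170)) (XT.nd (nat_lit 78) (nat_lit 0) (nat_lit 0) (XT.lf (nat_lit 0) (nat_lit 1400244359) (nat_lit 152) (nat_lit 19030052833) (nat_lit 76) (nat_lit 21685466439) (nat_lit 6) (nat_lit 5) (nat_lit 8) (nat_lit 5) (nat_lit 7) (nat_lit 4) (nat_lit 372) (nat_lit 239) (nat_lit 169)) (XT.lf (nat_lit 0) (nat_lit 3789453422) (nat_lit 152) (nat_lit 14272048770) (nat_lit 76) (nat_lit 25222379771) (nat_lit 6) (nat_lit 5) (nat_lit 8) (nat_lit 5) (nat_lit 7) (nat_lit 4) (nat_lit 373) (nat_lit 239) (nat_lit 168))))))) (XT.nd (nat_lit 858) (nat_lit 76) (nat_lit 0) (XT.nd (nat_lit 390) (nat_lit 0) (nat_lit 0) (XT.nd (nat_lit 156) (nat_lit 76) (nat_lit 0) (XT.nd (nat_lit 78) (nat_lit 0) (nat_lit 0) (XT.lf (nat_lit 0) (nat_lit 6232438532) (nat_lit 152) (nat_lit 9402197087) (nat_lit 76) (nat_lit 28852963016) (nat_lit 6) (nat_lit 5) (nat_lit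 8) (nat_lit 5) (nat_lit 7) (nat_lit 4) (nat_lit 374) (nat_lit 239) (nat_lit 167)) (XT.lf (nat_lit 0) (nat_lit 8731334337) (nat_lit 152) (nat_lit 4416242576) (nat_lit 76) (nat_lit 32580388530) (nat_lit 6) (nat_lit 5) (nat_lit 8) (nat_lit 5) (nat_lit 7) (nat_lit 4) (nat_lit 375) (nat_lit 239) (nat_lit 166))) (XT.nd (nat_lit 78) (nat_lit 0) (nat_lit 0) (XT.lf (nat_lit 0) (nat_lit 703907188) (nat_lit 76) (nat_lit 10591183536) (nat_lit 152) (nat_lit 35710772485) (nat_lit 5) (nat_lit 5) (nat_lit 6) (nat_lit 5) (nat_lit 7) (nat_lit 4) (nat_lit 376) (nat_lit 239) (nat_lit 165)) (XT.nd (nat_lit 78) (nat_lit 0) (nat_lit 0) (XT.lf (nat_lit 0) (nat_lit 6039356423) (nat_lit 76) (nat_lit 7924340362) (nat_lit 152) (nat_lit 34357579289) (nat_lit 5) (nat_lit 5) (nat_lit 6) (nat_lit 5) (nat_lit 7) (nat_lit 4) (nat_lit 377) (nat_lit 239) (nat_lit 164)) (XT.lf (nat_lit 0) (nat_lit 11506875285) (nat_lit 76) (nat_lit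 5189312531) (nat_lit 152) (nat_lit 32980464508) (nat_lit 5) (nat_lit 5) (nat_lit 6) (nat_lit 5) (nat_lit 7) (nat_lit 4) (nat_lit 378) (nat_lit 239) (nat_lit 163))))) (XT.nd (nat_lit 234) (nat_lit 0) (nat_lit 0) (XT.nd (nat_lit 78) (nat_lit 0) (nat_lit 0) (XT.lf (nat_lit 0) (nat_lit 17111241218) (nat_lit 76) (nat_lit 2383710213) (nat_lit 152) (nat_lit 31578224837) (nat_lit 5) (nat_lit 5) (nat_lit 6) (nat_lit 5) (nat_lit 7) (nat_lit 4) (nat_lit 379) (nat_lit 239) (nat_lit 162)) (XT.nd (nat_lit 78) (nat_lit 0) (nat_lit 0) (XT.lf (nat_lit 0) (nat_lit 22367190607) (nat_lit 152) (nat_lit 29659474385) (nat_lit 0) (nat_lit 485260455) (nat_lit 5) (nat_lit 5) (nat_lit 7) (nat_lit 4) (nat_lit 5) (nat_lit 4) (nat_lit 380) (nat_lit 239) (nat_lit 161)) (XT.lf (nat_lit 0) (nat_lit 25334293284) (nat_lit 152) (nat_lit 25277513829) (nat_lit 0) (nat_lit 3381783559) (nat_lit 5) (nat_lit 5) (nat_lit 7) (nat_lit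 4) (nat_lit 5) (nat_lit 4) (nat_lit 381) (nat_lit 239) (nat_lit 160)))) (XT.nd (nat_lit 78) (nat_lit 0) (nat_lit 0) (XT.lf (nat_lit 0) (nat_lit 28375938396) (nat_lit 152) (nat_lit 20789310804) (nat_lit 0) (nat_lit 6354904814) (nat_lit 5) (nat_lit 5) (nat_lit 7) (nat_lit 4) (nat_lit 5) (nat_lit 4) (nat_lit 382) (nat_lit 239) (nat_lit 159)) (XT.nd (nat_lit 78) (nat_lit 0) (nat_lit 0) (XT.lf (nat_lit 0) (nat_lit 31494783691) (nat_lit 152) (nat_lit 16190943579) (nat_lit 0) (nat_lit 9407222092) (nat_lit 5) (nat_lit 5) (nat_lit 7) (nat_lit 4) (nat_lit 5) (nat_lit 4) (nat_lit 383) (nat_lit 239) (nat_lit 158)) (XT.lf (nat_lit 0) (nat_lit 34693554374) (nat_lit 152) (nat_lit 11478394164) (nat_lit 0) (nat_lit 12541402467) (nat_lit 5) (nat_lit 5) (nat_lit 7) (nat_lit 4) (nat_lit 5) (nat_lit 4) (nat_lit 384) (nat_lit 239) (nat_lit 157)))))) (XT.nd (nat_lit 468) (nat_lit 0) (nat_lit 0) (XT.nd (nat_lit 234)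 (nat_lit 0) (nat_lit 0) (XT.nd (nat_lit 78) (nat_lit 76) (nat_lit 0) (XT.lf (nat_lit 0) (nat_lit 37975045486) (nat_lit 152) (nat_lit 6647544797) (nat_lit 0) (nat_lit 15760184544) (nat_lit 5) (nat_lit 5) (nat_lit 7) (nat_lit 4) (nat_lit 5) (nat_lit 4) (nat_lit 385) (nat_lit 239) (nat_lit 156)) (XT.nd (nat_lit 78) (nat_lit 76) (nat_lit 0) (XT.lf (nat_lit 0) (nat_lit 41342124351) (nat_lit 152) (nat_lit 1694174347) (nat_lit 0) (nat_lit 19066380849) (nat_lit 5) (nat_lit 5) (nat_lit 7) (nat_lit 4) (nat_lit 5) (nat_lit 4) (nat_lit 386) (nat_lit 239) (nat_lit 155)) (XT.lf (nat_lit 0) (nat_lit 3453434315) (nat_lit 76) (nat_lit 41377495284) (nat_lit 76) (nat_lit 19042642501) (nat_lit 4) (nat_lit 4) (nat_lit 5) (nat_lit 5) (nat_lit 5) (nat_lit 4) (nat_lit 387) (nat_lit 239) (nat_lit 154)))) (XT.nd (nat_lit 78) (nat_lit 0) (nat_lit 0) (XT.lf (nat_lit 0) (nat_lit 8768661561) (nat_lit 76) (nat_lit 39660519303)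 (nat_lit 76) (nat_lit 17268278868) (nat_lit 4) (nat_lit 4) (nat_lit 5) (nat_lit 5) (nat_lit 5) (nat_lit 4) (nat_lit 388) (nat_lit 239) (nat_lit 153)) (XT.nd (nat_lit 78) (nat_lit 0) (nat_lit 0) (XT.lf (nat_lit 0) (nat_lit 14222434373) (nat_lit 76) (nat_lit 37900978324) (nat_lit 76) (nat_lit 15453021722) (nat_lit 4) (nat_lit 4) (nat_lit 5) (nat_lit 5) (nat_lit 5) (nat_lit 4) (nat_lit 389) (nat_lit 239) (nat_lit 152)) (XT.lf (nat_lit 0) (nat_lit 19819518182) (nat_lit 76) (nat_lit 36097334883) (nat_lit 76) (nat_lit 13595284916) (nat_lit 4) (nat_lit 4) (nat_lit 5) (nat_lit 5) (nat_lit 5) (nat_lit 4) (nat_lit 390) (nat_lit 239) (nat_lit 151))))) (XT.nd (nat_lit 234) (nat_lit 0) (nat_lit 0) (XT.nd (nat_lit 78) (nat_lit 0) (nat_lit 0) (XT.lf (nat_lit 0) (nat_lit 25564803645) (nat_lit 76) (nat_lit 34248012983) (nat_lit 76) (nat_lit 11693445185) (nat_lit 4) (nat_lit 4) (nat_lit 5) (nat_lit 5) (nat_lit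 5) (nat_lit 4) (nat_lit 391) (nat_lit 239) (nat_lit 150)) (XT.nd (nat_lit 78) (nat_lit 0) (nat_lit 0) (XT.lf (nat_lit 0) (nat_lit 31463310914) (nat_lit 76) (nat_lit 32351396710) (nat_lit 76) (nat_lit 9745840727) (nat_lit 4) (nat_lit 4) (nat_lit 5) (nat_lit 5) (nat_lit 5) (nat_lit 4) (nat_lit 392) (nat_lit 239) (nat_lit 149)) (XT.lf (nat_lit 0) (nat_lit 37520194024) (nat_lit 76) (nat_lit 30405828827) (nat_lit 76) (nat_lit 7750769752) (nat_lit 4) (nat_lit 4) (nat_lit 5) (nat_lit 5) (nat_lit 5) (nat_lit 4) (nat_lit 393) (nat_lit 239) (nat_lit 148)))) (XT.nd (nat_lit 78) (nat_lit 0) (nat_lit 0) (XT.lf (nat_lit 0) (nat_lit 43740745398) (nat_lit 76) (nat_lit 28409609323) (nat_lit 76) (nat_lit 5706488993) (nat_lit 4) (nat_lit 4) (nat_lit 5) (nat_lit 5) (nat_lit 5) (nat_lit 4) (nat_lit 394) (nat_lit 239) (nat_lit 147)) (XT.nd (nat_lit 78) (nat_lit 0) (nat_lit 0) (XT.lf (nat_lit 0) (nat_lit 50130400468)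 (nat_lit 76) (nat_lit 26360993929) (nat_lit 76) (nat_lit 3611212187) (nat_lit 4) (nat_lit 4) (nat_lit 5) (nat_lit 5) (nat_lit 5) (nat_lit 4) (nat_lit 395) (nat_lit 239) (nat_lit 146)) (XT.lf (nat_lit 0) (nat_lit 56694742429) (nat_lit 76) (nat_lit 24258192593) (nat_lit 76) (nat_lit 1463108508) (nat_lit 4) (nat_lit 4) (nat_lit 5) (nat_lit 5) (nat_lit 5) (nat_lit 4) (nat_lit 396) (nat_lit 239) (nat_lit 145))))))))
noncomputable def xc58 : XT := (XT.nd (nat_lit 34398) (nat_lit 0) (nat_lit 1368) (XT.nd (nat_lit 33540) (nat_lit 0) (nat_lit 3268) (XT.nd (nat_lit 33072) (nat_lit 0) (nat_lit 5168) (XT.nd (nat_lit 156) (nat_lit 76) (nat_lit 0) (XT.nd (nat_lit 78) (nat_lit 0) (nat_lit 0) (XT.lf (nat_lit 0) (nat_lit 725264833) (nat_lit 152) (nat_lit 21366779328) (nat_lit 76) (nat_lit 62706918527) (nat_lit 3) (nat_lit 5) (nat_lit 5) (nat_lit 5) (nat_lit 4) (nat_lit 4) (nat_lit 397) (nat_lit 239) (nat_lit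 144)) (XT.lf (nat_lit 0) (nat_lit 2940611270) (nat_lit 152) (nat_lit 16912327864) (nat_lit 76) (nat_lit 67400282327) (nat_lit 3) (nat_lit 5) (nat_lit 5) (nat_lit 5) (nat_lit 4) (nat_lit 4) (nat_lit 398) (nat_lit 239) (nat_lit 143))) (XT.nd (nat_lit 78) (nat_lit 76) (nat_lit 0) (XT.lf (nat_lit 0) (nat_lit 5213417056) (nat_lit 152) (nat_lit 12339990178) (nat_lit 76) (nat_lit 72227979041) (nat_lit 3) (nat_lit 5) (nat_lit 5) (nat_lit 5) (nat_lit 4) (nat_lit 4) (nat_lit 399) (nat_lit 239) (nat_lit 142)) (XT.nd (nat_lit 156) (nat_lit 76) (nat_lit 0) (XT.lf (nat_lit 0) (nat_lit 7545668140) (nat_lit 152) (nat_lit 7645771023) (nat_lit 76) (nat_lit 77194227045) (nat_lit 3) (nat_lit 5) (nat_lit 5) (nat_lit 5) (nat_lit 4) (nat_lit 4) (nat_lit 400) (nat_lit 239) (nat_lit 141)) (XT.lf (nat_lit 0) (nat_lit 2167117015) (nat_lit 76) (nat_lit 10250426117) (nat_lit 152) (nat_lit 85413574178) (nat_lit 2) (nat_lit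 5) (nat_lit 3) (nat_lit 5) (nat_lit 4) (nat_lit 4) (nat_lit 402) (nat_lit 239) (nat_lit 139))))) (XT.nd (nat_lit 234) (nat_lit 760) (nat_lit 0) (XT.nd (nat_lit 78) (nat_lit 380) (nat_lit 0) (XT.lf (nat_lit 0) (nat_lit 778269073) (nat_lit 456) (nat_lit 2708590666) (nat_lit 0) (nat_lit 778269073) (nat_lit 85) (nat_lit 5) (nat_lit 91) (nat_lit 4) (nat_lit 85) (nat_lit 4) (nat_lit 300) (nat_lit 240) (nat_lit 240)) (XT.nd (nat_lit 78) (nat_lit 380) (nat_lit 0) (XT.lf (nat_lit 0) (nat_lit 4742371264) (nat_lit 456) (nat_lit 233925736) (nat_lit 0) (nat_lit 3671582763) (nat_lit 85) (nat_lit 5) (nat_lit 91) (nat_lit 4) (nat_lit 85) (nat_lit 4) (nat_lit 301) (nat_lit 240) (nat_lit 239)) (XT.lf (nat_lit 0) (nat_lit 5101075333) (nat_lit 380) (nat_lit 2889772587) (nat_lit 380) (nat_lit 779383600) (nat_lit 80) (nat_lit 4) (nat_lit 85) (nat_lit 5) (nat_lit 85) (nat_lit 4) (nat_lit 302) (nat_lit 240) (nat_lit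 238)))) (XT.nd (nat_lit 78) (nat_lit 380) (nat_lit 0) (XT.lf (nat_lit 0) (nat_lit 1608540009) (nat_lit 304) (nat_lit 720647112) (nat_lit 380) (nat_lit 6568475131) (nat_lit 75) (nat_lit 5) (nat_lit 79) (nat_lit 5) (nat_lit 80) (nat_lit 4) (nat_lit 303) (nat_lit 240) (nat_lit 237)) (XT.nd (nat_lit 78) (nat_lit 380) (nat_lit 0) (XT.lf (nat_lit 0) (nat_lit 5486919621) (nat_lit 380) (nat_lit 2036119241) (nat_lit 0) (nat_lit 1506693394) (nat_lit 75) (nat_lit 5) (nat_lit 80) (nat_lit 4) (nat_lit 75) (nat_lit 4) (nat_lit 304) (nat_lit 240) (nat_lit 236)) (XT.lf (nat_lit 0) (nat_lit 3329925963) (nat_lit 380) (nat_lit 5370546401) (nat_lit 380) (nat_lit 466648607) (nat_lit 70) (nat_lit 4) (nat_lit 75) (nat_lit 5) (nat_lit 75) (nat_lit 4) (nat_lit 305) (nat_lit 240) (nat_lit 235)))))) (XT.nd (nat_lit 390) (nat_lit 912) (nat_lit 0) (XT.nd (nat_lit 156) (nat_lit 608) (nat_lit 0) (XT.nd (nat_lit 78) (nat_lit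 304) (nat_lit 0) (XT.lf (nat_lit 0) (nat_lit 2592145479) (nat_lit 456) (nat_lit 538610983) (nat_lit 76) (nat_lit 6178982129) (nat_lit 69) (nat_lit 5) (nat_lit 75) (nat_lit 5) (nat_lit 70) (nat_lit 4) (nat_lit 306) (nat_lit 240) (nat_lit 234)) (XT.lf (nat_lit 0) (nat_lit 4910013095) (nat_lit 304) (nat_lit 795074807) (nat_lit 380) (nat_lit 3752428515) (nat_lit 65) (nat_lit 5) (nat_lit 69) (nat_lit 5) (nat_lit 70) (nat_lit 4) (nat_lit 307) (nat_lit 240) (nat_lit 233))) (XT.nd (nat_lit 78) (nat_lit 304) (nat_lit 0) (XT.lf (nat_lit 0) (nat_lit 822809896) (nat_lit 304) (nat_lit 8043063798) (nat_lit 304) (nat_lit 745388383) (nat_lit 61) (nat_lit 4) (nat_lit 65) (nat_lit 5) (nat_lit 65) (nat_lit 4) (nat_lit 308) (nat_lit 240) (nat_lit 232)) (XT.nd (nat_lit 78) (nat_lit 228) (nat_lit 0) (XT.lf (nat_lit 0) (nat_lit 2286106096) (nat_lit 380) (nat_lit 3453647246) (nat_lit 76) (nat_lit 4029942947) (nat_lit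 60) (nat_lit 5) (nat_lit 65) (nat_lit 5) (nat_lit 61) (nat_lit 4) (nat_lit 309) (nat_lit 240) (nat_lit 231)) (XT.lf (nat_lit 0) (nat_lit 1973375635) (nat_lit 228) (nat_lit 3367204982) (nat_lit 304) (nat_lit 4593824887) (nat_lit 57) (nat_lit 5) (nat_lit 60) (nat_lit 5) (nat_lit 61) (nat_lit 4) (nat_lit 310) (nat_lit 240) (nat_lit 230))))) (XT.nd (nat_lit 234) (nat_lit 532) (nat_lit 0) (XT.nd (nat_lit 78) (nat_lit 380) (nat_lit 0) (XT.lf (nat_lit 0) (nat_lit 7536021935) (nat_lit 228) (nat_lit 914743810) (nat_lit 304) (nat_lit 1654517362) (nat_lit 57) (nat_lit 5) (nat_lit 60) (nat_lit 5) (nat_lit 61) (nat_lit 4) (nat_lit 311) (nat_lit 240) (nat_lit 229)) (XT.nd (nat_lit 78) (nat_lit 0) (nat_lit 0) (XT.lf (nat_lit 0) (nat_lit 1320436847) (nat_lit 380) (nat_lit 7366297076) (nat_lit 76) (nat_lit 1595070234) (nat_lit 52) (nat_lit 5) (nat_lit 57) (nat_lit 5) (nat_lit 53) (nat_lit 4) (nat_lit 312) (nat_lit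 240) (nat_lit 228)) (XT.lf (nat_lit 0) (nat_lit 4317928414) (nat_lit 380) (nat_lit 1968687588) (nat_lit 76) (nat_lit 4177653834) (nat_lit 52) (nat_lit 5) (nat_lit 57) (nat_lit 5) (nat_lit 53) (nat_lit 4) (nat_lit 313) (nat_lit 240) (nat_lit 227)))) (XT.nd (nat_lit 78) (nat_lit 304) (nat_lit 0) (XT.lf (nat_lit 0) (nat_lit 3565636659) (nat_lit 228) (nat_lit 3807269213) (nat_lit 304) (nat_lit 3280409520) (nat_lit 49) (nat_lit 5) (nat_lit 52) (nat_lit 5) (nat_lit 53) (nat_lit 4) (nat_lit 314) (nat_lit 240) (nat_lit 226)) (XT.nd (nat_lit 78) (nat_lit 304) (nat_lit 0) (XT.lf (nat_lit 0) (nat_lit 9212484193) (nat_lit 228) (nat_lit 1261255269) (nat_lit 304) (nat_lit 375795523) (nat_lit 49) (nat_lit 5) (nat_lit 52) (nat_lit 5) (nat_lit 53) (nat_lit 4) (nat_lit 315) (nat_lit 240) (nat_lit 225)) (XT.lf (nat_lit 0) (nat_lit 2551671677) (nat_lit 304) (nat_lit 7129021355) (nat_lit 76) (nat_lit 1370712380)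 (nat_lit 45) (nat_lit 5) (nat_lit 49) (nat_lit 5) (nat_lit 46) (nat_lit 4) (nat_lit 316) (nat_lit 240) (nat_lit 224))))))) (XT.nd (nat_lit 858) (nat_lit 760) (nat_lit 0) (XT.nd (nat_lit 390) (nat_lit 608) (nat_lit 0) (XT.nd (nat_lit 156) (nat_lit 304) (nat_lit 0) (XT.nd (nat_lit 78) (nat_lit 228) (nat_lit 0) (XT.lf (nat_lit 0) (nat_lit 5524805951) (nat_lit 304) (nat_lit 1686428410) (nat_lit 76) (nat_lit 4049142023) (nat_lit 45) (nat_lit 5) (nat_lit 49) (nat_lit 5) (nat_lit 46) (nat_lit 4) (nat_lit 317) (nat_lit 240) (nat_lit 223)) (XT.lf (nat_lit 0) (nat_lit 3904982221) (nat_lit 228) (nat_lit 4657760781) (nat_lit 304) (nat_lit 2913719724) (nat_lit 42) (nat_lit 5) (nat_lit 45) (nat_lit 5) (nat_lit 46) (nat_lit 4) (nat_lit 318) (nat_lit 240) (nat_lit 222))) (XT.nd (nat_lit 78) (nat_lit 304) (nat_lit 0) (XT.lf (nat_lit 0) (nat_lit 9608933759) (nat_lit 228) (nat_lit 2038926498) (nat_lit 304) (nat_lit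 52601309) (nat_lit 42) (nat_lit 5) (nat_lit 45) (nat_lit 5) (nat_lit 46) (nat_lit 4) (nat_lit 319) (nat_lit 240) (nat_lit 221)) (XT.nd (nat_lit 78) (nat_lit 0) (nat_lit 0) (XT.lf (nat_lit 0) (nat_lit 2818324072) (nat_lit 304) (nat_lit 8432959669) (nat_lit 76) (nat_lit 679753170) (nat_lit 38) (nat_lit 5) (nat_lit 42) (nat_lit 5) (nat_lit 39) (nat_lit 4) (nat_lit 320) (nat_lit 240) (nat_lit 220)) (XT.lf (nat_lit 0) (nat_lit 5756561577) (nat_lit 304) (nat_lit 2979752086) (nat_lit 76) (nat_lit 3432834717) (nat_lit 38) (nat_lit 5) (nat_lit 42) (nat_lit 5) (nat_lit 39) (nat_lit 4) (nat_lit 321) (nat_lit 240) (nat_lit 219))))) (XT.nd (nat_lit 234) (nat_lit 152) (nat_lit 0) (XT.nd (nat_lit 78) (nat_lit 304) (nat_lit 0) (XT.lf (nat_lit 0) (nat_lit 2601224989) (nat_lit 152) (nat_lit 6149177009) (nat_lit 228) (nat_lit 3665076291) (nat_lit 36) (nat_lit 5) (nat_lit 38) (nat_lit 5) (nat_lit 39) (nat_lit 4)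 (nat_lit 322) (nat_lit 240) (nat_lit 218)) (XT.nd (nat_lit 78) (nat_lit 304) (nat_lit 0) (XT.lf (nat_lit 0) (nat_lit 8324976253) (nat_lit 152) (nat_lit 3482474282) (nat_lit 228) (nat_lit 862641672) (nat_lit 36) (nat_lit 5) (nat_lit 38) (nat_lit 5) (nat_lit 39) (nat_lit 4) (nat_lit 323) (nat_lit 240) (nat_lit 217)) (XT.lf (nat_lit 0) (nat_lit 1207770334) (nat_lit 228) (nat_lit 732530881) (nat_lit 304) (nat_lit 10992872233) (nat_lit 32) (nat_lit 5) (nat_lit 35) (nat_lit 5) (nat_lit 36) (nat_lit 5) (nat_lit 324) (nat_lit 240) (nat_lit 216)))) (XT.nd (nat_lit 78) (nat_lit 152) (nat_lit 0) (XT.lf (nat_lit 0) (nat_lit 4819351419) (nat_lit 304) (nat_lit 6300746037) (nat_lit 76) (nat_lit 2083600481) (nat_lit 32) (nat_lit 5) (nat_lit 36) (nat_lit 5) (nat_lit 33) (nat_lit 4) (nat_lit 325) (nat_lit 240) (nat_lit 215)) (XT.nd (nat_lit 78) (nat_lit 152) (nat_lit 0) (XT.lf (nat_lit 0) (nat_lit 7738491991)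 (nat_lit 304) (nat_lit 803192311) (nat_lit 76) (nat_lit 4942127493) (nat_lit 32) (nat_lit 5) (nat_lit 36) (nat_lit 5) (nat_lit 33) (nat_lit 4) (nat_lit 326) (nat_lit 240) (nat_lit 214)) (XT.lf (nat_lit 0) (nat_lit 4874216811) (nat_lit 152) (nat_lit 5865869245) (nat_lit 228) (nat_lit 3032479355) (nat_lit 30) (nat_lit 5) (nat_lit 32) (nat_lit 5) (nat_lit 33) (nat_lit 4) (nat_lit 327) (nat_lit 240) (nat_lit 213)))))) (XT.nd (nat_lit 468) (nat_lit 380) (nat_lit 0) (XT.nd (nat_lit 234) (nat_lit 152) (nat_lit 0) (XT.nd (nat_lit 78) (nat_lit 228) (nat_lit 0) (XT.lf (nat_lit 0) (nat_lit 10659014245) (nat_lit 152) (nat_lit 3129600286) (nat_lit 228) (nat_lit 282740817) (nat_lit 30) (nat_lit 5) (nat_lit 32) (nat_lit 5) (nat_lit 33) (nat_lit 4) (nat_lit 328) (nat_lit 240) (nat_lit 212)) (XT.nd (nat_lit 78) (nat_lit 0) (nat_lit 0) (XT.lf (nat_lit 0) (nat_lit 2178078698) (nat_lit 152) (nat_lit 292297507)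 (nat_lit 228) (nat_lit 11908954180) (nat_lit 27) (nat_lit 5) (nat_lit 29) (nat_lit 5) (nat_lit 30) (nat_lit 5) (nat_lit 329) (nat_lit 240) (nat_lit 211)) (XT.lf (nat_lit 0) (nat_lit 5310638156) (nat_lit 228) (nat_lit 6796463163) (nat_lit 76) (nat_lit 2589125841) (nat_lit 27) (nat_lit 5) (nat_lit 30) (nat_lit 5) (nat_lit 28) (nat_lit 4) (nat_lit 330) (nat_lit 240) (nat_lit 210)))) (XT.nd (nat_lit 78) (nat_lit 152) (nat_lit 0) (XT.lf (nat_lit 0) (nat_lit 8190606600) (nat_lit 228) (nat_lit 1308823097) (nat_lit 76) (nat_lit 5524637536) (nat_lit 27) (nat_lit 5) (nat_lit 30) (nat_lit 5) (nat_lit 28) (nat_lit 4) (nat_lit 331) (nat_lit 240) (nat_lit 209)) (XT.nd (nat_lit 78) (nat_lit 0) (nat_lit 0) (XT.lf (nat_lit 0) (nat_lit 4354240185) (nat_lit 152) (nat_lit 6797603709) (nat_lit 228) (nat_lit 4210121799) (nat_lit 25) (nat_lit 5) (nat_lit 27) (nat_lit 5) (nat_lit 28) (nat_lit 4) (nat_lit 332) (nat_lit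 240) (nat_lit 208)) (XT.lf (nat_lit 0) (nat_lit 10140579248) (nat_lit 152) (nat_lit 4028232296) (nat_lit 228) (nat_lit 1542250023) (nat_lit 25) (nat_lit 5) (nat_lit 27) (nat_lit 5) (nat_lit 28) (nat_lit 4) (nat_lit 333) (nat_lit 240) (nat_lit 207))))) (XT.nd (nat_lit 234) (nat_lit 152) (nat_lit 0) (XT.nd (nat_lit 78) (nat_lit 152) (nat_lit 0) (XT.lf (nat_lit 0) (nat_lit 1136647775) (nat_lit 228) (nat_lit 53986477) (nat_lit 76) (nat_lit 14881076282) (nat_lit 24) (nat_lit 5) (nat_lit 27) (nat_lit 5) (nat_lit 25) (nat_lit 5) (nat_lit 334) (nat_lit 240) (nat_lit 206)) (XT.nd (nat_lit 78) (nat_lit 0) (nat_lit 0) (XT.lf (nat_lit 0) (nat_lit 3892184117) (nat_lit 228) (nat_lit 10806693783) (nat_lit 76) (nat_lit 1743086446) (nat_lit 22) (nat_lit 5) (nat_lit 25) (nat_lit 5) (nat_lit 23) (nat_lit 4) (nat_lit 335) (nat_lit 240) (nat_lit 205)) (XT.lf (nat_lit 0) (nat_lit 6698935824) (nat_lit 228) (nat_lit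 5409389969) (nat_lit 76) (nat_lit 4716003261) (nat_lit 22) (nat_lit 5) (nat_lit 25) (nat_lit 5) (nat_lit 23) (nat_lit 4) (nat_lit 336) (nat_lit 240) (nat_lit 204)))) (XT.nd (nat_lit 78) (nat_lit 0) (nat_lit 0) (XT.lf (nat_lit 0) (nat_lit 82908391) (nat_lit 152) (nat_lit 9465264345) (nat_lit 228) (nat_lit 7671301505) (nat_lit 20) (nat_lit 5) (nat_lit 22) (nat_lit 5) (nat_lit 23) (nat_lit 4) (nat_lit 337) (nat_lit 240) (nat_lit 203)) (XT.nd (nat_lit 78) (nat_lit 0) (nat_lit 0) (XT.lf (nat_lit 0) (nat_lit 5782992471) (nat_lit 152) (nat_lit 6712590077) (nat_lit 228) (nat_lit 5130566691) (nat_lit 20) (nat_lit 5) (nat_lit 22) (nat_lit 5) (nat_lit 23) (nat_lit 4) (nat_lit 338) (nat_lit 240) (nat_lit 202)) (XT.lf (nat_lit 0) (nat_lit 11588185457) (nat_lit 152) (nat_lit 3902521971) (nat_lit 228) (nat_lit 2555592963) (nat_lit 20) (nat_lit 5) (nat_lit 22) (nat_lit 5) (nat_lit 23) (nat_lit 4) (nat_lit 339)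 (nat_lit 240) (nat_lit 201))))))))
noncomputable def xc59 : XT := (XT.nd (nat_lit 1794) (nat_lit 304) (nat_lit 0) (XT.nd (nat_lit 858) (nat_lit 304) (nat_lit 0) (XT.nd (nat_lit 390) (nat_lit 228) (nat_lit 0) (XT.nd (nat_lit 156) (nat_lit 76) (nat_lit 0) (XT.nd (nat_lit 78) (nat_lit 152) (nat_lit 0) (XT.lf (nat_lit 0) (nat_lit 54779439) (nat_lit 228) (nat_lit 977272025) (nat_lit 76) (nat_lit 17448227245) (nat_lit 19) (nat_lit 5) (nat_lit 22) (nat_lit 5) (nat_lit 20) (nat_lit 5) (nat_lit 340) (nat_lit 240) (nat_lit 200)) (XT.lf (nat_lit 0) (nat_lit 2717159710) (nat_lit 228) (nat_lit 14274441104) (nat_lit 76) (nat_lit 1934214674) (nat_lit 17) (nat_lit 5) (nat_lit 20) (nat_lit 5) (nat_lit 18) (nat_lit 4) (nat_lit 341) (nat_lit 240) (nat_lit 199))) (XT.nd (nat_lit 78) (nat_lit 76) (nat_lit 0) (XT.lf (nat_lit 0) (nat_lit 5441095000) (nat_lit 228) (nat_lit 8989106903) (nat_lit 76) (nat_lit 4955114548)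 (nat_lit 17) (nat_lit 5) (nat_lit 20) (nat_lit 5) (nat_lit 18) (nat_lit 4) (nat_lit 342) (nat_lit 240) (nat_lit 198)) (XT.nd (nat_lit 78) (nat_lit 76) (nat_lit 0) (XT.lf (nat_lit 0) (nat_lit 8209368776) (nat_lit 228) (nat_lit 3606651370) (nat_lit 76) (nat_lit 8043750860) (nat_lit 17) (nat_lit 5) (nat_lit 20) (nat_lit 5) (nat_lit 18) (nat_lit 4) (nat_lit 343) (nat_lit 240) (nat_lit 197)) (XT.lf (nat_lit 0) (nat_lit 1914997102) (nat_lit 76) (nat_lit 9127810938) (nat_lit 152) (nat_lit 9306233439) (nat_lit 16) (nat_lit 5) (nat_lit 17) (nat_lit 5) (nat_lit 18) (nat_lit 4) (nat_lit 344) (nat_lit 240) (nat_lit 196))))) (XT.nd (nat_lit 234) (nat_lit 228) (nat_lit 0) (XT.nd (nat_lit 78) (nat_lit 0) (nat_lit 0) (XT.lf (nat_lit 0) (nat_lit 7617163426) (nat_lit 76) (nat_lit 6344705568) (nat_lit 152) (nat_lit 6891146983) (nat_lit 16) (nat_lit 5) (nat_lit 17) (nat_lit 5) (nat_lit 18) (nat_lit 4) (nat_lit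 345) (nat_lit 240) (nat_lit 195)) (XT.nd (nat_lit 78) (nat_lit 0) (nat_lit 0) (XT.lf (nat_lit 0) (nat_lit 13433050642) (nat_lit 76) (nat_lit 3500692303) (nat_lit 152) (nat_lit 4439452701) (nat_lit 16) (nat_lit 5) (nat_lit 17) (nat_lit 5) (nat_lit 18) (nat_lit 4) (nat_lit 346) (nat_lit 240) (nat_lit 194)) (XT.lf (nat_lit 0) (nat_lit 19367740593) (nat_lit 76) (nat_lit 593286083) (nat_lit 152) (nat_lit 1949008335) (nat_lit 16) (nat_lit 5) (nat_lit 17) (nat_lit 5) (nat_lit 18) (nat_lit 4) (nat_lit 347) (nat_lit 240) (nat_lit 193)))) (XT.nd (nat_lit 78) (nat_lit 0) (nat_lit 0) (XT.lf (nat_lit 0) (nat_lit 623207626) (nat_lit 228) (nat_lit 19470522312) (nat_lit 76) (nat_lit 2368538996) (nat_lit 13) (nat_lit 5) (nat_lit 16) (nat_lit 5) (nat_lit 14) (nat_lit 4) (nat_lit 348) (nat_lit 240) (nat_lit 192)) (XT.nd (nat_lit 78) (nat_lit 0) (nat_lit 0) (XT.lf (nat_lit 0) (nat_lit 3232326379) (nat_lit 228)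 (nat_lit 14366827952) (nat_lit 76) (nat_lit 5431407704) (nat_lit 13) (nat_lit 5) (nat_lit 16) (nat_lit 5) (nat_lit 14) (nat_lit 4) (nat_lit 349) (nat_lit 240) (nat_lit 191)) (XT.lf (nat_lit 0) (nat_lit 5887785648) (nat_lit 228) (nat_lit 9163446324) (nat_lit 76) (nat_lit 8565667188) (nat_lit 13) (nat_lit 5) (nat_lit 16) (nat_lit 5) (nat_lit 14) (nat_lit 4) (nat_lit 350) (nat_lit 240) (nat_lit 190)))))) (XT.nd (nat_lit 468) (nat_lit 228) (nat_lit 0) (XT.nd (nat_lit 234) (nat_lit 0) (nat_lit 0) (XT.nd (nat_lit 78) (nat_lit 76) (nat_lit 0) (XT.lf (nat_lit 0) (nat_lit 8591905738) (nat_lit 228) (nat_lit 3855830783) (nat_lit 76) (nat_lit 11774056121) (nat_lit 13) (nat_lit 5) (nat_lit 16) (nat_lit 5) (nat_lit 14) (nat_lit 4) (nat_lit 351) (nat_lit 240) (nat_lit 189)) (XT.nd (nat_lit 78) (nat_lit 0) (nat_lit 0) (XT.lf (nat_lit 0) (nat_lit 1591716514) (nat_lit 76) (nat_lit 9770633510) (nat_lit 152) (nat_lit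 13482961990) (nat_lit 12) (nat_lit 5) (nat_lit 13) (nat_lit 5) (nat_lit 14) (nat_lit 4) (nat_lit 352) (nat_lit 240) (nat_lit 188)) (XT.lf (nat_lit 0) (nat_lit 7231867844) (nat_lit 76) (nat_lit 6993273548) (nat_lit 152) (nat_lit 11262152640) (nat_lit 12) (nat_lit 5) (nat_lit 13) (nat_lit 5) (nat_lit 14) (nat_lit 4) (nat_lit 353) (nat_lit 240) (nat_lit 187)))) (XT.nd (nat_lit 78) (nat_lit 0) (nat_lit 0) (XT.lf (nat_lit 0) (nat_lit 12992812902) (nat_lit 76) (nat_lit 4152166148) (nat_lit 152) (nat_lit 9004454673) (nat_lit 12) (nat_lit 5) (nat_lit 13) (nat_lit 5) (nat_lit 14) (nat_lit 4) (nat_lit 354) (nat_lit 240) (nat_lit 186)) (XT.nd (nat_lit 78) (nat_lit 0) (nat_lit 0) (XT.lf (nat_lit 0) (nat_lit 18879585523) (nat_lit 76) (nat_lit 1244828787) (nat_lit 152) (nat_lit 6707895343) (nat_lit 12) (nat_lit 5) (nat_lit 13) (nat_lit 5) (nat_lit 14) (nat_lit 4) (nat_lit 355) (nat_lit 240) (nat_lit 185))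 (XT.lf (nat_lit 0) (nat_lit 23182692676) (nat_lit 152) (nat_lit 2655831135) (nat_lit 0) (nat_lit 1697495436) (nat_lit 12) (nat_lit 5) (nat_lit 14) (nat_lit 4) (nat_lit 12) (nat_lit 4) (nat_lit 356) (nat_lit 240) (nat_lit 184))))) (XT.nd (nat_lit 234) (nat_lit 0) (nat_lit 0) (XT.nd (nat_lit 78) (nat_lit 76) (nat_lit 0) (XT.lf (nat_lit 0) (nat_lit 2797275985) (nat_lit 152) (nat_lit 23548095034) (nat_lit 152) (nat_lit 1915119841) (nat_lit 10) (nat_lit 4) (nat_lit 12) (nat_lit 5) (nat_lit 12) (nat_lit 4) (nat_lit 357) (nat_lit 240) (nat_lit 183)) (XT.nd (nat_lit 78) (nat_lit 0) (nat_lit 0) (XT.lf (nat_lit 0) (nat_lit 585177510) (nat_lit 228) (nat_lit 20588538586) (nat_lit 76) (nat_lit 7832819753) (nat_lit 9) (nat_lit 5) (nat_lit 12) (nat_lit 5) (nat_lit 10) (nat_lit 4) (nat_lit 358) (nat_lit 240) (nat_lit 182)) (XT.lf (nat_lit 0) (nat_lit 3096258621) (nat_lit 228) (nat_lit 15630338823) (nat_lit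 76) (nat_lit 11048595601) (nat_lit 9) (nat_lit 5) (nat_lit 12) (nat_lit 5) (nat_lit 10) (nat_lit 4) (nat_lit 359) (nat_lit 240) (nat_lit 181)))) (XT.nd (nat_lit 78) (nat_lit 0) (nat_lit 0) (XT.lf (nat_lit 0) (nat_lit 5657688525) (nat_lit 228) (nat_lit 10565873877) (nat_lit 76) (nat_lit 14344123965) (nat_lit 9) (nat_lit 5) (nat_lit 12) (nat_lit 5) (nat_lit 10) (nat_lit 4) (nat_lit 360) (nat_lit 240) (nat_lit 180)) (XT.nd (nat_lit 78) (nat_lit 0) (nat_lit 0) (XT.lf (nat_lit 0) (nat_lit 8271705366) (nat_lit 228) (nat_lit 5390718487) (nat_lit 76) (nat_lit 17722284436) (nat_lit 9) (nat_lit 5) (nat_lit 12) (nat_lit 5) (nat_lit 10) (nat_lit 4) (nat_lit 361) (nat_lit 240) (nat_lit 179)) (XT.lf (nat_lit 0) (nat_lit 10940593235) (nat_lit 228) (nat_lit 100350672) (nat_lit 76) (nat_lit 21186028804) (nat_lit 9) (nat_lit 5) (nat_lit 12) (nat_lit 5) (nat_lit 10) (nat_lit 4) (nat_lit 362) (nat_lit 240) (nat_lit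 178))))))) (XT.nd (nat_lit 858) (nat_lit 76) (nat_lit 0) (XT.nd (nat_lit 390) (nat_lit 152) (nat_lit 0) (XT.nd (nat_lit 156) (nat_lit 0) (nat_lit 0) (XT.nd (nat_lit 78) (nat_lit 0) (nat_lit 0) (XT.lf (nat_lit 0) (nat_lit 5415528688) (nat_lit 76) (nat_lit 8303212857) (nat_lit 152) (nat_lit 19374912326) (nat_lit 8) (nat_lit 5) (nat_lit 9) (nat_lit 5) (nat_lit 10) (nat_lit 4) (nat_lit 363) (nat_lit 240) (nat_lit 177)) (XT.lf (nat_lit 0) (nat_lit 11060446700) (nat_lit 76) (nat_lit 5498233274) (nat_lit 152) (nat_lit 17428326025) (nat_lit 8) (nat_lit 5) (nat_lit 9) (nat_lit 5) (nat_lit 10) (nat_lit 4) (nat_lit 364) (nat_lit 240) (nat_lit 176))) (XT.nd (nat_lit 78) (nat_lit 0) (nat_lit 0) (XT.lf (nat_lit 0) (nat_lit 16837338639) (nat_lit 76) (nat_lit 2624567551) (nat_lit 152) (nat_lit 15445933017) (nat_lit 8) (nat_lit 5) (nat_lit 9) (nat_lit 5) (nat_lit 10) (nat_lit 4) (nat_lit 365) (nat_lit 240) (nat_lit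 175)) (XT.nd (nat_lit 78) (nat_lit 0) (nat_lit 0) (XT.lf (nat_lit 0) (nat_lit 22434035868) (nat_lit 152) (nat_lit 13108784709) (nat_lit 0) (nat_lit 314045166) (nat_lit 8) (nat_lit 5) (nat_lit 10) (nat_lit 4) (nat_lit 8) (nat_lit 4) (nat_lit 366) (nat_lit 240) (nat_lit 174)) (XT.lf (nat_lit 0) (nat_lit 25500522523) (nat_lit 152) (nat_lit 8059932748) (nat_lit 0) (nat_lit 3273773884) (nat_lit 8) (nat_lit 5) (nat_lit 10) (nat_lit 4) (nat_lit 8) (nat_lit 4) (nat_lit 367) (nat_lit 240) (nat_lit 173))))) (XT.nd (nat_lit 234) (nat_lit 76) (nat_lit 0) (XT.nd (nat_lit 78) (nat_lit 76) (nat_lit 0) (XT.lf (nat_lit 0) (nat_lit 28638816661) (nat_lit 152) (nat_lit 2894304121) (nat_lit 0) (nat_lit 6308419540) (nat_lit 8) (nat_lit 5) (nat_lit 10) (nat_lit 4) (nat_lit 8) (nat_lit 4) (nat_lit 368) (nat_lit 240) (nat_lit 172)) (XT.nd (nat_lit 78) (nat_lit 0) (nat_lit 0) (XT.lf (nat_lit 0) (nat_lit 2440232556) (nat_lit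 76) (nat_lit 29434884933) (nat_lit 76) (nat_lit 7003858218) (nat_lit 7) (nat_lit 4) (nat_lit 8) (nat_lit 5) (nat_lit 8) (nat_lit 4) (nat_lit 369) (nat_lit 240) (nat_lit 171)) (XT.lf (nat_lit 0) (nat_lit 7960787377) (nat_lit 76) (nat_lit 27257597903) (nat_lit 76) (nat_lit 4728872552) (nat_lit 7) (nat_lit 4) (nat_lit 8) (nat_lit 5) (nat_lit 8) (nat_lit 4) (nat_lit 370) (nat_lit 240) (nat_lit 170)))) (XT.nd (nat_lit 78) (nat_lit 76) (nat_lit 0) (XT.lf (nat_lit 0) (nat_lit 13614581800) (nat_lit 76) (nat_lit 25028584005) (nat_lit 76) (nat_lit 2405005610) (nat_lit 7) (nat_lit 4) (nat_lit 8) (nat_lit 5) (nat_lit 8) (nat_lit 4) (nat_lit 371) (nat_lit 240) (nat_lit 169)) (XT.nd (nat_lit 78) (nat_lit 76) (nat_lit 0) (XT.lf (nat_lit 0) (nat_lit 19406556035) (nat_lit 76) (nat_lit 22745895557) (nat_lit 76) (nat_lit 30226829) (nat_lit 7) (nat_lit 4) (nat_lit 8) (nat_lit 5) (nat_lit 8) (nat_lit 4) (nat_lit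 372) (nat_lit 240) (nat_lit 168)) (XT.lf (nat_lit 0) (nat_lit 2350754223) (nat_lit 152) (nat_lit 18033045746) (nat_lit 76) (nat_lit 22967278796) (nat_lit 6) (nat_lit 5) (nat_lit 8) (nat_lit 5) (nat_lit 7) (nat_lit 4) (nat_lit 373) (nat_lit 240) (nat_lit 167)))))) (XT.nd (nat_lit 468) (nat_lit 0) (nat_lit 0) (XT.nd (nat_lit 234) (nat_lit 76) (nat_lit 0) (XT.nd (nat_lit 78) (nat_lit 0) (nat_lit 0) (XT.lf (nat_lit 0) (nat_lit 4785178319) (nat_lit 152) (nat_lit 13177968803) (nat_lit 76) (nat_lit 26591913653) (nat_lit 6) (nat_lit 5) (nat_lit 8) (nat_lit 5) (nat_lit 7) (nat_lit 4) (nat_lit 374) (nat_lit 240) (nat_lit 166)) (XT.nd (nat_lit 78) (nat_lit 0) (nat_lit 0) (XT.lf (nat_lit 0) (nat_lit 7275762459) (nat_lit 152) (nat_lit 8206358699) (nat_lit 76) (nat_lit 30313564033) (nat_lit 6) (nat_lit 5) (nat_lit 8) (nat_lit 5) (nat_lit 7) (nat_lit 4) (nat_lit 375) (nat_lit 240) (nat_lit 165)) (XT.lf (nat_lit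 0) (nat_lit 9824682883) (nat_lit 152) (nat_lit 3113871309) (nat_lit 76) (nat_lit 34135481862) (nat_lit 6) (nat_lit 5) (nat_lit 8) (nat_lit 5) (nat_lit 7) (nat_lit 4) (nat_lit 376) (nat_lit 240) (nat_lit 164)))) (XT.nd (nat_lit 78) (nat_lit 0) (nat_lit 0) (XT.lf (nat_lit 0) (nat_lit 2145815707) (nat_lit 76) (nat_lit 10308977987) (nat_lit 152) (nat_lit 35935817866) (nat_lit 5) (nat_lit 5) (nat_lit 6) (nat_lit 5) (nat_lit 7) (nat_lit 4) (nat_lit 377) (nat_lit 240) (nat_lit 163)) (XT.nd (nat_lit 78) (nat_lit 0) (nat_lit 0) (XT.lf (nat_lit 0) (nat_lit 7599946148) (nat_lit 76) (nat_lit 7579603529) (nat_lit 152) (nat_lit 34566677742) (nat_lit 5) (nat_lit 5) (nat_lit 6) (nat_lit 5) (nat_lit 7) (nat_lit 4) (nat_lit 378) (nat_lit 240) (nat_lit 162)) (XT.lf (nat_lit 0) (nat_lit 13191313614) (nat_lit 76) (nat_lit 4779489923) (nat_lit 152) (nat_lit 33172180457) (nat_lit 5) (nat_lit 5) (nat_lit 6) (nat_lit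 5) (nat_lit 7) (nat_lit 4) (nat_lit 379) (nat_lit 240) (nat_lit 161))))) (XT.nd (nat_lit 234) (nat_lit 0) (nat_lit 0) (XT.nd (nat_lit 78) (nat_lit 0) (nat_lit 0) (XT.lf (nat_lit 0) (nat_lit 18924803766) (nat_lit 76) (nat_lit 1906190466) (nat_lit 152) (nat_lit 31751107518) (nat_lit 5) (nat_lit 5) (nat_lit 6) (nat_lit 5) (nat_lit 7) (nat_lit 4) (nat_lit 380) (nat_lit 240) (nat_lit 160)) (XT.nd (nat_lit 78) (nat_lit 0) (nat_lit 0) (XT.lf (nat_lit 0) (nat_lit 23772645044) (nat_lit 152) (nat_lit 29269435807) (nat_lit 0) (nat_lit 1022456598) (nat_lit 5) (nat_lit 5) (nat_lit 7) (nat_lit 4) (nat_lit 5) (nat_lit 4) (nat_lit 381) (nat_lit 240) (nat_lit 159)) (XT.lf (nat_lit 0) (nat_lit 26807369383) (nat_lit 152) (nat_lit 24793292827) (nat_lit 0) (nat_lit 3990652919) (nat_lit 5) (nat_lit 5) (nat_lit 7) (nat_lit 4) (nat_lit 5) (nat_lit 4) (nat_lit 382) (nat_lit 240) (nat_lit 158)))) (XT.nd (nat_lit 78)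 (nat_lit 0) (nat_lit 0) (XT.lf (nat_lit 0) (nat_lit 29919495480) (nat_lit 152) (nat_lit 20206634383) (nat_lit 0) (nat_lit 7038188709) (nat_lit 5) (nat_lit 5) (nat_lit 7) (nat_lit 4) (nat_lit 5) (nat_lit 4) (nat_lit 383) (nat_lit 240) (nat_lit 157)) (XT.nd (nat_lit 78) (nat_lit 0) (nat_lit 0) (XT.lf (nat_lit 0) (nat_lit 33111742670) (nat_lit 152) (nat_lit 15505452717) (nat_lit 0) (nat_lit 10167726863) (nat_lit 5) (nat_lit 5) (nat_lit 7) (nat_lit 4) (nat_lit 5) (nat_lit 4) (nat_lit 384) (nat_lit 240) (nat_lit 156)) (XT.lf (nat_lit 0) (nat_lit 36386900295) (nat_lit 152) (nat_lit 10685639999) (nat_lit 0) (nat_lit 13382001928) (nat_lit 5) (nat_lit 5) (nat_lit 7) (nat_lit 4) (nat_lit 5) (nat_lit 4) (nat_lit 385) (nat_lit 240) (nat_lit 155))))))))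
noncomputable def xc60 : XT := (XT.nd (nat_lit 34320) (nat_lit 0) (nat_lit 2052) (XT.nd (nat_lit 858) (nat_lit 76) (nat_lit 0) (XT.nd (nat_lit 390) (nat_lit 0) (nat_lit 0) (XT.nd (nat_lit 156) (nat_lit 76) (nat_lit 0) (XT.nd (nat_lit 78) (nat_lit 0) (nat_lit 0) (XT.lf (nat_lit 0) (nat_lit 39747830142) (nat_lit 152) (nat_lit 5742984742) (nat_lit 0) (nat_lit 16683822494) (nat_lit 5) (nat_lit 5) (nat_lit 7) (nat_lit 4) (nat_lit 5) (nat_lit 4) (nat_lit 386) (nat_lit 240) (nat_lit 154)) (XT.lf (nat_lit 0) (nat_lit 43197468947) (nat_lit 152) (nat_lit 673168122) (nat_lit 0) (nat_lit 20076073648) (nat_lit 5) (nat_lit 5) (nat_lit 7) (nat_lit 4) (nat_lit 5) (nat_lit 4) (nat_lit 387) (nat_lit 240) (nat_lit 153))) (XT.nd (nat_lit 78) (nat_lit 0) (nat_lit 0) (XT.lf (nat_lit 0) (nat_lit 4618360648) (nat_lit 76) (nat_lit 42164864817) (nat_lit 76) (nat_lit 18987753351) (nat_lit 4) (nat_lit 4) (nat_lit 5) (nat_lit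 5) (nat_lit 5) (nat_lit 4) (nat_lit 388) (nat_lit 240) (nat_lit 152)) (XT.nd (nat_lit 78) (nat_lit 0) (nat_lit 0) (XT.lf (nat_lit 0) (nat_lit 10062132382) (nat_lit 76) (nat_lit 40409601556) (nat_lit 76) (nat_lit 17178396724) (nat_lit 4) (nat_lit 4) (nat_lit 5) (nat_lit 5) (nat_lit 5) (nat_lit 4) (nat_lit 389) (nat_lit 240) (nat_lit 151)) (XT.lf (nat_lit 0) (nat_lit 15649506408) (nat_lit 76) (nat_lit 38610111240) (nat_lit 76) (nat_lit 15326388578) (nat_lit 4) (nat_lit 4) (nat_lit 5) (nat_lit 5) (nat_lit 5) (nat_lit 4) (nat_lit 390) (nat_lit 240) (nat_lit 150))))) (XT.nd (nat_lit 234) (nat_lit 0) (nat_lit 0) (XT.nd (nat_lit 78) (nat_lit 0) (nat_lit 0) (XT.lf (nat_lit 0) (nat_lit 21385364896) (nat_lit 76) (nat_lit 36764821500) (nat_lit 76) (nat_lit 13430110652) (nat_lit 4) (nat_lit 4) (nat_lit 5) (nat_lit 5) (nat_lit 5) (nat_lit 4) (nat_lit 391) (nat_lit 240) (nat_lit 149)) (XT.nd (nat_lit 78)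 (nat_lit 0) (nat_lit 0) (XT.lf (nat_lit 0) (nat_lit 27274719763) (nat_lit 76) (nat_lit 34872119945) (nat_lit 76) (nat_lit 11487906005) (nat_lit 4) (nat_lit 4) (nat_lit 5) (nat_lit 5) (nat_lit 5) (nat_lit 4) (nat_lit 392) (nat_lit 240) (nat_lit 148)) (XT.lf (nat_lit 0) (nat_lit 33322717045) (nat_lit 76) (nat_lit 32930352759) (nat_lit 76) (nat_lit 9498077565) (nat_lit 4) (nat_lit 4) (nat_lit 5) (nat_lit 5) (nat_lit 5) (nat_lit 4) (nat_lit 393) (nat_lit 240) (nat_lit 147)))) (XT.nd (nat_lit 78) (nat_lit 0) (nat_lit 0) (XT.lf (nat_lit 0) (nat_lit 39534641402) (nat_lit 76) (nat_lit 30937823253) (nat_lit 76) (nat_lit 7458886646) (nat_lit 4) (nat_lit 4) (nat_lit 5) (nat_lit 5) (nat_lit 5) (nat_lit 4) (nat_lit 394) (nat_lit 240) (nat_lit 146)) (XT.nd (nat_lit 78) (nat_lit 0) (nat_lit 0) (XT.lf (nat_lit 0) (nat_lit 45915920728) (nat_lit 76) (nat_lit 28892790381) (nat_lit 76) (nat_lit 5368551432) (nat_lit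 4) (nat_lit 4) (nat_lit 5) (nat_lit 5) (nat_lit 5) (nat_lit 4) (nat_lit 395) (nat_lit 240) (nat_lit 145)) (XT.lf (nat_lit 0) (nat_lit 52472130898) (nat_lit 76) (nat_lit 26793467221) (nat_lit 76) (nat_lit 3225245415) (nat_lit 4) (nat_lit 4) (nat_lit 5) (nat_lit 5) (nat_lit 5) (nat_lit 4) (nat_lit 396) (nat_lit 240) (nat_lit 144)))))) (XT.nd (nat_lit 32994) (nat_lit 0) (nat_lit 5472) (XT.nd (nat_lit 156) (nat_lit 0) (nat_lit 0) (XT.nd (nat_lit 78) (nat_lit 76) (nat_lit 0) (XT.lf (nat_lit 0) (nat_lit 59209000640) (nat_lit 76) (nat_lit 24638019413) (nat_lit 76) (nat_lit 1027095805) (nat_lit 4) (nat_lit 4) (nat_lit 5) (nat_lit 5) (nat_lit 5) (nat_lit 4) (nat_lit 397) (nat_lit 240) (nat_lit 143)) (XT.lf (nat_lit 0) (nat_lit 1203858957) (nat_lit 152) (nat_lit 21208547983) (nat_lit 76) (nat_lit 64916400966) (nat_lit 3) (nat_lit 5) (nat_lit 5) (nat_lit 5) (nat_lit 4) (nat_lit 4) (nat_lit 398) (nat_lit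 240) (nat_lit 142))) (XT.nd (nat_lit 78) (nat_lit 0) (nat_lit 0) (XT.lf (nat_lit 0) (nat_lit 3472359879) (nat_lit 152) (nat_lit 16643741657) (nat_lit 76) (nat_lit 69741004275) (nat_lit 3) (nat_lit 5) (nat_lit 5) (nat_lit 5) (nat_lit 4) (nat_lit 4) (nat_lit 399) (nat_lit 240) (nat_lit 141)) (XT.nd (nat_lit 32682) (nat_lit 0) (nat_lit 6688) (XT.lf (nat_lit 0) (nat_lit 5800431481) (nat_lit 152) (nat_lit 11956834502) (nat_lit 76) (nat_lit 74704248974) (nat_lit 3) (nat_lit 5) (nat_lit 5) (nat_lit 5) (nat_lit 4) (nat_lit 4) (nat_lit 400) (nat_lit 240) (nat_lit 140)) (XT.lf (nat_lit 0) (nat_lit 549801481) (nat_lit 456) (nat_lit 1801997639) (nat_lit 456) (nat_lit 1801997639) (nat_lit 91) (nat_lit 4) (nat_lit 97) (nat_lit 5) (nat_lit 97) (nat_lit 4) (nat_lit 298) (nat_lit 241) (nat_lit 241))))) (XT.nd (nat_lit 234) (nat_lit 760) (nat_lit 0) (XT.nd (nat_lit 78) (nat_lit 456) (nat_lit 0) (XT.lf (nat_lit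 0) (nat_lit 6304390684) (nat_lit 456) (nat_lit 1624552589) (nat_lit 456) (nat_lit 488553069) (nat_lit 91) (nat_lit 4) (nat_lit 97) (nat_lit 5) (nat_lit 97) (nat_lit 4) (nat_lit 299) (nat_lit 241) (nat_lit 240)) (XT.nd (nat_lit 78) (nat_lit 0) (nat_lit 0) (XT.lf (nat_lit 0) (nat_lit 2617861586) (nat_lit 456) (nat_lit 5469590853) (nat_lit 0) (nat_lit 444160929) (nat_lit 85) (nat_lit 5) (nat_lit 91) (nat_lit 4) (nat_lit 85) (nat_lit 4) (nat_lit 300) (nat_lit 241) (nat_lit 239)) (XT.lf (nat_lit 0) (nat_lit 5763317308) (nat_lit 456) (nat_lit 337218285) (nat_lit 0) (nat_lit 2550016165) (nat_lit 85) (nat_lit 5) (nat_lit 91) (nat_lit 4) (nat_lit 85) (nat_lit 4) (nat_lit 301) (nat_lit 241) (nat_lit 238)))) (XT.nd (nat_lit 78) (nat_lit 304) (nat_lit 0) (XT.lf (nat_lit 0) (nat_lit 193027644) (nat_lit 456) (nat_lit 3830775885) (nat_lit 76) (nat_lit 4750366038) (nat_lit 79) (nat_lit 5) (nat_lit 85) (nat_lit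 5) (nat_lit 80) (nat_lit 4) (nat_lit 302) (nat_lit 241) (nat_lit 237)) (XT.nd (nat_lit 78) (nat_lit 0) (nat_lit 0) (XT.lf (nat_lit 0) (nat_lit 1385282803) (nat_lit 304) (nat_lit 1859952651) (nat_lit 380) (nat_lit 5657470745) (nat_lit 75) (nat_lit 5) (nat_lit 79) (nat_lit 5) (nat_lit 80) (nat_lit 4) (nat_lit 303) (nat_lit 241) (nat_lit 236)) (XT.lf (nat_lit 0) (nat_lit 6353564954) (nat_lit 380) (nat_lit 2303907912) (nat_lit 0) (nat_lit 378878659) (nat_lit 75) (nat_lit 5) (nat_lit 80) (nat_lit 4) (nat_lit 75) (nat_lit 4) (nat_lit 304) (nat_lit 241) (nat_lit 235))))))) (XT.nd (nat_lit 858) (nat_lit 1444) (nat_lit 0) (XT.nd (nat_lit 390) (nat_lit 836) (nat_lit 0) (XT.nd (nat_lit 156) (nat_lit 684) (nat_lit 0) (XT.nd (nat_lit 78) (nat_lit 0) (nat_lit 0) (XT.lf (nat_lit 0) (nat_lit 344775295) (nat_lit 456) (nat_lit 6171560956) (nat_lit 76) (nat_lit 2658606204) (nat_lit 69) (nat_lit 5) (nat_lit 75)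 (nat_lit 5) (nat_lit 70) (nat_lit 4) (nat_lit 305) (nat_lit 241) (nat_lit 234)) (XT.lf (nat_lit 0) (nat_lit 3357303603) (nat_lit 456) (nat_lit 926777531) (nat_lit 76) (nat_lit 5034544481) (nat_lit 69) (nat_lit 5) (nat_lit 75) (nat_lit 5) (nat_lit 70) (nat_lit 4) (nat_lit 306) (nat_lit 241) (nat_lit 233))) (XT.nd (nat_lit 78) (nat_lit 380) (nat_lit 0) (XT.lf (nat_lit 0) (nat_lit 4465289861) (nat_lit 304) (nat_lit 1964603754) (nat_lit 380) (nat_lit 3037803233) (nat_lit 65) (nat_lit 5) (nat_lit 69) (nat_lit 5) (nat_lit 70) (nat_lit 4) (nat_lit 307) (nat_lit 241) (nat_lit 232)) (XT.nd (nat_lit 78) (nat_lit 76) (nat_lit 0) (XT.lf (nat_lit 0) (nat_lit 320915306) (nat_lit 304) (nat_lit 9218100323) (nat_lit 304) (nat_lit 84057214) (nat_lit 61) (nat_lit 4) (nat_lit 65) (nat_lit 5) (nat_lit 65) (nat_lit 4) (nat_lit 308) (nat_lit 241) (nat_lit 231)) (XT.lf (nat_lit 0) (nat_lit 2899087722) (nat_lit 380)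 (nat_lit 4022455428) (nat_lit 76) (nat_lit 2860912333) (nat_lit 60) (nat_lit 5) (nat_lit 65) (nat_lit 5) (nat_lit 61) (nat_lit 4) (nat_lit 309) (nat_lit 241) (nat_lit 230))))) (XT.nd (nat_lit 234) (nat_lit 228) (nat_lit 0) (XT.nd (nat_lit 78) (nat_lit 380) (nat_lit 0) (XT.lf (nat_lit 0) (nat_lit 1344979246) (nat_lit 228) (nat_lit 4568130242) (nat_lit 304) (nat_lit 4035342391) (nat_lit 57) (nat_lit 5) (nat_lit 60) (nat_lit 5) (nat_lit 61) (nat_lit 4) (nat_lit 310) (nat_lit 241) (nat_lit 229)) (XT.nd (nat_lit 78) (nat_lit 380) (nat_lit 0) (XT.lf (nat_lit 0) (nat_lit 6860763596) (nat_lit 228) (nat_lit 2128670628) (nat_lit 304) (nat_lit 1130982522) (nat_lit 57) (nat_lit 5) (nat_lit 60) (nat_lit 5) (nat_lit 61) (nat_lit 4) (nat_lit 311) (nat_lit 241) (nat_lit 228)) (XT.lf (nat_lit 0) (nat_lit 1781401137) (nat_lit 380) (nat_lit 8127158821) (nat_lit 76) (nat_lit 389864849) (nat_lit 52) (nat_lit 5)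 (nat_lit 57) (nat_lit 5) (nat_lit 53) (nat_lit 4) (nat_lit 312) (nat_lit 241) (nat_lit 227)))) (XT.nd (nat_lit 78) (nat_lit 228) (nat_lit 0) (XT.lf (nat_lit 0) (nat_lit 4746028696) (nat_lit 380) (nat_lit 2776244870) (nat_lit 76) (nat_lit 2959668230) (nat_lit 52) (nat_lit 5) (nat_lit 57) (nat_lit 5) (nat_lit 53) (nat_lit 4) (nat_lit 313) (nat_lit 241) (nat_lit 226)) (XT.nd (nat_lit 78) (nat_lit 0) (nat_lit 0) (XT.lf (nat_lit 0) (nat_lit 2695769666) (nat_lit 228) (nat_lit 5064967989) (nat_lit 304) (nat_lit 2911521236) (nat_lit 49) (nat_lit 5) (nat_lit 52) (nat_lit 5) (nat_lit 53) (nat_lit 4) (nat_lit 314) (nat_lit 241) (nat_lit 225)) (XT.lf (nat_lit 0) (nat_lit 8297726194) (nat_lit 228) (nat_lit 2532436053) (nat_lit 304) (nat_lit 39320145) (nat_lit 49) (nat_lit 5) (nat_lit 52) (nat_lit 5) (nat_lit 53) (nat_lit 4) (nat_lit 315) (nat_lit 241) (nat_lit 224)))))) (XT.nd (nat_lit 468) (nat_lit 608)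 (nat_lit 0) (XT.nd (nat_lit 234) (nat_lit 304) (nat_lit 0) (XT.nd (nat_lit 78) (nat_lit 228) (nat_lit 0) (XT.lf (nat_lit 0) (nat_lit 2828685570) (nat_lit 304) (nat_lit 8139475949) (nat_lit 76) (nat_lit 104739235) (nat_lit 45) (nat_lit 5) (nat_lit 49) (nat_lit 5) (nat_lit 46) (nat_lit 4) (nat_lit 316) (nat_lit 241) (nat_lit 223)) (XT.nd (nat_lit 78) (nat_lit 228) (nat_lit 0) (XT.lf (nat_lit 0) (nat_lit 5771313278) (nat_lit 304) (nat_lit 2741543285) (nat_lit 76) (nat_lit 2769986766) (nat_lit 45) (nat_lit 5) (nat_lit 49) (nat_lit 5) (nat_lit 46) (nat_lit 4) (nat_lit 317) (nat_lit 241) (nat_lit 222)) (XT.lf (nat_lit 0) (nat_lit 2784646057) (nat_lit 228) (nat_lit 5984216892) (nat_lit 304) (nat_lit 2731333107) (nat_lit 42) (nat_lit 5) (nat_lit 45) (nat_lit 5) (nat_lit 46) (nat_lit 4) (nat_lit 318) (nat_lit 241) (nat_lit 221)))) (XT.nd (nat_lit 78) (nat_lit 228) (nat_lit 0) (XT.lf (nat_lit 0) (nat_lit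 97743729) (nat_lit 304) (nat_lit 3280418186) (nat_lit 76) (nat_lit 8346932442) (nat_lit 41) (nat_lit 5) (nat_lit 45) (nat_lit 5) (nat_lit 42) (nat_lit 5) (nat_lit 319) (nat_lit 241) (nat_lit 220)) (XT.nd (nat_lit 78) (nat_lit 0) (nat_lit 0) (XT.lf (nat_lit 0) (nat_lit 2248727969) (nat_lit 228) (nat_lit 671525447) (nat_lit 304) (nat_lit 9036872910) (nat_lit 38) (nat_lit 5) (nat_lit 41) (nat_lit 5) (nat_lit 42) (nat_lit 5) (nat_lit 320) (nat_lit 241) (nat_lit 219)) (XT.lf (nat_lit 0) (nat_lit 5823686659) (nat_lit 304) (nat_lit 4291388864) (nat_lit 76) (nat_lit 2081255055) (nat_lit 38) (nat_lit 5) (nat_lit 42) (nat_lit 5) (nat_lit 39) (nat_lit 4) (nat_lit 321) (nat_lit 241) (nat_lit 218))))) (XT.nd (nat_lit 234) (nat_lit 380) (nat_lit 0) (XT.nd (nat_lit 78) (nat_lit 76) (nat_lit 0) (XT.lf (nat_lit 0) (nat_lit 1221249032) (nat_lit 152) (nat_lit 7555489430) (nat_lit 228) (nat_lit 3667192925) (nat_lit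 36) (nat_lit 5) (nat_lit 38) (nat_lit 5) (nat_lit 39) (nat_lit 4) (nat_lit 322) (nat_lit 241) (nat_lit 217)) (XT.nd (nat_lit 78) (nat_lit 76) (nat_lit 0) (XT.lf (nat_lit 0) (nat_lit 6903995407) (nat_lit 152) (nat_lit 4902675635) (nat_lit 228) (nat_lit 892733604) (nat_lit 36) (nat_lit 5) (nat_lit 38) (nat_lit 5) (nat_lit 39) (nat_lit 4) (nat_lit 323) (nat_lit 241) (nat_lit 216)) (XT.lf (nat_lit 0) (nat_lit 1872556174) (nat_lit 228) (nat_lit 306185438) (nat_lit 76) (nat_lit 10784943393) (nat_lit 35) (nat_lit 5) (nat_lit 38) (nat_lit 5) (nat_lit 36) (nat_lit 5) (nat_lit 324) (nat_lit 241) (nat_lit 215)))) (XT.nd (nat_lit 78) (nat_lit 152) (nat_lit 0) (XT.lf (nat_lit 0) (nat_lit 4708301587) (nat_lit 304) (nat_lit 7878150398) (nat_lit 76) (nat_lit 649098623) (nat_lit 32) (nat_lit 5) (nat_lit 36) (nat_lit 5) (nat_lit 33) (nat_lit 4) (nat_lit 325) (nat_lit 241) (nat_lit 214)) (XT.nd (nat_lit 78) (nat_lit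 152) (nat_lit 0) (XT.lf (nat_lit 0) (nat_lit 7601838870) (nat_lit 304) (nat_lit 2420096544) (nat_lit 76) (nat_lit 3494537900) (nat_lit 32) (nat_lit 5) (nat_lit 36) (nat_lit 5) (nat_lit 33) (nat_lit 4) (nat_lit 326) (nat_lit 241) (nat_lit 213)) (XT.lf (nat_lit 0) (nat_lit 3186020394) (nat_lit 152) (nat_lit 7376327002) (nat_lit 228) (nat_lit 3244151662) (nat_lit 30) (nat_lit 5) (nat_lit 32) (nat_lit 5) (nat_lit 33) (nat_lit 4) (nat_lit 327) (nat_lit 241) (nat_lit 212))))))))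
noncomputable def xc61 : XT := (XT.nd (nat_lit 1716) (nat_lit 456) (nat_lit 0) (XT.nd (nat_lit 858) (nat_lit 532) (nat_lit 0) (XT.nd (nat_lit 390) (nat_lit 380) (nat_lit 0) (XT.nd (nat_lit 156) (nat_lit 152) (nat_lit 0) (XT.nd (nat_lit 78) (nat_lit 228) (nat_lit 0) (XT.lf (nat_lit 0) (nat_lit 8932844412) (nat_lit 152) (nat_lit 4653532879) (nat_lit 228) (nat_lit 519685072) (nat_lit 30) (nat_lit 5) (nat_lit 32) (nat_lit 5) (nat_lit 33) (nat_lit 4) (nat_lit 328) (nat_lit 241) (nat_lit 211)) (XT.lf (nat_lit 0) (nat_lit 346353565) (nat_lit 152) (nat_lit 1850037272) (nat_lit 228) (nat_lit 12219001040) (nat_lit 27) (nat_lit 5) (nat_lit 29) (nat_lit 5) (nat_lit 30) (nat_lit 5) (nat_lit 329) (nat_lit 241) (nat_lit 210))) (XT.nd (nat_lit 78) (nat_lit 152) (nat_lit 0) (XT.lf (nat_lit 0) (nat_lit 4997838742) (nat_lit 228) (nat_lit 8686910362) (nat_lit 76) (nat_lit 1048739119) (nat_lit 27) (nat_lit 5) (nat_lit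 30) (nat_lit 5) (nat_lit 28) (nat_lit 4) (nat_lit 330) (nat_lit 241) (nat_lit 209)) (XT.nd (nat_lit 78) (nat_lit 152) (nat_lit 0) (XT.lf (nat_lit 0) (nat_lit 7854661460) (nat_lit 228) (nat_lit 3235808668) (nat_lit 76) (nat_lit 3971586667) (nat_lit 27) (nat_lit 5) (nat_lit 30) (nat_lit 5) (nat_lit 28) (nat_lit 4) (nat_lit 331) (nat_lit 241) (nat_lit 208)) (XT.lf (nat_lit 0) (nat_lit 2352723671) (nat_lit 152) (nat_lit 8421463703) (nat_lit 228) (nat_lit 4627052354) (nat_lit 25) (nat_lit 5) (nat_lit 27) (nat_lit 5) (nat_lit 28) (nat_lit 4) (nat_lit 332) (nat_lit 241) (nat_lit 207))))) (XT.nd (nat_lit 234) (nat_lit 152) (nat_lit 0) (XT.nd (nat_lit 78) (nat_lit 228) (nat_lit 0) (XT.lf (nat_lit 0) (nat_lit 8103936374) (nat_lit 152) (nat_lit 5665063928) (nat_lit 228) (nat_lit 1982032111) (nat_lit 25) (nat_lit 5) (nat_lit 27) (nat_lit 5) (nat_lit 28) (nat_lit 4) (nat_lit 333) (nat_lit 241) (nat_lit 206))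 (XT.nd (nat_lit 78) (nat_lit 152) (nat_lit 0) (XT.lf (nat_lit 0) (nat_lit 683694394) (nat_lit 228) (nat_lit 2160939253) (nat_lit 76) (nat_lit 13267857465) (nat_lit 24) (nat_lit 5) (nat_lit 27) (nat_lit 5) (nat_lit 25) (nat_lit 5) (nat_lit 334) (nat_lit 241) (nat_lit 205)) (XT.lf (nat_lit 0) (nat_lit 3380899264) (nat_lit 228) (nat_lit 13015653225) (nat_lit 76) (nat_lit 87971818) (nat_lit 22) (nat_lit 5) (nat_lit 25) (nat_lit 5) (nat_lit 23) (nat_lit 4) (nat_lit 335) (nat_lit 241) (nat_lit 204)))) (XT.nd (nat_lit 78) (nat_lit 152) (nat_lit 0) (XT.lf (nat_lit 0) (nat_lit 6166707960) (nat_lit 228) (nat_lit 7652114145) (nat_lit 76) (nat_lit 3048723781) (nat_lit 22) (nat_lit 5) (nat_lit 25) (nat_lit 5) (nat_lit 23) (nat_lit 4) (nat_lit 336) (nat_lit 241) (nat_lit 203)) (XT.nd (nat_lit 78) (nat_lit 152) (nat_lit 0) (XT.lf (nat_lit 0) (nat_lit 8994814888) (nat_lit 228) (nat_lit 2194214919) (nat_lit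 76) (nat_lit 6074322914) (nat_lit 22) (nat_lit 5) (nat_lit 25) (nat_lit 5) (nat_lit 23) (nat_lit 4) (nat_lit 337) (nat_lit 241) (nat_lit 202)) (XT.lf (nat_lit 0) (nat_lit 3429740071) (nat_lit 152) (nat_lit 8470919897) (nat_lit 228) (nat_lit 5770641633) (nat_lit 20) (nat_lit 5) (nat_lit 22) (nat_lit 5) (nat_lit 23) (nat_lit 4) (nat_lit 338) (nat_lit 241) (nat_lit 201)))))) (XT.nd (nat_lit 390) (nat_lit 304) (nat_lit 0) (XT.nd (nat_lit 156) (nat_lit 228) (nat_lit 0) (XT.nd (nat_lit 78) (nat_lit 0) (nat_lit 0) (XT.lf (nat_lit 0) (nat_lit 9203418583) (nat_lit 152) (nat_lit 5672897509) (nat_lit 228) (nat_lit 3215746880) (nat_lit 20) (nat_lit 5) (nat_lit 22) (nat_lit 5) (nat_lit 23) (nat_lit 4) (nat_lit 339) (nat_lit 241) (nat_lit 200)) (XT.lf (nat_lit 0) (nat_lit 15088196398) (nat_lit 152) (nat_lit 2814675038) (nat_lit 228) (nat_lit 623778409) (nat_lit 20) (nat_lit 5) (nat_lit 22) (nat_lit 5) (nat_lit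 23) (nat_lit 4) (nat_lit 340) (nat_lit 241) (nat_lit 199))) (XT.nd (nat_lit 78) (nat_lit 0) (nat_lit 0) (XT.lf (nat_lit 0) (nat_lit 1990304233) (nat_lit 228) (nat_lit 16839502492) (nat_lit 76) (nat_lit 144397813) (nat_lit 17) (nat_lit 5) (nat_lit 20) (nat_lit 5) (nat_lit 18) (nat_lit 4) (nat_lit 341) (nat_lit 241) (nat_lit 198)) (XT.nd (nat_lit 78) (nat_lit 0) (nat_lit 0) (XT.lf (nat_lit 0) (nat_lit 4695825940) (nat_lit 228) (nat_lit 11584433657) (nat_lit 76) (nat_lit 3154021550) (nat_lit 17) (nat_lit 5) (nat_lit 20) (nat_lit 5) (nat_lit 18) (nat_lit 4) (nat_lit 342) (nat_lit 241) (nat_lit 197)) (XT.lf (nat_lit 0) (nat_lit 7446222451) (nat_lit 228) (nat_lit 6231361975) (nat_lit 76) (nat_lit 6231710156) (nat_lit 17) (nat_lit 5) (nat_lit 20) (nat_lit 5) (nat_lit 18) (nat_lit 4) (nat_lit 343) (nat_lit 241) (nat_lit 196))))) (XT.nd (nat_lit 234) (nat_lit 228) (nat_lit 0) (XT.nd (nat_lit 78) (nat_lit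 76) (nat_lit 0) (XT.lf (nat_lit 0) (nat_lit 10243897024) (nat_lit 228) (nat_lit 775610003) (nat_lit 76) (nat_lit 9380152872) (nat_lit 17) (nat_lit 5) (nat_lit 20) (nat_lit 5) (nat_lit 18) (nat_lit 4) (nat_lit 344) (nat_lit 241) (nat_lit 195)) (XT.nd (nat_lit 78) (nat_lit 0) (nat_lit 0) (XT.lf (nat_lit 0) (nat_lit 4882871836) (nat_lit 76) (nat_lit 8255359544) (nat_lit 152) (nat_lit 7766166081) (nat_lit 16) (nat_lit 5) (nat_lit 17) (nat_lit 5) (nat_lit 18) (nat_lit 4) (nat_lit 345) (nat_lit 241) (nat_lit 194)) (XT.lf (nat_lit 0) (nat_lit 10671333495) (nat_lit 76) (nat_lit 5422147976) (nat_lit 152) (nat_lit 5331615023) (nat_lit 16) (nat_lit 5) (nat_lit 17) (nat_lit 5) (nat_lit 18) (nat_lit 4) (nat_lit 346) (nat_lit 241) (nat_lit 193)))) (XT.nd (nat_lit 78) (nat_lit 228) (nat_lit 0) (XT.lf (nat_lit 0) (nat_lit 16579396691) (nat_lit 76) (nat_lit 2525228840) (nat_lit 152) (nat_lit 2857814563) (nat_lit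 16) (nat_lit 5) (nat_lit 17) (nat_lit 5) (nat_lit 18) (nat_lit 4) (nat_lit 347) (nat_lit 241) (nat_lit 192)) (XT.nd (nat_lit 78) (nat_lit 76) (nat_lit 0) (XT.lf (nat_lit 0) (nat_lit 92929772) (nat_lit 152) (nat_lit 22086467828) (nat_lit 152) (nat_lit 337347101) (nat_lit 14) (nat_lit 4) (nat_lit 16) (nat_lit 5) (nat_lit 16) (nat_lit 4) (nat_lit 348) (nat_lit 241) (nat_lit 191)) (XT.lf (nat_lit 0) (nat_lit 2262623943) (nat_lit 228) (nat_lit 17343194808) (nat_lit 76) (nat_lit 3479806595) (nat_lit 13) (nat_lit 5) (nat_lit 16) (nat_lit 5) (nat_lit 14) (nat_lit 4) (nat_lit 349) (nat_lit 241) (nat_lit 190))))))) (XT.nd (nat_lit 858) (nat_lit 152) (nat_lit 0) (XT.nd (nat_lit 390) (nat_lit 228) (nat_lit 0) (XT.nd (nat_lit 156) (nat_lit 76) (nat_lit 0) (XT.nd (nat_lit 78) (nat_lit 0) (nat_lit 0) (XT.lf (nat_lit 0) (nat_lit 4902810820) (nat_lit 228) (nat_lit 12165363690) (nat_lit 76) (nat_lit 6604263944)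 (nat_lit 13) (nat_lit 5) (nat_lit 16) (nat_lit 5) (nat_lit 14) (nat_lit 4) (nat_lit 350) (nat_lit 241) (nat_lit 189)) (XT.lf (nat_lit 0) (nat_lit 7592103343) (nat_lit 228) (nat_lit 6882554471) (nat_lit 76) (nat_lit 9803136241) (nat_lit 13) (nat_lit 5) (nat_lit 16) (nat_lit 5) (nat_lit 14) (nat_lit 4) (nat_lit 351) (nat_lit 241) (nat_lit 188))) (XT.nd (nat_lit 78) (nat_lit 76) (nat_lit 0) (XT.lf (nat_lit 0) (nat_lit 10332851381) (nat_lit 228) (nat_lit 1490151102) (nat_lit 76) (nat_lit 13079218618) (nat_lit 13) (nat_lit 5) (nat_lit 16) (nat_lit 5) (nat_lit 14) (nat_lit 4) (nat_lit 352) (nat_lit 241) (nat_lit 187)) (XT.nd (nat_lit 78) (nat_lit 0) (nat_lit 0) (XT.lf (nat_lit 0) (nat_lit 4096495608) (nat_lit 76) (nat_lit 9070332176) (nat_lit 152) (nat_lit 12378256085) (nat_lit 12) (nat_lit 5) (nat_lit 13) (nat_lit 5) (nat_lit 14) (nat_lit 4) (nat_lit 353) (nat_lit 241) (nat_lit 186)) (XT.lf (nat_lit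 0) (nat_lit 9834287568) (nat_lit 76) (nat_lit 6238585988) (nat_lit 152) (nat_lit 10134779584) (nat_lit 12) (nat_lit 5) (nat_lit 13) (nat_lit 5) (nat_lit 14) (nat_lit 4) (nat_lit 354) (nat_lit 241) (nat_lit 185))))) (XT.nd (nat_lit 234) (nat_lit 228) (nat_lit 0) (XT.nd (nat_lit 78) (nat_lit 0) (nat_lit 0) (XT.lf (nat_lit 0) (nat_lit 15698581452) (nat_lit 76) (nat_lit 3340337184) (nat_lit 152) (nat_lit 7852027502) (nat_lit 12) (nat_lit 5) (nat_lit 13) (nat_lit 5) (nat_lit 14) (nat_lit 4) (nat_lit 355) (nat_lit 241) (nat_lit 184)) (XT.nd (nat_lit 78) (nat_lit 0) (nat_lit 0) (XT.lf (nat_lit 0) (nat_lit 21694501402) (nat_lit 76) (nat_lit 373053314) (nat_lit 152) (nat_lit 5528005202) (nat_lit 12) (nat_lit 5) (nat_lit 13) (nat_lit 5) (nat_lit 14) (nat_lit 4) (nat_lit 356) (nat_lit 241) (nat_lit 183)) (XT.lf (nat_lit 0) (nat_lit 25187054036) (nat_lit 152) (nat_lit 520449450) (nat_lit 0) (nat_lit 2613837896)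 (nat_lit 12) (nat_lit 5) (nat_lit 14) (nat_lit 4) (nat_lit 12) (nat_lit 4) (nat_lit 357) (nat_lit 241) (nat_lit 182)))) (XT.nd (nat_lit 78) (nat_lit 76) (nat_lit 0) (XT.lf (nat_lit 0) (nat_lit 5074534643) (nat_lit 152) (nat_lit 23353039081) (nat_lit 152) (nat_lit 640528048) (nat_lit 10) (nat_lit 4) (nat_lit 12) (nat_lit 5) (nat_lit 12) (nat_lit 4) (nat_lit 358) (nat_lit 241) (nat_lit 181)) (XT.nd (nat_lit 78) (nat_lit 0) (nat_lit 0) (XT.lf (nat_lit 0) (nat_lit 1870744860) (nat_lit 228) (nat_lit 19050136726) (nat_lit 76) (nat_lit 8916444564) (nat_lit 9) (nat_lit 5) (nat_lit 12) (nat_lit 5) (nat_lit 10) (nat_lit 4) (nat_lit 359) (nat_lit 241) (nat_lit 180)) (XT.lf (nat_lit 0) (nat_lit 4420226015) (nat_lit 228) (nat_lit 14005988777) (nat_lit 76) (nat_lit 12203976010) (nat_lit 9) (nat_lit 5) (nat_lit 12) (nat_lit 5) (nat_lit 10) (nat_lit 4) (nat_lit 360) (nat_lit 241) (nat_lit 179)))))) (XT.nd (nat_lit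 468) (nat_lit 76) (nat_lit 0) (XT.nd (nat_lit 234) (nat_lit 0) (nat_lit 0) (XT.nd (nat_lit 78) (nat_lit 76) (nat_lit 0) (XT.lf (nat_lit 0) (nat_lit 7022642129) (nat_lit 228) (nat_lit 8850558627) (nat_lit 76) (nat_lit 15574372482) (nat_lit 9) (nat_lit 5) (nat_lit 12) (nat_lit 5) (nat_lit 10) (nat_lit 4) (nat_lit 361) (nat_lit 241) (nat_lit 178)) (XT.nd (nat_lit 78) (nat_lit 76) (nat_lit 0) (XT.lf (nat_lit 0) (nat_lit 9680267156) (nat_lit 228) (nat_lit 3579341530) (nat_lit 76) (nat_lit 19030578986) (nat_lit 9) (nat_lit 5) (nat_lit 12) (nat_lit 5) (nat_lit 10) (nat_lit 4) (nat_lit 362) (nat_lit 241) (nat_lit 177)) (XT.lf (nat_lit 0) (nat_lit 1848336125) (nat_lit 76) (nat_lit 10564854505) (nat_lit 152) (nat_lit 20745046722) (nat_lit 8) (nat_lit 5) (nat_lit 9) (nat_lit 5) (nat_lit 10) (nat_lit 4) (nat_lit 363) (nat_lit 241) (nat_lit 176)))) (XT.nd (nat_lit 78) (nat_lit 0) (nat_lit 0) (XT.lf (nat_lit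 0) (nat_lit 7474843490) (nat_lit 76) (nat_lit 7767492286) (nat_lit 152) (nat_lit 18809588934) (nat_lit 8) (nat_lit 5) (nat_lit 9) (nat_lit 5) (nat_lit 10) (nat_lit 4) (nat_lit 364) (nat_lit 241) (nat_lit 175)) (XT.nd (nat_lit 78) (nat_lit 0) (nat_lit 0) (XT.lf (nat_lit 0) (nat_lit 13233861014) (nat_lit 76) (nat_lit 4901222061) (nat_lit 152) (nat_lit 16838000309) (nat_lit 8) (nat_lit 5) (nat_lit 9) (nat_lit 5) (nat_lit 10) (nat_lit 4) (nat_lit 365) (nat_lit 241) (nat_lit 174)) (XT.lf (nat_lit 0) (nat_lit 19130420850) (nat_lit 76) (nat_lit 1963539325) (nat_lit 152) (nat_lit 14828558099) (nat_lit 8) (nat_lit 5) (nat_lit 9) (nat_lit 5) (nat_lit 10) (nat_lit 4) (nat_lit 366) (nat_lit 241) (nat_lit 173))))) (XT.nd (nat_lit 234) (nat_lit 76) (nat_lit 0) (XT.nd (nat_lit 78) (nat_lit 0) (nat_lit 0) (XT.lf (nat_lit 0) (nat_lit 24131627696) (nat_lit 152) (nat_lit 11741458846) (nat_lit 0) (nat_lit 1027670179)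 (nat_lit 8) (nat_lit 5) (nat_lit 10) (nat_lit 4) (nat_lit 8) (nat_lit 4) (nat_lit 367) (nat_lit 241) (nat_lit 172)) (XT.nd (nat_lit 78) (nat_lit 0) (nat_lit 0) (XT.lf (nat_lit 0) (nat_lit 27260267084) (nat_lit 152) (nat_lit 6592420630) (nat_lit 0) (nat_lit 4055679973) (nat_lit 8) (nat_lit 5) (nat_lit 10) (nat_lit 4) (nat_lit 8) (nat_lit 4) (nat_lit 368) (nat_lit 241) (nat_lit 171)) (XT.lf (nat_lit 0) (nat_lit 30463737361) (nat_lit 152) (nat_lit 1321608875) (nat_lit 0) (nat_lit 7161451614) (nat_lit 8) (nat_lit 5) (nat_lit 10) (nat_lit 4) (nat_lit 8) (nat_lit 4) (nat_lit 369) (nat_lit 241) (nat_lit 170)))) (XT.nd (nat_lit 78) (nat_lit 0) (nat_lit 0) (XT.lf (nat_lit 0) (nat_lit 4156694056) (nat_lit 76) (nat_lit 29628100304) (nat_lit 76) (nat_lit 6230961513) (nat_lit 7) (nat_lit 4) (nat_lit 8) (nat_lit 5) (nat_lit 8) (nat_lit 4) (nat_lit 370) (nat_lit 241) (nat_lit 169)) (XT.nd (nat_lit 78) (nat_lit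 0) (nat_lit 0) (XT.lf (nat_lit 0) (nat_lit 9795003739) (nat_lit 76) (nat_lit 27405586833) (nat_lit 76) (nat_lit 3916357709) (nat_lit 7) (nat_lit 4) (nat_lit 8) (nat_lit 5) (nat_lit 8) (nat_lit 4) (nat_lit 371) (nat_lit 241) (nat_lit 168)) (XT.lf (nat_lit 0) (nat_lit 15571944245) (nat_lit 76) (nat_lit 25129209480) (nat_lit 76) (nat_lit 1550572264) (nat_lit 7) (nat_lit 4) (nat_lit 8) (nat_lit 5) (nat_lit 8) (nat_lit 4) (nat_lit 372) (nat_lit 241) (nat_lit 167))))))))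
noncomputable def xc62 : XT := (XT.nd (nat_lit 1716) (nat_lit 76) (nat_lit 0) (XT.nd (nat_lit 858) (nat_lit 76) (nat_lit 0) (XT.nd (nat_lit 390) (nat_lit 76) (nat_lit 0) (XT.nd (nat_lit 156) (nat_lit 0) (nat_lit 0) (XT.nd (nat_lit 78) (nat_lit 0) (nat_lit 0) (XT.lf (nat_lit 0) (nat_lit 851515189) (nat_lit 152) (nat_lit 21936865353) (nat_lit 76) (nat_lit 20632449563) (nat_lit 6) (nat_lit 5) (nat_lit 8) (nat_lit 5) (nat_lit 7) (nat_lit 4) (nat_lit 373) (nat_lit 241) (nat_lit 166)) (XT.lf (nat_lit 0) (nat_lit 3277627621) (nat_lit 152) (nat_lit 17096132818) (nat_lit 76) (nat_lit 24251309286) (nat_lit 6) (nat_lit 5) (nat_lit 8) (nat_lit 5) (nat_lit 7) (nat_lit 4) (nat_lit 374) (nat_lit 241) (nat_lit 165))) (XT.nd (nat_lit 78) (nat_lit 0) (nat_lit 0) (XT.lf (nat_lit 0) (nat_lit 5760142184) (nat_lit 152) (nat_lit 12138449323) (nat_lit 76) (nat_lit 27967352738) (nat_lit 6) (nat_lit 5) (nat_lit 8) (nat_lit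 5) (nat_lit 7) (nat_lit 4) (nat_lit 375) (nat_lit 241) (nat_lit 164)) (XT.nd (nat_lit 78) (nat_lit 0) (nat_lit 0) (XT.lf (nat_lit 0) (nat_lit 8301228067) (nat_lit 152) (nat_lit 7059482912) (nat_lit 76) (nat_lit 31783826949) (nat_lit 6) (nat_lit 5) (nat_lit 8) (nat_lit 5) (nat_lit 7) (nat_lit 4) (nat_lit 376) (nat_lit 241) (nat_lit 163)) (XT.lf (nat_lit 0) (nat_lit 10903105635) (nat_lit 152) (nat_lit 1854795654) (nat_lit 76) (nat_lit 35704066701) (nat_lit 6) (nat_lit 5) (nat_lit 8) (nat_lit 5) (nat_lit 7) (nat_lit 4) (nat_lit 377) (nat_lit 241) (nat_lit 162))))) (XT.nd (nat_lit 234) (nat_lit 0) (nat_lit 0) (XT.nd (nat_lit 78) (nat_lit 0) (nat_lit 0) (XT.lf (nat_lit 0) (nat_lit 3549422249) (nat_lit 76) (nat_lit 10052745342) (nat_lit 152) (nat_lit 36216194416) (nat_lit 5) (nat_lit 5) (nat_lit 6) (nat_lit 5) (nat_lit 7) (nat_lit 4) (nat_lit 378) (nat_lit 241) (nat_lit 161)) (XT.nd (nat_lit 78) (nat_lit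 0) (nat_lit 0) (XT.lf (nat_lit 0) (nat_lit 9128169844) (nat_lit 76) (nat_lit 7257960582) (nat_lit 152) (nat_lit 34829214011) (nat_lit 5) (nat_lit 5) (nat_lit 6) (nat_lit 5) (nat_lit 7) (nat_lit 4) (nat_lit 379) (nat_lit 241) (nat_lit 160)) (XT.lf (nat_lit 0) (nat_lit 14849407694) (nat_lit 76) (nat_lit 4389834764) (nat_lit 152) (nat_lit 33415439013) (nat_lit 5) (nat_lit 5) (nat_lit 6) (nat_lit 5) (nat_lit 7) (nat_lit 4) (nat_lit 380) (nat_lit 241) (nat_lit 159)))) (XT.nd (nat_lit 78) (nat_lit 0) (nat_lit 0) (XT.lf (nat_lit 0) (nat_lit 20718134938) (nat_lit 76) (nat_lit 1445861756) (nat_lit 152) (nat_lit 31973634086) (nat_lit 5) (nat_lit 5) (nat_lit 6) (nat_lit 5) (nat_lit 7) (nat_lit 4) (nat_lit 381) (nat_lit 241) (nat_lit 158)) (XT.nd (nat_lit 78) (nat_lit 0) (nat_lit 0) (XT.lf (nat_lit 0) (nat_lit 25178103328) (nat_lit 152) (nat_lit 28941163136) (nat_lit 0) (nat_lit 1545767047) (nat_lit 5)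 (nat_lit 5) (nat_lit 7) (nat_lit 4) (nat_lit 5) (nat_lit 4) (nat_lit 382) (nat_lit 241) (nat_lit 157)) (XT.lf (nat_lit 0) (nat_lit 28283705933) (nat_lit 152) (nat_lit 24365872442) (nat_lit 0) (nat_lit 4588660615) (nat_lit 5) (nat_lit 5) (nat_lit 7) (nat_lit 4) (nat_lit 5) (nat_lit 4) (nat_lit 383) (nat_lit 241) (nat_lit 156)))))) (XT.nd (nat_lit 390) (nat_lit 0) (nat_lit 0) (XT.nd (nat_lit 156) (nat_lit 76) (nat_lit 0) (XT.nd (nat_lit 78) (nat_lit 0) (nat_lit 0) (XT.lf (nat_lit 0) (nat_lit 31469619634) (nat_lit 152) (nat_lit 19675727425) (nat_lit 0) (nat_lit 7713691757) (nat_lit 5) (nat_lit 5) (nat_lit 7) (nat_lit 4) (nat_lit 5) (nat_lit 4) (nat_lit 384) (nat_lit 241) (nat_lit 155)) (XT.lf (nat_lit 0) (nat_lit 34738628241) (nat_lit 152) (nat_lit 14866629900) (nat_lit 0) (nat_lit 10923591083) (nat_lit 5) (nat_lit 5) (nat_lit 7) (nat_lit 4) (nat_lit 5) (nat_lit 4) (nat_lit 385) (nat_lit 241) (nat_lit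 154))) (XT.nd (nat_lit 78) (nat_lit 76) (nat_lit 0) (XT.lf (nat_lit 0) (nat_lit 38093588168) (nat_lit 152) (nat_lit 9934377744) (nat_lit 0) (nat_lit 14221163358) (nat_lit 5) (nat_lit 5) (nat_lit 7) (nat_lit 4) (nat_lit 5) (nat_lit 4) (nat_lit 386) (nat_lit 241) (nat_lit 153)) (XT.nd (nat_lit 78) (nat_lit 76) (nat_lit 0) (XT.lf (nat_lit 0) (nat_lit 41537430935) (nat_lit 152) (nat_lit 4874661222) (nat_lit 0) (nat_lit 17609289958) (nat_lit 5) (nat_lit 5) (nat_lit 7) (nat_lit 4) (nat_lit 5) (nat_lit 4) (nat_lit 387) (nat_lit 241) (nat_lit 152)) (XT.lf (nat_lit 0) (nat_lit 323248520) (nat_lit 76) (nat_lit 44753024464) (nat_lit 76) (nat_lit 20770790122) (nat_lit 4) (nat_lit 4) (nat_lit 5) (nat_lit 5) (nat_lit 5) (nat_lit 4) (nat_lit 388) (nat_lit 241) (nat_lit 151))))) (XT.nd (nat_lit 234) (nat_lit 0) (nat_lit 0) (XT.nd (nat_lit 78) (nat_lit 0) (nat_lit 0) (XT.lf (nat_lit 0) (nat_lit 5757310471) (nat_lit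 76) (nat_lit 43001914328) (nat_lit 76) (nat_lit 18967162155) (nat_lit 4) (nat_lit 4) (nat_lit 5) (nat_lit 5) (nat_lit 5) (nat_lit 4) (nat_lit 389) (nat_lit 241) (nat_lit 150)) (XT.nd (nat_lit 78) (nat_lit 0) (nat_lit 0) (XT.lf (nat_lit 0) (nat_lit 11335257522) (nat_lit 76) (nat_lit 41206456173) (nat_lit 76) (nat_lit 17120715814) (nat_lit 4) (nat_lit 4) (nat_lit 5) (nat_lit 5) (nat_lit 5) (nat_lit 4) (nat_lit 390) (nat_lit 241) (nat_lit 149)) (XT.lf (nat_lit 0) (nat_lit 17061963608) (nat_lit 76) (nat_lit 39365081150) (nat_lit 76) (nat_lit 15229837700) (nat_lit 4) (nat_lit 4) (nat_lit 5) (nat_lit 5) (nat_lit 5) (nat_lit 4) (nat_lit 391) (nat_lit 241) (nat_lit 148)))) (XT.nd (nat_lit 78) (nat_lit 0) (nat_lit 0) (XT.lf (nat_lit 0) (nat_lit 22942432647) (nat_lit 76) (nat_lit 37476180293) (nat_lit 76) (nat_lit 13292875588) (nat_lit 4) (nat_lit 4) (nat_lit 5) (nat_lit 5) (nat_lit 5) (nat_lit 4) (nat_lit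 392) (nat_lit 241) (nat_lit 147)) (XT.nd (nat_lit 78) (nat_lit 0) (nat_lit 0) (XT.lf (nat_lit 0) (nat_lit 28981802913) (nat_lit 76) (nat_lit 35538103105) (nat_lit 76) (nat_lit 11308136987) (nat_lit 4) (nat_lit 4) (nat_lit 5) (nat_lit 5) (nat_lit 5) (nat_lit 4) (nat_lit 393) (nat_lit 241) (nat_lit 146)) (XT.lf (nat_lit 0) (nat_lit 35185351525) (nat_lit 76) (nat_lit 33549156120) (nat_lit 76) (nat_lit 9273887661) (nat_lit 4) (nat_lit 4) (nat_lit 5) (nat_lit 5) (nat_lit 5) (nat_lit 4) (nat_lit 394) (nat_lit 241) (nat_lit 145))))))) (XT.nd (nat_lit 33306) (nat_lit 0) (nat_lit 3724) (XT.nd (nat_lit 390) (nat_lit 0) (nat_lit 0) (XT.nd (nat_lit 156) (nat_lit 76) (nat_lit 0) (XT.nd (nat_lit 78) (nat_lit 0) (nat_lit 0) (XT.lf (nat_lit 0) (nat_lit 41558499060) (nat_lit 76) (nat_lit 31507601425) (nat_lit 76) (nat_lit 7188350109) (nat_lit 4) (nat_lit 4) (nat_lit 5) (nat_lit 5) (nat_lit 5) (nat_lit 4) (nat_lit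 395) (nat_lit 241) (nat_lit 144)) (XT.lf (nat_lit 0) (nat_lit 48106814288) (nat_lit 76) (nat_lit 29411655135) (nat_lit 76) (nat_lit 5049702017) (nat_lit 4) (nat_lit 4) (nat_lit 5) (nat_lit 5) (nat_lit 5) (nat_lit 4) (nat_lit 396) (nat_lit 241) (nat_lit 143))) (XT.nd (nat_lit 78) (nat_lit 76) (nat_lit 0) (XT.lf (nat_lit 0) (nat_lit 54836019037) (nat_lit 76) (nat_lit 27259485842) (nat_lit 76) (nat_lit 2856074663) (nat_lit 4) (nat_lit 4) (nat_lit 5) (nat_lit 5) (nat_lit 5) (nat_lit 4) (nat_lit 397) (nat_lit 241) (nat_lit 142)) (XT.nd (nat_lit 78) (nat_lit 76) (nat_lit 0) (XT.lf (nat_lit 0) (nat_lit 61751993195) (nat_lit 76) (nat_lit 25049213009) (nat_lit 76) (nat_lit 605551286) (nat_lit 4) (nat_lit 4) (nat_lit 5) (nat_lit 5) (nat_lit 5) (nat_lit 4) (nat_lit 398) (nat_lit 241) (nat_lit 141)) (XT.lf (nat_lit 0) (nat_lit 1670586640) (nat_lit 152) (nat_lit 21091449041) (nat_lit 76) (nat_lit 67173323556)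 (nat_lit 3) (nat_lit 5) (nat_lit 5) (nat_lit 5) (nat_lit 4) (nat_lit 4) (nat_lit 399) (nat_lit 241) (nat_lit 140))))) (XT.nd (nat_lit 32682) (nat_lit 0) (nat_lit 6232) (XT.nd (nat_lit 32526) (nat_lit 0) (nat_lit 7144) (XT.lf (nat_lit 0) (nat_lit 3994600494) (nat_lit 152) (nat_lit 16411640915) (nat_lit 76) (nat_lit 72133652424) (nat_lit 3) (nat_lit 5) (nat_lit 5) (nat_lit 5) (nat_lit 4) (nat_lit 4) (nat_lit 400) (nat_lit 241) (nat_lit 139)) (XT.nd (nat_lit 78) (nat_lit 456) (nat_lit 0) (XT.lf (nat_lit 0) (nat_lit 3640392599) (nat_lit 456) (nat_lit 205019466) (nat_lit 456) (nat_lit 205019466) (nat_lit 103) (nat_lit 4) (nat_lit 109) (nat_lit 5) (nat_lit 109) (nat_lit 4) (nat_lit 296) (nat_lit 242) (nat_lit 242)) (XT.lf (nat_lit 0) (nat_lit 2699036572) (nat_lit 456) (nat_lit 3974421245) (nat_lit 0) (nat_lit 1528957066) (nat_lit 97) (nat_lit 5) (nat_lit 103) (nat_lit 4) (nat_lit 97) (nat_lit 4) (nat_lit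 297) (nat_lit 242) (nat_lit 241)))) (XT.nd (nat_lit 78) (nat_lit 456) (nat_lit 0) (XT.lf (nat_lit 0) (nat_lit 1048899045) (nat_lit 456) (nat_lit 4783069717) (nat_lit 456) (nat_lit 2476990690) (nat_lit 91) (nat_lit 4) (nat_lit 97) (nat_lit 5) (nat_lit 97) (nat_lit 4) (nat_lit 298) (nat_lit 242) (nat_lit 240)) (XT.nd (nat_lit 78) (nat_lit 380) (nat_lit 0) (XT.lf (nat_lit 0) (nat_lit 584988787) (nat_lit 532) (nat_lit 2221463944) (nat_lit 76) (nat_lit 5613563634) (nat_lit 90) (nat_lit 5) (nat_lit 97) (nat_lit 5) (nat_lit 91) (nat_lit 4) (nat_lit 299) (nat_lit 242) (nat_lit 239)) (XT.lf (nat_lit 0) (nat_lit 2901543536) (nat_lit 380) (nat_lit 734576276) (nat_lit 456) (nat_lit 4899350127) (nat_lit 85) (nat_lit 5) (nat_lit 90) (nat_lit 5) (nat_lit 91) (nat_lit 4) (nat_lit 300) (nat_lit 242) (nat_lit 238)))))) (XT.nd (nat_lit 468) (nat_lit 1292) (nat_lit 0) (XT.nd (nat_lit 234) (nat_lit 456) (nat_lit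 0) (XT.nd (nat_lit 78) (nat_lit 760) (nat_lit 0) (XT.lf (nat_lit 0) (nat_lit 6735312984) (nat_lit 456) (nat_lit 543893638) (nat_lit 0) (nat_lit 1376691459) (nat_lit 85) (nat_lit 5) (nat_lit 91) (nat_lit 4) (nat_lit 85) (nat_lit 4) (nat_lit 301) (nat_lit 242) (nat_lit 237)) (XT.nd (nat_lit 78) (nat_lit 304) (nat_lit 0) (XT.lf (nat_lit 0) (nat_lit 1099759649) (nat_lit 456) (nat_lit 4106032601) (nat_lit 76) (nat_lit 3574772543) (nat_lit 79) (nat_lit 5) (nat_lit 85) (nat_lit 5) (nat_lit 80) (nat_lit 4) (nat_lit 302) (nat_lit 242) (nat_lit 236)) (XT.lf (nat_lit 0) (nat_lit 1055247023) (nat_lit 304) (nat_lit 3055675847) (nat_lit 380) (nat_lit 4799503124) (nat_lit 75) (nat_lit 5) (nat_lit 79) (nat_lit 5) (nat_lit 80) (nat_lit 4) (nat_lit 303) (nat_lit 242) (nat_lit 235)))) (XT.nd (nat_lit 78) (nat_lit 456) (nat_lit 0) (XT.lf (nat_lit 0) (nat_lit 6358368798) (nat_lit 304) (nat_lit 819939955) (nat_lit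 380) (nat_lit 1867081390) (nat_lit 75) (nat_lit 5) (nat_lit 79) (nat_lit 5) (nat_lit 80) (nat_lit 4) (nat_lit 304) (nat_lit 242) (nat_lit 234)) (XT.nd (nat_lit 78) (nat_lit 0) (nat_lit 0) (XT.lf (nat_lit 0) (nat_lit 1095728381) (nat_lit 456) (nat_lit 6620687390) (nat_lit 76) (nat_lit 1468880432) (nat_lit 69) (nat_lit 5) (nat_lit 75) (nat_lit 5) (nat_lit 70) (nat_lit 4) (nat_lit 305) (nat_lit 242) (nat_lit 233)) (XT.lf (nat_lit 0) (nat_lit 4072179229) (nat_lit 456) (nat_lit 1423782499) (nat_lit 76) (nat_lit 3834182794) (nat_lit 69) (nat_lit 5) (nat_lit 75) (nat_lit 5) (nat_lit 70) (nat_lit 4) (nat_lit 306) (nat_lit 242) (nat_lit 232))))) (XT.nd (nat_lit 234) (nat_lit 608) (nat_lit 0) (XT.nd (nat_lit 78) (nat_lit 380) (nat_lit 0) (XT.lf (nat_lit 0) (nat_lit 3910984384) (nat_lit 304) (nat_lit 3193429873) (nat_lit 380) (nat_lit 2376092568) (nat_lit 65) (nat_lit 5) (nat_lit 69) (nat_lit 5) (nat_lit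 70) (nat_lit 4) (nat_lit 307) (nat_lit 242) (nat_lit 231)) (XT.nd (nat_lit 78) (nat_lit 304) (nat_lit 0) (XT.lf (nat_lit 0) (nat_lit 524420336) (nat_lit 380) (nat_lit 300803494) (nat_lit 76) (nat_lit 8811827043) (nat_lit 64) (nat_lit 5) (nat_lit 69) (nat_lit 5) (nat_lit 65) (nat_lit 5) (nat_lit 308) (nat_lit 242) (nat_lit 230)) (XT.lf (nat_lit 0) (nat_lit 3460601981) (nat_lit 380) (nat_lit 4704399494) (nat_lit 76) (nat_lit 1632841086) (nat_lit 60) (nat_lit 5) (nat_lit 65) (nat_lit 5) (nat_lit 61) (nat_lit 4) (nat_lit 309) (nat_lit 242) (nat_lit 229)))) (XT.nd (nat_lit 78) (nat_lit 380) (nat_lit 0) (XT.lf (nat_lit 0) (nat_lit 602601207) (nat_lit 228) (nat_lit 5831476422) (nat_lit 304) (nat_lit 3531049163) (nat_lit 57) (nat_lit 5) (nat_lit 60) (nat_lit 5) (nat_lit 61) (nat_lit 4) (nat_lit 310) (nat_lit 242) (nat_lit 228)) (XT.nd (nat_lit 78) (nat_lit 380) (nat_lit 0) (XT.lf (nat_lit 0) (nat_lit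 6072888519) (nat_lit 228) (nat_lit 3404639680) (nat_lit 304) (nat_lit 660619059) (nat_lit 57) (nat_lit 5) (nat_lit 60) (nat_lit 5) (nat_lit 61) (nat_lit 4) (nat_lit 311) (nat_lit 242) (nat_lit 227)) (XT.lf (nat_lit 0) (nat_lit 1303179450) (nat_lit 304) (nat_lit 894903327) (nat_lit 380) (nat_lit 8119337389) (nat_lit 52) (nat_lit 5) (nat_lit 56) (nat_lit 5) (nat_lit 57) (nat_lit 5) (nat_lit 312) (nat_lit 242) (nat_lit 226))))))))
noncomputable def xc63 : XT := (XT.nd (nat_lit 1794) (nat_lit 912) (nat_lit 0) (XT.nd (nat_lit 858) (nat_lit 1064) (nat_lit 0) (XT.nd (nat_lit 390) (nat_lit 684) (nat_lit 0) (XT.nd (nat_lit 156) (nat_lit 304) (nat_lit 0) (XT.nd (nat_lit 78) (nat_lit 228) (nat_lit 0) (XT.lf (nat_lit 0) (nat_lit 5122201174) (nat_lit 380) (nat_lit 3700059879) (nat_lit 76) (nat_lit 1679954862) (nat_lit 52) (nat_lit 5) (nat_lit 57) (nat_lit 5) (nat_lit 53) (nat_lit 4) (nat_lit 313) (nat_lit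 242) (nat_lit 225)) (XT.lf (nat_lit 0) (nat_lit 1708677920) (nat_lit 228) (nat_lit 6387766204) (nat_lit 304) (nat_lit 2597364502) (nat_lit 49) (nat_lit 5) (nat_lit 52) (nat_lit 5) (nat_lit 53) (nat_lit 4) (nat_lit 314) (nat_lit 242) (nat_lit 224))) (XT.nd (nat_lit 78) (nat_lit 228) (nat_lit 0) (XT.lf (nat_lit 0) (nat_lit 238618766) (nat_lit 304) (nat_lit 3627295247) (nat_lit 76) (nat_lit 7026022598) (nat_lit 48) (nat_lit 5) (nat_lit 52) (nat_lit 5) (nat_lit 49) (nat_lit 5) (nat_lit 315) (nat_lit 242) (nat_lit 223)) (XT.nd (nat_lit 78) (nat_lit 0) (nat_lit 0) (XT.lf (nat_lit 0) (nat_lit 1813728838) (nat_lit 228) (nat_lit 1250372054) (nat_lit 304) (nat_lit 8032551838) (nat_lit 45) (nat_lit 5) (nat_lit 48) (nat_lit 5) (nat_lit 49) (nat_lit 5) (nat_lit 316) (nat_lit 242) (nat_lit 222)) (XT.lf (nat_lit 0) (nat_lit 5965091235) (nat_lit 304) (nat_lit 3916331382) (nat_lit 76) (nat_lit 1426476571) (nat_lit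 45) (nat_lit 5) (nat_lit 49) (nat_lit 5) (nat_lit 46) (nat_lit 4) (nat_lit 317) (nat_lit 242) (nat_lit 221))))) (XT.nd (nat_lit 234) (nat_lit 152) (nat_lit 0) (XT.nd (nat_lit 78) (nat_lit 304) (nat_lit 0) (XT.lf (nat_lit 0) (nat_lit 1543542970) (nat_lit 228) (nat_lit 7378412329) (nat_lit 304) (nat_lit 2604570353) (nat_lit 42) (nat_lit 5) (nat_lit 45) (nat_lit 5) (nat_lit 46) (nat_lit 4) (nat_lit 318) (nat_lit 242) (nat_lit 220)) (XT.nd (nat_lit 78) (nat_lit 228) (nat_lit 0) (XT.lf (nat_lit 0) (nat_lit 193383373) (nat_lit 304) (nat_lit 4591373573) (nat_lit 76) (nat_lit 6967540053) (nat_lit 41) (nat_lit 5) (nat_lit 45) (nat_lit 5) (nat_lit 42) (nat_lit 5) (nat_lit 319) (nat_lit 242) (nat_lit 219)) (XT.lf (nat_lit 0) (nat_lit 869792563) (nat_lit 228) (nat_lit 2105030265) (nat_lit 304) (nat_lit 9010786903) (nat_lit 38) (nat_lit 5) (nat_lit 41) (nat_lit 5) (nat_lit 42) (nat_lit 5) (nat_lit 320) (nat_lit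 242) (nat_lit 218)))) (XT.nd (nat_lit 78) (nat_lit 152) (nat_lit 0) (XT.lf (nat_lit 0) (nat_lit 5836952899) (nat_lit 304) (nat_lit 5726438828) (nat_lit 76) (nat_lit 662708591) (nat_lit 38) (nat_lit 5) (nat_lit 42) (nat_lit 5) (nat_lit 39) (nat_lit 4) (nat_lit 321) (nat_lit 242) (nat_lit 217)) (XT.nd (nat_lit 78) (nat_lit 152) (nat_lit 0) (XT.lf (nat_lit 0) (nat_lit 8751543517) (nat_lit 304) (nat_lit 277836633) (nat_lit 76) (nat_lit 3445520674) (nat_lit 38) (nat_lit 5) (nat_lit 42) (nat_lit 5) (nat_lit 39) (nat_lit 4) (nat_lit 322) (nat_lit 242) (nat_lit 216)) (XT.lf (nat_lit 0) (nat_lit 5359569675) (nat_lit 152) (nat_lit 6392856361) (nat_lit 228) (nat_lit 978864076) (nat_lit 36) (nat_lit 5) (nat_lit 38) (nat_lit 5) (nat_lit 39) (nat_lit 4) (nat_lit 323) (nat_lit 242) (nat_lit 215)))))) (XT.nd (nat_lit 468) (nat_lit 532) (nat_lit 0) (XT.nd (nat_lit 234) (nat_lit 228) (nat_lit 0) (XT.nd (nat_lit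 78) (nat_lit 228) (nat_lit 0) (XT.lf (nat_lit 0) (nat_lit 1762251578) (nat_lit 228) (nat_lit 1920876271) (nat_lit 76) (nat_lit 9313285077) (nat_lit 35) (nat_lit 5) (nat_lit 38) (nat_lit 5) (nat_lit 36) (nat_lit 5) (nat_lit 324) (nat_lit 242) (nat_lit 214)) (XT.nd (nat_lit 78) (nat_lit 0) (nat_lit 0) (XT.lf (nat_lit 0) (nat_lit 3678305302) (nat_lit 228) (nat_lit 872022696) (nat_lit 304) (nat_lit 8719421350) (nat_lit 32) (nat_lit 5) (nat_lit 35) (nat_lit 5) (nat_lit 36) (nat_lit 5) (nat_lit 325) (nat_lit 242) (nat_lit 213)) (XT.lf (nat_lit 0) (nat_lit 7410625303) (nat_lit 304) (nat_lit 4163357168) (nat_lit 76) (nat_lit 1977726344) (nat_lit 32) (nat_lit 5) (nat_lit 36) (nat_lit 5) (nat_lit 33) (nat_lit 4) (nat_lit 326) (nat_lit 242) (nat_lit 212)))) (XT.nd (nat_lit 78) (nat_lit 76) (nat_lit 0) (XT.lf (nat_lit 0) (nat_lit 1370092049) (nat_lit 152) (nat_lit 8959452411) (nat_lit 228) (nat_lit 3513476191)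 (nat_lit 30) (nat_lit 5) (nat_lit 32) (nat_lit 5) (nat_lit 33) (nat_lit 4) (nat_lit 327) (nat_lit 242) (nat_lit 211)) (XT.nd (nat_lit 78) (nat_lit 76) (nat_lit 0) (XT.lf (nat_lit 0) (nat_lit 7080048672) (nat_lit 152) (nat_lit 6249740654) (nat_lit 228) (nat_lit 813545471) (nat_lit 30) (nat_lit 5) (nat_lit 32) (nat_lit 5) (nat_lit 33) (nat_lit 4) (nat_lit 328) (nat_lit 242) (nat_lit 210)) (XT.lf (nat_lit 0) (nat_lit 1881578955) (nat_lit 228) (nat_lit 1583942022) (nat_lit 76) (nat_lit 10988063799) (nat_lit 29) (nat_lit 5) (nat_lit 32) (nat_lit 5) (nat_lit 30) (nat_lit 5) (nat_lit 329) (nat_lit 242) (nat_lit 209))))) (XT.nd (nat_lit 234) (nat_lit 228) (nat_lit 0) (XT.nd (nat_lit 78) (nat_lit 152) (nat_lit 0) (XT.lf (nat_lit 0) (nat_lit 4059411174) (nat_lit 152) (nat_lit 574783518) (nat_lit 228) (nat_lit 10138985523) (nat_lit 27) (nat_lit 5) (nat_lit 29) (nat_lit 5) (nat_lit 30) (nat_lit 5) (nat_lit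 330) (nat_lit 242) (nat_lit 208)) (XT.nd (nat_lit 78) (nat_lit 152) (nat_lit 0) (XT.lf (nat_lit 0) (nat_lit 7463020661) (nat_lit 228) (nat_lit 5292616323) (nat_lit 76) (nat_lit 2346984837) (nat_lit 27) (nat_lit 5) (nat_lit 30) (nat_lit 5) (nat_lit 28) (nat_lit 4) (nat_lit 331) (nat_lit 242) (nat_lit 207)) (XT.lf (nat_lit 0) (nat_lit 219855149) (nat_lit 152) (nat_lit 10120371922) (nat_lit 228) (nat_lit 5102879436) (nat_lit 25) (nat_lit 5) (nat_lit 27) (nat_lit 5) (nat_lit 28) (nat_lit 4) (nat_lit 332) (nat_lit 242) (nat_lit 206)))) (XT.nd (nat_lit 78) (nat_lit 228) (nat_lit 0) (XT.lf (nat_lit 0) (nat_lit 5936964589) (nat_lit 152) (nat_lit 7376565970) (nat_lit 228) (nat_lit 2480045146) (nat_lit 25) (nat_lit 5) (nat_lit 27) (nat_lit 5) (nat_lit 28) (nat_lit 4) (nat_lit 333) (nat_lit 242) (nat_lit 205)) (XT.nd (nat_lit 78) (nat_lit 152) (nat_lit 0) (XT.lf (nat_lit 0) (nat_lit 174279945) (nat_lit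 228) (nat_lit 4399226846) (nat_lit 76) (nat_lit 11582334253) (nat_lit 24) (nat_lit 5) (nat_lit 27) (nat_lit 5) (nat_lit 25) (nat_lit 5) (nat_lit 334) (nat_lit 242) (nat_lit 204)) (XT.lf (nat_lit 0) (nat_lit 1153694818) (nat_lit 152) (nat_lit 1674159785) (nat_lit 228) (nat_lit 13701357122) (nat_lit 22) (nat_lit 5) (nat_lit 24) (nat_lit 5) (nat_lit 25) (nat_lit 5) (nat_lit 335) (nat_lit 242) (nat_lit 203))))))) (XT.nd (nat_lit 858) (nat_lit 456) (nat_lit 0) (XT.nd (nat_lit 390) (nat_lit 304) (nat_lit 0) (XT.nd (nat_lit 156) (nat_lit 152) (nat_lit 0) (XT.nd (nat_lit 78) (nat_lit 0) (nat_lit 0) (XT.lf (nat_lit 0) (nat_lit 5577237232) (nat_lit 228) (nat_lit 10028666073) (nat_lit 76) (nat_lit 1307450529) (nat_lit 22) (nat_lit 5) (nat_lit 25) (nat_lit 5) (nat_lit 23) (nat_lit 4) (nat_lit 336) (nat_lit 242) (nat_lit 202)) (XT.lf (nat_lit 0) (nat_lit 8385603364) (nat_lit 228) (nat_lit 4602593346) (nat_lit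 76) (nat_lit 4321583122) (nat_lit 22) (nat_lit 5) (nat_lit 25) (nat_lit 5) (nat_lit 23) (nat_lit 4) (nat_lit 337) (nat_lit 242) (nat_lit 201))) (XT.nd (nat_lit 78) (nat_lit 0) (nat_lit 0) (XT.lf (nat_lit 0) (nat_lit 941915716) (nat_lit 152) (nat_lit 10306452417) (nat_lit 228) (nat_lit 6470679143) (nat_lit 20) (nat_lit 5) (nat_lit 22) (nat_lit 5) (nat_lit 23) (nat_lit 4) (nat_lit 338) (nat_lit 242) (nat_lit 200)) (XT.nd (nat_lit 78) (nat_lit 0) (nat_lit 0) (XT.lf (nat_lit 0) (nat_lit 6684997650) (nat_lit 152) (nat_lit 7520124901) (nat_lit 228) (nat_lit 3935278540) (nat_lit 20) (nat_lit 5) (nat_lit 22) (nat_lit 5) (nat_lit 23) (nat_lit 4) (nat_lit 339) (nat_lit 242) (nat_lit 199)) (XT.lf (nat_lit 0) (nat_lit 12540070050) (nat_lit 152) (nat_lit 4673256674) (nat_lit 228) (nat_lit 1362236429) (nat_lit 20) (nat_lit 5) (nat_lit 22) (nat_lit 5) (nat_lit 23) (nat_lit 4) (nat_lit 340) (nat_lit 242) (nat_lit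 198))))) (XT.nd (nat_lit 234) (nat_lit 76) (nat_lit 0) (XT.nd (nat_lit 78) (nat_lit 152) (nat_lit 0) (XT.lf (nat_lit 0) (nat_lit 1226289903) (nat_lit 228) (nat_lit 524687155) (nat_lit 76) (nat_lit 17273575971) (nat_lit 19) (nat_lit 5) (nat_lit 22) (nat_lit 5) (nat_lit 20) (nat_lit 5) (nat_lit 341) (nat_lit 242) (nat_lit 197)) (XT.nd (nat_lit 78) (nat_lit 0) (nat_lit 0) (XT.lf (nat_lit 0) (nat_lit 3891907961) (nat_lit 228) (nat_lit 14317269431) (nat_lit 76) (nat_lit 1276671918) (nat_lit 17) (nat_lit 5) (nat_lit 20) (nat_lit 5) (nat_lit 18) (nat_lit 4) (nat_lit 342) (nat_lit 242) (nat_lit 196)) (XT.lf (nat_lit 0) (nat_lit 6624947903) (nat_lit 228) (nat_lit 8992725759) (nat_lit 76) (nat_lit 4343731683) (nat_lit 17) (nat_lit 5) (nat_lit 20) (nat_lit 5) (nat_lit 18) (nat_lit 4) (nat_lit 343) (nat_lit 242) (nat_lit 195)))) (XT.nd (nat_lit 78) (nat_lit 76) (nat_lit 0) (XT.lf (nat_lit 0) (nat_lit 9405771440)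 (nat_lit 228) (nat_lit 3564670884) (nat_lit 76) (nat_lit 7481855137) (nat_lit 17) (nat_lit 5) (nat_lit 20) (nat_lit 5) (nat_lit 18) (nat_lit 4) (nat_lit 344) (nat_lit 242) (nat_lit 194)) (XT.nd (nat_lit 78) (nat_lit 0) (nat_lit 0) (XT.lf (nat_lit 0) (nat_lit 2010877617) (nat_lit 76) (nat_lit 10245260584) (nat_lit 152) (nat_lit 8702236497) (nat_lit 16) (nat_lit 5) (nat_lit 17) (nat_lit 5) (nat_lit 18) (nat_lit 4) (nat_lit 345) (nat_lit 242) (nat_lit 193)) (XT.lf (nat_lit 0) (nat_lit 7772712521) (nat_lit 76) (nat_lit 7422536099) (nat_lit 152) (nat_lit 6284329345) (nat_lit 16) (nat_lit 5) (nat_lit 17) (nat_lit 5) (nat_lit 18) (nat_lit 4) (nat_lit 346) (nat_lit 242) (nat_lit 192)))))) (XT.nd (nat_lit 468) (nat_lit 228) (nat_lit 0) (XT.nd (nat_lit 234) (nat_lit 0) (nat_lit 0) (XT.nd (nat_lit 78) (nat_lit 228) (nat_lit 0) (XT.lf (nat_lit 0) (nat_lit 13654924500) (nat_lit 76) (nat_lit 4535798597) (nat_lit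 152) (nat_lit 3826688018) (nat_lit 16) (nat_lit 5) (nat_lit 17) (nat_lit 5) (nat_lit 18) (nat_lit 4) (nat_lit 347) (nat_lit 242) (nat_lit 191)) (XT.nd (nat_lit 78) (nat_lit 228) (nat_lit 0) (XT.lf (nat_lit 0) (nat_lit 19662653350) (nat_lit 76) (nat_lit 1582525688) (nat_lit 152) (nat_lit 1327165063) (nat_lit 16) (nat_lit 5) (nat_lit 17) (nat_lit 5) (nat_lit 18) (nat_lit 4) (nat_lit 348) (nat_lit 242) (nat_lit 190)) (XT.lf (nat_lit 0) (nat_lit 1232827477) (nat_lit 228) (nat_lit 20460720206) (nat_lit 76) (nat_lit 1449759118) (nat_lit 13) (nat_lit 5) (nat_lit 16) (nat_lit 5) (nat_lit 14) (nat_lit 4) (nat_lit 349) (nat_lit 242) (nat_lit 189)))) (XT.nd (nat_lit 78) (nat_lit 0) (nat_lit 0) (XT.lf (nat_lit 0) (nat_lit 3858186787) (nat_lit 228) (nat_lit 15307695410) (nat_lit 76) (nat_lit 4564699830) (nat_lit 13) (nat_lit 5) (nat_lit 16) (nat_lit 5) (nat_lit 14) (nat_lit 4) (nat_lit 350) (nat_lit 242)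 (nat_lit 188)) (XT.nd (nat_lit 78) (nat_lit 0) (nat_lit 0) (XT.lf (nat_lit 0) (nat_lit 6533083616) (nat_lit 228) (nat_lit 10048969997) (nat_lit 76) (nat_lit 7754332675) (nat_lit 13) (nat_lit 5) (nat_lit 16) (nat_lit 5) (nat_lit 14) (nat_lit 4) (nat_lit 351) (nat_lit 242) (nat_lit 187)) (XT.lf (nat_lit 0) (nat_lit 9259855251) (nat_lit 228) (nat_lit 4679948964) (nat_lit 76) (nat_lit 11021444710) (nat_lit 13) (nat_lit 5) (nat_lit 16) (nat_lit 5) (nat_lit 14) (nat_lit 4) (nat_lit 352) (nat_lit 242) (nat_lit 186))))) (XT.nd (nat_lit 234) (nat_lit 152) (nat_lit 0) (XT.nd (nat_lit 78) (nat_lit 0) (nat_lit 0) (XT.lf (nat_lit 0) (nat_lit 820061415) (nat_lit 76) (nat_lit 11228705825) (nat_lit 152) (nat_lit 13556712209) (nat_lit 12) (nat_lit 5) (nat_lit 13) (nat_lit 5) (nat_lit 14) (nat_lit 4) (nat_lit 353) (nat_lit 242) (nat_lit 185)) (XT.nd (nat_lit 78) (nat_lit 0) (nat_lit 0) (XT.lf (nat_lit 0) (nat_lit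 6535374639) (nat_lit 76) (nat_lit 8406048193) (nat_lit 152) (nat_lit 11327042956) (nat_lit 12) (nat_lit 5) (nat_lit 13) (nat_lit 5) (nat_lit 14) (nat_lit 4) (nat_lit 354) (nat_lit 242) (nat_lit 184)) (XT.lf (nat_lit 0) (nat_lit 12377844508) (nat_lit 76) (nat_lit 5516623230) (nat_lit 152) (nat_lit 9057695970) (nat_lit 12) (nat_lit 5) (nat_lit 13) (nat_lit 5) (nat_lit 14) (nat_lit 4) (nat_lit 355) (nat_lit 242) (nat_lit 183)))) (XT.nd (nat_lit 78) (nat_lit 152) (nat_lit 0) (XT.lf (nat_lit 0) (nat_lit 18352576094) (nat_lit 76) (nat_lit 2557906196) (nat_lit 152) (nat_lit 6746688326) (nat_lit 12) (nat_lit 5) (nat_lit 13) (nat_lit 5) (nat_lit 14) (nat_lit 4) (nat_lit 356) (nat_lit 242) (nat_lit 182)) (XT.nd (nat_lit 78) (nat_lit 152) (nat_lit 0) (XT.lf (nat_lit 0) (nat_lit 23996645605) (nat_lit 152) (nat_lit 3923856267) (nat_lit 0) (nat_lit 463464348) (nat_lit 12) (nat_lit 5) (nat_lit 14) (nat_lit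 4) (nat_lit 12) (nat_lit 4) (nat_lit 357) (nat_lit 242) (nat_lit 181)) (XT.lf (nat_lit 0) (nat_lit 1582725040) (nat_lit 152) (nat_lit 25608900218) (nat_lit 152) (nat_lit 1940481201) (nat_lit 10) (nat_lit 4) (nat_lit 12) (nat_lit 5) (nat_lit 12) (nat_lit 4) (nat_lit 358) (nat_lit 242) (nat_lit 180))))))))
noncomputable def xc64 : XT := (XT.nd (nat_lit 1716) (nat_lit 152) (nat_lit 0) (XT.nd (nat_lit 858) (nat_lit 228) (nat_lit 0) (XT.nd (nat_lit 390) (nat_lit 76) (nat_lit 0) (XT.nd (nat_lit 156) (nat_lit 0) (nat_lit 0) (XT.nd (nat_lit 78) (nat_lit 0) (nat_lit 0) (XT.lf (nat_lit 0) (nat_lit 584209725) (nat_lit 228) (nat_lit 22613772069) (nat_lit 76) (nat_lit 6704095251) (nat_lit 9) (nat_lit 5) (nat_lit 12) (nat_lit 5) (nat_lit 10) (nat_lit 4) (nat_lit 359) (nat_lit 242) (nat_lit 179)) (XT.lf (nat_lit 0) (nat_lit 3122090153) (nat_lit 228) (nat_lit 17589349361) (nat_lit 76) (nat_lit 9983862698) (nat_lit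 9) (nat_lit 5) (nat_lit 12) (nat_lit 5) (nat_lit 10) (nat_lit 4) (nat_lit 360) (nat_lit 242) (nat_lit 178))) (XT.nd (nat_lit 78) (nat_lit 0) (nat_lit 0) (XT.lf (nat_lit 0) (nat_lit 5713243424) (nat_lit 228) (nat_lit 12453069929) (nat_lit 76) (nat_lit 13346721307) (nat_lit 9) (nat_lit 5) (nat_lit 12) (nat_lit 5) (nat_lit 10) (nat_lit 4) (nat_lit 361) (nat_lit 242) (nat_lit 177)) (XT.nd (nat_lit 78) (nat_lit 0) (nat_lit 0) (XT.lf (nat_lit 0) (nat_lit 8359933653) (nat_lit 228) (nat_lit 7200445762) (nat_lit 76) (nat_lit 16795609498) (nat_lit 9) (nat_lit 5) (nat_lit 12) (nat_lit 5) (nat_lit 10) (nat_lit 4) (nat_lit 362) (nat_lit 242) (nat_lit 176)) (XT.lf (nat_lit 0) (nat_lit 11064473482) (nat_lit 228) (nat_lit 1826887191) (nat_lit 76) (nat_lit 20333540862) (nat_lit 9) (nat_lit 5) (nat_lit 12) (nat_lit 5) (nat_lit 10) (nat_lit 4) (nat_lit 363) (nat_lit 242) (nat_lit 175))))) (XT.nd (nat_lit 234)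 (nat_lit 0) (nat_lit 0) (XT.nd (nat_lit 78) (nat_lit 0) (nat_lit 0) (XT.lf (nat_lit 0) (nat_lit 3745387122) (nat_lit 76) (nat_lit 10119841930) (nat_lit 152) (nat_lit 20254222627) (nat_lit 8) (nat_lit 5) (nat_lit 9) (nat_lit 5) (nat_lit 10) (nat_lit 4) (nat_lit 364) (nat_lit 242) (nat_lit 174)) (XT.nd (nat_lit 78) (nat_lit 0) (nat_lit 0) (XT.lf (nat_lit 0) (nat_lit 9487050846) (nat_lit 76) (nat_lit 7260751801) (nat_lit 152) (nat_lit 18293123693) (nat_lit 8) (nat_lit 5) (nat_lit 9) (nat_lit 5) (nat_lit 10) (nat_lit 4) (nat_lit 365) (nat_lit 242) (nat_lit 173)) (XT.lf (nat_lit 0) (nat_lit 15366762332) (nat_lit 76) (nat_lit 4330040031) (nat_lit 152) (nat_lit 16293865649) (nat_lit 8) (nat_lit 5) (nat_lit 9) (nat_lit 5) (nat_lit 10) (nat_lit 4) (nat_lit 366) (nat_lit 242) (nat_lit 172)))) (XT.nd (nat_lit 78) (nat_lit 0) (nat_lit 0) (XT.lf (nat_lit 0) (nat_lit 21389659191) (nat_lit 76) (nat_lit 1325145803)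 (nat_lit 152) (nat_lit 14254701570) (nat_lit 8) (nat_lit 5) (nat_lit 9) (nat_lit 5) (nat_lit 10) (nat_lit 4) (nat_lit 367) (nat_lit 242) (nat_lit 171)) (XT.nd (nat_lit 78) (nat_lit 0) (nat_lit 0) (XT.lf (nat_lit 0) (nat_lit 25821332727) (nat_lit 152) (nat_lit 10434178242) (nat_lit 0) (nat_lit 1722279773) (nat_lit 8) (nat_lit 5) (nat_lit 10) (nat_lit 4) (nat_lit 8) (nat_lit 4) (nat_lit 368) (nat_lit 242) (nat_lit 170)) (XT.lf (nat_lit 0) (nat_lit 29015702475) (nat_lit 152) (nat_lit 5179004540) (nat_lit 0) (nat_lit 4821796477) (nat_lit 8) (nat_lit 5) (nat_lit 10) (nat_lit 4) (nat_lit 8) (nat_lit 4) (nat_lit 369) (nat_lit 242) (nat_lit 169)))))) (XT.nd (nat_lit 390) (nat_lit 76) (nat_lit 0) (XT.nd (nat_lit 156) (nat_lit 76) (nat_lit 0) (XT.nd (nat_lit 78) (nat_lit 0) (nat_lit 0) (XT.lf (nat_lit 0) (nat_lit 207043913) (nat_lit 76) (nat_lit 32082913644) (nat_lit 76) (nat_lit 7796917312) (nat_lit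 7) (nat_lit 4) (nat_lit 8) (nat_lit 5) (nat_lit 8) (nat_lit 4) (nat_lit 370) (nat_lit 242) (nat_lit 168)) (XT.lf (nat_lit 0) (nat_lit 5830319868) (nat_lit 76) (nat_lit 29866711268) (nat_lit 76) (nat_lit 5491306844) (nat_lit 7) (nat_lit 4) (nat_lit 8) (nat_lit 5) (nat_lit 8) (nat_lit 4) (nat_lit 371) (nat_lit 242) (nat_lit 167))) (XT.nd (nat_lit 78) (nat_lit 76) (nat_lit 0) (XT.lf (nat_lit 0) (nat_lit 11592664522) (nat_lit 76) (nat_lit 27596461190) (nat_lit 76) (nat_lit 3134252795) (nat_lit 7) (nat_lit 4) (nat_lit 8) (nat_lit 5) (nat_lit 8) (nat_lit 4) (nat_lit 372) (nat_lit 242) (nat_lit 166)) (XT.nd (nat_lit 78) (nat_lit 76) (nat_lit 0) (XT.lf (nat_lit 0) (nat_lit 17499112933) (nat_lit 76) (nat_lit 25270179698) (nat_lit 76) (nat_lit 723695601) (nat_lit 7) (nat_lit 4) (nat_lit 8) (nat_lit 5) (nat_lit 8) (nat_lit 4) (nat_lit 373) (nat_lit 242) (nat_lit 165)) (XT.lf (nat_lit 0) (nat_lit 1708469160)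 (nat_lit 152) (nat_lit 21160112769) (nat_lit 76) (nat_lit 21829104726) (nat_lit 6) (nat_lit 5) (nat_lit 8) (nat_lit 5) (nat_lit 7) (nat_lit 4) (nat_lit 374) (nat_lit 242) (nat_lit 164))))) (XT.nd (nat_lit 234) (nat_lit 76) (nat_lit 0) (XT.nd (nat_lit 78) (nat_lit 0) (nat_lit 0) (XT.lf (nat_lit 0) (nat_lit 4183149183) (nat_lit 152) (nat_lit 16215950254) (nat_lit 76) (nat_lit 25539704560) (nat_lit 6) (nat_lit 5) (nat_lit 8) (nat_lit 5) (nat_lit 7) (nat_lit 4) (nat_lit 375) (nat_lit 242) (nat_lit 163)) (XT.nd (nat_lit 78) (nat_lit 0) (nat_lit 0) (XT.lf (nat_lit 0) (nat_lit 6716628715) (nat_lit 152) (nat_lit 11150111008) (nat_lit 76) (nat_lit 29350893704) (nat_lit 6) (nat_lit 5) (nat_lit 8) (nat_lit 5) (nat_lit 7) (nat_lit 4) (nat_lit 376) (nat_lit 242) (nat_lit 162)) (XT.lf (nat_lit 0) (nat_lit 9311121477) (nat_lit 152) (nat_lit 5958168570) (nat_lit 76) (nat_lit 33266002324) (nat_lit 6) (nat_lit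 5) (nat_lit 8) (nat_lit 5) (nat_lit 7) (nat_lit 4) (nat_lit 377) (nat_lit 242) (nat_lit 161)))) (XT.nd (nat_lit 78) (nat_lit 76) (nat_lit 0) (XT.lf (nat_lit 0) (nat_lit 11968894502) (nat_lit 152) (nat_lit 635586291) (nat_lit 76) (nat_lit 37288451389) (nat_lit 6) (nat_lit 5) (nat_lit 8) (nat_lit 5) (nat_lit 7) (nat_lit 4) (nat_lit 378) (nat_lit 242) (nat_lit 160)) (XT.nd (nat_lit 78) (nat_lit 0) (nat_lit 0) (XT.lf (nat_lit 0) (nat_lit 4918259587) (nat_lit 76) (nat_lit 9821287846) (nat_lit 152) (nat_lit 36550773391) (nat_lit 5) (nat_lit 5) (nat_lit 6) (nat_lit 5) (nat_lit 7) (nat_lit 4) (nat_lit 379) (nat_lit 242) (nat_lit 159)) (XT.lf (nat_lit 0) (nat_lit 10627601998) (nat_lit 76) (nat_lit 6958184976) (nat_lit 152) (nat_lit 35144083773) (nat_lit 5) (nat_lit 5) (nat_lit 6) (nat_lit 5) (nat_lit 7) (nat_lit 4) (nat_lit 380) (nat_lit 242) (nat_lit 158))))))) (XT.nd (nat_lit 858) (nat_lit 76) (nat_lit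 0) (XT.nd (nat_lit 390) (nat_lit 76) (nat_lit 0) (XT.nd (nat_lit 156) (nat_lit 0) (nat_lit 0) (XT.nd (nat_lit 78) (nat_lit 0) (nat_lit 0) (XT.lf (nat_lit 0) (nat_lit 16484780273) (nat_lit 76) (nat_lit 4019088618) (nat_lit 152) (nat_lit 33709157855) (nat_lit 5) (nat_lit 5) (nat_lit 6) (nat_lit 5) (nat_lit 7) (nat_lit 4) (nat_lit 381) (nat_lit 242) (nat_lit 157)) (XT.lf (nat_lit 0) (nat_lit 22494912335) (nat_lit 76) (nat_lit 1001430630) (nat_lit 152) (nat_lit 32244741818) (nat_lit 5) (nat_lit 5) (nat_lit 6) (nat_lit 5) (nat_lit 7) (nat_lit 4) (nat_lit 382) (nat_lit 242) (nat_lit 156))) (XT.nd (nat_lit 78) (nat_lit 0) (nat_lit 0) (XT.lf (nat_lit 0) (nat_lit 26585985718) (nat_lit 152) (nat_lit 28672292040) (nat_lit 0) (nat_lit 2056497445) (nat_lit 5) (nat_lit 5) (nat_lit 7) (nat_lit 4) (nat_lit 5) (nat_lit 4) (nat_lit 383) (nat_lit 242) (nat_lit 155)) (XT.nd (nat_lit 78) (nat_lit 0) (nat_lit 0)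 (XT.lf (nat_lit 0) (nat_lit 29765750402) (nat_lit 152) (nat_lit 23992862217) (nat_lit 0) (nat_lit 5177152847) (nat_lit 5) (nat_lit 5) (nat_lit 7) (nat_lit 4) (nat_lit 5) (nat_lit 4) (nat_lit 384) (nat_lit 242) (nat_lit 154)) (XT.lf (nat_lit 0) (nat_lit 33028789088) (nat_lit 152) (nat_lit 19194167793) (nat_lit 0) (nat_lit 8382803883) (nat_lit 5) (nat_lit 5) (nat_lit 7) (nat_lit 4) (nat_lit 5) (nat_lit 4) (nat_lit 385) (nat_lit 242) (nat_lit 153))))) (XT.nd (nat_lit 234) (nat_lit 76) (nat_lit 0) (XT.nd (nat_lit 78) (nat_lit 0) (nat_lit 0) (XT.lf (nat_lit 0) (nat_lit 36377952977) (nat_lit 152) (nat_lit 14272015735) (nat_lit 0) (nat_lit 11676251604) (nat_lit 5) (nat_lit 5) (nat_lit 7) (nat_lit 4) (nat_lit 5) (nat_lit 4) (nat_lit 386) (nat_lit 242) (nat_lit 152)) (XT.nd (nat_lit 78) (nat_lit 0) (nat_lit 0) (XT.lf (nat_lit 0) (nat_lit 39816168521) (nat_lit 152) (nat_lit 9222105132) (nat_lit 0) (nat_lit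 15060373783) (nat_lit 5) (nat_lit 5) (nat_lit 7) (nat_lit 4) (nat_lit 5) (nat_lit 4) (nat_lit 387) (nat_lit 242) (nat_lit 151)) (XT.lf (nat_lit 0) (nat_lit 43346439986) (nat_lit 152) (nat_lit 4040023443) (nat_lit 0) (nat_lit 18538127417) (nat_lit 5) (nat_lit 5) (nat_lit 7) (nat_lit 4) (nat_lit 5) (nat_lit 4) (nat_lit 388) (nat_lit 242) (nat_lit 150)))) (XT.nd (nat_lit 78) (nat_lit 0) (nat_lit 0) (XT.lf (nat_lit 0) (nat_lit 1304207144) (nat_lit 76) (nat_lit 45680181768) (nat_lit 76) (nat_lit 20820881014) (nat_lit 4) (nat_lit 4) (nat_lit 5) (nat_lit 5) (nat_lit 5) (nat_lit 4) (nat_lit 389) (nat_lit 242) (nat_lit 149)) (XT.nd (nat_lit 78) (nat_lit 0) (nat_lit 0) (XT.lf (nat_lit 0) (nat_lit 6873001793) (nat_lit 76) (nat_lit 43888638331) (nat_lit 76) (nat_lit 18979834485) (nat_lit 4) (nat_lit 4) (nat_lit 5) (nat_lit 5) (nat_lit 5) (nat_lit 4) (nat_lit 390) (nat_lit 242) (nat_lit 148)) (XT.lf (nat_lit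 0) (nat_lit 12590822052) (nat_lit 76) (nat_lit 42051064006) (nat_lit 76) (nat_lit 17094198905) (nat_lit 4) (nat_lit 4) (nat_lit 5) (nat_lit 5) (nat_lit 5) (nat_lit 4) (nat_lit 391) (nat_lit 242) (nat_lit 147)))))) (XT.nd (nat_lit 468) (nat_lit 76) (nat_lit 0) (XT.nd (nat_lit 234) (nat_lit 0) (nat_lit 0) (XT.nd (nat_lit 78) (nat_lit 0) (nat_lit 0) (XT.lf (nat_lit 0) (nat_lit 18462664074) (nat_lit 76) (nat_lit 40165853146) (nat_lit 76) (nat_lit 15162326633) (nat_lit 4) (nat_lit 4) (nat_lit 5) (nat_lit 5) (nat_lit 5) (nat_lit 4) (nat_lit 392) (nat_lit 242) (nat_lit 146)) (XT.nd (nat_lit 78) (nat_lit 0) (nat_lit 0) (XT.lf (nat_lit 0) (nat_lit 24493658595) (nat_lit 76) (nat_lit 38231358480) (nat_lit 76) (nat_lit 13182529624) (nat_lit 4) (nat_lit 4) (nat_lit 5) (nat_lit 5) (nat_lit 5) (nat_lit 4) (nat_lit 393) (nat_lit 242) (nat_lit 145)) (XT.lf (nat_lit 0) (nat_lit 30689075417) (nat_lit 76) (nat_lit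 36245889672) (nat_lit 76) (nat_lit 11153077960) (nat_lit 4) (nat_lit 4) (nat_lit 5) (nat_lit 5) (nat_lit 5) (nat_lit 4) (nat_lit 394) (nat_lit 242) (nat_lit 144)))) (XT.nd (nat_lit 78) (nat_lit 0) (nat_lit 0) (XT.lf (nat_lit 0) (nat_lit 37054328009) (nat_lit 76) (nat_lit 34207711847) (nat_lit 76) (nat_lit 9072198332) (nat_lit 4) (nat_lit 4) (nat_lit 5) (nat_lit 5) (nat_lit 5) (nat_lit 4) (nat_lit 395) (nat_lit 242) (nat_lit 143)) (XT.nd (nat_lit 78) (nat_lit 0) (nat_lit 0) (XT.lf (nat_lit 0) (nat_lit 43594978244) (nat_lit 76) (nat_lit 32115044072) (nat_lit 76) (nat_lit 6938072497) (nat_lit 4) (nat_lit 4) (nat_lit 5) (nat_lit 5) (nat_lit 5) (nat_lit 4) (nat_lit 396) (nat_lit 242) (nat_lit 142)) (XT.lf (nat_lit 0) (nat_lit 50316741252) (nat_lit 76) (nat_lit 29966057803) (nat_lit 76) (nat_lit 4748835684) (nat_lit 4) (nat_lit 4) (nat_lit 5) (nat_lit 5) (nat_lit 5) (nat_lit 4) (nat_lit 397) (nat_lit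 242) (nat_lit 141))))) (XT.nd (nat_lit 32526) (nat_lit 0) (nat_lit 7524) (XT.nd (nat_lit 78) (nat_lit 76) (nat_lit 0) (XT.lf (nat_lit 0) (nat_lit 57225490419) (nat_lit 76) (nat_lit 27758875285) (nat_lit 76) (nat_lit 2502574968) (nat_lit 4) (nat_lit 4) (nat_lit 5) (nat_lit 5) (nat_lit 5) (nat_lit 4) (nat_lit 398) (nat_lit 242) (nat_lit 140)) (XT.nd (nat_lit 78) (nat_lit 76) (nat_lit 0) (XT.lf (nat_lit 0) (nat_lit 64327262516) (nat_lit 76) (nat_lit 25491567912) (nat_lit 76) (nat_lit 197327597) (nat_lit 4) (nat_lit 4) (nat_lit 5) (nat_lit 5) (nat_lit 5) (nat_lit 4) (nat_lit 399) (nat_lit 242) (nat_lit 139)) (XT.lf (nat_lit 0) (nat_lit 2126597267) (nat_lit 152) (nat_lit 21014082811) (nat_lit 76) (nat_lit 69480191244) (nat_lit 3) (nat_lit 5) (nat_lit 5) (nat_lit 5) (nat_lit 4) (nat_lit 4) (nat_lit 400) (nat_lit 242) (nat_lit 138)))) (XT.nd (nat_lit 78) (nat_lit 532) (nat_lit 0) (XT.lf (nat_lit 0)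 (nat_lit 1307135838) (nat_lit 532) (nat_lit 1339591507) (nat_lit 0) (nat_lit 1307135838) (nat_lit 109) (nat_lit 5) (nat_lit 116) (nat_lit 4) (nat_lit 109) (nat_lit 4) (nat_lit 294) (nat_lit 243) (nat_lit 243)) (XT.nd (nat_lit 78) (nat_lit 76) (nat_lit 0) (XT.lf (nat_lit 0) (nat_lit 2224486547) (nat_lit 456) (nat_lit 3509713331) (nat_lit 456) (nat_lit 2268375983) (nat_lit 103) (nat_lit 4) (nat_lit 109) (nat_lit 5) (nat_lit 109) (nat_lit 4) (nat_lit 295) (nat_lit 243) (nat_lit 242)) (XT.lf (nat_lit 0) (nat_lit 773170224) (nat_lit 532) (nat_lit 876983683) (nat_lit 76) (nat_lit 6451844727) (nat_lit 102) (nat_lit 5) (nat_lit 109) (nat_lit 5) (nat_lit 103) (nat_lit 4) (nat_lit 296) (nat_lit 243) (nat_lit 241))))))))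
noncomputable def xc65 : XT := (XT.nd (nat_lit 1716) (nat_lit 1748) (nat_lit 0) (XT.nd (nat_lit 858) (nat_lit 1748) (nat_lit 0) (XT.nd (nat_lit 390) (nat_lit 1520) (nat_lit 0) (XT.nd (nat_lit 156) (nat_lit 456) (nat_lit 0) (XT.nd (nat_lit 78) (nat_lit 456) (nat_lit 0) (XT.lf (nat_lit 0) (nat_lit 3820538638) (nat_lit 456) (nat_lit 4075341684) (nat_lit 0) (nat_lit 309277719) (nat_lit 97) (nat_lit 5) (nat_lit 103) (nat_lit 4) (nat_lit 97) (nat_lit 4) (nat_lit 297) (nat_lit 243) (nat_lit 240)) (XT.lf (nat_lit 0) (nat_lit 896742987) (nat_lit 456) (nat_lit 6015244264) (nat_lit 456) (nat_lit 1401071189) (nat_lit 91) (nat_lit 4) (nat_lit 97) (nat_lit 5) (nat_lit 97) (nat_lit 4) (nat_lit 298) (nat_lit 243) (nat_lit 239))) (XT.nd (nat_lit 78) (nat_lit 380) (nat_lit 0) (XT.lf (nat_lit 0) (nat_lit 1600103279) (nat_lit 532) (nat_lit 2436751919) (nat_lit 76) (nat_lit 4388249113) (nat_lit 90) (nat_lit 5) (nat_lit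 97) (nat_lit 5) (nat_lit 91) (nat_lit 4) (nat_lit 299) (nat_lit 243) (nat_lit 238)) (XT.nd (nat_lit 78) (nat_lit 0) (nat_lit 0) (XT.lf (nat_lit 0) (nat_lit 2633757733) (nat_lit 380) (nat_lit 1976252018) (nat_lit 456) (nat_lit 3931886746) (nat_lit 85) (nat_lit 5) (nat_lit 90) (nat_lit 5) (nat_lit 91) (nat_lit 4) (nat_lit 300) (nat_lit 243) (nat_lit 237)) (XT.lf (nat_lit 0) (nat_lit 7659207608) (nat_lit 456) (nat_lit 854132387) (nat_lit 0) (nat_lit 150583411) (nat_lit 85) (nat_lit 5) (nat_lit 91) (nat_lit 4) (nat_lit 85) (nat_lit 4) (nat_lit 301) (nat_lit 243) (nat_lit 236))))) (XT.nd (nat_lit 234) (nat_lit 760) (nat_lit 0) (XT.nd (nat_lit 78) (nat_lit 304) (nat_lit 0) (XT.lf (nat_lit 0) (nat_lit 1956813286) (nat_lit 456) (nat_lit 4487674939) (nat_lit 76) (nat_lit 2345159319) (nat_lit 79) (nat_lit 5) (nat_lit 85) (nat_lit 5) (nat_lit 80) (nat_lit 4) (nat_lit 302) (nat_lit 243) (nat_lit 235)) (XT.nd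 (nat_lit 78) (nat_lit 0) (nat_lit 0) (XT.lf (nat_lit 0) (nat_lit 618144288) (nat_lit 304) (nat_lit 4308861508) (nat_lit 380) (nat_lit 3993822586) (nat_lit 75) (nat_lit 5) (nat_lit 79) (nat_lit 5) (nat_lit 80) (nat_lit 4) (nat_lit 303) (nat_lit 243) (nat_lit 234)) (XT.lf (nat_lit 0) (nat_lit 5874795221) (nat_lit 304) (nat_lit 2083451680) (nat_lit 380) (nat_lit 1098717851) (nat_lit 75) (nat_lit 5) (nat_lit 79) (nat_lit 5) (nat_lit 80) (nat_lit 4) (nat_lit 304) (nat_lit 243) (nat_lit 233)))) (XT.nd (nat_lit 78) (nat_lit 304) (nat_lit 0) (XT.lf (nat_lit 0) (nat_lit 1795972815) (nat_lit 456) (nat_lit 7180481039) (nat_lit 76) (nat_lit 221871979) (nat_lit 69) (nat_lit 5) (nat_lit 75) (nat_lit 5) (nat_lit 70) (nat_lit 4) (nat_lit 305) (nat_lit 243) (nat_lit 232)) (XT.nd (nat_lit 78) (nat_lit 304) (nat_lit 0) (XT.lf (nat_lit 0) (nat_lit 4737397003) (nat_lit 456) (nat_lit 2030060161) (nat_lit 76) (nat_lit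 2576848208) (nat_lit 69) (nat_lit 5) (nat_lit 75) (nat_lit 5) (nat_lit 70) (nat_lit 4) (nat_lit 306) (nat_lit 243) (nat_lit 231)) (XT.lf (nat_lit 0) (nat_lit 3246612320) (nat_lit 304) (nat_lit 4482626895) (nat_lit 380) (nat_lit 1766718325) (nat_lit 65) (nat_lit 5) (nat_lit 69) (nat_lit 5) (nat_lit 70) (nat_lit 4) (nat_lit 307) (nat_lit 243) (nat_lit 230)))))) (XT.nd (nat_lit 390) (nat_lit 760) (nat_lit 0) (XT.nd (nat_lit 156) (nat_lit 608) (nat_lit 0) (XT.nd (nat_lit 78) (nat_lit 304) (nat_lit 0) (XT.lf (nat_lit 0) (nat_lit 1088052471) (nat_lit 380) (nat_lit 1031918907) (nat_lit 76) (nat_lit 7533443607) (nat_lit 64) (nat_lit 5) (nat_lit 69) (nat_lit 5) (nat_lit 65) (nat_lit 5) (nat_lit 308) (nat_lit 243) (nat_lit 229)) (XT.lf (nat_lit 0) (nat_lit 3971139518) (nat_lit 380) (nat_lit 5500075315) (nat_lit 76) (nat_lit 344656132) (nat_lit 60) (nat_lit 5) (nat_lit 65) (nat_lit 5) (nat_lit 61) (nat_lit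 4) (nat_lit 309) (nat_lit 243) (nat_lit 228))) (XT.nd (nat_lit 78) (nat_lit 608) (nat_lit 0) (XT.lf (nat_lit 0) (nat_lit 6906385773) (nat_lit 380) (nat_lit 249442761) (nat_lit 76) (nat_lit 2828542916) (nat_lit 60) (nat_lit 5) (nat_lit 65) (nat_lit 5) (nat_lit 61) (nat_lit 4) (nat_lit 310) (nat_lit 243) (nat_lit 227)) (XT.nd (nat_lit 78) (nat_lit 380) (nat_lit 0) (XT.lf (nat_lit 0) (nat_lit 5171708268) (nat_lit 228) (nat_lit 4743765890) (nat_lit 304) (nat_lit 243015974) (nat_lit 57) (nat_lit 5) (nat_lit 60) (nat_lit 5) (nat_lit 61) (nat_lit 4) (nat_lit 311) (nat_lit 243) (nat_lit 226)) (XT.lf (nat_lit 0) (nat_lit 314781980) (nat_lit 304) (nat_lit 2251895888) (nat_lit 380) (nat_lit 7772254002) (nat_lit 52) (nat_lit 5) (nat_lit 56) (nat_lit 5) (nat_lit 57) (nat_lit 5) (nat_lit 312) (nat_lit 243) (nat_lit 225))))) (XT.nd (nat_lit 234) (nat_lit 456) (nat_lit 0) (XT.nd (nat_lit 78) (nat_lit 304) (nat_lit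 0) (XT.lf (nat_lit 0) (nat_lit 5446774543) (nat_lit 380) (nat_lit 4740939832) (nat_lit 76) (nat_lit 337395531) (nat_lit 52) (nat_lit 5) (nat_lit 57) (nat_lit 5) (nat_lit 53) (nat_lit 4) (nat_lit 313) (nat_lit 243) (nat_lit 224)) (XT.nd (nat_lit 78) (nat_lit 76) (nat_lit 0) (XT.lf (nat_lit 0) (nat_lit 603498913) (nat_lit 228) (nat_lit 7776819701) (nat_lit 304) (nat_lit 2337664812) (nat_lit 49) (nat_lit 5) (nat_lit 52) (nat_lit 5) (nat_lit 53) (nat_lit 4) (nat_lit 314) (nat_lit 243) (nat_lit 223)) (XT.lf (nat_lit 0) (nat_lit 463294692) (nat_lit 304) (nat_lit 4802112116) (nat_lit 76) (nat_lit 5651584799) (nat_lit 48) (nat_lit 5) (nat_lit 52) (nat_lit 5) (nat_lit 49) (nat_lit 5) (nat_lit 315) (nat_lit 243) (nat_lit 222)))) (XT.nd (nat_lit 78) (nat_lit 228) (nat_lit 0) (XT.lf (nat_lit 0) (nat_lit 572985381) (nat_lit 228) (nat_lit 2674781072) (nat_lit 304) (nat_lit 7875226347) (nat_lit 45) (nat_lit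 5) (nat_lit 48) (nat_lit 5) (nat_lit 49) (nat_lit 5) (nat_lit 316) (nat_lit 243) (nat_lit 221)) (XT.nd (nat_lit 78) (nat_lit 228) (nat_lit 0) (XT.lf (nat_lit 0) (nat_lit 6106309141) (nat_lit 304) (nat_lit 5211819216) (nat_lit 76) (nat_lit 17437498) (nat_lit 45) (nat_lit 5) (nat_lit 49) (nat_lit 5) (nat_lit 46) (nat_lit 4) (nat_lit 317) (nat_lit 243) (nat_lit 220)) (XT.lf (nat_lit 0) (nat_lit 180588502) (nat_lit 228) (nat_lit 8841565323) (nat_lit 304) (nat_lit 2533320696) (nat_lit 42) (nat_lit 5) (nat_lit 45) (nat_lit 5) (nat_lit 46) (nat_lit 4) (nat_lit 318) (nat_lit 243) (nat_lit 219))))))) (XT.nd (nat_lit 858) (nat_lit 760) (nat_lit 0) (XT.nd (nat_lit 390) (nat_lit 532) (nat_lit 0) (XT.nd (nat_lit 156) (nat_lit 380) (nat_lit 0) (XT.nd (nat_lit 78) (nat_lit 0) (nat_lit 0) (XT.lf (nat_lit 0) (nat_lit 235427630) (nat_lit 304) (nat_lit 6025033828) (nat_lit 76) (nat_lit 5521646970) (nat_lit 41)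 (nat_lit 5) (nat_lit 45) (nat_lit 5) (nat_lit 42) (nat_lit 5) (nat_lit 319) (nat_lit 243) (nat_lit 218)) (XT.lf (nat_lit 0) (nat_lit 2981501193) (nat_lit 304) (nat_lit 620716227) (nat_lit 76) (nat_lit 8414311957) (nat_lit 41) (nat_lit 5) (nat_lit 45) (nat_lit 5) (nat_lit 42) (nat_lit 5) (nat_lit 320) (nat_lit 243) (nat_lit 217))) (XT.nd (nat_lit 78) (nat_lit 152) (nat_lit 0) (XT.lf (nat_lit 0) (nat_lit 4964006475) (nat_lit 228) (nat_lit 840444276) (nat_lit 304) (nat_lit 6453790491) (nat_lit 38) (nat_lit 5) (nat_lit 41) (nat_lit 5) (nat_lit 42) (nat_lit 5) (nat_lit 321) (nat_lit 243) (nat_lit 216)) (XT.nd (nat_lit 78) (nat_lit 152) (nat_lit 0) (XT.lf (nat_lit 0) (nat_lit 8685019018) (nat_lit 304) (nat_lit 1876587433) (nat_lit 76) (nat_lit 1946500497) (nat_lit 38) (nat_lit 5) (nat_lit 42) (nat_lit 5) (nat_lit 39) (nat_lit 4) (nat_lit 322) (nat_lit 243) (nat_lit 215)) (XT.lf (nat_lit 0) (nat_lit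 3690349560) (nat_lit 152) (nat_lit 7954318560) (nat_lit 228) (nat_lit 1121108348) (nat_lit 36) (nat_lit 5) (nat_lit 38) (nat_lit 5) (nat_lit 39) (nat_lit 4) (nat_lit 323) (nat_lit 243) (nat_lit 214))))) (XT.nd (nat_lit 234) (nat_lit 228) (nat_lit 0) (XT.nd (nat_lit 78) (nat_lit 228) (nat_lit 0) (XT.lf (nat_lit 0) (nat_lit 1597681218) (nat_lit 228) (nat_lit 3661281008) (nat_lit 76) (nat_lit 7772771878) (nat_lit 35) (nat_lit 5) (nat_lit 38) (nat_lit 5) (nat_lit 36) (nat_lit 5) (nat_lit 324) (nat_lit 243) (nat_lit 213)) (XT.nd (nat_lit 78) (nat_lit 0) (nat_lit 0) (XT.lf (nat_lit 0) (nat_lit 1865570685) (nat_lit 228) (nat_lit 2478391173) (nat_lit 304) (nat_lit 8962402103) (nat_lit 32) (nat_lit 5) (nat_lit 35) (nat_lit 5) (nat_lit 36) (nat_lit 5) (nat_lit 325) (nat_lit 243) (nat_lit 212)) (XT.lf (nat_lit 0) (nat_lit 7164684211) (nat_lit 304) (nat_lit 6034497420) (nat_lit 76) (nat_lit 390367455) (nat_lit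 32) (nat_lit 5) (nat_lit 36) (nat_lit 5) (nat_lit 33) (nat_lit 4) (nat_lit 326) (nat_lit 243) (nat_lit 211)))) (XT.nd (nat_lit 78) (nat_lit 228) (nat_lit 0) (XT.lf (nat_lit 0) (nat_lit 10047002568) (nat_lit 304) (nat_lit 563931612) (nat_lit 76) (nat_lit 3271062057) (nat_lit 32) (nat_lit 5) (nat_lit 36) (nat_lit 5) (nat_lit 33) (nat_lit 4) (nat_lit 327) (nat_lit 243) (nat_lit 210)) (XT.nd (nat_lit 78) (nat_lit 76) (nat_lit 0) (XT.lf (nat_lit 0) (nat_lit 5099008079) (nat_lit 152) (nat_lit 7919618353) (nat_lit 228) (nat_lit 1164578786) (nat_lit 30) (nat_lit 5) (nat_lit 32) (nat_lit 5) (nat_lit 33) (nat_lit 4) (nat_lit 328) (nat_lit 243) (nat_lit 209)) (XT.lf (nat_lit 0) (nat_lit 1514719452) (nat_lit 228) (nat_lit 3636715171) (nat_lit 76) (nat_lit 9342836215) (nat_lit 29) (nat_lit 5) (nat_lit 32) (nat_lit 5) (nat_lit 30) (nat_lit 5) (nat_lit 329) (nat_lit 243) (nat_lit 208)))))) (XT.nd (nat_lit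 468) (nat_lit 380) (nat_lit 0) (XT.nd (nat_lit 234) (nat_lit 228) (nat_lit 0) (XT.nd (nat_lit 78) (nat_lit 0) (nat_lit 0) (XT.lf (nat_lit 0) (nat_lit 1930892789) (nat_lit 152) (nat_lit 2293966136) (nat_lit 228) (nat_lit 10590314771) (nat_lit 27) (nat_lit 5) (nat_lit 29) (nat_lit 5) (nat_lit 30) (nat_lit 5) (nat_lit 330) (nat_lit 243) (nat_lit 207)) (XT.nd (nat_lit 78) (nat_lit 0) (nat_lit 0) (XT.lf (nat_lit 0) (nat_lit 7015341993) (nat_lit 228) (nat_lit 7481043274) (nat_lit 76) (nat_lit 649412491) (nat_lit 27) (nat_lit 5) (nat_lit 30) (nat_lit 5) (nat_lit 28) (nat_lit 4) (nat_lit 331) (nat_lit 243) (nat_lit 206)) (XT.lf (nat_lit 0) (nat_lit 9869253403) (nat_lit 228) (nat_lit 2006299752) (nat_lit 76) (nat_lit 3611459369) (nat_lit 27) (nat_lit 5) (nat_lit 30) (nat_lit 5) (nat_lit 28) (nat_lit 4) (nat_lit 332) (nat_lit 243) (nat_lit 205)))) (XT.nd (nat_lit 78) (nat_lit 76) (nat_lit 0) (XT.lf (nat_lit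 0) (nat_lit 3637770423) (nat_lit 152) (nat_lit 9164233911) (nat_lit 228) (nat_lit 3036724286) (nat_lit 25) (nat_lit 5) (nat_lit 27) (nat_lit 5) (nat_lit 28) (nat_lit 4) (nat_lit 333) (nat_lit 243) (nat_lit 204)) (XT.nd (nat_lit 78) (nat_lit 76) (nat_lit 0) (XT.lf (nat_lit 0) (nat_lit 9427034321) (nat_lit 152) (nat_lit 6374805504) (nat_lit 228) (nat_lit 399843071) (nat_lit 25) (nat_lit 5) (nat_lit 27) (nat_lit 5) (nat_lit 28) (nat_lit 4) (nat_lit 334) (nat_lit 243) (nat_lit 203)) (XT.lf (nat_lit 0) (nat_lit 2230536845) (nat_lit 228) (nat_lit 1272029371) (nat_lit 76) (nat_lit 13073560330) (nat_lit 24) (nat_lit 5) (nat_lit 27) (nat_lit 5) (nat_lit 25) (nat_lit 5) (nat_lit 335) (nat_lit 243) (nat_lit 202))))) (XT.nd (nat_lit 234) (nat_lit 228) (nat_lit 0) (XT.nd (nat_lit 78) (nat_lit 0) (nat_lit 0) (XT.lf (nat_lit 0) (nat_lit 4415527254) (nat_lit 152) (nat_lit 519474822) (nat_lit 228) (nat_lit 12026641040)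 (nat_lit 22) (nat_lit 5) (nat_lit 24) (nat_lit 5) (nat_lit 25) (nat_lit 5) (nat_lit 336) (nat_lit 243) (nat_lit 201)) (XT.nd (nat_lit 78) (nat_lit 0) (nat_lit 0) (XT.lf (nat_lit 0) (nat_lit 7719208878) (nat_lit 228) (nat_lit 7145949140) (nat_lit 76) (nat_lit 2493662032) (nat_lit 22) (nat_lit 5) (nat_lit 25) (nat_lit 5) (nat_lit 23) (nat_lit 4) (nat_lit 337) (nat_lit 243) (nat_lit 200)) (XT.lf (nat_lit 0) (nat_lit 10554311785) (nat_lit 228) (nat_lit 1649819773) (nat_lit 76) (nat_lit 5564811185) (nat_lit 22) (nat_lit 5) (nat_lit 25) (nat_lit 5) (nat_lit 23) (nat_lit 4) (nat_lit 338) (nat_lit 243) (nat_lit 199)))) (XT.nd (nat_lit 78) (nat_lit 76) (nat_lit 0) (XT.lf (nat_lit 0) (nat_lit 4030722097) (nat_lit 152) (nat_lit 9445818230) (nat_lit 228) (nat_lit 4714816660) (nat_lit 20) (nat_lit 5) (nat_lit 22) (nat_lit 5) (nat_lit 23) (nat_lit 4) (nat_lit 339) (nat_lit 243) (nat_lit 198)) (XT.nd (nat_lit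 78) (nat_lit 76) (nat_lit 0) (XT.lf (nat_lit 0) (nat_lit 9856954288) (nat_lit 152) (nat_lit 6609973541) (nat_lit 228) (nat_lit 2160149657) (nat_lit 20) (nat_lit 5) (nat_lit 22) (nat_lit 5) (nat_lit 23) (nat_lit 4) (nat_lit 340) (nat_lit 243) (nat_lit 197)) (XT.lf (nat_lit 0) (nat_lit 426455049) (nat_lit 228) (nat_lit 3280018104) (nat_lit 76) (nat_lit 15370371625) (nat_lit 19) (nat_lit 5) (nat_lit 22) (nat_lit 5) (nat_lit 20) (nat_lit 5) (nat_lit 341) (nat_lit 243) (nat_lit 196))))))))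
noncomputable def xc66 : XT := (XT.nd (nat_lit 1716) (nat_lit 304) (nat_lit 0) (XT.nd (nat_lit 858) (nat_lit 304) (nat_lit 0) (XT.nd (nat_lit 390) (nat_lit 228) (nat_lit 0) (XT.nd (nat_lit 156) (nat_lit 76) (nat_lit 0) (XT.nd (nat_lit 78) (nat_lit 0) (nat_lit 0) (XT.lf (nat_lit 0) (nat_lit 2343211585) (nat_lit 152) (nat_lit 692079717) (nat_lit 228) (nat_lit 16504575115) (nat_lit 17) (nat_lit 5) (nat_lit 19) (nat_lit 5) (nat_lit 20) (nat_lit 5) (nat_lit 342) (nat_lit 243) (nat_lit 195)) (XT.lf (nat_lit 0) (nat_lit 5744827515) (nat_lit 228) (nat_lit 11893155564) (nat_lit 76) (nat_lit 2378165752) (nat_lit 17) (nat_lit 5) (nat_lit 20) (nat_lit 5) (nat_lit 18) (nat_lit 4) (nat_lit 343) (nat_lit 243) (nat_lit 194))) (XT.nd (nat_lit 78) (nat_lit 76) (nat_lit 0) (XT.lf (nat_lit 0) (nat_lit 8509290821) (nat_lit 228) (nat_lit 6491991075) (nat_lit 76) (nat_lit 5506270503) (nat_lit 17) (nat_lit 5) (nat_lit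 20) (nat_lit 5) (nat_lit 18) (nat_lit 4) (nat_lit 344) (nat_lit 243) (nat_lit 193)) (XT.nd (nat_lit 78) (nat_lit 76) (nat_lit 0) (XT.lf (nat_lit 0) (nat_lit 11324444079) (nat_lit 228) (nat_lit 981789209) (nat_lit 76) (nat_lit 8708472800) (nat_lit 17) (nat_lit 5) (nat_lit 20) (nat_lit 5) (nat_lit 18) (nat_lit 4) (nat_lit 345) (nat_lit 243) (nat_lit 192)) (XT.lf (nat_lit 0) (nat_lit 4734654946) (nat_lit 76) (nat_lit 9503604584) (nat_lit 152) (nat_lit 7298428137) (nat_lit 16) (nat_lit 5) (nat_lit 17) (nat_lit 5) (nat_lit 18) (nat_lit 4) (nat_lit 346) (nat_lit 243) (nat_lit 191))))) (XT.nd (nat_lit 234) (nat_lit 152) (nat_lit 0) (XT.nd (nat_lit 78) (nat_lit 76) (nat_lit 0) (XT.lf (nat_lit 0) (nat_lit 10591768654) (nat_lit 76) (nat_lit 6626752165) (nat_lit 152) (nat_lit 4856475289) (nat_lit 16) (nat_lit 5) (nat_lit 17) (nat_lit 5) (nat_lit 18) (nat_lit 4) (nat_lit 347) (nat_lit 243) (nat_lit 190))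 (XT.nd (nat_lit 78) (nat_lit 76) (nat_lit 0) (XT.lf (nat_lit 0) (nat_lit 16575130252) (nat_lit 76) (nat_lit 3683076422) (nat_lit 152) (nat_lit 2372183866) (nat_lit 16) (nat_lit 5) (nat_lit 17) (nat_lit 5) (nat_lit 18) (nat_lit 4) (nat_lit 348) (nat_lit 243) (nat_lit 189)) (XT.lf (nat_lit 0) (nat_lit 153560711) (nat_lit 152) (nat_lit 514893839) (nat_lit 76) (nat_lit 22534856544) (nat_lit 15) (nat_lit 5) (nat_lit 17) (nat_lit 5) (nat_lit 16) (nat_lit 5) (nat_lit 349) (nat_lit 243) (nat_lit 188)))) (XT.nd (nat_lit 78) (nat_lit 0) (nat_lit 0) (XT.lf (nat_lit 0) (nat_lit 2753000773) (nat_lit 228) (nat_lit 18593187208) (nat_lit 76) (nat_lit 2445192705) (nat_lit 13) (nat_lit 5) (nat_lit 16) (nat_lit 5) (nat_lit 14) (nat_lit 4) (nat_lit 350) (nat_lit 243) (nat_lit 187)) (XT.nd (nat_lit 78) (nat_lit 0) (nat_lit 0) (XT.lf (nat_lit 0) (nat_lit 5413921198) (nat_lit 228) (nat_lit 13357844132) (nat_lit 76)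 (nat_lit 5625855207) (nat_lit 13) (nat_lit 5) (nat_lit 16) (nat_lit 5) (nat_lit 14) (nat_lit 4) (nat_lit 351) (nat_lit 243) (nat_lit 186)) (XT.lf (nat_lit 0) (nat_lit 8127123510) (nat_lit 228) (nat_lit 8011524397) (nat_lit 76) (nat_lit 8884258171) (nat_lit 13) (nat_lit 5) (nat_lit 16) (nat_lit 5) (nat_lit 14) (nat_lit 4) (nat_lit 352) (nat_lit 243) (nat_lit 185)))))) (XT.nd (nat_lit 390) (nat_lit 228) (nat_lit 0) (XT.nd (nat_lit 156) (nat_lit 0) (nat_lit 0) (XT.nd (nat_lit 78) (nat_lit 76) (nat_lit 0) (XT.lf (nat_lit 0) (nat_lit 10894978467) (nat_lit 228) (nat_lit 2549556463) (nat_lit 76) (nat_lit 12223248746) (nat_lit 13) (nat_lit 5) (nat_lit 16) (nat_lit 5) (nat_lit 14) (nat_lit 4) (nat_lit 353) (nat_lit 243) (nat_lit 184)) (XT.lf (nat_lit 0) (nat_lit 3093191572) (nat_lit 76) (nat_lit 10656446662) (nat_lit 152) (nat_lit 12582286574) (nat_lit 12) (nat_lit 5) (nat_lit 13) (nat_lit 5) (nat_lit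 14) (nat_lit 4) (nat_lit 354) (nat_lit 243) (nat_lit 183))) (XT.nd (nat_lit 78) (nat_lit 0) (nat_lit 0) (XT.lf (nat_lit 0) (nat_lit 8914473076) (nat_lit 76) (nat_lit 7775588535) (nat_lit 152) (nat_lit 10325954244) (nat_lit 12) (nat_lit 5) (nat_lit 13) (nat_lit 5) (nat_lit 14) (nat_lit 4) (nat_lit 355) (nat_lit 243) (nat_lit 182)) (XT.nd (nat_lit 78) (nat_lit 0) (nat_lit 0) (XT.lf (nat_lit 0) (nat_lit 14868633434) (nat_lit 76) (nat_lit 4825188816) (nat_lit 152) (nat_lit 8027582188) (nat_lit 12) (nat_lit 5) (nat_lit 13) (nat_lit 5) (nat_lit 14) (nat_lit 4) (nat_lit 356) (nat_lit 243) (nat_lit 181)) (XT.lf (nat_lit 0) (nat_lit 20960875309) (nat_lit 76) (nat_lit 1802669487) (nat_lit 152) (nat_lit 5685162120) (nat_lit 12) (nat_lit 5) (nat_lit 13) (nat_lit 5) (nat_lit 14) (nat_lit 4) (nat_lit 357) (nat_lit 243) (nat_lit 180))))) (XT.nd (nat_lit 234) (nat_lit 0) (nat_lit 0) (XT.nd (nat_lit 78) (nat_lit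 228) (nat_lit 0) (XT.lf (nat_lit 0) (nat_lit 25914356119) (nat_lit 152) (nat_lit 2014481365) (nat_lit 0) (nat_lit 1269347974) (nat_lit 12) (nat_lit 5) (nat_lit 14) (nat_lit 4) (nat_lit 12) (nat_lit 4) (nat_lit 358) (nat_lit 243) (nat_lit 179)) (XT.nd (nat_lit 78) (nat_lit 76) (nat_lit 0) (XT.lf (nat_lit 0) (nat_lit 3637423944) (nat_lit 152) (nat_lit 25552168113) (nat_lit 152) (nat_lit 779685410) (nat_lit 10) (nat_lit 4) (nat_lit 12) (nat_lit 5) (nat_lit 12) (nat_lit 4) (nat_lit 359) (nat_lit 243) (nat_lit 178)) (XT.lf (nat_lit 0) (nat_lit 1762146646) (nat_lit 228) (nat_lit 21319086720) (nat_lit 76) (nat_lit 7681844125) (nat_lit 9) (nat_lit 5) (nat_lit 12) (nat_lit 5) (nat_lit 10) (nat_lit 4) (nat_lit 360) (nat_lit 243) (nat_lit 177)))) (XT.nd (nat_lit 78) (nat_lit 0) (nat_lit 0) (XT.lf (nat_lit 0) (nat_lit 4342365119) (nat_lit 228) (nat_lit 16201400218) (nat_lit 76) (nat_lit 11037384421) (nat_lit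 9) (nat_lit 5) (nat_lit 12) (nat_lit 5) (nat_lit 10) (nat_lit 4) (nat_lit 361) (nat_lit 243) (nat_lit 176)) (XT.nd (nat_lit 78) (nat_lit 0) (nat_lit 0) (XT.lf (nat_lit 0) (nat_lit 6978439038) (nat_lit 228) (nat_lit 10966827441) (nat_lit 76) (nat_lit 14479167453) (nat_lit 9) (nat_lit 5) (nat_lit 12) (nat_lit 5) (nat_lit 10) (nat_lit 4) (nat_lit 362) (nat_lit 243) (nat_lit 175)) (XT.lf (nat_lit 0) (nat_lit 9672671771) (nat_lit 228) (nat_lit 5610794489) (nat_lit 76) (nat_lit 18010200605) (nat_lit 9) (nat_lit 5) (nat_lit 12) (nat_lit 5) (nat_lit 10) (nat_lit 4) (nat_lit 363) (nat_lit 243) (nat_lit 174))))))) (XT.nd (nat_lit 858) (nat_lit 76) (nat_lit 0) (XT.nd (nat_lit 390) (nat_lit 152) (nat_lit 0) (XT.nd (nat_lit 156) (nat_lit 0) (nat_lit 0) (XT.nd (nat_lit 78) (nat_lit 76) (nat_lit 0) (XT.lf (nat_lit 0) (nat_lit 12427417500) (nat_lit 228) (nat_lit 128621334) (nat_lit 76) (nat_lit 21633569246)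 (nat_lit 9) (nat_lit 5) (nat_lit 12) (nat_lit 5) (nat_lit 10) (nat_lit 4) (nat_lit 364) (nat_lit 243) (nat_lit 173)) (XT.lf (nat_lit 0) (nat_lit 5593634222) (nat_lit 76) (nat_lit 9705218496) (nat_lit 152) (nat_lit 19812574636) (nat_lit 8) (nat_lit 5) (nat_lit 9) (nat_lit 5) (nat_lit 10) (nat_lit 4) (nat_lit 365) (nat_lit 243) (nat_lit 172))) (XT.nd (nat_lit 78) (nat_lit 0) (nat_lit 0) (XT.lf (nat_lit 0) (nat_lit 11456988087) (nat_lit 76) (nat_lit 6781274654) (nat_lit 152) (nat_lit 17823204133) (nat_lit 8) (nat_lit 5) (nat_lit 9) (nat_lit 5) (nat_lit 10) (nat_lit 4) (nat_lit 366) (nat_lit 243) (nat_lit 171)) (XT.nd (nat_lit 78) (nat_lit 0) (nat_lit 0) (XT.lf (nat_lit 0) (nat_lit 17464003760) (nat_lit 76) (nat_lit 3782951231) (nat_lit 152) (nat_lit 15793639608) (nat_lit 8) (nat_lit 5) (nat_lit 9) (nat_lit 5) (nat_lit 10) (nat_lit 4) (nat_lit 367) (nat_lit 243) (nat_lit 170)) (XT.lf (nat_lit 0)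 (nat_lit 23619930091) (nat_lit 76) (nat_lit 707628332) (nat_lit 152) (nat_lit 13722107656) (nat_lit 8) (nat_lit 5) (nat_lit 9) (nat_lit 5) (nat_lit 10) (nat_lit 4) (nat_lit 368) (nat_lit 243) (nat_lit 169))))) (XT.nd (nat_lit 234) (nat_lit 76) (nat_lit 0) (XT.nd (nat_lit 78) (nat_lit 76) (nat_lit 0) (XT.lf (nat_lit 0) (nat_lit 27506290552) (nat_lit 152) (nat_lit 9182942707) (nat_lit 0) (nat_lit 2399623995) (nat_lit 8) (nat_lit 5) (nat_lit 10) (nat_lit 4) (nat_lit 8) (nat_lit 4) (nat_lit 369) (nat_lit 243) (nat_lit 168)) (XT.nd (nat_lit 78) (nat_lit 76) (nat_lit 0) (XT.lf (nat_lit 0) (nat_lit 30769977281) (nat_lit 152) (nat_lit 3815674791) (nat_lit 0) (nat_lit 5573902633) (nat_lit 8) (nat_lit 5) (nat_lit 10) (nat_lit 4) (nat_lit 8) (nat_lit 4) (nat_lit 370) (nat_lit 243) (nat_lit 167)) (XT.lf (nat_lit 0) (nat_lit 1717065901) (nat_lit 76) (nat_lit 32414107806) (nat_lit 76) (nat_lit 7131229186)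 (nat_lit 7) (nat_lit 4) (nat_lit 8) (nat_lit 5) (nat_lit 8) (nat_lit 4) (nat_lit 371) (nat_lit 243) (nat_lit 166)))) (XT.nd (nat_lit 78) (nat_lit 76) (nat_lit 0) (XT.lf (nat_lit 0) (nat_lit 7465239825) (nat_lit 76) (nat_lit 30149806540) (nat_lit 76) (nat_lit 4782652219) (nat_lit 7) (nat_lit 4) (nat_lit 8) (nat_lit 5) (nat_lit 8) (nat_lit 4) (nat_lit 372) (nat_lit 243) (nat_lit 165)) (XT.nd (nat_lit 78) (nat_lit 76) (nat_lit 0) (XT.lf (nat_lit 0) (nat_lit 13357930245) (nat_lit 76) (nat_lit 27829300593) (nat_lit 76) (nat_lit 2380325203) (nat_lit 7) (nat_lit 4) (nat_lit 8) (nat_lit 5) (nat_lit 8) (nat_lit 4) (nat_lit 373) (nat_lit 243) (nat_lit 164)) (XT.lf (nat_lit 0) (nat_lit 76331828) (nat_lit 152) (nat_lit 25373459708) (nat_lit 76) (nat_lit 19323183483) (nat_lit 6) (nat_lit 5) (nat_lit 8) (nat_lit 5) (nat_lit 7) (nat_lit 4) (nat_lit 374) (nat_lit 243) (nat_lit 163)))))) (XT.nd (nat_lit 468)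 (nat_lit 0) (nat_lit 0) (XT.nd (nat_lit 234) (nat_lit 76) (nat_lit 0) (XT.nd (nat_lit 78) (nat_lit 0) (nat_lit 0) (XT.lf (nat_lit 0) (nat_lit 2543405501) (nat_lit 152) (nat_lit 20442424358) (nat_lit 76) (nat_lit 23028498251) (nat_lit 6) (nat_lit 5) (nat_lit 8) (nat_lit 5) (nat_lit 7) (nat_lit 4) (nat_lit 375) (nat_lit 243) (nat_lit 162)) (XT.nd (nat_lit 78) (nat_lit 0) (nat_lit 0) (XT.lf (nat_lit 0) (nat_lit 5069500227) (nat_lit 152) (nat_lit 15389329933) (nat_lit 76) (nat_lit 26834556263) (nat_lit 6) (nat_lit 5) (nat_lit 8) (nat_lit 5) (nat_lit 7) (nat_lit 4) (nat_lit 376) (nat_lit 243) (nat_lit 161)) (XT.lf (nat_lit 0) (nat_lit 7656823274) (nat_lit 152) (nat_lit 10209761106) (nat_lit 76) (nat_lit 30744683202) (nat_lit 6) (nat_lit 5) (nat_lit 8) (nat_lit 5) (nat_lit 7) (nat_lit 4) (nat_lit 377) (nat_lit 243) (nat_lit 160)))) (XT.nd (nat_lit 78) (nat_lit 76) (nat_lit 0) (XT.lf (nat_lit 0) (nat_lit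 10307635411) (nat_lit 152) (nat_lit 4899192043) (nat_lit 76) (nat_lit 34762295682) (nat_lit 6) (nat_lit 5) (nat_lit 8) (nat_lit 5) (nat_lit 7) (nat_lit 4) (nat_lit 378) (nat_lit 243) (nat_lit 159)) (XT.nd (nat_lit 78) (nat_lit 0) (nat_lit 0) (XT.lf (nat_lit 0) (nat_lit 557904283) (nat_lit 76) (nat_lit 12471711513) (nat_lit 152) (nat_lit 38338362873) (nat_lit 5) (nat_lit 5) (nat_lit 6) (nat_lit 5) (nat_lit 7) (nat_lit 4) (nat_lit 379) (nat_lit 243) (nat_lit 158)) (XT.lf (nat_lit 0) (nat_lit 6255697724) (nat_lit 76) (nat_lit 9613485293) (nat_lit 152) (nat_lit 36938552264) (nat_lit 5) (nat_lit 5) (nat_lit 6) (nat_lit 5) (nat_lit 7) (nat_lit 4) (nat_lit 380) (nat_lit 243) (nat_lit 157))))) (XT.nd (nat_lit 234) (nat_lit 0) (nat_lit 0) (XT.nd (nat_lit 78) (nat_lit 0) (nat_lit 0) (XT.lf (nat_lit 0) (nat_lit 12101663407) (nat_lit 76) (nat_lit 6679123546) (nat_lit 152) (nat_lit 35510304996) (nat_lit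 5) (nat_lit 5) (nat_lit 6) (nat_lit 5) (nat_lit 7) (nat_lit 4) (nat_lit 381) (nat_lit 243) (nat_lit 156)) (XT.nd (nat_lit 78) (nat_lit 0) (nat_lit 0) (XT.lf (nat_lit 0) (nat_lit 18100909457) (nat_lit 76) (nat_lit 3666062268) (nat_lit 152) (nat_lit 34052373086) (nat_lit 5) (nat_lit 5) (nat_lit 6) (nat_lit 5) (nat_lit 7) (nat_lit 4) (nat_lit 382) (nat_lit 243) (nat_lit 155)) (XT.lf (nat_lit 0) (nat_lit 24258677933) (nat_lit 76) (nat_lit 571668686) (nat_lit 152) (nat_lit 32563482612) (nat_lit 5) (nat_lit 5) (nat_lit 6) (nat_lit 5) (nat_lit 7) (nat_lit 4) (nat_lit 383) (nat_lit 243) (nat_lit 154)))) (XT.nd (nat_lit 78) (nat_lit 0) (nat_lit 0) (XT.lf (nat_lit 0) (nat_lit 27998646154) (nat_lit 152) (nat_lit 28460629347) (nat_lit 0) (nat_lit 2555893741) (nat_lit 5) (nat_lit 5) (nat_lit 7) (nat_lit 4) (nat_lit 5) (nat_lit 4) (nat_lit 384) (nat_lit 243) (nat_lit 153)) (XT.nd (nat_lit 78) (nat_lit 0)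 (nat_lit 0) (XT.lf (nat_lit 0) (nat_lit 31255888802) (nat_lit 152) (nat_lit 23672035020) (nat_lit 0) (nat_lit 5757420222) (nat_lit 5) (nat_lit 5) (nat_lit 7) (nat_lit 4) (nat_lit 5) (nat_lit 4) (nat_lit 385) (nat_lit 243) (nat_lit 152)) (XT.lf (nat_lit 0) (nat_lit 34599425468) (nat_lit 152) (nat_lit 18759688882) (nat_lit 0) (nat_lit 9046863522) (nat_lit 5) (nat_lit 5) (nat_lit 7) (nat_lit 4) (nat_lit 5) (nat_lit 4) (nat_lit 386) (nat_lit 243) (nat_lit 151))))))))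
noncomputable def xc67 : XT := (XT.nd (nat_lit 33930) (nat_lit 0) (nat_lit 2508) (XT.nd (nat_lit 858) (nat_lit 76) (nat_lit 0) (XT.nd (nat_lit 390) (nat_lit 0) (nat_lit 0) (XT.nd (nat_lit 156) (nat_lit 76) (nat_lit 0) (XT.nd (nat_lit 78) (nat_lit 0) (nat_lit 0) (XT.lf (nat_lit 0) (nat_lit 38032177690) (nat_lit 152) (nat_lit 13719298591) (nat_lit 0) (nat_lit 12427097913) (nat_lit 5) (nat_lit 5) (nat_lit 7) (nat_lit 4) (nat_lit 5) (nat_lit 4) (nat_lit 387) (nat_lit 243) (nat_lit 150)) (XT.lf (nat_lit 0) (nat_lit 41557144958) (nat_lit 152) (nat_lit 8546459921) (nat_lit 0) (nat_lit 15901076997) (nat_lit 5) (nat_lit 5) (nat_lit 7) (nat_lit 4) (nat_lit 5) (nat_lit 4) (nat_lit 388) (nat_lit 243) (nat_lit 149))) (XT.nd (nat_lit 78) (nat_lit 76) (nat_lit 0) (XT.lf (nat_lit 0) (nat_lit 45177407343) (nat_lit 152) (nat_lit 3236652918) (nat_lit 0) (nat_lit 19471836289) (nat_lit 5) (nat_lit 5) (nat_lit 7)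 (nat_lit 4) (nat_lit 5) (nat_lit 4) (nat_lit 389) (nat_lit 243) (nat_lit 148)) (XT.nd (nat_lit 78) (nat_lit 0) (nat_lit 0) (XT.lf (nat_lit 0) (nat_lit 2258840163) (nat_lit 76) (nat_lit 46659001370) (nat_lit 76) (nat_lit 20905369061) (nat_lit 4) (nat_lit 4) (nat_lit 5) (nat_lit 5) (nat_lit 5) (nat_lit 4) (nat_lit 390) (nat_lit 243) (nat_lit 147)) (XT.lf (nat_lit 0) (nat_lit 7968033405) (nat_lit 76) (nat_lit 44825117042) (nat_lit 76) (nat_lit 19024823321) (nat_lit 4) (nat_lit 4) (nat_lit 5) (nat_lit 5) (nat_lit 5) (nat_lit 4) (nat_lit 391) (nat_lit 243) (nat_lit 146))))) (XT.nd (nat_lit 234) (nat_lit 0) (nat_lit 0) (XT.nd (nat_lit 78) (nat_lit 0) (nat_lit 0) (XT.lf (nat_lit 0) (nat_lit 13831499682) (nat_lit 76) (nat_lit 42943488704) (nat_lit 76) (nat_lit 17097892641) (nat_lit 4) (nat_lit 4) (nat_lit 5) (nat_lit 5) (nat_lit 5) (nat_lit 4) (nat_lit 392) (nat_lit 243) (nat_lit 145)) (XT.nd (nat_lit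 78) (nat_lit 0) (nat_lit 0) (XT.lf (nat_lit 0) (nat_lit 19854362412) (nat_lit 76) (nat_lit 41012472214) (nat_lit 76) (nat_lit 15122893295) (nat_lit 4) (nat_lit 4) (nat_lit 5) (nat_lit 5) (nat_lit 5) (nat_lit 4) (nat_lit 393) (nat_lit 243) (nat_lit 144)) (XT.lf (nat_lit 0) (nat_lit 26041884291) (nat_lit 76) (nat_lit 39030380277) (nat_lit 76) (nat_lit 13098099555) (nat_lit 4) (nat_lit 4) (nat_lit 5) (nat_lit 5) (nat_lit 5) (nat_lit 4) (nat_lit 394) (nat_lit 243) (nat_lit 143)))) (XT.nd (nat_lit 78) (nat_lit 0) (nat_lit 0) (XT.lf (nat_lit 0) (nat_lit 32399471891) (nat_lit 76) (nat_lit 36995480966) (nat_lit 76) (nat_lit 11021742184) (nat_lit 4) (nat_lit 4) (nat_lit 5) (nat_lit 5) (nat_lit 5) (nat_lit 4) (nat_lit 395) (nat_lit 243) (nat_lit 142)) (XT.nd (nat_lit 78) (nat_lit 0) (nat_lit 0) (XT.lf (nat_lit 0) (nat_lit 38932680385) (nat_lit 76) (nat_lit 34905996216) (nat_lit 76) (nat_lit 8892006889)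 (nat_lit 4) (nat_lit 4) (nat_lit 5) (nat_lit 5) (nat_lit 5) (nat_lit 4) (nat_lit 396) (nat_lit 243) (nat_lit 141)) (XT.lf (nat_lit 0) (nat_lit 45647218402) (nat_lit 76) (nat_lit 32760100262) (nat_lit 76) (nat_lit 6707032737) (nat_lit 4) (nat_lit 4) (nat_lit 5) (nat_lit 5) (nat_lit 5) (nat_lit 4) (nat_lit 397) (nat_lit 243) (nat_lit 140)))))) (XT.nd (nat_lit 32604) (nat_lit 0) (nat_lit 6232) (XT.nd (nat_lit 32370) (nat_lit 0) (nat_lit 8056) (XT.nd (nat_lit 78) (nat_lit 76) (nat_lit 0) (XT.lf (nat_lit 0) (nat_lit 52548953015) (nat_lit 76) (nat_lit 30555918050) (nat_lit 76) (nat_lit 4464910526) (nat_lit 4) (nat_lit 4) (nat_lit 5) (nat_lit 5) (nat_lit 5) (nat_lit 4) (nat_lit 398) (nat_lit 243) (nat_lit 139)) (XT.nd (nat_lit 78) (nat_lit 76) (nat_lit 0) (XT.lf (nat_lit 0) (nat_lit 59643914865) (nat_lit 76) (nat_lit 28291523595) (nat_lit 76) (nat_lit 2163681122) (nat_lit 4) (nat_lit 4) (nat_lit 5)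 (nat_lit 5) (nat_lit 5) (nat_lit 4) (nat_lit 399) (nat_lit 243) (nat_lit 138)) (XT.lf (nat_lit 0) (nat_lit 194789565) (nat_lit 152) (nat_lit 25768181742) (nat_lit 76) (nat_lit 66741546875) (nat_lit 3) (nat_lit 5) (nat_lit 5) (nat_lit 5) (nat_lit 4) (nat_lit 4) (nat_lit 400) (nat_lit 243) (nat_lit 137)))) (XT.nd (nat_lit 78) (nat_lit 532) (nat_lit 0) (XT.lf (nat_lit 0) (nat_lit 1644608767) (nat_lit 532) (nat_lit 1109994472) (nat_lit 532) (nat_lit 1109994472) (nat_lit 116) (nat_lit 4) (nat_lit 123) (nat_lit 5) (nat_lit 123) (nat_lit 4) (nat_lit 292) (nat_lit 244) (nat_lit 244)) (XT.nd (nat_lit 78) (nat_lit 0) (nat_lit 0) (XT.lf (nat_lit 0) (nat_lit 319589563) (nat_lit 456) (nat_lit 486580070) (nat_lit 532) (nat_lit 7011445481) (nat_lit 109) (nat_lit 5) (nat_lit 115) (nat_lit 5) (nat_lit 116) (nat_lit 4) (nat_lit 293) (nat_lit 244) (nat_lit 243)) (XT.lf (nat_lit 0) (nat_lit 3850705084) (nat_lit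 532) (nat_lit 2727620635) (nat_lit 0) (nat_lit 1330790266) (nat_lit 109) (nat_lit 5) (nat_lit 116) (nat_lit 4) (nat_lit 109) (nat_lit 4) (nat_lit 294) (nat_lit 244) (nat_lit 242))))) (XT.nd (nat_lit 234) (nat_lit 912) (nat_lit 0) (XT.nd (nat_lit 78) (nat_lit 456) (nat_lit 0) (XT.lf (nat_lit 0) (nat_lit 2127122181) (nat_lit 456) (nat_lit 4801658612) (nat_lit 456) (nat_lit 1076561903) (nat_lit 103) (nat_lit 4) (nat_lit 109) (nat_lit 5) (nat_lit 109) (nat_lit 4) (nat_lit 295) (nat_lit 244) (nat_lit 241)) (XT.nd (nat_lit 78) (nat_lit 380) (nat_lit 0) (XT.lf (nat_lit 0) (nat_lit 1901041735) (nat_lit 532) (nat_lit 1036061491) (nat_lit 76) (nat_lit 5168653791) (nat_lit 102) (nat_lit 5) (nat_lit 109) (nat_lit 5) (nat_lit 103) (nat_lit 4) (nat_lit 296) (nat_lit 244) (nat_lit 240)) (XT.lf (nat_lit 0) (nat_lit 3923671115) (nat_lit 380) (nat_lit 980194328) (nat_lit 456) (nat_lit 3306498644) (nat_lit 97)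 (nat_lit 5) (nat_lit 102) (nat_lit 5) (nat_lit 103) (nat_lit 4) (nat_lit 297) (nat_lit 244) (nat_lit 239)))) (XT.nd (nat_lit 78) (nat_lit 456) (nat_lit 0) (XT.lf (nat_lit 0) (nat_lit 643001836) (nat_lit 456) (nat_lit 7301595576) (nat_lit 456) (nat_lit 375296652) (nat_lit 91) (nat_lit 4) (nat_lit 97) (nat_lit 5) (nat_lit 97) (nat_lit 4) (nat_lit 298) (nat_lit 244) (nat_lit 238)) (XT.nd (nat_lit 78) (nat_lit 380) (nat_lit 0) (XT.lf (nat_lit 0) (nat_lit 2567210828) (nat_lit 532) (nat_lit 2754461429) (nat_lit 76) (nat_lit 3111233255) (nat_lit 90) (nat_lit 5) (nat_lit 97) (nat_lit 5) (nat_lit 91) (nat_lit 4) (nat_lit 299) (nat_lit 244) (nat_lit 237)) (XT.lf (nat_lit 0) (nat_lit 2262916273) (nat_lit 380) (nat_lit 3273111581) (nat_lit 456) (nat_lit 3015001437) (nat_lit 85) (nat_lit 5) (nat_lit 90) (nat_lit 5) (nat_lit 91) (nat_lit 4) (nat_lit 300) (nat_lit 244) (nat_lit 236))))))) (XT.nd (nat_lit 858)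 (nat_lit 1520) (nat_lit 0) (XT.nd (nat_lit 390) (nat_lit 988) (nat_lit 0) (XT.nd (nat_lit 156) (nat_lit 760) (nat_lit 0) (XT.nd (nat_lit 78) (nat_lit 456) (nat_lit 0) (XT.lf (nat_lit 0) (nat_lit 7395024616) (nat_lit 380) (nat_lit 1151856198) (nat_lit 456) (nat_lit 127421761) (nat_lit 85) (nat_lit 5) (nat_lit 90) (nat_lit 5) (nat_lit 91) (nat_lit 4) (nat_lit 301) (nat_lit 244) (nat_lit 235)) (XT.lf (nat_lit 0) (nat_lit 2764937436) (nat_lit 456) (nat_lit 4976036374) (nat_lit 76) (nat_lit 1060451947) (nat_lit 79) (nat_lit 5) (nat_lit 85) (nat_lit 5) (nat_lit 80) (nat_lit 4) (nat_lit 302) (nat_lit 244) (nat_lit 234))) (XT.nd (nat_lit 78) (nat_lit 456) (nat_lit 0) (XT.lf (nat_lit 0) (nat_lit 73592662) (nat_lit 304) (nat_lit 5620604650) (nat_lit 380) (nat_lit 3239725139) (nat_lit 75) (nat_lit 5) (nat_lit 79) (nat_lit 5) (nat_lit 80) (nat_lit 4) (nat_lit 303) (nat_lit 244) (nat_lit 233)) (XT.nd (nat_lit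 78) (nat_lit 456) (nat_lit 0) (XT.lf (nat_lit 0) (nat_lit 5285126273) (nat_lit 304) (nat_lit 3405220128) (nat_lit 380) (nat_lit 380850500) (nat_lit 75) (nat_lit 5) (nat_lit 79) (nat_lit 5) (nat_lit 80) (nat_lit 4) (nat_lit 304) (nat_lit 244) (nat_lit 232)) (XT.lf (nat_lit 0) (nat_lit 1351670374) (nat_lit 380) (nat_lit 1105072724) (nat_lit 456) (nat_lit 6756980956) (nat_lit 69) (nat_lit 5) (nat_lit 74) (nat_lit 5) (nat_lit 75) (nat_lit 5) (nat_lit 305) (nat_lit 244) (nat_lit 231))))) (XT.nd (nat_lit 234) (nat_lit 608) (nat_lit 0) (XT.nd (nat_lit 78) (nat_lit 380) (nat_lit 0) (XT.lf (nat_lit 0) (nat_lit 5353538185) (nat_lit 456) (nat_lit 2746140276) (nat_lit 76) (nat_lit 1261442083) (nat_lit 69) (nat_lit 5) (nat_lit 75) (nat_lit 5) (nat_lit 70) (nat_lit 4) (nat_lit 306) (nat_lit 244) (nat_lit 230)) (XT.nd (nat_lit 78) (nat_lit 76) (nat_lit 0) (XT.lf (nat_lit 0) (nat_lit 2471593149) (nat_lit 304)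 (nat_lit 5833321303) (nat_lit 380) (nat_lit 1209148043) (nat_lit 65) (nat_lit 5) (nat_lit 69) (nat_lit 5) (nat_lit 70) (nat_lit 4) (nat_lit 307) (nat_lit 244) (nat_lit 229)) (XT.lf (nat_lit 0) (nat_lit 1601877480) (nat_lit 380) (nat_lit 1874514348) (nat_lit 76) (nat_lit 6196024727) (nat_lit 64) (nat_lit 5) (nat_lit 69) (nat_lit 5) (nat_lit 65) (nat_lit 5) (nat_lit 308) (nat_lit 244) (nat_lit 228)))) (XT.nd (nat_lit 78) (nat_lit 304) (nat_lit 0) (XT.lf (nat_lit 0) (nat_lit 3416232118) (nat_lit 304) (nat_lit 1024764982) (nat_lit 380) (nat_lit 5395263828) (nat_lit 60) (nat_lit 5) (nat_lit 64) (nat_lit 5) (nat_lit 65) (nat_lit 5) (nat_lit 309) (nat_lit 244) (nat_lit 227)) (XT.nd (nat_lit 78) (nat_lit 304) (nat_lit 0) (XT.lf (nat_lit 0) (nat_lit 7334900628) (nat_lit 380) (nat_lit 1202855518) (nat_lit 76) (nat_lit 1468312901) (nat_lit 60) (nat_lit 5) (nat_lit 65) (nat_lit 5) (nat_lit 61) (nat_lit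 4) (nat_lit 310) (nat_lit 244) (nat_lit 226)) (XT.lf (nat_lit 0) (nat_lit 119807227) (nat_lit 304) (nat_lit 6026202323) (nat_lit 76) (nat_lit 4035418358) (nat_lit 56) (nat_lit 5) (nat_lit 60) (nat_lit 5) (nat_lit 57) (nat_lit 5) (nat_lit 311) (nat_lit 244) (nat_lit 225)))))) (XT.nd (nat_lit 468) (nat_lit 684) (nat_lit 0) (XT.nd (nat_lit 234) (nat_lit 532) (nat_lit 0) (XT.nd (nat_lit 78) (nat_lit 304) (nat_lit 0) (XT.lf (nat_lit 0) (nat_lit 2891288444) (nat_lit 304) (nat_lit 775420806) (nat_lit 76) (nat_lit 6696156068) (nat_lit 56) (nat_lit 5) (nat_lit 60) (nat_lit 5) (nat_lit 57) (nat_lit 5) (nat_lit 312) (nat_lit 244) (nat_lit 224)) (XT.nd (nat_lit 78) (nat_lit 0) (nat_lit 0) (XT.lf (nat_lit 0) (nat_lit 4640052890) (nat_lit 304) (nat_lit 1090461705) (nat_lit 380) (nat_lit 4819814716) (nat_lit 52) (nat_lit 5) (nat_lit 56) (nat_lit 5) (nat_lit 57) (nat_lit 5) (nat_lit 313) (nat_lit 244) (nat_lit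 223)) (XT.lf (nat_lit 0) (nat_lit 8618576037) (nat_lit 380) (nat_lit 608620307) (nat_lit 76) (nat_lit 1517429065) (nat_lit 52) (nat_lit 5) (nat_lit 57) (nat_lit 5) (nat_lit 53) (nat_lit 4) (nat_lit 314) (nat_lit 244) (nat_lit 222)))) (XT.nd (nat_lit 78) (nat_lit 228) (nat_lit 0) (XT.lf (nat_lit 0) (nat_lit 635671229) (nat_lit 304) (nat_lit 6096855375) (nat_lit 76) (nat_lit 4212154008) (nat_lit 48) (nat_lit 5) (nat_lit 52) (nat_lit 5) (nat_lit 49) (nat_lit 5) (nat_lit 315) (nat_lit 244) (nat_lit 221)) (XT.nd (nat_lit 78) (nat_lit 228) (nat_lit 0) (XT.lf (nat_lit 0) (nat_lit 3386398619) (nat_lit 304) (nat_lit 773439093) (nat_lit 76) (nat_lit 6991909592) (nat_lit 48) (nat_lit 5) (nat_lit 52) (nat_lit 5) (nat_lit 49) (nat_lit 5) (nat_lit 316) (nat_lit 244) (nat_lit 220)) (XT.lf (nat_lit 0) (nat_lit 4722002148) (nat_lit 228) (nat_lit 1487385907) (nat_lit 304) (nat_lit 5156050523) (nat_lit 45) (nat_lit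 5) (nat_lit 48) (nat_lit 5) (nat_lit 49) (nat_lit 5) (nat_lit 317) (nat_lit 244) (nat_lit 219))))) (XT.nd (nat_lit 234) (nat_lit 380) (nat_lit 0) (XT.nd (nat_lit 78) (nat_lit 304) (nat_lit 0) (XT.lf (nat_lit 0) (nat_lit 9082094460) (nat_lit 304) (nat_lit 1279935061) (nat_lit 76) (nat_lit 1224661985) (nat_lit 45) (nat_lit 5) (nat_lit 49) (nat_lit 5) (nat_lit 46) (nat_lit 4) (nat_lit 318) (nat_lit 244) (nat_lit 218)) (XT.nd (nat_lit 78) (nat_lit 0) (nat_lit 0) (XT.lf (nat_lit 0) (nat_lit 223913239) (nat_lit 304) (nat_lit 7582651664) (nat_lit 76) (nat_lit 4007989793) (nat_lit 41) (nat_lit 5) (nat_lit 45) (nat_lit 5) (nat_lit 42) (nat_lit 5) (nat_lit 319) (nat_lit 244) (nat_lit 217)) (XT.lf (nat_lit 0) (nat_lit 2943768438) (nat_lit 304) (nat_lit 2217048384) (nat_lit 76) (nat_lit 6888991236) (nat_lit 41) (nat_lit 5) (nat_lit 45) (nat_lit 5) (nat_lit 42) (nat_lit 5) (nat_lit 320) (nat_lit 244) (nat_lit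 216)))) (XT.nd (nat_lit 78) (nat_lit 152) (nat_lit 0) (XT.lf (nat_lit 0) (nat_lit 3297569410) (nat_lit 228) (nat_lit 2427675053) (nat_lit 304) (nat_lit 6567564194) (nat_lit 38) (nat_lit 5) (nat_lit 41) (nat_lit 5) (nat_lit 42) (nat_lit 5) (nat_lit 321) (nat_lit 244) (nat_lit 215)) (XT.nd (nat_lit 78) (nat_lit 152) (nat_lit 0) (XT.lf (nat_lit 0) (nat_lit 8565367444) (nat_lit 304) (nat_lit 3600231299) (nat_lit 76) (nat_lit 378332209) (nat_lit 38) (nat_lit 5) (nat_lit 42) (nat_lit 5) (nat_lit 39) (nat_lit 4) (nat_lit 322) (nat_lit 244) (nat_lit 214)) (XT.lf (nat_lit 0) (nat_lit 1894876520) (nat_lit 152) (nat_lit 9588426616) (nat_lit 228) (nat_lit 1319590710) (nat_lit 36) (nat_lit 5) (nat_lit 38) (nat_lit 5) (nat_lit 39) (nat_lit 4) (nat_lit 323) (nat_lit 244) (nat_lit 213))))))))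
noncomputable def xc68 : XT := (XT.nd (nat_lit 1716) (nat_lit 684) (nat_lit 0) (XT.nd (nat_lit 858) (nat_lit 608) (nat_lit 0) (XT.nd (nat_lit 390) (nat_lit 380) (nat_lit 0) (XT.nd (nat_lit 156) (nat_lit 380) (nat_lit 0) (XT.nd (nat_lit 78) (nat_lit 0) (nat_lit 0) (XT.lf (nat_lit 0) (nat_lit 1378701296) (nat_lit 228) (nat_lit 5528920391) (nat_lit 76) (nat_lit 6162057715) (nat_lit 35) (nat_lit 5) (nat_lit 38) (nat_lit 5) (nat_lit 36) (nat_lit 5) (nat_lit 324) (nat_lit 244) (nat_lit 212)) (XT.lf (nat_lit 0) (nat_lit 4083388089) (nat_lit 228) (nat_lit 74353184) (nat_lit 76) (nat_lit 9187854211) (nat_lit 35) (nat_lit 5) (nat_lit 38) (nat_lit 5) (nat_lit 36) (nat_lit 5) (nat_lit 325) (nat_lit 244) (nat_lit 211))) (XT.nd (nat_lit 78) (nat_lit 152) (nat_lit 0) (XT.lf (nat_lit 0) (nat_lit 5582061254) (nat_lit 228) (nat_lit 1294179888) (nat_lit 304) (nat_lit 6753412837) (nat_lit 32) (nat_lit 5) (nat_lit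 35) (nat_lit 5) (nat_lit 36) (nat_lit 5) (nat_lit 326) (nat_lit 244) (nat_lit 210)) (XT.nd (nat_lit 78) (nat_lit 152) (nat_lit 0) (XT.lf (nat_lit 0) (nat_lit 9723370860) (nat_lit 304) (nat_lit 2599681594) (nat_lit 76) (nat_lit 1600140540) (nat_lit 32) (nat_lit 5) (nat_lit 36) (nat_lit 5) (nat_lit 33) (nat_lit 4) (nat_lit 327) (nat_lit 244) (nat_lit 209)) (XT.lf (nat_lit 0) (nat_lit 2987991625) (nat_lit 152) (nat_lit 9664625094) (nat_lit 228) (nat_lit 1573091746) (nat_lit 30) (nat_lit 5) (nat_lit 32) (nat_lit 5) (nat_lit 33) (nat_lit 4) (nat_lit 328) (nat_lit 244) (nat_lit 208))))) (XT.nd (nat_lit 234) (nat_lit 152) (nat_lit 0) (XT.nd (nat_lit 78) (nat_lit 152) (nat_lit 0) (XT.lf (nat_lit 0) (nat_lit 1092162409) (nat_lit 228) (nat_lit 5820518171) (nat_lit 76) (nat_lit 7624904913) (nat_lit 29) (nat_lit 5) (nat_lit 32) (nat_lit 5) (nat_lit 30) (nat_lit 5) (nat_lit 329) (nat_lit 244) (nat_lit 207))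 (XT.nd (nat_lit 78) (nat_lit 152) (nat_lit 0) (XT.lf (nat_lit 0) (nat_lit 3762366549) (nat_lit 228) (nat_lit 323802646) (nat_lit 76) (nat_lit 10773549384) (nat_lit 29) (nat_lit 5) (nat_lit 32) (nat_lit 5) (nat_lit 30) (nat_lit 5) (nat_lit 330) (nat_lit 244) (nat_lit 206)) (XT.lf (nat_lit 0) (nat_lit 5377284396) (nat_lit 152) (nat_lit 1144955899) (nat_lit 228) (nat_lit 8669051856) (nat_lit 27) (nat_lit 5) (nat_lit 29) (nat_lit 5) (nat_lit 30) (nat_lit 5) (nat_lit 331) (nat_lit 244) (nat_lit 205)))) (XT.nd (nat_lit 78) (nat_lit 152) (nat_lit 0) (XT.lf (nat_lit 0) (nat_lit 9344581012) (nat_lit 228) (nat_lit 4360722087) (nat_lit 76) (nat_lit 1828181261) (nat_lit 27) (nat_lit 5) (nat_lit 30) (nat_lit 5) (nat_lit 28) (nat_lit 4) (nat_lit 332) (nat_lit 244) (nat_lit 204)) (XT.nd (nat_lit 78) (nat_lit 0) (nat_lit 0) (XT.lf (nat_lit 0) (nat_lit 1204344871) (nat_lit 152) (nat_lit 11029629790) (nat_lit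 228) (nat_lit 3652555950) (nat_lit 25) (nat_lit 5) (nat_lit 27) (nat_lit 5) (nat_lit 28) (nat_lit 4) (nat_lit 333) (nat_lit 244) (nat_lit 203)) (XT.lf (nat_lit 0) (nat_lit 6962399453) (nat_lit 152) (nat_lit 8251726516) (nat_lit 228) (nat_lit 1035978025) (nat_lit 25) (nat_lit 5) (nat_lit 27) (nat_lit 5) (nat_lit 28) (nat_lit 4) (nat_lit 334) (nat_lit 244) (nat_lit 202)))))) (XT.nd (nat_lit 390) (nat_lit 228) (nat_lit 0) (XT.nd (nat_lit 156) (nat_lit 152) (nat_lit 0) (XT.nd (nat_lit 78) (nat_lit 152) (nat_lit 0) (XT.lf (nat_lit 0) (nat_lit 1587487893) (nat_lit 228) (nat_lit 3809682316) (nat_lit 76) (nat_lit 11228167639) (nat_lit 24) (nat_lit 5) (nat_lit 27) (nat_lit 5) (nat_lit 25) (nat_lit 5) (nat_lit 335) (nat_lit 244) (nat_lit 201)) (XT.lf (nat_lit 0) (nat_lit 1796959238) (nat_lit 152) (nat_lit 2451058258) (nat_lit 228) (nat_lit 12764181147) (nat_lit 22) (nat_lit 5) (nat_lit 24) (nat_lit 5)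 (nat_lit 25) (nat_lit 5) (nat_lit 336) (nat_lit 244) (nat_lit 200))) (XT.nd (nat_lit 78) (nat_lit 152) (nat_lit 0) (XT.lf (nat_lit 0) (nat_lit 6995049143) (nat_lit 228) (nat_lit 9826504649) (nat_lit 76) (nat_lit 588962432) (nat_lit 22) (nat_lit 5) (nat_lit 25) (nat_lit 5) (nat_lit 23) (nat_lit 4) (nat_lit 337) (nat_lit 244) (nat_lit 199)) (XT.nd (nat_lit 78) (nat_lit 152) (nat_lit 0) (XT.lf (nat_lit 0) (nat_lit 9812086425) (nat_lit 228) (nat_lit 4359501037) (nat_lit 76) (nat_lit 3649618077) (nat_lit 22) (nat_lit 5) (nat_lit 25) (nat_lit 5) (nat_lit 23) (nat_lit 4) (nat_lit 338) (nat_lit 244) (nat_lit 198)) (XT.lf (nat_lit 0) (nat_lit 1238272653) (nat_lit 152) (nat_lit 11451660141) (nat_lit 228) (nat_lit 5555042391) (nat_lit 20) (nat_lit 5) (nat_lit 22) (nat_lit 5) (nat_lit 23) (nat_lit 4) (nat_lit 339) (nat_lit 244) (nat_lit 197))))) (XT.nd (nat_lit 234) (nat_lit 152) (nat_lit 0) (XT.nd (nat_lit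 78) (nat_lit 76) (nat_lit 0) (XT.lf (nat_lit 0) (nat_lit 7036504642) (nat_lit 152) (nat_lit 8626517916) (nat_lit 228) (nat_lit 3018215297) (nat_lit 20) (nat_lit 5) (nat_lit 22) (nat_lit 5) (nat_lit 23) (nat_lit 4) (nat_lit 340) (nat_lit 244) (nat_lit 196)) (XT.nd (nat_lit 78) (nat_lit 76) (nat_lit 0) (XT.lf (nat_lit 0) (nat_lit 12953498724) (nat_lit 152) (nat_lit 5737714630) (nat_lit 228) (nat_lit 440443599) (nat_lit 20) (nat_lit 5) (nat_lit 22) (nat_lit 5) (nat_lit 23) (nat_lit 4) (nat_lit 341) (nat_lit 244) (nat_lit 195)) (XT.lf (nat_lit 0) (nat_lit 2137975223) (nat_lit 228) (nat_lit 623161504) (nat_lit 76) (nat_lit 16834860509) (nat_lit 19) (nat_lit 5) (nat_lit 22) (nat_lit 5) (nat_lit 20) (nat_lit 5) (nat_lit 342) (nat_lit 244) (nat_lit 194)))) (XT.nd (nat_lit 78) (nat_lit 0) (nat_lit 0) (XT.lf (nat_lit 0) (nat_lit 4805092248) (nat_lit 228) (nat_lit 14935185746) (nat_lit 76) (nat_lit 333294878)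 (nat_lit 17) (nat_lit 5) (nat_lit 20) (nat_lit 5) (nat_lit 18) (nat_lit 4) (nat_lit 343) (nat_lit 244) (nat_lit 193)) (XT.nd (nat_lit 78) (nat_lit 0) (nat_lit 0) (XT.lf (nat_lit 0) (nat_lit 7553671836) (nat_lit 228) (nat_lit 9560128429) (nat_lit 76) (nat_lit 3451672734) (nat_lit 17) (nat_lit 5) (nat_lit 20) (nat_lit 5) (nat_lit 18) (nat_lit 4) (nat_lit 344) (nat_lit 244) (nat_lit 192)) (XT.lf (nat_lit 0) (nat_lit 10353404008) (nat_lit 228) (nat_lit 4075273330) (nat_lit 76) (nat_lit 6644431443) (nat_lit 17) (nat_lit 5) (nat_lit 20) (nat_lit 5) (nat_lit 18) (nat_lit 4) (nat_lit 345) (nat_lit 244) (nat_lit 191))))))) (XT.nd (nat_lit 858) (nat_lit 304) (nat_lit 0) (XT.nd (nat_lit 390) (nat_lit 76) (nat_lit 0) (XT.nd (nat_lit 156) (nat_lit 228) (nat_lit 0) (XT.nd (nat_lit 78) (nat_lit 0) (nat_lit 0) (XT.lf (nat_lit 0) (nat_lit 1554506155) (nat_lit 76) (nat_lit 11667171840) (nat_lit 152) (nat_lit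 8374797503) (nat_lit 16) (nat_lit 5) (nat_lit 17) (nat_lit 5) (nat_lit 18) (nat_lit 4) (nat_lit 346) (nat_lit 244) (nat_lit 190)) (XT.lf (nat_lit 0) (nat_lit 7387252611) (nat_lit 76) (nat_lit 8799916588) (nat_lit 152) (nat_lit 5948076188) (nat_lit 16) (nat_lit 5) (nat_lit 17) (nat_lit 5) (nat_lit 18) (nat_lit 4) (nat_lit 347) (nat_lit 244) (nat_lit 189))) (XT.nd (nat_lit 78) (nat_lit 228) (nat_lit 0) (XT.lf (nat_lit 0) (nat_lit 13346956682) (nat_lit 76) (nat_lit 5865558484) (nat_lit 152) (nat_lit 3478572661) (nat_lit 16) (nat_lit 5) (nat_lit 17) (nat_lit 5) (nat_lit 18) (nat_lit 4) (nat_lit 348) (nat_lit 244) (nat_lit 188)) (XT.nd (nat_lit 78) (nat_lit 228) (nat_lit 0) (XT.lf (nat_lit 0) (nat_lit 19438825876) (nat_lit 76) (nat_lit 2861533525) (nat_lit 152) (nat_lit 964129104) (nat_lit 16) (nat_lit 5) (nat_lit 17) (nat_lit 5) (nat_lit 18) (nat_lit 4) (nat_lit 349) (nat_lit 244) (nat_lit 187))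 (XT.lf (nat_lit 0) (nat_lit 1586287080) (nat_lit 228) (nat_lit 22024709904) (nat_lit 76) (nat_lit 243890570) (nat_lit 13) (nat_lit 5) (nat_lit 16) (nat_lit 5) (nat_lit 14) (nat_lit 4) (nat_lit 350) (nat_lit 244) (nat_lit 186))))) (XT.nd (nat_lit 234) (nat_lit 76) (nat_lit 0) (XT.nd (nat_lit 78) (nat_lit 0) (nat_lit 0) (XT.lf (nat_lit 0) (nat_lit 4233638182) (nat_lit 228) (nat_lit 16812068125) (nat_lit 76) (nat_lit 3415844002) (nat_lit 13) (nat_lit 5) (nat_lit 16) (nat_lit 5) (nat_lit 14) (nat_lit 4) (nat_lit 351) (nat_lit 244) (nat_lit 185)) (XT.nd (nat_lit 78) (nat_lit 0) (nat_lit 0) (XT.lf (nat_lit 0) (nat_lit 6933666393) (nat_lit 228) (nat_lit 11487788485) (nat_lit 76) (nat_lit 6665791559) (nat_lit 13) (nat_lit 5) (nat_lit 16) (nat_lit 5) (nat_lit 14) (nat_lit 4) (nat_lit 352) (nat_lit 244) (nat_lit 184)) (XT.lf (nat_lit 0) (nat_lit 9688730962) (nat_lit 228) (nat_lit 6047218702) (nat_lit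 76) (nat_lit 9996572999) (nat_lit 13) (nat_lit 5) (nat_lit 16) (nat_lit 5) (nat_lit 14) (nat_lit 4) (nat_lit 353) (nat_lit 244) (nat_lit 183)))) (XT.nd (nat_lit 78) (nat_lit 76) (nat_lit 0) (XT.lf (nat_lit 0) (nat_lit 12501239226) (nat_lit 228) (nat_lit 485604878) (nat_lit 76) (nat_lit 13411098716) (nat_lit 13) (nat_lit 5) (nat_lit 16) (nat_lit 5) (nat_lit 14) (nat_lit 4) (nat_lit 354) (nat_lit 244) (nat_lit 182)) (XT.nd (nat_lit 78) (nat_lit 0) (nat_lit 0) (XT.lf (nat_lit 0) (nat_lit 5305440909) (nat_lit 76) (nat_lit 10119206951) (nat_lit 152) (nat_lit 11657910510) (nat_lit 12) (nat_lit 5) (nat_lit 13) (nat_lit 5) (nat_lit 14) (nat_lit 4) (nat_lit 355) (nat_lit 244) (nat_lit 181)) (XT.lf (nat_lit 0) (nat_lit 11239629201) (nat_lit 76) (nat_lit 7176882297) (nat_lit 152) (nat_lit 9371806015) (nat_lit 12) (nat_lit 5) (nat_lit 13) (nat_lit 5) (nat_lit 14) (nat_lit 4) (nat_lit 356) (nat_lit 244)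 (nat_lit 180)))))) (XT.nd (nat_lit 468) (nat_lit 76) (nat_lit 0) (XT.nd (nat_lit 234) (nat_lit 228) (nat_lit 0) (XT.nd (nat_lit 78) (nat_lit 0) (nat_lit 0) (XT.lf (nat_lit 0) (nat_lit 17312480721) (nat_lit 76) (nat_lit 4162202836) (nat_lit 152) (nat_lit 7041296201) (nat_lit 12) (nat_lit 5) (nat_lit 13) (nat_lit 5) (nat_lit 14) (nat_lit 4) (nat_lit 357) (nat_lit 244) (nat_lit 179)) (XT.nd (nat_lit 78) (nat_lit 0) (nat_lit 0) (XT.lf (nat_lit 0) (nat_lit 23529301843) (nat_lit 76) (nat_lit 1072534383) (nat_lit 152) (nat_lit 4664344700) (nat_lit 12) (nat_lit 5) (nat_lit 13) (nat_lit 5) (nat_lit 14) (nat_lit 4) (nat_lit 358) (nat_lit 244) (nat_lit 178)) (XT.lf (nat_lit 0) (nat_lit 27820838688) (nat_lit 152) (nat_lit 164188508) (nat_lit 0) (nat_lit 2053945235) (nat_lit 12) (nat_lit 5) (nat_lit 14) (nat_lit 4) (nat_lit 12) (nat_lit 4) (nat_lit 359) (nat_lit 244) (nat_lit 177)))) (XT.nd (nat_lit 78)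 (nat_lit 0) (nat_lit 0) (XT.lf (nat_lit 0) (nat_lit 339207193) (nat_lit 228) (nat_lit 25198459849) (nat_lit 76) (nat_lit 5295908819) (nat_lit 9) (nat_lit 5) (nat_lit 12) (nat_lit 5) (nat_lit 10) (nat_lit 4) (nat_lit 360) (nat_lit 244) (nat_lit 176)) (XT.nd (nat_lit 78) (nat_lit 0) (nat_lit 0) (XT.lf (nat_lit 0) (nat_lit 2908809356) (nat_lit 228) (nat_lit 20098824736) (nat_lit 76) (nat_lit 8644343956) (nat_lit 9) (nat_lit 5) (nat_lit 12) (nat_lit 5) (nat_lit 10) (nat_lit 4) (nat_lit 361) (nat_lit 244) (nat_lit 175)) (XT.lf (nat_lit 0) (nat_lit 5534576180) (nat_lit 228) (nat_lit 14881777579) (nat_lit 76) (nat_lit 12079228775) (nat_lit 9) (nat_lit 5) (nat_lit 12) (nat_lit 5) (nat_lit 10) (nat_lit 4) (nat_lit 362) (nat_lit 244) (nat_lit 174))))) (XT.nd (nat_lit 234) (nat_lit 0) (nat_lit 0) (XT.nd (nat_lit 78) (nat_lit 76) (nat_lit 0) (XT.lf (nat_lit 0) (nat_lit 8218802023) (nat_lit 228) (nat_lit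 9542759792) (nat_lit 76) (nat_lit 15603564634) (nat_lit 9) (nat_lit 5) (nat_lit 12) (nat_lit 5) (nat_lit 10) (nat_lit 4) (nat_lit 363) (nat_lit 244) (nat_lit 173)) (XT.nd (nat_lit 78) (nat_lit 76) (nat_lit 0) (XT.lf (nat_lit 0) (nat_lit 10963832326) (nat_lit 228) (nat_lit 4077106215) (nat_lit 76) (nat_lit 19220431048) (nat_lit 9) (nat_lit 5) (nat_lit 12) (nat_lit 5) (nat_lit 10) (nat_lit 4) (nat_lit 364) (nat_lit 244) (nat_lit 172)) (XT.lf (nat_lit 0) (nat_lit 1550209129) (nat_lit 76) (nat_lit 12236758086) (nat_lit 152) (nat_lit 21397680815) (nat_lit 8) (nat_lit 5) (nat_lit 9) (nat_lit 5) (nat_lit 10) (nat_lit 4) (nat_lit 365) (nat_lit 244) (nat_lit 171)))) (XT.nd (nat_lit 78) (nat_lit 0) (nat_lit 0) (XT.lf (nat_lit 0) (nat_lit 7397681808) (nat_lit 76) (nat_lit 9319385050) (nat_lit 152) (nat_lit 19417909864) (nat_lit 8) (nat_lit 5) (nat_lit 9) (nat_lit 5) (nat_lit 10) (nat_lit 4) (nat_lit 366)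 (nat_lit 244) (nat_lit 170)) (XT.nd (nat_lit 78) (nat_lit 0) (nat_lit 0) (XT.lf (nat_lit 0) (nat_lit 13389278854) (nat_lit 76) (nat_lit 6327441048) (nat_lit 152) (nat_lit 17397665295) (nat_lit 8) (nat_lit 5) (nat_lit 9) (nat_lit 5) (nat_lit 10) (nat_lit 4) (nat_lit 367) (nat_lit 244) (nat_lit 169)) (XT.lf (nat_lit 0) (nat_lit 19530235645) (nat_lit 76) (nat_lit 3258311763) (nat_lit 152) (nat_lit 15335181842) (nat_lit 8) (nat_lit 5) (nat_lit 9) (nat_lit 5) (nat_lit 10) (nat_lit 4) (nat_lit 368) (nat_lit 244) (nat_lit 168))))))))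
noncomputable def xc69 : XT := (XT.nd (nat_lit 1716) (nat_lit 76) (nat_lit 0) (XT.nd (nat_lit 858) (nat_lit 76) (nat_lit 0) (XT.nd (nat_lit 390) (nat_lit 76) (nat_lit 0) (XT.nd (nat_lit 156) (nat_lit 76) (nat_lit 0) (XT.nd (nat_lit 78) (nat_lit 0) (nat_lit 0) (XT.lf (nat_lit 0) (nat_lit 25825918064) (nat_lit 76) (nat_lit 109315429) (nat_lit 152) (nat_lit 13228657338) (nat_lit 8) (nat_lit 5) (nat_lit 9) (nat_lit 5) (nat_lit 10) (nat_lit 4) (nat_lit 369) (nat_lit 244) (nat_lit 167)) (XT.lf (nat_lit 0) (nat_lit 29189541143) (nat_lit 152) (nat_lit 7983965080) (nat_lit 0) (nat_lit 3061372193) (nat_lit 8) (nat_lit 5) (nat_lit 10) (nat_lit 4) (nat_lit 8) (nat_lit 4) (nat_lit 370) (nat_lit 244) (nat_lit 166))) (XT.nd (nat_lit 78) (nat_lit 76) (nat_lit 0) (XT.lf (nat_lit 0) (nat_lit 32526146381) (nat_lit 152) (nat_lit 2498624735) (nat_lit 0) (nat_lit 6313701729) (nat_lit 8) (nat_lit 5) (nat_lit 10) (nat_lit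 4) (nat_lit 8) (nat_lit 4) (nat_lit 371) (nat_lit 244) (nat_lit 165)) (XT.nd (nat_lit 78) (nat_lit 0) (nat_lit 0) (XT.lf (nat_lit 0) (nat_lit 3186063665) (nat_lit 76) (nat_lit 32791476607) (nat_lit 76) (nat_lit 6497210886) (nat_lit 7) (nat_lit 4) (nat_lit 8) (nat_lit 5) (nat_lit 8) (nat_lit 4) (nat_lit 372) (nat_lit 244) (nat_lit 164)) (XT.lf (nat_lit 0) (nat_lit 9065396812) (nat_lit 76) (nat_lit 30476577986) (nat_lit 76) (nat_lit 4102874334) (nat_lit 7) (nat_lit 4) (nat_lit 8) (nat_lit 5) (nat_lit 8) (nat_lit 4) (nat_lit 373) (nat_lit 244) (nat_lit 163))))) (XT.nd (nat_lit 234) (nat_lit 0) (nat_lit 0) (XT.nd (nat_lit 78) (nat_lit 76) (nat_lit 0) (XT.lf (nat_lit 0) (nat_lit 15094784456) (nat_lit 76) (nat_lit 28103283737) (nat_lit 76) (nat_lit 1652455880) (nat_lit 7) (nat_lit 4) (nat_lit 8) (nat_lit 5) (nat_lit 8) (nat_lit 4) (nat_lit 374) (nat_lit 244) (nat_lit 162)) (XT.nd (nat_lit 78) (nat_lit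 0) (nat_lit 0) (XT.lf (nat_lit 0) (nat_lit 839478351) (nat_lit 152) (nat_lit 24821564670) (nat_lit 76) (nat_lit 20431539555) (nat_lit 6) (nat_lit 5) (nat_lit 8) (nat_lit 5) (nat_lit 7) (nat_lit 4) (nat_lit 375) (nat_lit 244) (nat_lit 161)) (XT.lf (nat_lit 0) (nat_lit 3358403363) (nat_lit 152) (nat_lit 19780843857) (nat_lit 76) (nat_lit 24232615885) (nat_lit 6) (nat_lit 5) (nat_lit 8) (nat_lit 5) (nat_lit 7) (nat_lit 4) (nat_lit 376) (nat_lit 244) (nat_lit 160)))) (XT.nd (nat_lit 78) (nat_lit 0) (nat_lit 0) (XT.lf (nat_lit 0) (nat_lit 5938765523) (nat_lit 152) (nat_lit 14613288246) (nat_lit 76) (nat_lit 28137906239) (nat_lit 6) (nat_lit 5) (nat_lit 8) (nat_lit 5) (nat_lit 7) (nat_lit 4) (nat_lit 377) (nat_lit 244) (nat_lit 159)) (XT.nd (nat_lit 78) (nat_lit 0) (nat_lit 0) (XT.lf (nat_lit 0) (nat_lit 8582819515) (nat_lit 152) (nat_lit 9314382498) (nat_lit 76) (nat_lit 32150823006) (nat_lit 6)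 (nat_lit 5) (nat_lit 8) (nat_lit 5) (nat_lit 7) (nat_lit 4) (nat_lit 378) (nat_lit 244) (nat_lit 158)) (XT.lf (nat_lit 0) (nat_lit 11292875679) (nat_lit 152) (nat_lit 3879496502) (nat_lit 76) (nat_lit 36274872618) (nat_lit 6) (nat_lit 5) (nat_lit 8) (nat_lit 5) (nat_lit 7) (nat_lit 4) (nat_lit 379) (nat_lit 244) (nat_lit 157)))))) (XT.nd (nat_lit 390) (nat_lit 0) (nat_lit 0) (XT.nd (nat_lit 156) (nat_lit 0) (nat_lit 0) (XT.nd (nat_lit 78) (nat_lit 0) (nat_lit 0) (XT.lf (nat_lit 0) (nat_lit 1729874759) (nat_lit 76) (nat_lit 12358055880) (nat_lit 152) (nat_lit 38800412469) (nat_lit 5) (nat_lit 5) (nat_lit 6) (nat_lit 5) (nat_lit 7) (nat_lit 4) (nat_lit 380) (nat_lit 244) (nat_lit 156)) (XT.lf (nat_lit 0) (nat_lit 7564954431) (nat_lit 76) (nat_lit 9428290843) (nat_lit 152) (nat_lit 37378649327) (nat_lit 5) (nat_lit 5) (nat_lit 6) (nat_lit 5) (nat_lit 7) (nat_lit 4) (nat_lit 381) (nat_lit 244) (nat_lit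 155))) (XT.nd (nat_lit 78) (nat_lit 0) (nat_lit 0) (XT.lf (nat_lit 0) (nat_lit 13553631537) (nat_lit 76) (nat_lit 6419692389) (nat_lit 152) (nat_lit 35927012685) (nat_lit 5) (nat_lit 5) (nat_lit 6) (nat_lit 5) (nat_lit 7) (nat_lit 4) (nat_lit 382) (nat_lit 244) (nat_lit 154)) (XT.nd (nat_lit 78) (nat_lit 0) (nat_lit 0) (XT.lf (nat_lit 0) (nat_lit 19701138904) (nat_lit 76) (nat_lit 3329631647) (nat_lit 152) (nat_lit 34444234122) (nat_lit 5) (nat_lit 5) (nat_lit 6) (nat_lit 5) (nat_lit 7) (nat_lit 4) (nat_lit 383) (nat_lit 244) (nat_lit 153)) (XT.lf (nat_lit 0) (nat_lit 26012848139) (nat_lit 76) (nat_lit 155408564) (nat_lit 152) (nat_lit 32929018007) (nat_lit 5) (nat_lit 5) (nat_lit 6) (nat_lit 5) (nat_lit 7) (nat_lit 4) (nat_lit 384) (nat_lit 244) (nat_lit 152))))) (XT.nd (nat_lit 234) (nat_lit 0) (nat_lit 0) (XT.nd (nat_lit 78) (nat_lit 0) (nat_lit 0) (XT.lf (nat_lit 0) (nat_lit 29418378246)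 (nat_lit 152) (nat_lit 28304144283) (nat_lit 0) (nat_lit 3045146076) (nat_lit 5) (nat_lit 5) (nat_lit 7) (nat_lit 4) (nat_lit 5) (nat_lit 4) (nat_lit 385) (nat_lit 244) (nat_lit 151)) (XT.nd (nat_lit 78) (nat_lit 0) (nat_lit 0) (XT.lf (nat_lit 0) (nat_lit 32756451590) (nat_lit 152) (nat_lit 23401318455) (nat_lit 0) (nat_lit 6330701589) (nat_lit 5) (nat_lit 5) (nat_lit 7) (nat_lit 4) (nat_lit 5) (nat_lit 4) (nat_lit 386) (nat_lit 244) (nat_lit 150)) (XT.lf (nat_lit 0) (nat_lit 36183899614) (nat_lit 152) (nat_lit 18370171184) (nat_lit 0) (nat_lit 9707161429) (nat_lit 5) (nat_lit 5) (nat_lit 7) (nat_lit 4) (nat_lit 5) (nat_lit 4) (nat_lit 387) (nat_lit 244) (nat_lit 149)))) (XT.nd (nat_lit 78) (nat_lit 0) (nat_lit 0) (XT.lf (nat_lit 0) (nat_lit 39703717178) (nat_lit 152) (nat_lit 13206306320) (nat_lit 0) (nat_lit 13177475900) (nat_lit 5) (nat_lit 5) (nat_lit 7) (nat_lit 4) (nat_lit 5) (nat_lit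 4) (nat_lit 388) (nat_lit 244) (nat_lit 148)) (XT.nd (nat_lit 78) (nat_lit 0) (nat_lit 0) (XT.lf (nat_lit 0) (nat_lit 43318979848) (nat_lit 152) (nat_lit 7905211750) (nat_lit 0) (nat_lit 16744677315) (nat_lit 5) (nat_lit 5) (nat_lit 7) (nat_lit 4) (nat_lit 5) (nat_lit 4) (nat_lit 389) (nat_lit 244) (nat_lit 147)) (XT.lf (nat_lit 0) (nat_lit 47032846593) (nat_lit 152) (nat_lit 2462255448) (nat_lit 0) (nat_lit 20411882648) (nat_lit 5) (nat_lit 5) (nat_lit 7) (nat_lit 4) (nat_lit 5) (nat_lit 4) (nat_lit 390) (nat_lit 244) (nat_lit 146))))))) (XT.nd (nat_lit 32838) (nat_lit 0) (nat_lit 5700) (XT.nd (nat_lit 390) (nat_lit 0) (nat_lit 0) (XT.nd (nat_lit 156) (nat_lit 0) (nat_lit 0) (XT.nd (nat_lit 78) (nat_lit 0) (nat_lit 0) (XT.lf (nat_lit 0) (nat_lit 3189558336) (nat_lit 76) (nat_lit 47689664189) (nat_lit 76) (nat_lit 21023397902) (nat_lit 4) (nat_lit 4) (nat_lit 5) (nat_lit 5) (nat_lit 5) (nat_lit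 4) (nat_lit 391) (nat_lit 244) (nat_lit 145)) (XT.lf (nat_lit 0) (nat_lit 9044892823) (nat_lit 76) (nat_lit 45811514027) (nat_lit 76) (nat_lit 19101264884) (nat_lit 4) (nat_lit 4) (nat_lit 5) (nat_lit 5) (nat_lit 5) (nat_lit 4) (nat_lit 392) (nat_lit 244) (nat_lit 144))) (XT.nd (nat_lit 78) (nat_lit 0) (nat_lit 0) (XT.lf (nat_lit 0) (nat_lit 15059860611) (nat_lit 76) (nat_lit 43883874408) (nat_lit 76) (nat_lit 17130923462) (nat_lit 4) (nat_lit 4) (nat_lit 5) (nat_lit 5) (nat_lit 5) (nat_lit 4) (nat_lit 393) (nat_lit 244) (nat_lit 143)) (XT.nd (nat_lit 78) (nat_lit 0) (nat_lit 0) (XT.lf (nat_lit 0) (nat_lit 21239717496) (nat_lit 76) (nat_lit 41905060985) (nat_lit 76) (nat_lit 15110651979) (nat_lit 4) (nat_lit 4) (nat_lit 5) (nat_lit 5) (nat_lit 5) (nat_lit 4) (nat_lit 394) (nat_lit 244) (nat_lit 142)) (XT.lf (nat_lit 0) (nat_lit 27589863355) (nat_lit 76) (nat_lit 39873344699) (nat_lit 76) (nat_lit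 13038685148) (nat_lit 4) (nat_lit 4) (nat_lit 5) (nat_lit 5) (nat_lit 5) (nat_lit 4) (nat_lit 395) (nat_lit 244) (nat_lit 141))))) (XT.nd (nat_lit 234) (nat_lit 0) (nat_lit 0) (XT.nd (nat_lit 78) (nat_lit 0) (nat_lit 0) (XT.lf (nat_lit 0) (nat_lit 34115846858) (nat_lit 76) (nat_lit 37786950263) (nat_lit 76) (nat_lit 10913212514) (nat_lit 4) (nat_lit 4) (nat_lit 5) (nat_lit 5) (nat_lit 5) (nat_lit 4) (nat_lit 396) (nat_lit 244) (nat_lit 140)) (XT.nd (nat_lit 78) (nat_lit 0) (nat_lit 0) (XT.lf (nat_lit 0) (nat_lit 40823370322) (nat_lit 76) (nat_lit 35644054615) (nat_lit 76) (nat_lit 8732376868) (nat_lit 4) (nat_lit 4) (nat_lit 5) (nat_lit 5) (nat_lit 5) (nat_lit 4) (nat_lit 397) (nat_lit 244) (nat_lit 139)) (XT.lf (nat_lit 0) (nat_lit 47718294687) (nat_lit 76) (nat_lit 33442785321) (nat_lit 76) (nat_lit 6494272624) (nat_lit 4) (nat_lit 4) (nat_lit 5) (nat_lit 5) (nat_lit 5) (nat_lit 4) (nat_lit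 398) (nat_lit 244) (nat_lit 138)))) (XT.nd (nat_lit 78) (nat_lit 0) (nat_lit 0) (XT.lf (nat_lit 0) (nat_lit 54806644647) (nat_lit 76) (nat_lit 31181218942) (nat_lit 76) (nat_lit 4196944158) (nat_lit 4) (nat_lit 4) (nat_lit 5) (nat_lit 5) (nat_lit 5) (nat_lit 4) (nat_lit 399) (nat_lit 244) (nat_lit 137)) (XT.nd (nat_lit 32058) (nat_lit 0) (nat_lit 9044) (XT.lf (nat_lit 0) (nat_lit 62094613905) (nat_lit 76) (nat_lit 28857379352) (nat_lit 76) (nat_lit 1838384095) (nat_lit 4) (nat_lit 4) (nat_lit 5) (nat_lit 5) (nat_lit 5) (nat_lit 4) (nat_lit 400) (nat_lit 244) (nat_lit 136)) (XT.lf (nat_lit 0) (nat_lit 366811766) (nat_lit 608) (nat_lit 3048596064) (nat_lit 0) (nat_lit 366811766) (nat_lit 123) (nat_lit 5) (nat_lit 131) (nat_lit 4) (nat_lit 123) (nat_lit 4) (nat_lit 290) (nat_lit 245) (nat_lit 245)))))) (XT.nd (nat_lit 468) (nat_lit 1748) (nat_lit 0) (XT.nd (nat_lit 234) (nat_lit 532) (nat_lit 0)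 (XT.nd (nat_lit 78) (nat_lit 1064) (nat_lit 0) (XT.lf (nat_lit 0) (nat_lit 3760007714) (nat_lit 608) (nat_lit 1481789409) (nat_lit 0) (nat_lit 2403564877) (nat_lit 123) (nat_lit 5) (nat_lit 131) (nat_lit 4) (nat_lit 123) (nat_lit 4) (nat_lit 291) (nat_lit 245) (nat_lit 244)) (XT.nd (nat_lit 78) (nat_lit 532) (nat_lit 0) (XT.lf (nat_lit 0) (nat_lit 3242636397) (nat_lit 532) (nat_lit 3580669936) (nat_lit 532) (nat_lit 907292306) (nat_lit 116) (nat_lit 4) (nat_lit 123) (nat_lit 5) (nat_lit 123) (nat_lit 4) (nat_lit 292) (nat_lit 245) (nat_lit 243)) (XT.lf (nat_lit 0) (nat_lit 210683128) (nat_lit 456) (nat_lit 1839877574) (nat_lit 532) (nat_lit 5769485070) (nat_lit 109) (nat_lit 5) (nat_lit 115) (nat_lit 5) (nat_lit 116) (nat_lit 4) (nat_lit 293) (nat_lit 245) (nat_lit 242)))) (XT.nd (nat_lit 78) (nat_lit 532) (nat_lit 0) (XT.lf (nat_lit 0) (nat_lit 5040301535) (nat_lit 456) (nat_lit 877765) (nat_lit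 532) (nat_lit 2872106493) (nat_lit 109) (nat_lit 5) (nat_lit 115) (nat_lit 5) (nat_lit 116) (nat_lit 4) (nat_lit 294) (nat_lit 245) (nat_lit 241)) (XT.nd (nat_lit 78) (nat_lit 0) (nat_lit 0) (XT.lf (nat_lit 0) (nat_lit 65467368) (nat_lit 532) (nat_lit 6079212249) (nat_lit 76) (nat_lit 1866179912) (nat_lit 102) (nat_lit 5) (nat_lit 109) (nat_lit 5) (nat_lit 103) (nat_lit 4) (nat_lit 295) (nat_lit 245) (nat_lit 240)) (XT.lf (nat_lit 0) (nat_lit 2982562452) (nat_lit 532) (nat_lit 1293508749) (nat_lit 76) (nat_lit 3836188542) (nat_lit 102) (nat_lit 5) (nat_lit 109) (nat_lit 5) (nat_lit 103) (nat_lit 4) (nat_lit 296) (nat_lit 245) (nat_lit 239))))) (XT.nd (nat_lit 234) (nat_lit 836) (nat_lit 0) (XT.nd (nat_lit 78) (nat_lit 532) (nat_lit 0) (XT.lf (nat_lit 0) (nat_lit 3615445229) (nat_lit 380) (nat_lit 2328627634) (nat_lit 456) (nat_lit 2274141429) (nat_lit 97) (nat_lit 5) (nat_lit 102) (nat_lit 5)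 (nat_lit 103) (nat_lit 4) (nat_lit 297) (nat_lit 245) (nat_lit 238)) (XT.nd (nat_lit 78) (nat_lit 0) (nat_lit 0) (XT.lf (nat_lit 0) (nat_lit 278390958) (nat_lit 456) (nat_lit 314125690) (nat_lit 532) (nat_lit 7736691683) (nat_lit 90) (nat_lit 5) (nat_lit 96) (nat_lit 5) (nat_lit 97) (nat_lit 5) (nat_lit 298) (nat_lit 245) (nat_lit 237)) (XT.lf (nat_lit 0) (nat_lit 3487156480) (nat_lit 532) (nat_lit 3174870084) (nat_lit 76) (nat_lit 1781400223) (nat_lit 90) (nat_lit 5) (nat_lit 97) (nat_lit 5) (nat_lit 91) (nat_lit 4) (nat_lit 299) (nat_lit 245) (nat_lit 236)))) (XT.nd (nat_lit 78) (nat_lit 456) (nat_lit 0) (XT.lf (nat_lit 0) (nat_lit 1788695119) (nat_lit 380) (nat_lit 4626288143) (nat_lit 456) (nat_lit 2147893037) (nat_lit 85) (nat_lit 5) (nat_lit 90) (nat_lit 5) (nat_lit 91) (nat_lit 4) (nat_lit 300) (nat_lit 245) (nat_lit 235)) (XT.nd (nat_lit 78) (nat_lit 380) (nat_lit 0) (XT.lf (nat_lit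 0) (nat_lit 689012125) (nat_lit 456) (nat_lit 1817390101) (nat_lit 76) (nat_lit 6180711780) (nat_lit 84) (nat_lit 5) (nat_lit 90) (nat_lit 5) (nat_lit 85) (nat_lit 5) (nat_lit 301) (nat_lit 245) (nat_lit 234)) (XT.lf (nat_lit 0) (nat_lit 3241533875) (nat_lit 380) (nat_lit 286054079) (nat_lit 456) (nat_lit 5288239275) (nat_lit 79) (nat_lit 5) (nat_lit 84) (nat_lit 5) (nat_lit 85) (nat_lit 5) (nat_lit 302) (nat_lit 245) (nat_lit 233))))))))
noncomputable def xc70 : XT := (XT.nd (nat_lit 1716) (nat_lit 1444) (nat_lit 0) (XT.nd (nat_lit 858) (nat_lit 1292) (nat_lit 0) (XT.nd (nat_lit 390) (nat_lit 988) (nat_lit 0) (XT.nd (nat_lit 156) (nat_lit 684) (nat_lit 0) (XT.nd (nat_lit 78) (nat_lit 380) (nat_lit 0) (XT.lf (nat_lit 0) (nat_lit 6418732365) (nat_lit 456) (nat_lit 567587569) (nat_lit 76) (nat_lit 1963232772) (nat_lit 79) (nat_lit 5) (nat_lit 85) (nat_lit 5) (nat_lit 80) (nat_lit 4) (nat_lit 303)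 (nat_lit 245) (nat_lit 232)) (XT.lf (nat_lit 0) (nat_lit 281544635) (nat_lit 380) (nat_lit 4502012556) (nat_lit 76) (nat_lit 4304459027) (nat_lit 74) (nat_lit 5) (nat_lit 79) (nat_lit 5) (nat_lit 75) (nat_lit 5) (nat_lit 304) (nat_lit 245) (nat_lit 231))) (XT.nd (nat_lit 78) (nat_lit 304) (nat_lit 0) (XT.lf (nat_lit 0) (nat_lit 573612895) (nat_lit 380) (nat_lit 2497130464) (nat_lit 456) (nat_lit 6160997154) (nat_lit 69) (nat_lit 5) (nat_lit 74) (nat_lit 5) (nat_lit 75) (nat_lit 5) (nat_lit 305) (nat_lit 245) (nat_lit 230)) (XT.nd (nat_lit 78) (nat_lit 304) (nat_lit 0) (XT.lf (nat_lit 0) (nat_lit 5806813238) (nat_lit 380) (nat_lit 115437568) (nat_lit 456) (nat_lit 3458320633) (nat_lit 69) (nat_lit 5) (nat_lit 74) (nat_lit 5) (nat_lit 75) (nat_lit 5) (nat_lit 306) (nat_lit 245) (nat_lit 229)) (XT.lf (nat_lit 0) (nat_lit 1585249670) (nat_lit 304) (nat_lit 7246693315) (nat_lit 380) (nat_lit 702894523)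 (nat_lit 65) (nat_lit 5) (nat_lit 69) (nat_lit 5) (nat_lit 70) (nat_lit 4) (nat_lit 307) (nat_lit 245) (nat_lit 228))))) (XT.nd (nat_lit 234) (nat_lit 608) (nat_lit 0) (XT.nd (nat_lit 78) (nat_lit 304) (nat_lit 0) (XT.lf (nat_lit 0) (nat_lit 2066344336) (nat_lit 380) (nat_lit 2829326063) (nat_lit 76) (nat_lit 4798401784) (nat_lit 64) (nat_lit 5) (nat_lit 69) (nat_lit 5) (nat_lit 65) (nat_lit 5) (nat_lit 308) (nat_lit 245) (nat_lit 227)) (XT.nd (nat_lit 78) (nat_lit 0) (nat_lit 0) (XT.lf (nat_lit 0) (nat_lit 2400010844) (nat_lit 304) (nat_lit 2464706091) (nat_lit 380) (nat_lit 4994489383) (nat_lit 60) (nat_lit 5) (nat_lit 64) (nat_lit 5) (nat_lit 65) (nat_lit 5) (nat_lit 309) (nat_lit 245) (nat_lit 226)) (XT.lf (nat_lit 0) (nat_lit 7714204054) (nat_lit 380) (nat_lit 2270229063) (nat_lit 76) (nat_lit 45979203) (nat_lit 60) (nat_lit 5) (nat_lit 65) (nat_lit 5) (nat_lit 61) (nat_lit 4) (nat_lit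 310) (nat_lit 245) (nat_lit 225)))) (XT.nd (nat_lit 78) (nat_lit 304) (nat_lit 0) (XT.lf (nat_lit 0) (nat_lit 426828141) (nat_lit 304) (nat_lit 7185088167) (nat_lit 76) (nat_lit 2595044528) (nat_lit 56) (nat_lit 5) (nat_lit 60) (nat_lit 5) (nat_lit 57) (nat_lit 5) (nat_lit 311) (nat_lit 245) (nat_lit 224)) (XT.nd (nat_lit 78) (nat_lit 304) (nat_lit 0) (XT.lf (nat_lit 0) (nat_lit 3168751462) (nat_lit 304) (nat_lit 1975378280) (nat_lit 76) (nat_lit 5245215081) (nat_lit 56) (nat_lit 5) (nat_lit 60) (nat_lit 5) (nat_lit 57) (nat_lit 5) (nat_lit 312) (nat_lit 245) (nat_lit 223)) (XT.lf (nat_lit 0) (nat_lit 3375544942) (nat_lit 304) (nat_lit 2591580461) (nat_lit 380) (nat_lit 4610967078) (nat_lit 52) (nat_lit 5) (nat_lit 56) (nat_lit 5) (nat_lit 57) (nat_lit 5) (nat_lit 313) (nat_lit 245) (nat_lit 222)))))) (XT.nd (nat_lit 390) (nat_lit 760) (nat_lit 0) (XT.nd (nat_lit 156) (nat_lit 228) (nat_lit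 0) (XT.nd (nat_lit 78) (nat_lit 304) (nat_lit 0) (XT.lf (nat_lit 0) (nat_lit 8812408390) (nat_lit 380) (nat_lit 1926741733) (nat_lit 76) (nat_lit 34578214) (nat_lit 52) (nat_lit 5) (nat_lit 57) (nat_lit 5) (nat_lit 53) (nat_lit 4) (nat_lit 314) (nat_lit 245) (nat_lit 221)) (XT.lf (nat_lit 0) (nat_lit 755898997) (nat_lit 304) (nat_lit 7512656353) (nat_lit 76) (nat_lit 2706472470) (nat_lit 48) (nat_lit 5) (nat_lit 52) (nat_lit 5) (nat_lit 49) (nat_lit 5) (nat_lit 315) (nat_lit 245) (nat_lit 220))) (XT.nd (nat_lit 78) (nat_lit 228) (nat_lit 0) (XT.lf (nat_lit 0) (nat_lit 3479212324) (nat_lit 304) (nat_lit 2228560662) (nat_lit 76) (nat_lit 5475195569) (nat_lit 48) (nat_lit 5) (nat_lit 52) (nat_lit 5) (nat_lit 49) (nat_lit 5) (nat_lit 316) (nat_lit 245) (nat_lit 219)) (XT.nd (nat_lit 78) (nat_lit 0) (nat_lit 0) (XT.lf (nat_lit 0) (nat_lit 3198985714) (nat_lit 228) (nat_lit 3061960284) (nat_lit 304)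 (nat_lit 5137001618) (nat_lit 45) (nat_lit 5) (nat_lit 48) (nat_lit 5) (nat_lit 49) (nat_lit 5) (nat_lit 317) (nat_lit 245) (nat_lit 218)) (XT.lf (nat_lit 0) (nat_lit 8758305634) (nat_lit 228) (nat_lit 337136527) (nat_lit 304) (nat_lit 2524953347) (nat_lit 45) (nat_lit 5) (nat_lit 48) (nat_lit 5) (nat_lit 49) (nat_lit 5) (nat_lit 318) (nat_lit 245) (nat_lit 217))))) (XT.nd (nat_lit 234) (nat_lit 228) (nat_lit 0) (XT.nd (nat_lit 78) (nat_lit 228) (nat_lit 0) (XT.lf (nat_lit 0) (nat_lit 158830139) (nat_lit 304) (nat_lit 9265588106) (nat_lit 76) (nat_lit 2425245908) (nat_lit 41) (nat_lit 5) (nat_lit 45) (nat_lit 5) (nat_lit 42) (nat_lit 5) (nat_lit 319) (nat_lit 245) (nat_lit 216)) (XT.nd (nat_lit 78) (nat_lit 228) (nat_lit 0) (XT.lf (nat_lit 0) (nat_lit 2853230616) (nat_lit 304) (nat_lit 3937571545) (nat_lit 76) (nat_lit 5294923522) (nat_lit 41) (nat_lit 5) (nat_lit 45) (nat_lit 5) (nat_lit 42)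 (nat_lit 5) (nat_lit 320) (nat_lit 245) (nat_lit 215)) (XT.lf (nat_lit 0) (nat_lit 1505586243) (nat_lit 228) (nat_lit 4087181437) (nat_lit 304) (nat_lit 6737260002) (nat_lit 38) (nat_lit 5) (nat_lit 41) (nat_lit 5) (nat_lit 42) (nat_lit 5) (nat_lit 321) (nat_lit 245) (nat_lit 214)))) (XT.nd (nat_lit 78) (nat_lit 228) (nat_lit 0) (XT.lf (nat_lit 0) (nat_lit 7119402704) (nat_lit 228) (nat_lit 1285437958) (nat_lit 304) (nat_lit 4177192786) (nat_lit 38) (nat_lit 5) (nat_lit 41) (nat_lit 5) (nat_lit 42) (nat_lit 5) (nat_lit 322) (nat_lit 245) (nat_lit 213)) (XT.nd (nat_lit 78) (nat_lit 228) (nat_lit 0) (XT.lf (nat_lit 0) (nat_lit 11268463259) (nat_lit 304) (nat_lit 27863762) (nat_lit 76) (nat_lit 1546339463) (nat_lit 38) (nat_lit 5) (nat_lit 42) (nat_lit 5) (nat_lit 39) (nat_lit 4) (nat_lit 323) (nat_lit 245) (nat_lit 212)) (XT.lf (nat_lit 0) (nat_lit 1105120469) (nat_lit 228) (nat_lit 7525426337)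 (nat_lit 76) (nat_lit 4479735170) (nat_lit 35) (nat_lit 5) (nat_lit 38) (nat_lit 5) (nat_lit 36) (nat_lit 5) (nat_lit 324) (nat_lit 245) (nat_lit 211))))))) (XT.nd (nat_lit 858) (nat_lit 608) (nat_lit 0) (XT.nd (nat_lit 390) (nat_lit 380) (nat_lit 0) (XT.nd (nat_lit 156) (nat_lit 228) (nat_lit 0) (XT.nd (nat_lit 78) (nat_lit 228) (nat_lit 0) (XT.lf (nat_lit 0) (nat_lit 3786835572) (nat_lit 228) (nat_lit 2105694551) (nat_lit 76) (nat_lit 7494394376) (nat_lit 35) (nat_lit 5) (nat_lit 38) (nat_lit 5) (nat_lit 36) (nat_lit 5) (nat_lit 325) (nat_lit 245) (nat_lit 210)) (XT.lf (nat_lit 0) (nat_lit 3475798313) (nat_lit 228) (nat_lit 3061341012) (nat_lit 304) (nat_lit 7135156353) (nat_lit 32) (nat_lit 5) (nat_lit 35) (nat_lit 5) (nat_lit 36) (nat_lit 5) (nat_lit 326) (nat_lit 245) (nat_lit 209))) (XT.nd (nat_lit 78) (nat_lit 228) (nat_lit 0) (XT.lf (nat_lit 0) (nat_lit 9199917520) (nat_lit 228) (nat_lit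 146688930) (nat_lit 304) (nat_lit 4620393271) (nat_lit 32) (nat_lit 5) (nat_lit 35) (nat_lit 5) (nat_lit 36) (nat_lit 5) (nat_lit 327) (nat_lit 245) (nat_lit 208)) (XT.nd (nat_lit 78) (nat_lit 76) (nat_lit 0) (XT.lf (nat_lit 0) (nat_lit 745154734) (nat_lit 152) (nat_lit 11486285641) (nat_lit 228) (nat_lit 2039441303) (nat_lit 30) (nat_lit 5) (nat_lit 32) (nat_lit 5) (nat_lit 33) (nat_lit 4) (nat_lit 328) (nat_lit 245) (nat_lit 207)) (XT.lf (nat_lit 0) (nat_lit 613538601) (nat_lit 228) (nat_lit 8137259200) (nat_lit 76) (nat_lit 5832768789) (nat_lit 29) (nat_lit 5) (nat_lit 32) (nat_lit 5) (nat_lit 30) (nat_lit 5) (nat_lit 329) (nat_lit 245) (nat_lit 206))))) (XT.nd (nat_lit 234) (nat_lit 228) (nat_lit 0) (XT.nd (nat_lit 78) (nat_lit 152) (nat_lit 0) (XT.lf (nat_lit 0) (nat_lit 3262990887) (nat_lit 228) (nat_lit 2672790046) (nat_lit 76) (nat_lit 8970572529) (nat_lit 29) (nat_lit 5) (nat_lit 32)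 (nat_lit 5) (nat_lit 30) (nat_lit 5) (nat_lit 330) (nat_lit 245) (nat_lit 205)) (XT.nd (nat_lit 78) (nat_lit 0) (nat_lit 0) (XT.lf (nat_lit 0) (nat_lit 2949617311) (nat_lit 152) (nat_lit 3029763669) (nat_lit 228) (nat_lit 9259880885) (nat_lit 27) (nat_lit 5) (nat_lit 29) (nat_lit 5) (nat_lit 30) (nat_lit 5) (nat_lit 331) (nat_lit 245) (nat_lit 204)) (XT.lf (nat_lit 0) (nat_lit 8732556010) (nat_lit 152) (nat_lit 31383734) (nat_lit 228) (nat_lit 6818677226) (nat_lit 27) (nat_lit 5) (nat_lit 29) (nat_lit 5) (nat_lit 30) (nat_lit 5) (nat_lit 332) (nat_lit 245) (nat_lit 203)))) (XT.nd (nat_lit 78) (nat_lit 228) (nat_lit 0) (XT.lf (nat_lit 0) (nat_lit 11622070633) (nat_lit 228) (nat_lit 1338793739) (nat_lit 76) (nat_lit 2975765312) (nat_lit 27) (nat_lit 5) (nat_lit 30) (nat_lit 5) (nat_lit 28) (nat_lit 4) (nat_lit 333) (nat_lit 245) (nat_lit 202)) (XT.nd (nat_lit 78) (nat_lit 76) (nat_lit 0) (XT.lf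 (nat_lit 0) (nat_lit 4362315914) (nat_lit 152) (nat_lit 10207669739) (nat_lit 228) (nat_lit 1731212250) (nat_lit 25) (nat_lit 5) (nat_lit 27) (nat_lit 5) (nat_lit 28) (nat_lit 4) (nat_lit 334) (nat_lit 245) (nat_lit 201)) (XT.lf (nat_lit 0) (nat_lit 887055841) (nat_lit 228) (nat_lit 6483994125) (nat_lit 76) (nat_lit 9306171368) (nat_lit 24) (nat_lit 5) (nat_lit 27) (nat_lit 5) (nat_lit 25) (nat_lit 5) (nat_lit 335) (nat_lit 245) (nat_lit 200)))))) (XT.nd (nat_lit 468) (nat_lit 304) (nat_lit 0) (XT.nd (nat_lit 234) (nat_lit 152) (nat_lit 0) (XT.nd (nat_lit 78) (nat_lit 152) (nat_lit 0) (XT.lf (nat_lit 0) (nat_lit 3512094156) (nat_lit 228) (nat_lit 941366627) (nat_lit 76) (nat_lit 12611711477) (nat_lit 24) (nat_lit 5) (nat_lit 27) (nat_lit 5) (nat_lit 25) (nat_lit 5) (nat_lit 336) (nat_lit 245) (nat_lit 199)) (XT.nd (nat_lit 78) (nat_lit 0) (nat_lit 0) (XT.lf (nat_lit 0) (nat_lit 4804232937) (nat_lit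 152) (nat_lit 1421926892) (nat_lit 228) (nat_lit 11238343645) (nat_lit 22) (nat_lit 5) (nat_lit 24) (nat_lit 5) (nat_lit 25) (nat_lit 5) (nat_lit 337) (nat_lit 245) (nat_lit 198)) (XT.lf (nat_lit 0) (nat_lit 9011989240) (nat_lit 228) (nat_lit 7207875928) (nat_lit 76) (nat_lit 1656287795) (nat_lit 22) (nat_lit 5) (nat_lit 25) (nat_lit 5) (nat_lit 23) (nat_lit 4) (nat_lit 338) (nat_lit 245) (nat_lit 197)))) (XT.nd (nat_lit 78) (nat_lit 152) (nat_lit 0) (XT.lf (nat_lit 0) (nat_lit 11860903991) (nat_lit 228) (nat_lit 1661719213) (nat_lit 76) (nat_lit 4778190590) (nat_lit 22) (nat_lit 5) (nat_lit 25) (nat_lit 5) (nat_lit 23) (nat_lit 4) (nat_lit 339) (nat_lit 245) (nat_lit 196)) (XT.nd (nat_lit 78) (nat_lit 0) (nat_lit 0) (XT.lf (nat_lit 0) (nat_lit 4076256641) (nat_lit 152) (nat_lit 10724651828) (nat_lit 228) (nat_lit 3937183116) (nat_lit 20) (nat_lit 5) (nat_lit 22) (nat_lit 5) (nat_lit 23) (nat_lit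 4) (nat_lit 340) (nat_lit 245) (nat_lit 195)) (XT.lf (nat_lit 0) (nat_lit 9966857847) (nat_lit 152) (nat_lit 7845936640) (nat_lit 228) (nat_lit 1376227244) (nat_lit 20) (nat_lit 5) (nat_lit 22) (nat_lit 5) (nat_lit 23) (nat_lit 4) (nat_lit 341) (nat_lit 245) (nat_lit 194))))) (XT.nd (nat_lit 234) (nat_lit 76) (nat_lit 0) (XT.nd (nat_lit 78) (nat_lit 152) (nat_lit 0) (XT.lf (nat_lit 0) (nat_lit 1204444624) (nat_lit 228) (nat_lit 3684135213) (nat_lit 76) (nat_lit 14765552907) (nat_lit 19) (nat_lit 5) (nat_lit 22) (nat_lit 5) (nat_lit 20) (nat_lit 5) (nat_lit 342) (nat_lit 245) (nat_lit 193)) (XT.nd (nat_lit 78) (nat_lit 0) (nat_lit 0) (XT.lf (nat_lit 0) (nat_lit 1994150827) (nat_lit 152) (nat_lit 1828345321) (nat_lit 228) (nat_lit 16310704243) (nat_lit 17) (nat_lit 5) (nat_lit 19) (nat_lit 5) (nat_lit 20) (nat_lit 5) (nat_lit 343) (nat_lit 245) (nat_lit 192)) (XT.lf (nat_lit 0) (nat_lit 6538079478)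 (nat_lit 228) (nat_lit 12771763841) (nat_lit 76) (nat_lit 1316266549) (nat_lit 17) (nat_lit 5) (nat_lit 20) (nat_lit 5) (nat_lit 18) (nat_lit 4) (nat_lit 344) (nat_lit 245) (nat_lit 191)))) (XT.nd (nat_lit 78) (nat_lit 76) (nat_lit 0) (XT.lf (nat_lit 0) (nat_lit 9322839722) (nat_lit 228) (nat_lit 7311517254) (nat_lit 76) (nat_lit 4499856727) (nat_lit 17) (nat_lit 5) (nat_lit 20) (nat_lit 5) (nat_lit 18) (nat_lit 4) (nat_lit 345) (nat_lit 245) (nat_lit 190)) (XT.nd (nat_lit 78) (nat_lit 76) (nat_lit 0) (XT.lf (nat_lit 0) (nat_lit 12161634993) (nat_lit 228) (nat_lit 1735963542) (nat_lit 76) (nat_lit 7760884591) (nat_lit 17) (nat_lit 5) (nat_lit 20) (nat_lit 5) (nat_lit 18) (nat_lit 4) (nat_lit 346) (nat_lit 245) (nat_lit 189)) (XT.lf (nat_lit 0) (nat_lit 4038576308) (nat_lit 76) (nat_lit 11057190750) (nat_lit 152) (nat_lit 7102444542) (nat_lit 16) (nat_lit 5) (nat_lit 17) (nat_lit 5) (nat_lit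 18) (nat_lit 4) (nat_lit 347) (nat_lit 245) (nat_lit 188))))))))
noncomputable def xc71 : XT := (XT.nd (nat_lit 1794) (nat_lit 304) (nat_lit 0) (XT.nd (nat_lit 858) (nat_lit 304) (nat_lit 0) (XT.nd (nat_lit 390) (nat_lit 76) (nat_lit 0) (XT.nd (nat_lit 156) (nat_lit 228) (nat_lit 0) (XT.nd (nat_lit 78) (nat_lit 0) (nat_lit 0) (XT.lf (nat_lit 0) (nat_lit 9975311906) (nat_lit 76) (nat_lit 8131878896) (nat_lit 152) (nat_lit 4647298195) (nat_lit 16) (nat_lit 5) (nat_lit 17) (nat_lit 5) (nat_lit 18) (nat_lit 4) (nat_lit 348) (nat_lit 245) (nat_lit 187)) (XT.lf (nat_lit 0) (nat_lit 16044881612) (nat_lit 76) (nat_lit 5136636705) (nat_lit 152) (nat_lit 2146793648) (nat_lit 16) (nat_lit 5) (nat_lit 17) (nat_lit 5) (nat_lit 18) (nat_lit 4) (nat_lit 349) (nat_lit 245) (nat_lit 186))) (XT.nd (nat_lit 78) (nat_lit 152) (nat_lit 0) (XT.lf (nat_lit 0) (nat_lit 393424094) (nat_lit 152) (nat_lit 1671450067)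 (nat_lit 76) (nat_lit 21855192027) (nat_lit 15) (nat_lit 5) (nat_lit 17) (nat_lit 5) (nat_lit 16) (nat_lit 5) (nat_lit 350) (nat_lit 245) (nat_lit 185)) (XT.nd (nat_lit 78) (nat_lit 0) (nat_lit 0) (XT.lf (nat_lit 0) (nat_lit 2991203251) (nat_lit 228) (nat_lit 20414660230) (nat_lit 76) (nat_lit 1122367983) (nat_lit 13) (nat_lit 5) (nat_lit 16) (nat_lit 5) (nat_lit 14) (nat_lit 4) (nat_lit 351) (nat_lit 245) (nat_lit 184)) (XT.lf (nat_lit 0) (nat_lit 5678441074) (nat_lit 228) (nat_lit 15111778741) (nat_lit 76) (nat_lit 4364106405) (nat_lit 13) (nat_lit 5) (nat_lit 16) (nat_lit 5) (nat_lit 14) (nat_lit 4) (nat_lit 352) (nat_lit 245) (nat_lit 183))))) (XT.nd (nat_lit 234) (nat_lit 0) (nat_lit 0) (XT.nd (nat_lit 78) (nat_lit 76) (nat_lit 0) (XT.lf (nat_lit 0) (nat_lit 8421087789) (nat_lit 228) (nat_lit 9691983861) (nat_lit 76) (nat_lit 7686917813) (nat_lit 13) (nat_lit 5) (nat_lit 16) (nat_lit 5)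 (nat_lit 14) (nat_lit 4) (nat_lit 353) (nat_lit 245) (nat_lit 182)) (XT.nd (nat_lit 78) (nat_lit 76) (nat_lit 0) (XT.lf (nat_lit 0) (nat_lit 11221539885) (nat_lit 228) (nat_lit 4150539846) (nat_lit 76) (nat_lit 11093705634) (nat_lit 13) (nat_lit 5) (nat_lit 16) (nat_lit 5) (nat_lit 14) (nat_lit 4) (nat_lit 354) (nat_lit 245) (nat_lit 181)) (XT.lf (nat_lit 0) (nat_lit 1547594483) (nat_lit 76) (nat_lit 12549526300) (nat_lit 152) (nat_lit 13054728614) (nat_lit 12) (nat_lit 5) (nat_lit 13) (nat_lit 5) (nat_lit 14) (nat_lit 4) (nat_lit 355) (nat_lit 245) (nat_lit 180)))) (XT.nd (nat_lit 78) (nat_lit 0) (nat_lit 0) (XT.lf (nat_lit 0) (nat_lit 7462392420) (nat_lit 76) (nat_lit 9615041514) (nat_lit 152) (nat_lit 10780534373) (nat_lit 12) (nat_lit 5) (nat_lit 13) (nat_lit 5) (nat_lit 14) (nat_lit 4) (nat_lit 356) (nat_lit 245) (nat_lit 179)) (XT.nd (nat_lit 78) (nat_lit 0) (nat_lit 0) (XT.lf (nat_lit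 0) (nat_lit 13516418352) (nat_lit 76) (nat_lit 6607973576) (nat_lit 152) (nat_lit 8461587912) (nat_lit 12) (nat_lit 5) (nat_lit 13) (nat_lit 5) (nat_lit 14) (nat_lit 4) (nat_lit 357) (nat_lit 245) (nat_lit 178)) (XT.lf (nat_lit 0) (nat_lit 19714962206) (nat_lit 76) (nat_lit 3525694951) (nat_lit 152) (nat_lit 6095862967) (nat_lit 12) (nat_lit 5) (nat_lit 13) (nat_lit 5) (nat_lit 14) (nat_lit 4) (nat_lit 358) (nat_lit 245) (nat_lit 177)))))) (XT.nd (nat_lit 468) (nat_lit 76) (nat_lit 0) (XT.nd (nat_lit 234) (nat_lit 0) (nat_lit 0) (XT.nd (nat_lit 78) (nat_lit 228) (nat_lit 0) (XT.lf (nat_lit 0) (nat_lit 26063440184) (nat_lit 76) (nat_lit 365512385) (nat_lit 152) (nat_lit 3681292400) (nat_lit 12) (nat_lit 5) (nat_lit 13) (nat_lit 5) (nat_lit 14) (nat_lit 4) (nat_lit 359) (nat_lit 245) (nat_lit 176)) (XT.nd (nat_lit 78) (nat_lit 76) (nat_lit 0) (XT.lf (nat_lit 0) (nat_lit 1664408168) (nat_lit 152)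 (nat_lit 28071294678) (nat_lit 152) (nat_lit 1170818435) (nat_lit 10) (nat_lit 4) (nat_lit 12) (nat_lit 5) (nat_lit 12) (nat_lit 4) (nat_lit 360) (nat_lit 245) (nat_lit 175)) (XT.lf (nat_lit 0) (nat_lit 1411323516) (nat_lit 228) (nat_lit 24148748998) (nat_lit 76) (nat_lit 6165508905) (nat_lit 9) (nat_lit 5) (nat_lit 12) (nat_lit 5) (nat_lit 10) (nat_lit 4) (nat_lit 361) (nat_lit 245) (nat_lit 174)))) (XT.nd (nat_lit 78) (nat_lit 0) (nat_lit 0) (XT.lf (nat_lit 0) (nat_lit 4027083451) (nat_lit 228) (nat_lit 18948717006) (nat_lit 76) (nat_lit 9593696431) (nat_lit 9) (nat_lit 5) (nat_lit 12) (nat_lit 5) (nat_lit 10) (nat_lit 4) (nat_lit 362) (nat_lit 245) (nat_lit 173)) (XT.nd (nat_lit 78) (nat_lit 0) (nat_lit 0) (XT.lf (nat_lit 0) (nat_lit 6701593867) (nat_lit 228) (nat_lit 13626218797) (nat_lit 76) (nat_lit 13111530063) (nat_lit 9) (nat_lit 5) (nat_lit 12) (nat_lit 5) (nat_lit 10) (nat_lit 4)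 (nat_lit 363) (nat_lit 245) (nat_lit 172)) (XT.lf (nat_lit 0) (nat_lit 9437191717) (nat_lit 228) (nat_lit 8176603645) (nat_lit 76) (nat_lit 16722083635) (nat_lit 9) (nat_lit 5) (nat_lit 12) (nat_lit 5) (nat_lit 10) (nat_lit 4) (nat_lit 364) (nat_lit 245) (nat_lit 171))))) (XT.nd (nat_lit 234) (nat_lit 0) (nat_lit 0) (XT.nd (nat_lit 78) (nat_lit 76) (nat_lit 0) (XT.lf (nat_lit 0) (nat_lit 12236267327) (nat_lit 228) (nat_lit 2595109751) (nat_lit 76) (nat_lit 20428512001) (nat_lit 9) (nat_lit 5) (nat_lit 12) (nat_lit 5) (nat_lit 10) (nat_lit 4) (nat_lit 365) (nat_lit 245) (nat_lit 170)) (XT.nd (nat_lit 78) (nat_lit 0) (nat_lit 0) (XT.lf (nat_lit 0) (nat_lit 3185296528) (nat_lit 76) (nat_lit 11946588983) (nat_lit 152) (nat_lit 21079376277) (nat_lit 8) (nat_lit 5) (nat_lit 9) (nat_lit 5) (nat_lit 10) (nat_lit 4) (nat_lit 366) (nat_lit 245) (nat_lit 169)) (XT.lf (nat_lit 0) (nat_lit 9161924034) (nat_lit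 76) (nat_lit 8960838596) (nat_lit 152) (nat_lit 19068180207) (nat_lit 8) (nat_lit 5) (nat_lit 9) (nat_lit 5) (nat_lit 10) (nat_lit 4) (nat_lit 367) (nat_lit 245) (nat_lit 168)))) (XT.nd (nat_lit 78) (nat_lit 0) (nat_lit 0) (XT.lf (nat_lit 0) (nat_lit 15288347290) (nat_lit 76) (nat_lit 5897722527) (nat_lit 152) (nat_lit 17014481706) (nat_lit 8) (nat_lit 5) (nat_lit 9) (nat_lit 5) (nat_lit 10) (nat_lit 4) (nat_lit 368) (nat_lit 245) (nat_lit 167)) (XT.nd (nat_lit 78) (nat_lit 0) (nat_lit 0) (XT.lf (nat_lit 0) (nat_lit 21569919481) (nat_lit 76) (nat_lit 2754564268) (nat_lit 152) (nat_lit 14916486281) (nat_lit 8) (nat_lit 5) (nat_lit 9) (nat_lit 5) (nat_lit 10) (nat_lit 4) (nat_lit 369) (nat_lit 245) (nat_lit 166)) (XT.lf (nat_lit 0) (nat_lit 27545277948) (nat_lit 152) (nat_lit 12305509320) (nat_lit 0) (nat_lit 462184256) (nat_lit 8) (nat_lit 5) (nat_lit 10) (nat_lit 4) (nat_lit 8) (nat_lit 4) (nat_lit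 370) (nat_lit 245) (nat_lit 165))))))) (XT.nd (nat_lit 858) (nat_lit 76) (nat_lit 0) (XT.nd (nat_lit 390) (nat_lit 152) (nat_lit 0) (XT.nd (nat_lit 156) (nat_lit 76) (nat_lit 0) (XT.nd (nat_lit 78) (nat_lit 0) (nat_lit 0) (XT.lf (nat_lit 0) (nat_lit 30874032991) (nat_lit 152) (nat_lit 6833658499) (nat_lit 0) (nat_lit 3709118229) (nat_lit 8) (nat_lit 5) (nat_lit 10) (nat_lit 4) (nat_lit 8) (nat_lit 4) (nat_lit 371) (nat_lit 245) (nat_lit 164)) (XT.lf (nat_lit 0) (nat_lit 34287178940) (nat_lit 152) (nat_lit 1224238299) (nat_lit 0) (nat_lit 7042826248) (nat_lit 8) (nat_lit 5) (nat_lit 10) (nat_lit 4) (nat_lit 8) (nat_lit 4) (nat_lit 372) (nat_lit 245) (nat_lit 163))) (XT.nd (nat_lit 78) (nat_lit 0) (nat_lit 0) (XT.lf (nat_lit 0) (nat_lit 4617761878) (nat_lit 76) (nat_lit 33214325031) (nat_lit 76) (nat_lit 5892848133) (nat_lit 7) (nat_lit 4) (nat_lit 8) (nat_lit 5) (nat_lit 8) (nat_lit 4) (nat_lit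 373) (nat_lit 245) (nat_lit 162)) (XT.nd (nat_lit 78) (nat_lit 0) (nat_lit 0) (XT.lf (nat_lit 0) (nat_lit 10634559011) (nat_lit 76) (nat_lit 30846316224) (nat_lit 76) (nat_lit 3449961458) (nat_lit 7) (nat_lit 4) (nat_lit 8) (nat_lit 5) (nat_lit 8) (nat_lit 4) (nat_lit 374) (nat_lit 245) (nat_lit 161)) (XT.lf (nat_lit 0) (nat_lit 16807045751) (nat_lit 76) (nat_lit 28417684092) (nat_lit 76) (nat_lit 948632366) (nat_lit 7) (nat_lit 4) (nat_lit 8) (nat_lit 5) (nat_lit 8) (nat_lit 4) (nat_lit 375) (nat_lit 245) (nat_lit 160))))) (XT.nd (nat_lit 234) (nat_lit 76) (nat_lit 0) (XT.nd (nat_lit 78) (nat_lit 0) (nat_lit 0) (XT.lf (nat_lit 0) (nat_lit 1581842991) (nat_lit 152) (nat_lit 24328490026) (nat_lit 76) (nat_lit 21542799029) (nat_lit 6) (nat_lit 5) (nat_lit 8) (nat_lit 5) (nat_lit 7) (nat_lit 4) (nat_lit 376) (nat_lit 245) (nat_lit 159)) (XT.nd (nat_lit 78) (nat_lit 0) (nat_lit 0) (XT.lf (nat_lit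 0) (nat_lit 4155447007) (nat_lit 152) (nat_lit 19172597731) (nat_lit 76) (nat_lit 25443393670) (nat_lit 6) (nat_lit 5) (nat_lit 8) (nat_lit 5) (nat_lit 7) (nat_lit 4) (nat_lit 377) (nat_lit 245) (nat_lit 158)) (XT.lf (nat_lit 0) (nat_lit 6792939695) (nat_lit 152) (nat_lit 13885015591) (nat_lit 76) (nat_lit 29451751492) (nat_lit 6) (nat_lit 5) (nat_lit 8) (nat_lit 5) (nat_lit 7) (nat_lit 4) (nat_lit 378) (nat_lit 245) (nat_lit 157)))) (XT.nd (nat_lit 78) (nat_lit 76) (nat_lit 0) (XT.lf (nat_lit 0) (nat_lit 9496625660) (nat_lit 152) (nat_lit 8461123388) (nat_lit 76) (nat_lit 33571374945) (nat_lit 6) (nat_lit 5) (nat_lit 8) (nat_lit 5) (nat_lit 7) (nat_lit 4) (nat_lit 379) (nat_lit 245) (nat_lit 156)) (XT.nd (nat_lit 78) (nat_lit 76) (nat_lit 0) (XT.lf (nat_lit 0) (nat_lit 12268867347) (nat_lit 152) (nat_lit 2896181800) (nat_lit 76) (nat_lit 37805863699) (nat_lit 6) (nat_lit 5) (nat_lit 8) (nat_lit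 5) (nat_lit 7) (nat_lit 4) (nat_lit 380) (nat_lit 245) (nat_lit 155)) (XT.lf (nat_lit 0) (nat_lit 2870689231) (nat_lit 76) (nat_lit 12268992693) (nat_lit 152) (nat_lit 39315823383) (nat_lit 5) (nat_lit 5) (nat_lit 6) (nat_lit 5) (nat_lit 7) (nat_lit 4) (nat_lit 381) (nat_lit 245) (nat_lit 154)))))) (XT.nd (nat_lit 468) (nat_lit 76) (nat_lit 0) (XT.nd (nat_lit 234) (nat_lit 0) (nat_lit 0) (XT.nd (nat_lit 78) (nat_lit 0) (nat_lit 0) (XT.lf (nat_lit 0) (nat_lit 8849105227) (nat_lit 76) (nat_lit 9264727080) (nat_lit 152) (nat_lit 37870298651) (nat_lit 5) (nat_lit 5) (nat_lit 6) (nat_lit 5) (nat_lit 7) (nat_lit 4) (nat_lit 382) (nat_lit 245) (nat_lit 153)) (XT.nd (nat_lit 78) (nat_lit 0) (nat_lit 0) (XT.lf (nat_lit 0) (nat_lit 14986650351) (nat_lit 76) (nat_lit 6178872978) (nat_lit 152) (nat_lit 36393453982) (nat_lit 5) (nat_lit 5) (nat_lit 6) (nat_lit 5) (nat_lit 7) (nat_lit 4) (nat_lit 383) (nat_lit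 245) (nat_lit 152)) (XT.lf (nat_lit 0) (nat_lit 21288687505) (nat_lit 76) (nat_lit 3008734012) (nat_lit 152) (nat_lit 34883998929) (nat_lit 5) (nat_lit 5) (nat_lit 6) (nat_lit 5) (nat_lit 7) (nat_lit 4) (nat_lit 384) (nat_lit 245) (nat_lit 151)))) (XT.nd (nat_lit 78) (nat_lit 0) (nat_lit 0) (XT.lf (nat_lit 0) (nat_lit 27514651829) (nat_lit 152) (nat_lit 33094543053) (nat_lit 0) (nat_lit 243611497) (nat_lit 5) (nat_lit 5) (nat_lit 7) (nat_lit 4) (nat_lit 5) (nat_lit 4) (nat_lit 385) (nat_lit 245) (nat_lit 150)) (XT.nd (nat_lit 78) (nat_lit 0) (nat_lit 0) (XT.lf (nat_lit 0) (nat_lit 30847420976) (nat_lit 152) (nat_lit 28200960246) (nat_lit 0) (nat_lit 3525392459) (nat_lit 5) (nat_lit 5) (nat_lit 7) (nat_lit 4) (nat_lit 5) (nat_lit 4) (nat_lit 386) (nat_lit 245) (nat_lit 149)) (XT.lf (nat_lit 0) (nat_lit 34269719295) (nat_lit 152) (nat_lit 23178786781) (nat_lit 0) (nat_lit 6898187686) (nat_lit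 5) (nat_lit 5) (nat_lit 7) (nat_lit 4) (nat_lit 5) (nat_lit 4) (nat_lit 387) (nat_lit 245) (nat_lit 148))))) (XT.nd (nat_lit 234) (nat_lit 76) (nat_lit 0) (XT.nd (nat_lit 78) (nat_lit 0) (nat_lit 0) (XT.lf (nat_lit 0) (nat_lit 37784537144) (nat_lit 152) (nat_lit 18023634350) (nat_lit 0) (nat_lit 10364944280) (nat_lit 5) (nat_lit 5) (nat_lit 7) (nat_lit 4) (nat_lit 5) (nat_lit 4) (nat_lit 388) (nat_lit 245) (nat_lit 147)) (XT.nd (nat_lit 78) (nat_lit 0) (nat_lit 0) (XT.lf (nat_lit 0) (nat_lit 41394945723) (nat_lit 152) (nat_lit 12730998453) (nat_lit 0) (nat_lit 13928691447) (nat_lit 5) (nat_lit 5) (nat_lit 7) (nat_lit 4) (nat_lit 5) (nat_lit 4) (nat_lit 389) (nat_lit 245) (nat_lit 146)) (XT.lf (nat_lit 0) (nat_lit 45104099758) (nat_lit 152) (nat_lit 7296254455) (nat_lit 0) (nat_lit 17592543140) (nat_lit 5) (nat_lit 5) (nat_lit 7) (nat_lit 4) (nat_lit 5) (nat_lit 4) (nat_lit 390) (nat_lit 245)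 (nat_lit 145)))) (XT.nd (nat_lit 78) (nat_lit 76) (nat_lit 0) (XT.lf (nat_lit 0) (nat_lit 48915240258) (nat_lit 152) (nat_lit 1714653551) (nat_lit 0) (nat_lit 21359700784) (nat_lit 5) (nat_lit 5) (nat_lit 7) (nat_lit 4) (nat_lit 5) (nat_lit 4) (nat_lit 391) (nat_lit 245) (nat_lit 144)) (XT.nd (nat_lit 78) (nat_lit 0) (nat_lit 0) (XT.lf (nat_lit 0) (nat_lit 4098661024) (nat_lit 76) (nat_lit 48772435157) (nat_lit 76) (nat_lit 21174193880) (nat_lit 4) (nat_lit 4) (nat_lit 5) (nat_lit 5) (nat_lit 5) (nat_lit 4) (nat_lit 392) (nat_lit 245) (nat_lit 143)) (XT.lf (nat_lit 0) (nat_lit 10105963819) (nat_lit 76) (nat_lit 46848074053) (nat_lit 76) (nat_lit 19208374715) (nat_lit 4) (nat_lit 4) (nat_lit 5) (nat_lit 5) (nat_lit 5) (nat_lit 4) (nat_lit 393) (nat_lit 245) (nat_lit 142))))))))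
noncomputable def xc72 : XT := (XT.nd (nat_lit 33540) (nat_lit 0) (nat_lit 2356) (XT.nd (nat_lit 32682) (nat_lit 0) (nat_lit 5700) (XT.nd (nat_lit 390) (nat_lit 0) (nat_lit 0) (XT.nd (nat_lit 156) (nat_lit 0) (nat_lit 0) (XT.nd (nat_lit 78) (nat_lit 0) (nat_lit 0) (XT.lf (nat_lit 0) (nat_lit 16278378964) (nat_lit 76) (nat_lit 44872443654) (nat_lit 76) (nat_lit 17192493773) (nat_lit 4) (nat_lit 4) (nat_lit 5) (nat_lit 5) (nat_lit 5) (nat_lit 4) (nat_lit 394) (nat_lit 245) (nat_lit 141)) (XT.lf (nat_lit 0) (nat_lit 22621299832) (nat_lit 76) (nat_lit 42843817683) (nat_lit 76) (nat_lit 15124789603) (nat_lit 4) (nat_lit 4) (nat_lit 5) (nat_lit 5) (nat_lit 5) (nat_lit 4) (nat_lit 395) (nat_lit 245) (nat_lit 140))) (XT.nd (nat_lit 78) (nat_lit 0) (nat_lit 0) (XT.lf (nat_lit 0) (nat_lit 29140268781) (nat_lit 76) (nat_lit 40760423553) (nat_lit 76) (nat_lit 13003455475) (nat_lit 4) (nat_lit 4) (nat_lit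 5) (nat_lit 5) (nat_lit 5) (nat_lit 4) (nat_lit 396) (nat_lit 245) (nat_lit 139)) (XT.nd (nat_lit 78) (nat_lit 0) (nat_lit 0) (XT.lf (nat_lit 0) (nat_lit 35840981998) (nat_lit 76) (nat_lit 38620440822) (nat_lit 76) (nat_lit 10826637795) (nat_lit 4) (nat_lit 4) (nat_lit 5) (nat_lit 5) (nat_lit 5) (nat_lit 4) (nat_lit 397) (nat_lit 245) (nat_lit 138)) (XT.lf (nat_lit 0) (nat_lit 42729294473) (nat_lit 76) (nat_lit 36421999604) (nat_lit 76) (nat_lit 8592434489) (nat_lit 4) (nat_lit 4) (nat_lit 5) (nat_lit 5) (nat_lit 5) (nat_lit 4) (nat_lit 398) (nat_lit 245) (nat_lit 137))))) (XT.nd (nat_lit 32058) (nat_lit 0) (nat_lit 9044) (XT.nd (nat_lit 78) (nat_lit 0) (nat_lit 0) (XT.lf (nat_lit 0) (nat_lit 49811225122) (nat_lit 76) (nat_lit 34163178930) (nat_lit 76) (nat_lit 6298893342) (nat_lit 4) (nat_lit 4) (nat_lit 5) (nat_lit 5) (nat_lit 5) (nat_lit 4) (nat_lit 399) (nat_lit 245) (nat_lit 136)) (XT.nd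 (nat_lit 31902) (nat_lit 0) (nat_lit 10260) (XT.lf (nat_lit 0) (nat_lit 57092962040) (nat_lit 76) (nat_lit 31842005072) (nat_lit 76) (nat_lit 3944010287) (nat_lit 4) (nat_lit 4) (nat_lit 5) (nat_lit 5) (nat_lit 5) (nat_lit 4) (nat_lit 400) (nat_lit 245) (nat_lit 135)) (XT.lf (nat_lit 0) (nat_lit 1790792738) (nat_lit 1140) (nat_lit 124427919) (nat_lit 0) (nat_lit 1790792738) (nat_lit 139) (nat_lit 5) (nat_lit 154) (nat_lit 4) (nat_lit 139) (nat_lit 4) (nat_lit 288) (nat_lit 246) (nat_lit 246)))) (XT.nd (nat_lit 78) (nat_lit 608) (nat_lit 0) (XT.lf (nat_lit 0) (nat_lit 4335862371) (nat_lit 608) (nat_lit 2295018920) (nat_lit 608) (nat_lit 855968715) (nat_lit 131) (nat_lit 4) (nat_lit 139) (nat_lit 5) (nat_lit 139) (nat_lit 4) (nat_lit 289) (nat_lit 246) (nat_lit 245)) (XT.nd (nat_lit 78) (nat_lit 0) (nat_lit 0) (XT.lf (nat_lit 0) (nat_lit 1414911198) (nat_lit 532) (nat_lit 679225513) (nat_lit 608)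 (nat_lit 5471538084) (nat_lit 123) (nat_lit 5) (nat_lit 130) (nat_lit 5) (nat_lit 131) (nat_lit 4) (nat_lit 290) (nat_lit 246) (nat_lit 244)) (XT.lf (nat_lit 0) (nat_lit 5072096543) (nat_lit 608) (nat_lit 1574503920) (nat_lit 0) (nat_lit 1001582792) (nat_lit 123) (nat_lit 5) (nat_lit 131) (nat_lit 4) (nat_lit 123) (nat_lit 4) (nat_lit 291) (nat_lit 246) (nat_lit 243)))))) (XT.nd (nat_lit 390) (nat_lit 1748) (nat_lit 0) (XT.nd (nat_lit 156) (nat_lit 532) (nat_lit 0) (XT.nd (nat_lit 78) (nat_lit 456) (nat_lit 0) (XT.lf (nat_lit 0) (nat_lit 351570062) (nat_lit 608) (nat_lit 4635403993) (nat_lit 76) (nat_lit 2747732048) (nat_lit 115) (nat_lit 5) (nat_lit 123) (nat_lit 5) (nat_lit 116) (nat_lit 4) (nat_lit 292) (nat_lit 246) (nat_lit 242)) (XT.lf (nat_lit 0) (nat_lit 5686222) (nat_lit 456) (nat_lit 3243631408) (nat_lit 532) (nat_lit 4575967634) (nat_lit 109) (nat_lit 5) (nat_lit 115) (nat_lit 5)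 (nat_lit 116) (nat_lit 4) (nat_lit 293) (nat_lit 246) (nat_lit 241))) (XT.nd (nat_lit 78) (nat_lit 532) (nat_lit 0) (XT.lf (nat_lit 0) (nat_lit 4790910695) (nat_lit 456) (nat_lit 1409346031) (nat_lit 532) (nat_lit 1719577047) (nat_lit 109) (nat_lit 5) (nat_lit 115) (nat_lit 5) (nat_lit 116) (nat_lit 4) (nat_lit 294) (nat_lit 246) (nat_lit 240)) (XT.nd (nat_lit 78) (nat_lit 0) (nat_lit 0) (XT.lf (nat_lit 0) (nat_lit 1139932752) (nat_lit 532) (nat_lit 6390489877) (nat_lit 76) (nat_lit 488431058) (nat_lit 102) (nat_lit 5) (nat_lit 109) (nat_lit 5) (nat_lit 103) (nat_lit 4) (nat_lit 295) (nat_lit 246) (nat_lit 239)) (XT.lf (nat_lit 0) (nat_lit 4018677395) (nat_lit 532) (nat_lit 1649550409) (nat_lit 76) (nat_lit 2453284691) (nat_lit 102) (nat_lit 5) (nat_lit 109) (nat_lit 5) (nat_lit 103) (nat_lit 4) (nat_lit 296) (nat_lit 246) (nat_lit 238))))) (XT.nd (nat_lit 234) (nat_lit 836) (nat_lit 0) (XT.nd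 (nat_lit 78) (nat_lit 532) (nat_lit 0) (XT.lf (nat_lit 0) (nat_lit 3207992473) (nat_lit 380) (nat_lit 3731045209) (nat_lit 456) (nat_lit 1289768797) (nat_lit 97) (nat_lit 5) (nat_lit 102) (nat_lit 5) (nat_lit 103) (nat_lit 4) (nat_lit 297) (nat_lit 246) (nat_lit 237)) (XT.nd (nat_lit 78) (nat_lit 456) (nat_lit 0) (XT.lf (nat_lit 0) (nat_lit 1517980027) (nat_lit 456) (nat_lit 198418699) (nat_lit 76) (nat_lit 6624407846) (nat_lit 96) (nat_lit 5) (nat_lit 102) (nat_lit 5) (nat_lit 97) (nat_lit 5) (nat_lit 298) (nat_lit 246) (nat_lit 236)) (XT.lf (nat_lit 0) (nat_lit 4360744072) (nat_lit 532) (nat_lit 3698345232) (nat_lit 76) (nat_lit 397588026) (nat_lit 90) (nat_lit 5) (nat_lit 97) (nat_lit 5) (nat_lit 91) (nat_lit 4) (nat_lit 299) (nat_lit 246) (nat_lit 235)))) (XT.nd (nat_lit 78) (nat_lit 456) (nat_lit 0) (XT.lf (nat_lit 0) (nat_lit 1210679905) (nat_lit 380) (nat_lit 6036964093) (nat_lit 456)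 (nat_lit 1329803880) (nat_lit 85) (nat_lit 5) (nat_lit 90) (nat_lit 5) (nat_lit 91) (nat_lit 4) (nat_lit 300) (nat_lit 246) (nat_lit 234)) (XT.nd (nat_lit 78) (nat_lit 380) (nat_lit 0) (XT.lf (nat_lit 0) (nat_lit 1455952405) (nat_lit 456) (nat_lit 2461465778) (nat_lit 76) (nat_lit 4785174911) (nat_lit 84) (nat_lit 5) (nat_lit 90) (nat_lit 5) (nat_lit 85) (nat_lit 5) (nat_lit 301) (nat_lit 246) (nat_lit 233)) (XT.lf (nat_lit 0) (nat_lit 2541442613) (nat_lit 380) (nat_lit 1712195709) (nat_lit 456) (nat_lit 4578980010) (nat_lit 79) (nat_lit 5) (nat_lit 84) (nat_lit 5) (nat_lit 85) (nat_lit 5) (nat_lit 302) (nat_lit 246) (nat_lit 232))))))) (XT.nd (nat_lit 858) (nat_lit 1292) (nat_lit 0) (XT.nd (nat_lit 390) (nat_lit 988) (nat_lit 0) (XT.nd (nat_lit 156) (nat_lit 684) (nat_lit 0) (XT.nd (nat_lit 78) (nat_lit 380) (nat_lit 0) (XT.lf (nat_lit 0) (nat_lit 7097424933) (nat_lit 456) (nat_lit 1313709455)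 (nat_lit 76) (nat_lit 556712990) (nat_lit 79) (nat_lit 5) (nat_lit 85) (nat_lit 5) (nat_lit 80) (nat_lit 4) (nat_lit 303) (nat_lit 246) (nat_lit 231)) (XT.lf (nat_lit 0) (nat_lit 888184500) (nat_lit 380) (nat_lit 5331045452) (nat_lit 76) (nat_lit 2888194711) (nat_lit 74) (nat_lit 5) (nat_lit 79) (nat_lit 5) (nat_lit 75) (nat_lit 5) (nat_lit 304) (nat_lit 246) (nat_lit 230))) (XT.nd (nat_lit 78) (nat_lit 684) (nat_lit 0) (XT.lf (nat_lit 0) (nat_lit 3639360624) (nat_lit 380) (nat_lit 308624785) (nat_lit 76) (nat_lit 5304380033) (nat_lit 74) (nat_lit 5) (nat_lit 79) (nat_lit 5) (nat_lit 75) (nat_lit 5) (nat_lit 305) (nat_lit 246) (nat_lit 229)) (XT.nd (nat_lit 78) (nat_lit 304) (nat_lit 0) (XT.lf (nat_lit 0) (nat_lit 4876833664) (nat_lit 380) (nat_lit 1579046963) (nat_lit 456) (nat_lit 2946438960) (nat_lit 69) (nat_lit 5) (nat_lit 74) (nat_lit 5) (nat_lit 75) (nat_lit 5) (nat_lit 306) (nat_lit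 246) (nat_lit 228)) (XT.lf (nat_lit 0) (nat_lit 586807408) (nat_lit 304) (nat_lit 8723977917) (nat_lit 380) (nat_lit 247515409) (nat_lit 65) (nat_lit 5) (nat_lit 69) (nat_lit 5) (nat_lit 70) (nat_lit 4) (nat_lit 307) (nat_lit 246) (nat_lit 227))))) (XT.nd (nat_lit 234) (nat_lit 608) (nat_lit 0) (XT.nd (nat_lit 78) (nat_lit 304) (nat_lit 0) (XT.lf (nat_lit 0) (nat_lit 2481858884) (nat_lit 380) (nat_lit 3897188355) (nat_lit 76) (nat_lit 3339353555) (nat_lit 64) (nat_lit 5) (nat_lit 69) (nat_lit 5) (nat_lit 65) (nat_lit 5) (nat_lit 308) (nat_lit 246) (nat_lit 226)) (XT.nd (nat_lit 78) (nat_lit 0) (nat_lit 0) (XT.lf (nat_lit 0) (nat_lit 1269724219) (nat_lit 304) (nat_lit 3969566064) (nat_lit 380) (nat_lit 4645538272) (nat_lit 60) (nat_lit 5) (nat_lit 64) (nat_lit 5) (nat_lit 65) (nat_lit 5) (nat_lit 309) (nat_lit 246) (nat_lit 225)) (XT.lf (nat_lit 0) (nat_lit 6590388331) (nat_lit 304) (nat_lit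 1468353864) (nat_lit 380) (nat_lit 1998256904) (nat_lit 60) (nat_lit 5) (nat_lit 64) (nat_lit 5) (nat_lit 65) (nat_lit 5) (nat_lit 310) (nat_lit 246) (nat_lit 224)))) (XT.nd (nat_lit 78) (nat_lit 304) (nat_lit 0) (XT.lf (nat_lit 0) (nat_lit 683057153) (nat_lit 304) (nat_lit 8462115996) (nat_lit 76) (nat_lit 1090008155) (nat_lit 56) (nat_lit 5) (nat_lit 60) (nat_lit 5) (nat_lit 57) (nat_lit 5) (nat_lit 311) (nat_lit 246) (nat_lit 223)) (XT.nd (nat_lit 78) (nat_lit 304) (nat_lit 0) (XT.lf (nat_lit 0) (nat_lit 3396283488) (nat_lit 304) (nat_lit 3292281479) (nat_lit 76) (nat_lit 3729919332) (nat_lit 56) (nat_lit 5) (nat_lit 60) (nat_lit 5) (nat_lit 57) (nat_lit 5) (nat_lit 312) (nat_lit 246) (nat_lit 222)) (XT.lf (nat_lit 0) (nat_lit 1992948352) (nat_lit 304) (nat_lit 4160557560) (nat_lit 380) (nat_lit 4455016995) (nat_lit 52) (nat_lit 5) (nat_lit 56) (nat_lit 5) (nat_lit 57) (nat_lit 5) (nat_lit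 313) (nat_lit 246) (nat_lit 221)))))) (XT.nd (nat_lit 468) (nat_lit 456) (nat_lit 0) (XT.nd (nat_lit 234) (nat_lit 532) (nat_lit 0) (XT.nd (nat_lit 78) (nat_lit 304) (nat_lit 0) (XT.lf (nat_lit 0) (nat_lit 7426404785) (nat_lit 304) (nat_lit 1544626957) (nat_lit 380) (nat_lit 1834014500) (nat_lit 52) (nat_lit 5) (nat_lit 56) (nat_lit 5) (nat_lit 57) (nat_lit 5) (nat_lit 314) (nat_lit 246) (nat_lit 220)) (XT.nd (nat_lit 78) (nat_lit 0) (nat_lit 0) (XT.lf (nat_lit 0) (nat_lit 824083049) (nat_lit 304) (nat_lit 9050752159) (nat_lit 76) (nat_lit 1133224542) (nat_lit 48) (nat_lit 5) (nat_lit 52) (nat_lit 5) (nat_lit 49) (nat_lit 5) (nat_lit 315) (nat_lit 246) (nat_lit 219)) (XT.lf (nat_lit 0) (nat_lit 3520780780) (nat_lit 304) (nat_lit 3804831797) (nat_lit 76) (nat_lit 3891236490) (nat_lit 48) (nat_lit 5) (nat_lit 52) (nat_lit 5) (nat_lit 49) (nat_lit 5) (nat_lit 316) (nat_lit 246) (nat_lit 218))))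 (XT.nd (nat_lit 78) (nat_lit 304) (nat_lit 0) (XT.lf (nat_lit 0) (nat_lit 1553542630) (nat_lit 228) (nat_lit 4707314434) (nat_lit 304) (nat_lit 5172269442) (nat_lit 45) (nat_lit 5) (nat_lit 48) (nat_lit 5) (nat_lit 49) (nat_lit 5) (nat_lit 317) (nat_lit 246) (nat_lit 217)) (XT.nd (nat_lit 78) (nat_lit 304) (nat_lit 0) (XT.lf (nat_lit 0) (nat_lit 7076162490) (nat_lit 228) (nat_lit 1993750203) (nat_lit 304) (nat_lit 2586472160) (nat_lit 45) (nat_lit 5) (nat_lit 48) (nat_lit 5) (nat_lit 49) (nat_lit 5) (nat_lit 318) (nat_lit 246) (nat_lit 216)) (XT.lf (nat_lit 0) (nat_lit 40121460) (nat_lit 304) (nat_lit 11075313681) (nat_lit 76) (nat_lit 772032334) (nat_lit 41) (nat_lit 5) (nat_lit 45) (nat_lit 5) (nat_lit 42) (nat_lit 5) (nat_lit 319) (nat_lit 246) (nat_lit 215))))) (XT.nd (nat_lit 234) (nat_lit 228) (nat_lit 0) (XT.nd (nat_lit 78) (nat_lit 228) (nat_lit 0) (XT.lf (nat_lit 0) (nat_lit 2709808616)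 (nat_lit 304) (nat_lit 5783789080) (nat_lit 76) (nat_lit 3630715941) (nat_lit 41) (nat_lit 5) (nat_lit 45) (nat_lit 5) (nat_lit 42) (nat_lit 5) (nat_lit 320) (nat_lit 246) (nat_lit 214)) (XT.nd (nat_lit 78) (nat_lit 228) (nat_lit 0) (XT.lf (nat_lit 0) (nat_lit 5410879548) (nat_lit 304) (nat_lit 405439789) (nat_lit 76) (nat_lit 6553492253) (nat_lit 41) (nat_lit 5) (nat_lit 45) (nat_lit 5) (nat_lit 42) (nat_lit 5) (nat_lit 321) (nat_lit 246) (nat_lit 213)) (XT.lf (nat_lit 0) (nat_lit 5165225880) (nat_lit 228) (nat_lit 3030119845) (nat_lit 304) (nat_lit 4427340584) (nat_lit 38) (nat_lit 5) (nat_lit 41) (nat_lit 5) (nat_lit 42) (nat_lit 5) (nat_lit 322) (nat_lit 246) (nat_lit 212)))) (XT.nd (nat_lit 78) (nat_lit 228) (nat_lit 0) (XT.lf (nat_lit 0) (nat_lit 10842180950) (nat_lit 228) (nat_lit 178683586) (nat_lit 304) (nat_lit 1863637484) (nat_lit 38) (nat_lit 5) (nat_lit 41) (nat_lit 5) (nat_lit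 42) (nat_lit 5) (nat_lit 323) (nat_lit 246) (nat_lit 211)) (XT.nd (nat_lit 78) (nat_lit 0) (nat_lit 0) (XT.lf (nat_lit 0) (nat_lit 776699686) (nat_lit 228) (nat_lit 9652543367) (nat_lit 76) (nat_lit 2724334250) (nat_lit 35) (nat_lit 5) (nat_lit 38) (nat_lit 5) (nat_lit 36) (nat_lit 5) (nat_lit 324) (nat_lit 246) (nat_lit 210)) (XT.lf (nat_lit 0) (nat_lit 3436112177) (nat_lit 228) (nat_lit 4266632379) (nat_lit 76) (nat_lit 5728180554) (nat_lit 35) (nat_lit 5) (nat_lit 38) (nat_lit 5) (nat_lit 36) (nat_lit 5) (nat_lit 325) (nat_lit 246) (nat_lit 209))))))))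
noncomputable def xc73 : XT := (XT.nd (nat_lit 1716) (nat_lit 608) (nat_lit 0) (XT.nd (nat_lit 858) (nat_lit 608) (nat_lit 0) (XT.nd (nat_lit 390) (nat_lit 380) (nat_lit 0) (XT.nd (nat_lit 156) (nat_lit 228) (nat_lit 0) (XT.nd (nat_lit 78) (nat_lit 0) (nat_lit 0) (XT.lf (nat_lit 0) (nat_lit 1238364365) (nat_lit 228) (nat_lit 4904890961) (nat_lit 304) (nat_lit 7574370932) (nat_lit 32) (nat_lit 5) (nat_lit 35) (nat_lit 5) (nat_lit 36) (nat_lit 5) (nat_lit 326) (nat_lit 246) (nat_lit 208)) (XT.lf (nat_lit 0) (nat_lit 6929969765) (nat_lit 228) (nat_lit 2001417792) (nat_lit 304) (nat_lit 5081616916) (nat_lit 32) (nat_lit 5) (nat_lit 35) (nat_lit 5) (nat_lit 36) (nat_lit 5) (nat_lit 327) (nat_lit 246) (nat_lit 207))) (XT.nd (nat_lit 78) (nat_lit 228) (nat_lit 0) (XT.lf (nat_lit 0) (nat_lit 11770411993) (nat_lit 304) (nat_lit 1599626648) (nat_lit 76) (nat_lit 948255206) (nat_lit 32) (nat_lit 5) (nat_lit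 36) (nat_lit 5) (nat_lit 33) (nat_lit 4) (nat_lit 328) (nat_lit 246) (nat_lit 206)) (XT.nd (nat_lit 78) (nat_lit 0) (nat_lit 0) (XT.lf (nat_lit 0) (nat_lit 78429814) (nat_lit 228) (nat_lit 10588962593) (nat_lit 76) (nat_lit 3964861898) (nat_lit 29) (nat_lit 5) (nat_lit 32) (nat_lit 5) (nat_lit 30) (nat_lit 5) (nat_lit 329) (nat_lit 246) (nat_lit 205)) (XT.lf (nat_lit 0) (nat_lit 2707734668) (nat_lit 228) (nat_lit 5155800597) (nat_lit 76) (nat_lit 7092140657) (nat_lit 29) (nat_lit 5) (nat_lit 32) (nat_lit 5) (nat_lit 30) (nat_lit 5) (nat_lit 330) (nat_lit 246) (nat_lit 204))))) (XT.nd (nat_lit 234) (nat_lit 228) (nat_lit 0) (XT.nd (nat_lit 78) (nat_lit 0) (nat_lit 0) (XT.lf (nat_lit 0) (nat_lit 386189757) (nat_lit 152) (nat_lit 4993733156) (nat_lit 228) (nat_lit 9910016904) (nat_lit 27) (nat_lit 5) (nat_lit 29) (nat_lit 5) (nat_lit 30) (nat_lit 5) (nat_lit 331) (nat_lit 246) (nat_lit 203)) (XT.nd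 (nat_lit 78) (nat_lit 0) (nat_lit 0) (XT.lf (nat_lit 0) (nat_lit 6139031151) (nat_lit 152) (nat_lit 2006170325) (nat_lit 228) (nat_lit 7488700432) (nat_lit 27) (nat_lit 5) (nat_lit 29) (nat_lit 5) (nat_lit 30) (nat_lit 5) (nat_lit 332) (nat_lit 246) (nat_lit 202)) (XT.lf (nat_lit 0) (nat_lit 10965529916) (nat_lit 228) (nat_lit 3994329719) (nat_lit 76) (nat_lit 1029216810) (nat_lit 27) (nat_lit 5) (nat_lit 30) (nat_lit 5) (nat_lit 28) (nat_lit 4) (nat_lit 333) (nat_lit 246) (nat_lit 201)))) (XT.nd (nat_lit 78) (nat_lit 76) (nat_lit 0) (XT.lf (nat_lit 0) (nat_lit 1624511786) (nat_lit 152) (nat_lit 12244344251) (nat_lit 228) (nat_lit 2486153233) (nat_lit 25) (nat_lit 5) (nat_lit 27) (nat_lit 5) (nat_lit 28) (nat_lit 4) (nat_lit 334) (nat_lit 246) (nat_lit 200)) (XT.nd (nat_lit 78) (nat_lit 0) (nat_lit 0) (XT.lf (nat_lit 0) (nat_lit 128628659) (nat_lit 228) (nat_lit 9297301575) (nat_lit 76) (nat_lit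 7305892103) (nat_lit 24) (nat_lit 5) (nat_lit 27) (nat_lit 5) (nat_lit 25) (nat_lit 5) (nat_lit 335) (nat_lit 246) (nat_lit 199)) (XT.lf (nat_lit 0) (nat_lit 2735979774) (nat_lit 228) (nat_lit 3782779814) (nat_lit 76) (nat_lit 10601568945) (nat_lit 24) (nat_lit 5) (nat_lit 27) (nat_lit 5) (nat_lit 25) (nat_lit 5) (nat_lit 336) (nat_lit 246) (nat_lit 198)))))) (XT.nd (nat_lit 390) (nat_lit 304) (nat_lit 0) (XT.nd (nat_lit 156) (nat_lit 152) (nat_lit 0) (XT.nd (nat_lit 78) (nat_lit 0) (nat_lit 0) (XT.lf (nat_lit 0) (nat_lit 1878439865) (nat_lit 152) (nat_lit 3526309031) (nat_lit 228) (nat_lit 12116293685) (nat_lit 22) (nat_lit 5) (nat_lit 24) (nat_lit 5) (nat_lit 25) (nat_lit 5) (nat_lit 337) (nat_lit 246) (nat_lit 197)) (XT.lf (nat_lit 0) (nat_lit 7732189619) (nat_lit 152) (nat_lit 425218959) (nat_lit 228) (nat_lit 9776301820) (nat_lit 22) (nat_lit 5) (nat_lit 24) (nat_lit 5) (nat_lit 25) (nat_lit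 5) (nat_lit 338) (nat_lit 246) (nat_lit 196))) (XT.nd (nat_lit 78) (nat_lit 152) (nat_lit 0) (XT.lf (nat_lit 0) (nat_lit 10985703260) (nat_lit 228) (nat_lit 4677930793) (nat_lit 76) (nat_lit 2695378342) (nat_lit 22) (nat_lit 5) (nat_lit 25) (nat_lit 5) (nat_lit 23) (nat_lit 4) (nat_lit 339) (nat_lit 246) (nat_lit 195)) (XT.nd (nat_lit 78) (nat_lit 0) (nat_lit 0) (XT.lf (nat_lit 0) (nat_lit 973623660) (nat_lit 152) (nat_lit 12906208597) (nat_lit 228) (nat_lit 4917856095) (nat_lit 20) (nat_lit 5) (nat_lit 22) (nat_lit 5) (nat_lit 23) (nat_lit 4) (nat_lit 340) (nat_lit 246) (nat_lit 194)) (XT.lf (nat_lit 0) (nat_lit 6838600714) (nat_lit 152) (nat_lit 10037287680) (nat_lit 228) (nat_lit 2373226268) (nat_lit 20) (nat_lit 5) (nat_lit 22) (nat_lit 5) (nat_lit 23) (nat_lit 4) (nat_lit 341) (nat_lit 246) (nat_lit 193))))) (XT.nd (nat_lit 234) (nat_lit 76) (nat_lit 0) (XT.nd (nat_lit 78) (nat_lit 152)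 (nat_lit 0) (XT.lf (nat_lit 0) (nat_lit 211359414) (nat_lit 228) (nat_lit 6888108677) (nat_lit 76) (nat_lit 12615531380) (nat_lit 19) (nat_lit 5) (nat_lit 22) (nat_lit 5) (nat_lit 20) (nat_lit 5) (nat_lit 342) (nat_lit 246) (nat_lit 192)) (XT.nd (nat_lit 78) (nat_lit 152) (nat_lit 0) (XT.lf (nat_lit 0) (nat_lit 2795153371) (nat_lit 228) (nat_lit 1273208676) (nat_lit 76) (nat_lit 16126752260) (nat_lit 19) (nat_lit 5) (nat_lit 22) (nat_lit 5) (nat_lit 20) (nat_lit 5) (nat_lit 343) (nat_lit 246) (nat_lit 191)) (XT.lf (nat_lit 0) (nat_lit 4550705842) (nat_lit 152) (nat_lit 919761805) (nat_lit 228) (nat_lit 15218783103) (nat_lit 17) (nat_lit 5) (nat_lit 19) (nat_lit 5) (nat_lit 20) (nat_lit 5) (nat_lit 344) (nat_lit 246) (nat_lit 190)))) (XT.nd (nat_lit 78) (nat_lit 76) (nat_lit 0) (XT.lf (nat_lit 0) (nat_lit 8231850727) (nat_lit 228) (nat_lit 10693348769) (nat_lit 76) (nat_lit 2272874750) (nat_lit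 17) (nat_lit 5) (nat_lit 20) (nat_lit 5) (nat_lit 18) (nat_lit 4) (nat_lit 345) (nat_lit 246) (nat_lit 189)) (XT.nd (nat_lit 78) (nat_lit 76) (nat_lit 0) (XT.lf (nat_lit 0) (nat_lit 11056533520) (nat_lit 228) (nat_lit 5140990940) (nat_lit 76) (nat_lit 5525260394) (nat_lit 17) (nat_lit 5) (nat_lit 20) (nat_lit 5) (nat_lit 18) (nat_lit 4) (nat_lit 346) (nat_lit 246) (nat_lit 188)) (XT.lf (nat_lit 0) (nat_lit 542813716) (nat_lit 76) (nat_lit 13400547025) (nat_lit 152) (nat_lit 8320589023) (nat_lit 16) (nat_lit 5) (nat_lit 17) (nat_lit 5) (nat_lit 18) (nat_lit 4) (nat_lit 347) (nat_lit 246) (nat_lit 187))))))) (XT.nd (nat_lit 858) (nat_lit 304) (nat_lit 0) (XT.nd (nat_lit 390) (nat_lit 76) (nat_lit 0) (XT.nd (nat_lit 156) (nat_lit 228) (nat_lit 0) (XT.nd (nat_lit 78) (nat_lit 0) (nat_lit 0) (XT.lf (nat_lit 0) (nat_lit 6457249827) (nat_lit 76) (nat_lit 10484017938) (nat_lit 152) (nat_lit 5879381686)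 (nat_lit 16) (nat_lit 5) (nat_lit 17) (nat_lit 5) (nat_lit 18) (nat_lit 4) (nat_lit 348) (nat_lit 246) (nat_lit 186)) (XT.lf (nat_lit 0) (nat_lit 12505169544) (nat_lit 76) (nat_lit 7497302706) (nat_lit 152) (nat_lit 3392410158) (nat_lit 16) (nat_lit 5) (nat_lit 17) (nat_lit 5) (nat_lit 18) (nat_lit 4) (nat_lit 349) (nat_lit 246) (nat_lit 185))) (XT.nd (nat_lit 78) (nat_lit 228) (nat_lit 0) (XT.lf (nat_lit 0) (nat_lit 18691857460) (nat_lit 76) (nat_lit 4437791575) (nat_lit 152) (nat_lit 857501358) (nat_lit 16) (nat_lit 5) (nat_lit 17) (nat_lit 5) (nat_lit 18) (nat_lit 4) (nat_lit 350) (nat_lit 246) (nat_lit 184)) (XT.nd (nat_lit 78) (nat_lit 0) (nat_lit 0) (XT.lf (nat_lit 0) (nat_lit 416264963) (nat_lit 152) (nat_lit 1281585202) (nat_lit 228) (nat_lit 22899502523) (nat_lit 13) (nat_lit 5) (nat_lit 15) (nat_lit 5) (nat_lit 16) (nat_lit 5) (nat_lit 351) (nat_lit 246) (nat_lit 183)) (XT.lf (nat_lit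 0) (nat_lit 4360350753) (nat_lit 228) (nat_lit 18886661758) (nat_lit 76) (nat_lit 1977191530) (nat_lit 13) (nat_lit 5) (nat_lit 16) (nat_lit 5) (nat_lit 14) (nat_lit 4) (nat_lit 352) (nat_lit 246) (nat_lit 182))))) (XT.nd (nat_lit 234) (nat_lit 76) (nat_lit 0) (XT.nd (nat_lit 78) (nat_lit 0) (nat_lit 0) (XT.lf (nat_lit 0) (nat_lit 7090941301) (nat_lit 228) (nat_lit 13487036687) (nat_lit 76) (nat_lit 5292265042) (nat_lit 13) (nat_lit 5) (nat_lit 16) (nat_lit 5) (nat_lit 14) (nat_lit 4) (nat_lit 353) (nat_lit 246) (nat_lit 181)) (XT.nd (nat_lit 78) (nat_lit 0) (nat_lit 0) (XT.lf (nat_lit 0) (nat_lit 9879688379) (nat_lit 228) (nat_lit 7965175011) (nat_lit 76) (nat_lit 8691540342) (nat_lit 13) (nat_lit 5) (nat_lit 16) (nat_lit 5) (nat_lit 14) (nat_lit 4) (nat_lit 354) (nat_lit 246) (nat_lit 180)) (XT.lf (nat_lit 0) (nat_lit 12729028757) (nat_lit 228) (nat_lit 2316251803) (nat_lit 76) (nat_lit 12177987671)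 (nat_lit 13) (nat_lit 5) (nat_lit 16) (nat_lit 5) (nat_lit 14) (nat_lit 4) (nat_lit 355) (nat_lit 246) (nat_lit 179)))) (XT.nd (nat_lit 78) (nat_lit 0) (nat_lit 0) (XT.lf (nat_lit 0) (nat_lit 3533622593) (nat_lit 76) (nat_lit 12141796899) (nat_lit 152) (nat_lit 12254998189) (nat_lit 12) (nat_lit 5) (nat_lit 13) (nat_lit 5) (nat_lit 14) (nat_lit 4) (nat_lit 356) (nat_lit 246) (nat_lit 178)) (XT.nd (nat_lit 78) (nat_lit 0) (nat_lit 0) (XT.lf (nat_lit 0) (nat_lit 9569371256) (nat_lit 76) (nat_lit 9142118789) (nat_lit 152) (nat_lit 9947278284) (nat_lit 12) (nat_lit 5) (nat_lit 13) (nat_lit 5) (nat_lit 14) (nat_lit 4) (nat_lit 357) (nat_lit 246) (nat_lit 177)) (XT.lf (nat_lit 0) (nat_lit 15750170188) (nat_lit 76) (nat_lit 6067014754) (nat_lit 152) (nat_lit 7592452909) (nat_lit 12) (nat_lit 5) (nat_lit 13) (nat_lit 5) (nat_lit 14) (nat_lit 4) (nat_lit 358) (nat_lit 246) (nat_lit 176)))))) (XT.nd (nat_lit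 468) (nat_lit 76) (nat_lit 0) (XT.nd (nat_lit 234) (nat_lit 76) (nat_lit 0) (XT.nd (nat_lit 78) (nat_lit 152) (nat_lit 0) (XT.lf (nat_lit 0) (nat_lit 22081420086) (nat_lit 76) (nat_lit 2913797810) (nat_lit 152) (nat_lit 5188464448) (nat_lit 12) (nat_lit 5) (nat_lit 13) (nat_lit 5) (nat_lit 14) (nat_lit 4) (nat_lit 359) (nat_lit 246) (nat_lit 175)) (XT.nd (nat_lit 78) (nat_lit 152) (nat_lit 0) (XT.lf (nat_lit 0) (nat_lit 28251444628) (nat_lit 152) (nat_lit 2416003845) (nat_lit 0) (nat_lit 314037323) (nat_lit 12) (nat_lit 5) (nat_lit 14) (nat_lit 4) (nat_lit 12) (nat_lit 4) (nat_lit 360) (nat_lit 246) (nat_lit 174)) (XT.lf (nat_lit 0) (nat_lit 3445783562) (nat_lit 152) (nat_lit 28201782038) (nat_lit 152) (nat_lit 154414058) (nat_lit 10) (nat_lit 4) (nat_lit 12) (nat_lit 5) (nat_lit 12) (nat_lit 4) (nat_lit 361) (nat_lit 246) (nat_lit 173)))) (XT.nd (nat_lit 78) (nat_lit 0) (nat_lit 0) (XT.lf (nat_lit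 0) (nat_lit 2454643624) (nat_lit 228) (nat_lit 23171199359) (nat_lit 76) (nat_lit 7020398597) (nat_lit 9) (nat_lit 5) (nat_lit 12) (nat_lit 5) (nat_lit 10) (nat_lit 4) (nat_lit 362) (nat_lit 246) (nat_lit 172)) (XT.nd (nat_lit 78) (nat_lit 0) (nat_lit 0) (XT.lf (nat_lit 0) (nat_lit 5119721587) (nat_lit 228) (nat_lit 17864739576) (nat_lit 76) (nat_lit 10531919387) (nat_lit 9) (nat_lit 5) (nat_lit 12) (nat_lit 5) (nat_lit 10) (nat_lit 4) (nat_lit 363) (nat_lit 246) (nat_lit 171)) (XT.lf (nat_lit 0) (nat_lit 7846161715) (nat_lit 228) (nat_lit 12430695710) (nat_lit 76) (nat_lit 14136343987) (nat_lit 9) (nat_lit 5) (nat_lit 12) (nat_lit 5) (nat_lit 10) (nat_lit 4) (nat_lit 364) (nat_lit 246) (nat_lit 170))))) (XT.nd (nat_lit 234) (nat_lit 0) (nat_lit 0) (XT.nd (nat_lit 78) (nat_lit 76) (nat_lit 0) (XT.lf (nat_lit 0) (nat_lit 10636346334) (nat_lit 228) (nat_lit 6864319569) (nat_lit 76) (nat_lit 17836821894)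 (nat_lit 9) (nat_lit 5) (nat_lit 12) (nat_lit 5) (nat_lit 10) (nat_lit 4) (nat_lit 365) (nat_lit 246) (nat_lit 169)) (XT.nd (nat_lit 78) (nat_lit 76) (nat_lit 0) (XT.lf (nat_lit 0) (nat_lit 13492713469) (nat_lit 228) (nat_lit 1160747329) (nat_lit 76) (nat_lit 21636586535) (nat_lit 9) (nat_lit 5) (nat_lit 12) (nat_lit 5) (nat_lit 10) (nat_lit 4) (nat_lit 366) (nat_lit 246) (nat_lit 168)) (XT.lf (nat_lit 0) (nat_lit 4778245493) (nat_lit 76) (nat_lit 11685444900) (nat_lit 152) (nat_lit 20806644018) (nat_lit 8) (nat_lit 5) (nat_lit 9) (nat_lit 5) (nat_lit 10) (nat_lit 4) (nat_lit 367) (nat_lit 246) (nat_lit 167)))) (XT.nd (nat_lit 78) (nat_lit 0) (nat_lit 0) (XT.lf (nat_lit 0) (nat_lit 10890558522) (nat_lit 76) (nat_lit 8628166906) (nat_lit 152) (nat_lit 18761474597) (nat_lit 8) (nat_lit 5) (nat_lit 9) (nat_lit 5) (nat_lit 10) (nat_lit 4) (nat_lit 368) (nat_lit 246) (nat_lit 166)) (XT.nd (nat_lit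 78) (nat_lit 0) (nat_lit 0) (XT.lf (nat_lit 0) (nat_lit 17158431462) (nat_lit 76) (nat_lit 5490676681) (nat_lit 152) (nat_lit 16671759831) (nat_lit 8) (nat_lit 5) (nat_lit 9) (nat_lit 5) (nat_lit 10) (nat_lit 4) (nat_lit 369) (nat_lit 246) (nat_lit 165)) (XT.lf (nat_lit 0) (nat_lit 23587341098) (nat_lit 76) (nat_lit 2270232728) (nat_lit 152) (nat_lit 14535673756) (nat_lit 8) (nat_lit 5) (nat_lit 9) (nat_lit 5) (nat_lit 10) (nat_lit 4) (nat_lit 370) (nat_lit 246) (nat_lit 164))))))))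
noncomputable def xc74 : XT := (XT.nd (nat_lit 1716) (nat_lit 76) (nat_lit 0) (XT.nd (nat_lit 858) (nat_lit 76) (nat_lit 0) (XT.nd (nat_lit 390) (nat_lit 76) (nat_lit 0) (XT.nd (nat_lit 156) (nat_lit 76) (nat_lit 0) (XT.nd (nat_lit 78) (nat_lit 0) (nat_lit 0) (XT.lf (nat_lit 0) (nat_lit 29156884455) (nat_lit 152) (nat_lit 11325329422) (nat_lit 0) (nat_lit 1015763251) (nat_lit 8) (nat_lit 5) (nat_lit 10) (nat_lit 4) (nat_lit 8) (nat_lit 4) (nat_lit 371) (nat_lit 246) (nat_lit 163)) (XT.lf (nat_lit 0) (nat_lit 32562630843) (nat_lit 152) (nat_lit 5728624392) (nat_lit 0) (nat_lit 4344385433) (nat_lit 8) (nat_lit 5) (nat_lit 10) (nat_lit 4) (nat_lit 8) (nat_lit 4) (nat_lit 372) (nat_lit 246) (nat_lit 162))) (XT.nd (nat_lit 78) (nat_lit 0) (nat_lit 0) (XT.lf (nat_lit 0) (nat_lit 11139160) (nat_lit 76) (nat_lit 36044933935) (nat_lit 76) (nat_lit 7751810657) (nat_lit 7) (nat_lit 4) (nat_lit 8) (nat_lit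 5) (nat_lit 8) (nat_lit 4) (nat_lit 373) (nat_lit 246) (nat_lit 161)) (XT.nd (nat_lit 78) (nat_lit 0) (nat_lit 0) (XT.lf (nat_lit 0) (nat_lit 6015712497) (nat_lit 76) (nat_lit 33682056625) (nat_lit 76) (nat_lit 5316236387) (nat_lit 7) (nat_lit 4) (nat_lit 8) (nat_lit 5) (nat_lit 8) (nat_lit 4) (nat_lit 374) (nat_lit 246) (nat_lit 160)) (XT.lf (nat_lit 0) (nat_lit 12176331473) (nat_lit 76) (nat_lit 31258406530) (nat_lit 76) (nat_lit 2822006719) (nat_lit 7) (nat_lit 4) (nat_lit 8) (nat_lit 5) (nat_lit 8) (nat_lit 4) (nat_lit 375) (nat_lit 246) (nat_lit 159))))) (XT.nd (nat_lit 234) (nat_lit 0) (nat_lit 0) (XT.nd (nat_lit 78) (nat_lit 76) (nat_lit 0) (XT.lf (nat_lit 0) (nat_lit 18498379154) (nat_lit 76) (nat_lit 28771865896) (nat_lit 76) (nat_lit 266942227) (nat_lit 7) (nat_lit 4) (nat_lit 8) (nat_lit 5) (nat_lit 8) (nat_lit 4) (nat_lit 376) (nat_lit 246) (nat_lit 158)) (XT.nd (nat_lit 78) (nat_lit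 0) (nat_lit 0) (XT.lf (nat_lit 0) (nat_lit 2305309487) (nat_lit 152) (nat_lit 23891673424) (nat_lit 76) (nat_lit 22658791066) (nat_lit 6) (nat_lit 5) (nat_lit 8) (nat_lit 5) (nat_lit 7) (nat_lit 4) (nat_lit 377) (nat_lit 246) (nat_lit 157)) (XT.lf (nat_lit 0) (nat_lit 4936431977) (nat_lit 152) (nat_lit 18615085078) (nat_lit 76) (nat_lit 26662722729) (nat_lit 6) (nat_lit 5) (nat_lit 8) (nat_lit 5) (nat_lit 7) (nat_lit 4) (nat_lit 378) (nat_lit 246) (nat_lit 156)))) (XT.nd (nat_lit 78) (nat_lit 0) (nat_lit 0) (XT.lf (nat_lit 0) (nat_lit 7633933283) (nat_lit 152) (nat_lit 13201866462) (nat_lit 76) (nat_lit 30778048939) (nat_lit 6) (nat_lit 5) (nat_lit 8) (nat_lit 5) (nat_lit 7) (nat_lit 4) (nat_lit 379) (nat_lit 246) (nat_lit 155)) (XT.nd (nat_lit 78) (nat_lit 0) (nat_lit 0) (XT.lf (nat_lit 0) (nat_lit 10400170447) (nat_lit 152) (nat_lit 7647287578) (nat_lit 76) (nat_lit 35008365613) (nat_lit 6)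 (nat_lit 5) (nat_lit 8) (nat_lit 5) (nat_lit 7) (nat_lit 4) (nat_lit 380) (nat_lit 246) (nat_lit 154)) (XT.lf (nat_lit 0) (nat_lit 13237560569) (nat_lit 152) (nat_lit 1946494913) (nat_lit 76) (nat_lit 39357369143) (nat_lit 6) (nat_lit 5) (nat_lit 8) (nat_lit 5) (nat_lit 7) (nat_lit 4) (nat_lit 381) (nat_lit 246) (nat_lit 153)))))) (XT.nd (nat_lit 390) (nat_lit 0) (nat_lit 0) (XT.nd (nat_lit 156) (nat_lit 0) (nat_lit 0) (XT.nd (nat_lit 78) (nat_lit 0) (nat_lit 0) (XT.lf (nat_lit 0) (nat_lit 3983219775) (nat_lit 76) (nat_lit 12203652291) (nat_lit 152) (nat_lit 39883929000) (nat_lit 5) (nat_lit 5) (nat_lit 6) (nat_lit 5) (nat_lit 7) (nat_lit 4) (nat_lit 382) (nat_lit 246) (nat_lit 152)) (XT.lf (nat_lit 0) (nat_lit 10111092818) (nat_lit 76) (nat_lit 9121882307) (nat_lit 152) (nat_lit 38412845393) (nat_lit 5) (nat_lit 5) (nat_lit 6) (nat_lit 5) (nat_lit 7) (nat_lit 4) (nat_lit 383) (nat_lit 246)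 (nat_lit 151))) (XT.nd (nat_lit 78) (nat_lit 0) (nat_lit 0) (XT.lf (nat_lit 0) (nat_lit 16403739604) (nat_lit 76) (nat_lit 5955708502) (nat_lit 152) (nat_lit 36908983604) (nat_lit 5) (nat_lit 5) (nat_lit 6) (nat_lit 5) (nat_lit 7) (nat_lit 4) (nat_lit 384) (nat_lit 246) (nat_lit 150)) (XT.nd (nat_lit 78) (nat_lit 0) (nat_lit 0) (XT.lf (nat_lit 0) (nat_lit 22866658560) (nat_lit 76) (nat_lit 2702364318) (nat_lit 152) (nat_lit 35371029579) (nat_lit 5) (nat_lit 5) (nat_lit 6) (nat_lit 5) (nat_lit 7) (nat_lit 4) (nat_lit 385) (nat_lit 246) (nat_lit 149)) (XT.lf (nat_lit 0) (nat_lit 28870665541) (nat_lit 152) (nat_lit 33162808117) (nat_lit 0) (nat_lit 628484891) (nat_lit 5) (nat_lit 5) (nat_lit 7) (nat_lit 4) (nat_lit 5) (nat_lit 4) (nat_lit 386) (nat_lit 246) (nat_lit 148))))) (XT.nd (nat_lit 234) (nat_lit 0) (nat_lit 0) (XT.nd (nat_lit 78) (nat_lit 0) (nat_lit 0) (XT.lf (nat_lit 0) (nat_lit 32287964146)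 (nat_lit 152) (nat_lit 28149347085) (nat_lit 0) (nat_lit 3997722242) (nat_lit 5) (nat_lit 5) (nat_lit 7) (nat_lit 4) (nat_lit 5) (nat_lit 4) (nat_lit 387) (nat_lit 246) (nat_lit 147)) (XT.nd (nat_lit 78) (nat_lit 0) (nat_lit 0) (XT.lf (nat_lit 0) (nat_lit 35797927904) (nat_lit 152) (nat_lit 23002653327) (nat_lit 0) (nat_lit 7461024587) (nat_lit 5) (nat_lit 5) (nat_lit 7) (nat_lit 4) (nat_lit 5) (nat_lit 4) (nat_lit 388) (nat_lit 246) (nat_lit 146)) (XT.lf (nat_lit 0) (nat_lit 39403623773) (nat_lit 152) (nat_lit 17718229733) (nat_lit 0) (nat_lit 11021418114) (nat_lit 5) (nat_lit 5) (nat_lit 7) (nat_lit 4) (nat_lit 5) (nat_lit 4) (nat_lit 389) (nat_lit 246) (nat_lit 145)))) (XT.nd (nat_lit 78) (nat_lit 0) (nat_lit 0) (XT.lf (nat_lit 0) (nat_lit 43108202362) (nat_lit 152) (nat_lit 12291458845) (nat_lit 0) (nat_lit 14682013846) (nat_lit 5) (nat_lit 5) (nat_lit 7) (nat_lit 4) (nat_lit 5) (nat_lit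 4) (nat_lit 390) (nat_lit 246) (nat_lit 144)) (XT.nd (nat_lit 78) (nat_lit 0) (nat_lit 0) (XT.lf (nat_lit 0) (nat_lit 46914900680) (nat_lit 152) (nat_lit 6717598825) (nat_lit 0) (nat_lit 18446010363) (nat_lit 5) (nat_lit 5) (nat_lit 7) (nat_lit 4) (nat_lit 5) (nat_lit 4) (nat_lit 391) (nat_lit 246) (nat_lit 143)) (XT.lf (nat_lit 0) (nat_lit 50827044969) (nat_lit 152) (nat_lit 991779310) (nat_lit 0) (nat_lit 22316696592) (nat_lit 5) (nat_lit 5) (nat_lit 7) (nat_lit 4) (nat_lit 5) (nat_lit 4) (nat_lit 392) (nat_lit 246) (nat_lit 142))))))) (XT.nd (nat_lit 32604) (nat_lit 0) (nat_lit 6080) (XT.nd (nat_lit 390) (nat_lit 0) (nat_lit 0) (XT.nd (nat_lit 156) (nat_lit 0) (nat_lit 0) (XT.nd (nat_lit 78) (nat_lit 0) (nat_lit 0) (XT.lf (nat_lit 0) (nat_lit 4988343391) (nat_lit 76) (nat_lit 49907661226) (nat_lit 76) (nat_lit 21357062304) (nat_lit 4) (nat_lit 4) (nat_lit 5) (nat_lit 5) (nat_lit 5) (nat_lit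 4) (nat_lit 393) (nat_lit 246) (nat_lit 141)) (XT.lf (nat_lit 0) (nat_lit 11153533545) (nat_lit 76) (nat_lit 47935121142) (nat_lit 76) (nat_lit 19345444022) (nat_lit 4) (nat_lit 4) (nat_lit 5) (nat_lit 5) (nat_lit 5) (nat_lit 4) (nat_lit 394) (nat_lit 246) (nat_lit 140))) (XT.nd (nat_lit 78) (nat_lit 0) (nat_lit 0) (XT.lf (nat_lit 0) (nat_lit 17489439859) (nat_lit 76) (nat_lit 45909495476) (nat_lit 76) (nat_lit 17281878358) (nat_lit 4) (nat_lit 4) (nat_lit 5) (nat_lit 5) (nat_lit 5) (nat_lit 4) (nat_lit 395) (nat_lit 246) (nat_lit 139)) (XT.nd (nat_lit 78) (nat_lit 0) (nat_lit 0) (XT.lf (nat_lit 0) (nat_lit 24001598561) (nat_lit 76) (nat_lit 43829014264) (nat_lit 76) (nat_lit 15164562196) (nat_lit 4) (nat_lit 4) (nat_lit 5) (nat_lit 5) (nat_lit 5) (nat_lit 4) (nat_lit 396) (nat_lit 246) (nat_lit 138)) (XT.lf (nat_lit 0) (nat_lit 30695699887) (nat_lit 76) (nat_lit 41691859610) (nat_lit 76) (nat_lit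 12991645454) (nat_lit 4) (nat_lit 4) (nat_lit 5) (nat_lit 5) (nat_lit 5) (nat_lit 4) (nat_lit 397) (nat_lit 246) (nat_lit 137))))) (XT.nd (nat_lit 31980) (nat_lit 0) (nat_lit 9576) (XT.nd (nat_lit 78) (nat_lit 0) (nat_lit 0) (XT.lf (nat_lit 0) (nat_lit 37577593052) (nat_lit 76) (nat_lit 39496164096) (nat_lit 76) (nat_lit 10761229468) (nat_lit 4) (nat_lit 4) (nat_lit 5) (nat_lit 5) (nat_lit 5) (nat_lit 4) (nat_lit 398) (nat_lit 246) (nat_lit 136)) (XT.nd (nat_lit 31824) (nat_lit 0) (nat_lit 11400) (XT.lf (nat_lit 0) (nat_lit 44653291360) (nat_lit 76) (nat_lit 37240009154) (nat_lit 76) (nat_lit 8471365329) (nat_lit 4) (nat_lit 4) (nat_lit 5) (nat_lit 5) (nat_lit 5) (nat_lit 4) (nat_lit 399) (nat_lit 246) (nat_lit 135)) (XT.lf (nat_lit 0) (nat_lit 2744014554) (nat_lit 988) (nat_lit 446098416) (nat_lit 988) (nat_lit 446098416) (nat_lit 154) (nat_lit 4) (nat_lit 167) (nat_lit 5) (nat_lit 167) (nat_lit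 4) (nat_lit 286) (nat_lit 247) (nat_lit 247)))) (XT.nd (nat_lit 78) (nat_lit 684) (nat_lit 0) (XT.lf (nat_lit 0) (nat_lit 2059112988) (nat_lit 1140) (nat_lit 4704991288) (nat_lit 0) (nat_lit 576891277) (nat_lit 139) (nat_lit 5) (nat_lit 154) (nat_lit 4) (nat_lit 139) (nat_lit 4) (nat_lit 287) (nat_lit 247) (nat_lit 246)) (XT.nd (nat_lit 78) (nat_lit 684) (nat_lit 0) (XT.lf (nat_lit 0) (nat_lit 5020842571) (nat_lit 1140) (nat_lit 293047757) (nat_lit 0) (nat_lit 2099570654) (nat_lit 139) (nat_lit 5) (nat_lit 154) (nat_lit 4) (nat_lit 139) (nat_lit 4) (nat_lit 288) (nat_lit 247) (nat_lit 245)) (XT.lf (nat_lit 0) (nat_lit 527373284) (nat_lit 684) (nat_lit 3247840270) (nat_lit 76) (nat_lit 3714333563) (nat_lit 130) (nat_lit 5) (nat_lit 139) (nat_lit 5) (nat_lit 131) (nat_lit 4) (nat_lit 289) (nat_lit 247) (nat_lit 244)))))) (XT.nd (nat_lit 468) (nat_lit 1368) (nat_lit 0) (XT.nd (nat_lit 234) (nat_lit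 988) (nat_lit 0) (XT.nd (nat_lit 78) (nat_lit 608) (nat_lit 0) (XT.lf (nat_lit 0) (nat_lit 1263432658) (nat_lit 532) (nat_lit 2154441003) (nat_lit 608) (nat_lit 4151671388) (nat_lit 123) (nat_lit 5) (nat_lit 130) (nat_lit 5) (nat_lit 131) (nat_lit 4) (nat_lit 290) (nat_lit 247) (nat_lit 243)) (XT.nd (nat_lit 78) (nat_lit 608) (nat_lit 0) (XT.lf (nat_lit 0) (nat_lit 5889298801) (nat_lit 532) (nat_lit 456063005) (nat_lit 608) (nat_lit 1308334905) (nat_lit 123) (nat_lit 5) (nat_lit 130) (nat_lit 5) (nat_lit 131) (nat_lit 4) (nat_lit 291) (nat_lit 247) (nat_lit 242)) (XT.lf (nat_lit 0) (nat_lit 1547889026) (nat_lit 608) (nat_lit 4887264050) (nat_lit 76) (nat_lit 1306223370) (nat_lit 115) (nat_lit 5) (nat_lit 123) (nat_lit 5) (nat_lit 116) (nat_lit 4) (nat_lit 292) (nat_lit 247) (nat_lit 241)))) (XT.nd (nat_lit 78) (nat_lit 988) (nat_lit 0) (XT.lf (nat_lit 0) (nat_lit 4406329173) (nat_lit 608) (nat_lit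 289812442) (nat_lit 76) (nat_lit 3137111315) (nat_lit 115) (nat_lit 5) (nat_lit 123) (nat_lit 5) (nat_lit 116) (nat_lit 4) (nat_lit 293) (nat_lit 247) (nat_lit 240)) (XT.nd (nat_lit 78) (nat_lit 532) (nat_lit 0) (XT.lf (nat_lit 0) (nat_lit 4446543287) (nat_lit 456) (nat_lit 2869359894) (nat_lit 532) (nat_lit 613253872) (nat_lit 109) (nat_lit 5) (nat_lit 115) (nat_lit 5) (nat_lit 116) (nat_lit 4) (nat_lit 294) (nat_lit 247) (nat_lit 239)) (XT.lf (nat_lit 0) (nat_lit 1218162381) (nat_lit 456) (nat_lit 959844937) (nat_lit 532) (nat_lit 5851358498) (nat_lit 102) (nat_lit 5) (nat_lit 108) (nat_lit 5) (nat_lit 109) (nat_lit 5) (nat_lit 295) (nat_lit 247) (nat_lit 238))))) (XT.nd (nat_lit 234) (nat_lit 912) (nat_lit 0) (XT.nd (nat_lit 78) (nat_lit 456) (nat_lit 0) (XT.lf (nat_lit 0) (nat_lit 5010291905) (nat_lit 532) (nat_lit 2104497576) (nat_lit 76) (nat_lit 1018733875) (nat_lit 102) (nat_lit 5) (nat_lit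 109) (nat_lit 5) (nat_lit 103) (nat_lit 4) (nat_lit 296) (nat_lit 247) (nat_lit 237)) (XT.nd (nat_lit 78) (nat_lit 76) (nat_lit 0) (XT.lf (nat_lit 0) (nat_lit 2700956821) (nat_lit 380) (nat_lit 5188672465) (nat_lit 456) (nat_lit 352520617) (nat_lit 97) (nat_lit 5) (nat_lit 102) (nat_lit 5) (nat_lit 103) (nat_lit 4) (nat_lit 297) (nat_lit 247) (nat_lit 236)) (XT.lf (nat_lit 0) (nat_lit 2400992970) (nat_lit 456) (nat_lit 770399327) (nat_lit 76) (nat_lit 5183661829) (nat_lit 96) (nat_lit 5) (nat_lit 102) (nat_lit 5) (nat_lit 97) (nat_lit 5) (nat_lit 298) (nat_lit 247) (nat_lit 235)))) (XT.nd (nat_lit 78) (nat_lit 456) (nat_lit 0) (XT.lf (nat_lit 0) (nat_lit 4136808215) (nat_lit 456) (nat_lit 1062138642) (nat_lit 532) (nat_lit 3273415561) (nat_lit 90) (nat_lit 5) (nat_lit 96) (nat_lit 5) (nat_lit 97) (nat_lit 5) (nat_lit 299) (nat_lit 247) (nat_lit 234)) (XT.nd (nat_lit 78) (nat_lit 76) (nat_lit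 0) (XT.lf (nat_lit 0) (nat_lit 528365567) (nat_lit 380) (nat_lit 7506372059) (nat_lit 456) (nat_lit 560019130) (nat_lit 85) (nat_lit 5) (nat_lit 90) (nat_lit 5) (nat_lit 91) (nat_lit 4) (nat_lit 300) (nat_lit 247) (nat_lit 233)) (XT.lf (nat_lit 0) (nat_lit 2176555677) (nat_lit 456) (nat_lit 3210842918) (nat_lit 76) (nat_lit 3333391513) (nat_lit 84) (nat_lit 5) (nat_lit 90) (nat_lit 5) (nat_lit 85) (nat_lit 5) (nat_lit 301) (nat_lit 247) (nat_lit 232))))))))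
noncomputable def xc75 : XT := (XT.nd (nat_lit 1794) (nat_lit 1368) (nat_lit 0) (XT.nd (nat_lit 858) (nat_lit 1596) (nat_lit 0) (XT.nd (nat_lit 390) (nat_lit 988) (nat_lit 0) (XT.nd (nat_lit 156) (nat_lit 760) (nat_lit 0) (XT.nd (nat_lit 78) (nat_lit 0) (nat_lit 0) (XT.lf (nat_lit 0) (nat_lit 1735212354) (nat_lit 380) (nat_lit 3198114015) (nat_lit 456) (nat_lit 3918799269) (nat_lit 79) (nat_lit 5) (nat_lit 84) (nat_lit 5) (nat_lit 85) (nat_lit 5) (nat_lit 302) (nat_lit 247) (nat_lit 231)) (XT.lf (nat_lit 0) (nat_lit 6812811855) (nat_lit 380) (nat_lit 926252482) (nat_lit 456) (nat_lit 1249512227) (nat_lit 79) (nat_lit 5) (nat_lit 84) (nat_lit 5) (nat_lit 85) (nat_lit 5) (nat_lit 303) (nat_lit 247) (nat_lit 230))) (XT.nd (nat_lit 78) (nat_lit 380) (nat_lit 0) (XT.lf (nat_lit 0) (nat_lit 1447030934) (nat_lit 380) (nat_lit 6270232745) (nat_lit 76) (nat_lit 1412285346) (nat_lit 74) (nat_lit 5) (nat_lit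 79) (nat_lit 5) (nat_lit 75) (nat_lit 5) (nat_lit 304) (nat_lit 247) (nat_lit 229)) (XT.nd (nat_lit 78) (nat_lit 380) (nat_lit 0) (XT.lf (nat_lit 0) (nat_lit 4166645229) (nat_lit 380) (nat_lit 1288599973) (nat_lit 76) (nat_lit 3820265052) (nat_lit 74) (nat_lit 5) (nat_lit 79) (nat_lit 5) (nat_lit 75) (nat_lit 5) (nat_lit 305) (nat_lit 247) (nat_lit 228)) (XT.lf (nat_lit 0) (nat_lit 3836967034) (nat_lit 380) (nat_lit 3105559812) (nat_lit 456) (nat_lit 2484228159) (nat_lit 69) (nat_lit 5) (nat_lit 74) (nat_lit 5) (nat_lit 75) (nat_lit 5) (nat_lit 306) (nat_lit 247) (nat_lit 227))))) (XT.nd (nat_lit 234) (nat_lit 304) (nat_lit 0) (XT.nd (nat_lit 78) (nat_lit 608) (nat_lit 0) (XT.lf (nat_lit 0) (nat_lit 166111255) (nat_lit 456) (nat_lit 522634418) (nat_lit 76) (nat_lit 8895327758) (nat_lit 68) (nat_lit 5) (nat_lit 74) (nat_lit 5) (nat_lit 69) (nat_lit 5) (nat_lit 307) (nat_lit 247) (nat_lit 226))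 (XT.nd (nat_lit 78) (nat_lit 304) (nat_lit 0) (XT.lf (nat_lit 0) (nat_lit 2848784195) (nat_lit 380) (nat_lit 5079034307) (nat_lit 76) (nat_lit 1817605143) (nat_lit 64) (nat_lit 5) (nat_lit 69) (nat_lit 5) (nat_lit 65) (nat_lit 5) (nat_lit 308) (nat_lit 247) (nat_lit 225)) (XT.lf (nat_lit 0) (nat_lit 24384614) (nat_lit 304) (nat_lit 5540659826) (nat_lit 380) (nat_lit 4348105586) (nat_lit 60) (nat_lit 5) (nat_lit 64) (nat_lit 5) (nat_lit 65) (nat_lit 5) (nat_lit 309) (nat_lit 247) (nat_lit 224)))) (XT.nd (nat_lit 78) (nat_lit 304) (nat_lit 0) (XT.lf (nat_lit 0) (nat_lit 5306240374) (nat_lit 304) (nat_lit 3049533231) (nat_lit 380) (nat_lit 1730470283) (nat_lit 60) (nat_lit 5) (nat_lit 64) (nat_lit 5) (nat_lit 65) (nat_lit 5) (nat_lit 310) (nat_lit 247) (nat_lit 223)) (XT.nd (nat_lit 78) (nat_lit 0) (nat_lit 0) (XT.lf (nat_lit 0) (nat_lit 402855096) (nat_lit 228) (nat_lit 490578801) (nat_lit 304)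 (nat_lit 9372538603) (nat_lit 56) (nat_lit 5) (nat_lit 59) (nat_lit 5) (nat_lit 60) (nat_lit 5) (nat_lit 311) (nat_lit 247) (nat_lit 222)) (XT.lf (nat_lit 0) (nat_lit 3574083337) (nat_lit 304) (nat_lit 4727281095) (nat_lit 76) (nat_lit 2148944776) (nat_lit 56) (nat_lit 5) (nat_lit 60) (nat_lit 5) (nat_lit 57) (nat_lit 5) (nat_lit 312) (nat_lit 247) (nat_lit 221)))))) (XT.nd (nat_lit 468) (nat_lit 760) (nat_lit 0) (XT.nd (nat_lit 234) (nat_lit 228) (nat_lit 0) (XT.nd (nat_lit 78) (nat_lit 304) (nat_lit 0) (XT.lf (nat_lit 0) (nat_lit 491055028) (nat_lit 304) (nat_lit 5798763954) (nat_lit 380) (nat_lit 4351828201) (nat_lit 52) (nat_lit 5) (nat_lit 56) (nat_lit 5) (nat_lit 57) (nat_lit 5) (nat_lit 313) (nat_lit 247) (nat_lit 220)) (XT.nd (nat_lit 78) (nat_lit 304) (nat_lit 0) (XT.lf (nat_lit 0) (nat_lit 5887293595) (nat_lit 304) (nat_lit 3193431648) (nat_lit 380) (nat_lit 1758297029) (nat_lit 52)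 (nat_lit 5) (nat_lit 56) (nat_lit 5) (nat_lit 57) (nat_lit 5) (nat_lit 314) (nat_lit 247) (nat_lit 219)) (XT.lf (nat_lit 0) (nat_lit 326178961) (nat_lit 228) (nat_lit 519093850) (nat_lit 304) (nat_lit 10198382755) (nat_lit 48) (nat_lit 5) (nat_lit 51) (nat_lit 5) (nat_lit 52) (nat_lit 5) (nat_lit 315) (nat_lit 247) (nat_lit 218)))) (XT.nd (nat_lit 78) (nat_lit 228) (nat_lit 0) (XT.lf (nat_lit 0) (nat_lit 3511140310) (nat_lit 304) (nat_lit 5503629823) (nat_lit 76) (nat_lit 2238648312) (nat_lit 48) (nat_lit 5) (nat_lit 52) (nat_lit 5) (nat_lit 49) (nat_lit 5) (nat_lit 316) (nat_lit 247) (nat_lit 217)) (XT.nd (nat_lit 78) (nat_lit 228) (nat_lit 0) (XT.lf (nat_lit 0) (nat_lit 6211195242) (nat_lit 304) (nat_lit 211554517) (nat_lit 76) (nat_lit 5048194006) (nat_lit 48) (nat_lit 5) (nat_lit 52) (nat_lit 5) (nat_lit 49) (nat_lit 5) (nat_lit 317) (nat_lit 247) (nat_lit 216)) (XT.lf (nat_lit 0) (nat_lit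 5271223866) (nat_lit 228) (nat_lit 3722253392) (nat_lit 304) (nat_lit 2701573926) (nat_lit 45) (nat_lit 5) (nat_lit 48) (nat_lit 5) (nat_lit 49) (nat_lit 5) (nat_lit 318) (nat_lit 247) (nat_lit 215))))) (XT.nd (nat_lit 234) (nat_lit 456) (nat_lit 0) (XT.nd (nat_lit 78) (nat_lit 304) (nat_lit 0) (XT.lf (nat_lit 0) (nat_lit 10852597808) (nat_lit 228) (nat_lit 960086519) (nat_lit 304) (nat_lit 114684190) (nat_lit 45) (nat_lit 5) (nat_lit 48) (nat_lit 5) (nat_lit 49) (nat_lit 5) (nat_lit 319) (nat_lit 247) (nat_lit 214)) (XT.nd (nat_lit 78) (nat_lit 0) (nat_lit 0) (XT.lf (nat_lit 0) (nat_lit 2513377117) (nat_lit 304) (nat_lit 7757314189) (nat_lit 76) (nat_lit 1894914329) (nat_lit 41) (nat_lit 5) (nat_lit 45) (nat_lit 5) (nat_lit 42) (nat_lit 5) (nat_lit 320) (nat_lit 247) (nat_lit 213)) (XT.lf (nat_lit 0) (nat_lit 5191153372) (nat_lit 304) (nat_lit 2413362071) (nat_lit 76) (nat_lit 4807327735) (nat_lit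 41) (nat_lit 5) (nat_lit 45) (nat_lit 5) (nat_lit 42) (nat_lit 5) (nat_lit 321) (nat_lit 247) (nat_lit 212)))) (XT.nd (nat_lit 78) (nat_lit 228) (nat_lit 0) (XT.lf (nat_lit 0) (nat_lit 3083282062) (nat_lit 228) (nat_lit 4849708379) (nat_lit 304) (nat_lit 4733045890) (nat_lit 38) (nat_lit 5) (nat_lit 41) (nat_lit 5) (nat_lit 42) (nat_lit 5) (nat_lit 322) (nat_lit 247) (nat_lit 211)) (XT.nd (nat_lit 78) (nat_lit 228) (nat_lit 0) (XT.lf (nat_lit 0) (nat_lit 8727169224) (nat_lit 228) (nat_lit 2009064693) (nat_lit 304) (nat_lit 2192324796) (nat_lit 38) (nat_lit 5) (nat_lit 41) (nat_lit 5) (nat_lit 42) (nat_lit 5) (nat_lit 323) (nat_lit 247) (nat_lit 210)) (XT.lf (nat_lit 0) (nat_lit 393151978) (nat_lit 228) (nat_lit 11912130127) (nat_lit 76) (nat_lit 894321111) (nat_lit 35) (nat_lit 5) (nat_lit 38) (nat_lit 5) (nat_lit 36) (nat_lit 5) (nat_lit 324) (nat_lit 247) (nat_lit 209))))))) (XT.nd (nat_lit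 858) (nat_lit 608) (nat_lit 0) (XT.nd (nat_lit 390) (nat_lit 380) (nat_lit 0) (XT.nd (nat_lit 156) (nat_lit 380) (nat_lit 0) (XT.nd (nat_lit 78) (nat_lit 0) (nat_lit 0) (XT.lf (nat_lit 0) (nat_lit 3030911448) (nat_lit 228) (nat_lit 6559054864) (nat_lit 76) (nat_lit 3887669451) (nat_lit 35) (nat_lit 5) (nat_lit 38) (nat_lit 5) (nat_lit 36) (nat_lit 5) (nat_lit 325) (nat_lit 247) (nat_lit 208)) (XT.lf (nat_lit 0) (nat_lit 5705128330) (nat_lit 228) (nat_lit 1110102414) (nat_lit 76) (nat_lit 6950128081) (nat_lit 35) (nat_lit 5) (nat_lit 38) (nat_lit 5) (nat_lit 36) (nat_lit 5) (nat_lit 326) (nat_lit 247) (nat_lit 207))) (XT.nd (nat_lit 78) (nat_lit 152) (nat_lit 0) (XT.lf (nat_lit 0) (nat_lit 4527842968) (nat_lit 228) (nat_lit 3933820747) (nat_lit 304) (nat_lit 5600054363) (nat_lit 32) (nat_lit 5) (nat_lit 35) (nat_lit 5) (nat_lit 36) (nat_lit 5) (nat_lit 327) (nat_lit 247) (nat_lit 206)) (XT.nd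 (nat_lit 78) (nat_lit 152) (nat_lit 0) (XT.lf (nat_lit 0) (nat_lit 10295468540) (nat_lit 228) (nat_lit 975812808) (nat_lit 304) (nat_lit 3096640475) (nat_lit 32) (nat_lit 5) (nat_lit 35) (nat_lit 5) (nat_lit 36) (nat_lit 5) (nat_lit 328) (nat_lit 247) (nat_lit 205)) (XT.lf (nat_lit 0) (nat_lit 1500733895) (nat_lit 152) (nat_lit 12658952423) (nat_lit 228) (nat_lit 523853797) (nat_lit 30) (nat_lit 5) (nat_lit 32) (nat_lit 5) (nat_lit 33) (nat_lit 4) (nat_lit 329) (nat_lit 247) (nat_lit 204))))) (XT.nd (nat_lit 234) (nat_lit 152) (nat_lit 0) (XT.nd (nat_lit 78) (nat_lit 152) (nat_lit 0) (XT.lf (nat_lit 0) (nat_lit 2096112717) (nat_lit 228) (nat_lit 7775003919) (nat_lit 76) (nat_lit 5136612420) (nat_lit 29) (nat_lit 5) (nat_lit 32) (nat_lit 5) (nat_lit 30) (nat_lit 5) (nat_lit 330) (nat_lit 247) (nat_lit 203)) (XT.nd (nat_lit 78) (nat_lit 152) (nat_lit 0) (XT.lf (nat_lit 0) (nat_lit 4745597784)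 (nat_lit 228) (nat_lit 2270059515) (nat_lit 76) (nat_lit 8327045328) (nat_lit 29) (nat_lit 5) (nat_lit 32) (nat_lit 5) (nat_lit 30) (nat_lit 5) (nat_lit 331) (nat_lit 247) (nat_lit 202)) (XT.lf (nat_lit 0) (nat_lit 3408382558) (nat_lit 152) (nat_lit 4061519661) (nat_lit 228) (nat_lit 8218019470) (nat_lit 27) (nat_lit 5) (nat_lit 29) (nat_lit 5) (nat_lit 30) (nat_lit 5) (nat_lit 332) (nat_lit 247) (nat_lit 201)))) (XT.nd (nat_lit 78) (nat_lit 152) (nat_lit 0) (XT.lf (nat_lit 0) (nat_lit 9246121609) (nat_lit 152) (nat_lit 1015845251) (nat_lit 228) (nat_lit 5782004221) (nat_lit 27) (nat_lit 5) (nat_lit 29) (nat_lit 5) (nat_lit 30) (nat_lit 5) (nat_lit 333) (nat_lit 247) (nat_lit 200)) (XT.nd (nat_lit 78) (nat_lit 152) (nat_lit 0) (XT.lf (nat_lit 0) (nat_lit 13122172983) (nat_lit 228) (nat_lit 1228946735) (nat_lit 76) (nat_lit 2060103943) (nat_lit 27) (nat_lit 5) (nat_lit 30) (nat_lit 5) (nat_lit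 28) (nat_lit 4) (nat_lit 334) (nat_lit 247) (nat_lit 199)) (XT.lf (nat_lit 0) (nat_lit 4530173615) (nat_lit 152) (nat_lit 11556654483) (nat_lit 228) (nat_lit 702157984) (nat_lit 25) (nat_lit 5) (nat_lit 27) (nat_lit 5) (nat_lit 28) (nat_lit 4) (nat_lit 335) (nat_lit 247) (nat_lit 198)))))) (XT.nd (nat_lit 468) (nat_lit 228) (nat_lit 0) (XT.nd (nat_lit 234) (nat_lit 152) (nat_lit 0) (XT.nd (nat_lit 78) (nat_lit 152) (nat_lit 0) (XT.lf (nat_lit 0) (nat_lit 1901722722) (nat_lit 228) (nat_lit 6764828258) (nat_lit 76) (nat_lit 8511682882) (nat_lit 24) (nat_lit 5) (nat_lit 27) (nat_lit 5) (nat_lit 25) (nat_lit 5) (nat_lit 336) (nat_lit 247) (nat_lit 197)) (XT.nd (nat_lit 78) (nat_lit 152) (nat_lit 0) (XT.lf (nat_lit 0) (nat_lit 4535763247) (nat_lit 228) (nat_lit 1166756059) (nat_lit 76) (nat_lit 11877493699) (nat_lit 24) (nat_lit 5) (nat_lit 27) (nat_lit 5) (nat_lit 25) (nat_lit 5) (nat_lit 337) (nat_lit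 247) (nat_lit 196)) (XT.lf (nat_lit 0) (nat_lit 4637540336) (nat_lit 152) (nat_lit 2623005350) (nat_lit 228) (nat_lit 10732994015) (nat_lit 22) (nat_lit 5) (nat_lit 24) (nat_lit 5) (nat_lit 25) (nat_lit 5) (nat_lit 338) (nat_lit 247) (nat_lit 195)))) (XT.nd (nat_lit 78) (nat_lit 152) (nat_lit 0) (XT.lf (nat_lit 0) (nat_lit 10051662828) (nat_lit 228) (nat_lit 7837160768) (nat_lit 76) (nat_lit 531155333) (nat_lit 22) (nat_lit 5) (nat_lit 25) (nat_lit 5) (nat_lit 23) (nat_lit 4) (nat_lit 339) (nat_lit 247) (nat_lit 194)) (XT.nd (nat_lit 78) (nat_lit 152) (nat_lit 0) (XT.lf (nat_lit 0) (nat_lit 12920849193) (nat_lit 228) (nat_lit 2229729351) (nat_lit 76) (nat_lit 3708845888) (nat_lit 22) (nat_lit 5) (nat_lit 25) (nat_lit 5) (nat_lit 23) (nat_lit 4) (nat_lit 340) (nat_lit 247) (nat_lit 193)) (XT.lf (nat_lit 0) (nat_lit 3565993898) (nat_lit 152) (nat_lit 12313682523) (nat_lit 228) (nat_lit 3432311835)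 (nat_lit 20) (nat_lit 5) (nat_lit 22) (nat_lit 5) (nat_lit 23) (nat_lit 4) (nat_lit 341) (nat_lit 247) (nat_lit 192))))) (XT.nd (nat_lit 234) (nat_lit 0) (nat_lit 0) (XT.nd (nat_lit 78) (nat_lit 228) (nat_lit 0) (XT.lf (nat_lit 0) (nat_lit 9532265074) (nat_lit 152) (nat_lit 9387229289) (nat_lit 228) (nat_lit 858908548) (nat_lit 20) (nat_lit 5) (nat_lit 22) (nat_lit 5) (nat_lit 23) (nat_lit 4) (nat_lit 342) (nat_lit 247) (nat_lit 191)) (XT.nd (nat_lit 78) (nat_lit 152) (nat_lit 0) (XT.lf (nat_lit 0) (nat_lit 1726996710) (nat_lit 228) (nat_lit 4646741652) (nat_lit 76) (nat_lit 13885485444) (nat_lit 19) (nat_lit 5) (nat_lit 22) (nat_lit 5) (nat_lit 20) (nat_lit 5) (nat_lit 343) (nat_lit 247) (nat_lit 190)) (XT.lf (nat_lit 0) (nat_lit 1086505718) (nat_lit 152) (nat_lit 3268282833) (nat_lit 228) (nat_lit 16400015716) (nat_lit 17) (nat_lit 5) (nat_lit 19) (nat_lit 5) (nat_lit 20) (nat_lit 5) (nat_lit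 344) (nat_lit 247) (nat_lit 189)))) (XT.nd (nat_lit 78) (nat_lit 0) (nat_lit 0) (XT.lf (nat_lit 0) (nat_lit 7040634964) (nat_lit 152) (nat_lit 39225830) (nat_lit 228) (nat_lit 14184874104) (nat_lit 17) (nat_lit 5) (nat_lit 19) (nat_lit 5) (nat_lit 20) (nat_lit 5) (nat_lit 345) (nat_lit 247) (nat_lit 188)) (XT.nd (nat_lit 78) (nat_lit 0) (nat_lit 0) (XT.lf (nat_lit 0) (nat_lit 9890465089) (nat_lit 228) (nat_lit 8693885317) (nat_lit 76) (nat_lit 3205534745) (nat_lit 17) (nat_lit 5) (nat_lit 20) (nat_lit 5) (nat_lit 18) (nat_lit 4) (nat_lit 346) (nat_lit 247) (nat_lit 187)) (XT.lf (nat_lit 0) (nat_lit 12758772089) (nat_lit 228) (nat_lit 3042537255) (nat_lit 76) (nat_lit 6530313112) (nat_lit 17) (nat_lit 5) (nat_lit 20) (nat_lit 5) (nat_lit 18) (nat_lit 4) (nat_lit 347) (nat_lit 247) (nat_lit 186))))))))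
noncomputable def xc76 : XT := (XT.nd (nat_lit 1716) (nat_lit 228) (nat_lit 0) (XT.nd (nat_lit 858) (nat_lit 304) (nat_lit 0) (XT.nd (nat_lit 390) (nat_lit 76) (nat_lit 0) (XT.nd (nat_lit 156) (nat_lit 228) (nat_lit 0) (XT.nd (nat_lit 78) (nat_lit 0) (nat_lit 0) (XT.lf (nat_lit 0) (nat_lit 2789696409) (nat_lit 76) (nat_lit 12924030878) (nat_lit 152) (nat_lit 7175899710) (nat_lit 16) (nat_lit 5) (nat_lit 17) (nat_lit 5) (nat_lit 18) (nat_lit 4) (nat_lit 348) (nat_lit 247) (nat_lit 185)) (XT.lf (nat_lit 0) (nat_lit 8816596721) (nat_lit 76) (nat_lit 9945594246) (nat_lit 152) (nat_lit 4702067037) (nat_lit 16) (nat_lit 5) (nat_lit 17) (nat_lit 5) (nat_lit 18) (nat_lit 4) (nat_lit 349) (nat_lit 247) (nat_lit 184))) (XT.nd (nat_lit 78) (nat_lit 228) (nat_lit 0) (XT.lf (nat_lit 0) (nat_lit 14982877445) (nat_lit 76) (nat_lit 6894120592) (nat_lit 152) (nat_lit 2179914405) (nat_lit 16) (nat_lit 5) (nat_lit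 17) (nat_lit 5) (nat_lit 18) (nat_lit 4) (nat_lit 350) (nat_lit 247) (nat_lit 183)) (XT.nd (nat_lit 78) (nat_lit 152) (nat_lit 0) (XT.lf (nat_lit 0) (nat_lit 385097805) (nat_lit 152) (nat_lit 3377957042) (nat_lit 76) (nat_lit 20904940058) (nat_lit 15) (nat_lit 5) (nat_lit 17) (nat_lit 5) (nat_lit 16) (nat_lit 5) (nat_lit 351) (nat_lit 247) (nat_lit 182)) (XT.lf (nat_lit 0) (nat_lit 2476185865) (nat_lit 152) (nat_lit 506930765) (nat_lit 228) (nat_lit 22313678141) (nat_lit 13) (nat_lit 5) (nat_lit 15) (nat_lit 5) (nat_lit 16) (nat_lit 5) (nat_lit 352) (nat_lit 247) (nat_lit 181))))) (XT.nd (nat_lit 234) (nat_lit 76) (nat_lit 0) (XT.nd (nat_lit 78) (nat_lit 0) (nat_lit 0) (XT.lf (nat_lit 0) (nat_lit 5697129232) (nat_lit 228) (nat_lit 17435693245) (nat_lit 76) (nat_lit 2810522270) (nat_lit 13) (nat_lit 5) (nat_lit 16) (nat_lit 5) (nat_lit 14) (nat_lit 4) (nat_lit 353) (nat_lit 247) (nat_lit 180))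 (XT.nd (nat_lit 78) (nat_lit 0) (nat_lit 0) (XT.lf (nat_lit 0) (nat_lit 8474512215) (nat_lit 228) (nat_lit 11932843549) (nat_lit 76) (nat_lit 6202503861) (nat_lit 13) (nat_lit 5) (nat_lit 16) (nat_lit 5) (nat_lit 14) (nat_lit 4) (nat_lit 354) (nat_lit 247) (nat_lit 179)) (XT.lf (nat_lit 0) (nat_lit 11312819492) (nat_lit 228) (nat_lit 6302378573) (nat_lit 76) (nat_lit 9681869919) (nat_lit 13) (nat_lit 5) (nat_lit 16) (nat_lit 5) (nat_lit 14) (nat_lit 4) (nat_lit 355) (nat_lit 247) (nat_lit 178)))) (XT.nd (nat_lit 78) (nat_lit 76) (nat_lit 0) (XT.lf (nat_lit 0) (nat_lit 14214531136) (nat_lit 228) (nat_lit 539378495) (nat_lit 76) (nat_lit 13251660668) (nat_lit 13) (nat_lit 5) (nat_lit 16) (nat_lit 5) (nat_lit 14) (nat_lit 4) (nat_lit 356) (nat_lit 247) (nat_lit 177)) (XT.nd (nat_lit 78) (nat_lit 0) (nat_lit 0) (XT.lf (nat_lit 0) (nat_lit 5467890556) (nat_lit 76) (nat_lit 11766852777) (nat_lit 152)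 (nat_lit 11499665494) (nat_lit 12) (nat_lit 5) (nat_lit 13) (nat_lit 5) (nat_lit 14) (nat_lit 4) (nat_lit 357) (nat_lit 247) (nat_lit 176)) (XT.lf (nat_lit 0) (nat_lit 11631461408) (nat_lit 76) (nat_lit 8698714364) (nat_lit 152) (nat_lit 9155422224) (nat_lit 12) (nat_lit 5) (nat_lit 13) (nat_lit 5) (nat_lit 14) (nat_lit 4) (nat_lit 358) (nat_lit 247) (nat_lit 175)))))) (XT.nd (nat_lit 390) (nat_lit 76) (nat_lit 0) (XT.nd (nat_lit 156) (nat_lit 228) (nat_lit 0) (XT.nd (nat_lit 78) (nat_lit 0) (nat_lit 0) (XT.lf (nat_lit 0) (nat_lit 17945985016) (nat_lit 76) (nat_lit 5552260159) (nat_lit 152) (nat_lit 6761707653) (nat_lit 12) (nat_lit 5) (nat_lit 13) (nat_lit 5) (nat_lit 14) (nat_lit 4) (nat_lit 359) (nat_lit 247) (nat_lit 174)) (XT.lf (nat_lit 0) (nat_lit 24416978925) (nat_lit 76) (nat_lit 2324740833) (nat_lit 152) (nat_lit 4316430184) (nat_lit 12) (nat_lit 5) (nat_lit 13) (nat_lit 5) (nat_lit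 14) (nat_lit 4) (nat_lit 360) (nat_lit 247) (nat_lit 173))) (XT.nd (nat_lit 78) (nat_lit 228) (nat_lit 0) (XT.lf (nat_lit 0) (nat_lit 30072918041) (nat_lit 152) (nat_lit 840273809) (nat_lit 0) (nat_lit 967410410) (nat_lit 12) (nat_lit 5) (nat_lit 14) (nat_lit 4) (nat_lit 12) (nat_lit 4) (nat_lit 361) (nat_lit 247) (nat_lit 172)) (XT.nd (nat_lit 78) (nat_lit 0) (nat_lit 0) (XT.lf (nat_lit 0) (nat_lit 815882722) (nat_lit 228) (nat_lit 27552914186) (nat_lit 76) (nat_lit 4357086759) (nat_lit 9) (nat_lit 5) (nat_lit 12) (nat_lit 5) (nat_lit 10) (nat_lit 4) (nat_lit 362) (nat_lit 247) (nat_lit 171)) (XT.lf (nat_lit 0) (nat_lit 3471802964) (nat_lit 228) (nat_lit 22262025689) (nat_lit 76) (nat_lit 7862478577) (nat_lit 9) (nat_lit 5) (nat_lit 12) (nat_lit 5) (nat_lit 10) (nat_lit 4) (nat_lit 363) (nat_lit 247) (nat_lit 170))))) (XT.nd (nat_lit 234) (nat_lit 76) (nat_lit 0) (XT.nd (nat_lit 78) (nat_lit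 0) (nat_lit 0) (XT.lf (nat_lit 0) (nat_lit 6189352100) (nat_lit 228) (nat_lit 16843099578) (nat_lit 76) (nat_lit 11460952718) (nat_lit 9) (nat_lit 5) (nat_lit 12) (nat_lit 5) (nat_lit 10) (nat_lit 4) (nat_lit 364) (nat_lit 247) (nat_lit 169)) (XT.nd (nat_lit 78) (nat_lit 0) (nat_lit 0) (XT.lf (nat_lit 0) (nat_lit 8970904689) (nat_lit 228) (nat_lit 11291400868) (nat_lit 76) (nat_lit 15155653481) (nat_lit 9) (nat_lit 5) (nat_lit 12) (nat_lit 5) (nat_lit 10) (nat_lit 4) (nat_lit 365) (nat_lit 247) (nat_lit 168)) (XT.lf (nat_lit 0) (nat_lit 11818891211) (nat_lit 228) (nat_lit 5602078560) (nat_lit 76) (nat_lit 18949809244) (nat_lit 9) (nat_lit 5) (nat_lit 12) (nat_lit 5) (nat_lit 10) (nat_lit 4) (nat_lit 366) (nat_lit 247) (nat_lit 167)))) (XT.nd (nat_lit 78) (nat_lit 0) (nat_lit 0) (XT.lf (nat_lit 0) (nat_lit 234412834) (nat_lit 76) (nat_lit 14503640685) (nat_lit 152) (nat_lit 22614575774) (nat_lit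 8) (nat_lit 5) (nat_lit 9) (nat_lit 5) (nat_lit 10) (nat_lit 4) (nat_lit 367) (nat_lit 247) (nat_lit 166)) (XT.nd (nat_lit 78) (nat_lit 0) (nat_lit 0) (XT.lf (nat_lit 0) (nat_lit 6333026612) (nat_lit 76) (nat_lit 11452030725) (nat_lit 152) (nat_lit 20577687012) (nat_lit 8) (nat_lit 5) (nat_lit 9) (nat_lit 5) (nat_lit 10) (nat_lit 4) (nat_lit 368) (nat_lit 247) (nat_lit 165)) (XT.lf (nat_lit 0) (nat_lit 12587599310) (nat_lit 76) (nat_lit 8320043446) (nat_lit 152) (nat_lit 18496011721) (nat_lit 8) (nat_lit 5) (nat_lit 9) (nat_lit 5) (nat_lit 10) (nat_lit 4) (nat_lit 369) (nat_lit 247) (nat_lit 164))))))) (XT.nd (nat_lit 858) (nat_lit 76) (nat_lit 0) (XT.nd (nat_lit 390) (nat_lit 76) (nat_lit 0) (XT.nd (nat_lit 156) (nat_lit 76) (nat_lit 0) (XT.nd (nat_lit 78) (nat_lit 0) (nat_lit 0) (XT.lf (nat_lit 0) (nat_lit 19003596089) (nat_lit 76) (nat_lit 5104942158) (nat_lit 152) (nat_lit 16367730962) (nat_lit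 8) (nat_lit 5) (nat_lit 9) (nat_lit 5) (nat_lit 10) (nat_lit 4) (nat_lit 370) (nat_lit 247) (nat_lit 163)) (XT.lf (nat_lit 0) (nat_lit 25586623159) (nat_lit 76) (nat_lit 1803917552) (nat_lit 152) (nat_lit 14190985073) (nat_lit 8) (nat_lit 5) (nat_lit 9) (nat_lit 5) (nat_lit 10) (nat_lit 4) (nat_lit 371) (nat_lit 247) (nat_lit 162))) (XT.nd (nat_lit 78) (nat_lit 76) (nat_lit 0) (XT.lf (nat_lit 0) (nat_lit 30771762699) (nat_lit 152) (nat_lit 10393202060) (nat_lit 0) (nat_lit 1554967854) (nat_lit 8) (nat_lit 5) (nat_lit 10) (nat_lit 4) (nat_lit 8) (nat_lit 4) (nat_lit 372) (nat_lit 247) (nat_lit 161)) (XT.nd (nat_lit 78) (nat_lit 76) (nat_lit 0) (XT.lf (nat_lit 0) (nat_lit 34258123079) (nat_lit 152) (nat_lit 4665641138) (nat_lit 0) (nat_lit 4968631274) (nat_lit 8) (nat_lit 5) (nat_lit 10) (nat_lit 4) (nat_lit 8) (nat_lit 4) (nat_lit 373) (nat_lit 247) (nat_lit 160)) (XT.lf (nat_lit 0) (nat_lit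 1234209027) (nat_lit 76) (nat_lit 36612982772) (nat_lit 76) (nat_lit 7252911394) (nat_lit 7) (nat_lit 4) (nat_lit 8) (nat_lit 5) (nat_lit 8) (nat_lit 4) (nat_lit 374) (nat_lit 247) (nat_lit 159))))) (XT.nd (nat_lit 234) (nat_lit 0) (nat_lit 0) (XT.nd (nat_lit 78) (nat_lit 76) (nat_lit 0) (XT.lf (nat_lit 0) (nat_lit 7383305902) (nat_lit 76) (nat_lit 34194169604) (nat_lit 76) (nat_lit 4765574369) (nat_lit 7) (nat_lit 4) (nat_lit 8) (nat_lit 5) (nat_lit 8) (nat_lit 4) (nat_lit 375) (nat_lit 247) (nat_lit 158)) (XT.nd (nat_lit 78) (nat_lit 76) (nat_lit 0) (XT.lf (nat_lit 0) (nat_lit 13694167078) (nat_lit 76) (nat_lit 31712325017) (nat_lit 76) (nat_lit 2217201765) (nat_lit 7) (nat_lit 4) (nat_lit 8) (nat_lit 5) (nat_lit 8) (nat_lit 4) (nat_lit 376) (nat_lit 247) (nat_lit 157)) (XT.lf (nat_lit 0) (nat_lit 386736339) (nat_lit 152) (nat_lit 28774638790) (nat_lit 76) (nat_lit 19781665280) (nat_lit 6)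 (nat_lit 5) (nat_lit 8) (nat_lit 5) (nat_lit 7) (nat_lit 4) (nat_lit 377) (nat_lit 247) (nat_lit 156)))) (XT.nd (nat_lit 78) (nat_lit 0) (nat_lit 0) (XT.lf (nat_lit 0) (nat_lit 3011674169) (nat_lit 152) (nat_lit 23508724030) (nat_lit 76) (nat_lit 23781299700) (nat_lit 6) (nat_lit 5) (nat_lit 8) (nat_lit 5) (nat_lit 7) (nat_lit 4) (nat_lit 378) (nat_lit 247) (nat_lit 155)) (XT.nd (nat_lit 78) (nat_lit 0) (nat_lit 0) (XT.lf (nat_lit 0) (nat_lit 5703170953) (nat_lit 152) (nat_lit 18105868119) (nat_lit 76) (nat_lit 27892453830) (nat_lit 6) (nat_lit 5) (nat_lit 8) (nat_lit 5) (nat_lit 7) (nat_lit 4) (nat_lit 379) (nat_lit 247) (nat_lit 154)) (XT.lf (nat_lit 0) (nat_lit 8463578483) (nat_lit 152) (nat_lit 12561350114) (nat_lit 76) (nat_lit 32118719941) (nat_lit 6) (nat_lit 5) (nat_lit 8) (nat_lit 5) (nat_lit 7) (nat_lit 4) (nat_lit 380) (nat_lit 247) (nat_lit 153)))))) (XT.nd (nat_lit 468) (nat_lit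 0) (nat_lit 0) (XT.nd (nat_lit 234) (nat_lit 0) (nat_lit 0) (XT.nd (nat_lit 78) (nat_lit 76) (nat_lit 0) (XT.lf (nat_lit 0) (nat_lit 11295308766) (nat_lit 152) (nat_lit 6870325292) (nat_lit 76) (nat_lit 36463790885) (nat_lit 6) (nat_lit 5) (nat_lit 8) (nat_lit 5) (nat_lit 7) (nat_lit 4) (nat_lit 381) (nat_lit 247) (nat_lit 152)) (XT.nd (nat_lit 78) (nat_lit 76) (nat_lit 0) (XT.lf (nat_lit 0) (nat_lit 14200836129) (nat_lit 152) (nat_lit 1027820911) (nat_lit 76) (nat_lit 40931463328) (nat_lit 6) (nat_lit 5) (nat_lit 8) (nat_lit 5) (nat_lit 7) (nat_lit 4) (nat_lit 382) (nat_lit 247) (nat_lit 151)) (XT.lf (nat_lit 0) (nat_lit 5070206110) (nat_lit 76) (nat_lit 12161231195) (nat_lit 152) (nat_lit 40504172873) (nat_lit 5) (nat_lit 5) (nat_lit 6) (nat_lit 5) (nat_lit 7) (nat_lit 4) (nat_lit 383) (nat_lit 247) (nat_lit 150)))) (XT.nd (nat_lit 78) (nat_lit 0) (nat_lit 0) (XT.lf (nat_lit 0) (nat_lit 11353736032)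 (nat_lit 76) (nat_lit 8998907062) (nat_lit 152) (nat_lit 39005741437) (nat_lit 5) (nat_lit 5) (nat_lit 6) (nat_lit 5) (nat_lit 7) (nat_lit 4) (nat_lit 384) (nat_lit 247) (nat_lit 149)) (XT.nd (nat_lit 78) (nat_lit 0) (nat_lit 0) (XT.lf (nat_lit 0) (nat_lit 17807803665) (nat_lit 76) (nat_lit 5749300424) (nat_lit 152) (nat_lit 37473059600) (nat_lit 5) (nat_lit 5) (nat_lit 6) (nat_lit 5) (nat_lit 7) (nat_lit 4) (nat_lit 385) (nat_lit 247) (nat_lit 148)) (XT.lf (nat_lit 0) (nat_lit 24438048485) (nat_lit 76) (nat_lit 2409571817) (nat_lit 152) (nat_lit 35904788124) (nat_lit 5) (nat_lit 5) (nat_lit 6) (nat_lit 5) (nat_lit 7) (nat_lit 4) (nat_lit 386) (nat_lit 247) (nat_lit 147))))) (XT.nd (nat_lit 234) (nat_lit 0) (nat_lit 0) (XT.nd (nat_lit 78) (nat_lit 0) (nat_lit 0) (XT.lf (nat_lit 0) (nat_lit 30236902537) (nat_lit 152) (nat_lit 33286195303) (nat_lit 0) (nat_lit 1003230709) (nat_lit 5) (nat_lit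 5) (nat_lit 7) (nat_lit 4) (nat_lit 5) (nat_lit 4) (nat_lit 387) (nat_lit 247) (nat_lit 146)) (XT.nd (nat_lit 78) (nat_lit 0) (nat_lit 0) (XT.lf (nat_lit 0) (nat_lit 33742153585) (nat_lit 152) (nat_lit 28147713849) (nat_lit 0) (nat_lit 4463179414) (nat_lit 5) (nat_lit 5) (nat_lit 7) (nat_lit 4) (nat_lit 5) (nat_lit 4) (nat_lit 388) (nat_lit 247) (nat_lit 145)) (XT.lf (nat_lit 0) (nat_lit 37343274008) (nat_lit 152) (nat_lit 22871263366) (nat_lit 0) (nat_lit 8020316981) (nat_lit 5) (nat_lit 5) (nat_lit 7) (nat_lit 4) (nat_lit 5) (nat_lit 4) (nat_lit 389) (nat_lit 247) (nat_lit 144)))) (XT.nd (nat_lit 78) (nat_lit 0) (nat_lit 0) (XT.lf (nat_lit 0) (nat_lit 41043410415) (nat_lit 152) (nat_lit 17452233362) (nat_lit 0) (nat_lit 11677751586) (nat_lit 5) (nat_lit 5) (nat_lit 7) (nat_lit 4) (nat_lit 5) (nat_lit 4) (nat_lit 390) (nat_lit 247) (nat_lit 143)) (XT.nd (nat_lit 78) (nat_lit 0) (nat_lit 0)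 (XT.lf (nat_lit 0) (nat_lit 44845795936) (nat_lit 152) (nat_lit 11885888763) (nat_lit 0) (nat_lit 15438679046) (nat_lit 5) (nat_lit 5) (nat_lit 7) (nat_lit 4) (nat_lit 5) (nat_lit 4) (nat_lit 391) (nat_lit 247) (nat_lit 142)) (XT.lf (nat_lit 0) (nat_lit 48753753044) (nat_lit 152) (nat_lit 6167365773) (nat_lit 0) (nat_lit 19306385610) (nat_lit 5) (nat_lit 5) (nat_lit 7) (nat_lit 4) (nat_lit 5) (nat_lit 4) (nat_lit 392) (nat_lit 247) (nat_lit 141))))))))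
noncomputable def xc77 : XT := (XT.nd (nat_lit 33306) (nat_lit 0) (nat_lit 2812) (XT.nd (nat_lit 32448) (nat_lit 0) (nat_lit 6992) (XT.nd (nat_lit 390) (nat_lit 0) (nat_lit 0) (XT.nd (nat_lit 156) (nat_lit 0) (nat_lit 0) (XT.nd (nat_lit 78) (nat_lit 76) (nat_lit 0) (XT.lf (nat_lit 0) (nat_lit 52770696458) (nat_lit 152) (nat_lit 291667624) (nat_lit 0) (nat_lit 23284250826) (nat_lit 5) (nat_lit 5) (nat_lit 7) (nat_lit 4) (nat_lit 5) (nat_lit 4) (nat_lit 393) (nat_lit 247) (nat_lit 140)) (XT.lf (nat_lit 0) (nat_lit 5860703218) (nat_lit 76) (nat_lit 51095769575) (nat_lit 76) (nat_lit 21571383945) (nat_lit 4) (nat_lit 4) (nat_lit 5) (nat_lit 5) (nat_lit 5) (nat_lit 4) (nat_lit 394) (nat_lit 247) (nat_lit 139))) (XT.nd (nat_lit 78) (nat_lit 0) (nat_lit 0) (XT.lf (nat_lit 0) (nat_lit 12189799285) (nat_lit 76) (nat_lit 49073056827) (nat_lit 76) (nat_lit 19511836247) (nat_lit 4) (nat_lit 4) (nat_lit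 5) (nat_lit 5) (nat_lit 5) (nat_lit 4) (nat_lit 395) (nat_lit 247) (nat_lit 138)) (XT.nd (nat_lit 78) (nat_lit 0) (nat_lit 0) (XT.lf (nat_lit 0) (nat_lit 18695346097) (nat_lit 76) (nat_lit 46995403691) (nat_lit 76) (nat_lit 17398421024) (nat_lit 4) (nat_lit 4) (nat_lit 5) (nat_lit 5) (nat_lit 5) (nat_lit 4) (nat_lit 396) (nat_lit 247) (nat_lit 137)) (XT.lf (nat_lit 0) (nat_lit 25383028112) (nat_lit 76) (nat_lit 44860994741) (nat_lit 76) (nat_lit 15229291601) (nat_lit 4) (nat_lit 4) (nat_lit 5) (nat_lit 5) (nat_lit 5) (nat_lit 4) (nat_lit 397) (nat_lit 247) (nat_lit 136))))) (XT.nd (nat_lit 31824) (nat_lit 0) (nat_lit 10260) (XT.nd (nat_lit 78) (nat_lit 0) (nat_lit 0) (XT.lf (nat_lit 0) (nat_lit 32258688936) (nat_lit 76) (nat_lit 42667964960) (nat_lit 76) (nat_lit 13002552623) (nat_lit 4) (nat_lit 4) (nat_lit 5) (nat_lit 5) (nat_lit 5) (nat_lit 4) (nat_lit 398) (nat_lit 247) (nat_lit 135)) (XT.nd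 (nat_lit 31668) (nat_lit 0) (nat_lit 12388) (XT.lf (nat_lit 0) (nat_lit 39328336428) (nat_lit 76) (nat_lit 40414398109) (nat_lit 76) (nat_lit 10716258395) (nat_lit 4) (nat_lit 4) (nat_lit 5) (nat_lit 5) (nat_lit 5) (nat_lit 4) (nat_lit 399) (nat_lit 247) (nat_lit 134)) (XT.lf (nat_lit 0) (nat_lit 986801279) (nat_lit 988) (nat_lit 1598616042) (nat_lit 0) (nat_lit 986801279) (nat_lit 167) (nat_lit 5) (nat_lit 180) (nat_lit 4) (nat_lit 167) (nat_lit 4) (nat_lit 284) (nat_lit 248) (nat_lit 248)))) (XT.nd (nat_lit 78) (nat_lit 1140) (nat_lit 0) (XT.lf (nat_lit 0) (nat_lit 1070325938) (nat_lit 988) (nat_lit 3854693959) (nat_lit 988) (nat_lit 2282204945) (nat_lit 154) (nat_lit 4) (nat_lit 167) (nat_lit 5) (nat_lit 167) (nat_lit 4) (nat_lit 285) (nat_lit 248) (nat_lit 247)) (XT.nd (nat_lit 78) (nat_lit 1064) (nat_lit 0) (XT.lf (nat_lit 0) (nat_lit 623184908) (nat_lit 1064) (nat_lit 1834112013) (nat_lit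 76) (nat_lit 4816394247) (nat_lit 153) (nat_lit 5) (nat_lit 167) (nat_lit 5) (nat_lit 154) (nat_lit 4) (nat_lit 286) (nat_lit 248) (nat_lit 246)) (XT.lf (nat_lit 0) (nat_lit 2539619228) (nat_lit 1064) (nat_lit 968271568) (nat_lit 1140) (nat_lit 3835736931) (nat_lit 139) (nat_lit 5) (nat_lit 153) (nat_lit 5) (nat_lit 154) (nat_lit 4) (nat_lit 287) (nat_lit 248) (nat_lit 245)))))) (XT.nd (nat_lit 390) (nat_lit 1444) (nat_lit 0) (XT.nd (nat_lit 156) (nat_lit 1140) (nat_lit 0) (XT.nd (nat_lit 78) (nat_lit 684) (nat_lit 0) (XT.lf (nat_lit 0) (nat_lit 6418599539) (nat_lit 1140) (nat_lit 425662124) (nat_lit 0) (nat_lit 573503138) (nat_lit 139) (nat_lit 5) (nat_lit 154) (nat_lit 4) (nat_lit 139) (nat_lit 4) (nat_lit 288) (nat_lit 248) (nat_lit 244)) (XT.lf (nat_lit 0) (nat_lit 1850876217) (nat_lit 684) (nat_lit 3444260516) (nat_lit 76) (nat_lit 2199728053) (nat_lit 130) (nat_lit 5) (nat_lit 139) (nat_lit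 5) (nat_lit 131) (nat_lit 4) (nat_lit 289) (nat_lit 248) (nat_lit 243))) (XT.nd (nat_lit 78) (nat_lit 608) (nat_lit 0) (XT.lf (nat_lit 0) (nat_lit 1020087247) (nat_lit 532) (nat_lit 3678711411) (nat_lit 608) (nat_lit 2877470450) (nat_lit 123) (nat_lit 5) (nat_lit 130) (nat_lit 5) (nat_lit 131) (nat_lit 4) (nat_lit 290) (nat_lit 248) (nat_lit 242)) (XT.nd (nat_lit 78) (nat_lit 608) (nat_lit 0) (XT.lf (nat_lit 0) (nat_lit 5604190267) (nat_lit 532) (nat_lit 1982628337) (nat_lit 608) (nat_lit 74911508) (nat_lit 123) (nat_lit 5) (nat_lit 130) (nat_lit 5) (nat_lit 131) (nat_lit 4) (nat_lit 291) (nat_lit 248) (nat_lit 241)) (XT.lf (nat_lit 0) (nat_lit 2513972222) (nat_lit 532) (nat_lit 188251822) (nat_lit 608) (nat_lit 5048598805) (nat_lit 115) (nat_lit 5) (nat_lit 122) (nat_lit 5) (nat_lit 123) (nat_lit 5) (nat_lit 292) (nat_lit 248) (nat_lit 240))))) (XT.nd (nat_lit 234) (nat_lit 456) (nat_lit 0)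 (XT.nd (nat_lit 78) (nat_lit 988) (nat_lit 0) (XT.lf (nat_lit 0) (nat_lit 5520745124) (nat_lit 608) (nat_lit 679849281) (nat_lit 76) (nat_lit 1643417163) (nat_lit 115) (nat_lit 5) (nat_lit 123) (nat_lit 5) (nat_lit 116) (nat_lit 4) (nat_lit 293) (nat_lit 248) (nat_lit 239)) (XT.nd (nat_lit 78) (nat_lit 456) (nat_lit 0) (XT.lf (nat_lit 0) (nat_lit 439090950) (nat_lit 532) (nat_lit 3938670186) (nat_lit 76) (nat_lit 3563373501) (nat_lit 108) (nat_lit 5) (nat_lit 115) (nat_lit 5) (nat_lit 109) (nat_lit 5) (nat_lit 294) (nat_lit 248) (nat_lit 238)) (XT.lf (nat_lit 0) (nat_lit 704728422) (nat_lit 456) (nat_lit 2471943620) (nat_lit 532) (nat_lit 4865850839) (nat_lit 102) (nat_lit 5) (nat_lit 108) (nat_lit 5) (nat_lit 109) (nat_lit 5) (nat_lit 295) (nat_lit 248) (nat_lit 237)))) (XT.nd (nat_lit 78) (nat_lit 456) (nat_lit 0) (XT.lf (nat_lit 0) (nat_lit 5484821921) (nat_lit 456) (nat_lit 478045790) (nat_lit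 532) (nat_lit 2185297254) (nat_lit 102) (nat_lit 5) (nat_lit 108) (nat_lit 5) (nat_lit 109) (nat_lit 5) (nat_lit 296) (nat_lit 248) (nat_lit 236)) (XT.nd (nat_lit 78) (nat_lit 0) (nat_lit 0) (XT.lf (nat_lit 0) (nat_lit 527915511) (nat_lit 456) (nat_lit 6169536633) (nat_lit 76) (nat_lit 1560648809) (nat_lit 96) (nat_lit 5) (nat_lit 102) (nat_lit 5) (nat_lit 97) (nat_lit 5) (nat_lit 297) (nat_lit 248) (nat_lit 235)) (XT.lf (nat_lit 0) (nat_lit 3239650978) (nat_lit 456) (nat_lit 1443483124) (nat_lit 76) (nat_lit 3688909622) (nat_lit 96) (nat_lit 5) (nat_lit 102) (nat_lit 5) (nat_lit 97) (nat_lit 5) (nat_lit 298) (nat_lit 248) (nat_lit 234))))))) (XT.nd (nat_lit 858) (nat_lit 1748) (nat_lit 0) (XT.nd (nat_lit 390) (nat_lit 1140) (nat_lit 0) (XT.nd (nat_lit 156) (nat_lit 760) (nat_lit 0) (XT.nd (nat_lit 78) (nat_lit 76) (nat_lit 0) (XT.lf (nat_lit 0) (nat_lit 3409382538) (nat_lit 456) (nat_lit 2587347174)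 (nat_lit 532) (nat_lit 2493939074) (nat_lit 90) (nat_lit 5) (nat_lit 96) (nat_lit 5) (nat_lit 97) (nat_lit 5) (nat_lit 299) (nat_lit 248) (nat_lit 233)) (XT.lf (nat_lit 0) (nat_lit 165626291) (nat_lit 532) (nat_lit 259519737) (nat_lit 76) (nat_lit 8189425588) (nat_lit 89) (nat_lit 5) (nat_lit 96) (nat_lit 5) (nat_lit 90) (nat_lit 5) (nat_lit 300) (nat_lit 248) (nat_lit 232))) (XT.nd (nat_lit 78) (nat_lit 380) (nat_lit 0) (XT.lf (nat_lit 0) (nat_lit 2851451594) (nat_lit 456) (nat_lit 4066176318) (nat_lit 76) (nat_lit 1824093037) (nat_lit 84) (nat_lit 5) (nat_lit 90) (nat_lit 5) (nat_lit 85) (nat_lit 5) (nat_lit 301) (nat_lit 248) (nat_lit 231)) (XT.nd (nat_lit 78) (nat_lit 0) (nat_lit 0) (XT.lf (nat_lit 0) (nat_lit 822138624) (nat_lit 380) (nat_lit 4745107369) (nat_lit 456) (nat_lit 3307120196) (nat_lit 79) (nat_lit 5) (nat_lit 84) (nat_lit 5) (nat_lit 85) (nat_lit 5) (nat_lit 302) (nat_lit 248)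 (nat_lit 230)) (XT.lf (nat_lit 0) (nat_lit 5860206553) (nat_lit 380) (nat_lit 2481135980) (nat_lit 456) (nat_lit 670501905) (nat_lit 79) (nat_lit 5) (nat_lit 84) (nat_lit 5) (nat_lit 85) (nat_lit 5) (nat_lit 303) (nat_lit 248) (nat_lit 229))))) (XT.nd (nat_lit 234) (nat_lit 380) (nat_lit 0) (XT.nd (nat_lit 78) (nat_lit 380) (nat_lit 0) (XT.lf (nat_lit 0) (nat_lit 1832755752) (nat_lit 304) (nat_lit 127037660) (nat_lit 380) (nat_lit 7194578586) (nat_lit 74) (nat_lit 5) (nat_lit 78) (nat_lit 5) (nat_lit 79) (nat_lit 5) (nat_lit 304) (nat_lit 248) (nat_lit 228)) (XT.nd (nat_lit 78) (nat_lit 380) (nat_lit 0) (XT.lf (nat_lit 0) (nat_lit 4647543992) (nat_lit 380) (nat_lit 2378362210) (nat_lit 76) (nat_lit 2275454391) (nat_lit 74) (nat_lit 5) (nat_lit 79) (nat_lit 5) (nat_lit 75) (nat_lit 5) (nat_lit 305) (nat_lit 248) (nat_lit 227)) (XT.lf (nat_lit 0) (nat_lit 2686304728) (nat_lit 380) (nat_lit 4696309961)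 (nat_lit 456) (nat_lit 2071284355) (nat_lit 69) (nat_lit 5) (nat_lit 74) (nat_lit 5) (nat_lit 75) (nat_lit 5) (nat_lit 306) (nat_lit 248) (nat_lit 226)))) (XT.nd (nat_lit 78) (nat_lit 304) (nat_lit 0) (XT.lf (nat_lit 0) (nat_lit 541391909) (nat_lit 456) (nat_lit 1743134398) (nat_lit 76) (nat_lit 7327525622) (nat_lit 68) (nat_lit 5) (nat_lit 74) (nat_lit 5) (nat_lit 69) (nat_lit 5) (nat_lit 307) (nat_lit 248) (nat_lit 225)) (XT.nd (nat_lit 78) (nat_lit 0) (nat_lit 0) (XT.lf (nat_lit 0) (nat_lit 3167440883) (nat_lit 380) (nat_lit 6375896599) (nat_lit 76) (nat_lit 231826865) (nat_lit 64) (nat_lit 5) (nat_lit 69) (nat_lit 5) (nat_lit 65) (nat_lit 5) (nat_lit 308) (nat_lit 248) (nat_lit 224)) (XT.lf (nat_lit 0) (nat_lit 5855117032) (nat_lit 380) (nat_lit 1311004570) (nat_lit 76) (nat_lit 2777688287) (nat_lit 64) (nat_lit 5) (nat_lit 69) (nat_lit 5) (nat_lit 65) (nat_lit 5) (nat_lit 309) (nat_lit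 248) (nat_lit 223)))))) (XT.nd (nat_lit 468) (nat_lit 760) (nat_lit 0) (XT.nd (nat_lit 234) (nat_lit 380) (nat_lit 0) (XT.nd (nat_lit 78) (nat_lit 304) (nat_lit 0) (XT.lf (nat_lit 0) (nat_lit 3907081616) (nat_lit 304) (nat_lit 4698025431) (nat_lit 380) (nat_lit 1513078718) (nat_lit 60) (nat_lit 5) (nat_lit 64) (nat_lit 5) (nat_lit 65) (nat_lit 5) (nat_lit 310) (nat_lit 248) (nat_lit 222)) (XT.nd (nat_lit 78) (nat_lit 228) (nat_lit 0) (XT.lf (nat_lit 0) (nat_lit 1075311914) (nat_lit 380) (nat_lit 1075378685) (nat_lit 76) (nat_lit 8148155638) (nat_lit 59) (nat_lit 5) (nat_lit 64) (nat_lit 5) (nat_lit 60) (nat_lit 5) (nat_lit 311) (nat_lit 248) (nat_lit 221)) (XT.lf (nat_lit 0) (nat_lit 3702306367) (nat_lit 304) (nat_lit 6281631010) (nat_lit 76) (nat_lit 500909979) (nat_lit 56) (nat_lit 5) (nat_lit 60) (nat_lit 5) (nat_lit 57) (nat_lit 5) (nat_lit 312) (nat_lit 248) (nat_lit 220)))) (XT.nd (nat_lit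 78) (nat_lit 380) (nat_lit 0) (XT.lf (nat_lit 0) (nat_lit 6387059884) (nat_lit 304) (nat_lit 1109368750) (nat_lit 76) (nat_lit 3180739329) (nat_lit 56) (nat_lit 5) (nat_lit 60) (nat_lit 5) (nat_lit 57) (nat_lit 5) (nat_lit 313) (nat_lit 248) (nat_lit 219)) (XT.nd (nat_lit 78) (nat_lit 76) (nat_lit 0) (XT.lf (nat_lit 0) (nat_lit 4228657351) (nat_lit 304) (nat_lit 4912588388) (nat_lit 380) (nat_lit 1734450546) (nat_lit 52) (nat_lit 5) (nat_lit 56) (nat_lit 5) (nat_lit 57) (nat_lit 5) (nat_lit 314) (nat_lit 248) (nat_lit 218)) (XT.lf (nat_lit 0) (nat_lit 840129467) (nat_lit 380) (nat_lit 1411360805) (nat_lit 76) (nat_lit 8829736820) (nat_lit 51) (nat_lit 5) (nat_lit 56) (nat_lit 5) (nat_lit 52) (nat_lit 5) (nat_lit 315) (nat_lit 248) (nat_lit 217))))) (XT.nd (nat_lit 234) (nat_lit 304) (nat_lit 0) (XT.nd (nat_lit 78) (nat_lit 228) (nat_lit 0) (XT.lf (nat_lit 0) (nat_lit 3450282491) (nat_lit 304)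 (nat_lit 7326439127) (nat_lit 76) (nat_lit 515987028) (nat_lit 48) (nat_lit 5) (nat_lit 52) (nat_lit 5) (nat_lit 49) (nat_lit 5) (nat_lit 316) (nat_lit 248) (nat_lit 216)) (XT.nd (nat_lit 78) (nat_lit 228) (nat_lit 0) (XT.lf (nat_lit 0) (nat_lit 6125980382) (nat_lit 304) (nat_lit 2069299656) (nat_lit 76) (nat_lit 3315730501) (nat_lit 48) (nat_lit 5) (nat_lit 52) (nat_lit 5) (nat_lit 49) (nat_lit 5) (nat_lit 317) (nat_lit 248) (nat_lit 215)) (XT.lf (nat_lit 0) (nat_lit 3341912629) (nat_lit 228) (nat_lit 5524156437) (nat_lit 304) (nat_lit 2870359219) (nat_lit 45) (nat_lit 5) (nat_lit 48) (nat_lit 5) (nat_lit 49) (nat_lit 5) (nat_lit 318) (nat_lit 248) (nat_lit 214)))) (XT.nd (nat_lit 78) (nat_lit 304) (nat_lit 0) (XT.lf (nat_lit 0) (nat_lit 8889700818) (nat_lit 228) (nat_lit 2772293625) (nat_lit 304) (nat_lit 307492858) (nat_lit 45) (nat_lit 5) (nat_lit 48) (nat_lit 5) (nat_lit 49) (nat_lit 5)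 (nat_lit 319) (nat_lit 248) (nat_lit 213)) (XT.nd (nat_lit 78) (nat_lit 0) (nat_lit 0) (XT.lf (nat_lit 0) (nat_lit 2263764480) (nat_lit 304) (nat_lit 9859871312) (nat_lit 76) (nat_lit 86001968) (nat_lit 41) (nat_lit 5) (nat_lit 45) (nat_lit 5) (nat_lit 42) (nat_lit 5) (nat_lit 320) (nat_lit 248) (nat_lit 212)) (XT.lf (nat_lit 0) (nat_lit 4918924544) (nat_lit 304) (nat_lit 4549314507) (nat_lit 76) (nat_lit 2988354299) (nat_lit 41) (nat_lit 5) (nat_lit 45) (nat_lit 5) (nat_lit 42) (nat_lit 5) (nat_lit 321) (nat_lit 248) (nat_lit 211))))))))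
noncomputable def xc78 : XT := (XT.nd (nat_lit 1716) (nat_lit 760) (nat_lit 0) (XT.nd (nat_lit 858) (nat_lit 608) (nat_lit 0) (XT.nd (nat_lit 390) (nat_lit 608) (nat_lit 0) (XT.nd (nat_lit 156) (nat_lit 228) (nat_lit 0) (XT.nd (nat_lit 78) (nat_lit 0) (nat_lit 0) (XT.lf (nat_lit 0) (nat_lit 871752077) (nat_lit 228) (nat_lit 6745793491) (nat_lit 304) (nat_lit 5094575827) (nat_lit 38) (nat_lit 5) (nat_lit 41) (nat_lit 5) (nat_lit 42) (nat_lit 5) (nat_lit 322) (nat_lit 248) (nat_lit 210)) (XT.lf (nat_lit 0) (nat_lit 6483534474) (nat_lit 228) (nat_lit 3915628030) (nat_lit 304) (nat_lit 2576167359) (nat_lit 38) (nat_lit 5) (nat_lit 41) (nat_lit 5) (nat_lit 42) (nat_lit 5) (nat_lit 323) (nat_lit 248) (nat_lit 209))) (XT.nd (nat_lit 78) (nat_lit 228) (nat_lit 0) (XT.lf (nat_lit 0) (nat_lit 12200395902) (nat_lit 228) (nat_lit 1021208867) (nat_lit 304) (nat_lit 26182008) (nat_lit 38) (nat_lit 5) (nat_lit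 41) (nat_lit 5) (nat_lit 42) (nat_lit 5) (nat_lit 324) (nat_lit 248) (nat_lit 208)) (XT.nd (nat_lit 78) (nat_lit 0) (nat_lit 0) (XT.lf (nat_lit 0) (nat_lit 2570879324) (nat_lit 228) (nat_lit 8984965094) (nat_lit 76) (nat_lit 1971252855) (nat_lit 35) (nat_lit 5) (nat_lit 38) (nat_lit 5) (nat_lit 36) (nat_lit 5) (nat_lit 325) (nat_lit 248) (nat_lit 207)) (XT.lf (nat_lit 0) (nat_lit 5224686158) (nat_lit 228) (nat_lit 3566963464) (nat_lit 76) (nat_lit 5023816147) (nat_lit 35) (nat_lit 5) (nat_lit 38) (nat_lit 5) (nat_lit 36) (nat_lit 5) (nat_lit 326) (nat_lit 248) (nat_lit 206))))) (XT.nd (nat_lit 234) (nat_lit 380) (nat_lit 0) (XT.nd (nat_lit 78) (nat_lit 0) (nat_lit 0) (XT.lf (nat_lit 0) (nat_lit 1991438184) (nat_lit 228) (nat_lit 5945586303) (nat_lit 304) (nat_lit 6176158615) (nat_lit 32) (nat_lit 5) (nat_lit 35) (nat_lit 5) (nat_lit 36) (nat_lit 5) (nat_lit 327) (nat_lit 248) (nat_lit 205))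 (XT.nd (nat_lit 78) (nat_lit 0) (nat_lit 0) (XT.lf (nat_lit 0) (nat_lit 7729309016) (nat_lit 228) (nat_lit 2997808654) (nat_lit 304) (nat_lit 3692886141) (nat_lit 32) (nat_lit 5) (nat_lit 35) (nat_lit 5) (nat_lit 36) (nat_lit 5) (nat_lit 328) (nat_lit 248) (nat_lit 204)) (XT.lf (nat_lit 0) (nat_lit 13562608755) (nat_lit 304) (nat_lit 1156747293) (nat_lit 76) (nat_lit 17883792) (nat_lit 32) (nat_lit 5) (nat_lit 36) (nat_lit 5) (nat_lit 33) (nat_lit 4) (nat_lit 329) (nat_lit 248) (nat_lit 203)))) (XT.nd (nat_lit 78) (nat_lit 152) (nat_lit 0) (XT.lf (nat_lit 0) (nat_lit 1427590607) (nat_lit 228) (nat_lit 10532688637) (nat_lit 76) (nat_lit 3102279103) (nat_lit 29) (nat_lit 5) (nat_lit 32) (nat_lit 5) (nat_lit 30) (nat_lit 5) (nat_lit 330) (nat_lit 248) (nat_lit 202)) (XT.nd (nat_lit 78) (nat_lit 152) (nat_lit 0) (XT.lf (nat_lit 0) (nat_lit 4058637919) (nat_lit 228) (nat_lit 5056394716) (nat_lit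 76) (nat_lit 6283080162) (nat_lit 29) (nat_lit 5) (nat_lit 32) (nat_lit 5) (nat_lit 30) (nat_lit 5) (nat_lit 331) (nat_lit 248) (nat_lit 201)) (XT.lf (nat_lit 0) (nat_lit 538224227) (nat_lit 152) (nat_lit 6199227679) (nat_lit 228) (nat_lit 9007271609) (nat_lit 27) (nat_lit 5) (nat_lit 29) (nat_lit 5) (nat_lit 30) (nat_lit 5) (nat_lit 332) (nat_lit 248) (nat_lit 200)))))) (XT.nd (nat_lit 390) (nat_lit 380) (nat_lit 0) (XT.nd (nat_lit 156) (nat_lit 228) (nat_lit 0) (XT.nd (nat_lit 78) (nat_lit 0) (nat_lit 0) (XT.lf (nat_lit 0) (nat_lit 6348419979) (nat_lit 152) (nat_lit 3163452451) (nat_lit 228) (nat_lit 6589455953) (nat_lit 27) (nat_lit 5) (nat_lit 29) (nat_lit 5) (nat_lit 30) (nat_lit 5) (nat_lit 333) (nat_lit 248) (nat_lit 199)) (XT.lf (nat_lit 0) (nat_lit 12278637242) (nat_lit 152) (nat_lit 56114006) (nat_lit 228) (nat_lit 4134974928) (nat_lit 27) (nat_lit 5) (nat_lit 29) (nat_lit 5) (nat_lit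 30) (nat_lit 5) (nat_lit 334) (nat_lit 248) (nat_lit 198))) (XT.nd (nat_lit 78) (nat_lit 76) (nat_lit 0) (XT.lf (nat_lit 0) (nat_lit 1482707684) (nat_lit 152) (nat_lit 13770144205) (nat_lit 228) (nat_lit 1596057997) (nat_lit 25) (nat_lit 5) (nat_lit 27) (nat_lit 5) (nat_lit 28) (nat_lit 4) (nat_lit 335) (nat_lit 248) (nat_lit 197)) (XT.nd (nat_lit 78) (nat_lit 0) (nat_lit 0) (XT.lf (nat_lit 0) (nat_lit 1008594035) (nat_lit 228) (nat_lit 9890117633) (nat_lit 76) (nat_lit 6340227174) (nat_lit 24) (nat_lit 5) (nat_lit 27) (nat_lit 5) (nat_lit 25) (nat_lit 5) (nat_lit 336) (nat_lit 248) (nat_lit 196)) (XT.lf (nat_lit 0) (nat_lit 3626448267) (nat_lit 228) (nat_lit 4317766165) (nat_lit 76) (nat_lit 9697011704) (nat_lit 24) (nat_lit 5) (nat_lit 27) (nat_lit 5) (nat_lit 25) (nat_lit 5) (nat_lit 337) (nat_lit 248) (nat_lit 195))))) (XT.nd (nat_lit 234) (nat_lit 228) (nat_lit 0) (XT.nd (nat_lit 78) (nat_lit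 0) (nat_lit 0) (XT.lf (nat_lit 0) (nat_lit 1398350384) (nat_lit 152) (nat_lit 4906028398) (nat_lit 228) (nat_lit 11751801512) (nat_lit 22) (nat_lit 5) (nat_lit 24) (nat_lit 5) (nat_lit 25) (nat_lit 5) (nat_lit 338) (nat_lit 248) (nat_lit 194)) (XT.nd (nat_lit 78) (nat_lit 0) (nat_lit 0) (XT.lf (nat_lit 0) (nat_lit 7324265072) (nat_lit 152) (nat_lit 1750528623) (nat_lit 228) (nat_lit 9408468160) (nat_lit 22) (nat_lit 5) (nat_lit 24) (nat_lit 5) (nat_lit 25) (nat_lit 5) (nat_lit 339) (nat_lit 248) (nat_lit 193)) (XT.lf (nat_lit 0) (nat_lit 11912023232) (nat_lit 228) (nat_lit 5559130576) (nat_lit 76) (nat_lit 1452532902) (nat_lit 22) (nat_lit 5) (nat_lit 25) (nat_lit 5) (nat_lit 23) (nat_lit 4) (nat_lit 340) (nat_lit 248) (nat_lit 192)))) (XT.nd (nat_lit 78) (nat_lit 76) (nat_lit 0) (XT.lf (nat_lit 0) (nat_lit 146177840) (nat_lit 152) (nat_lit 14677110251) (nat_lit 228) (nat_lit 4554409360) (nat_lit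 20) (nat_lit 5) (nat_lit 22) (nat_lit 5) (nat_lit 23) (nat_lit 4) (nat_lit 341) (nat_lit 248) (nat_lit 191)) (XT.nd (nat_lit 78) (nat_lit 76) (nat_lit 0) (XT.lf (nat_lit 0) (nat_lit 6088999287) (nat_lit 152) (nat_lit 11759620162) (nat_lit 228) (nat_lit 1995946716) (nat_lit 20) (nat_lit 5) (nat_lit 22) (nat_lit 5) (nat_lit 23) (nat_lit 4) (nat_lit 342) (nat_lit 248) (nat_lit 190)) (XT.lf (nat_lit 0) (nat_lit 597923827) (nat_lit 228) (nat_lit 8168308913) (nat_lit 76) (nat_lit 11559927235) (nat_lit 19) (nat_lit 5) (nat_lit 22) (nat_lit 5) (nat_lit 20) (nat_lit 5) (nat_lit 343) (nat_lit 248) (nat_lit 189))))))) (XT.nd (nat_lit 858) (nat_lit 304) (nat_lit 0) (XT.nd (nat_lit 390) (nat_lit 304) (nat_lit 0) (XT.nd (nat_lit 156) (nat_lit 0) (nat_lit 0) (XT.nd (nat_lit 78) (nat_lit 152) (nat_lit 0) (XT.lf (nat_lit 0) (nat_lit 3201463331) (nat_lit 228) (nat_lit 2478659421) (nat_lit 76) (nat_lit 15142363064)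 (nat_lit 19) (nat_lit 5) (nat_lit 22) (nat_lit 5) (nat_lit 20) (nat_lit 5) (nat_lit 344) (nat_lit 248) (nat_lit 188)) (XT.lf (nat_lit 0) (nat_lit 3403962973) (nat_lit 152) (nat_lit 2484652842) (nat_lit 228) (nat_lit 15444955515) (nat_lit 17) (nat_lit 5) (nat_lit 19) (nat_lit 5) (nat_lit 20) (nat_lit 5) (nat_lit 345) (nat_lit 248) (nat_lit 187))) (XT.nd (nat_lit 78) (nat_lit 0) (nat_lit 0) (XT.lf (nat_lit 0) (nat_lit 8662410807) (nat_lit 228) (nat_lit 12397751145) (nat_lit 76) (nat_lit 799680701) (nat_lit 17) (nat_lit 5) (nat_lit 20) (nat_lit 5) (nat_lit 18) (nat_lit 4) (nat_lit 346) (nat_lit 248) (nat_lit 186)) (XT.nd (nat_lit 78) (nat_lit 0) (nat_lit 0) (XT.lf (nat_lit 0) (nat_lit 11517802891) (nat_lit 228) (nat_lit 6767630602) (nat_lit 76) (nat_lit 4116550211) (nat_lit 17) (nat_lit 5) (nat_lit 20) (nat_lit 5) (nat_lit 18) (nat_lit 4) (nat_lit 347) (nat_lit 248) (nat_lit 185)) (XT.lf (nat_lit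 0) (nat_lit 14433403066) (nat_lit 228) (nat_lit 1010443204) (nat_lit 76) (nat_lit 7517338450) (nat_lit 17) (nat_lit 5) (nat_lit 20) (nat_lit 5) (nat_lit 18) (nat_lit 4) (nat_lit 348) (nat_lit 248) (nat_lit 184))))) (XT.nd (nat_lit 234) (nat_lit 228) (nat_lit 0) (XT.nd (nat_lit 78) (nat_lit 0) (nat_lit 0) (XT.lf (nat_lit 0) (nat_lit 4975940116) (nat_lit 76) (nat_lit 12483650610) (nat_lit 152) (nat_lit 6076908644) (nat_lit 16) (nat_lit 5) (nat_lit 17) (nat_lit 5) (nat_lit 18) (nat_lit 4) (nat_lit 349) (nat_lit 248) (nat_lit 183)) (XT.nd (nat_lit 78) (nat_lit 0) (nat_lit 0) (XT.lf (nat_lit 0) (nat_lit 11122408035) (nat_lit 76) (nat_lit 9439980331) (nat_lit 152) (nat_lit 3567140642) (nat_lit 16) (nat_lit 5) (nat_lit 17) (nat_lit 5) (nat_lit 18) (nat_lit 4) (nat_lit 350) (nat_lit 248) (nat_lit 182)) (XT.lf (nat_lit 0) (nat_lit 17414221451) (nat_lit 76) (nat_lit 6320379412) (nat_lit 152) (nat_lit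 1006488142) (nat_lit 16) (nat_lit 5) (nat_lit 17) (nat_lit 5) (nat_lit 18) (nat_lit 4) (nat_lit 351) (nat_lit 248) (nat_lit 181)))) (XT.nd (nat_lit 78) (nat_lit 152) (nat_lit 0) (XT.lf (nat_lit 0) (nat_lit 1575922373) (nat_lit 152) (nat_lit 1530285887) (nat_lit 76) (nat_lit 22265041966) (nat_lit 15) (nat_lit 5) (nat_lit 17) (nat_lit 5) (nat_lit 16) (nat_lit 5) (nat_lit 352) (nat_lit 248) (nat_lit 180)) (XT.nd (nat_lit 78) (nat_lit 0) (nat_lit 0) (XT.lf (nat_lit 0) (nat_lit 4238433689) (nat_lit 228) (nat_lit 21541403819) (nat_lit 76) (nat_lit 239520986) (nat_lit 13) (nat_lit 5) (nat_lit 16) (nat_lit 5) (nat_lit 14) (nat_lit 4) (nat_lit 353) (nat_lit 248) (nat_lit 179)) (XT.lf (nat_lit 0) (nat_lit 7004783570) (nat_lit 228) (nat_lit 16057012355) (nat_lit 76) (nat_lit 3624421306) (nat_lit 13) (nat_lit 5) (nat_lit 16) (nat_lit 5) (nat_lit 14) (nat_lit 4) (nat_lit 354) (nat_lit 248) (nat_lit 178))))))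 (XT.nd (nat_lit 468) (nat_lit 228) (nat_lit 0) (XT.nd (nat_lit 234) (nat_lit 0) (nat_lit 0) (XT.nd (nat_lit 78) (nat_lit 76) (nat_lit 0) (XT.lf (nat_lit 0) (nat_lit 9832379098) (nat_lit 228) (nat_lit 10444467993) (nat_lit 76) (nat_lit 7096912343) (nat_lit 13) (nat_lit 5) (nat_lit 16) (nat_lit 5) (nat_lit 14) (nat_lit 4) (nat_lit 355) (nat_lit 248) (nat_lit 177)) (XT.nd (nat_lit 78) (nat_lit 76) (nat_lit 0) (XT.lf (nat_lit 0) (nat_lit 12723690986) (nat_lit 228) (nat_lit 4698866569) (nat_lit 76) (nat_lit 10660028315) (nat_lit 13) (nat_lit 5) (nat_lit 16) (nat_lit 5) (nat_lit 14) (nat_lit 4) (nat_lit 356) (nat_lit 248) (nat_lit 176)) (XT.lf (nat_lit 0) (nat_lit 1208392433) (nat_lit 76) (nat_lit 14484468996) (nat_lit 152) (nat_lit 13120105995) (nat_lit 12) (nat_lit 5) (nat_lit 13) (nat_lit 5) (nat_lit 14) (nat_lit 4) (nat_lit 357) (nat_lit 248) (nat_lit 175)))) (XT.nd (nat_lit 78) (nat_lit 0) (nat_lit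 0) (XT.lf (nat_lit 0) (nat_lit 7355236995) (nat_lit 76) (nat_lit 11423093322) (nat_lit 152) (nat_lit 10786136615) (nat_lit 12) (nat_lit 5) (nat_lit 13) (nat_lit 5) (nat_lit 14) (nat_lit 4) (nat_lit 358) (nat_lit 248) (nat_lit 174)) (XT.nd (nat_lit 78) (nat_lit 0) (nat_lit 0) (XT.lf (nat_lit 0) (nat_lit 13653521486) (nat_lit 76) (nat_lit 8283204883) (nat_lit 152) (nat_lit 8402396694) (nat_lit 12) (nat_lit 5) (nat_lit 13) (nat_lit 5) (nat_lit 14) (nat_lit 4) (nat_lit 359) (nat_lit 248) (nat_lit 173)) (XT.lf (nat_lit 0) (nat_lit 20108749261) (nat_lit 76) (nat_lit 5062060088) (nat_lit 152) (nat_lit 5966803351) (nat_lit 12) (nat_lit 5) (nat_lit 13) (nat_lit 5) (nat_lit 14) (nat_lit 4) (nat_lit 360) (nat_lit 248) (nat_lit 172))))) (XT.nd (nat_lit 234) (nat_lit 0) (nat_lit 0) (XT.nd (nat_lit 78) (nat_lit 228) (nat_lit 0) (XT.lf (nat_lit 0) (nat_lit 26726560812) (nat_lit 76) (nat_lit 1756844345) (nat_lit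 152) (nat_lit 3477228399) (nat_lit 12) (nat_lit 5) (nat_lit 13) (nat_lit 5) (nat_lit 14) (nat_lit 4) (nat_lit 361) (nat_lit 248) (nat_lit 171)) (XT.nd (nat_lit 78) (nat_lit 76) (nat_lit 0) (XT.lf (nat_lit 0) (nat_lit 701808943) (nat_lit 152) (nat_lit 31198065360) (nat_lit 152) (nat_lit 908356487) (nat_lit 10) (nat_lit 4) (nat_lit 12) (nat_lit 5) (nat_lit 12) (nat_lit 4) (nat_lit 362) (nat_lit 248) (nat_lit 170)) (XT.lf (nat_lit 0) (nat_lit 1756398069) (nat_lit 228) (nat_lit 26821919426) (nat_lit 76) (nat_lit 5100875111) (nat_lit 9) (nat_lit 5) (nat_lit 12) (nat_lit 5) (nat_lit 10) (nat_lit 4) (nat_lit 363) (nat_lit 248) (nat_lit 169)))) (XT.nd (nat_lit 78) (nat_lit 0) (nat_lit 0) (XT.lf (nat_lit 0) (nat_lit 4465315175) (nat_lit 228) (nat_lit 21417670746) (nat_lit 76) (nat_lit 8693572108) (nat_lit 9) (nat_lit 5) (nat_lit 12) (nat_lit 5) (nat_lit 10) (nat_lit 4) (nat_lit 364) (nat_lit 248) (nat_lit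 168)) (XT.nd (nat_lit 78) (nat_lit 0) (nat_lit 0) (XT.lf (nat_lit 0) (nat_lit 7238487151) (nat_lit 228) (nat_lit 15880221969) (nat_lit 76) (nat_lit 12382663993) (nat_lit 9) (nat_lit 5) (nat_lit 12) (nat_lit 5) (nat_lit 10) (nat_lit 4) (nat_lit 365) (nat_lit 248) (nat_lit 167)) (XT.lf (nat_lit 0) (nat_lit 10078337157) (nat_lit 228) (nat_lit 10204734548) (nat_lit 76) (nat_lit 16171374244) (nat_lit 9) (nat_lit 5) (nat_lit 12) (nat_lit 5) (nat_lit 10) (nat_lit 4) (nat_lit 366) (nat_lit 248) (nat_lit 166))))))))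
noncomputable def xc79 : XT := (XT.nd (nat_lit 1794) (nat_lit 76) (nat_lit 0) (XT.nd (nat_lit 858) (nat_lit 152) (nat_lit 0) (XT.nd (nat_lit 390) (nat_lit 76) (nat_lit 0) (XT.nd (nat_lit 156) (nat_lit 0) (nat_lit 0) (XT.nd (nat_lit 78) (nat_lit 76) (nat_lit 0) (XT.lf (nat_lit 0) (nat_lit 12987346615) (nat_lit 228) (nat_lit 4386249319) (nat_lit 76) (nat_lit 20063013384) (nat_lit 9) (nat_lit 5) (nat_lit 12) (nat_lit 5) (nat_lit 10) (nat_lit 4) (nat_lit 367) (nat_lit 248) (nat_lit 165)) (XT.lf (nat_lit 0) (nat_lit 1611769253) (nat_lit 76) (nat_lit 14371781438) (nat_lit 152) (nat_lit 22464705934) (nat_lit 8) (nat_lit 5) (nat_lit 9) (nat_lit 5) (nat_lit 10) (nat_lit 4) (nat_lit 368) (nat_lit 248) (nat_lit 164))) (XT.nd (nat_lit 78) (nat_lit 0) (nat_lit 0) (XT.lf (nat_lit 0) (nat_lit 7853429093) (nat_lit 76) (nat_lit 11245136824) (nat_lit 152) (nat_lit 20390835959) (nat_lit 8) (nat_lit 5) (nat_lit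 9) (nat_lit 5) (nat_lit 10) (nat_lit 4) (nat_lit 369) (nat_lit 248) (nat_lit 163)) (XT.nd (nat_lit 78) (nat_lit 0) (nat_lit 0) (XT.lf (nat_lit 0) (nat_lit 14256889117) (nat_lit 76) (nat_lit 8035222591) (nat_lit 152) (nat_lit 18270133177) (nat_lit 8) (nat_lit 5) (nat_lit 9) (nat_lit 5) (nat_lit 10) (nat_lit 4) (nat_lit 370) (nat_lit 248) (nat_lit 162)) (XT.lf (nat_lit 0) (nat_lit 20827744581) (nat_lit 76) (nat_lit 4739233959) (nat_lit 152) (nat_lit 16100744545) (nat_lit 8) (nat_lit 5) (nat_lit 9) (nat_lit 5) (nat_lit 10) (nat_lit 4) (nat_lit 371) (nat_lit 248) (nat_lit 161))))) (XT.nd (nat_lit 234) (nat_lit 76) (nat_lit 0) (XT.nd (nat_lit 78) (nat_lit 0) (nat_lit 0) (XT.lf (nat_lit 0) (nat_lit 27571737009) (nat_lit 76) (nat_lit 1354290938) (nat_lit 152) (nat_lit 13880774483) (nat_lit 8) (nat_lit 5) (nat_lit 9) (nat_lit 5) (nat_lit 10) (nat_lit 4) (nat_lit 372) (nat_lit 248) (nat_lit 160)) (XT.nd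 (nat_lit 78) (nat_lit 0) (nat_lit 0) (XT.lf (nat_lit 0) (nat_lit 32392598407) (nat_lit 152) (nat_lit 9506122408) (nat_lit 0) (nat_lit 2081145315) (nat_lit 8) (nat_lit 5) (nat_lit 10) (nat_lit 4) (nat_lit 8) (nat_lit 4) (nat_lit 373) (nat_lit 248) (nat_lit 159)) (XT.lf (nat_lit 0) (nat_lit 35963228739) (nat_lit 152) (nat_lit 3641653369) (nat_lit 0) (nat_lit 5583251790) (nat_lit 8) (nat_lit 5) (nat_lit 10) (nat_lit 4) (nat_lit 8) (nat_lit 4) (nat_lit 374) (nat_lit 248) (nat_lit 158)))) (XT.nd (nat_lit 78) (nat_lit 0) (nat_lit 0) (XT.lf (nat_lit 0) (nat_lit 2423780958) (nat_lit 76) (nat_lit 37227538547) (nat_lit 76) (nat_lit 6781033580) (nat_lit 7) (nat_lit 4) (nat_lit 8) (nat_lit 5) (nat_lit 8) (nat_lit 4) (nat_lit 375) (nat_lit 248) (nat_lit 157)) (XT.nd (nat_lit 78) (nat_lit 0) (nat_lit 0) (XT.lf (nat_lit 0) (nat_lit 8723781449) (nat_lit 76) (nat_lit 34750253228) (nat_lit 76) (nat_lit 4239157955)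 (nat_lit 7) (nat_lit 4) (nat_lit 8) (nat_lit 5) (nat_lit 8) (nat_lit 4) (nat_lit 376) (nat_lit 248) (nat_lit 156)) (XT.lf (nat_lit 0) (nat_lit 15191376915) (nat_lit 76) (nat_lit 32207635094) (nat_lit 76) (nat_lit 1633830784) (nat_lit 7) (nat_lit 4) (nat_lit 8) (nat_lit 5) (nat_lit 8) (nat_lit 4) (nat_lit 377) (nat_lit 248) (nat_lit 155)))))) (XT.nd (nat_lit 468) (nat_lit 76) (nat_lit 0) (XT.nd (nat_lit 234) (nat_lit 0) (nat_lit 0) (XT.nd (nat_lit 78) (nat_lit 0) (nat_lit 0) (XT.lf (nat_lit 0) (nat_lit 1016984446) (nat_lit 152) (nat_lit 28570208442) (nat_lit 76) (nat_lit 20804964658) (nat_lit 6) (nat_lit 5) (nat_lit 8) (nat_lit 5) (nat_lit 7) (nat_lit 4) (nat_lit 378) (nat_lit 248) (nat_lit 154)) (XT.nd (nat_lit 78) (nat_lit 0) (nat_lit 0) (XT.lf (nat_lit 0) (nat_lit 3702651596) (nat_lit 152) (nat_lit 23177413410) (nat_lit 76) (nat_lit 24912068225) (nat_lit 6) (nat_lit 5) (nat_lit 8) (nat_lit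 5) (nat_lit 7) (nat_lit 4) (nat_lit 379) (nat_lit 248) (nat_lit 153)) (XT.lf (nat_lit 0) (nat_lit 6457399287) (nat_lit 152) (nat_lit 17642663249) (nat_lit 76) (nat_lit 29134401749) (nat_lit 6) (nat_lit 5) (nat_lit 8) (nat_lit 5) (nat_lit 7) (nat_lit 4) (nat_lit 380) (nat_lit 248) (nat_lit 152)))) (XT.nd (nat_lit 78) (nat_lit 0) (nat_lit 0) (XT.lf (nat_lit 0) (nat_lit 9283634580) (nat_lit 152) (nat_lit 11961121769) (nat_lit 76) (nat_lit 33475654650) (nat_lit 6) (nat_lit 5) (nat_lit 8) (nat_lit 5) (nat_lit 7) (nat_lit 4) (nat_lit 381) (nat_lit 248) (nat_lit 151)) (XT.nd (nat_lit 78) (nat_lit 0) (nat_lit 0) (XT.lf (nat_lit 0) (nat_lit 12183827002) (nat_lit 152) (nat_lit 6127824518) (nat_lit 76) (nat_lit 37939620254) (nat_lit 6) (nat_lit 5) (nat_lit 8) (nat_lit 5) (nat_lit 7) (nat_lit 4) (nat_lit 382) (nat_lit 248) (nat_lit 150)) (XT.lf (nat_lit 0) (nat_lit 15160510702) (nat_lit 152) (nat_lit 137674439)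 (nat_lit 76) (nat_lit 42530199113) (nat_lit 6) (nat_lit 5) (nat_lit 8) (nat_lit 5) (nat_lit 7) (nat_lit 4) (nat_lit 383) (nat_lit 248) (nat_lit 149))))) (XT.nd (nat_lit 234) (nat_lit 0) (nat_lit 0) (XT.nd (nat_lit 78) (nat_lit 0) (nat_lit 0) (XT.lf (nat_lit 0) (nat_lit 6134264167) (nat_lit 76) (nat_lit 12140988797) (nat_lit 152) (nat_lit 41176104547) (nat_lit 5) (nat_lit 5) (nat_lit 6) (nat_lit 5) (nat_lit 7) (nat_lit 4) (nat_lit 384) (nat_lit 248) (nat_lit 148)) (XT.nd (nat_lit 78) (nat_lit 0) (nat_lit 0) (XT.lf (nat_lit 0) (nat_lit 12579738281) (nat_lit 76) (nat_lit 8895010843) (nat_lit 152) (nat_lit 39648541339) (nat_lit 5) (nat_lit 5) (nat_lit 6) (nat_lit 5) (nat_lit 7) (nat_lit 4) (nat_lit 385) (nat_lit 248) (nat_lit 147)) (XT.lf (nat_lit 0) (nat_lit 19201639880) (nat_lit 76) (nat_lit 5558805232) (nat_lit 152) (nat_lit 38085239405) (nat_lit 5) (nat_lit 5) (nat_lit 6) (nat_lit 5) (nat_lit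 7) (nat_lit 4) (nat_lit 386) (nat_lit 248) (nat_lit 146)))) (XT.nd (nat_lit 78) (nat_lit 0) (nat_lit 0) (XT.lf (nat_lit 0) (nat_lit 26005755089) (nat_lit 76) (nat_lit 2129456831) (nat_lit 152) (nat_lit 36484832756) (nat_lit 5) (nat_lit 5) (nat_lit 6) (nat_lit 5) (nat_lit 7) (nat_lit 4) (nat_lit 387) (nat_lit 248) (nat_lit 145)) (XT.nd (nat_lit 78) (nat_lit 0) (nat_lit 0) (XT.lf (nat_lit 0) (nat_lit 31615417880) (nat_lit 152) (nat_lit 33463311601) (nat_lit 0) (nat_lit 1368789286) (nat_lit 5) (nat_lit 5) (nat_lit 7) (nat_lit 4) (nat_lit 5) (nat_lit 4) (nat_lit 388) (nat_lit 248) (nat_lit 144)) (XT.lf (nat_lit 0) (nat_lit 35212096121) (nat_lit 152) (nat_lit 28194602002) (nat_lit 0) (nat_lit 4922765725) (nat_lit 5) (nat_lit 5) (nat_lit 7) (nat_lit 4) (nat_lit 5) (nat_lit 4) (nat_lit 389) (nat_lit 248) (nat_lit 143))))))) (XT.nd (nat_lit 32292) (nat_lit 0) (nat_lit 7904) (XT.nd (nat_lit 390) (nat_lit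 0) (nat_lit 0) (XT.nd (nat_lit 156) (nat_lit 76) (nat_lit 0) (XT.nd (nat_lit 78) (nat_lit 0) (nat_lit 0) (XT.lf (nat_lit 0) (nat_lit 38907919731) (nat_lit 152) (nat_lit 22783087419) (nat_lit 0) (nat_lit 8577131275) (nat_lit 5) (nat_lit 5) (nat_lit 7) (nat_lit 4) (nat_lit 5) (nat_lit 4) (nat_lit 390) (nat_lit 248) (nat_lit 142)) (XT.lf (nat_lit 0) (nat_lit 42706118071) (nat_lit 152) (nat_lit 17224039346) (nat_lit 0) (nat_lit 12335079070) (nat_lit 5) (nat_lit 5) (nat_lit 7) (nat_lit 4) (nat_lit 5) (nat_lit 4) (nat_lit 391) (nat_lit 248) (nat_lit 141))) (XT.nd (nat_lit 78) (nat_lit 76) (nat_lit 0) (XT.lf (nat_lit 0) (nat_lit 46610009953) (nat_lit 152) (nat_lit 11512600361) (nat_lit 0) (nat_lit 16199892754) (nat_lit 5) (nat_lit 5) (nat_lit 7) (nat_lit 4) (nat_lit 5) (nat_lit 4) (nat_lit 392) (nat_lit 248) (nat_lit 140)) (XT.nd (nat_lit 78) (nat_lit 76) (nat_lit 0) (XT.lf (nat_lit 0) (nat_lit 50623006547)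 (nat_lit 152) (nat_lit 5643779887) (nat_lit 0) (nat_lit 20174949349) (nat_lit 5) (nat_lit 5) (nat_lit 7) (nat_lit 4) (nat_lit 5) (nat_lit 4) (nat_lit 393) (nat_lit 248) (nat_lit 139)) (XT.lf (nat_lit 0) (nat_lit 395263180) (nat_lit 76) (nat_lit 54357150685) (nat_lit 76) (nat_lit 23872258537) (nat_lit 4) (nat_lit 4) (nat_lit 5) (nat_lit 5) (nat_lit 5) (nat_lit 4) (nat_lit 394) (nat_lit 248) (nat_lit 138))))) (XT.nd (nat_lit 234) (nat_lit 0) (nat_lit 0) (XT.nd (nat_lit 78) (nat_lit 0) (nat_lit 0) (XT.lf (nat_lit 0) (nat_lit 6717747356) (nat_lit 76) (nat_lit 52337266013) (nat_lit 76) (nat_lit 21816611778) (nat_lit 4) (nat_lit 4) (nat_lit 5) (nat_lit 5) (nat_lit 5) (nat_lit 4) (nat_lit 395) (nat_lit 248) (nat_lit 137)) (XT.nd (nat_lit 78) (nat_lit 0) (nat_lit 0) (XT.lf (nat_lit 0) (nat_lit 13216874857) (nat_lit 76) (nat_lit 50262358581) (nat_lit 76) (nat_lit 19706983874) (nat_lit 4) (nat_lit 4)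 (nat_lit 5) (nat_lit 5) (nat_lit 5) (nat_lit 4) (nat_lit 396) (nat_lit 248) (nat_lit 136)) (XT.lf (nat_lit 0) (nat_lit 19898324532) (nat_lit 76) (nat_lit 48130615364) (nat_lit 76) (nat_lit 17541531459) (nat_lit 4) (nat_lit 4) (nat_lit 5) (nat_lit 5) (nat_lit 5) (nat_lit 4) (nat_lit 397) (nat_lit 248) (nat_lit 135)))) (XT.nd (nat_lit 78) (nat_lit 0) (nat_lit 0) (XT.lf (nat_lit 0) (nat_lit 26767934540) (nat_lit 76) (nat_lit 45940173673) (nat_lit 76) (nat_lit 15318362393) (nat_lit 4) (nat_lit 4) (nat_lit 5) (nat_lit 5) (nat_lit 5) (nat_lit 4) (nat_lit 398) (nat_lit 248) (nat_lit 134)) (XT.nd (nat_lit 31512) (nat_lit 0) (nat_lit 13376) (XT.lf (nat_lit 0) (nat_lit 33831707454) (nat_lit 76) (nat_lit 43689119530) (nat_lit 76) (nat_lit 13035534098) (nat_lit 4) (nat_lit 4) (nat_lit 5) (nat_lit 5) (nat_lit 5) (nat_lit 4) (nat_lit 399) (nat_lit 248) (nat_lit 133)) (XT.lf (nat_lit 0) (nat_lit 1286172281)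 (nat_lit 836) (nat_lit 1113998324) (nat_lit 836) (nat_lit 1113998324) (nat_lit 180) (nat_lit 4) (nat_lit 191) (nat_lit 5) (nat_lit 191) (nat_lit 4) (nat_lit 282) (nat_lit 249) (nat_lit 249)))))) (XT.nd (nat_lit 468) (nat_lit 2280) (nat_lit 0) (XT.nd (nat_lit 234) (nat_lit 1216) (nat_lit 0) (XT.nd (nat_lit 78) (nat_lit 1900) (nat_lit 0) (XT.lf (nat_lit 0) (nat_lit 663470084) (nat_lit 912) (nat_lit 321409323) (nat_lit 76) (nat_lit 6100842009) (nat_lit 179) (nat_lit 5) (nat_lit 191) (nat_lit 5) (nat_lit 180) (nat_lit 4) (nat_lit 283) (nat_lit 249) (nat_lit 248)) (XT.nd (nat_lit 78) (nat_lit 988) (nat_lit 0) (XT.lf (nat_lit 0) (nat_lit 3549133064) (nat_lit 988) (nat_lit 3239806486) (nat_lit 0) (nat_lit 356980366) (nat_lit 167) (nat_lit 5) (nat_lit 180) (nat_lit 4) (nat_lit 167) (nat_lit 4) (nat_lit 284) (nat_lit 249) (nat_lit 247)) (XT.lf (nat_lit 0) (nat_lit 984747215) (nat_lit 988) (nat_lit 5472132804)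 (nat_lit 988) (nat_lit 753291743) (nat_lit 154) (nat_lit 4) (nat_lit 167) (nat_lit 5) (nat_lit 167) (nat_lit 4) (nat_lit 285) (nat_lit 249) (nat_lit 246)))) (XT.nd (nat_lit 78) (nat_lit 1140) (nat_lit 0) (XT.lf (nat_lit 0) (nat_lit 2079707853) (nat_lit 1064) (nat_lit 1979255829) (nat_lit 76) (nat_lit 3218655420) (nat_lit 153) (nat_lit 5) (nat_lit 167) (nat_lit 5) (nat_lit 154) (nat_lit 4) (nat_lit 286) (nat_lit 249) (nat_lit 245)) (XT.nd (nat_lit 78) (nat_lit 76) (nat_lit 0) (XT.lf (nat_lit 0) (nat_lit 2350076434) (nat_lit 1064) (nat_lit 2571199137) (nat_lit 1140) (nat_lit 2427715254) (nat_lit 139) (nat_lit 5) (nat_lit 153) (nat_lit 5) (nat_lit 154) (nat_lit 4) (nat_lit 287) (nat_lit 249) (nat_lit 244)) (XT.lf (nat_lit 0) (nat_lit 354164487) (nat_lit 1140) (nat_lit 660070847) (nat_lit 76) (nat_lit 6410308996) (nat_lit 138) (nat_lit 5) (nat_lit 153) (nat_lit 5) (nat_lit 139) (nat_lit 5) (nat_lit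 288) (nat_lit 249) (nat_lit 243))))) (XT.nd (nat_lit 234) (nat_lit 1064) (nat_lit 0) (XT.nd (nat_lit 78) (nat_lit 608) (nat_lit 0) (XT.lf (nat_lit 0) (nat_lit 3132399574) (nat_lit 684) (nat_lit 3732191907) (nat_lit 76) (nat_lit 638463020) (nat_lit 130) (nat_lit 5) (nat_lit 139) (nat_lit 5) (nat_lit 131) (nat_lit 4) (nat_lit 289) (nat_lit 249) (nat_lit 242)) (XT.nd (nat_lit 78) (nat_lit 76) (nat_lit 0) (XT.lf (nat_lit 0) (nat_lit 684662333) (nat_lit 532) (nat_lit 5253368625) (nat_lit 608) (nat_lit 1647821892) (nat_lit 123) (nat_lit 5) (nat_lit 130) (nat_lit 5) (nat_lit 131) (nat_lit 4) (nat_lit 290) (nat_lit 249) (nat_lit 241)) (XT.lf (nat_lit 0) (nat_lit 1093386665) (nat_lit 608) (nat_lit 2455085904) (nat_lit 76) (nat_lit 4123790903) (nat_lit 122) (nat_lit 5) (nat_lit 130) (nat_lit 5) (nat_lit 123) (nat_lit 5) (nat_lit 291) (nat_lit 249) (nat_lit 240)))) (XT.nd (nat_lit 78) (nat_lit 532) (nat_lit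 0) (XT.lf (nat_lit 0) (nat_lit 2066748675) (nat_lit 532) (nat_lit 1760326060) (nat_lit 608) (nat_lit 3935634104) (nat_lit 115) (nat_lit 5) (nat_lit 122) (nat_lit 5) (nat_lit 123) (nat_lit 5) (nat_lit 292) (nat_lit 249) (nat_lit 239)) (XT.nd (nat_lit 78) (nat_lit 532) (nat_lit 0) (XT.lf (nat_lit 0) (nat_lit 6593484583) (nat_lit 608) (nat_lit 1164876062) (nat_lit 76) (nat_lit 99211572) (nat_lit 115) (nat_lit 5) (nat_lit 123) (nat_lit 5) (nat_lit 116) (nat_lit 4) (nat_lit 293) (nat_lit 249) (nat_lit 238)) (XT.lf (nat_lit 0) (nat_lit 1436021256) (nat_lit 532) (nat_lit 4498651272) (nat_lit 76) (nat_lit 2021069650) (nat_lit 108) (nat_lit 5) (nat_lit 115) (nat_lit 5) (nat_lit 109) (nat_lit 5) (nat_lit 294) (nat_lit 249) (nat_lit 237))))))))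
noncomputable def xc80 : XT := (XT.nd (nat_lit 1716) (nat_lit 1976) (nat_lit 0) (XT.nd (nat_lit 858) (nat_lit 1976) (nat_lit 0) (XT.nd (nat_lit 390) (nat_lit 1216) (nat_lit 0) (XT.nd (nat_lit 156) (nat_lit 912) (nat_lit 0) (XT.nd (nat_lit 78) (nat_lit 0) (nat_lit 0) (XT.lf (nat_lit 0) (nat_lit 92545498) (nat_lit 456) (nat_lit 4039465507) (nat_lit 532) (nat_lit 3926469031) (nat_lit 102) (nat_lit 5) (nat_lit 108) (nat_lit 5) (nat_lit 109) (nat_lit 5) (nat_lit 295) (nat_lit 249) (nat_lit 236)) (XT.lf (nat_lit 0) (nat_lit 4832777719) (nat_lit 456) (nat_lit 2050379119) (nat_lit 532) (nat_lit 1282115685) (nat_lit 102) (nat_lit 5) (nat_lit 108) (nat_lit 5) (nat_lit 109) (nat_lit 5) (nat_lit 296) (nat_lit 249) (nat_lit 235))) (XT.nd (nat_lit 78) (nat_lit 456) (nat_lit 0) (XT.lf (nat_lit 0) (nat_lit 1356834086) (nat_lit 456) (nat_lit 6904164545) (nat_lit 76) (nat_lit 15741814) (nat_lit 96) (nat_lit 5)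 (nat_lit 102) (nat_lit 5) (nat_lit 97) (nat_lit 5) (nat_lit 297) (nat_lit 249) (nat_lit 234)) (XT.nd (nat_lit 78) (nat_lit 456) (nat_lit 0) (XT.lf (nat_lit 0) (nat_lit 4034686859) (nat_lit 456) (nat_lit 2218258220) (nat_lit 76) (nat_lit 2138845131) (nat_lit 96) (nat_lit 5) (nat_lit 102) (nat_lit 5) (nat_lit 97) (nat_lit 5) (nat_lit 298) (nat_lit 249) (nat_lit 233)) (XT.lf (nat_lit 0) (nat_lit 2579434312) (nat_lit 456) (nat_lit 4171457492) (nat_lit 532) (nat_lit 1760837561) (nat_lit 90) (nat_lit 5) (nat_lit 96) (nat_lit 5) (nat_lit 97) (nat_lit 5) (nat_lit 299) (nat_lit 249) (nat_lit 232))))) (XT.nd (nat_lit 234) (nat_lit 760) (nat_lit 0) (XT.nd (nat_lit 78) (nat_lit 380) (nat_lit 0) (XT.lf (nat_lit 0) (nat_lit 851710117) (nat_lit 532) (nat_lit 1156905148) (nat_lit 76) (nat_lit 6627869720) (nat_lit 89) (nat_lit 5) (nat_lit 96) (nat_lit 5) (nat_lit 90) (nat_lit 5) (nat_lit 300) (nat_lit 249) (nat_lit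 231)) (XT.nd (nat_lit 78) (nat_lit 0) (nat_lit 0) (XT.lf (nat_lit 0) (nat_lit 3481229872) (nat_lit 456) (nat_lit 5028213356) (nat_lit 76) (nat_lit 255960680) (nat_lit 84) (nat_lit 5) (nat_lit 90) (nat_lit 5) (nat_lit 85) (nat_lit 5) (nat_lit 301) (nat_lit 249) (nat_lit 230)) (XT.lf (nat_lit 0) (nat_lit 6157859945) (nat_lit 456) (nat_lit 194701467) (nat_lit 76) (nat_lit 2546740744) (nat_lit 84) (nat_lit 5) (nat_lit 90) (nat_lit 5) (nat_lit 85) (nat_lit 5) (nat_lit 302) (nat_lit 249) (nat_lit 229)))) (XT.nd (nat_lit 78) (nat_lit 380) (nat_lit 0) (XT.lf (nat_lit 0) (nat_lit 4801111353) (nat_lit 380) (nat_lit 4098216459) (nat_lit 456) (nat_lit 138507256) (nat_lit 79) (nat_lit 5) (nat_lit 84) (nat_lit 5) (nat_lit 85) (nat_lit 5) (nat_lit 303) (nat_lit 249) (nat_lit 228)) (XT.nd (nat_lit 78) (nat_lit 0) (nat_lit 0) (XT.lf (nat_lit 0) (nat_lit 682169336) (nat_lit 304) (nat_lit 1757984913) (nat_lit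 380) (nat_lit 6741363999) (nat_lit 74) (nat_lit 5) (nat_lit 78) (nat_lit 5) (nat_lit 79) (nat_lit 5) (nat_lit 304) (nat_lit 249) (nat_lit 227)) (XT.lf (nat_lit 0) (nat_lit 5082477116) (nat_lit 380) (nat_lit 3578863716) (nat_lit 76) (nat_lit 668598215) (nat_lit 74) (nat_lit 5) (nat_lit 79) (nat_lit 5) (nat_lit 75) (nat_lit 5) (nat_lit 305) (nat_lit 249) (nat_lit 226)))))) (XT.nd (nat_lit 390) (nat_lit 912) (nat_lit 0) (XT.nd (nat_lit 156) (nat_lit 608) (nat_lit 0) (XT.nd (nat_lit 78) (nat_lit 76) (nat_lit 0) (XT.lf (nat_lit 0) (nat_lit 1423841312) (nat_lit 380) (nat_lit 6352687386) (nat_lit 456) (nat_lit 1707246724) (nat_lit 69) (nat_lit 5) (nat_lit 74) (nat_lit 5) (nat_lit 75) (nat_lit 5) (nat_lit 306) (nat_lit 249) (nat_lit 225)) (XT.lf (nat_lit 0) (nat_lit 869583011) (nat_lit 456) (nat_lit 3076569823) (nat_lit 76) (nat_lit 5696596263) (nat_lit 68) (nat_lit 5) (nat_lit 74) (nat_lit 5) (nat_lit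 69) (nat_lit 5) (nat_lit 307) (nat_lit 249) (nat_lit 224))) (XT.nd (nat_lit 78) (nat_lit 304) (nat_lit 0) (XT.lf (nat_lit 0) (nat_lit 2004407653) (nat_lit 304) (nat_lit 1447615094) (nat_lit 380) (nat_lit 6355208681) (nat_lit 64) (nat_lit 5) (nat_lit 68) (nat_lit 5) (nat_lit 69) (nat_lit 5) (nat_lit 308) (nat_lit 249) (nat_lit 223)) (XT.nd (nat_lit 78) (nat_lit 304) (nat_lit 0) (XT.lf (nat_lit 0) (nat_lit 6098259557) (nat_lit 380) (nat_lit 2760959162) (nat_lit 76) (nat_lit 1117961272) (nat_lit 64) (nat_lit 5) (nat_lit 69) (nat_lit 5) (nat_lit 65) (nat_lit 5) (nat_lit 309) (nat_lit 249) (nat_lit 222)) (XT.lf (nat_lit 0) (nat_lit 2391689492) (nat_lit 304) (nat_lit 6415270896) (nat_lit 380) (nat_lit 1345892254) (nat_lit 60) (nat_lit 5) (nat_lit 64) (nat_lit 5) (nat_lit 65) (nat_lit 5) (nat_lit 310) (nat_lit 249) (nat_lit 221))))) (XT.nd (nat_lit 234) (nat_lit 608) (nat_lit 0) (XT.nd (nat_lit 78)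 (nat_lit 228) (nat_lit 0) (XT.lf (nat_lit 0) (nat_lit 1212635029) (nat_lit 380) (nat_lit 2663144097) (nat_lit 76) (nat_lit 6458538565) (nat_lit 59) (nat_lit 5) (nat_lit 64) (nat_lit 5) (nat_lit 60) (nat_lit 5) (nat_lit 311) (nat_lit 249) (nat_lit 220)) (XT.nd (nat_lit 78) (nat_lit 0) (nat_lit 0) (XT.lf (nat_lit 0) (nat_lit 2553164100) (nat_lit 228) (nat_lit 1239818411) (nat_lit 304) (nat_lit 6728788876) (nat_lit 56) (nat_lit 5) (nat_lit 59) (nat_lit 5) (nat_lit 60) (nat_lit 5) (nat_lit 312) (nat_lit 249) (nat_lit 219)) (XT.lf (nat_lit 0) (nat_lit 6440321235) (nat_lit 304) (nat_lit 2819855885) (nat_lit 76) (nat_lit 1455088939) (nat_lit 56) (nat_lit 5) (nat_lit 60) (nat_lit 5) (nat_lit 57) (nat_lit 5) (nat_lit 313) (nat_lit 249) (nat_lit 218)))) (XT.nd (nat_lit 78) (nat_lit 304) (nat_lit 0) (XT.lf (nat_lit 0) (nat_lit 2449046759) (nat_lit 304) (nat_lit 6703599352) (nat_lit 380) (nat_lit 1762454213)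 (nat_lit 52) (nat_lit 5) (nat_lit 56) (nat_lit 5) (nat_lit 57) (nat_lit 5) (nat_lit 314) (nat_lit 249) (nat_lit 217)) (XT.nd (nat_lit 78) (nat_lit 228) (nat_lit 0) (XT.lf (nat_lit 0) (nat_lit 788022674) (nat_lit 380) (nat_lit 3264703682) (nat_lit 76) (nat_lit 7068699578) (nat_lit 51) (nat_lit 5) (nat_lit 56) (nat_lit 5) (nat_lit 52) (nat_lit 5) (nat_lit 315) (nat_lit 249) (nat_lit 216)) (XT.lf (nat_lit 0) (nat_lit 2046993698) (nat_lit 228) (nat_lit 1303692335) (nat_lit 304) (nat_lit 7983692008) (nat_lit 48) (nat_lit 5) (nat_lit 51) (nat_lit 5) (nat_lit 52) (nat_lit 5) (nat_lit 316) (nat_lit 249) (nat_lit 215))))))) (XT.nd (nat_lit 858) (nat_lit 988) (nat_lit 0) (XT.nd (nat_lit 390) (nat_lit 456) (nat_lit 0) (XT.nd (nat_lit 156) (nat_lit 304) (nat_lit 0) (XT.nd (nat_lit 78) (nat_lit 228) (nat_lit 0) (XT.lf (nat_lit 0) (nat_lit 5990204425) (nat_lit 304) (nat_lit 4051631270) (nat_lit 76) (nat_lit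 1511974152) (nat_lit 48) (nat_lit 5) (nat_lit 52) (nat_lit 5) (nat_lit 49) (nat_lit 5) (nat_lit 317) (nat_lit 249) (nat_lit 214)) (XT.lf (nat_lit 0) (nat_lit 1286542975) (nat_lit 228) (nat_lit 7401033816) (nat_lit 304) (nat_lit 3092975522) (nat_lit 45) (nat_lit 5) (nat_lit 48) (nat_lit 5) (nat_lit 49) (nat_lit 5) (nat_lit 318) (nat_lit 249) (nat_lit 213))) (XT.nd (nat_lit 78) (nat_lit 304) (nat_lit 0) (XT.lf (nat_lit 0) (nat_lit 6801723636) (nat_lit 228) (nat_lit 4659174947) (nat_lit 304) (nat_lit 553432825) (nat_lit 45) (nat_lit 5) (nat_lit 48) (nat_lit 5) (nat_lit 49) (nat_lit 5) (nat_lit 319) (nat_lit 249) (nat_lit 212)) (XT.nd (nat_lit 78) (nat_lit 0) (nat_lit 0) (XT.lf (nat_lit 0) (nat_lit 144998599) (nat_lit 228) (nat_lit 1833377544) (nat_lit 304) (nat_lit 10277543636) (nat_lit 41) (nat_lit 5) (nat_lit 44) (nat_lit 5) (nat_lit 45) (nat_lit 5) (nat_lit 320) (nat_lit 249) (nat_lit 211))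 (XT.lf (nat_lit 0) (nat_lit 4593955195) (nat_lit 304) (nat_lit 6815163463) (nat_lit 76) (nat_lit 1094982551) (nat_lit 41) (nat_lit 5) (nat_lit 45) (nat_lit 5) (nat_lit 42) (nat_lit 5) (nat_lit 321) (nat_lit 249) (nat_lit 210))))) (XT.nd (nat_lit 234) (nat_lit 228) (nat_lit 0) (XT.nd (nat_lit 78) (nat_lit 228) (nat_lit 0) (XT.lf (nat_lit 0) (nat_lit 7262878476) (nat_lit 304) (nat_lit 1442586186) (nat_lit 76) (nat_lit 4055092815) (nat_lit 41) (nat_lit 5) (nat_lit 45) (nat_lit 5) (nat_lit 42) (nat_lit 5) (nat_lit 322) (nat_lit 249) (nat_lit 209)) (XT.nd (nat_lit 78) (nat_lit 0) (nat_lit 0) (XT.lf (nat_lit 0) (nat_lit 4109316241) (nat_lit 228) (nat_lit 5900039529) (nat_lit 304) (nat_lit 3015500570) (nat_lit 38) (nat_lit 5) (nat_lit 41) (nat_lit 5) (nat_lit 42) (nat_lit 5) (nat_lit 323) (nat_lit 249) (nat_lit 208)) (XT.lf (nat_lit 0) (nat_lit 9795915849) (nat_lit 228) (nat_lit 3015497098) (nat_lit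 304) (nat_lit 486547009) (nat_lit 38) (nat_lit 5) (nat_lit 41) (nat_lit 5) (nat_lit 42) (nat_lit 5) (nat_lit 324) (nat_lit 249) (nat_lit 207)))) (XT.nd (nat_lit 78) (nat_lit 0) (nat_lit 0) (XT.lf (nat_lit 0) (nat_lit 2032640396) (nat_lit 152) (nat_lit 23196419) (nat_lit 228) (nat_lit 11523509355) (nat_lit 35) (nat_lit 5) (nat_lit 37) (nat_lit 5) (nat_lit 38) (nat_lit 5) (nat_lit 325) (nat_lit 249) (nat_lit 206)) (XT.nd (nat_lit 78) (nat_lit 0) (nat_lit 0) (XT.lf (nat_lit 0) (nat_lit 4689605089) (nat_lit 228) (nat_lit 6158530508) (nat_lit 76) (nat_lit 3020212394) (nat_lit 35) (nat_lit 5) (nat_lit 38) (nat_lit 5) (nat_lit 36) (nat_lit 5) (nat_lit 326) (nat_lit 249) (nat_lit 205)) (XT.lf (nat_lit 0) (nat_lit 7363562068) (nat_lit 228) (nat_lit 668163107) (nat_lit 76) (nat_lit 6135522820) (nat_lit 35) (nat_lit 5) (nat_lit 38) (nat_lit 5) (nat_lit 36) (nat_lit 5) (nat_lit 327) (nat_lit 249) (nat_lit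 204)))))) (XT.nd (nat_lit 468) (nat_lit 380) (nat_lit 0) (XT.nd (nat_lit 234) (nat_lit 152) (nat_lit 0) (XT.nd (nat_lit 78) (nat_lit 228) (nat_lit 0) (XT.lf (nat_lit 0) (nat_lit 5027521872) (nat_lit 228) (nat_lit 5100626983) (nat_lit 304) (nat_lit 4346715361) (nat_lit 32) (nat_lit 5) (nat_lit 35) (nat_lit 5) (nat_lit 36) (nat_lit 5) (nat_lit 328) (nat_lit 249) (nat_lit 203)) (XT.nd (nat_lit 78) (nat_lit 228) (nat_lit 0) (XT.lf (nat_lit 0) (nat_lit 10850839299) (nat_lit 228) (nat_lit 2094221643) (nat_lit 304) (nat_lit 1847626111) (nat_lit 32) (nat_lit 5) (nat_lit 35) (nat_lit 5) (nat_lit 36) (nat_lit 5) (nat_lit 329) (nat_lit 249) (nat_lit 202)) (XT.lf (nat_lit 0) (nat_lit 701584192) (nat_lit 228) (nat_lit 13431264377) (nat_lit 76) (nat_lit 987363133) (nat_lit 29) (nat_lit 5) (nat_lit 32) (nat_lit 5) (nat_lit 30) (nat_lit 5) (nat_lit 330) (nat_lit 249) (nat_lit 201)))) (XT.nd (nat_lit 78) (nat_lit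 152) (nat_lit 0) (XT.lf (nat_lit 0) (nat_lit 3314730773) (nat_lit 228) (nat_lit 7982786461) (nat_lit 76) (nat_lit 4158812883) (nat_lit 29) (nat_lit 5) (nat_lit 32) (nat_lit 5) (nat_lit 30) (nat_lit 5) (nat_lit 331) (nat_lit 249) (nat_lit 200)) (XT.nd (nat_lit 78) (nat_lit 152) (nat_lit 0) (XT.lf (nat_lit 0) (nat_lit 5970991667) (nat_lit 228) (nat_lit 2425676039) (nat_lit 76) (nat_lit 7406975875) (nat_lit 29) (nat_lit 5) (nat_lit 32) (nat_lit 5) (nat_lit 30) (nat_lit 5) (nat_lit 332) (nat_lit 249) (nat_lit 199)) (XT.lf (nat_lit 0) (nat_lit 3309502938) (nat_lit 152) (nat_lit 5394997907) (nat_lit 228) (nat_lit 7457000338) (nat_lit 27) (nat_lit 5) (nat_lit 29) (nat_lit 5) (nat_lit 30) (nat_lit 5) (nat_lit 333) (nat_lit 249) (nat_lit 198))))) (XT.nd (nat_lit 234) (nat_lit 152) (nat_lit 0) (XT.nd (nat_lit 78) (nat_lit 228) (nat_lit 0) (XT.lf (nat_lit 0) (nat_lit 9213758001) (nat_lit 152) (nat_lit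 2296990391) (nat_lit 228) (nat_lit 5019674176) (nat_lit 27) (nat_lit 5) (nat_lit 29) (nat_lit 5) (nat_lit 30) (nat_lit 5) (nat_lit 334) (nat_lit 249) (nat_lit 197)) (XT.nd (nat_lit 78) (nat_lit 228) (nat_lit 0) (XT.lf (nat_lit 0) (nat_lit 14376821719) (nat_lit 228) (nat_lit 1675887520) (nat_lit 76) (nat_lit 858481794) (nat_lit 27) (nat_lit 5) (nat_lit 30) (nat_lit 5) (nat_lit 28) (nat_lit 4) (nat_lit 335) (nat_lit 249) (nat_lit 196)) (XT.lf (nat_lit 0) (nat_lit 55813311) (nat_lit 228) (nat_lit 13161378773) (nat_lit 76) (nat_lit 4085304432) (nat_lit 24) (nat_lit 5) (nat_lit 27) (nat_lit 5) (nat_lit 25) (nat_lit 5) (nat_lit 336) (nat_lit 249) (nat_lit 195)))) (XT.nd (nat_lit 78) (nat_lit 152) (nat_lit 0) (XT.lf (nat_lit 0) (nat_lit 2657952695) (nat_lit 228) (nat_lit 7613998889) (nat_lit 76) (nat_lit 7433325577) (nat_lit 24) (nat_lit 5) (nat_lit 27) (nat_lit 5) (nat_lit 25) (nat_lit 5) (nat_lit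 337) (nat_lit 249) (nat_lit 194)) (XT.nd (nat_lit 78) (nat_lit 152) (nat_lit 0) (XT.lf (nat_lit 0) (nat_lit 5307184277) (nat_lit 228) (nat_lit 1949413448) (nat_lit 76) (nat_lit 10864515829) (nat_lit 24) (nat_lit 5) (nat_lit 27) (nat_lit 5) (nat_lit 25) (nat_lit 5) (nat_lit 338) (nat_lit 249) (nat_lit 193)) (XT.lf (nat_lit 0) (nat_lit 3913697522) (nat_lit 152) (nat_lit 4129746252) (nat_lit 228) (nat_lit 10505796649) (nat_lit 22) (nat_lit 5) (nat_lit 24) (nat_lit 5) (nat_lit 25) (nat_lit 5) (nat_lit 339) (nat_lit 249) (nat_lit 192))))))))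
noncomputable def xc81 : XT := (XT.nd (nat_lit 1716) (nat_lit 532) (nat_lit 0) (XT.nd (nat_lit 858) (nat_lit 304) (nat_lit 0) (XT.nd (nat_lit 390) (nat_lit 228) (nat_lit 0) (XT.nd (nat_lit 156) (nat_lit 228) (nat_lit 0) (XT.nd (nat_lit 78) (nat_lit 0) (nat_lit 0) (XT.lf (nat_lit 0) (nat_lit 9945348972) (nat_lit 152) (nat_lit 906478464) (nat_lit 228) (nat_lit 8138723265) (nat_lit 22) (nat_lit 5) (nat_lit 24) (nat_lit 5) (nat_lit 25) (nat_lit 5) (nat_lit 340) (nat_lit 249) (nat_lit 191)) (XT.lf (nat_lit 0) (nat_lit 13738712349) (nat_lit 228) (nat_lit 3357024283) (nat_lit 76) (nat_lit 2349575671) (nat_lit 22) (nat_lit 5) (nat_lit 25) (nat_lit 5) (nat_lit 23) (nat_lit 4) (nat_lit 341) (nat_lit 249) (nat_lit 190))) (XT.nd (nat_lit 78) (nat_lit 76) (nat_lit 0) (XT.lf (nat_lit 0) (nat_lit 2496219070) (nat_lit 152) (nat_lit 14220847989) (nat_lit 228) (nat_lit 3196542152) (nat_lit 20) (nat_lit 5) (nat_lit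 22) (nat_lit 5) (nat_lit 23) (nat_lit 4) (nat_lit 342) (nat_lit 249) (nat_lit 189)) (XT.nd (nat_lit 78) (nat_lit 76) (nat_lit 0) (XT.lf (nat_lit 0) (nat_lit 8549005085) (nat_lit 152) (nat_lit 11241947049) (nat_lit 228) (nat_lit 604854740) (nat_lit 20) (nat_lit 5) (nat_lit 22) (nat_lit 5) (nat_lit 23) (nat_lit 4) (nat_lit 343) (nat_lit 249) (nat_lit 188)) (XT.lf (nat_lit 0) (nat_lit 1997081658) (nat_lit 228) (nat_lit 6173081985) (nat_lit 76) (nat_lit 12722562971) (nat_lit 19) (nat_lit 5) (nat_lit 22) (nat_lit 5) (nat_lit 20) (nat_lit 5) (nat_lit 344) (nat_lit 249) (nat_lit 187))))) (XT.nd (nat_lit 234) (nat_lit 76) (nat_lit 0) (XT.nd (nat_lit 78) (nat_lit 152) (nat_lit 0) (XT.lf (nat_lit 0) (nat_lit 4638497635) (nat_lit 228) (nat_lit 377993771) (nat_lit 76) (nat_lit 16388709606) (nat_lit 19) (nat_lit 5) (nat_lit 22) (nat_lit 5) (nat_lit 20) (nat_lit 5) (nat_lit 345) (nat_lit 249) (nat_lit 186))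 (XT.nd (nat_lit 78) (nat_lit 0) (nat_lit 0) (XT.lf (nat_lit 0) (nat_lit 5659783516) (nat_lit 152) (nat_lit 1728125903) (nat_lit 228) (nat_lit 14544310711) (nat_lit 17) (nat_lit 5) (nat_lit 19) (nat_lit 5) (nat_lit 20) (nat_lit 5) (nat_lit 346) (nat_lit 249) (nat_lit 185)) (XT.lf (nat_lit 0) (nat_lit 10214150946) (nat_lit 228) (nat_lit 10646313510) (nat_lit 76) (nat_lit 1614787066) (nat_lit 17) (nat_lit 5) (nat_lit 20) (nat_lit 5) (nat_lit 18) (nat_lit 4) (nat_lit 347) (nat_lit 249) (nat_lit 184)))) (XT.nd (nat_lit 78) (nat_lit 76) (nat_lit 0) (XT.lf (nat_lit 0) (nat_lit 13117577574) (nat_lit 228) (nat_lit 4909135084) (nat_lit 76) (nat_lit 5008120450) (nat_lit 17) (nat_lit 5) (nat_lit 20) (nat_lit 5) (nat_lit 18) (nat_lit 4) (nat_lit 348) (nat_lit 249) (nat_lit 183)) (XT.nd (nat_lit 78) (nat_lit 0) (nat_lit 0) (XT.lf (nat_lit 0) (nat_lit 979843817) (nat_lit 76) (nat_lit 15113689516) (nat_lit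 152) (nat_lit 7518136297) (nat_lit 16) (nat_lit 5) (nat_lit 17) (nat_lit 5) (nat_lit 18) (nat_lit 4) (nat_lit 349) (nat_lit 249) (nat_lit 182)) (XT.lf (nat_lit 0) (nat_lit 7107076001) (nat_lit 76) (nat_lit 12077595330) (nat_lit 152) (nat_lit 5020392208) (nat_lit 16) (nat_lit 5) (nat_lit 17) (nat_lit 5) (nat_lit 18) (nat_lit 4) (nat_lit 350) (nat_lit 249) (nat_lit 181)))))) (XT.nd (nat_lit 390) (nat_lit 76) (nat_lit 0) (XT.nd (nat_lit 156) (nat_lit 152) (nat_lit 0) (XT.nd (nat_lit 78) (nat_lit 76) (nat_lit 0) (XT.lf (nat_lit 0) (nat_lit 13380213947) (nat_lit 76) (nat_lit 8965349840) (nat_lit 152) (nat_lit 2471413410) (nat_lit 16) (nat_lit 5) (nat_lit 17) (nat_lit 5) (nat_lit 18) (nat_lit 4) (nat_lit 351) (nat_lit 249) (nat_lit 180)) (XT.lf (nat_lit 0) (nat_lit 128470544) (nat_lit 152) (nat_lit 5644465763) (nat_lit 76) (nat_lit 19674971192) (nat_lit 15) (nat_lit 5) (nat_lit 17) (nat_lit 5) (nat_lit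 16) (nat_lit 5) (nat_lit 352) (nat_lit 249) (nat_lit 179))) (XT.nd (nat_lit 78) (nat_lit 0) (nat_lit 0) (XT.lf (nat_lit 0) (nat_lit 266127365) (nat_lit 152) (nat_lit 2471207475) (nat_lit 228) (nat_lit 23360303204) (nat_lit 13) (nat_lit 5) (nat_lit 15) (nat_lit 5) (nat_lit 16) (nat_lit 5) (nat_lit 353) (nat_lit 249) (nat_lit 178)) (XT.nd (nat_lit 78) (nat_lit 0) (nat_lit 0) (XT.lf (nat_lit 0) (nat_lit 5469218215) (nat_lit 228) (nat_lit 20341285072) (nat_lit 76) (nat_lit 955039982) (nat_lit 13) (nat_lit 5) (nat_lit 16) (nat_lit 5) (nat_lit 14) (nat_lit 4) (nat_lit 354) (nat_lit 249) (nat_lit 177)) (XT.lf (nat_lit 0) (nat_lit 8286413987) (nat_lit 228) (nat_lit 14746139364) (nat_lit 76) (nat_lit 4420856242) (nat_lit 13) (nat_lit 5) (nat_lit 16) (nat_lit 5) (nat_lit 14) (nat_lit 4) (nat_lit 355) (nat_lit 249) (nat_lit 176))))) (XT.nd (nat_lit 234) (nat_lit 0) (nat_lit 0) (XT.nd (nat_lit 78) (nat_lit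 76) (nat_lit 0) (XT.lf (nat_lit 0) (nat_lit 11167629024) (nat_lit 228) (nat_lit 9017429838) (nat_lit 76) (nat_lit 7977491847) (nat_lit 13) (nat_lit 5) (nat_lit 16) (nat_lit 5) (nat_lit 14) (nat_lit 4) (nat_lit 356) (nat_lit 249) (nat_lit 175)) (XT.nd (nat_lit 78) (nat_lit 76) (nat_lit 0) (XT.lf (nat_lit 0) (nat_lit 14115380893) (nat_lit 228) (nat_lit 3150150823) (nat_lit 76) (nat_lit 11628054536) (nat_lit 13) (nat_lit 5) (nat_lit 16) (nat_lit 5) (nat_lit 14) (nat_lit 4) (nat_lit 357) (nat_lit 249) (nat_lit 174)) (XT.lf (nat_lit 0) (nat_lit 2917760442) (nat_lit 76) (nat_lit 14242532155) (nat_lit 152) (nat_lit 12486020977) (nat_lit 12) (nat_lit 5) (nat_lit 13) (nat_lit 5) (nat_lit 14) (nat_lit 4) (nat_lit 358) (nat_lit 249) (nat_lit 173)))) (XT.nd (nat_lit 78) (nat_lit 0) (nat_lit 0) (XT.lf (nat_lit 0) (nat_lit 9200278800) (nat_lit 76) (nat_lit 11109018247) (nat_lit 152) (nat_lit 10111965182)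 (nat_lit 12) (nat_lit 5) (nat_lit 13) (nat_lit 5) (nat_lit 14) (nat_lit 4) (nat_lit 359) (nat_lit 249) (nat_lit 172)) (XT.nd (nat_lit 78) (nat_lit 0) (nat_lit 0) (XT.lf (nat_lit 0) (nat_lit 15640199650) (nat_lit 76) (nat_lit 7894062317) (nat_lit 152) (nat_lit 7685773904) (nat_lit 12) (nat_lit 5) (nat_lit 13) (nat_lit 5) (nat_lit 14) (nat_lit 4) (nat_lit 360) (nat_lit 249) (nat_lit 171)) (XT.lf (nat_lit 0) (nat_lit 22243150108) (nat_lit 76) (nat_lit 4594855179) (nat_lit 152) (nat_lit 5205327170) (nat_lit 12) (nat_lit 5) (nat_lit 13) (nat_lit 5) (nat_lit 14) (nat_lit 4) (nat_lit 361) (nat_lit 249) (nat_lit 170))))))) (XT.nd (nat_lit 858) (nat_lit 228) (nat_lit 0) (XT.nd (nat_lit 390) (nat_lit 76) (nat_lit 0) (XT.nd (nat_lit 156) (nat_lit 76) (nat_lit 0) (XT.nd (nat_lit 78) (nat_lit 152) (nat_lit 0) (XT.lf (nat_lit 0) (nat_lit 29014899741) (nat_lit 76) (nat_lit 1208514032) (nat_lit 152) (nat_lit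 2668457598) (nat_lit 12) (nat_lit 5) (nat_lit 13) (nat_lit 5) (nat_lit 14) (nat_lit 4) (nat_lit 362) (nat_lit 249) (nat_lit 169)) (XT.lf (nat_lit 0) (nat_lit 2216421281) (nat_lit 152) (nat_lit 31520130502) (nat_lit 152) (nat_lit 28549089) (nat_lit 10) (nat_lit 4) (nat_lit 12) (nat_lit 5) (nat_lit 12) (nat_lit 4) (nat_lit 363) (nat_lit 249) (nat_lit 168))) (XT.nd (nat_lit 78) (nat_lit 0) (nat_lit 0) (XT.lf (nat_lit 0) (nat_lit 2672544499) (nat_lit 228) (nat_lit 26158406413) (nat_lit 76) (nat_lit 5831784058) (nat_lit 9) (nat_lit 5) (nat_lit 12) (nat_lit 5) (nat_lit 10) (nat_lit 4) (nat_lit 364) (nat_lit 249) (nat_lit 167)) (XT.nd (nat_lit 78) (nat_lit 0) (nat_lit 0) (XT.lf (nat_lit 0) (nat_lit 5437579958) (nat_lit 228) (nat_lit 20634792522) (nat_lit 76) (nat_lit 9515430430) (nat_lit 9) (nat_lit 5) (nat_lit 12) (nat_lit 5) (nat_lit 10) (nat_lit 4) (nat_lit 365) (nat_lit 249) (nat_lit 166)) (XT.lf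 (nat_lit 0) (nat_lit 8269530433) (nat_lit 228) (nat_lit 14972737030) (nat_lit 76) (nat_lit 13298853775) (nat_lit 9) (nat_lit 5) (nat_lit 12) (nat_lit 5) (nat_lit 10) (nat_lit 4) (nat_lit 366) (nat_lit 249) (nat_lit 165))))) (XT.nd (nat_lit 234) (nat_lit 0) (nat_lit 0) (XT.nd (nat_lit 78) (nat_lit 76) (nat_lit 0) (XT.lf (nat_lit 0) (nat_lit 11170870444) (nat_lit 228) (nat_lit 9167292509) (nat_lit 76) (nat_lit 17185359998) (nat_lit 9) (nat_lit 5) (nat_lit 12) (nat_lit 5) (nat_lit 10) (nat_lit 4) (nat_lit 367) (nat_lit 249) (nat_lit 164)) (XT.nd (nat_lit 78) (nat_lit 76) (nat_lit 0) (XT.lf (nat_lit 0) (nat_lit 14144135142) (nat_lit 228) (nat_lit 3213386240) (nat_lit 76) (nat_lit 21178345074) (nat_lit 9) (nat_lit 5) (nat_lit 12) (nat_lit 5) (nat_lit 10) (nat_lit 4) (nat_lit 368) (nat_lit 249) (nat_lit 163)) (XT.lf (nat_lit 0) (nat_lit 2951784158) (nat_lit 76) (nat_lit 14268512723) (nat_lit 152)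 (nat_lit 22357888216) (nat_lit 8) (nat_lit 5) (nat_lit 9) (nat_lit 5) (nat_lit 10) (nat_lit 4) (nat_lit 369) (nat_lit 249) (nat_lit 162)))) (XT.nd (nat_lit 78) (nat_lit 0) (nat_lit 0) (XT.lf (nat_lit 0) (nat_lit 9343072576) (nat_lit 76) (nat_lit 11063634464) (nat_lit 152) (nat_lit 20244542692) (nat_lit 8) (nat_lit 5) (nat_lit 9) (nat_lit 5) (nat_lit 10) (nat_lit 4) (nat_lit 370) (nat_lit 249) (nat_lit 161)) (XT.nd (nat_lit 78) (nat_lit 0) (nat_lit 0) (XT.lf (nat_lit 0) (nat_lit 15902110946) (nat_lit 76) (nat_lit 7772535128) (nat_lit 152) (nat_lit 18082297030) (nat_lit 8) (nat_lit 5) (nat_lit 9) (nat_lit 5) (nat_lit 10) (nat_lit 4) (nat_lit 371) (nat_lit 249) (nat_lit 160)) (XT.lf (nat_lit 0) (nat_lit 22634630467) (nat_lit 76) (nat_lit 4392338997) (nat_lit 152) (nat_lit 15869261890) (nat_lit 8) (nat_lit 5) (nat_lit 9) (nat_lit 5) (nat_lit 10) (nat_lit 4) (nat_lit 372) (nat_lit 249) (nat_lit 159))))))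 (XT.nd (nat_lit 468) (nat_lit 152) (nat_lit 0) (XT.nd (nat_lit 234) (nat_lit 76) (nat_lit 0) (XT.nd (nat_lit 78) (nat_lit 0) (nat_lit 0) (XT.lf (nat_lit 0) (nat_lit 29546513923) (nat_lit 76) (nat_lit 920092500) (nat_lit 152) (nat_lit 13603503550) (nat_lit 8) (nat_lit 5) (nat_lit 9) (nat_lit 5) (nat_lit 10) (nat_lit 4) (nat_lit 373) (nat_lit 249) (nat_lit 158)) (XT.nd (nat_lit 78) (nat_lit 0) (nat_lit 0) (XT.lf (nat_lit 0) (nat_lit 34022009338) (nat_lit 152) (nat_lit 8661250737) (nat_lit 0) (nat_lit 2595581206) (nat_lit 8) (nat_lit 5) (nat_lit 10) (nat_lit 4) (nat_lit 8) (nat_lit 4) (nat_lit 374) (nat_lit 249) (nat_lit 157)) (XT.lf (nat_lit 0) (nat_lit 37680604221) (nat_lit 152) (nat_lit 2653761860) (nat_lit 0) (nat_lit 6189585782) (nat_lit 8) (nat_lit 5) (nat_lit 10) (nat_lit 4) (nat_lit 8) (nat_lit 4) (nat_lit 375) (nat_lit 249) (nat_lit 156)))) (XT.nd (nat_lit 78) (nat_lit 0) (nat_lit 0) (XT.lf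 (nat_lit 0) (nat_lit 3582879211) (nat_lit 76) (nat_lit 37888305029) (nat_lit 76) (nat_lit 6334577553) (nat_lit 7) (nat_lit 4) (nat_lit 8) (nat_lit 5) (nat_lit 8) (nat_lit 4) (nat_lit 376) (nat_lit 249) (nat_lit 155)) (XT.nd (nat_lit 78) (nat_lit 0) (nat_lit 0) (XT.lf (nat_lit 0) (nat_lit 10040237440) (nat_lit 76) (nat_lit 35349984443) (nat_lit 76) (nat_lit 3735374407) (nat_lit 7) (nat_lit 4) (nat_lit 8) (nat_lit 5) (nat_lit 8) (nat_lit 4) (nat_lit 377) (nat_lit 249) (nat_lit 154)) (XT.lf (nat_lit 0) (nat_lit 16671140114) (nat_lit 76) (nat_lit 32743984163) (nat_lit 76) (nat_lit 1070264847) (nat_lit 7) (nat_lit 4) (nat_lit 8) (nat_lit 5) (nat_lit 8) (nat_lit 4) (nat_lit 378) (nat_lit 249) (nat_lit 153))))) (XT.nd (nat_lit 234) (nat_lit 76) (nat_lit 0) (XT.nd (nat_lit 78) (nat_lit 0) (nat_lit 0) (XT.lf (nat_lit 0) (nat_lit 1630627185) (nat_lit 152) (nat_lit 28420933782) (nat_lit 76) (nat_lit 21834287902)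 (nat_lit 6) (nat_lit 5) (nat_lit 8) (nat_lit 5) (nat_lit 7) (nat_lit 4) (nat_lit 379) (nat_lit 249) (nat_lit 152)) (XT.nd (nat_lit 78) (nat_lit 0) (nat_lit 0) (XT.lf (nat_lit 0) (nat_lit 4379879886) (nat_lit 152) (nat_lit 22895666964) (nat_lit 76) (nat_lit 26052803382) (nat_lit 6) (nat_lit 5) (nat_lit 8) (nat_lit 5) (nat_lit 7) (nat_lit 4) (nat_lit 380) (nat_lit 249) (nat_lit 151)) (XT.lf (nat_lit 0) (nat_lit 7200780239) (nat_lit 152) (nat_lit 17223332614) (nat_lit 76) (nat_lit 30390349443) (nat_lit 6) (nat_lit 5) (nat_lit 8) (nat_lit 5) (nat_lit 7) (nat_lit 4) (nat_lit 381) (nat_lit 249) (nat_lit 150)))) (XT.nd (nat_lit 78) (nat_lit 76) (nat_lit 0) (XT.lf (nat_lit 0) (nat_lit 10095793107) (nat_lit 152) (nat_lit 11398974323) (nat_lit 76) (nat_lit 34850716174) (nat_lit 6) (nat_lit 5) (nat_lit 8) (nat_lit 5) (nat_lit 7) (nat_lit 4) (nat_lit 382) (nat_lit 249) (nat_lit 149)) (XT.nd (nat_lit 78)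 (nat_lit 76) (nat_lit 0) (XT.lf (nat_lit 0) (nat_lit 13067448112) (nat_lit 152) (nat_lit 5417502847) (nat_lit 76) (nat_lit 39437800983) (nat_lit 6) (nat_lit 5) (nat_lit 8) (nat_lit 5) (nat_lit 7) (nat_lit 4) (nat_lit 383) (nat_lit 249) (nat_lit 148)) (XT.lf (nat_lit 0) (nat_lit 740763303) (nat_lit 76) (nat_lit 15384699214) (nat_lit 152) (nat_lit 43421969367) (nat_lit 5) (nat_lit 5) (nat_lit 6) (nat_lit 5) (nat_lit 7) (nat_lit 4) (nat_lit 384) (nat_lit 249) (nat_lit 147))))))))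
noncomputable def xc82 : XT := (XT.nd (nat_lit 32994) (nat_lit 0) (nat_lit 4560) (XT.nd (nat_lit 858) (nat_lit 0) (nat_lit 0) (XT.nd (nat_lit 390) (nat_lit 76) (nat_lit 0) (XT.nd (nat_lit 156) (nat_lit 0) (nat_lit 0) (XT.nd (nat_lit 78) (nat_lit 0) (nat_lit 0) (XT.lf (nat_lit 0) (nat_lit 7177894196) (nat_lit 76) (nat_lit 12142244256) (nat_lit 152) (nat_lit 41899375701) (nat_lit 5) (nat_lit 5) (nat_lit 6) (nat_lit 5) (nat_lit 7) (nat_lit 4) (nat_lit 385) (nat_lit 249) (nat_lit 146)) (XT.lf (nat_lit 0) (nat_lit 13791695580) (nat_lit 76) (nat_lit 8809459028) (nat_lit 152) (nat_lit 40340898566) (nat_lit 5) (nat_lit 5) (nat_lit 6) (nat_lit 5) (nat_lit 7) (nat_lit 4) (nat_lit 386) (nat_lit 249) (nat_lit 145))) (XT.nd (nat_lit 78) (nat_lit 0) (nat_lit 0) (XT.lf (nat_lit 0) (nat_lit 20587946503) (nat_lit 76) (nat_lit 5383431388) (nat_lit 152) (nat_lit 38745176187) (nat_lit 5) (nat_lit 5) (nat_lit 6)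 (nat_lit 5) (nat_lit 7) (nat_lit 4) (nat_lit 387) (nat_lit 249) (nat_lit 144)) (XT.nd (nat_lit 78) (nat_lit 0) (nat_lit 0) (XT.lf (nat_lit 0) (nat_lit 27572585439) (nat_lit 76) (nat_lit 1861167719) (nat_lit 152) (nat_lit 37110814243) (nat_lit 5) (nat_lit 5) (nat_lit 6) (nat_lit 5) (nat_lit 7) (nat_lit 4) (nat_lit 388) (nat_lit 249) (nat_lit 143)) (XT.lf (nat_lit 0) (nat_lit 33008227920) (nat_lit 152) (nat_lit 33692897102) (nat_lit 0) (nat_lit 1726057749) (nat_lit 5) (nat_lit 5) (nat_lit 7) (nat_lit 4) (nat_lit 5) (nat_lit 4) (nat_lit 389) (nat_lit 249) (nat_lit 142))))) (XT.nd (nat_lit 234) (nat_lit 76) (nat_lit 0) (XT.nd (nat_lit 78) (nat_lit 0) (nat_lit 0) (XT.lf (nat_lit 0) (nat_lit 36699864348) (nat_lit 152) (nat_lit 28288679045) (nat_lit 0) (nat_lit 5377443633) (nat_lit 5) (nat_lit 5) (nat_lit 7) (nat_lit 4) (nat_lit 5) (nat_lit 4) (nat_lit 390) (nat_lit 249) (nat_lit 141)) (XT.nd (nat_lit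 78) (nat_lit 0) (nat_lit 0) (XT.lf (nat_lit 0) (nat_lit 40493997463) (nat_lit 152) (nat_lit 22736714976) (nat_lit 0) (nat_lit 9132498549) (nat_lit 5) (nat_lit 5) (nat_lit 7) (nat_lit 4) (nat_lit 5) (nat_lit 4) (nat_lit 391) (nat_lit 249) (nat_lit 140)) (XT.lf (nat_lit 0) (nat_lit 44393942525) (nat_lit 152) (nat_lit 17032153667) (nat_lit 0) (nat_lit 12994503613) (nat_lit 5) (nat_lit 5) (nat_lit 7) (nat_lit 4) (nat_lit 5) (nat_lit 4) (nat_lit 392) (nat_lit 249) (nat_lit 139)))) (XT.nd (nat_lit 78) (nat_lit 76) (nat_lit 0) (XT.lf (nat_lit 0) (nat_lit 48403107254) (nat_lit 152) (nat_lit 11170010547) (nat_lit 0) (nat_lit 16966833392) (nat_lit 5) (nat_lit 5) (nat_lit 7) (nat_lit 4) (nat_lit 5) (nat_lit 4) (nat_lit 393) (nat_lit 249) (nat_lit 138)) (XT.nd (nat_lit 78) (nat_lit 76) (nat_lit 0) (XT.lf (nat_lit 0) (nat_lit 52524994803) (nat_lit 152) (nat_lit 5145163356) (nat_lit 0) (nat_lit 21052958855)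 (nat_lit 5) (nat_lit 5) (nat_lit 7) (nat_lit 4) (nat_lit 5) (nat_lit 4) (nat_lit 394) (nat_lit 249) (nat_lit 137)) (XT.lf (nat_lit 0) (nat_lit 1068502669) (nat_lit 76) (nat_lit 55704975254) (nat_lit 76) (nat_lit 24198218833) (nat_lit 4) (nat_lit 4) (nat_lit 5) (nat_lit 5) (nat_lit 5) (nat_lit 4) (nat_lit 395) (nat_lit 249) (nat_lit 136)))))) (XT.nd (nat_lit 31668) (nat_lit 0) (nat_lit 11324) (XT.nd (nat_lit 156) (nat_lit 0) (nat_lit 0) (XT.nd (nat_lit 78) (nat_lit 0) (nat_lit 0) (XT.lf (nat_lit 0) (nat_lit 7561397830) (nat_lit 76) (nat_lit 53632733556) (nat_lit 76) (nat_lit 22092267937) (nat_lit 4) (nat_lit 4) (nat_lit 5) (nat_lit 5) (nat_lit 5) (nat_lit 4) (nat_lit 396) (nat_lit 249) (nat_lit 135)) (XT.lf (nat_lit 0) (nat_lit 14236796688) (nat_lit 76) (nat_lit 51503578428) (nat_lit 76) (nat_lit 19930385434) (nat_lit 4) (nat_lit 4) (nat_lit 5) (nat_lit 5) (nat_lit 5) (nat_lit 4) (nat_lit 397)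 (nat_lit 249) (nat_lit 134))) (XT.nd (nat_lit 78) (nat_lit 0) (nat_lit 0) (XT.lf (nat_lit 0) (nat_lit 21100532118) (nat_lit 76) (nat_lit 49315649446) (nat_lit 76) (nat_lit 17710682300) (nat_lit 4) (nat_lit 4) (nat_lit 5) (nat_lit 5) (nat_lit 5) (nat_lit 4) (nat_lit 398) (nat_lit 249) (nat_lit 133)) (XT.nd (nat_lit 31356) (nat_lit 0) (nat_lit 14212) (XT.lf (nat_lit 0) (nat_lit 28158601557) (nat_lit 76) (nat_lit 47067034826) (nat_lit 76) (nat_lit 15431218989) (nat_lit 4) (nat_lit 4) (nat_lit 5) (nat_lit 5) (nat_lit 5) (nat_lit 4) (nat_lit 399) (nat_lit 249) (nat_lit 132)) (XT.lf (nat_lit 0) (nat_lit 343814920) (nat_lit 836) (nat_lit 2774305327) (nat_lit 0) (nat_lit 343814920) (nat_lit 191) (nat_lit 5) (nat_lit 202) (nat_lit 4) (nat_lit 191) (nat_lit 4) (nat_lit 280) (nat_lit 250) (nat_lit 250))))) (XT.nd (nat_lit 234) (nat_lit 1976) (nat_lit 0) (XT.nd (nat_lit 78) (nat_lit 912) (nat_lit 0) (XT.lf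 (nat_lit 0) (nat_lit 3570238570) (nat_lit 836) (nat_lit 1552765132) (nat_lit 0) (nat_lit 1851937368) (nat_lit 191) (nat_lit 5) (nat_lit 202) (nat_lit 4) (nat_lit 191) (nat_lit 4) (nat_lit 281) (nat_lit 250) (nat_lit 249)) (XT.nd (nat_lit 78) (nat_lit 76) (nat_lit 0) (XT.lf (nat_lit 0) (nat_lit 2531937729) (nat_lit 836) (nat_lit 3942228794) (nat_lit 836) (nat_lit 555673996) (nat_lit 180) (nat_lit 4) (nat_lit 191) (nat_lit 5) (nat_lit 191) (nat_lit 4) (nat_lit 282) (nat_lit 250) (nat_lit 248)) (XT.lf (nat_lit 0) (nat_lit 2259391402) (nat_lit 912) (nat_lit 419653934) (nat_lit 76) (nat_lit 4409168248) (nat_lit 179) (nat_lit 5) (nat_lit 191) (nat_lit 5) (nat_lit 180) (nat_lit 4) (nat_lit 283) (nat_lit 250) (nat_lit 247)))) (XT.nd (nat_lit 78) (nat_lit 1064) (nat_lit 0) (XT.lf (nat_lit 0) (nat_lit 3769653336) (nat_lit 912) (nat_lit 1328061358) (nat_lit 988) (nat_lit 2052271675) (nat_lit 167) (nat_lit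 5) (nat_lit 179) (nat_lit 5) (nat_lit 180) (nat_lit 4) (nat_lit 284) (nat_lit 250) (nat_lit 246)) (XT.nd (nat_lit 78) (nat_lit 0) (nat_lit 0) (XT.lf (nat_lit 0) (nat_lit 719070672) (nat_lit 1064) (nat_lit 6409602902) (nat_lit 76) (nat_lit 87183114) (nat_lit 153) (nat_lit 5) (nat_lit 167) (nat_lit 5) (nat_lit 154) (nat_lit 4) (nat_lit 285) (nat_lit 250) (nat_lit 245)) (XT.lf (nat_lit 0) (nat_lit 3496054666) (nat_lit 1064) (nat_lit 2211375598) (nat_lit 76) (nat_lit 1577037035) (nat_lit 153) (nat_lit 5) (nat_lit 167) (nat_lit 5) (nat_lit 154) (nat_lit 4) (nat_lit 286) (nat_lit 250) (nat_lit 244))))))) (XT.nd (nat_lit 858) (nat_lit 2432) (nat_lit 0) (XT.nd (nat_lit 390) (nat_lit 1976) (nat_lit 0) (XT.nd (nat_lit 156) (nat_lit 1216) (nat_lit 0) (XT.nd (nat_lit 78) (nat_lit 76) (nat_lit 0) (XT.lf (nat_lit 0) (nat_lit 2073035736) (nat_lit 1064) (nat_lit 4221810781) (nat_lit 1140) (nat_lit 1062412694)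 (nat_lit 139) (nat_lit 5) (nat_lit 153) (nat_lit 5) (nat_lit 154) (nat_lit 4) (nat_lit 287) (nat_lit 250) (nat_lit 243)) (XT.lf (nat_lit 0) (nat_lit 1652984865) (nat_lit 1140) (nat_lit 998553472) (nat_lit 76) (nat_lit 4782204912) (nat_lit 138) (nat_lit 5) (nat_lit 153) (nat_lit 5) (nat_lit 139) (nat_lit 5) (nat_lit 288) (nat_lit 250) (nat_lit 242))) (XT.nd (nat_lit 78) (nat_lit 608) (nat_lit 0) (XT.lf (nat_lit 0) (nat_lit 3392433949) (nat_lit 608) (nat_lit 990147083) (nat_lit 684) (nat_lit 3131256852) (nat_lit 130) (nat_lit 5) (nat_lit 138) (nat_lit 5) (nat_lit 139) (nat_lit 5) (nat_lit 289) (nat_lit 250) (nat_lit 241)) (XT.nd (nat_lit 78) (nat_lit 76) (nat_lit 0) (XT.lf (nat_lit 0) (nat_lit 256864825) (nat_lit 532) (nat_lit 6879788559) (nat_lit 608) (nat_lit 461651263) (nat_lit 123) (nat_lit 5) (nat_lit 130) (nat_lit 5) (nat_lit 131) (nat_lit 4) (nat_lit 290) (nat_lit 250) (nat_lit 240)) (XT.lf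 (nat_lit 0) (nat_lit 2218724129) (nat_lit 608) (nat_lit 2946967857) (nat_lit 76) (nat_lit 2519926481) (nat_lit 122) (nat_lit 5) (nat_lit 130) (nat_lit 5) (nat_lit 123) (nat_lit 5) (nat_lit 291) (nat_lit 250) (nat_lit 239))))) (XT.nd (nat_lit 234) (nat_lit 912) (nat_lit 0) (XT.nd (nat_lit 78) (nat_lit 532) (nat_lit 0) (XT.lf (nat_lit 0) (nat_lit 1525241273) (nat_lit 532) (nat_lit 3385376592) (nat_lit 608) (nat_lit 2866811120) (nat_lit 115) (nat_lit 5) (nat_lit 122) (nat_lit 5) (nat_lit 123) (nat_lit 5) (nat_lit 292) (nat_lit 250) (nat_lit 238)) (XT.nd (nat_lit 78) (nat_lit 532) (nat_lit 0) (XT.lf (nat_lit 0) (nat_lit 6113514834) (nat_lit 532) (nat_lit 1526645109) (nat_lit 608) (nat_lit 233346533) (nat_lit 115) (nat_lit 5) (nat_lit 122) (nat_lit 5) (nat_lit 123) (nat_lit 5) (nat_lit 293) (nat_lit 250) (nat_lit 237)) (XT.lf (nat_lit 0) (nat_lit 2390374940) (nat_lit 532) (nat_lit 5157151356) (nat_lit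 76) (nat_lit 425642990) (nat_lit 108) (nat_lit 5) (nat_lit 115) (nat_lit 5) (nat_lit 109) (nat_lit 5) (nat_lit 294) (nat_lit 250) (nat_lit 236)))) (XT.nd (nat_lit 78) (nat_lit 912) (nat_lit 0) (XT.lf (nat_lit 0) (nat_lit 5050808421) (nat_lit 532) (nat_lit 606843921) (nat_lit 76) (nat_lit 2419420399) (nat_lit 108) (nat_lit 5) (nat_lit 115) (nat_lit 5) (nat_lit 109) (nat_lit 5) (nat_lit 295) (nat_lit 250) (nat_lit 235)) (XT.nd (nat_lit 78) (nat_lit 456) (nat_lit 0) (XT.lf (nat_lit 0) (nat_lit 4082610645) (nat_lit 456) (nat_lit 3679365191) (nat_lit 532) (nat_lit 423184773) (nat_lit 102) (nat_lit 5) (nat_lit 108) (nat_lit 5) (nat_lit 109) (nat_lit 5) (nat_lit 296) (nat_lit 250) (nat_lit 234)) (XT.lf (nat_lit 0) (nat_lit 539840933) (nat_lit 380) (nat_lit 1617546261) (nat_lit 456) (nat_lit 6140332663) (nat_lit 96) (nat_lit 5) (nat_lit 101) (nat_lit 5) (nat_lit 102) (nat_lit 5) (nat_lit 297) (nat_lit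 250) (nat_lit 233)))))) (XT.nd (nat_lit 468) (nat_lit 1064) (nat_lit 0) (XT.nd (nat_lit 234) (nat_lit 836) (nat_lit 0) (XT.nd (nat_lit 78) (nat_lit 532) (nat_lit 0) (XT.lf (nat_lit 0) (nat_lit 4786795305) (nat_lit 456) (nat_lit 3095401605) (nat_lit 76) (nat_lit 532113931) (nat_lit 96) (nat_lit 5) (nat_lit 102) (nat_lit 5) (nat_lit 97) (nat_lit 5) (nat_lit 298) (nat_lit 250) (nat_lit 232)) (XT.nd (nat_lit 78) (nat_lit 76) (nat_lit 0) (XT.lf (nat_lit 0) (nat_lit 1646238339) (nat_lit 456) (nat_lit 5815853771) (nat_lit 532) (nat_lit 1073470447) (nat_lit 90) (nat_lit 5) (nat_lit 96) (nat_lit 5) (nat_lit 97) (nat_lit 5) (nat_lit 299) (nat_lit 250) (nat_lit 231)) (XT.lf (nat_lit 0) (nat_lit 1493904770) (nat_lit 532) (nat_lit 2158725772) (nat_lit 76) (nat_lit 5008522621) (nat_lit 89) (nat_lit 5) (nat_lit 96) (nat_lit 5) (nat_lit 90) (nat_lit 5) (nat_lit 300) (nat_lit 250) (nat_lit 230)))) (XT.nd (nat_lit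 78) (nat_lit 456) (nat_lit 0) (XT.lf (nat_lit 0) (nat_lit 2680206725) (nat_lit 380) (nat_lit 1399688740) (nat_lit 456) (nat_lit 4711560570) (nat_lit 84) (nat_lit 5) (nat_lit 89) (nat_lit 5) (nat_lit 90) (nat_lit 5) (nat_lit 301) (nat_lit 250) (nat_lit 229)) (XT.nd (nat_lit 78) (nat_lit 456) (nat_lit 0) (XT.lf (nat_lit 0) (nat_lit 6712719974) (nat_lit 456) (nat_lit 1301913989) (nat_lit 76) (nat_lit 912110292) (nat_lit 84) (nat_lit 5) (nat_lit 90) (nat_lit 5) (nat_lit 85) (nat_lit 5) (nat_lit 302) (nat_lit 250) (nat_lit 228)) (XT.lf (nat_lit 0) (nat_lit 340166585) (nat_lit 456) (nat_lit 5435305301) (nat_lit 76) (nat_lit 3290999232) (nat_lit 78) (nat_lit 5) (nat_lit 84) (nat_lit 5) (nat_lit 79) (nat_lit 5) (nat_lit 303) (nat_lit 250) (nat_lit 227))))) (XT.nd (nat_lit 234) (nat_lit 380) (nat_lit 0) (XT.nd (nat_lit 78) (nat_lit 684) (nat_lit 0) (XT.lf (nat_lit 0) (nat_lit 2880254742) (nat_lit 456)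 (nat_lit 567884995) (nat_lit 76) (nat_lit 5763120108) (nat_lit 78) (nat_lit 5) (nat_lit 84) (nat_lit 5) (nat_lit 79) (nat_lit 5) (nat_lit 304) (nat_lit 250) (nat_lit 226)) (XT.nd (nat_lit 78) (nat_lit 380) (nat_lit 0) (XT.lf (nat_lit 0) (nat_lit 4460001832) (nat_lit 304) (nat_lit 1021643468) (nat_lit 380) (nat_lit 3879330665) (nat_lit 74) (nat_lit 5) (nat_lit 78) (nat_lit 5) (nat_lit 79) (nat_lit 5) (nat_lit 305) (nat_lit 250) (nat_lit 225)) (XT.lf (nat_lit 0) (nat_lit 48473663) (nat_lit 380) (nat_lit 8076139406) (nat_lit 456) (nat_lit 1391797175) (nat_lit 69) (nat_lit 5) (nat_lit 74) (nat_lit 5) (nat_lit 75) (nat_lit 5) (nat_lit 306) (nat_lit 250) (nat_lit 224)))) (XT.nd (nat_lit 78) (nat_lit 304) (nat_lit 0) (XT.lf (nat_lit 0) (nat_lit 1150971330) (nat_lit 456) (nat_lit 4524105830) (nat_lit 76) (nat_lit 4001114597) (nat_lit 68) (nat_lit 5) (nat_lit 74) (nat_lit 5) (nat_lit 69) (nat_lit 5)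 (nat_lit 307) (nat_lit 250) (nat_lit 223)) (XT.nd (nat_lit 78) (nat_lit 0) (nat_lit 0) (XT.lf (nat_lit 0) (nat_lit 491919456) (nat_lit 304) (nat_lit 3199859763) (nat_lit 380) (nat_lit 6150203667) (nat_lit 64) (nat_lit 5) (nat_lit 68) (nat_lit 5) (nat_lit 69) (nat_lit 5) (nat_lit 308) (nat_lit 250) (nat_lit 222)) (XT.lf (nat_lit 0) (nat_lit 5679931183) (nat_lit 304) (nat_lit 620483353) (nat_lit 380) (nat_lit 3712703054) (nat_lit 64) (nat_lit 5) (nat_lit 68) (nat_lit 5) (nat_lit 69) (nat_lit 5) (nat_lit 309) (nat_lit 250) (nat_lit 221))))))))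
noncomputable def xc83 : XT := (XT.nd (nat_lit 1794) (nat_lit 1216) (nat_lit 0) (XT.nd (nat_lit 858) (nat_lit 1140) (nat_lit 0) (XT.nd (nat_lit 390) (nat_lit 608) (nat_lit 0) (XT.nd (nat_lit 156) (nat_lit 532) (nat_lit 0) (XT.nd (nat_lit 78) (nat_lit 76) (nat_lit 0) (XT.lf (nat_lit 0) (nat_lit 758739872) (nat_lit 304) (nat_lit 8202770131) (nat_lit 380) (nat_lit 1228764806) (nat_lit 60) (nat_lit 5) (nat_lit 64) (nat_lit 5) (nat_lit 65) (nat_lit 5) (nat_lit 310) (nat_lit 250) (nat_lit 220)) (XT.lf (nat_lit 0) (nat_lit 1301650745) (nat_lit 380) (nat_lit 4369689660) (nat_lit 76) (nat_lit 4701193628) (nat_lit 59) (nat_lit 5) (nat_lit 64) (nat_lit 5) (nat_lit 60) (nat_lit 5) (nat_lit 311) (nat_lit 250) (nat_lit 219))) (XT.nd (nat_lit 78) (nat_lit 304) (nat_lit 0) (XT.lf (nat_lit 0) (nat_lit 777950664) (nat_lit 228) (nat_lit 3061909190) (nat_lit 304) (nat_lit 6721443647) (nat_lit 56) (nat_lit 5) (nat_lit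 59) (nat_lit 5) (nat_lit 60) (nat_lit 5) (nat_lit 312) (nat_lit 250) (nat_lit 218)) (XT.nd (nat_lit 78) (nat_lit 304) (nat_lit 0) (XT.lf (nat_lit 0) (nat_lit 6101196817) (nat_lit 228) (nat_lit 347068672) (nat_lit 304) (nat_lit 4307750790) (nat_lit 56) (nat_lit 5) (nat_lit 59) (nat_lit 5) (nat_lit 60) (nat_lit 5) (nat_lit 313) (nat_lit 250) (nat_lit 217)) (XT.lf (nat_lit 0) (nat_lit 546906822) (nat_lit 304) (nat_lit 8568029501) (nat_lit 380) (nat_lit 1842332501) (nat_lit 52) (nat_lit 5) (nat_lit 56) (nat_lit 5) (nat_lit 57) (nat_lit 5) (nat_lit 314) (nat_lit 250) (nat_lit 216))))) (XT.nd (nat_lit 234) (nat_lit 304) (nat_lit 0) (XT.nd (nat_lit 78) (nat_lit 228) (nat_lit 0) (XT.lf (nat_lit 0) (nat_lit 685771471) (nat_lit 380) (nat_lit 5241834022) (nat_lit 76) (nat_lit 5236775787) (nat_lit 51) (nat_lit 5) (nat_lit 56) (nat_lit 5) (nat_lit 52) (nat_lit 5) (nat_lit 315) (nat_lit 250) (nat_lit 215))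 (XT.nd (nat_lit 78) (nat_lit 228) (nat_lit 0) (XT.lf (nat_lit 0) (nat_lit 3205523284) (nat_lit 380) (nat_lit 2692260) (nat_lit 76) (nat_lit 8170449717) (nat_lit 51) (nat_lit 5) (nat_lit 56) (nat_lit 5) (nat_lit 52) (nat_lit 5) (nat_lit 316) (nat_lit 250) (nat_lit 214)) (XT.lf (nat_lit 0) (nat_lit 5435415331) (nat_lit 228) (nat_lit 371908410) (nat_lit 304) (nat_lit 5791948095) (nat_lit 48) (nat_lit 5) (nat_lit 51) (nat_lit 5) (nat_lit 52) (nat_lit 5) (nat_lit 317) (nat_lit 250) (nat_lit 213)))) (XT.nd (nat_lit 78) (nat_lit 304) (nat_lit 0) (XT.lf (nat_lit 0) (nat_lit 8466463917) (nat_lit 304) (nat_lit 879183573) (nat_lit 76) (nat_lit 2481555749) (nat_lit 48) (nat_lit 5) (nat_lit 52) (nat_lit 5) (nat_lit 49) (nat_lit 5) (nat_lit 318) (nat_lit 250) (nat_lit 212)) (XT.nd (nat_lit 78) (nat_lit 76) (nat_lit 0) (XT.lf (nat_lit 0) (nat_lit 4586841815) (nat_lit 228) (nat_lit 6622379216) (nat_lit 304)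 (nat_lit 852718990) (nat_lit 45) (nat_lit 5) (nat_lit 48) (nat_lit 5) (nat_lit 49) (nat_lit 5) (nat_lit 319) (nat_lit 250) (nat_lit 211)) (XT.lf (nat_lit 0) (nat_lit 1661980525) (nat_lit 304) (nat_lit 2148647493) (nat_lit 76) (nat_lit 8493713580) (nat_lit 44) (nat_lit 5) (nat_lit 48) (nat_lit 5) (nat_lit 45) (nat_lit 5) (nat_lit 320) (nat_lit 250) (nat_lit 210)))))) (XT.nd (nat_lit 468) (nat_lit 456) (nat_lit 0) (XT.nd (nat_lit 234) (nat_lit 228) (nat_lit 0) (XT.nd (nat_lit 78) (nat_lit 228) (nat_lit 0) (XT.lf (nat_lit 0) (nat_lit 3332689311) (nat_lit 228) (nat_lit 891845018) (nat_lit 304) (nat_lit 8329616748) (nat_lit 41) (nat_lit 5) (nat_lit 44) (nat_lit 5) (nat_lit 45) (nat_lit 5) (nat_lit 321) (nat_lit 250) (nat_lit 209)) (XT.nd (nat_lit 78) (nat_lit 228) (nat_lit 0) (XT.lf (nat_lit 0) (nat_lit 6864187632) (nat_lit 304) (nat_lit 3870872973) (nat_lit 76) (nat_lit 2076461044) (nat_lit 41)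 (nat_lit 5) (nat_lit 45) (nat_lit 5) (nat_lit 42) (nat_lit 5) (nat_lit 322) (nat_lit 250) (nat_lit 208)) (XT.lf (nat_lit 0) (nat_lit 1602439966) (nat_lit 228) (nat_lit 7964033140) (nat_lit 304) (nat_lit 3510708312) (nat_lit 38) (nat_lit 5) (nat_lit 41) (nat_lit 5) (nat_lit 42) (nat_lit 5) (nat_lit 323) (nat_lit 250) (nat_lit 207)))) (XT.nd (nat_lit 78) (nat_lit 228) (nat_lit 0) (XT.lf (nat_lit 0) (nat_lit 7259659166) (nat_lit 228) (nat_lit 5089079770) (nat_lit 304) (nat_lit 1002173965) (nat_lit 38) (nat_lit 5) (nat_lit 41) (nat_lit 5) (nat_lit 42) (nat_lit 5) (nat_lit 324) (nat_lit 250) (nat_lit 206)) (XT.nd (nat_lit 78) (nat_lit 152) (nat_lit 0) (XT.lf (nat_lit 0) (nat_lit 1511294984) (nat_lit 304) (nat_lit 620220527) (nat_lit 76) (nat_lit 11502133766) (nat_lit 37) (nat_lit 5) (nat_lit 41) (nat_lit 5) (nat_lit 38) (nat_lit 5) (nat_lit 325) (nat_lit 250) (nat_lit 205)) (XT.lf (nat_lit 0) (nat_lit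 4099417578) (nat_lit 228) (nat_lit 8887068020) (nat_lit 76) (nat_lit 937566100) (nat_lit 35) (nat_lit 5) (nat_lit 38) (nat_lit 5) (nat_lit 36) (nat_lit 5) (nat_lit 326) (nat_lit 250) (nat_lit 204))))) (XT.nd (nat_lit 234) (nat_lit 228) (nat_lit 0) (XT.nd (nat_lit 78) (nat_lit 228) (nat_lit 0) (XT.lf (nat_lit 0) (nat_lit 6754696470) (nat_lit 228) (nat_lit 3425025004) (nat_lit 76) (nat_lit 4043820890) (nat_lit 35) (nat_lit 5) (nat_lit 38) (nat_lit 5) (nat_lit 36) (nat_lit 5) (nat_lit 327) (nat_lit 250) (nat_lit 203)) (XT.nd (nat_lit 78) (nat_lit 0) (nat_lit 0) (XT.lf (nat_lit 0) (nat_lit 2187746322) (nat_lit 228) (nat_lit 7286105212) (nat_lit 304) (nat_lit 5058699443) (nat_lit 32) (nat_lit 5) (nat_lit 35) (nat_lit 5) (nat_lit 36) (nat_lit 5) (nat_lit 328) (nat_lit 250) (nat_lit 202)) (XT.lf (nat_lit 0) (nat_lit 7983833948) (nat_lit 228) (nat_lit 4289062035) (nat_lit 304) (nat_lit 2578042439) (nat_lit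 32) (nat_lit 5) (nat_lit 35) (nat_lit 5) (nat_lit 36) (nat_lit 5) (nat_lit 329) (nat_lit 250) (nat_lit 201)))) (XT.nd (nat_lit 78) (nat_lit 228) (nat_lit 0) (XT.lf (nat_lit 0) (nat_lit 13900137702) (nat_lit 228) (nat_lit 1220559207) (nat_lit 304) (nat_lit 59293358) (nat_lit 32) (nat_lit 5) (nat_lit 35) (nat_lit 5) (nat_lit 36) (nat_lit 5) (nat_lit 330) (nat_lit 250) (nat_lit 200)) (XT.nd (nat_lit 78) (nat_lit 0) (nat_lit 0) (XT.lf (nat_lit 0) (nat_lit 2513226327) (nat_lit 228) (nat_lit 11051791790) (nat_lit 76) (nat_lit 1952387336) (nat_lit 29) (nat_lit 5) (nat_lit 32) (nat_lit 5) (nat_lit 30) (nat_lit 5) (nat_lit 331) (nat_lit 250) (nat_lit 199)) (XT.lf (nat_lit 0) (nat_lit 5152614064) (nat_lit 228) (nat_lit 5520900618) (nat_lit 76) (nat_lit 5191735822) (nat_lit 29) (nat_lit 5) (nat_lit 32) (nat_lit 5) (nat_lit 30) (nat_lit 5) (nat_lit 332) (nat_lit 250) (nat_lit 198))))))) (XT.nd (nat_lit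 858) (nat_lit 532) (nat_lit 0) (XT.nd (nat_lit 390) (nat_lit 304) (nat_lit 0) (XT.nd (nat_lit 156) (nat_lit 228) (nat_lit 0) (XT.nd (nat_lit 78) (nat_lit 0) (nat_lit 0) (XT.lf (nat_lit 0) (nat_lit 126715121) (nat_lit 152) (nat_lit 7712431513) (nat_lit 228) (nat_lit 8385395426) (nat_lit 27) (nat_lit 5) (nat_lit 29) (nat_lit 5) (nat_lit 30) (nat_lit 5) (nat_lit 333) (nat_lit 250) (nat_lit 197)) (XT.lf (nat_lit 0) (nat_lit 6005764164) (nat_lit 152) (nat_lit 4623483152) (nat_lit 228) (nat_lit 5964724470) (nat_lit 27) (nat_lit 5) (nat_lit 29) (nat_lit 5) (nat_lit 30) (nat_lit 5) (nat_lit 334) (nat_lit 250) (nat_lit 196))) (XT.nd (nat_lit 78) (nat_lit 228) (nat_lit 0) (XT.lf (nat_lit 0) (nat_lit 12011506797) (nat_lit 152) (nat_lit 1459720790) (nat_lit 228) (nat_lit 3504258694) (nat_lit 27) (nat_lit 5) (nat_lit 29) (nat_lit 5) (nat_lit 30) (nat_lit 5) (nat_lit 335) (nat_lit 250) (nat_lit 195)) (XT.nd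 (nat_lit 78) (nat_lit 76) (nat_lit 0) (XT.lf (nat_lit 0) (nat_lit 777823973) (nat_lit 152) (nat_lit 15614349699) (nat_lit 228) (nat_lit 976507147) (nat_lit 25) (nat_lit 5) (nat_lit 27) (nat_lit 5) (nat_lit 28) (nat_lit 4) (nat_lit 336) (nat_lit 250) (nat_lit 194)) (XT.lf (nat_lit 0) (nat_lit 1629430273) (nat_lit 228) (nat_lit 11058334434) (nat_lit 76) (nat_lit 5084457340) (nat_lit 24) (nat_lit 5) (nat_lit 27) (nat_lit 5) (nat_lit 25) (nat_lit 5) (nat_lit 337) (nat_lit 250) (nat_lit 193))))) (XT.nd (nat_lit 234) (nat_lit 152) (nat_lit 0) (XT.nd (nat_lit 78) (nat_lit 152) (nat_lit 0) (XT.lf (nat_lit 0) (nat_lit 4263849103) (nat_lit 228) (nat_lit 5417287106) (nat_lit 76) (nat_lit 8507387261) (nat_lit 24) (nat_lit 5) (nat_lit 27) (nat_lit 5) (nat_lit 25) (nat_lit 5) (nat_lit 338) (nat_lit 250) (nat_lit 192)) (XT.nd (nat_lit 78) (nat_lit 0) (nat_lit 0) (XT.lf (nat_lit 0) (nat_lit 353499031) (nat_lit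 152) (nat_lit 6598005451) (nat_lit 228) (nat_lit 11666624027) (nat_lit 22) (nat_lit 5) (nat_lit 24) (nat_lit 5) (nat_lit 25) (nat_lit 5) (nat_lit 339) (nat_lit 250) (nat_lit 191)) (XT.lf (nat_lit 0) (nat_lit 6362521990) (nat_lit 152) (nat_lit 3383186196) (nat_lit 228) (nat_lit 9314175461) (nat_lit 22) (nat_lit 5) (nat_lit 24) (nat_lit 5) (nat_lit 25) (nat_lit 5) (nat_lit 340) (nat_lit 250) (nat_lit 190)))) (XT.nd (nat_lit 78) (nat_lit 152) (nat_lit 0) (XT.lf (nat_lit 0) (nat_lit 12507217734) (nat_lit 152) (nat_lit 88573358) (nat_lit 228) (nat_lit 6919977111) (nat_lit 22) (nat_lit 5) (nat_lit 24) (nat_lit 5) (nat_lit 25) (nat_lit 5) (nat_lit 341) (nat_lit 250) (nat_lit 189)) (XT.nd (nat_lit 78) (nat_lit 152) (nat_lit 0) (XT.lf (nat_lit 0) (nat_lit 15535856676) (nat_lit 228) (nat_lit 1224838216) (nat_lit 76) (nat_lit 3224537238) (nat_lit 22) (nat_lit 5) (nat_lit 25) (nat_lit 5) (nat_lit 23) (nat_lit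 4) (nat_lit 342) (nat_lit 250) (nat_lit 188)) (XT.lf (nat_lit 0) (nat_lit 4782111292) (nat_lit 152) (nat_lit 13802364965) (nat_lit 228) (nat_lit 1883729312) (nat_lit 20) (nat_lit 5) (nat_lit 22) (nat_lit 5) (nat_lit 23) (nat_lit 4) (nat_lit 343) (nat_lit 250) (nat_lit 187)))))) (XT.nd (nat_lit 468) (nat_lit 304) (nat_lit 0) (XT.nd (nat_lit 234) (nat_lit 0) (nat_lit 0) (XT.nd (nat_lit 78) (nat_lit 152) (nat_lit 0) (XT.lf (nat_lit 0) (nat_lit 730147002) (nat_lit 228) (nat_lit 10021191751) (nat_lit 76) (nat_lit 10214562610) (nat_lit 19) (nat_lit 5) (nat_lit 22) (nat_lit 5) (nat_lit 20) (nat_lit 5) (nat_lit 344) (nat_lit 250) (nat_lit 186)) (XT.nd (nat_lit 78) (nat_lit 152) (nat_lit 0) (XT.lf (nat_lit 0) (nat_lit 3358926539) (nat_lit 228) (nat_lit 4246599268) (nat_lit 76) (nat_lit 13873245346) (nat_lit 19) (nat_lit 5) (nat_lit 22) (nat_lit 5) (nat_lit 20) (nat_lit 5) (nat_lit 345) (nat_lit 250)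 (nat_lit 185)) (XT.lf (nat_lit 0) (nat_lit 1693890391) (nat_lit 152) (nat_lit 4364056952) (nat_lit 228) (nat_lit 15949370480) (nat_lit 17) (nat_lit 5) (nat_lit 19) (nat_lit 5) (nat_lit 20) (nat_lit 5) (nat_lit 346) (nat_lit 250) (nat_lit 184)))) (XT.nd (nat_lit 78) (nat_lit 0) (nat_lit 0) (XT.lf (nat_lit 0) (nat_lit 7859647389) (nat_lit 152) (nat_lit 996609774) (nat_lit 228) (nat_lit 13694945367) (nat_lit 17) (nat_lit 5) (nat_lit 19) (nat_lit 5) (nat_lit 20) (nat_lit 5) (nat_lit 347) (nat_lit 250) (nat_lit 183)) (XT.nd (nat_lit 78) (nat_lit 0) (nat_lit 0) (XT.lf (nat_lit 0) (nat_lit 11738284791) (nat_lit 228) (nat_lit 8964222880) (nat_lit 76) (nat_lit 2408933331) (nat_lit 17) (nat_lit 5) (nat_lit 20) (nat_lit 5) (nat_lit 18) (nat_lit 4) (nat_lit 348) (nat_lit 250) (nat_lit 182)) (XT.lf (nat_lit 0) (nat_lit 14693346956) (nat_lit 228) (nat_lit 3113224636) (nat_lit 76) (nat_lit 5882347222) (nat_lit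 17) (nat_lit 5) (nat_lit 20) (nat_lit 5) (nat_lit 18) (nat_lit 4) (nat_lit 349) (nat_lit 250) (nat_lit 181))))) (XT.nd (nat_lit 234) (nat_lit 228) (nat_lit 0) (XT.nd (nat_lit 78) (nat_lit 0) (nat_lit 0) (XT.lf (nat_lit 0) (nat_lit 2933372803) (nat_lit 76) (nat_lit 14809270301) (nat_lit 152) (nat_lit 6540938935) (nat_lit 16) (nat_lit 5) (nat_lit 17) (nat_lit 5) (nat_lit 18) (nat_lit 4) (nat_lit 350) (nat_lit 250) (nat_lit 180)) (XT.nd (nat_lit 78) (nat_lit 0) (nat_lit 0) (XT.lf (nat_lit 0) (nat_lit 9188379225) (nat_lit 76) (nat_lit 11704166004) (nat_lit 152) (nat_lit 4003293827) (nat_lit 16) (nat_lit 5) (nat_lit 17) (nat_lit 5) (nat_lit 18) (nat_lit 4) (nat_lit 351) (nat_lit 250) (nat_lit 179)) (XT.lf (nat_lit 0) (nat_lit 15595300893) (nat_lit 76) (nat_lit 8519982970) (nat_lit 152) (nat_lit 1411856640) (nat_lit 16) (nat_lit 5) (nat_lit 17) (nat_lit 5) (nat_lit 18) (nat_lit 4) (nat_lit 352) (nat_lit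 250) (nat_lit 178)))) (XT.nd (nat_lit 78) (nat_lit 152) (nat_lit 0) (XT.lf (nat_lit 0) (nat_lit 1211525260) (nat_lit 152) (nat_lit 4030179613) (nat_lit 76) (nat_lit 20935976800) (nat_lit 15) (nat_lit 5) (nat_lit 17) (nat_lit 5) (nat_lit 16) (nat_lit 5) (nat_lit 353) (nat_lit 250) (nat_lit 177)) (XT.nd (nat_lit 78) (nat_lit 0) (nat_lit 0) (XT.lf (nat_lit 0) (nat_lit 2040244837) (nat_lit 152) (nat_lit 1843954778) (nat_lit 228) (nat_lit 22963175681) (nat_lit 13) (nat_lit 5) (nat_lit 15) (nat_lit 5) (nat_lit 16) (nat_lit 5) (nat_lit 354) (nat_lit 250) (nat_lit 176)) (XT.lf (nat_lit 0) (nat_lit 6673573314) (nat_lit 228) (nat_lit 19211151428) (nat_lit 76) (nat_lit 1651363315) (nat_lit 13) (nat_lit 5) (nat_lit 16) (nat_lit 5) (nat_lit 14) (nat_lit 4) (nat_lit 355) (nat_lit 250) (nat_lit 175))))))))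
noncomputable def xc84 : XT := (XT.nd (nat_lit 1716) (nat_lit 228) (nat_lit 0) (XT.nd (nat_lit 858) (nat_lit 152) (nat_lit 0) (XT.nd (nat_lit 390) (nat_lit 228) (nat_lit 0) (XT.nd (nat_lit 156) (nat_lit 76) (nat_lit 0) (XT.nd (nat_lit 78) (nat_lit 0) (nat_lit 0) (XT.lf (nat_lit 0) (nat_lit 9544985583) (nat_lit 228) (nat_lit 13498841802) (nat_lit 76) (nat_lit 5201707302) (nat_lit 13) (nat_lit 5) (nat_lit 16) (nat_lit 5) (nat_lit 14) (nat_lit 4) (nat_lit 356) (nat_lit 250) (nat_lit 174)) (XT.lf (nat_lit 0) (nat_lit 12483220202) (nat_lit 228) (nat_lit 7647485021) (nat_lit 76) (nat_lit 8846161624) (nat_lit 13) (nat_lit 5) (nat_lit 16) (nat_lit 5) (nat_lit 14) (nat_lit 4) (nat_lit 357) (nat_lit 250) (nat_lit 173))) (XT.nd (nat_lit 78) (nat_lit 76) (nat_lit 0) (XT.lf (nat_lit 0) (nat_lit 15490844560) (nat_lit 228) (nat_lit 1651968249) (nat_lit 76) (nat_lit 12587910756) (nat_lit 13) (nat_lit 5) (nat_lit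 16) (nat_lit 5) (nat_lit 14) (nat_lit 4) (nat_lit 358) (nat_lit 250) (nat_lit 172)) (XT.nd (nat_lit 78) (nat_lit 0) (nat_lit 0) (XT.lf (nat_lit 0) (nat_lit 4582365775) (nat_lit 76) (nat_lit 14032169407) (nat_lit 152) (nat_lit 11891906916) (nat_lit 12) (nat_lit 5) (nat_lit 13) (nat_lit 5) (nat_lit 14) (nat_lit 4) (nat_lit 359) (nat_lit 250) (nat_lit 171)) (XT.lf (nat_lit 0) (nat_lit 11007425532) (nat_lit 76) (nat_lit 10823222082) (nat_lit 152) (nat_lit 9474843856) (nat_lit 12) (nat_lit 5) (nat_lit 13) (nat_lit 5) (nat_lit 14) (nat_lit 4) (nat_lit 360) (nat_lit 250) (nat_lit 170))))) (XT.nd (nat_lit 234) (nat_lit 228) (nat_lit 0) (XT.nd (nat_lit 78) (nat_lit 0) (nat_lit 0) (XT.lf (nat_lit 0) (nat_lit 17595947745) (nat_lit 76) (nat_lit 7529848543) (nat_lit 152) (nat_lit 7003259469) (nat_lit 12) (nat_lit 5) (nat_lit 13) (nat_lit 5) (nat_lit 14) (nat_lit 4) (nat_lit 361) (nat_lit 250) (nat_lit 169))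 (XT.nd (nat_lit 78) (nat_lit 0) (nat_lit 0) (XT.lf (nat_lit 0) (nat_lit 24353689373) (nat_lit 76) (nat_lit 4149171084) (nat_lit 152) (nat_lit 4474994118) (nat_lit 12) (nat_lit 5) (nat_lit 13) (nat_lit 5) (nat_lit 14) (nat_lit 4) (nat_lit 362) (nat_lit 250) (nat_lit 168)) (XT.lf (nat_lit 0) (nat_lit 31286555240) (nat_lit 76) (nat_lit 678235715) (nat_lit 152) (nat_lit 1887838640) (nat_lit 12) (nat_lit 5) (nat_lit 13) (nat_lit 5) (nat_lit 14) (nat_lit 4) (nat_lit 363) (nat_lit 250) (nat_lit 167)))) (XT.nd (nat_lit 78) (nat_lit 0) (nat_lit 0) (XT.lf (nat_lit 0) (nat_lit 809473573) (nat_lit 228) (nat_lit 31069448969) (nat_lit 76) (nat_lit 2873087976) (nat_lit 9) (nat_lit 5) (nat_lit 12) (nat_lit 5) (nat_lit 10) (nat_lit 4) (nat_lit 364) (nat_lit 250) (nat_lit 166)) (XT.nd (nat_lit 78) (nat_lit 0) (nat_lit 0) (XT.lf (nat_lit 0) (nat_lit 3566609502) (nat_lit 228) (nat_lit 25559267008) (nat_lit 76)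 (nat_lit 6551447442) (nat_lit 9) (nat_lit 5) (nat_lit 12) (nat_lit 5) (nat_lit 10) (nat_lit 4) (nat_lit 365) (nat_lit 250) (nat_lit 165)) (XT.lf (nat_lit 0) (nat_lit 6390890529) (nat_lit 228) (nat_lit 19910252223) (nat_lit 76) (nat_lit 10329737870) (nat_lit 9) (nat_lit 5) (nat_lit 12) (nat_lit 5) (nat_lit 10) (nat_lit 4) (nat_lit 366) (nat_lit 250) (nat_lit 164)))))) (XT.nd (nat_lit 390) (nat_lit 76) (nat_lit 0) (XT.nd (nat_lit 156) (nat_lit 76) (nat_lit 0) (XT.nd (nat_lit 78) (nat_lit 0) (nat_lit 0) (XT.lf (nat_lit 0) (nat_lit 9284784475) (nat_lit 228) (nat_lit 14117468582) (nat_lit 76) (nat_lit 14211260677) (nat_lit 9) (nat_lit 5) (nat_lit 12) (nat_lit 5) (nat_lit 10) (nat_lit 4) (nat_lit 367) (nat_lit 250) (nat_lit 163)) (XT.lf (nat_lit 0) (nat_lit 12250819983) (nat_lit 228) (nat_lit 8175854431) (nat_lit 76) (nat_lit 18199407486) (nat_lit 9) (nat_lit 5) (nat_lit 12) (nat_lit 5) (nat_lit 10)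 (nat_lit 4) (nat_lit 368) (nat_lit 250) (nat_lit 162))) (XT.nd (nat_lit 78) (nat_lit 76) (nat_lit 0) (XT.lf (nat_lit 0) (nat_lit 15291588736) (nat_lit 228) (nat_lit 2080218067) (nat_lit 76) (nat_lit 22297663084) (nat_lit 9) (nat_lit 5) (nat_lit 12) (nat_lit 5) (nat_lit 10) (nat_lit 4) (nat_lit 369) (nat_lit 250) (nat_lit 161)) (XT.nd (nat_lit 78) (nat_lit 0) (nat_lit 0) (XT.lf (nat_lit 0) (nat_lit 4257852838) (nat_lit 76) (nat_lit 14192823965) (nat_lit 152) (nat_lit 22292684721) (nat_lit 8) (nat_lit 5) (nat_lit 9) (nat_lit 5) (nat_lit 10) (nat_lit 4) (nat_lit 370) (nat_lit 250) (nat_lit 160)) (XT.lf (nat_lit 0) (nat_lit 10805418301) (nat_lit 76) (nat_lit 10906471517) (nat_lit 152) (nat_lit 20137373981) (nat_lit 8) (nat_lit 5) (nat_lit 9) (nat_lit 5) (nat_lit 10) (nat_lit 4) (nat_lit 371) (nat_lit 250) (nat_lit 159))))) (XT.nd (nat_lit 234) (nat_lit 76) (nat_lit 0) (XT.nd (nat_lit 78) (nat_lit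 0) (nat_lit 0) (XT.lf (nat_lit 0) (nat_lit 17526799078) (nat_lit 76) (nat_lit 7530884016) (nat_lit 152) (nat_lit 17931071774) (nat_lit 8) (nat_lit 5) (nat_lit 9) (nat_lit 5) (nat_lit 10) (nat_lit 4) (nat_lit 372) (nat_lit 250) (nat_lit 158)) (XT.nd (nat_lit 78) (nat_lit 0) (nat_lit 0) (XT.lf (nat_lit 0) (nat_lit 24427868220) (nat_lit 76) (nat_lit 4063111918) (nat_lit 152) (nat_lit 15671850264) (nat_lit 8) (nat_lit 5) (nat_lit 9) (nat_lit 5) (nat_lit 10) (nat_lit 4) (nat_lit 373) (nat_lit 250) (nat_lit 157)) (XT.lf (nat_lit 0) (nat_lit 31514655787) (nat_lit 76) (nat_lit 500125131) (nat_lit 152) (nat_lit 13357735373) (nat_lit 8) (nat_lit 5) (nat_lit 9) (nat_lit 5) (nat_lit 10) (nat_lit 4) (nat_lit 374) (nat_lit 250) (nat_lit 156)))) (XT.nd (nat_lit 78) (nat_lit 76) (nat_lit 0) (XT.lf (nat_lit 0) (nat_lit 35662551773) (nat_lit 152) (nat_lit 7855902715) (nat_lit 0) (nat_lit 3099503437) (nat_lit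 8) (nat_lit 5) (nat_lit 10) (nat_lit 4) (nat_lit 8) (nat_lit 4) (nat_lit 375) (nat_lit 250) (nat_lit 155)) (XT.nd (nat_lit 78) (nat_lit 76) (nat_lit 0) (XT.lf (nat_lit 0) (nat_lit 39412849683) (nat_lit 152) (nat_lit 1699213993) (nat_lit 0) (nat_lit 6788918787) (nat_lit 8) (nat_lit 5) (nat_lit 10) (nat_lit 4) (nat_lit 8) (nat_lit 4) (nat_lit 376) (nat_lit 250) (nat_lit 154)) (XT.lf (nat_lit 0) (nat_lit 4714387479) (nat_lit 76) (nat_lit 38595074197) (nat_lit 76) (nat_lit 5912034020) (nat_lit 7) (nat_lit 4) (nat_lit 8) (nat_lit 5) (nat_lit 8) (nat_lit 4) (nat_lit 377) (nat_lit 250) (nat_lit 153))))))) (XT.nd (nat_lit 858) (nat_lit 76) (nat_lit 0) (XT.nd (nat_lit 390) (nat_lit 76) (nat_lit 0) (XT.nd (nat_lit 156) (nat_lit 76) (nat_lit 0) (XT.nd (nat_lit 78) (nat_lit 0) (nat_lit 0) (XT.lf (nat_lit 0) (nat_lit 11335640575) (nat_lit 76) (nat_lit 35993124769) (nat_lit 76) (nat_lit 3252696940) (nat_lit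 7) (nat_lit 4) (nat_lit 8) (nat_lit 5) (nat_lit 8) (nat_lit 4) (nat_lit 378) (nat_lit 250) (nat_lit 152)) (XT.lf (nat_lit 0) (nat_lit 18136513163) (nat_lit 76) (nat_lit 33321100575) (nat_lit 76) (nat_lit 524956580) (nat_lit 7) (nat_lit 4) (nat_lit 8) (nat_lit 5) (nat_lit 8) (nat_lit 4) (nat_lit 379) (nat_lit 250) (nat_lit 151))) (XT.nd (nat_lit 78) (nat_lit 0) (nat_lit 0) (XT.lf (nat_lit 0) (nat_lit 2229204974) (nat_lit 152) (nat_lit 28324951263) (nat_lit 76) (nat_lit 22871232180) (nat_lit 6) (nat_lit 5) (nat_lit 8) (nat_lit 5) (nat_lit 7) (nat_lit 4) (nat_lit 380) (nat_lit 250) (nat_lit 150)) (XT.nd (nat_lit 78) (nat_lit 0) (nat_lit 0) (XT.lf (nat_lit 0) (nat_lit 5044925772) (nat_lit 152) (nat_lit 22661555873) (nat_lit 76) (nat_lit 27205179369) (nat_lit 6) (nat_lit 5) (nat_lit 8) (nat_lit 5) (nat_lit 7) (nat_lit 4) (nat_lit 381) (nat_lit 250) (nat_lit 149)) (XT.lf (nat_lit 0) (nat_lit 7934909946)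 (nat_lit 152) (nat_lit 16845876185) (nat_lit 76) (nat_lit 31662052048) (nat_lit 6) (nat_lit 5) (nat_lit 8) (nat_lit 5) (nat_lit 7) (nat_lit 4) (nat_lit 382) (nat_lit 250) (nat_lit 148))))) (XT.nd (nat_lit 234) (nat_lit 0) (nat_lit 0) (XT.nd (nat_lit 78) (nat_lit 76) (nat_lit 0) (XT.lf (nat_lit 0) (nat_lit 10901682725) (nat_lit 152) (nat_lit 10872830536) (nat_lit 76) (nat_lit 36245744573) (nat_lit 6) (nat_lit 5) (nat_lit 8) (nat_lit 5) (nat_lit 7) (nat_lit 4) (nat_lit 383) (nat_lit 250) (nat_lit 147)) (XT.nd (nat_lit 78) (nat_lit 76) (nat_lit 0) (XT.lf (nat_lit 0) (nat_lit 13947836434) (nat_lit 152) (nat_lit 4737199760) (nat_lit 76) (nat_lit 40960262113) (nat_lit 6) (nat_lit 5) (nat_lit 8) (nat_lit 5) (nat_lit 7) (nat_lit 4) (nat_lit 384) (nat_lit 250) (nat_lit 146)) (XT.lf (nat_lit 0) (nat_lit 1597551353) (nat_lit 76) (nat_lit 15493838050) (nat_lit 152) (nat_lit 44227529436) (nat_lit 5) (nat_lit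 5) (nat_lit 6) (nat_lit 5) (nat_lit 7) (nat_lit 4) (nat_lit 385) (nat_lit 250) (nat_lit 145)))) (XT.nd (nat_lit 78) (nat_lit 0) (nat_lit 0) (XT.lf (nat_lit 0) (nat_lit 8203488450) (nat_lit 76) (nat_lit 12164373583) (nat_lit 152) (nat_lit 42673736572) (nat_lit 5) (nat_lit 5) (nat_lit 6) (nat_lit 5) (nat_lit 7) (nat_lit 4) (nat_lit 386) (nat_lit 250) (nat_lit 144)) (XT.nd (nat_lit 78) (nat_lit 0) (nat_lit 0) (XT.lf (nat_lit 0) (nat_lit 14992104144) (nat_lit 76) (nat_lit 8741569983) (nat_lit 152) (nat_lit 41082562028) (nat_lit 5) (nat_lit 5) (nat_lit 6) (nat_lit 5) (nat_lit 7) (nat_lit 4) (nat_lit 387) (nat_lit 250) (nat_lit 143)) (XT.lf (nat_lit 0) (nat_lit 21969330235) (nat_lit 76) (nat_lit 5222436450) (nat_lit 152) (nat_lit 39452615458) (nat_lit 5) (nat_lit 5) (nat_lit 6) (nat_lit 5) (nat_lit 7) (nat_lit 4) (nat_lit 388) (nat_lit 250) (nat_lit 142)))))) (XT.nd (nat_lit 468) (nat_lit 76) (nat_lit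 0) (XT.nd (nat_lit 234) (nat_lit 0) (nat_lit 0) (XT.nd (nat_lit 78) (nat_lit 0) (nat_lit 0) (XT.lf (nat_lit 0) (nat_lit 29141263329) (nat_lit 76) (nat_lit 1603898014) (nat_lit 152) (nat_lit 37782472636) (nat_lit 5) (nat_lit 5) (nat_lit 6) (nat_lit 5) (nat_lit 7) (nat_lit 4) (nat_lit 389) (nat_lit 250) (nat_lit 141)) (XT.nd (nat_lit 78) (nat_lit 0) (nat_lit 0) (XT.lf (nat_lit 0) (nat_lit 34417314897) (nat_lit 152) (nat_lit 33973818950) (nat_lit 0) (nat_lit 2075892818) (nat_lit 5) (nat_lit 5) (nat_lit 7) (nat_lit 4) (nat_lit 5) (nat_lit 4) (nat_lit 390) (nat_lit 250) (nat_lit 140)) (XT.lf (nat_lit 0) (nat_lit 38207501191) (nat_lit 152) (nat_lit 28428732556) (nat_lit 0) (nat_lit 5828139113) (nat_lit 5) (nat_lit 5) (nat_lit 7) (nat_lit 4) (nat_lit 5) (nat_lit 4) (nat_lit 391) (nat_lit 250) (nat_lit 139)))) (XT.nd (nat_lit 78) (nat_lit 0) (nat_lit 0) (XT.lf (nat_lit 0) (nat_lit 42103614388) (nat_lit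 152) (nat_lit 22730848601) (nat_lit 0) (nat_lit 9687417361) (nat_lit 5) (nat_lit 5) (nat_lit 7) (nat_lit 4) (nat_lit 5) (nat_lit 4) (nat_lit 392) (nat_lit 250) (nat_lit 138)) (XT.nd (nat_lit 78) (nat_lit 0) (nat_lit 0) (XT.lf (nat_lit 0) (nat_lit 46109058861) (nat_lit 152) (nat_lit 16875188350) (nat_lit 0) (nat_lit 13657099746) (nat_lit 5) (nat_lit 5) (nat_lit 7) (nat_lit 4) (nat_lit 5) (nat_lit 4) (nat_lit 393) (nat_lit 250) (nat_lit 137)) (XT.lf (nat_lit 0) (nat_lit 50227334510) (nat_lit 152) (nat_lit 10856635206) (nat_lit 0) (nat_lit 17740654923) (nat_lit 5) (nat_lit 5) (nat_lit 7) (nat_lit 4) (nat_lit 5) (nat_lit 4) (nat_lit 394) (nat_lit 250) (nat_lit 136))))) (XT.nd (nat_lit 234) (nat_lit 0) (nat_lit 0) (XT.nd (nat_lit 78) (nat_lit 76) (nat_lit 0) (XT.lf (nat_lit 0) (nat_lit 54462039831) (nat_lit 152) (nat_lit 4669930240) (nat_lit 0) (nat_lit 21941651046) (nat_lit 5) (nat_lit 5) (nat_lit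 7) (nat_lit 4) (nat_lit 5) (nat_lit 4) (nat_lit 395) (nat_lit 250) (nat_lit 135)) (XT.nd (nat_lit 78) (nat_lit 0) (nat_lit 0) (XT.lf (nat_lit 0) (nat_lit 1723973334) (nat_lit 76) (nat_lit 57109473602) (nat_lit 76) (nat_lit 24556357441) (nat_lit 4) (nat_lit 4) (nat_lit 5) (nat_lit 5) (nat_lit 5) (nat_lit 4) (nat_lit 396) (nat_lit 250) (nat_lit 134)) (XT.lf (nat_lit 0) (nat_lit 8393497614) (nat_lit 76) (nat_lit 54982831183) (nat_lit 76) (nat_lit 22397940871) (nat_lit 4) (nat_lit 4) (nat_lit 5) (nat_lit 5) (nat_lit 5) (nat_lit 4) (nat_lit 397) (nat_lit 250) (nat_lit 133)))) (XT.nd (nat_lit 31278) (nat_lit 0) (nat_lit 15048) (XT.lf (nat_lit 0) (nat_lit 15251529569) (nat_lit 76) (nat_lit 52797341724) (nat_lit 76) (nat_lit 20181602722) (nat_lit 4) (nat_lit 4) (nat_lit 5) (nat_lit 5) (nat_lit 5) (nat_lit 4) (nat_lit 398) (nat_lit 250) (nat_lit 132)) (XT.nd (nat_lit 78) (nat_lit 0) (nat_lit 0) (XT.lf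 (nat_lit 0) (nat_lit 166978163) (nat_lit 684) (nat_lit 1623972509) (nat_lit 684) (nat_lit 1623972509) (nat_lit 202) (nat_lit 4) (nat_lit 211) (nat_lit 5) (nat_lit 211) (nat_lit 4) (nat_lit 278) (nat_lit 251) (nat_lit 251)) (XT.lf (nat_lit 0) (nat_lit 4270400819) (nat_lit 684) (nat_lit 2214166779) (nat_lit 684) (nat_lit 391221033) (nat_lit 202) (nat_lit 4) (nat_lit 211) (nat_lit 5) (nat_lit 211) (nat_lit 4) (nat_lit 279) (nat_lit 251) (nat_lit 250))))))))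
noncomputable def xc85 : XT := (XT.nd (nat_lit 1716) (nat_lit 3496) (nat_lit 0) (XT.nd (nat_lit 858) (nat_lit 3420) (nat_lit 0) (XT.nd (nat_lit 390) (nat_lit 2888) (nat_lit 0) (XT.nd (nat_lit 156) (nat_lit 1824) (nat_lit 0) (XT.nd (nat_lit 78) (nat_lit 0) (nat_lit 0) (XT.lf (nat_lit 0) (nat_lit 1325122207) (nat_lit 760) (nat_lit 1097497591) (nat_lit 836) (nat_lit 4502469782) (nat_lit 191) (nat_lit 5) (nat_lit 201) (nat_lit 5) (nat_lit 202) (nat_lit 4) (nat_lit 280) (nat_lit 251) (nat_lit 249)) (XT.lf (nat_lit 0) (nat_lit 5250591236) (nat_lit 836) (nat_lit 1633190383) (nat_lit 0) (nat_lit 94186200) (nat_lit 191) (nat_lit 5) (nat_lit 202) (nat_lit 4) (nat_lit 191) (nat_lit 4) (nat_lit 281) (nat_lit 251) (nat_lit 248))) (XT.nd (nat_lit 78) (nat_lit 912) (nat_lit 0) (XT.lf (nat_lit 0) (nat_lit 1055199867) (nat_lit 912) (nat_lit 4634012989) (nat_lit 76) (nat_lit 1344826607) (nat_lit 179) (nat_lit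 5) (nat_lit 191) (nat_lit 5) (nat_lit 180) (nat_lit 4) (nat_lit 282) (nat_lit 251) (nat_lit 247)) (XT.nd (nat_lit 78) (nat_lit 912) (nat_lit 0) (XT.lf (nat_lit 0) (nat_lit 3816928575) (nat_lit 912) (nat_lit 600192725) (nat_lit 76) (nat_lit 2676559883) (nat_lit 179) (nat_lit 5) (nat_lit 191) (nat_lit 5) (nat_lit 180) (nat_lit 4) (nat_lit 283) (nat_lit 251) (nat_lit 246)) (XT.lf (nat_lit 0) (nat_lit 3546817561) (nat_lit 912) (nat_lit 3065036457) (nat_lit 988) (nat_lit 545051494) (nat_lit 167) (nat_lit 5) (nat_lit 179) (nat_lit 5) (nat_lit 180) (nat_lit 4) (nat_lit 284) (nat_lit 251) (nat_lit 245))))) (XT.nd (nat_lit 234) (nat_lit 684) (nat_lit 0) (XT.nd (nat_lit 78) (nat_lit 1140) (nat_lit 0) (XT.lf (nat_lit 0) (nat_lit 518730355) (nat_lit 988) (nat_lit 1633564185) (nat_lit 1064) (nat_lit 5071525211) (nat_lit 153) (nat_lit 5) (nat_lit 166) (nat_lit 5) (nat_lit 167) (nat_lit 5) (nat_lit 285) (nat_lit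 251) (nat_lit 244)) (XT.nd (nat_lit 78) (nat_lit 1140) (nat_lit 0) (XT.lf (nat_lit 0) (nat_lit 4762457874) (nat_lit 988) (nat_lit 112082464) (nat_lit 1064) (nat_lit 2419669083) (nat_lit 153) (nat_lit 5) (nat_lit 166) (nat_lit 5) (nat_lit 167) (nat_lit 5) (nat_lit 286) (nat_lit 251) (nat_lit 243)) (XT.lf (nat_lit 0) (nat_lit 256263582) (nat_lit 1140) (nat_lit 5662697437) (nat_lit 76) (nat_lit 1449403715) (nat_lit 138) (nat_lit 5) (nat_lit 153) (nat_lit 5) (nat_lit 139) (nat_lit 5) (nat_lit 287) (nat_lit 251) (nat_lit 242)))) (XT.nd (nat_lit 78) (nat_lit 684) (nat_lit 0) (XT.lf (nat_lit 0) (nat_lit 2912249828) (nat_lit 1140) (nat_lit 1426122925) (nat_lit 76) (nat_lit 3107455332) (nat_lit 138) (nat_lit 5) (nat_lit 153) (nat_lit 5) (nat_lit 139) (nat_lit 5) (nat_lit 288) (nat_lit 251) (nat_lit 241)) (XT.nd (nat_lit 78) (nat_lit 76) (nat_lit 0) (XT.lf (nat_lit 0) (nat_lit 2917853301) (nat_lit 608)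 (nat_lit 2681877515) (nat_lit 684) (nat_lit 1927577003) (nat_lit 130) (nat_lit 5) (nat_lit 138) (nat_lit 5) (nat_lit 139) (nat_lit 5) (nat_lit 289) (nat_lit 251) (nat_lit 240)) (XT.lf (nat_lit 0) (nat_lit 680666674) (nat_lit 684) (nat_lit 274454230) (nat_lit 76) (nat_lit 6657960823) (nat_lit 129) (nat_lit 5) (nat_lit 138) (nat_lit 5) (nat_lit 130) (nat_lit 5) (nat_lit 290) (nat_lit 251) (nat_lit 239)))))) (XT.nd (nat_lit 390) (nat_lit 1824) (nat_lit 0) (XT.nd (nat_lit 156) (nat_lit 532) (nat_lit 0) (XT.nd (nat_lit 78) (nat_lit 532) (nat_lit 0) (XT.lf (nat_lit 0) (nat_lit 3303545980) (nat_lit 608) (nat_lit 3532895408) (nat_lit 76) (nat_lit 865386977) (nat_lit 122) (nat_lit 5) (nat_lit 130) (nat_lit 5) (nat_lit 123) (nat_lit 5) (nat_lit 291) (nat_lit 251) (nat_lit 238)) (XT.lf (nat_lit 0) (nat_lit 888976853) (nat_lit 532) (nat_lit 5064823368) (nat_lit 608) (nat_lit 1841195929) (nat_lit 115) (nat_lit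 5) (nat_lit 122) (nat_lit 5) (nat_lit 123) (nat_lit 5) (nat_lit 292) (nat_lit 251) (nat_lit 237))) (XT.nd (nat_lit 78) (nat_lit 456) (nat_lit 0) (XT.lf (nat_lit 0) (nat_lit 741511093) (nat_lit 608) (nat_lit 2459792647) (nat_lit 76) (nat_lit 4690702229) (nat_lit 114) (nat_lit 5) (nat_lit 122) (nat_lit 5) (nat_lit 115) (nat_lit 5) (nat_lit 293) (nat_lit 251) (nat_lit 236)) (XT.nd (nat_lit 78) (nat_lit 0) (nat_lit 0) (XT.lf (nat_lit 0) (nat_lit 2066322330) (nat_lit 456) (nat_lit 1248666520) (nat_lit 532) (nat_lit 4678082253) (nat_lit 108) (nat_lit 5) (nat_lit 114) (nat_lit 5) (nat_lit 115) (nat_lit 5) (nat_lit 294) (nat_lit 251) (nat_lit 235)) (XT.lf (nat_lit 0) (nat_lit 5929762429) (nat_lit 532) (nat_lit 1402383481) (nat_lit 76) (nat_lit 766294474) (nat_lit 108) (nat_lit 5) (nat_lit 115) (nat_lit 5) (nat_lit 109) (nat_lit 5) (nat_lit 295) (nat_lit 251) (nat_lit 234))))) (XT.nd (nat_lit 234) (nat_lit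 912) (nat_lit 0) (XT.nd (nat_lit 78) (nat_lit 380) (nat_lit 0) (XT.lf (nat_lit 0) (nat_lit 384591873) (nat_lit 532) (nat_lit 4977951895) (nat_lit 76) (nat_lit 2845189714) (nat_lit 101) (nat_lit 5) (nat_lit 108) (nat_lit 5) (nat_lit 102) (nat_lit 5) (nat_lit 296) (nat_lit 251) (nat_lit 233)) (XT.nd (nat_lit 78) (nat_lit 380) (nat_lit 0) (XT.lf (nat_lit 0) (nat_lit 2919234806) (nat_lit 532) (nat_lit 387376197) (nat_lit 76) (nat_lit 5014777704) (nat_lit 101) (nat_lit 5) (nat_lit 108) (nat_lit 5) (nat_lit 102) (nat_lit 5) (nat_lit 297) (nat_lit 251) (nat_lit 232)) (XT.lf (nat_lit 0) (nat_lit 4352507652) (nat_lit 380) (nat_lit 1155230628) (nat_lit 456) (nat_lit 2931553870) (nat_lit 96) (nat_lit 5) (nat_lit 101) (nat_lit 5) (nat_lit 102) (nat_lit 5) (nat_lit 298) (nat_lit 251) (nat_lit 231)))) (XT.nd (nat_lit 78) (nat_lit 456) (nat_lit 0) (XT.lf (nat_lit 0) (nat_lit 608979206) (nat_lit 456) (nat_lit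 7521972863) (nat_lit 532) (nat_lit 431237122) (nat_lit 90) (nat_lit 5) (nat_lit 96) (nat_lit 5) (nat_lit 97) (nat_lit 5) (nat_lit 299) (nat_lit 251) (nat_lit 230)) (XT.nd (nat_lit 78) (nat_lit 380) (nat_lit 0) (XT.lf (nat_lit 0) (nat_lit 2092771390) (nat_lit 532) (nat_lit 3265856984) (nat_lit 76) (nat_lit 3329969327) (nat_lit 89) (nat_lit 5) (nat_lit 96) (nat_lit 5) (nat_lit 90) (nat_lit 5) (nat_lit 300) (nat_lit 251) (nat_lit 229)) (XT.lf (nat_lit 0) (nat_lit 1514332974) (nat_lit 380) (nat_lit 3123285690) (nat_lit 456) (nat_lit 4182592017) (nat_lit 84) (nat_lit 5) (nat_lit 89) (nat_lit 5) (nat_lit 90) (nat_lit 5) (nat_lit 301) (nat_lit 251) (nat_lit 228))))))) (XT.nd (nat_lit 858) (nat_lit 1596) (nat_lit 0) (XT.nd (nat_lit 390) (nat_lit 1140) (nat_lit 0) (XT.nd (nat_lit 156) (nat_lit 304) (nat_lit 0) (XT.nd (nat_lit 78) (nat_lit 456) (nat_lit 0) (XT.lf (nat_lit 0) (nat_lit 6432527763) (nat_lit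 380) (nat_lit 799566168) (nat_lit 456) (nat_lit 1724629045) (nat_lit 84) (nat_lit 5) (nat_lit 89) (nat_lit 5) (nat_lit 90) (nat_lit 5) (nat_lit 302) (nat_lit 251) (nat_lit 227)) (XT.lf (nat_lit 0) (nat_lit 770911099) (nat_lit 456) (nat_lit 6745980085) (nat_lit 76) (nat_lit 1580959922) (nat_lit 78) (nat_lit 5) (nat_lit 84) (nat_lit 5) (nat_lit 79) (nat_lit 5) (nat_lit 303) (nat_lit 251) (nat_lit 226))) (XT.nd (nat_lit 78) (nat_lit 304) (nat_lit 0) (XT.lf (nat_lit 0) (nat_lit 3282539892) (nat_lit 456) (nat_lit 1914316817) (nat_lit 76) (nat_lit 4046704257) (nat_lit 78) (nat_lit 5) (nat_lit 84) (nat_lit 5) (nat_lit 79) (nat_lit 5) (nat_lit 304) (nat_lit 251) (nat_lit 225)) (XT.nd (nat_lit 78) (nat_lit 0) (nat_lit 0) (XT.lf (nat_lit 0) (nat_lit 3051366898) (nat_lit 304) (nat_lit 2791392440) (nat_lit 380) (nat_lit 3551818270) (nat_lit 74) (nat_lit 5) (nat_lit 78) (nat_lit 5) (nat_lit 79) (nat_lit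 5) (nat_lit 305) (nat_lit 251) (nat_lit 224)) (XT.lf (nat_lit 0) (nat_lit 8135481042) (nat_lit 304) (nat_lit 308508257) (nat_lit 380) (nat_lit 1107338209) (nat_lit 74) (nat_lit 5) (nat_lit 78) (nat_lit 5) (nat_lit 79) (nat_lit 5) (nat_lit 306) (nat_lit 251) (nat_lit 223))))) (XT.nd (nat_lit 234) (nat_lit 380) (nat_lit 0) (XT.nd (nat_lit 78) (nat_lit 304) (nat_lit 0) (XT.lf (nat_lit 0) (nat_lit 1385802740) (nat_lit 456) (nat_lit 6087007256) (nat_lit 76) (nat_lit 2239599135) (nat_lit 68) (nat_lit 5) (nat_lit 74) (nat_lit 5) (nat_lit 69) (nat_lit 5) (nat_lit 307) (nat_lit 251) (nat_lit 222)) (XT.nd (nat_lit 78) (nat_lit 304) (nat_lit 0) (XT.lf (nat_lit 0) (nat_lit 3895578224) (nat_lit 456) (nat_lit 1114987011) (nat_lit 76) (nat_lit 4868624095) (nat_lit 68) (nat_lit 5) (nat_lit 74) (nat_lit 5) (nat_lit 69) (nat_lit 5) (nat_lit 308) (nat_lit 251) (nat_lit 221)) (XT.lf (nat_lit 0) (nat_lit 4016765680)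 (nat_lit 304) (nat_lit 2450651484) (nat_lit 380) (nat_lit 3584067168) (nat_lit 64) (nat_lit 5) (nat_lit 68) (nat_lit 5) (nat_lit 69) (nat_lit 5) (nat_lit 309) (nat_lit 251) (nat_lit 220)))) (XT.nd (nat_lit 78) (nat_lit 380) (nat_lit 0) (XT.lf (nat_lit 0) (nat_lit 9078438125) (nat_lit 380) (nat_lit 973813298) (nat_lit 76) (nat_lit 177947125) (nat_lit 64) (nat_lit 5) (nat_lit 69) (nat_lit 5) (nat_lit 65) (nat_lit 5) (nat_lit 310) (nat_lit 251) (nat_lit 219)) (XT.nd (nat_lit 78) (nat_lit 0) (nat_lit 0) (XT.lf (nat_lit 0) (nat_lit 1342436842) (nat_lit 380) (nat_lit 6196506532) (nat_lit 76) (nat_lit 2874585282) (nat_lit 59) (nat_lit 5) (nat_lit 64) (nat_lit 5) (nat_lit 60) (nat_lit 5) (nat_lit 311) (nat_lit 251) (nat_lit 218)) (XT.lf (nat_lit 0) (nat_lit 3848824186) (nat_lit 380) (nat_lit 1097082812) (nat_lit 76) (nat_lit 5657395894) (nat_lit 59) (nat_lit 5) (nat_lit 64) (nat_lit 5) (nat_lit 60)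 (nat_lit 5) (nat_lit 312) (nat_lit 251) (nat_lit 217)))))) (XT.nd (nat_lit 468) (nat_lit 760) (nat_lit 0) (XT.nd (nat_lit 234) (nat_lit 228) (nat_lit 0) (XT.nd (nat_lit 78) (nat_lit 380) (nat_lit 0) (XT.lf (nat_lit 0) (nat_lit 4171617138) (nat_lit 228) (nat_lit 2250907930) (nat_lit 304) (nat_lit 4376580401) (nat_lit 56) (nat_lit 5) (nat_lit 59) (nat_lit 5) (nat_lit 60) (nat_lit 5) (nat_lit 313) (nat_lit 251) (nat_lit 216)) (XT.nd (nat_lit 78) (nat_lit 380) (nat_lit 0) (XT.lf (nat_lit 0) (nat_lit 9042304556) (nat_lit 304) (nat_lit 1450555625) (nat_lit 76) (nat_lit 508951812) (nat_lit 56) (nat_lit 5) (nat_lit 60) (nat_lit 5) (nat_lit 57) (nat_lit 5) (nat_lit 314) (nat_lit 251) (nat_lit 215)) (XT.lf (nat_lit 0) (nat_lit 533286512) (nat_lit 380) (nat_lit 7344479414) (nat_lit 76) (nat_lit 3332364739) (nat_lit 51) (nat_lit 5) (nat_lit 56) (nat_lit 5) (nat_lit 52) (nat_lit 5) (nat_lit 315) (nat_lit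 251) (nat_lit 214)))) (XT.nd (nat_lit 78) (nat_lit 228) (nat_lit 0) (XT.lf (nat_lit 0) (nat_lit 3030480469) (nat_lit 380) (nat_lit 2136999205) (nat_lit 76) (nat_lit 6257654937) (nat_lit 51) (nat_lit 5) (nat_lit 56) (nat_lit 5) (nat_lit 52) (nat_lit 5) (nat_lit 316) (nat_lit 251) (nat_lit 213)) (XT.nd (nat_lit 78) (nat_lit 0) (nat_lit 0) (XT.lf (nat_lit 0) (nat_lit 3227280347) (nat_lit 228) (nat_lit 2361873804) (nat_lit 304) (nat_lit 6057922809) (nat_lit 48) (nat_lit 5) (nat_lit 51) (nat_lit 5) (nat_lit 52) (nat_lit 5) (nat_lit 317) (nat_lit 251) (nat_lit 212)) (XT.lf (nat_lit 0) (nat_lit 8207524648) (nat_lit 304) (nat_lit 3147034953) (nat_lit 76) (nat_lit 521712601) (nat_lit 48) (nat_lit 5) (nat_lit 52) (nat_lit 5) (nat_lit 49) (nat_lit 5) (nat_lit 318) (nat_lit 251) (nat_lit 211))))) (XT.nd (nat_lit 234) (nat_lit 228) (nat_lit 0) (XT.nd (nat_lit 78) (nat_lit 304) (nat_lit 0) (XT.lf (nat_lit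 0) (nat_lit 2243120023) (nat_lit 228) (nat_lit 8663621854) (nat_lit 304) (nat_lit 1205612866) (nat_lit 45) (nat_lit 5) (nat_lit 48) (nat_lit 5) (nat_lit 49) (nat_lit 5) (nat_lit 319) (nat_lit 251) (nat_lit 210)) (XT.nd (nat_lit 78) (nat_lit 228) (nat_lit 0) (XT.lf (nat_lit 0) (nat_lit 1295044930) (nat_lit 304) (nat_lit 4569686081) (nat_lit 76) (nat_lit 6490792206) (nat_lit 44) (nat_lit 5) (nat_lit 48) (nat_lit 5) (nat_lit 45) (nat_lit 5) (nat_lit 320) (nat_lit 251) (nat_lit 209)) (XT.lf (nat_lit 0) (nat_lit 833470005) (nat_lit 228) (nat_lit 2979786306) (nat_lit 304) (nat_lit 8793442862) (nat_lit 41) (nat_lit 5) (nat_lit 44) (nat_lit 5) (nat_lit 45) (nat_lit 5) (nat_lit 321) (nat_lit 251) (nat_lit 208)))) (XT.nd (nat_lit 78) (nat_lit 228) (nat_lit 0) (XT.lf (nat_lit 0) (nat_lit 6412744853) (nat_lit 304) (nat_lit 6432241108) (nat_lit 76) (nat_lit 20323877) (nat_lit 41) (nat_lit 5) (nat_lit 45)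 (nat_lit 5) (nat_lit 42) (nat_lit 5) (nat_lit 322) (nat_lit 251) (nat_lit 207)) (XT.nd (nat_lit 78) (nat_lit 228) (nat_lit 0) (XT.lf (nat_lit 0) (nat_lit 9080117768) (nat_lit 304) (nat_lit 1019004635) (nat_lit 76) (nat_lit 3032928706) (nat_lit 41) (nat_lit 5) (nat_lit 45) (nat_lit 5) (nat_lit 42) (nat_lit 5) (nat_lit 323) (nat_lit 251) (nat_lit 206)) (XT.lf (nat_lit 0) (nat_lit 4589409706) (nat_lit 228) (nat_lit 7243768750) (nat_lit 304) (nat_lit 1573513423) (nat_lit 38) (nat_lit 5) (nat_lit 41) (nat_lit 5) (nat_lit 42) (nat_lit 5) (nat_lit 324) (nat_lit 251) (nat_lit 205))))))))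
noncomputable def xc86 : XT := (XT.nd (nat_lit 1716) (nat_lit 760) (nat_lit 0) (XT.nd (nat_lit 858) (nat_lit 608) (nat_lit 0) (XT.nd (nat_lit 390) (nat_lit 380) (nat_lit 0) (XT.nd (nat_lit 156) (nat_lit 228) (nat_lit 0) (XT.nd (nat_lit 78) (nat_lit 152) (nat_lit 0) (XT.lf (nat_lit 0) (nat_lit 932232929) (nat_lit 304) (nat_lit 3368857564) (nat_lit 76) (nat_lit 9389099900) (nat_lit 37) (nat_lit 5) (nat_lit 41) (nat_lit 5) (nat_lit 38) (nat_lit 5) (nat_lit 325) (nat_lit 251) (nat_lit 204)) (XT.lf (nat_lit 0) (nat_lit 2215285789) (nat_lit 152) (nat_lit 1250341182) (nat_lit 228) (nat_lit 10516638021) (nat_lit 35) (nat_lit 5) (nat_lit 37) (nat_lit 5) (nat_lit 38) (nat_lit 5) (nat_lit 326) (nat_lit 251) (nat_lit 203))) (XT.nd (nat_lit 78) (nat_lit 228) (nat_lit 0) (XT.lf (nat_lit 0) (nat_lit 6090752754) (nat_lit 228) (nat_lit 6320416547) (nat_lit 76) (nat_lit 1871520388) (nat_lit 35) (nat_lit 5) (nat_lit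 38) (nat_lit 5) (nat_lit 36) (nat_lit 5) (nat_lit 327) (nat_lit 251) (nat_lit 202)) (XT.nd (nat_lit 78) (nat_lit 228) (nat_lit 0) (XT.lf (nat_lit 0) (nat_lit 8771271975) (nat_lit 228) (nat_lit 777034480) (nat_lit 76) (nat_lit 5044579503) (nat_lit 35) (nat_lit 5) (nat_lit 38) (nat_lit 5) (nat_lit 36) (nat_lit 5) (nat_lit 328) (nat_lit 251) (nat_lit 201)) (XT.lf (nat_lit 0) (nat_lit 4977151935) (nat_lit 228) (nat_lit 6568199283) (nat_lit 304) (nat_lit 3366698889) (nat_lit 32) (nat_lit 5) (nat_lit 35) (nat_lit 5) (nat_lit 36) (nat_lit 5) (nat_lit 329) (nat_lit 251) (nat_lit 200))))) (XT.nd (nat_lit 234) (nat_lit 152) (nat_lit 0) (XT.nd (nat_lit 78) (nat_lit 228) (nat_lit 0) (XT.lf (nat_lit 0) (nat_lit 10867788989) (nat_lit 228) (nat_lit 3508521192) (nat_lit 304) (nat_lit 865323968) (nat_lit 32) (nat_lit 5) (nat_lit 35) (nat_lit 5) (nat_lit 36) (nat_lit 5) (nat_lit 330) (nat_lit 251) (nat_lit 199))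 (XT.nd (nat_lit 78) (nat_lit 0) (nat_lit 0) (XT.lf (nat_lit 0) (nat_lit 1311885421) (nat_lit 152) (nat_lit 344853764) (nat_lit 228) (nat_lit 13924553539) (nat_lit 29) (nat_lit 5) (nat_lit 31) (nat_lit 5) (nat_lit 32) (nat_lit 5) (nat_lit 331) (nat_lit 251) (nat_lit 198)) (XT.lf (nat_lit 0) (nat_lit 4276430271) (nat_lit 228) (nat_lit 8760656770) (nat_lit 76) (nat_lit 2892666287) (nat_lit 29) (nat_lit 5) (nat_lit 32) (nat_lit 5) (nat_lit 30) (nat_lit 5) (nat_lit 332) (nat_lit 251) (nat_lit 197)))) (XT.nd (nat_lit 78) (nat_lit 152) (nat_lit 0) (XT.lf (nat_lit 0) (nat_lit 6945840209) (nat_lit 228) (nat_lit 3140227857) (nat_lit 76) (nat_lit 6203514432) (nat_lit 29) (nat_lit 5) (nat_lit 32) (nat_lit 5) (nat_lit 30) (nat_lit 5) (nat_lit 333) (nat_lit 251) (nat_lit 196)) (XT.nd (nat_lit 78) (nat_lit 0) (nat_lit 0) (XT.lf (nat_lit 0) (nat_lit 2651852630) (nat_lit 152) (nat_lit 7037625145) (nat_lit 228)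 (nat_lit 6970951581) (nat_lit 27) (nat_lit 5) (nat_lit 29) (nat_lit 5) (nat_lit 30) (nat_lit 5) (nat_lit 334) (nat_lit 251) (nat_lit 195)) (XT.lf (nat_lit 0) (nat_lit 8633836173) (nat_lit 152) (nat_lit 3882401905) (nat_lit 228) (nat_lit 4526184934) (nat_lit 27) (nat_lit 5) (nat_lit 29) (nat_lit 5) (nat_lit 30) (nat_lit 5) (nat_lit 335) (nat_lit 251) (nat_lit 194)))))) (XT.nd (nat_lit 390) (nat_lit 228) (nat_lit 0) (XT.nd (nat_lit 156) (nat_lit 152) (nat_lit 0) (XT.nd (nat_lit 78) (nat_lit 228) (nat_lit 0) (XT.lf (nat_lit 0) (nat_lit 14748453053) (nat_lit 152) (nat_lit 649351500) (nat_lit 228) (nat_lit 2039016290) (nat_lit 27) (nat_lit 5) (nat_lit 29) (nat_lit 5) (nat_lit 30) (nat_lit 5) (nat_lit 336) (nat_lit 251) (nat_lit 193)) (XT.lf (nat_lit 0) (nat_lit 539982292) (nat_lit 228) (nat_lit 14653782415) (nat_lit 76) (nat_lit 2648354583) (nat_lit 24) (nat_lit 5) (nat_lit 27) (nat_lit 5) (nat_lit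 25) (nat_lit 5) (nat_lit 337) (nat_lit 251) (nat_lit 192))) (XT.nd (nat_lit 78) (nat_lit 152) (nat_lit 0) (XT.lf (nat_lit 0) (nat_lit 3160019809) (nat_lit 228) (nat_lit 9035587623) (nat_lit 76) (nat_lit 6063264765) (nat_lit 24) (nat_lit 5) (nat_lit 27) (nat_lit 5) (nat_lit 25) (nat_lit 5) (nat_lit 338) (nat_lit 251) (nat_lit 191)) (XT.nd (nat_lit 78) (nat_lit 152) (nat_lit 0) (XT.lf (nat_lit 0) (nat_lit 5830314701) (nat_lit 228) (nat_lit 3293886453) (nat_lit 76) (nat_lit 9564816360) (nat_lit 24) (nat_lit 5) (nat_lit 27) (nat_lit 5) (nat_lit 25) (nat_lit 5) (nat_lit 339) (nat_lit 251) (nat_lit 190)) (XT.lf (nat_lit 0) (nat_lit 2627612296) (nat_lit 152) (nat_lit 5950846154) (nat_lit 228) (nat_lit 10553714896) (nat_lit 22) (nat_lit 5) (nat_lit 24) (nat_lit 5) (nat_lit 25) (nat_lit 5) (nat_lit 340) (nat_lit 251) (nat_lit 189))))) (XT.nd (nat_lit 234) (nat_lit 76) (nat_lit 0) (XT.nd (nat_lit 78)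 (nat_lit 152) (nat_lit 0) (XT.lf (nat_lit 0) (nat_lit 8750978516) (nat_lit 152) (nat_lit 2664196869) (nat_lit 228) (nat_lit 8173301840) (nat_lit 22) (nat_lit 5) (nat_lit 24) (nat_lit 5) (nat_lit 25) (nat_lit 5) (nat_lit 341) (nat_lit 251) (nat_lit 188)) (XT.nd (nat_lit 78) (nat_lit 152) (nat_lit 0) (XT.lf (nat_lit 0) (nat_lit 14317431509) (nat_lit 228) (nat_lit 5050069053) (nat_lit 76) (nat_lit 691592684) (nat_lit 22) (nat_lit 5) (nat_lit 25) (nat_lit 5) (nat_lit 23) (nat_lit 4) (nat_lit 342) (nat_lit 251) (nat_lit 187)) (XT.lf (nat_lit 0) (nat_lit 859916081) (nat_lit 152) (nat_lit 16455761604) (nat_lit 228) (nat_lit 3227917494) (nat_lit 20) (nat_lit 5) (nat_lit 22) (nat_lit 5) (nat_lit 23) (nat_lit 4) (nat_lit 343) (nat_lit 251) (nat_lit 186)))) (XT.nd (nat_lit 78) (nat_lit 76) (nat_lit 0) (XT.lf (nat_lit 0) (nat_lit 7009659512) (nat_lit 152) (nat_lit 13419840133) (nat_lit 228) (nat_lit 612397752)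 (nat_lit 20) (nat_lit 5) (nat_lit 22) (nat_lit 5) (nat_lit 23) (nat_lit 4) (nat_lit 344) (nat_lit 251) (nat_lit 185)) (XT.nd (nat_lit 78) (nat_lit 0) (nat_lit 0) (XT.lf (nat_lit 0) (nat_lit 2016063481) (nat_lit 228) (nat_lit 8271657429) (nat_lit 76) (nat_lit 11267606755) (nat_lit 19) (nat_lit 5) (nat_lit 22) (nat_lit 5) (nat_lit 20) (nat_lit 5) (nat_lit 345) (nat_lit 251) (nat_lit 184)) (XT.lf (nat_lit 0) (nat_lit 4686890518) (nat_lit 228) (nat_lit 2383540864) (nat_lit 76) (nat_lit 15014304131) (nat_lit 19) (nat_lit 5) (nat_lit 22) (nat_lit 5) (nat_lit 20) (nat_lit 5) (nat_lit 346) (nat_lit 251) (nat_lit 183))))))) (XT.nd (nat_lit 858) (nat_lit 304) (nat_lit 0) (XT.nd (nat_lit 390) (nat_lit 228) (nat_lit 0) (XT.nd (nat_lit 156) (nat_lit 76) (nat_lit 0) (XT.nd (nat_lit 78) (nat_lit 0) (nat_lit 0) (XT.lf (nat_lit 0) (nat_lit 3715649208) (nat_lit 152) (nat_lit 3734435062) (nat_lit 228) (nat_lit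 15179604347) (nat_lit 17) (nat_lit 5) (nat_lit 19) (nat_lit 5) (nat_lit 20) (nat_lit 5) (nat_lit 347) (nat_lit 251) (nat_lit 182)) (XT.lf (nat_lit 0) (nat_lit 10008972834) (nat_lit 152) (nat_lit 288116225) (nat_lit 228) (nat_lit 12893903197) (nat_lit 17) (nat_lit 5) (nat_lit 19) (nat_lit 5) (nat_lit 20) (nat_lit 5) (nat_lit 348) (nat_lit 251) (nat_lit 181))) (XT.nd (nat_lit 78) (nat_lit 76) (nat_lit 0) (XT.lf (nat_lit 0) (nat_lit 13238241155) (nat_lit 228) (nat_lit 7346562673) (nat_lit 76) (nat_lit 3184097602) (nat_lit 17) (nat_lit 5) (nat_lit 20) (nat_lit 5) (nat_lit 18) (nat_lit 4) (nat_lit 349) (nat_lit 251) (nat_lit 180)) (XT.nd (nat_lit 78) (nat_lit 76) (nat_lit 0) (XT.lf (nat_lit 0) (nat_lit 16248523890) (nat_lit 228) (nat_lit 1374983615) (nat_lit 76) (nat_lit 6741241202) (nat_lit 17) (nat_lit 5) (nat_lit 20) (nat_lit 5) (nat_lit 18) (nat_lit 4) (nat_lit 350) (nat_lit 251) (nat_lit 179))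 (XT.lf (nat_lit 0) (nat_lit 4835054514) (nat_lit 76) (nat_lit 14539221045) (nat_lit 152) (nat_lit 5603467931) (nat_lit 16) (nat_lit 5) (nat_lit 17) (nat_lit 5) (nat_lit 18) (nat_lit 4) (nat_lit 351) (nat_lit 251) (nat_lit 178))))) (XT.nd (nat_lit 234) (nat_lit 152) (nat_lit 0) (XT.nd (nat_lit 78) (nat_lit 76) (nat_lit 0) (XT.lf (nat_lit 0) (nat_lit 11224885483) (nat_lit 76) (nat_lit 11361769271) (nat_lit 152) (nat_lit 3022713834) (nat_lit 16) (nat_lit 5) (nat_lit 17) (nat_lit 5) (nat_lit 18) (nat_lit 4) (nat_lit 352) (nat_lit 251) (nat_lit 177)) (XT.nd (nat_lit 78) (nat_lit 76) (nat_lit 0) (XT.lf (nat_lit 0) (nat_lit 17772727766) (nat_lit 76) (nat_lit 8102260408) (nat_lit 152) (nat_lit 385592137) (nat_lit 16) (nat_lit 5) (nat_lit 17) (nat_lit 5) (nat_lit 18) (nat_lit 4) (nat_lit 353) (nat_lit 251) (nat_lit 176)) (XT.lf (nat_lit 0) (nat_lit 2265121088) (nat_lit 152) (nat_lit 2469851970) (nat_lit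 76) (nat_lit 22196308410) (nat_lit 15) (nat_lit 5) (nat_lit 17) (nat_lit 5) (nat_lit 16) (nat_lit 5) (nat_lit 354) (nat_lit 251) (nat_lit 175)))) (XT.nd (nat_lit 78) (nat_lit 0) (nat_lit 0) (XT.lf (nat_lit 0) (nat_lit 3766202537) (nat_lit 152) (nat_lit 1238147093) (nat_lit 228) (nat_lit 22617160386) (nat_lit 13) (nat_lit 5) (nat_lit 15) (nat_lit 5) (nat_lit 16) (nat_lit 5) (nat_lit 355) (nat_lit 251) (nat_lit 174)) (XT.nd (nat_lit 78) (nat_lit 0) (nat_lit 0) (XT.lf (nat_lit 0) (nat_lit 7854342822) (nat_lit 228) (nat_lit 18147018260) (nat_lit 76) (nat_lit 2330249236) (nat_lit 13) (nat_lit 5) (nat_lit 16) (nat_lit 5) (nat_lit 14) (nat_lit 4) (nat_lit 356) (nat_lit 251) (nat_lit 173)) (XT.lf (nat_lit 0) (nat_lit 10783337392) (nat_lit 228) (nat_lit 12311119958) (nat_lit 76) (nat_lit 5968773105) (nat_lit 13) (nat_lit 5) (nat_lit 16) (nat_lit 5) (nat_lit 14) (nat_lit 4) (nat_lit 357) (nat_lit 251)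 (nat_lit 172)))))) (XT.nd (nat_lit 468) (nat_lit 228) (nat_lit 0) (XT.nd (nat_lit 234) (nat_lit 0) (nat_lit 0) (XT.nd (nat_lit 78) (nat_lit 76) (nat_lit 0) (XT.lf (nat_lit 0) (nat_lit 13781990828) (nat_lit 228) (nat_lit 6330611418) (nat_lit 76) (nat_lit 9704764516) (nat_lit 13) (nat_lit 5) (nat_lit 16) (nat_lit 5) (nat_lit 14) (nat_lit 4) (nat_lit 358) (nat_lit 251) (nat_lit 171)) (XT.nd (nat_lit 78) (nat_lit 76) (nat_lit 0) (XT.lf (nat_lit 0) (nat_lit 16852923314) (nat_lit 228) (nat_lit 200266953) (nat_lit 76) (nat_lit 13541487927) (nat_lit 13) (nat_lit 5) (nat_lit 16) (nat_lit 5) (nat_lit 14) (nat_lit 4) (nat_lit 359) (nat_lit 251) (nat_lit 170)) (XT.lf (nat_lit 0) (nat_lit 6206378853) (nat_lit 76) (nat_lit 13852098846) (nat_lit 152) (nat_lit 11335576471) (nat_lit 12) (nat_lit 5) (nat_lit 13) (nat_lit 5) (nat_lit 14) (nat_lit 4) (nat_lit 360) (nat_lit 251) (nat_lit 169)))) (XT.nd (nat_lit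 78) (nat_lit 0) (nat_lit 0) (XT.lf (nat_lit 0) (nat_lit 12780893060) (nat_lit 76) (nat_lit 10564388995) (nat_lit 152) (nat_lit 8872596305) (nat_lit 12) (nat_lit 5) (nat_lit 13) (nat_lit 5) (nat_lit 14) (nat_lit 4) (nat_lit 361) (nat_lit 251) (nat_lit 168)) (XT.nd (nat_lit 78) (nat_lit 0) (nat_lit 0) (XT.lf (nat_lit 0) (nat_lit 19525034684) (nat_lit 76) (nat_lit 7189210261) (nat_lit 152) (nat_lit 6352684567) (nat_lit 12) (nat_lit 5) (nat_lit 13) (nat_lit 5) (nat_lit 14) (nat_lit 4) (nat_lit 362) (nat_lit 251) (nat_lit 167)) (XT.lf (nat_lit 0) (nat_lit 26444696663) (nat_lit 76) (nat_lit 3723613461) (nat_lit 152) (nat_lit 3773639392) (nat_lit 12) (nat_lit 5) (nat_lit 13) (nat_lit 5) (nat_lit 14) (nat_lit 4) (nat_lit 363) (nat_lit 251) (nat_lit 166))))) (XT.nd (nat_lit 234) (nat_lit 0) (nat_lit 0) (XT.nd (nat_lit 78) (nat_lit 228) (nat_lit 0) (XT.lf (nat_lit 0) (nat_lit 33545925304) (nat_lit 76)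 (nat_lit 164570403) (nat_lit 152) (nat_lit 1133207247) (nat_lit 12) (nat_lit 5) (nat_lit 13) (nat_lit 5) (nat_lit 14) (nat_lit 4) (nat_lit 364) (nat_lit 251) (nat_lit 165)) (XT.nd (nat_lit 78) (nat_lit 0) (nat_lit 0) (XT.lf (nat_lit 0) (nat_lit 1623940953) (nat_lit 228) (nat_lit 30657948363) (nat_lit 76) (nat_lit 3488125142) (nat_lit 9) (nat_lit 5) (nat_lit 12) (nat_lit 5) (nat_lit 10) (nat_lit 4) (nat_lit 365) (nat_lit 251) (nat_lit 164)) (XT.lf (nat_lit 0) (nat_lit 4440775915) (nat_lit 228) (nat_lit 25021594459) (nat_lit 76) (nat_lit 7261432154) (nat_lit 9) (nat_lit 5) (nat_lit 12) (nat_lit 5) (nat_lit 10) (nat_lit 4) (nat_lit 366) (nat_lit 251) (nat_lit 163)))) (XT.nd (nat_lit 78) (nat_lit 0) (nat_lit 0) (XT.lf (nat_lit 0) (nat_lit 7327440671) (nat_lit 228) (nat_lit 19241102936) (nat_lit 76) (nat_lit 11138116694) (nat_lit 9) (nat_lit 5) (nat_lit 12) (nat_lit 5) (nat_lit 10) (nat_lit 4) (nat_lit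 367) (nat_lit 251) (nat_lit 162)) (XT.nd (nat_lit 78) (nat_lit 0) (nat_lit 0) (XT.lf (nat_lit 0) (nat_lit 10286457548) (nat_lit 228) (nat_lit 13311422879) (nat_lit 76) (nat_lit 15121566155) (nat_lit 9) (nat_lit 5) (nat_lit 12) (nat_lit 5) (nat_lit 10) (nat_lit 4) (nat_lit 368) (nat_lit 251) (nat_lit 161)) (XT.lf (nat_lit 0) (nat_lit 13320412097) (nat_lit 228) (nat_lit 7227373015) (nat_lit 76) (nat_lit 19215261223) (nat_lit 9) (nat_lit 5) (nat_lit 12) (nat_lit 5) (nat_lit 10) (nat_lit 4) (nat_lit 369) (nat_lit 251) (nat_lit 160))))))))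
noncomputable def xc87 : XT := (XT.nd (nat_lit 1794) (nat_lit 76) (nat_lit 0) (XT.nd (nat_lit 858) (nat_lit 76) (nat_lit 0) (XT.nd (nat_lit 390) (nat_lit 152) (nat_lit 0) (XT.nd (nat_lit 156) (nat_lit 0) (nat_lit 0) (XT.nd (nat_lit 78) (nat_lit 76) (nat_lit 0) (XT.lf (nat_lit 0) (nat_lit 16431955344) (nat_lit 228) (nat_lit 983637183) (nat_lit 76) (nat_lit 23422778911) (nat_lit 9) (nat_lit 5) (nat_lit 12) (nat_lit 5) (nat_lit 10) (nat_lit 4) (nat_lit 370) (nat_lit 251) (nat_lit 159)) (XT.lf (nat_lit 0) (nat_lit 5533213227) (nat_lit 76) (nat_lit 14143781518) (nat_lit 152) (nat_lit 22267771095) (nat_lit 8) (nat_lit 5) (nat_lit 9) (nat_lit 5) (nat_lit 10) (nat_lit 4) (nat_lit 371) (nat_lit 251) (nat_lit 158))) (XT.nd (nat_lit 78) (nat_lit 0) (nat_lit 0) (XT.lf (nat_lit 0) (nat_lit 12243779689) (nat_lit 76) (nat_lit 10772668415) (nat_lit 152) (nat_lit 20068005717) (nat_lit 8) (nat_lit 5) (nat_lit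 9) (nat_lit 5) (nat_lit 10) (nat_lit 4) (nat_lit 372) (nat_lit 251) (nat_lit 157)) (XT.nd (nat_lit 78) (nat_lit 0) (nat_lit 0) (XT.lf (nat_lit 0) (nat_lit 19134349497) (nat_lit 76) (nat_lit 7309240393) (nat_lit 152) (nat_lit 17815130643) (nat_lit 8) (nat_lit 5) (nat_lit 9) (nat_lit 5) (nat_lit 10) (nat_lit 4) (nat_lit 373) (nat_lit 251) (nat_lit 156)) (XT.lf (nat_lit 0) (nat_lit 26210943535) (nat_lit 76) (nat_lit 3750471155) (nat_lit 152) (nat_lit 15507177340) (nat_lit 8) (nat_lit 5) (nat_lit 9) (nat_lit 5) (nat_lit 10) (nat_lit 4) (nat_lit 374) (nat_lit 251) (nat_lit 155))))) (XT.nd (nat_lit 234) (nat_lit 152) (nat_lit 0) (XT.nd (nat_lit 78) (nat_lit 0) (nat_lit 0) (XT.lf (nat_lit 0) (nat_lit 33479745235) (nat_lit 76) (nat_lit 93251099) (nat_lit 152) (nat_lit 13142129151) (nat_lit 8) (nat_lit 5) (nat_lit 9) (nat_lit 5) (nat_lit 10) (nat_lit 4) (nat_lit 375) (nat_lit 251) (nat_lit 154)) (XT.nd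 (nat_lit 78) (nat_lit 0) (nat_lit 0) (XT.lf (nat_lit 0) (nat_lit 37316726710) (nat_lit 152) (nat_lit 7087540260) (nat_lit 0) (nat_lit 3594086046) (nat_lit 8) (nat_lit 5) (nat_lit 10) (nat_lit 4) (nat_lit 8) (nat_lit 4) (nat_lit 376) (nat_lit 251) (nat_lit 153)) (XT.lf (nat_lit 0) (nat_lit 41162515158) (nat_lit 152) (nat_lit 775394747) (nat_lit 0) (nat_lit 7382486843) (nat_lit 8) (nat_lit 5) (nat_lit 10) (nat_lit 4) (nat_lit 8) (nat_lit 4) (nat_lit 377) (nat_lit 251) (nat_lit 152)))) (XT.nd (nat_lit 78) (nat_lit 76) (nat_lit 0) (XT.lf (nat_lit 0) (nat_lit 5821057949) (nat_lit 76) (nat_lit 39347723309) (nat_lit 76) (nat_lit 5511978828) (nat_lit 7) (nat_lit 4) (nat_lit 8) (nat_lit 5) (nat_lit 8) (nat_lit 4) (nat_lit 378) (nat_lit 251) (nat_lit 151)) (XT.nd (nat_lit 78) (nat_lit 76) (nat_lit 0) (XT.lf (nat_lit 0) (nat_lit 12612834885) (nat_lit 76) (nat_lit 36679517431) (nat_lit 76) (nat_lit 2789679584)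 (nat_lit 7) (nat_lit 4) (nat_lit 8) (nat_lit 5) (nat_lit 8) (nat_lit 4) (nat_lit 379) (nat_lit 251) (nat_lit 150)) (XT.lf (nat_lit 0) (nat_lit 3495318) (nat_lit 152) (nat_lit 33935260180) (nat_lit 76) (nat_lit 19586908131) (nat_lit 6) (nat_lit 5) (nat_lit 8) (nat_lit 5) (nat_lit 7) (nat_lit 4) (nat_lit 380) (nat_lit 251) (nat_lit 149)))))) (XT.nd (nat_lit 468) (nat_lit 0) (nat_lit 0) (XT.nd (nat_lit 234) (nat_lit 76) (nat_lit 0) (XT.nd (nat_lit 78) (nat_lit 0) (nat_lit 0) (XT.lf (nat_lit 0) (nat_lit 2814187423) (nat_lit 152) (nat_lit 28280543393) (nat_lit 76) (nat_lit 23917361267) (nat_lit 6) (nat_lit 5) (nat_lit 8) (nat_lit 5) (nat_lit 7) (nat_lit 4) (nat_lit 381) (nat_lit 251) (nat_lit 148)) (XT.nd (nat_lit 78) (nat_lit 0) (nat_lit 0) (XT.lf (nat_lit 0) (nat_lit 5699289370) (nat_lit 152) (nat_lit 22473289533) (nat_lit 76) (nat_lit 28370841664) (nat_lit 6) (nat_lit 5) (nat_lit 8) (nat_lit 5)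 (nat_lit 7) (nat_lit 4) (nat_lit 382) (nat_lit 251) (nat_lit 147)) (XT.lf (nat_lit 0) (nat_lit 8661322123) (nat_lit 152) (nat_lit 16508424299) (nat_lit 76) (nat_lit 32951240711) (nat_lit 6) (nat_lit 5) (nat_lit 8) (nat_lit 5) (nat_lit 7) (nat_lit 4) (nat_lit 383) (nat_lit 251) (nat_lit 146)))) (XT.nd (nat_lit 78) (nat_lit 76) (nat_lit 0) (XT.lf (nat_lit 0) (nat_lit 11702873866) (nat_lit 152) (nat_lit 10380735674) (nat_lit 76) (nat_lit 37662560698) (nat_lit 6) (nat_lit 5) (nat_lit 8) (nat_lit 5) (nat_lit 7) (nat_lit 4) (nat_lit 384) (nat_lit 251) (nat_lit 145)) (XT.nd (nat_lit 78) (nat_lit 76) (nat_lit 0) (XT.lf (nat_lit 0) (nat_lit 14826602264) (nat_lit 152) (nat_lit 4084869366) (nat_lit 76) (nat_lit 42508918314) (nat_lit 6) (nat_lit 5) (nat_lit 8) (nat_lit 5) (nat_lit 7) (nat_lit 4) (nat_lit 385) (nat_lit 251) (nat_lit 144)) (XT.lf (nat_lit 0) (nat_lit 2432135590) (nat_lit 76) (nat_lit 15626480375)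 (nat_lit 152) (nat_lit 45085791823) (nat_lit 5) (nat_lit 5) (nat_lit 6) (nat_lit 5) (nat_lit 7) (nat_lit 4) (nat_lit 386) (nat_lit 251) (nat_lit 143))))) (XT.nd (nat_lit 234) (nat_lit 0) (nat_lit 0) (XT.nd (nat_lit 78) (nat_lit 0) (nat_lit 0) (XT.lf (nat_lit 0) (nat_lit 9213338440) (nat_lit 76) (nat_lit 12206806911) (nat_lit 152) (nat_lit 43499032654) (nat_lit 5) (nat_lit 5) (nat_lit 6) (nat_lit 5) (nat_lit 7) (nat_lit 4) (nat_lit 387) (nat_lit 251) (nat_lit 142)) (XT.nd (nat_lit 78) (nat_lit 0) (nat_lit 0) (XT.lf (nat_lit 0) (nat_lit 16183367595) (nat_lit 76) (nat_lit 8690712345) (nat_lit 152) (nat_lit 41873372855) (nat_lit 5) (nat_lit 5) (nat_lit 6) (nat_lit 5) (nat_lit 7) (nat_lit 4) (nat_lit 388) (nat_lit 251) (nat_lit 141)) (XT.lf (nat_lit 0) (nat_lit 23348313372) (nat_lit 76) (nat_lit 5075124361) (nat_lit 152) (nat_lit 40207391947) (nat_lit 5) (nat_lit 5) (nat_lit 6) (nat_lit 5) (nat_lit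 7) (nat_lit 4) (nat_lit 389) (nat_lit 251) (nat_lit 140)))) (XT.nd (nat_lit 78) (nat_lit 0) (nat_lit 0) (XT.lf (nat_lit 0) (nat_lit 30714436403) (nat_lit 76) (nat_lit 1356883709) (nat_lit 152) (nat_lit 38499634219) (nat_lit 5) (nat_lit 5) (nat_lit 6) (nat_lit 5) (nat_lit 7) (nat_lit 4) (nat_lit 390) (nat_lit 251) (nat_lit 139)) (XT.nd (nat_lit 78) (nat_lit 0) (nat_lit 0) (XT.lf (nat_lit 0) (nat_lit 35844631346) (nat_lit 152) (nat_lit 34305065693) (nat_lit 0) (nat_lit 2419113458) (nat_lit 5) (nat_lit 5) (nat_lit 7) (nat_lit 4) (nat_lit 5) (nat_lit 4) (nat_lit 391) (nat_lit 251) (nat_lit 138)) (XT.lf (nat_lit 0) (nat_lit 39737024287) (nat_lit 152) (nat_lit 28613664606) (nat_lit 0) (nat_lit 6275744311) (nat_lit 5) (nat_lit 5) (nat_lit 7) (nat_lit 4) (nat_lit 5) (nat_lit 4) (nat_lit 392) (nat_lit 251) (nat_lit 137))))))) (XT.nd (nat_lit 31902) (nat_lit 0) (nat_lit 8436) (XT.nd (nat_lit 390) (nat_lit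 0) (nat_lit 0) (XT.nd (nat_lit 156) (nat_lit 76) (nat_lit 0) (XT.nd (nat_lit 78) (nat_lit 0) (nat_lit 0) (XT.lf (nat_lit 0) (nat_lit 43738856859) (nat_lit 152) (nat_lit 22764298402) (nat_lit 0) (nat_lit 10242856411) (nat_lit 5) (nat_lit 5) (nat_lit 7) (nat_lit 4) (nat_lit 5) (nat_lit 4) (nat_lit 393) (nat_lit 251) (nat_lit 136)) (XT.lf (nat_lit 0) (nat_lit 47853625810) (nat_lit 152) (nat_lit 16751855984) (nat_lit 0) (nat_lit 14323916165) (nat_lit 5) (nat_lit 5) (nat_lit 7) (nat_lit 4) (nat_lit 5) (nat_lit 4) (nat_lit 394) (nat_lit 251) (nat_lit 135))) (XT.nd (nat_lit 78) (nat_lit 76) (nat_lit 0) (XT.lf (nat_lit 0) (nat_lit 52084926568) (nat_lit 152) (nat_lit 10571083761) (nat_lit 0) (nat_lit 18522489547) (nat_lit 5) (nat_lit 5) (nat_lit 7) (nat_lit 4) (nat_lit 5) (nat_lit 4) (nat_lit 395) (nat_lit 251) (nat_lit 134)) (XT.nd (nat_lit 78) (nat_lit 76) (nat_lit 0) (XT.lf (nat_lit 0) (nat_lit 56436456388)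 (nat_lit 152) (nat_lit 4216581059) (nat_lit 0) (nat_lit 22842245215) (nat_lit 5) (nat_lit 5) (nat_lit 7) (nat_lit 4) (nat_lit 5) (nat_lit 4) (nat_lit 396) (nat_lit 251) (nat_lit 133)) (XT.lf (nat_lit 0) (nat_lit 2363321515) (nat_lit 76) (nat_lit 58571413752) (nat_lit 76) (nat_lit 24946353889) (nat_lit 4) (nat_lit 4) (nat_lit 5) (nat_lit 5) (nat_lit 5) (nat_lit 4) (nat_lit 397) (nat_lit 251) (nat_lit 132))))) (XT.nd (nat_lit 31278) (nat_lit 0) (nat_lit 14212) (XT.nd (nat_lit 31122) (nat_lit 0) (nat_lit 15732) (XT.lf (nat_lit 0) (nat_lit 9215816116) (nat_lit 76) (nat_lit 56388292762) (nat_lit 76) (nat_lit 22733282714) (nat_lit 4) (nat_lit 4) (nat_lit 5) (nat_lit 5) (nat_lit 5) (nat_lit 4) (nat_lit 398) (nat_lit 251) (nat_lit 131)) (XT.nd (nat_lit 78) (nat_lit 684) (nat_lit 0) (XT.lf (nat_lit 0) (nat_lit 3128602366) (nat_lit 532) (nat_lit 122481802) (nat_lit 532) (nat_lit 122481802) (nat_lit 220)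 (nat_lit 4) (nat_lit 227) (nat_lit 5) (nat_lit 227) (nat_lit 4) (nat_lit 276) (nat_lit 252) (nat_lit 252)) (XT.lf (nat_lit 0) (nat_lit 2585379328) (nat_lit 684) (nat_lit 3494161325) (nat_lit 0) (nat_lit 707745210) (nat_lit 211) (nat_lit 5) (nat_lit 220) (nat_lit 4) (nat_lit 211) (nat_lit 4) (nat_lit 277) (nat_lit 252) (nat_lit 251)))) (XT.nd (nat_lit 78) (nat_lit 836) (nat_lit 0) (XT.lf (nat_lit 0) (nat_lit 295461956) (nat_lit 684) (nat_lit 5118261317) (nat_lit 684) (nat_lit 1417681453) (nat_lit 202) (nat_lit 4) (nat_lit 211) (nat_lit 5) (nat_lit 211) (nat_lit 4) (nat_lit 278) (nat_lit 252) (nat_lit 250)) (XT.nd (nat_lit 78) (nat_lit 760) (nat_lit 0) (XT.lf (nat_lit 0) (nat_lit 1365868246) (nat_lit 760) (nat_lit 2697717562) (nat_lit 76) (nat_lit 2814872435) (nat_lit 201) (nat_lit 5) (nat_lit 211) (nat_lit 5) (nat_lit 202) (nat_lit 4) (nat_lit 279) (nat_lit 252) (nat_lit 249)) (XT.lf (nat_lit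 0) (nat_lit 1189052258) (nat_lit 760) (nat_lit 2937934718) (nat_lit 836) (nat_lit 2802180420) (nat_lit 191) (nat_lit 5) (nat_lit 201) (nat_lit 5) (nat_lit 202) (nat_lit 4) (nat_lit 280) (nat_lit 252) (nat_lit 248)))))) (XT.nd (nat_lit 468) (nat_lit 2888) (nat_lit 0) (XT.nd (nat_lit 234) (nat_lit 1976) (nat_lit 0) (XT.nd (nat_lit 78) (nat_lit 912) (nat_lit 0) (XT.lf (nat_lit 0) (nat_lit 5172700180) (nat_lit 760) (nat_lit 1738474736) (nat_lit 836) (nat_lit 72347705) (nat_lit 191) (nat_lit 5) (nat_lit 201) (nat_lit 5) (nat_lit 202) (nat_lit 4) (nat_lit 281) (nat_lit 252) (nat_lit 247)) (XT.nd (nat_lit 78) (nat_lit 0) (nat_lit 0) (XT.lf (nat_lit 0) (nat_lit 2177653045) (nat_lit 836) (nat_lit 443580587) (nat_lit 912) (nat_lit 4419738440) (nat_lit 179) (nat_lit 5) (nat_lit 190) (nat_lit 5) (nat_lit 191) (nat_lit 5) (nat_lit 282) (nat_lit 252) (nat_lit 246)) (XT.lf (nat_lit 0) (nat_lit 5337442557)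 (nat_lit 912) (nat_lit 863183450) (nat_lit 76) (nat_lit 901502986) (nat_lit 179) (nat_lit 5) (nat_lit 191) (nat_lit 5) (nat_lit 180) (nat_lit 4) (nat_lit 283) (nat_lit 252) (nat_lit 245)))) (XT.nd (nat_lit 78) (nat_lit 988) (nat_lit 0) (XT.lf (nat_lit 0) (nat_lit 904582902) (nat_lit 988) (nat_lit 3934640648) (nat_lit 76) (nat_lit 2327298780) (nat_lit 166) (nat_lit 5) (nat_lit 179) (nat_lit 5) (nat_lit 167) (nat_lit 5) (nat_lit 284) (nat_lit 252) (nat_lit 244)) (XT.nd (nat_lit 78) (nat_lit 0) (nat_lit 0) (XT.lf (nat_lit 0) (nat_lit 144219781) (nat_lit 988) (nat_lit 3403708197) (nat_lit 1064) (nat_lit 3686789274) (nat_lit 153) (nat_lit 5) (nat_lit 166) (nat_lit 5) (nat_lit 167) (nat_lit 5) (nat_lit 285) (nat_lit 252) (nat_lit 243)) (XT.lf (nat_lit 0) (nat_lit 4350903609) (nat_lit 988) (nat_lit 1880307266) (nat_lit 1064) (nat_lit 1075197856) (nat_lit 153) (nat_lit 5) (nat_lit 166) (nat_lit 5) (nat_lit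 167) (nat_lit 5) (nat_lit 286) (nat_lit 252) (nat_lit 242))))) (XT.nd (nat_lit 234) (nat_lit 1140) (nat_lit 0) (XT.nd (nat_lit 78) (nat_lit 608) (nat_lit 0) (XT.lf (nat_lit 0) (nat_lit 1237348930) (nat_lit 1064) (nat_lit 279968981) (nat_lit 1140) (nat_lit 5864699156) (nat_lit 138) (nat_lit 5) (nat_lit 152) (nat_lit 5) (nat_lit 153) (nat_lit 5) (nat_lit 287) (nat_lit 252) (nat_lit 241)) (XT.nd (nat_lit 78) (nat_lit 608) (nat_lit 0) (XT.lf (nat_lit 0) (nat_lit 4133059704) (nat_lit 1140) (nat_lit 1943152809) (nat_lit 76) (nat_lit 1384596881) (nat_lit 138) (nat_lit 5) (nat_lit 153) (nat_lit 5) (nat_lit 139) (nat_lit 5) (nat_lit 288) (nat_lit 252) (nat_lit 240)) (XT.lf (nat_lit 0) (nat_lit 2353153192) (nat_lit 608) (nat_lit 4425499821) (nat_lit 684) (nat_lit 765010848) (nat_lit 130) (nat_lit 5) (nat_lit 138) (nat_lit 5) (nat_lit 139) (nat_lit 5) (nat_lit 289) (nat_lit 252) (nat_lit 239)))) (XT.nd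 (nat_lit 78) (nat_lit 1064) (nat_lit 0) (XT.lf (nat_lit 0) (nat_lit 1784334259) (nat_lit 684) (nat_lit 903809272) (nat_lit 76) (nat_lit 4942156681) (nat_lit 129) (nat_lit 5) (nat_lit 138) (nat_lit 5) (nat_lit 130) (nat_lit 5) (nat_lit 290) (nat_lit 252) (nat_lit 238)) (XT.nd (nat_lit 78) (nat_lit 532) (nat_lit 0) (XT.lf (nat_lit 0) (nat_lit 3499031590) (nat_lit 532) (nat_lit 858016308) (nat_lit 608) (nat_lit 3363612004) (nat_lit 122) (nat_lit 5) (nat_lit 129) (nat_lit 5) (nat_lit 130) (nat_lit 5) (nat_lit 291) (nat_lit 252) (nat_lit 237)) (XT.lf (nat_lit 0) (nat_lit 157399455) (nat_lit 532) (nat_lit 6800133864) (nat_lit 608) (nat_lit 857892362) (nat_lit 115) (nat_lit 5) (nat_lit 122) (nat_lit 5) (nat_lit 123) (nat_lit 5) (nat_lit 292) (nat_lit 252) (nat_lit 236))))))))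
noncomputable def xc88 : XT := (XT.nd (nat_lit 1716) (nat_lit 2204) (nat_lit 0) (XT.nd (nat_lit 858) (nat_lit 1672) (nat_lit 0) (XT.nd (nat_lit 390) (nat_lit 1748) (nat_lit 0) (XT.nd (nat_lit 156) (nat_lit 532) (nat_lit 0) (XT.nd (nat_lit 78) (nat_lit 456) (nat_lit 0) (XT.lf (nat_lit 0) (nat_lit 1671357400) (nat_lit 608) (nat_lit 3258488243) (nat_lit 76) (nat_lit 2983433286) (nat_lit 114) (nat_lit 5) (nat_lit 122) (nat_lit 5) (nat_lit 115) (nat_lit 5) (nat_lit 293) (nat_lit 252) (nat_lit 235)) (XT.lf (nat_lit 0) (nat_lit 1214859637) (nat_lit 456) (nat_lit 2988519415) (nat_lit 532) (nat_lit 3812304723) (nat_lit 108) (nat_lit 5) (nat_lit 114) (nat_lit 5) (nat_lit 115) (nat_lit 5) (nat_lit 294) (nat_lit 252) (nat_lit 234))) (XT.nd (nat_lit 78) (nat_lit 532) (nat_lit 0) (XT.lf (nat_lit 0) (nat_lit 5816534721) (nat_lit 456) (nat_lit 961458853) (nat_lit 532) (nat_lit 1344357483) (nat_lit 108) (nat_lit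 5) (nat_lit 114) (nat_lit 5) (nat_lit 115) (nat_lit 5) (nat_lit 295) (nat_lit 252) (nat_lit 233)) (XT.nd (nat_lit 78) (nat_lit 0) (nat_lit 0) (XT.lf (nat_lit 0) (nat_lit 1142157979) (nat_lit 532) (nat_lit 5959348320) (nat_lit 76) (nat_lit 1131508086) (nat_lit 101) (nat_lit 5) (nat_lit 108) (nat_lit 5) (nat_lit 102) (nat_lit 5) (nat_lit 296) (nat_lit 252) (nat_lit 232)) (XT.lf (nat_lit 0) (nat_lit 3645265093) (nat_lit 532) (nat_lit 1404901795) (nat_lit 76) (nat_lit 3297534117) (nat_lit 101) (nat_lit 5) (nat_lit 108) (nat_lit 5) (nat_lit 102) (nat_lit 5) (nat_lit 297) (nat_lit 252) (nat_lit 231))))) (XT.nd (nat_lit 234) (nat_lit 836) (nat_lit 0) (XT.nd (nat_lit 78) (nat_lit 532) (nat_lit 0) (XT.lf (nat_lit 0) (nat_lit 3278956335) (nat_lit 380) (nat_lit 2913875300) (nat_lit 456) (nat_lit 2274083754) (nat_lit 96) (nat_lit 5) (nat_lit 101) (nat_lit 5) (nat_lit 102) (nat_lit 5) (nat_lit 298) (nat_lit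 252) (nat_lit 230)) (XT.nd (nat_lit 78) (nat_lit 456) (nat_lit 0) (XT.lf (nat_lit 0) (nat_lit 175229442) (nat_lit 456) (nat_lit 531371033) (nat_lit 76) (nat_lit 7884622462) (nat_lit 95) (nat_lit 5) (nat_lit 101) (nat_lit 5) (nat_lit 96) (nat_lit 5) (nat_lit 299) (nat_lit 252) (nat_lit 229)) (XT.lf (nat_lit 0) (nat_lit 2648833260) (nat_lit 532) (nat_lit 4479266182) (nat_lit 76) (nat_lit 1590743141) (nat_lit 89) (nat_lit 5) (nat_lit 96) (nat_lit 5) (nat_lit 90) (nat_lit 5) (nat_lit 300) (nat_lit 252) (nat_lit 228)))) (XT.nd (nat_lit 78) (nat_lit 456) (nat_lit 0) (XT.lf (nat_lit 0) (nat_lit 241135276) (nat_lit 380) (nat_lit 4911242105) (nat_lit 456) (nat_lit 3699390873) (nat_lit 84) (nat_lit 5) (nat_lit 89) (nat_lit 5) (nat_lit 90) (nat_lit 5) (nat_lit 301) (nat_lit 252) (nat_lit 227)) (XT.nd (nat_lit 78) (nat_lit 456) (nat_lit 0) (XT.lf (nat_lit 0) (nat_lit 5124728824) (nat_lit 380) (nat_lit 2593573353)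 (nat_lit 456) (nat_lit 1270906338) (nat_lit 84) (nat_lit 5) (nat_lit 89) (nat_lit 5) (nat_lit 90) (nat_lit 5) (nat_lit 302) (nat_lit 252) (nat_lit 226)) (XT.lf (nat_lit 0) (nat_lit 961528291) (nat_lit 380) (nat_lit 197172490) (nat_lit 456) (nat_lit 7973284751) (nat_lit 78) (nat_lit 5) (nat_lit 83) (nat_lit 5) (nat_lit 84) (nat_lit 5) (nat_lit 303) (nat_lit 252) (nat_lit 225)))))) (XT.nd (nat_lit 390) (nat_lit 912) (nat_lit 0) (XT.nd (nat_lit 156) (nat_lit 456) (nat_lit 0) (XT.nd (nat_lit 78) (nat_lit 304) (nat_lit 0) (XT.lf (nat_lit 0) (nat_lit 3640803781) (nat_lit 456) (nat_lit 3371614202) (nat_lit 76) (nat_lit 2266228572) (nat_lit 78) (nat_lit 5) (nat_lit 84) (nat_lit 5) (nat_lit 79) (nat_lit 5) (nat_lit 304) (nat_lit 252) (nat_lit 224)) (XT.lf (nat_lit 0) (nat_lit 1530691215) (nat_lit 304) (nat_lit 4628888667) (nat_lit 380) (nat_lit 3271390102) (nat_lit 74) (nat_lit 5) (nat_lit 78) (nat_lit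 5) (nat_lit 79) (nat_lit 5) (nat_lit 305) (nat_lit 252) (nat_lit 223))) (XT.nd (nat_lit 78) (nat_lit 456) (nat_lit 0) (XT.lf (nat_lit 0) (nat_lit 6581431356) (nat_lit 304) (nat_lit 2153013325) (nat_lit 380) (nat_lit 854127793) (nat_lit 74) (nat_lit 5) (nat_lit 78) (nat_lit 5) (nat_lit 79) (nat_lit 5) (nat_lit 306) (nat_lit 252) (nat_lit 222)) (XT.nd (nat_lit 78) (nat_lit 0) (nat_lit 0) (XT.lf (nat_lit 0) (nat_lit 1574282432) (nat_lit 456) (nat_lit 7766639744) (nat_lit 76) (nat_lit 410510690) (nat_lit 68) (nat_lit 5) (nat_lit 74) (nat_lit 5) (nat_lit 69) (nat_lit 5) (nat_lit 307) (nat_lit 252) (nat_lit 221)) (XT.lf (nat_lit 0) (nat_lit 4058520272) (nat_lit 456) (nat_lit 2828023305) (nat_lit 76) (nat_lit 3032492022) (nat_lit 68) (nat_lit 5) (nat_lit 74) (nat_lit 5) (nat_lit 69) (nat_lit 5) (nat_lit 308) (nat_lit 252) (nat_lit 220))))) (XT.nd (nat_lit 234) (nat_lit 228) (nat_lit 0) (XT.nd (nat_lit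 78) (nat_lit 380) (nat_lit 0) (XT.lf (nat_lit 0) (nat_lit 2236560287) (nat_lit 304) (nat_lit 4351892673) (nat_lit 380) (nat_lit 3504189592) (nat_lit 64) (nat_lit 5) (nat_lit 68) (nat_lit 5) (nat_lit 69) (nat_lit 5) (nat_lit 309) (nat_lit 252) (nat_lit 219)) (XT.nd (nat_lit 78) (nat_lit 380) (nat_lit 0) (XT.lf (nat_lit 0) (nat_lit 7445863844) (nat_lit 304) (nat_lit 1727485128) (nat_lit 380) (nat_lit 1098844712) (nat_lit 64) (nat_lit 5) (nat_lit 68) (nat_lit 5) (nat_lit 69) (nat_lit 5) (nat_lit 310) (nat_lit 252) (nat_lit 218)) (XT.lf (nat_lit 0) (nat_lit 1335028958) (nat_lit 380) (nat_lit 8145190960) (nat_lit 76) (nat_lit 977117461) (nat_lit 59) (nat_lit 5) (nat_lit 64) (nat_lit 5) (nat_lit 60) (nat_lit 5) (nat_lit 311) (nat_lit 252) (nat_lit 217)))) (XT.nd (nat_lit 78) (nat_lit 228) (nat_lit 0) (XT.lf (nat_lit 0) (nat_lit 3817781713) (nat_lit 380) (nat_lit 3077841011) (nat_lit 76) (nat_lit 3752246585)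 (nat_lit 59) (nat_lit 5) (nat_lit 64) (nat_lit 5) (nat_lit 60) (nat_lit 5) (nat_lit 312) (nat_lit 252) (nat_lit 216)) (XT.nd (nat_lit 78) (nat_lit 0) (nat_lit 0) (XT.lf (nat_lit 0) (nat_lit 2119678644) (nat_lit 228) (nat_lit 4229133260) (nat_lit 304) (nat_lit 4496187343) (nat_lit 56) (nat_lit 5) (nat_lit 59) (nat_lit 5) (nat_lit 60) (nat_lit 5) (nat_lit 313) (nat_lit 252) (nat_lit 215)) (XT.lf (nat_lit 0) (nat_lit 7473622995) (nat_lit 228) (nat_lit 1467404407) (nat_lit 304) (nat_lit 2107551151) (nat_lit 56) (nat_lit 5) (nat_lit 59) (nat_lit 5) (nat_lit 60) (nat_lit 5) (nat_lit 314) (nat_lit 252) (nat_lit 214))))))) (XT.nd (nat_lit 858) (nat_lit 760) (nat_lit 0) (XT.nd (nat_lit 390) (nat_lit 836) (nat_lit 0) (XT.nd (nat_lit 156) (nat_lit 228) (nat_lit 0) (XT.nd (nat_lit 78) (nat_lit 0) (nat_lit 0) (XT.lf (nat_lit 0) (nat_lit 330434557) (nat_lit 380) (nat_lit 9574477120) (nat_lit 76) (nat_lit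 1353802383) (nat_lit 51) (nat_lit 5) (nat_lit 56) (nat_lit 5) (nat_lit 52) (nat_lit 5) (nat_lit 315) (nat_lit 252) (nat_lit 213)) (XT.lf (nat_lit 0) (nat_lit 2805727683) (nat_lit 380) (nat_lit 4397736284) (nat_lit 76) (nat_lit 4270953036) (nat_lit 51) (nat_lit 5) (nat_lit 56) (nat_lit 5) (nat_lit 52) (nat_lit 5) (nat_lit 316) (nat_lit 252) (nat_lit 212))) (XT.nd (nat_lit 78) (nat_lit 0) (nat_lit 0) (XT.lf (nat_lit 0) (nat_lit 891112162) (nat_lit 228) (nat_lit 4429569583) (nat_lit 304) (nat_lit 6377029945) (nat_lit 48) (nat_lit 5) (nat_lit 51) (nat_lit 5) (nat_lit 52) (nat_lit 5) (nat_lit 317) (nat_lit 252) (nat_lit 211)) (XT.nd (nat_lit 78) (nat_lit 0) (nat_lit 0) (XT.lf (nat_lit 0) (nat_lit 6368785877) (nat_lit 228) (nat_lit 1544223835) (nat_lit 304) (nat_lit 4014718058) (nat_lit 48) (nat_lit 5) (nat_lit 51) (nat_lit 5) (nat_lit 52) (nat_lit 5) (nat_lit 318) (nat_lit 252) (nat_lit 210)) (XT.lf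 (nat_lit 0) (nat_lit 10555422039) (nat_lit 304) (nat_lit 226972455) (nat_lit 76) (nat_lit 1383158374) (nat_lit 48) (nat_lit 5) (nat_lit 52) (nat_lit 5) (nat_lit 49) (nat_lit 5) (nat_lit 319) (nat_lit 252) (nat_lit 209))))) (XT.nd (nat_lit 234) (nat_lit 304) (nat_lit 0) (XT.nd (nat_lit 78) (nat_lit 228) (nat_lit 0) (XT.lf (nat_lit 0) (nat_lit 875854919) (nat_lit 304) (nat_lit 7123062079) (nat_lit 76) (nat_lit 4410634172) (nat_lit 44) (nat_lit 5) (nat_lit 48) (nat_lit 5) (nat_lit 45) (nat_lit 5) (nat_lit 320) (nat_lit 252) (nat_lit 208)) (XT.nd (nat_lit 78) (nat_lit 228) (nat_lit 0) (XT.lf (nat_lit 0) (nat_lit 3366327877) (nat_lit 304) (nat_lit 1764725282) (nat_lit 76) (nat_lit 7530541270) (nat_lit 44) (nat_lit 5) (nat_lit 48) (nat_lit 5) (nat_lit 45) (nat_lit 5) (nat_lit 321) (nat_lit 252) (nat_lit 207)) (XT.lf (nat_lit 0) (nat_lit 3771681845) (nat_lit 228) (nat_lit 2157210252) (nat_lit 304)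 (nat_lit 6992454853) (nat_lit 41) (nat_lit 5) (nat_lit 44) (nat_lit 5) (nat_lit 45) (nat_lit 5) (nat_lit 322) (nat_lit 252) (nat_lit 206)))) (XT.nd (nat_lit 78) (nat_lit 304) (nat_lit 0) (XT.lf (nat_lit 0) (nat_lit 8556587885) (nat_lit 304) (nat_lit 3743660257) (nat_lit 76) (nat_lit 889063526) (nat_lit 41) (nat_lit 5) (nat_lit 45) (nat_lit 5) (nat_lit 42) (nat_lit 5) (nat_lit 323) (nat_lit 252) (nat_lit 205)) (XT.nd (nat_lit 78) (nat_lit 76) (nat_lit 0) (XT.lf (nat_lit 0) (nat_lit 1782834242) (nat_lit 228) (nat_lit 9481446778) (nat_lit 304) (nat_lit 2201064612) (nat_lit 38) (nat_lit 5) (nat_lit 41) (nat_lit 5) (nat_lit 42) (nat_lit 5) (nat_lit 324) (nat_lit 252) (nat_lit 204)) (XT.lf (nat_lit 0) (nat_lit 298605691) (nat_lit 304) (nat_lit 6255336571) (nat_lit 76) (nat_lit 7195662832) (nat_lit 37) (nat_lit 5) (nat_lit 41) (nat_lit 5) (nat_lit 38) (nat_lit 5) (nat_lit 325) (nat_lit 252) (nat_lit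 203)))))) (XT.nd (nat_lit 468) (nat_lit 304) (nat_lit 0) (XT.nd (nat_lit 234) (nat_lit 304) (nat_lit 0) (XT.nd (nat_lit 78) (nat_lit 152) (nat_lit 0) (XT.lf (nat_lit 0) (nat_lit 2792916863) (nat_lit 304) (nat_lit 740908992) (nat_lit 76) (nat_lit 10509055761) (nat_lit 37) (nat_lit 5) (nat_lit 41) (nat_lit 5) (nat_lit 38) (nat_lit 5) (nat_lit 326) (nat_lit 252) (nat_lit 202)) (XT.nd (nat_lit 78) (nat_lit 0) (nat_lit 0) (XT.lf (nat_lit 0) (nat_lit 4984003618) (nat_lit 152) (nat_lit 390904772) (nat_lit 228) (nat_lit 8969720532) (nat_lit 35) (nat_lit 5) (nat_lit 37) (nat_lit 5) (nat_lit 38) (nat_lit 5) (nat_lit 327) (nat_lit 252) (nat_lit 201)) (XT.lf (nat_lit 0) (nat_lit 8034576901) (nat_lit 228) (nat_lit 3839406447) (nat_lit 76) (nat_lit 2781495112) (nat_lit 35) (nat_lit 5) (nat_lit 38) (nat_lit 5) (nat_lit 36) (nat_lit 5) (nat_lit 328) (nat_lit 252) (nat_lit 200)))) (XT.nd (nat_lit 78) (nat_lit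 76) (nat_lit 0) (XT.lf (nat_lit 0) (nat_lit 1828166062) (nat_lit 228) (nat_lit 8933624865) (nat_lit 304) (nat_lit 4214284578) (nat_lit 32) (nat_lit 5) (nat_lit 35) (nat_lit 5) (nat_lit 36) (nat_lit 5) (nat_lit 329) (nat_lit 252) (nat_lit 199)) (XT.nd (nat_lit 78) (nat_lit 76) (nat_lit 0) (XT.lf (nat_lit 0) (nat_lit 7693883991) (nat_lit 228) (nat_lit 5882514481) (nat_lit 304) (nat_lit 1729777774) (nat_lit 32) (nat_lit 5) (nat_lit 35) (nat_lit 5) (nat_lit 36) (nat_lit 5) (nat_lit 330) (nat_lit 252) (nat_lit 198)) (XT.lf (nat_lit 0) (nat_lit 780486100) (nat_lit 304) (nat_lit 1968389173) (nat_lit 76) (nat_lit 12898093527) (nat_lit 31) (nat_lit 5) (nat_lit 35) (nat_lit 5) (nat_lit 32) (nat_lit 5) (nat_lit 331) (nat_lit 252) (nat_lit 197))))) (XT.nd (nat_lit 234) (nat_lit 152) (nat_lit 0) (XT.nd (nat_lit 78) (nat_lit 0) (nat_lit 0) (XT.lf (nat_lit 0) (nat_lit 3341674690) (nat_lit 228) (nat_lit 12147775349)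 (nat_lit 76) (nat_lit 507758377) (nat_lit 29) (nat_lit 5) (nat_lit 32) (nat_lit 5) (nat_lit 30) (nat_lit 5) (nat_lit 332) (nat_lit 252) (nat_lit 196)) (XT.nd (nat_lit 78) (nat_lit 0) (nat_lit 0) (XT.lf (nat_lit 0) (nat_lit 5995643298) (nat_lit 228) (nat_lit 6551340765) (nat_lit 76) (nat_lit 3810540000) (nat_lit 29) (nat_lit 5) (nat_lit 32) (nat_lit 5) (nat_lit 30) (nat_lit 5) (nat_lit 333) (nat_lit 252) (nat_lit 195)) (XT.lf (nat_lit 0) (nat_lit 8698798054) (nat_lit 228) (nat_lit 834302937) (nat_lit 76) (nat_lit 7196506976) (nat_lit 29) (nat_lit 5) (nat_lit 32) (nat_lit 5) (nat_lit 30) (nat_lit 5) (nat_lit 334) (nat_lit 252) (nat_lit 194)))) (XT.nd (nat_lit 78) (nat_lit 0) (nat_lit 0) (XT.lf (nat_lit 0) (nat_lit 5108009262) (nat_lit 152) (nat_lit 6394592986) (nat_lit 228) (nat_lit 5609709964) (nat_lit 27) (nat_lit 5) (nat_lit 29) (nat_lit 5) (nat_lit 30) (nat_lit 5) (nat_lit 335) (nat_lit 252)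 (nat_lit 193)) (XT.nd (nat_lit 78) (nat_lit 0) (nat_lit 0) (XT.lf (nat_lit 0) (nat_lit 11200230920) (nat_lit 152) (nat_lit 3169591522) (nat_lit 228) (nat_lit 3137339254) (nat_lit 27) (nat_lit 5) (nat_lit 29) (nat_lit 5) (nat_lit 30) (nat_lit 5) (nat_lit 336) (nat_lit 252) (nat_lit 192)) (XT.lf (nat_lit 0) (nat_lit 17296094703) (nat_lit 228) (nat_lit 484975914) (nat_lit 76) (nat_lit 133636900) (nat_lit 27) (nat_lit 5) (nat_lit 30) (nat_lit 5) (nat_lit 28) (nat_lit 4) (nat_lit 337) (nat_lit 252) (nat_lit 191))))))))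
noncomputable def xc89 : XT := (XT.nd (nat_lit 1716) (nat_lit 532) (nat_lit 0) (XT.nd (nat_lit 858) (nat_lit 304) (nat_lit 0) (XT.nd (nat_lit 390) (nat_lit 380) (nat_lit 0) (XT.nd (nat_lit 156) (nat_lit 152) (nat_lit 0) (XT.nd (nat_lit 78) (nat_lit 0) (nat_lit 0) (XT.lf (nat_lit 0) (nat_lit 1994731885) (nat_lit 228) (nat_lit 12807476621) (nat_lit 76) (nat_lit 3530012702) (nat_lit 24) (nat_lit 5) (nat_lit 27) (nat_lit 5) (nat_lit 25) (nat_lit 5) (nat_lit 338) (nat_lit 252) (nat_lit 190)) (XT.lf (nat_lit 0) (nat_lit 4651471010) (nat_lit 228) (nat_lit 7087316158) (nat_lit 76) (nat_lit 7024004923) (nat_lit 24) (nat_lit 5) (nat_lit 27) (nat_lit 5) (nat_lit 25) (nat_lit 5) (nat_lit 339) (nat_lit 252) (nat_lit 189))) (XT.nd (nat_lit 78) (nat_lit 152) (nat_lit 0) (XT.lf (nat_lit 0) (nat_lit 7361195604) (nat_lit 228) (nat_lit 1238004897) (nat_lit 76) (nat_lit 10607918341) (nat_lit 24) (nat_lit 5) (nat_lit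 27) (nat_lit 5) (nat_lit 25) (nat_lit 5) (nat_lit 340) (nat_lit 252) (nat_lit 188)) (XT.nd (nat_lit 78) (nat_lit 0) (nat_lit 0) (XT.lf (nat_lit 0) (nat_lit 4840014322) (nat_lit 152) (nat_lit 5332784244) (nat_lit 228) (nat_lit 9491395386) (nat_lit 22) (nat_lit 5) (nat_lit 24) (nat_lit 5) (nat_lit 25) (nat_lit 5) (nat_lit 341) (nat_lit 252) (nat_lit 187)) (XT.lf (nat_lit 0) (nat_lit 11084938607) (nat_lit 152) (nat_lit 1970737052) (nat_lit 228) (nat_lit 7079732976) (nat_lit 22) (nat_lit 5) (nat_lit 24) (nat_lit 5) (nat_lit 25) (nat_lit 5) (nat_lit 342) (nat_lit 252) (nat_lit 186))))) (XT.nd (nat_lit 234) (nat_lit 152) (nat_lit 0) (XT.nd (nat_lit 78) (nat_lit 228) (nat_lit 0) (XT.lf (nat_lit 0) (nat_lit 16014410056) (nat_lit 228) (nat_lit 3158154246) (nat_lit 76) (nat_lit 1448548408) (nat_lit 22) (nat_lit 5) (nat_lit 25) (nat_lit 5) (nat_lit 23) (nat_lit 4) (nat_lit 343) (nat_lit 252) (nat_lit 185))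 (XT.nd (nat_lit 78) (nat_lit 76) (nat_lit 0) (XT.lf (nat_lit 0) (nat_lit 2909096943) (nat_lit 152) (nat_lit 16176040490) (nat_lit 228) (nat_lit 2035586632) (nat_lit 20) (nat_lit 5) (nat_lit 22) (nat_lit 5) (nat_lit 23) (nat_lit 4) (nat_lit 344) (nat_lit 252) (nat_lit 184)) (XT.lf (nat_lit 0) (nat_lit 608735086) (nat_lit 228) (nat_lit 12456685296) (nat_lit 76) (nat_lit 8569517063) (nat_lit 19) (nat_lit 5) (nat_lit 22) (nat_lit 5) (nat_lit 20) (nat_lit 5) (nat_lit 345) (nat_lit 252) (nat_lit 183)))) (XT.nd (nat_lit 78) (nat_lit 152) (nat_lit 0) (XT.lf (nat_lit 0) (nat_lit 3267997991) (nat_lit 228) (nat_lit 6587325227) (nat_lit 76) (nat_lit 12309383914) (nat_lit 19) (nat_lit 5) (nat_lit 22) (nat_lit 5) (nat_lit 20) (nat_lit 5) (nat_lit 346) (nat_lit 252) (nat_lit 182)) (XT.nd (nat_lit 78) (nat_lit 152) (nat_lit 0) (XT.lf (nat_lit 0) (nat_lit 5984247336) (nat_lit 228) (nat_lit 578851046) (nat_lit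 76) (nat_lit 16147984668) (nat_lit 19) (nat_lit 5) (nat_lit 22) (nat_lit 5) (nat_lit 20) (nat_lit 5) (nat_lit 347) (nat_lit 252) (nat_lit 181)) (XT.lf (nat_lit 0) (nat_lit 5684920649) (nat_lit 152) (nat_lit 3129582830) (nat_lit 228) (nat_lit 14458399729) (nat_lit 17) (nat_lit 5) (nat_lit 19) (nat_lit 5) (nat_lit 20) (nat_lit 5) (nat_lit 348) (nat_lit 252) (nat_lit 180)))))) (XT.nd (nat_lit 390) (nat_lit 228) (nat_lit 0) (XT.nd (nat_lit 156) (nat_lit 76) (nat_lit 0) (XT.nd (nat_lit 78) (nat_lit 0) (nat_lit 0) (XT.lf (nat_lit 0) (nat_lit 11717525620) (nat_lit 228) (nat_lit 11742989608) (nat_lit 76) (nat_lit 391454702) (nat_lit 17) (nat_lit 5) (nat_lit 20) (nat_lit 5) (nat_lit 18) (nat_lit 4) (nat_lit 349) (nat_lit 252) (nat_lit 179)) (XT.lf (nat_lit 0) (nat_lit 14717307346) (nat_lit 228) (nat_lit 5788670465) (nat_lit 76) (nat_lit 3942167679) (nat_lit 17) (nat_lit 5) (nat_lit 20) (nat_lit 5) (nat_lit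 18) (nat_lit 4) (nat_lit 350) (nat_lit 252) (nat_lit 178))) (XT.nd (nat_lit 78) (nat_lit 0) (nat_lit 0) (XT.lf (nat_lit 0) (nat_lit 316435941) (nat_lit 76) (nat_lit 17472992194) (nat_lit 152) (nat_lit 7273333932) (nat_lit 16) (nat_lit 5) (nat_lit 17) (nat_lit 5) (nat_lit 18) (nat_lit 4) (nat_lit 351) (nat_lit 252) (nat_lit 177)) (XT.nd (nat_lit 78) (nat_lit 0) (nat_lit 0) (XT.lf (nat_lit 0) (nat_lit 6689673996) (nat_lit 76) (nat_lit 14302075624) (nat_lit 152) (nat_lit 4702951767) (nat_lit 16) (nat_lit 5) (nat_lit 17) (nat_lit 5) (nat_lit 18) (nat_lit 4) (nat_lit 352) (nat_lit 252) (nat_lit 176)) (XT.lf (nat_lit 0) (nat_lit 13221406655) (nat_lit 76) (nat_lit 11048911619) (nat_lit 152) (nat_lit 2075899908) (nat_lit 16) (nat_lit 5) (nat_lit 17) (nat_lit 5) (nat_lit 18) (nat_lit 4) (nat_lit 353) (nat_lit 252) (nat_lit 175))))) (XT.nd (nat_lit 234) (nat_lit 0) (nat_lit 0) (XT.nd (nat_lit 78) (nat_lit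 152) (nat_lit 0) (XT.lf (nat_lit 0) (nat_lit 598211545) (nat_lit 152) (nat_lit 7106405299) (nat_lit 76) (nat_lit 19313088947) (nat_lit 15) (nat_lit 5) (nat_lit 17) (nat_lit 5) (nat_lit 16) (nat_lit 5) (nat_lit 354) (nat_lit 252) (nat_lit 174)) (XT.nd (nat_lit 78) (nat_lit 152) (nat_lit 0) (XT.lf (nat_lit 0) (nat_lit 3291930476) (nat_lit 152) (nat_lit 959224152) (nat_lit 76) (nat_lit 23458156099) (nat_lit 15) (nat_lit 5) (nat_lit 17) (nat_lit 5) (nat_lit 16) (nat_lit 5) (nat_lit 355) (nat_lit 252) (nat_lit 173)) (XT.lf (nat_lit 0) (nat_lit 5448375487) (nat_lit 152) (nat_lit 652116533) (nat_lit 228) (nat_lit 22320172732) (nat_lit 13) (nat_lit 5) (nat_lit 15) (nat_lit 5) (nat_lit 16) (nat_lit 5) (nat_lit 356) (nat_lit 252) (nat_lit 172)))) (XT.nd (nat_lit 78) (nat_lit 0) (nat_lit 0) (XT.lf (nat_lit 0) (nat_lit 9014247126) (nat_lit 228) (nat_lit 17145130653) (nat_lit 76) (nat_lit 2993374756) (nat_lit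 13) (nat_lit 5) (nat_lit 16) (nat_lit 5) (nat_lit 14) (nat_lit 4) (nat_lit 357) (nat_lit 252) (nat_lit 171)) (XT.nd (nat_lit 78) (nat_lit 0) (nat_lit 0) (XT.lf (nat_lit 0) (nat_lit 12004190931) (nat_lit 228) (nat_lit 11179193213) (nat_lit 76) (nat_lit 6723776146) (nat_lit 13) (nat_lit 5) (nat_lit 16) (nat_lit 5) (nat_lit 14) (nat_lit 4) (nat_lit 358) (nat_lit 252) (nat_lit 170)) (XT.lf (nat_lit 0) (nat_lit 15066667463) (nat_lit 228) (nat_lit 5062995446) (nat_lit 76) (nat_lit 10555072352) (nat_lit 13) (nat_lit 5) (nat_lit 16) (nat_lit 5) (nat_lit 14) (nat_lit 4) (nat_lit 359) (nat_lit 252) (nat_lit 169))))))) (XT.nd (nat_lit 858) (nat_lit 228) (nat_lit 0) (XT.nd (nat_lit 390) (nat_lit 228) (nat_lit 0) (XT.nd (nat_lit 156) (nat_lit 0) (nat_lit 0) (XT.nd (nat_lit 78) (nat_lit 0) (nat_lit 0) (XT.lf (nat_lit 0) (nat_lit 1232864523) (nat_lit 76) (nat_lit 16983339199) (nat_lit 152) (nat_lit 13269597633)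 (nat_lit 12) (nat_lit 5) (nat_lit 13) (nat_lit 5) (nat_lit 14) (nat_lit 4) (nat_lit 360) (nat_lit 252) (nat_lit 168)) (XT.lf (nat_lit 0) (nat_lit 7793778726) (nat_lit 76) (nat_lit 13701128073) (nat_lit 152) (nat_lit 10814971079) (nat_lit 12) (nat_lit 5) (nat_lit 13) (nat_lit 5) (nat_lit 14) (nat_lit 4) (nat_lit 361) (nat_lit 252) (nat_lit 167))) (XT.nd (nat_lit 78) (nat_lit 0) (nat_lit 0) (XT.lf (nat_lit 0) (nat_lit 14524716461) (nat_lit 76) (nat_lit 10331287909) (nat_lit 152) (nat_lit 8303169644) (nat_lit 12) (nat_lit 5) (nat_lit 13) (nat_lit 5) (nat_lit 14) (nat_lit 4) (nat_lit 362) (nat_lit 252) (nat_lit 166)) (XT.nd (nat_lit 78) (nat_lit 0) (nat_lit 0) (XT.lf (nat_lit 0) (nat_lit 21431559131) (nat_lit 76) (nat_lit 6870874185) (nat_lit 152) (nat_lit 5731998551) (nat_lit 12) (nat_lit 5) (nat_lit 13) (nat_lit 5) (nat_lit 14) (nat_lit 4) (nat_lit 363) (nat_lit 252) (nat_lit 165)) (XT.lf (nat_lit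 0) (nat_lit 28520341841) (nat_lit 76) (nat_lit 3316863240) (nat_lit 152) (nat_lit 3099211144) (nat_lit 12) (nat_lit 5) (nat_lit 13) (nat_lit 5) (nat_lit 14) (nat_lit 4) (nat_lit 364) (nat_lit 252) (nat_lit 164))))) (XT.nd (nat_lit 234) (nat_lit 0) (nat_lit 0) (XT.nd (nat_lit 78) (nat_lit 228) (nat_lit 0) (XT.lf (nat_lit 0) (nat_lit 35466617474) (nat_lit 152) (nat_lit 71865731) (nat_lit 0) (nat_lit 327335750) (nat_lit 12) (nat_lit 5) (nat_lit 14) (nat_lit 4) (nat_lit 12) (nat_lit 4) (nat_lit 365) (nat_lit 252) (nat_lit 163)) (XT.nd (nat_lit 78) (nat_lit 0) (nat_lit 0) (XT.lf (nat_lit 0) (nat_lit 2417482607) (nat_lit 228) (nat_lit 30311229961) (nat_lit 76) (nat_lit 4091255584) (nat_lit 9) (nat_lit 5) (nat_lit 12) (nat_lit 5) (nat_lit 10) (nat_lit 4) (nat_lit 366) (nat_lit 252) (nat_lit 162)) (XT.lf (nat_lit 0) (nat_lit 5297128732) (nat_lit 228) (nat_lit 24542672532) (nat_lit 76) (nat_lit 7963242776)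 (nat_lit 9) (nat_lit 5) (nat_lit 12) (nat_lit 5) (nat_lit 10) (nat_lit 4) (nat_lit 367) (nat_lit 252) (nat_lit 161)))) (XT.nd (nat_lit 78) (nat_lit 0) (nat_lit 0) (XT.lf (nat_lit 0) (nat_lit 8249331405) (nat_lit 228) (nat_lit 18624578975) (nat_lit 76) (nat_lit 11942131707) (nat_lit 9) (nat_lit 5) (nat_lit 12) (nat_lit 5) (nat_lit 10) (nat_lit 4) (nat_lit 368) (nat_lit 252) (nat_lit 160)) (XT.nd (nat_lit 78) (nat_lit 0) (nat_lit 0) (XT.lf (nat_lit 0) (nat_lit 11276670221) (nat_lit 228) (nat_lit 12551778140) (nat_lit 76) (nat_lit 16031399074) (nat_lit 9) (nat_lit 5) (nat_lit 12) (nat_lit 5) (nat_lit 10) (nat_lit 4) (nat_lit 369) (nat_lit 252) (nat_lit 159)) (XT.lf (nat_lit 0) (nat_lit 14381790427) (nat_lit 228) (nat_lit 6318963695) (nat_lit 76) (nat_lit 20234618025) (nat_lit 9) (nat_lit 5) (nat_lit 12) (nat_lit 5) (nat_lit 10) (nat_lit 4) (nat_lit 370) (nat_lit 252) (nat_lit 158)))))) (XT.nd (nat_lit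 468) (nat_lit 152) (nat_lit 0) (XT.nd (nat_lit 234) (nat_lit 0) (nat_lit 0) (XT.nd (nat_lit 78) (nat_lit 0) (nat_lit 0) (XT.lf (nat_lit 0) (nat_lit 80888942) (nat_lit 76) (nat_lit 17487293846) (nat_lit 152) (nat_lit 24475349886) (nat_lit 8) (nat_lit 5) (nat_lit 9) (nat_lit 5) (nat_lit 10) (nat_lit 4) (nat_lit 371) (nat_lit 252) (nat_lit 157)) (XT.nd (nat_lit 78) (nat_lit 0) (nat_lit 0) (XT.lf (nat_lit 0) (nat_lit 6780956070) (nat_lit 76) (nat_lit 14120524819) (nat_lit 152) (nat_lit 22281930944) (nat_lit 8) (nat_lit 5) (nat_lit 9) (nat_lit 5) (nat_lit 10) (nat_lit 4) (nat_lit 372) (nat_lit 252) (nat_lit 156)) (XT.lf (nat_lit 0) (nat_lit 13661332348) (nat_lit 76) (nat_lit 10661314347) (nat_lit 152) (nat_lit 20035217458) (nat_lit 8) (nat_lit 5) (nat_lit 9) (nat_lit 5) (nat_lit 10) (nat_lit 4) (nat_lit 373) (nat_lit 252) (nat_lit 155)))) (XT.nd (nat_lit 78) (nat_lit 0) (nat_lit 0) (XT.lf (nat_lit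 0) (nat_lit 20728029756) (nat_lit 76) (nat_lit 7106639818) (nat_lit 152) (nat_lit 17733246280) (nat_lit 8) (nat_lit 5) (nat_lit 9) (nat_lit 5) (nat_lit 10) (nat_lit 4) (nat_lit 374) (nat_lit 252) (nat_lit 154)) (XT.nd (nat_lit 78) (nat_lit 0) (nat_lit 0) (XT.lf (nat_lit 0) (nat_lit 27987223078) (nat_lit 76) (nat_lit 3453395206) (nat_lit 152) (nat_lit 15374005978) (nat_lit 8) (nat_lit 5) (nat_lit 9) (nat_lit 5) (nat_lit 10) (nat_lit 4) (nat_lit 375) (nat_lit 252) (nat_lit 153)) (XT.lf (nat_lit 0) (nat_lit 35146542930) (nat_lit 152) (nat_lit 12656722714) (nat_lit 0) (nat_lit 295726114) (nat_lit 8) (nat_lit 5) (nat_lit 10) (nat_lit 4) (nat_lit 8) (nat_lit 4) (nat_lit 376) (nat_lit 252) (nat_lit 152))))) (XT.nd (nat_lit 234) (nat_lit 76) (nat_lit 0) (XT.nd (nat_lit 78) (nat_lit 76) (nat_lit 0) (XT.lf (nat_lit 0) (nat_lit 38986985777) (nat_lit 152) (nat_lit 6353762909) (nat_lit 0) (nat_lit 4080452794)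 (nat_lit 8) (nat_lit 5) (nat_lit 10) (nat_lit 4) (nat_lit 8) (nat_lit 4) (nat_lit 377) (nat_lit 252) (nat_lit 151)) (XT.nd (nat_lit 78) (nat_lit 0) (nat_lit 0) (XT.lf (nat_lit 0) (nat_lit 122573670) (nat_lit 76) (nat_lit 42810710987) (nat_lit 76) (nat_lit 7850084639) (nat_lit 7) (nat_lit 4) (nat_lit 8) (nat_lit 5) (nat_lit 8) (nat_lit 4) (nat_lit 378) (nat_lit 252) (nat_lit 150)) (XT.lf (nat_lit 0) (nat_lit 6905519875) (nat_lit 76) (nat_lit 40146212211) (nat_lit 76) (nat_lit 5133068032) (nat_lit 7) (nat_lit 4) (nat_lit 8) (nat_lit 5) (nat_lit 8) (nat_lit 4) (nat_lit 379) (nat_lit 252) (nat_lit 149)))) (XT.nd (nat_lit 78) (nat_lit 76) (nat_lit 0) (XT.lf (nat_lit 0) (nat_lit 13874550211) (nat_lit 76) (nat_lit 37409084704) (nat_lit 76) (nat_lit 2344952340) (nat_lit 7) (nat_lit 4) (nat_lit 8) (nat_lit 5) (nat_lit 8) (nat_lit 4) (nat_lit 380) (nat_lit 252) (nat_lit 148)) (XT.nd (nat_lit 78) (nat_lit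 0) (nat_lit 0) (XT.lf (nat_lit 0) (nat_lit 506616003) (nat_lit 152) (nat_lit 34085204969) (nat_lit 76) (nat_lit 20524022289) (nat_lit 6) (nat_lit 5) (nat_lit 8) (nat_lit 5) (nat_lit 7) (nat_lit 4) (nat_lit 381) (nat_lit 252) (nat_lit 147)) (XT.lf (nat_lit 0) (nat_lit 3386977924) (nat_lit 152) (nat_lit 28286131523) (nat_lit 76) (nat_lit 24974209206) (nat_lit 6) (nat_lit 5) (nat_lit 8) (nat_lit 5) (nat_lit 7) (nat_lit 4) (nat_lit 382) (nat_lit 252) (nat_lit 146))))))))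
noncomputable def xc90 : XT := (XT.nd (nat_lit 32604) (nat_lit 0) (nat_lit 6080) (XT.nd (nat_lit 858) (nat_lit 76) (nat_lit 0) (XT.nd (nat_lit 390) (nat_lit 0) (nat_lit 0) (XT.nd (nat_lit 156) (nat_lit 76) (nat_lit 0) (XT.nd (nat_lit 78) (nat_lit 0) (nat_lit 0) (XT.lf (nat_lit 0) (nat_lit 6344408710) (nat_lit 152) (nat_lit 22329208440) (nat_lit 76) (nat_lit 29551410701) (nat_lit 6) (nat_lit 5) (nat_lit 8) (nat_lit 5) (nat_lit 7) (nat_lit 4) (nat_lit 383) (nat_lit 252) (nat_lit 145)) (XT.lf (nat_lit 0) (nat_lit 9381492524) (nat_lit 152) (nat_lit 16209230641) (nat_lit 76) (nat_lit 34259626269) (nat_lit 6) (nat_lit 5) (nat_lit 8) (nat_lit 5) (nat_lit 7) (nat_lit 4) (nat_lit 384) (nat_lit 252) (nat_lit 144))) (XT.nd (nat_lit 78) (nat_lit 76) (nat_lit 0) (XT.lf (nat_lit 0) (nat_lit 12500883127) (nat_lit 152) (nat_lit 9920850572) (nat_lit 76) (nat_lit 39102969885) (nat_lit 6) (nat_lit 5) (nat_lit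 8) (nat_lit 5) (nat_lit 7) (nat_lit 4) (nat_lit 385) (nat_lit 252) (nat_lit 143)) (XT.nd (nat_lit 78) (nat_lit 76) (nat_lit 0) (XT.lf (nat_lit 0) (nat_lit 15705306202) (nat_lit 152) (nat_lit 3458573533) (nat_lit 76) (nat_lit 44085673597) (nat_lit 6) (nat_lit 5) (nat_lit 8) (nat_lit 5) (nat_lit 7) (nat_lit 4) (nat_lit 386) (nat_lit 252) (nat_lit 142)) (XT.lf (nat_lit 0) (nat_lit 3246599985) (nat_lit 76) (nat_lit 15782170049) (nat_lit 152) (nat_lit 45996699544) (nat_lit 5) (nat_lit 5) (nat_lit 6) (nat_lit 5) (nat_lit 7) (nat_lit 4) (nat_lit 387) (nat_lit 252) (nat_lit 141))))) (XT.nd (nat_lit 234) (nat_lit 0) (nat_lit 0) (XT.nd (nat_lit 78) (nat_lit 0) (nat_lit 0) (XT.lf (nat_lit 0) (nat_lit 10209641823) (nat_lit 76) (nat_lit 12269025936) (nat_lit 152) (nat_lit 44375201659) (nat_lit 5) (nat_lit 5) (nat_lit 6) (nat_lit 5) (nat_lit 7) (nat_lit 4) (nat_lit 388) (nat_lit 252) (nat_lit 140)) (XT.nd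 (nat_lit 78) (nat_lit 0) (nat_lit 0) (XT.lf (nat_lit 0) (nat_lit 17367803797) (nat_lit 76) (nat_lit 8656302470) (nat_lit 152) (nat_lit 42713261444) (nat_lit 5) (nat_lit 5) (nat_lit 6) (nat_lit 5) (nat_lit 7) (nat_lit 4) (nat_lit 389) (nat_lit 252) (nat_lit 139)) (XT.lf (nat_lit 0) (nat_lit 24727340612) (nat_lit 76) (nat_lit 4940842903) (nat_lit 152) (nat_lit 41009426718) (nat_lit 5) (nat_lit 5) (nat_lit 6) (nat_lit 5) (nat_lit 7) (nat_lit 4) (nat_lit 390) (nat_lit 252) (nat_lit 138)))) (XT.nd (nat_lit 78) (nat_lit 0) (nat_lit 0) (XT.lf (nat_lit 0) (nat_lit 32294682931) (nat_lit 76) (nat_lit 1119400717) (nat_lit 152) (nat_lit 39262208695) (nat_lit 5) (nat_lit 5) (nat_lit 6) (nat_lit 5) (nat_lit 7) (nat_lit 4) (nat_lit 391) (nat_lit 252) (nat_lit 137)) (XT.nd (nat_lit 78) (nat_lit 0) (nat_lit 0) (XT.lf (nat_lit 0) (nat_lit 37292104325) (nat_lit 152) (nat_lit 34685742007) (nat_lit 0) (nat_lit 2756503390)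 (nat_lit 5) (nat_lit 5) (nat_lit 7) (nat_lit 4) (nat_lit 5) (nat_lit 4) (nat_lit 392) (nat_lit 252) (nat_lit 136)) (XT.lf (nat_lit 0) (nat_lit 41290430199) (nat_lit 152) (nat_lit 28842486528) (nat_lit 0) (nat_lit 6721120067) (nat_lit 5) (nat_lit 5) (nat_lit 7) (nat_lit 4) (nat_lit 5) (nat_lit 4) (nat_lit 393) (nat_lit 252) (nat_lit 135)))))) (XT.nd (nat_lit 31278) (nat_lit 0) (nat_lit 14972) (XT.nd (nat_lit 156) (nat_lit 76) (nat_lit 0) (XT.nd (nat_lit 78) (nat_lit 0) (nat_lit 0) (XT.lf (nat_lit 0) (nat_lit 45401794587) (nat_lit 152) (nat_lit 22835976852) (nat_lit 0) (nat_lit 10799757080) (nat_lit 5) (nat_lit 5) (nat_lit 7) (nat_lit 4) (nat_lit 5) (nat_lit 4) (nat_lit 394) (nat_lit 252) (nat_lit 134)) (XT.lf (nat_lit 0) (nat_lit 49629789946) (nat_lit 152) (nat_lit 16660964574) (nat_lit 0) (nat_lit 14995978287) (nat_lit 5) (nat_lit 5) (nat_lit 7) (nat_lit 4) (nat_lit 5) (nat_lit 4) (nat_lit 395)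 (nat_lit 252) (nat_lit 133))) (XT.nd (nat_lit 78) (nat_lit 76) (nat_lit 0) (XT.lf (nat_lit 0) (nat_lit 53978110639) (nat_lit 152) (nat_lit 10312054051) (nat_lit 0) (nat_lit 19313450290) (nat_lit 5) (nat_lit 5) (nat_lit 7) (nat_lit 4) (nat_lit 5) (nat_lit 4) (nat_lit 396) (nat_lit 252) (nat_lit 132)) (XT.nd (nat_lit 78) (nat_lit 76) (nat_lit 0) (XT.lf (nat_lit 0) (nat_lit 58450556170) (nat_lit 152) (nat_lit 3783697692) (nat_lit 0) (nat_lit 23755945636) (nat_lit 5) (nat_lit 5) (nat_lit 7) (nat_lit 4) (nat_lit 5) (nat_lit 4) (nat_lit 397) (nat_lit 252) (nat_lit 131)) (XT.lf (nat_lit 0) (nat_lit 2988117833) (nat_lit 76) (nat_lit 60091640285) (nat_lit 76) (nat_lit 25367951901) (nat_lit 4) (nat_lit 4) (nat_lit 5) (nat_lit 5) (nat_lit 5) (nat_lit 4) (nat_lit 398) (nat_lit 252) (nat_lit 130))))) (XT.nd (nat_lit 234) (nat_lit 1368) (nat_lit 0) (XT.nd (nat_lit 78) (nat_lit 608) (nat_lit 0) (XT.lf (nat_lit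 0) (nat_lit 1380995366) (nat_lit 532) (nat_lit 575002401) (nat_lit 0) (nat_lit 1380995366) (nat_lit 227) (nat_lit 5) (nat_lit 234) (nat_lit 4) (nat_lit 227) (nat_lit 4) (nat_lit 274) (nat_lit 253) (nat_lit 253)) (XT.nd (nat_lit 78) (nat_lit 76) (nat_lit 0) (XT.lf (nat_lit 0) (nat_lit 2505187382) (nat_lit 532) (nat_lit 3098093620) (nat_lit 532) (nat_lit 1106111584) (nat_lit 220) (nat_lit 4) (nat_lit 227) (nat_lit 5) (nat_lit 227) (nat_lit 4) (nat_lit 275) (nat_lit 253) (nat_lit 252)) (XT.lf (nat_lit 0) (nat_lit 1666386467) (nat_lit 608) (nat_lit 543180648) (nat_lit 76) (nat_lit 4538646785) (nat_lit 219) (nat_lit 5) (nat_lit 227) (nat_lit 5) (nat_lit 220) (nat_lit 4) (nat_lit 276) (nat_lit 253) (nat_lit 251)))) (XT.nd (nat_lit 78) (nat_lit 760) (nat_lit 0) (XT.lf (nat_lit 0) (nat_lit 3207453913) (nat_lit 608) (nat_lit 1231478701) (nat_lit 684) (nat_lit 2351139060) (nat_lit 211) (nat_lit 5) (nat_lit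 219) (nat_lit 5) (nat_lit 220) (nat_lit 4) (nat_lit 277) (nat_lit 253) (nat_lit 250)) (XT.nd (nat_lit 78) (nat_lit 0) (nat_lit 0) (XT.lf (nat_lit 0) (nat_lit 174316409) (nat_lit 684) (nat_lit 194380130) (nat_lit 760) (nat_lit 6467220695) (nat_lit 201) (nat_lit 5) (nat_lit 210) (nat_lit 5) (nat_lit 211) (nat_lit 5) (nat_lit 278) (nat_lit 253) (nat_lit 249)) (XT.lf (nat_lit 0) (nat_lit 3078933684) (nat_lit 760) (nat_lit 2872459066) (nat_lit 76) (nat_lit 932707011) (nat_lit 201) (nat_lit 5) (nat_lit 211) (nat_lit 5) (nat_lit 202) (nat_lit 4) (nat_lit 279) (nat_lit 253) (nat_lit 248))))))) (XT.nd (nat_lit 858) (nat_lit 3420) (nat_lit 0) (XT.nd (nat_lit 390) (nat_lit 2812) (nat_lit 0) (XT.nd (nat_lit 156) (nat_lit 1824) (nat_lit 0) (XT.nd (nat_lit 78) (nat_lit 76) (nat_lit 0) (XT.lf (nat_lit 0) (nat_lit 973874652) (nat_lit 760) (nat_lit 4821604507) (nat_lit 836) (nat_lit 1140830434) (nat_lit 191)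 (nat_lit 5) (nat_lit 201) (nat_lit 5) (nat_lit 202) (nat_lit 4) (nat_lit 280) (nat_lit 253) (nat_lit 247)) (XT.lf (nat_lit 0) (nat_lit 1515815753) (nat_lit 836) (nat_lit 2085292198) (nat_lit 76) (nat_lit 3390518108) (nat_lit 190) (nat_lit 5) (nat_lit 201) (nat_lit 5) (nat_lit 191) (nat_lit 5) (nat_lit 281) (nat_lit 253) (nat_lit 246))) (XT.nd (nat_lit 78) (nat_lit 988) (nat_lit 0) (XT.lf (nat_lit 0) (nat_lit 1860497542) (nat_lit 836) (nat_lit 2303488246) (nat_lit 912) (nat_lit 2886538453) (nat_lit 179) (nat_lit 5) (nat_lit 190) (nat_lit 5) (nat_lit 191) (nat_lit 5) (nat_lit 282) (nat_lit 253) (nat_lit 245)) (XT.nd (nat_lit 78) (nat_lit 988) (nat_lit 0) (XT.lf (nat_lit 0) (nat_lit 5895442998) (nat_lit 836) (nat_lit 935814577) (nat_lit 912) (nat_lit 282036951) (nat_lit 179) (nat_lit 5) (nat_lit 190) (nat_lit 5) (nat_lit 191) (nat_lit 5) (nat_lit 283) (nat_lit 253) (nat_lit 244)) (XT.lf (nat_lit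 0) (nat_lit 2306028351) (nat_lit 988) (nat_lit 4350269708) (nat_lit 76) (nat_lit 522667318) (nat_lit 166) (nat_lit 5) (nat_lit 179) (nat_lit 5) (nat_lit 167) (nat_lit 5) (nat_lit 284) (nat_lit 253) (nat_lit 243))))) (XT.nd (nat_lit 234) (nat_lit 684) (nat_lit 0) (XT.nd (nat_lit 78) (nat_lit 2128) (nat_lit 0) (XT.lf (nat_lit 0) (nat_lit 4909380285) (nat_lit 988) (nat_lit 310544359) (nat_lit 76) (nat_lit 2028568372) (nat_lit 166) (nat_lit 5) (nat_lit 179) (nat_lit 5) (nat_lit 167) (nat_lit 5) (nat_lit 285) (nat_lit 253) (nat_lit 242)) (XT.nd (nat_lit 78) (nat_lit 1064) (nat_lit 0) (XT.lf (nat_lit 0) (nat_lit 225757821) (nat_lit 1064) (nat_lit 3469758761) (nat_lit 76) (nat_lit 3625956747) (nat_lit 152) (nat_lit 5) (nat_lit 166) (nat_lit 5) (nat_lit 153) (nat_lit 5) (nat_lit 286) (nat_lit 253) (nat_lit 241)) (XT.lf (nat_lit 0) (nat_lit 665827918) (nat_lit 1064) (nat_lit 2088758134) (nat_lit 1140)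 (nat_lit 4643588389) (nat_lit 138) (nat_lit 5) (nat_lit 152) (nat_lit 5) (nat_lit 153) (nat_lit 5) (nat_lit 287) (nat_lit 253) (nat_lit 240)))) (XT.nd (nat_lit 78) (nat_lit 684) (nat_lit 0) (XT.lf (nat_lit 0) (nat_lit 4924688585) (nat_lit 1064) (nat_lit 395595340) (nat_lit 1140) (nat_lit 2158302263) (nat_lit 138) (nat_lit 5) (nat_lit 152) (nat_lit 5) (nat_lit 153) (nat_lit 5) (nat_lit 288) (nat_lit 253) (nat_lit 239)) (XT.nd (nat_lit 78) (nat_lit 0) (nat_lit 0) (XT.lf (nat_lit 0) (nat_lit 350482165) (nat_lit 684) (nat_lit 5868516205) (nat_lit 76) (nat_lit 1343818848) (nat_lit 129) (nat_lit 5) (nat_lit 138) (nat_lit 5) (nat_lit 130) (nat_lit 5) (nat_lit 289) (nat_lit 253) (nat_lit 238)) (XT.lf (nat_lit 0) (nat_lit 2849741179) (nat_lit 684) (nat_lit 1625210885) (nat_lit 76) (nat_lit 3175443712) (nat_lit 129) (nat_lit 5) (nat_lit 138) (nat_lit 5) (nat_lit 130) (nat_lit 5) (nat_lit 290) (nat_lit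 253) (nat_lit 237)))))) (XT.nd (nat_lit 468) (nat_lit 1292) (nat_lit 0) (XT.nd (nat_lit 234) (nat_lit 988) (nat_lit 0) (XT.nd (nat_lit 78) (nat_lit 608) (nat_lit 0) (XT.lf (nat_lit 0) (nat_lit 2727583702) (nat_lit 532) (nat_lit 2653321528) (nat_lit 608) (nat_lit 2361201654) (nat_lit 122) (nat_lit 5) (nat_lit 129) (nat_lit 5) (nat_lit 130) (nat_lit 5) (nat_lit 291) (nat_lit 253) (nat_lit 236)) (XT.nd (nat_lit 78) (nat_lit 532) (nat_lit 0) (XT.lf (nat_lit 0) (nat_lit 96228367) (nat_lit 608) (nat_lit 665326797) (nat_lit 76) (nat_lit 7076738819) (nat_lit 121) (nat_lit 5) (nat_lit 129) (nat_lit 5) (nat_lit 122) (nat_lit 5) (nat_lit 292) (nat_lit 253) (nat_lit 235)) (XT.lf (nat_lit 0) (nat_lit 2561558306) (nat_lit 608) (nat_lit 4154533253) (nat_lit 76) (nat_lit 1221319679) (nat_lit 114) (nat_lit 5) (nat_lit 122) (nat_lit 5) (nat_lit 115) (nat_lit 5) (nat_lit 293) (nat_lit 253) (nat_lit 234)))) (XT.nd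 (nat_lit 78) (nat_lit 532) (nat_lit 0) (XT.lf (nat_lit 0) (nat_lit 265184014) (nat_lit 456) (nat_lit 4786964823) (nat_lit 532) (nat_lit 2989003410) (nat_lit 108) (nat_lit 5) (nat_lit 114) (nat_lit 5) (nat_lit 115) (nat_lit 5) (nat_lit 294) (nat_lit 253) (nat_lit 233)) (XT.nd (nat_lit 78) (nat_lit 532) (nat_lit 0) (XT.lf (nat_lit 0) (nat_lit 4832104184) (nat_lit 456) (nat_lit 2762963675) (nat_lit 532) (nat_lit 553793051) (nat_lit 108) (nat_lit 5) (nat_lit 114) (nat_lit 5) (nat_lit 115) (nat_lit 5) (nat_lit 295) (nat_lit 253) (nat_lit 232)) (XT.lf (nat_lit 0) (nat_lit 1211147614) (nat_lit 456) (nat_lit 653568238) (nat_lit 532) (nat_lit 6396243117) (nat_lit 101) (nat_lit 5) (nat_lit 107) (nat_lit 5) (nat_lit 108) (nat_lit 5) (nat_lit 296) (nat_lit 253) (nat_lit 231))))) (XT.nd (nat_lit 234) (nat_lit 836) (nat_lit 0) (XT.nd (nat_lit 78) (nat_lit 456) (nat_lit 0) (XT.lf (nat_lit 0) (nat_lit 4330923168)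 (nat_lit 532) (nat_lit 2524159200) (nat_lit 76) (nat_lit 1521753048) (nat_lit 101) (nat_lit 5) (nat_lit 108) (nat_lit 5) (nat_lit 102) (nat_lit 5) (nat_lit 297) (nat_lit 253) (nat_lit 230)) (XT.nd (nat_lit 78) (nat_lit 76) (nat_lit 0) (XT.lf (nat_lit 0) (nat_lit 2102690537) (nat_lit 380) (nat_lit 4734766652) (nat_lit 456) (nat_lit 1659904008) (nat_lit 96) (nat_lit 5) (nat_lit 101) (nat_lit 5) (nat_lit 102) (nat_lit 5) (nat_lit 298) (nat_lit 253) (nat_lit 229)) (XT.lf (nat_lit 0) (nat_lit 747874932) (nat_lit 456) (nat_lit 1778371742) (nat_lit 76) (nat_lit 6096207242) (nat_lit 95) (nat_lit 5) (nat_lit 101) (nat_lit 5) (nat_lit 96) (nat_lit 5) (nat_lit 299) (nat_lit 253) (nat_lit 228)))) (XT.nd (nat_lit 78) (nat_lit 380) (nat_lit 0) (XT.lf (nat_lit 0) (nat_lit 2949773198) (nat_lit 456) (nat_lit 214868507) (nat_lit 532) (nat_lit 5587210565) (nat_lit 89) (nat_lit 5) (nat_lit 95) (nat_lit 5) (nat_lit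 96) (nat_lit 5) (nat_lit 300) (nat_lit 253) (nat_lit 227)) (XT.nd (nat_lit 78) (nat_lit 380) (nat_lit 0) (XT.lf (nat_lit 0) (nat_lit 5635584578) (nat_lit 532) (nat_lit 1118243631) (nat_lit 76) (nat_lit 2131999224) (nat_lit 89) (nat_lit 5) (nat_lit 96) (nat_lit 5) (nat_lit 90) (nat_lit 5) (nat_lit 301) (nat_lit 253) (nat_lit 226)) (XT.lf (nat_lit 0) (nat_lit 3709501238) (nat_lit 380) (nat_lit 4453326060) (nat_lit 456) (nat_lit 861670231) (nat_lit 84) (nat_lit 5) (nat_lit 89) (nat_lit 5) (nat_lit 90) (nat_lit 5) (nat_lit 302) (nat_lit 253) (nat_lit 225))))))))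
noncomputable def xc91 : XT := (XT.nd (nat_lit 1794) (nat_lit 1596) (nat_lit 0) (XT.nd (nat_lit 858) (nat_lit 1596) (nat_lit 0) (XT.nd (nat_lit 390) (nat_lit 684) (nat_lit 0) (XT.nd (nat_lit 156) (nat_lit 760) (nat_lit 0) (XT.nd (nat_lit 78) (nat_lit 380) (nat_lit 0) (XT.lf (nat_lit 0) (nat_lit 1523464375) (nat_lit 456) (nat_lit 544907604) (nat_lit 76) (nat_lit 7099944546) (nat_lit 83) (nat_lit 5) (nat_lit 89) (nat_lit 5) (nat_lit 84) (nat_lit 5) (nat_lit 303) (nat_lit 253) (nat_lit 224)) (XT.lf (nat_lit 0) (nat_lit 3955359455) (nat_lit 456) (nat_lit 4941050518) (nat_lit 76) (nat_lit 420137298) (nat_lit 78) (nat_lit 5) (nat_lit 84) (nat_lit 5) (nat_lit 79) (nat_lit 5) (nat_lit 304) (nat_lit 253) (nat_lit 223))) (XT.nd (nat_lit 78) (nat_lit 760) (nat_lit 0) (XT.lf (nat_lit 0) (nat_lit 6433377266) (nat_lit 456) (nat_lit 101337155) (nat_lit 76) (nat_lit 2935440664) (nat_lit 78) (nat_lit 5) (nat_lit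 84) (nat_lit 5) (nat_lit 79) (nat_lit 5) (nat_lit 305) (nat_lit 253) (nat_lit 222)) (XT.nd (nat_lit 78) (nat_lit 456) (nat_lit 0) (XT.lf (nat_lit 0) (nat_lit 4914984234) (nat_lit 304) (nat_lit 4066667085) (nat_lit 380) (nat_lit 646963819) (nat_lit 74) (nat_lit 5) (nat_lit 78) (nat_lit 5) (nat_lit 79) (nat_lit 5) (nat_lit 306) (nat_lit 253) (nat_lit 221)) (XT.lf (nat_lit 0) (nat_lit 213802778) (nat_lit 380) (nat_lit 1517358093) (nat_lit 456) (nat_lit 8061698614) (nat_lit 68) (nat_lit 5) (nat_lit 73) (nat_lit 5) (nat_lit 74) (nat_lit 5) (nat_lit 307) (nat_lit 253) (nat_lit 220))))) (XT.nd (nat_lit 234) (nat_lit 380) (nat_lit 0) (XT.nd (nat_lit 78) (nat_lit 304) (nat_lit 0) (XT.lf (nat_lit 0) (nat_lit 4176019109) (nat_lit 456) (nat_lit 4658285375) (nat_lit 76) (nat_lit 1127393887) (nat_lit 68) (nat_lit 5) (nat_lit 74) (nat_lit 5) (nat_lit 69) (nat_lit 5) (nat_lit 308) (nat_lit 253) (nat_lit 219))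 (XT.nd (nat_lit 78) (nat_lit 0) (nat_lit 0) (XT.lf (nat_lit 0) (nat_lit 337759483) (nat_lit 304) (nat_lit 6325868200) (nat_lit 380) (nat_lit 3473000532) (nat_lit 64) (nat_lit 5) (nat_lit 68) (nat_lit 5) (nat_lit 69) (nat_lit 5) (nat_lit 309) (nat_lit 253) (nat_lit 218)) (XT.lf (nat_lit 0) (nat_lit 5515885439) (nat_lit 304) (nat_lit 3708967997) (nat_lit 380) (nat_lit 1092087639) (nat_lit 64) (nat_lit 5) (nat_lit 68) (nat_lit 5) (nat_lit 69) (nat_lit 5) (nat_lit 310) (nat_lit 253) (nat_lit 217)))) (XT.nd (nat_lit 78) (nat_lit 0) (nat_lit 0) (XT.lf (nat_lit 0) (nat_lit 276526788) (nat_lit 304) (nat_lit 1012627831) (nat_lit 380) (nat_lit 9214551844) (nat_lit 59) (nat_lit 5) (nat_lit 63) (nat_lit 5) (nat_lit 64) (nat_lit 5) (nat_lit 311) (nat_lit 253) (nat_lit 216)) (XT.nd (nat_lit 78) (nat_lit 0) (nat_lit 0) (XT.lf (nat_lit 0) (nat_lit 3739227172) (nat_lit 380) (nat_lit 5181235313) (nat_lit 76)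 (nat_lit 1774803553) (nat_lit 59) (nat_lit 5) (nat_lit 64) (nat_lit 5) (nat_lit 60) (nat_lit 5) (nat_lit 312) (nat_lit 253) (nat_lit 215)) (XT.lf (nat_lit 0) (nat_lit 6227603849) (nat_lit 380) (nat_lit 55310828) (nat_lit 76) (nat_lit 4610806767) (nat_lit 59) (nat_lit 5) (nat_lit 64) (nat_lit 5) (nat_lit 60) (nat_lit 5) (nat_lit 313) (nat_lit 253) (nat_lit 214)))))) (XT.nd (nat_lit 468) (nat_lit 760) (nat_lit 0) (XT.nd (nat_lit 234) (nat_lit 228) (nat_lit 0) (XT.nd (nat_lit 78) (nat_lit 380) (nat_lit 0) (XT.lf (nat_lit 0) (nat_lit 5267596520) (nat_lit 228) (nat_lit 3529763800) (nat_lit 304) (nat_lit 2300658728) (nat_lit 56) (nat_lit 5) (nat_lit 59) (nat_lit 5) (nat_lit 60) (nat_lit 5) (nat_lit 314) (nat_lit 253) (nat_lit 213)) (XT.nd (nat_lit 78) (nat_lit 304) (nat_lit 0) (XT.lf (nat_lit 0) (nat_lit 89969830) (nat_lit 304) (nat_lit 618370076) (nat_lit 76) (nat_lit 10601446071) (nat_lit 55) (nat_lit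 5) (nat_lit 59) (nat_lit 5) (nat_lit 56) (nat_lit 5) (nat_lit 315) (nat_lit 253) (nat_lit 212)) (XT.lf (nat_lit 0) (nat_lit 2531068541) (nat_lit 380) (nat_lit 6786878897) (nat_lit 76) (nat_lit 2208608062) (nat_lit 51) (nat_lit 5) (nat_lit 56) (nat_lit 5) (nat_lit 52) (nat_lit 5) (nat_lit 316) (nat_lit 253) (nat_lit 211)))) (XT.nd (nat_lit 78) (nat_lit 228) (nat_lit 0) (XT.lf (nat_lit 0) (nat_lit 5016813055) (nat_lit 380) (nat_lit 1544394065) (nat_lit 76) (nat_lit 5189558915) (nat_lit 51) (nat_lit 5) (nat_lit 56) (nat_lit 5) (nat_lit 52) (nat_lit 5) (nat_lit 317) (nat_lit 253) (nat_lit 210)) (XT.nd (nat_lit 78) (nat_lit 0) (nat_lit 0) (XT.lf (nat_lit 0) (nat_lit 3873852439) (nat_lit 228) (nat_lit 3699829309) (nat_lit 304) (nat_lit 4408202556) (nat_lit 48) (nat_lit 5) (nat_lit 51) (nat_lit 5) (nat_lit 52) (nat_lit 5) (nat_lit 318) (nat_lit 253) (nat_lit 209)) (XT.lf (nat_lit 0) (nat_lit 9429759076)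 (nat_lit 228) (nat_lit 753048257) (nat_lit 304) (nat_lit 2037937961) (nat_lit 48) (nat_lit 5) (nat_lit 51) (nat_lit 5) (nat_lit 52) (nat_lit 5) (nat_lit 319) (nat_lit 253) (nat_lit 208))))) (XT.nd (nat_lit 234) (nat_lit 228) (nat_lit 0) (XT.nd (nat_lit 78) (nat_lit 228) (nat_lit 0) (XT.lf (nat_lit 0) (nat_lit 404044210) (nat_lit 304) (nat_lit 9811006593) (nat_lit 76) (nat_lit 2251421864) (nat_lit 44) (nat_lit 5) (nat_lit 48) (nat_lit 5) (nat_lit 45) (nat_lit 5) (nat_lit 320) (nat_lit 253) (nat_lit 207)) (XT.nd (nat_lit 78) (nat_lit 228) (nat_lit 0) (XT.lf (nat_lit 0) (nat_lit 2875365129) (nat_lit 304) (nat_lit 4480393378) (nat_lit 76) (nat_lit 5363366107) (nat_lit 44) (nat_lit 5) (nat_lit 48) (nat_lit 5) (nat_lit 45) (nat_lit 5) (nat_lit 321) (nat_lit 253) (nat_lit 206)) (XT.lf (nat_lit 0) (nat_lit 974514849) (nat_lit 228) (nat_lit 4417932207) (nat_lit 304) (nat_lit 7587827680) (nat_lit 41)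 (nat_lit 5) (nat_lit 44) (nat_lit 5) (nat_lit 45) (nat_lit 5) (nat_lit 322) (nat_lit 253) (nat_lit 205)))) (XT.nd (nat_lit 78) (nat_lit 228) (nat_lit 0) (XT.lf (nat_lit 0) (nat_lit 6630809998) (nat_lit 228) (nat_lit 1362307705) (nat_lit 304) (nat_lit 5255964672) (nat_lit 41) (nat_lit 5) (nat_lit 44) (nat_lit 5) (nat_lit 45) (nat_lit 5) (nat_lit 323) (nat_lit 253) (nat_lit 204)) (XT.nd (nat_lit 78) (nat_lit 228) (nat_lit 0) (XT.lf (nat_lit 0) (nat_lit 10652724382) (nat_lit 304) (nat_lit 1139834628) (nat_lit 76) (nat_lit 1734031154) (nat_lit 41) (nat_lit 5) (nat_lit 45) (nat_lit 5) (nat_lit 42) (nat_lit 5) (nat_lit 324) (nat_lit 253) (nat_lit 203)) (XT.lf (nat_lit 0) (nat_lit 4525825928) (nat_lit 228) (nat_lit 8888099677) (nat_lit 304) (nat_lit 397904943) (nat_lit 38) (nat_lit 5) (nat_lit 41) (nat_lit 5) (nat_lit 42) (nat_lit 5) (nat_lit 325) (nat_lit 253) (nat_lit 202))))))) (XT.nd (nat_lit 858)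 (nat_lit 760) (nat_lit 0) (XT.nd (nat_lit 390) (nat_lit 380) (nat_lit 0) (XT.nd (nat_lit 156) (nat_lit 228) (nat_lit 0) (XT.nd (nat_lit 78) (nat_lit 152) (nat_lit 0) (XT.lf (nat_lit 0) (nat_lit 2086900703) (nat_lit 304) (nat_lit 3793468223) (nat_lit 76) (nat_lit 8225399574) (nat_lit 37) (nat_lit 5) (nat_lit 41) (nat_lit 5) (nat_lit 38) (nat_lit 5) (nat_lit 326) (nat_lit 253) (nat_lit 201)) (XT.lf (nat_lit 0) (nat_lit 1845228505) (nat_lit 152) (nat_lit 2776724826) (nat_lit 228) (nat_lit 9786998391) (nat_lit 35) (nat_lit 5) (nat_lit 37) (nat_lit 5) (nat_lit 38) (nat_lit 5) (nat_lit 327) (nat_lit 253) (nat_lit 200))) (XT.nd (nat_lit 78) (nat_lit 228) (nat_lit 0) (XT.lf (nat_lit 0) (nat_lit 7242092642) (nat_lit 228) (nat_lit 7044736247) (nat_lit 76) (nat_lit 434185186) (nat_lit 35) (nat_lit 5) (nat_lit 38) (nat_lit 5) (nat_lit 36) (nat_lit 5) (nat_lit 328) (nat_lit 253) (nat_lit 199)) (XT.nd (nat_lit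 78) (nat_lit 228) (nat_lit 0) (XT.lf (nat_lit 0) (nat_lit 9935621337) (nat_lit 228) (nat_lit 1437270705) (nat_lit 76) (nat_lit 3669755794) (nat_lit 35) (nat_lit 5) (nat_lit 38) (nat_lit 5) (nat_lit 36) (nat_lit 5) (nat_lit 329) (nat_lit 253) (nat_lit 198)) (XT.lf (nat_lit 0) (nat_lit 4375649392) (nat_lit 228) (nat_lit 8344613436) (nat_lit 304) (nat_lit 2653410124) (nat_lit 32) (nat_lit 5) (nat_lit 35) (nat_lit 5) (nat_lit 36) (nat_lit 5) (nat_lit 330) (nat_lit 253) (nat_lit 197))))) (XT.nd (nat_lit 234) (nat_lit 152) (nat_lit 0) (XT.nd (nat_lit 78) (nat_lit 228) (nat_lit 0) (XT.lf (nat_lit 0) (nat_lit 10344737741) (nat_lit 228) (nat_lit 5226931493) (nat_lit 304) (nat_lit 143512863) (nat_lit 32) (nat_lit 5) (nat_lit 35) (nat_lit 5) (nat_lit 36) (nat_lit 5) (nat_lit 331) (nat_lit 253) (nat_lit 196)) (XT.nd (nat_lit 78) (nat_lit 0) (nat_lit 0) (XT.lf (nat_lit 0) (nat_lit 362615362) (nat_lit 152)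 (nat_lit 2004180590) (nat_lit 228) (nat_lit 13700300792) (nat_lit 29) (nat_lit 5) (nat_lit 31) (nat_lit 5) (nat_lit 32) (nat_lit 5) (nat_lit 332) (nat_lit 253) (nat_lit 195)) (XT.lf (nat_lit 0) (nat_lit 4986507570) (nat_lit 228) (nat_lit 10112076854) (nat_lit 76) (nat_lit 1329878239) (nat_lit 29) (nat_lit 5) (nat_lit 32) (nat_lit 5) (nat_lit 30) (nat_lit 5) (nat_lit 333) (nat_lit 253) (nat_lit 194)))) (XT.nd (nat_lit 78) (nat_lit 152) (nat_lit 0) (XT.lf (nat_lit 0) (nat_lit 7675107393) (nat_lit 228) (nat_lit 4417655982) (nat_lit 76) (nat_lit 4708241745) (nat_lit 29) (nat_lit 5) (nat_lit 32) (nat_lit 5) (nat_lit 30) (nat_lit 5) (nat_lit 334) (nat_lit 253) (nat_lit 193)) (XT.nd (nat_lit 78) (nat_lit 0) (nat_lit 0) (XT.lf (nat_lit 0) (nat_lit 1430945243) (nat_lit 152) (nat_lit 8998489150) (nat_lit 228) (nat_lit 6755780552) (nat_lit 27) (nat_lit 5) (nat_lit 29) (nat_lit 5) (nat_lit 30) (nat_lit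 5) (nat_lit 335) (nat_lit 253) (nat_lit 192)) (XT.lf (nat_lit 0) (nat_lit 7501423969) (nat_lit 152) (nat_lit 5781302193) (nat_lit 228) (nat_lit 4297776770) (nat_lit 27) (nat_lit 5) (nat_lit 29) (nat_lit 5) (nat_lit 30) (nat_lit 5) (nat_lit 336) (nat_lit 253) (nat_lit 191)))))) (XT.nd (nat_lit 468) (nat_lit 380) (nat_lit 0) (XT.nd (nat_lit 234) (nat_lit 152) (nat_lit 0) (XT.nd (nat_lit 78) (nat_lit 228) (nat_lit 0) (XT.lf (nat_lit 0) (nat_lit 13711164479) (nat_lit 152) (nat_lit 2483001032) (nat_lit 228) (nat_lit 1794348274) (nat_lit 27) (nat_lit 5) (nat_lit 29) (nat_lit 5) (nat_lit 30) (nat_lit 5) (nat_lit 337) (nat_lit 253) (nat_lit 190)) (XT.nd (nat_lit 78) (nat_lit 0) (nat_lit 0) (XT.lf (nat_lit 0) (nat_lit 766967117) (nat_lit 228) (nat_lit 16736249925) (nat_lit 76) (nat_lit 905417549) (nat_lit 24) (nat_lit 5) (nat_lit 27) (nat_lit 5) (nat_lit 25) (nat_lit 5) (nat_lit 338) (nat_lit 253) (nat_lit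 189)) (XT.lf (nat_lit 0) (nat_lit 3410545304) (nat_lit 228) (nat_lit 11037002771) (nat_lit 76) (nat_lit 4392070573) (nat_lit 24) (nat_lit 5) (nat_lit 27) (nat_lit 5) (nat_lit 25) (nat_lit 5) (nat_lit 339) (nat_lit 253) (nat_lit 188)))) (XT.nd (nat_lit 78) (nat_lit 152) (nat_lit 0) (XT.lf (nat_lit 0) (nat_lit 6107492288) (nat_lit 228) (nat_lit 5207995692) (nat_lit 76) (nat_lit 7968858556) (nat_lit 24) (nat_lit 5) (nat_lit 27) (nat_lit 5) (nat_lit 25) (nat_lit 5) (nat_lit 340) (nat_lit 253) (nat_lit 187)) (XT.nd (nat_lit 78) (nat_lit 0) (nat_lit 0) (XT.lf (nat_lit 0) (nat_lit 770907803) (nat_lit 152) (nat_lit 8096667259) (nat_lit 228) (nat_lit 10875409481) (nat_lit 22) (nat_lit 5) (nat_lit 24) (nat_lit 5) (nat_lit 25) (nat_lit 5) (nat_lit 341) (nat_lit 253) (nat_lit 186)) (XT.lf (nat_lit 0) (nat_lit 6996312553) (nat_lit 152) (nat_lit 4741907847) (nat_lit 228) (nat_lit 8476362569) (nat_lit 22)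 (nat_lit 5) (nat_lit 24) (nat_lit 5) (nat_lit 25) (nat_lit 5) (nat_lit 342) (nat_lit 253) (nat_lit 185))))) (XT.nd (nat_lit 234) (nat_lit 228) (nat_lit 0) (XT.nd (nat_lit 78) (nat_lit 152) (nat_lit 0) (XT.lf (nat_lit 0) (nat_lit 13370008902) (nat_lit 152) (nat_lit 1300868946) (nat_lit 228) (nat_lit 6030207802) (nat_lit 22) (nat_lit 5) (nat_lit 24) (nat_lit 5) (nat_lit 25) (nat_lit 5) (nat_lit 343) (nat_lit 253) (nat_lit 184)) (XT.nd (nat_lit 78) (nat_lit 152) (nat_lit 0) (XT.lf (nat_lit 0) (nat_lit 17689540822) (nat_lit 228) (nat_lit 1326782483) (nat_lit 76) (nat_lit 2185951456) (nat_lit 22) (nat_lit 5) (nat_lit 25) (nat_lit 5) (nat_lit 23) (nat_lit 4) (nat_lit 344) (nat_lit 253) (nat_lit 183)) (XT.lf (nat_lit 0) (nat_lit 4903602748) (nat_lit 152) (nat_lit 15932323720) (nat_lit 228) (nat_lit 881489382) (nat_lit 20) (nat_lit 5) (nat_lit 22) (nat_lit 5) (nat_lit 23) (nat_lit 4) (nat_lit 345) (nat_lit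 253) (nat_lit 182)))) (XT.nd (nat_lit 78) (nat_lit 152) (nat_lit 0) (XT.lf (nat_lit 0) (nat_lit 1783747241) (nat_lit 228) (nat_lit 10954189811) (nat_lit 76) (nat_lit 9509853989) (nat_lit 19) (nat_lit 5) (nat_lit 22) (nat_lit 5) (nat_lit 20) (nat_lit 5) (nat_lit 346) (nat_lit 253) (nat_lit 181)) (XT.nd (nat_lit 78) (nat_lit 152) (nat_lit 0) (XT.lf (nat_lit 0) (nat_lit 4489096282) (nat_lit 228) (nat_lit 4963395427) (nat_lit 76) (nat_lit 13342016318) (nat_lit 19) (nat_lit 5) (nat_lit 22) (nat_lit 5) (nat_lit 20) (nat_lit 5) (nat_lit 347) (nat_lit 253) (nat_lit 180)) (XT.lf (nat_lit 0) (nat_lit 1195608771) (nat_lit 152) (nat_lit 6070006822) (nat_lit 228) (nat_lit 16092338347) (nat_lit 17) (nat_lit 5) (nat_lit 19) (nat_lit 5) (nat_lit 20) (nat_lit 5) (nat_lit 348) (nat_lit 253) (nat_lit 179))))))))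
noncomputable def xc92 : XT := (XT.nd (nat_lit 1716) (nat_lit 304) (nat_lit 0) (XT.nd (nat_lit 858) (nat_lit 304) (nat_lit 0) (XT.nd (nat_lit 390) (nat_lit 228) (nat_lit 0) (XT.nd (nat_lit 156) (nat_lit 76) (nat_lit 0) (XT.nd (nat_lit 78) (nat_lit 0) (nat_lit 0) (XT.lf (nat_lit 0) (nat_lit 7606624800) (nat_lit 152) (nat_lit 2547737179) (nat_lit 228) (nat_lit 13783100209) (nat_lit 17) (nat_lit 5) (nat_lit 19) (nat_lit 5) (nat_lit 20) (nat_lit 5) (nat_lit 349) (nat_lit 253) (nat_lit 178)) (XT.lf (nat_lit 0) (nat_lit 13119458142) (nat_lit 228) (nat_lit 10368785036) (nat_lit 76) (nat_lit 1046448002) (nat_lit 17) (nat_lit 5) (nat_lit 20) (nat_lit 5) (nat_lit 18) (nat_lit 4) (nat_lit 350) (nat_lit 253) (nat_lit 177))) (XT.nd (nat_lit 78) (nat_lit 76) (nat_lit 0) (XT.lf (nat_lit 0) (nat_lit 16178638948) (nat_lit 228) (nat_lit 4286122560) (nat_lit 76) (nat_lit 4684946941) (nat_lit 17) (nat_lit 5) (nat_lit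 20) (nat_lit 5) (nat_lit 18) (nat_lit 4) (nat_lit 351) (nat_lit 253) (nat_lit 176)) (XT.nd (nat_lit 78) (nat_lit 0) (nat_lit 0) (XT.lf (nat_lit 0) (nat_lit 1985703626) (nat_lit 76) (nat_lit 17343471230) (nat_lit 152) (nat_lit 6454038608) (nat_lit 16) (nat_lit 5) (nat_lit 17) (nat_lit 5) (nat_lit 18) (nat_lit 4) (nat_lit 352) (nat_lit 253) (nat_lit 175)) (XT.lf (nat_lit 0) (nat_lit 8501795873) (nat_lit 76) (nat_lit 14096467282) (nat_lit 152) (nat_lit 3836763290) (nat_lit 16) (nat_lit 5) (nat_lit 17) (nat_lit 5) (nat_lit 18) (nat_lit 4) (nat_lit 353) (nat_lit 253) (nat_lit 174))))) (XT.nd (nat_lit 234) (nat_lit 0) (nat_lit 0) (XT.nd (nat_lit 78) (nat_lit 228) (nat_lit 0) (XT.lf (nat_lit 0) (nat_lit 15182545609) (nat_lit 76) (nat_lit 10764193908) (nat_lit 152) (nat_lit 1160238040) (nat_lit 16) (nat_lit 5) (nat_lit 17) (nat_lit 5) (nat_lit 18) (nat_lit 4) (nat_lit 354) (nat_lit 253) (nat_lit 173))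 (XT.nd (nat_lit 78) (nat_lit 152) (nat_lit 0) (XT.lf (nat_lit 0) (nat_lit 1547085809) (nat_lit 152) (nat_lit 5781031072) (nat_lit 76) (nat_lit 20471082040) (nat_lit 15) (nat_lit 5) (nat_lit 17) (nat_lit 5) (nat_lit 16) (nat_lit 5) (nat_lit 355) (nat_lit 253) (nat_lit 172)) (XT.lf (nat_lit 0) (nat_lit 515818370) (nat_lit 152) (nat_lit 3783641893) (nat_lit 228) (nat_lit 24212788758) (nat_lit 13) (nat_lit 5) (nat_lit 15) (nat_lit 5) (nat_lit 16) (nat_lit 5) (nat_lit 356) (nat_lit 253) (nat_lit 171)))) (XT.nd (nat_lit 78) (nat_lit 0) (nat_lit 0) (XT.lf (nat_lit 0) (nat_lit 7090935880) (nat_lit 152) (nat_lit 84277850) (nat_lit 228) (nat_lit 22070273281) (nat_lit 13) (nat_lit 5) (nat_lit 15) (nat_lit 5) (nat_lit 16) (nat_lit 5) (nat_lit 357) (nat_lit 253) (nat_lit 170)) (XT.nd (nat_lit 78) (nat_lit 0) (nat_lit 0) (XT.lf (nat_lit 0) (nat_lit 10155891450) (nat_lit 228) (nat_lit 16201950259) (nat_lit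 76) (nat_lit 3642340899) (nat_lit 13) (nat_lit 5) (nat_lit 16) (nat_lit 5) (nat_lit 14) (nat_lit 4) (nat_lit 358) (nat_lit 253) (nat_lit 169)) (XT.lf (nat_lit 0) (nat_lit 13210158319) (nat_lit 228) (nat_lit 10099487150) (nat_lit 76) (nat_lit 7468367974) (nat_lit 13) (nat_lit 5) (nat_lit 16) (nat_lit 5) (nat_lit 14) (nat_lit 4) (nat_lit 359) (nat_lit 253) (nat_lit 168)))))) (XT.nd (nat_lit 390) (nat_lit 228) (nat_lit 0) (XT.nd (nat_lit 156) (nat_lit 0) (nat_lit 0) (XT.nd (nat_lit 78) (nat_lit 76) (nat_lit 0) (XT.lf (nat_lit 0) (nat_lit 16339872983) (nat_lit 228) (nat_lit 3841019427) (nat_lit 76) (nat_lit 11398791070) (nat_lit 13) (nat_lit 5) (nat_lit 16) (nat_lit 5) (nat_lit 14) (nat_lit 4) (nat_lit 360) (nat_lit 253) (nat_lit 167)) (XT.lf (nat_lit 0) (nat_lit 2630247068) (nat_lit 76) (nat_lit 16942806619) (nat_lit 152) (nat_lit 12832081012) (nat_lit 12) (nat_lit 5) (nat_lit 13) (nat_lit 5) (nat_lit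 14) (nat_lit 4) (nat_lit 361) (nat_lit 253) (nat_lit 166))) (XT.nd (nat_lit 78) (nat_lit 0) (nat_lit 0) (XT.lf (nat_lit 0) (nat_lit 9348365494) (nat_lit 76) (nat_lit 13578149531) (nat_lit 152) (nat_lit 10328153658) (nat_lit 12) (nat_lit 5) (nat_lit 13) (nat_lit 5) (nat_lit 14) (nat_lit 4) (nat_lit 362) (nat_lit 253) (nat_lit 165)) (XT.nd (nat_lit 78) (nat_lit 0) (nat_lit 0) (XT.lf (nat_lit 0) (nat_lit 16242762233) (nat_lit 76) (nat_lit 10122767921) (nat_lit 152) (nat_lit 7764627303) (nat_lit 12) (nat_lit 5) (nat_lit 13) (nat_lit 5) (nat_lit 14) (nat_lit 4) (nat_lit 363) (nat_lit 253) (nat_lit 164)) (XT.lf (nat_lit 0) (nat_lit 23319461515) (nat_lit 76) (nat_lit 6573642522) (nat_lit 152) (nat_lit 5139261973) (nat_lit 12) (nat_lit 5) (nat_lit 13) (nat_lit 5) (nat_lit 14) (nat_lit 4) (nat_lit 364) (nat_lit 253) (nat_lit 163))))) (XT.nd (nat_lit 234) (nat_lit 0) (nat_lit 0) (XT.nd (nat_lit 78) (nat_lit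 228) (nat_lit 0) (XT.lf (nat_lit 0) (nat_lit 30584646863) (nat_lit 76) (nat_lit 2927672158) (nat_lit 152) (nat_lit 2449763659) (nat_lit 12) (nat_lit 5) (nat_lit 13) (nat_lit 5) (nat_lit 14) (nat_lit 4) (nat_lit 365) (nat_lit 253) (nat_lit 162)) (XT.nd (nat_lit 78) (nat_lit 0) (nat_lit 0) (XT.lf (nat_lit 0) (nat_lit 319242680) (nat_lit 228) (nat_lit 35783780740) (nat_lit 76) (nat_lit 816438102) (nat_lit 9) (nat_lit 5) (nat_lit 12) (nat_lit 5) (nat_lit 10) (nat_lit 4) (nat_lit 366) (nat_lit 253) (nat_lit 161)) (XT.lf (nat_lit 0) (nat_lit 3192074600) (nat_lit 228) (nat_lit 30026809811) (nat_lit 76) (nat_lit 4683864764) (nat_lit 9) (nat_lit 5) (nat_lit 12) (nat_lit 5) (nat_lit 10) (nat_lit 4) (nat_lit 367) (nat_lit 253) (nat_lit 160)))) (XT.nd (nat_lit 78) (nat_lit 0) (nat_lit 0) (XT.lf (nat_lit 0) (nat_lit 6137661540) (nat_lit 228) (nat_lit 24119965282) (nat_lit 76) (nat_lit 8658325994) (nat_lit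 9) (nat_lit 5) (nat_lit 12) (nat_lit 5) (nat_lit 10) (nat_lit 4) (nat_lit 368) (nat_lit 253) (nat_lit 159)) (XT.nd (nat_lit 78) (nat_lit 0) (nat_lit 0) (XT.lf (nat_lit 0) (nat_lit 9158577314) (nat_lit 228) (nat_lit 18058085834) (nat_lit 76) (nat_lit 12743294624) (nat_lit 9) (nat_lit 5) (nat_lit 12) (nat_lit 5) (nat_lit 10) (nat_lit 4) (nat_lit 369) (nat_lit 253) (nat_lit 158)) (XT.lf (nat_lit 0) (nat_lit 12257461557) (nat_lit 228) (nat_lit 11835874677) (nat_lit 76) (nat_lit 16942340042) (nat_lit 9) (nat_lit 5) (nat_lit 12) (nat_lit 5) (nat_lit 10) (nat_lit 4) (nat_lit 370) (nat_lit 253) (nat_lit 157))))))) (XT.nd (nat_lit 858) (nat_lit 152) (nat_lit 0) (XT.nd (nat_lit 390) (nat_lit 76) (nat_lit 0) (XT.nd (nat_lit 156) (nat_lit 0) (nat_lit 0) (XT.nd (nat_lit 78) (nat_lit 76) (nat_lit 0) (XT.lf (nat_lit 0) (nat_lit 15437022033) (nat_lit 228) (nat_lit 5447894929) (nat_lit 76) (nat_lit 21259131319)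 (nat_lit 9) (nat_lit 5) (nat_lit 12) (nat_lit 5) (nat_lit 10) (nat_lit 4) (nat_lit 371) (nat_lit 253) (nat_lit 156)) (XT.lf (nat_lit 0) (nat_lit 1133554878) (nat_lit 76) (nat_lit 17577378541) (nat_lit 152) (nat_lit 24574781951) (nat_lit 8) (nat_lit 5) (nat_lit 9) (nat_lit 5) (nat_lit 10) (nat_lit 4) (nat_lit 372) (nat_lit 253) (nat_lit 155))) (XT.nd (nat_lit 78) (nat_lit 0) (nat_lit 0) (XT.lf (nat_lit 0) (nat_lit 8004034526) (nat_lit 76) (nat_lit 14122262777) (nat_lit 152) (nat_lit 22334050590) (nat_lit 8) (nat_lit 5) (nat_lit 9) (nat_lit 5) (nat_lit 10) (nat_lit 4) (nat_lit 373) (nat_lit 253) (nat_lit 154)) (XT.nd (nat_lit 78) (nat_lit 0) (nat_lit 0) (XT.lf (nat_lit 0) (nat_lit 15061123556) (nat_lit 76) (nat_lit 10571563693) (nat_lit 152) (nat_lit 20037887299) (nat_lit 8) (nat_lit 5) (nat_lit 9) (nat_lit 5) (nat_lit 10) (nat_lit 4) (nat_lit 374) (nat_lit 253) (nat_lit 153)) (XT.lf (nat_lit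 0) (nat_lit 22310988355) (nat_lit 76) (nat_lit 6922178736) (nat_lit 152) (nat_lit 17684285724) (nat_lit 8) (nat_lit 5) (nat_lit 9) (nat_lit 5) (nat_lit 10) (nat_lit 4) (nat_lit 375) (nat_lit 253) (nat_lit 152))))) (XT.nd (nat_lit 234) (nat_lit 76) (nat_lit 0) (XT.nd (nat_lit 78) (nat_lit 0) (nat_lit 0) (XT.lf (nat_lit 0) (nat_lit 29759963757) (nat_lit 76) (nat_lit 3170919124) (nat_lit 152) (nat_lit 15271189319) (nat_lit 8) (nat_lit 5) (nat_lit 9) (nat_lit 5) (nat_lit 10) (nat_lit 4) (nat_lit 376) (nat_lit 253) (nat_lit 151)) (XT.nd (nat_lit 78) (nat_lit 0) (nat_lit 0) (XT.lf (nat_lit 0) (nat_lit 36735655010) (nat_lit 152) (nat_lit 12117585988) (nat_lit 0) (nat_lit 672116506) (nat_lit 8) (nat_lit 5) (nat_lit 10) (nat_lit 4) (nat_lit 8) (nat_lit 4) (nat_lit 377) (nat_lit 253) (nat_lit 150)) (XT.lf (nat_lit 0) (nat_lit 40675736896) (nat_lit 152) (nat_lit 5652299673) (nat_lit 0) (nat_lit 4559680561)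 (nat_lit 8) (nat_lit 5) (nat_lit 10) (nat_lit 4) (nat_lit 8) (nat_lit 4) (nat_lit 378) (nat_lit 253) (nat_lit 149)))) (XT.nd (nat_lit 78) (nat_lit 0) (nat_lit 0) (XT.lf (nat_lit 0) (nat_lit 1009581159) (nat_lit 76) (nat_lit 43724214067) (nat_lit 76) (nat_lit 7557169547) (nat_lit 7) (nat_lit 4) (nat_lit 8) (nat_lit 5) (nat_lit 8) (nat_lit 4) (nat_lit 379) (nat_lit 253) (nat_lit 148)) (XT.nd (nat_lit 78) (nat_lit 0) (nat_lit 0) (XT.lf (nat_lit 0) (nat_lit 7970287684) (nat_lit 76) (nat_lit 40990580860) (nat_lit 76) (nat_lit 4774033247) (nat_lit 7) (nat_lit 4) (nat_lit 8) (nat_lit 5) (nat_lit 8) (nat_lit 4) (nat_lit 380) (nat_lit 253) (nat_lit 147)) (XT.lf (nat_lit 0) (nat_lit 15123410224) (nat_lit 76) (nat_lit 38181825480) (nat_lit 76) (nat_lit 1917216613) (nat_lit 7) (nat_lit 4) (nat_lit 8) (nat_lit 5) (nat_lit 8) (nat_lit 4) (nat_lit 381) (nat_lit 253) (nat_lit 146)))))) (XT.nd (nat_lit 468)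 (nat_lit 76) (nat_lit 0) (XT.nd (nat_lit 234) (nat_lit 0) (nat_lit 0) (XT.nd (nat_lit 78) (nat_lit 0) (nat_lit 0) (XT.lf (nat_lit 0) (nat_lit 995955142) (nat_lit 152) (nat_lit 34289481340) (nat_lit 76) (nat_lit 21469186745) (nat_lit 6) (nat_lit 5) (nat_lit 8) (nat_lit 5) (nat_lit 7) (nat_lit 4) (nat_lit 382) (nat_lit 253) (nat_lit 145)) (XT.nd (nat_lit 78) (nat_lit 0) (nat_lit 0) (XT.lf (nat_lit 0) (nat_lit 3948917999) (nat_lit 152) (nat_lit 28340269082) (nat_lit 76) (nat_lit 26043283820) (nat_lit 6) (nat_lit 5) (nat_lit 8) (nat_lit 5) (nat_lit 7) (nat_lit 4) (nat_lit 383) (nat_lit 253) (nat_lit 144)) (XT.lf (nat_lit 0) (nat_lit 6981664017) (nat_lit 152) (nat_lit 22227777522) (nat_lit 76) (nat_lit 30748485388) (nat_lit 6) (nat_lit 5) (nat_lit 8) (nat_lit 5) (nat_lit 7) (nat_lit 4) (nat_lit 384) (nat_lit 253) (nat_lit 143)))) (XT.nd (nat_lit 78) (nat_lit 0) (nat_lit 0) (XT.lf (nat_lit 0) (nat_lit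 10096843169) (nat_lit 152) (nat_lit 15946665646) (nat_lit 76) (nat_lit 35588902791) (nat_lit 6) (nat_lit 5) (nat_lit 8) (nat_lit 5) (nat_lit 7) (nat_lit 4) (nat_lit 385) (nat_lit 253) (nat_lit 142)) (XT.nd (nat_lit 78) (nat_lit 0) (nat_lit 0) (XT.lf (nat_lit 0) (nat_lit 13297177455) (nat_lit 152) (nat_lit 9491445105) (nat_lit 76) (nat_lit 40568765520) (nat_lit 6) (nat_lit 5) (nat_lit 8) (nat_lit 5) (nat_lit 7) (nat_lit 4) (nat_lit 386) (nat_lit 253) (nat_lit 141)) (XT.lf (nat_lit 0) (nat_lit 16585463285) (nat_lit 152) (nat_lit 2856475415) (nat_lit 76) (nat_lit 45692424910) (nat_lit 6) (nat_lit 5) (nat_lit 8) (nat_lit 5) (nat_lit 7) (nat_lit 4) (nat_lit 387) (nat_lit 253) (nat_lit 140))))) (XT.nd (nat_lit 234) (nat_lit 0) (nat_lit 0) (XT.nd (nat_lit 78) (nat_lit 0) (nat_lit 0) (XT.lf (nat_lit 0) (nat_lit 4042933159) (nat_lit 76) (nat_lit 15960503906) (nat_lit 152) (nat_lit 46960287934) (nat_lit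 5) (nat_lit 5) (nat_lit 6) (nat_lit 5) (nat_lit 7) (nat_lit 4) (nat_lit 388) (nat_lit 253) (nat_lit 139)) (XT.nd (nat_lit 78) (nat_lit 0) (nat_lit 0) (XT.lf (nat_lit 0) (nat_lit 11194508917) (nat_lit 76) (nat_lit 12350561525) (nat_lit 152) (nat_lit 45302270722) (nat_lit 5) (nat_lit 5) (nat_lit 6) (nat_lit 5) (nat_lit 7) (nat_lit 4) (nat_lit 389) (nat_lit 253) (nat_lit 138)) (XT.lf (nat_lit 0) (nat_lit 18547651348) (nat_lit 76) (nat_lit 8637802040) (nat_lit 152) (nat_lit 43602244737) (nat_lit 5) (nat_lit 5) (nat_lit 6) (nat_lit 5) (nat_lit 7) (nat_lit 4) (nat_lit 390) (nat_lit 253) (nat_lit 137)))) (XT.nd (nat_lit 78) (nat_lit 0) (nat_lit 0) (XT.lf (nat_lit 0) (nat_lit 26108785526) (nat_lit 76) (nat_lit 4818981293) (nat_lit 152) (nat_lit 41858724519) (nat_lit 5) (nat_lit 5) (nat_lit 6) (nat_lit 5) (nat_lit 7) (nat_lit 4) (nat_lit 391) (nat_lit 253) (nat_lit 136)) (XT.nd (nat_lit 78) (nat_lit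 0) (nat_lit 0) (XT.lf (nat_lit 0) (nat_lit 33884518269) (nat_lit 76) (nat_lit 890762450) (nat_lit 152) (nat_lit 40070186605) (nat_lit 5) (nat_lit 5) (nat_lit 6) (nat_lit 5) (nat_lit 7) (nat_lit 4) (nat_lit 392) (nat_lit 253) (nat_lit 135)) (XT.lf (nat_lit 0) (nat_lit 38761639477) (nat_lit 152) (nat_lit 35115063766) (nat_lit 0) (nat_lit 3088813469) (nat_lit 5) (nat_lit 5) (nat_lit 7) (nat_lit 4) (nat_lit 5) (nat_lit 4) (nat_lit 393) (nat_lit 253) (nat_lit 134))))))))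
noncomputable def xc93 : XT := (XT.nd (nat_lit 32448) (nat_lit 0) (nat_lit 4408) (XT.nd (nat_lit 31590) (nat_lit 0) (nat_lit 10108) (XT.nd (nat_lit 31122) (nat_lit 0) (nat_lit 15656) (XT.nd (nat_lit 156) (nat_lit 0) (nat_lit 0) (XT.nd (nat_lit 78) (nat_lit 0) (nat_lit 0) (XT.lf (nat_lit 0) (nat_lit 42869698466) (nat_lit 152) (nat_lit 29114314035) (nat_lit 0) (nat_lit 7165098307) (nat_lit 5) (nat_lit 5) (nat_lit 7) (nat_lit 4) (nat_lit 5) (nat_lit 4) (nat_lit 394) (nat_lit 253) (nat_lit 133)) (XT.lf (nat_lit 0) (nat_lit 47094484699) (nat_lit 152) (nat_lit 22944893936) (nat_lit 0) (nat_lit 11359035848) (nat_lit 5) (nat_lit 5) (nat_lit 7) (nat_lit 4) (nat_lit 5) (nat_lit 4) (nat_lit 395) (nat_lit 253) (nat_lit 132))) (XT.nd (nat_lit 78) (nat_lit 0) (nat_lit 0) (XT.lf (nat_lit 0) (nat_lit 51439689735) (nat_lit 152) (nat_lit 16601412713) (nat_lit 0) (nat_lit 15674290700) (nat_lit 5) (nat_lit 5) (nat_lit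 7) (nat_lit 4) (nat_lit 5) (nat_lit 4) (nat_lit 396) (nat_lit 253) (nat_lit 131)) (XT.nd (nat_lit 78) (nat_lit 0) (nat_lit 0) (XT.lf (nat_lit 0) (nat_lit 55909110357) (nat_lit 152) (nat_lit 10078327519) (nat_lit 0) (nat_lit 20114633472) (nat_lit 5) (nat_lit 5) (nat_lit 7) (nat_lit 4) (nat_lit 5) (nat_lit 4) (nat_lit 397) (nat_lit 253) (nat_lit 130)) (XT.lf (nat_lit 0) (nat_lit 60506651883) (nat_lit 152) (nat_lit 3369938571) (nat_lit 0) (nat_lit 24683944077) (nat_lit 5) (nat_lit 5) (nat_lit 7) (nat_lit 4) (nat_lit 5) (nat_lit 4) (nat_lit 398) (nat_lit 253) (nat_lit 129))))) (XT.nd (nat_lit 234) (nat_lit 1216) (nat_lit 0) (XT.nd (nat_lit 78) (nat_lit 532) (nat_lit 0) (XT.lf (nat_lit 0) (nat_lit 2507694952) (nat_lit 380) (nat_lit 399097035) (nat_lit 380) (nat_lit 399097035) (nat_lit 234) (nat_lit 4) (nat_lit 239) (nat_lit 5) (nat_lit 239) (nat_lit 4) (nat_lit 272) (nat_lit 254) (nat_lit 254)) (XT.nd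 (nat_lit 78) (nat_lit 0) (nat_lit 0) (XT.lf (nat_lit 0) (nat_lit 1919795126) (nat_lit 456) (nat_lit 66948158) (nat_lit 532) (nat_lit 4655317819) (nat_lit 227) (nat_lit 5) (nat_lit 233) (nat_lit 5) (nat_lit 234) (nat_lit 4) (nat_lit 273) (nat_lit 254) (nat_lit 253)) (XT.lf (nat_lit 0) (nat_lit 4766809771) (nat_lit 532) (nat_lit 1185698990) (nat_lit 0) (nat_lit 723086238) (nat_lit 227) (nat_lit 5) (nat_lit 234) (nat_lit 4) (nat_lit 227) (nat_lit 4) (nat_lit 274) (nat_lit 254) (nat_lit 252)))) (XT.nd (nat_lit 78) (nat_lit 608) (nat_lit 0) (XT.lf (nat_lit 0) (nat_lit 832698346) (nat_lit 608) (nat_lit 4287309031) (nat_lit 76) (nat_lit 1592331599) (nat_lit 219) (nat_lit 5) (nat_lit 227) (nat_lit 5) (nat_lit 220) (nat_lit 4) (nat_lit 275) (nat_lit 254) (nat_lit 251)) (XT.nd (nat_lit 78) (nat_lit 608) (nat_lit 0) (XT.lf (nat_lit 0) (nat_lit 3538426410) (nat_lit 608) (nat_lit 672315179) (nat_lit 76)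 (nat_lit 2541639294) (nat_lit 219) (nat_lit 5) (nat_lit 227) (nat_lit 5) (nat_lit 220) (nat_lit 4) (nat_lit 276) (nat_lit 254) (nat_lit 250)) (XT.lf (nat_lit 0) (nat_lit 3040698307) (nat_lit 608) (nat_lit 3224801616) (nat_lit 684) (nat_lit 530281552) (nat_lit 211) (nat_lit 5) (nat_lit 219) (nat_lit 5) (nat_lit 220) (nat_lit 4) (nat_lit 277) (nat_lit 254) (nat_lit 249)))))) (XT.nd (nat_lit 390) (nat_lit 3116) (nat_lit 0) (XT.nd (nat_lit 156) (nat_lit 1672) (nat_lit 0) (XT.nd (nat_lit 78) (nat_lit 684) (nat_lit 0) (XT.lf (nat_lit 0) (nat_lit 2108832892) (nat_lit 684) (nat_lit 54118273) (nat_lit 76) (nat_lit 4679674849) (nat_lit 210) (nat_lit 5) (nat_lit 219) (nat_lit 5) (nat_lit 211) (nat_lit 5) (nat_lit 278) (nat_lit 254) (nat_lit 248)) (XT.lf (nat_lit 0) (nat_lit 3756826696) (nat_lit 684) (nat_lit 1009988194) (nat_lit 760) (nat_lit 2125724785) (nat_lit 201) (nat_lit 5) (nat_lit 210) (nat_lit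 5) (nat_lit 211) (nat_lit 5) (nat_lit 279) (nat_lit 254) (nat_lit 247))) (XT.nd (nat_lit 78) (nat_lit 836) (nat_lit 0) (XT.lf (nat_lit 0) (nat_lit 473606150) (nat_lit 836) (nat_lit 6271764238) (nat_lit 76) (nat_lit 201012725) (nat_lit 190) (nat_lit 5) (nat_lit 201) (nat_lit 5) (nat_lit 191) (nat_lit 5) (nat_lit 280) (nat_lit 254) (nat_lit 246)) (XT.nd (nat_lit 78) (nat_lit 836) (nat_lit 0) (XT.lf (nat_lit 0) (nat_lit 3067039782) (nat_lit 836) (nat_lit 2441389304) (nat_lit 76) (nat_lit 1494319635) (nat_lit 190) (nat_lit 5) (nat_lit 201) (nat_lit 5) (nat_lit 191) (nat_lit 5) (nat_lit 281) (nat_lit 254) (nat_lit 245)) (XT.lf (nat_lit 0) (nat_lit 1461862951) (nat_lit 836) (nat_lit 4209756845) (nat_lit 912) (nat_lit 1391480058) (nat_lit 179) (nat_lit 5) (nat_lit 190) (nat_lit 5) (nat_lit 191) (nat_lit 5) (nat_lit 282) (nat_lit 254) (nat_lit 244))))) (XT.nd (nat_lit 234) (nat_lit 2128) (nat_lit 0)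 (XT.nd (nat_lit 78) (nat_lit 912) (nat_lit 0) (XT.lf (nat_lit 0) (nat_lit 1149896357) (nat_lit 912) (nat_lit 1676062092) (nat_lit 76) (nat_lit 4300882432) (nat_lit 178) (nat_lit 5) (nat_lit 190) (nat_lit 5) (nat_lit 179) (nat_lit 5) (nat_lit 283) (nat_lit 254) (nat_lit 243)) (XT.nd (nat_lit 78) (nat_lit 0) (nat_lit 0) (XT.lf (nat_lit 0) (nat_lit 2328885082) (nat_lit 912) (nat_lit 1355288110) (nat_lit 988) (nat_lit 3509838679) (nat_lit 166) (nat_lit 5) (nat_lit 178) (nat_lit 5) (nat_lit 179) (nat_lit 5) (nat_lit 284) (nat_lit 254) (nat_lit 242)) (XT.lf (nat_lit 0) (nat_lit 6237014926) (nat_lit 988) (nat_lit 847636528) (nat_lit 76) (nat_lit 180532415) (nat_lit 166) (nat_lit 5) (nat_lit 179) (nat_lit 5) (nat_lit 167) (nat_lit 5) (nat_lit 285) (nat_lit 254) (nat_lit 241)))) (XT.nd (nat_lit 78) (nat_lit 1064) (nat_lit 0) (XT.lf (nat_lit 0) (nat_lit 1468589885) (nat_lit 1064) (nat_lit 4082717878)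 (nat_lit 76) (nat_lit 1787875930) (nat_lit 152) (nat_lit 5) (nat_lit 166) (nat_lit 5) (nat_lit 153) (nat_lit 5) (nat_lit 286) (nat_lit 254) (nat_lit 240)) (XT.nd (nat_lit 78) (nat_lit 0) (nat_lit 0) (XT.lf (nat_lit 0) (nat_lit 5241010) (nat_lit 1064) (nat_lit 3949698262) (nat_lit 1140) (nat_lit 3462338000) (nat_lit 138) (nat_lit 5) (nat_lit 152) (nat_lit 5) (nat_lit 153) (nat_lit 5) (nat_lit 287) (nat_lit 254) (nat_lit 239)) (XT.lf (nat_lit 0) (nat_lit 4229704879) (nat_lit 1064) (nat_lit 2255525042) (nat_lit 1140) (nat_lit 1013635976) (nat_lit 138) (nat_lit 5) (nat_lit 152) (nat_lit 5) (nat_lit 153) (nat_lit 5) (nat_lit 288) (nat_lit 254) (nat_lit 238))))))) (XT.nd (nat_lit 858) (nat_lit 2432) (nat_lit 0) (XT.nd (nat_lit 390) (nat_lit 1444) (nat_lit 0) (XT.nd (nat_lit 156) (nat_lit 1140) (nat_lit 0) (XT.nd (nat_lit 78) (nat_lit 0) (nat_lit 0) (XT.lf (nat_lit 0) (nat_lit 932273476) (nat_lit 608)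 (nat_lit 485082750) (nat_lit 684) (nat_lit 6167182353) (nat_lit 129) (nat_lit 5) (nat_lit 137) (nat_lit 5) (nat_lit 138) (nat_lit 5) (nat_lit 289) (nat_lit 254) (nat_lit 237)) (XT.lf (nat_lit 0) (nat_lit 3877818370) (nat_lit 684) (nat_lit 2439289420) (nat_lit 76) (nat_lit 1356278185) (nat_lit 129) (nat_lit 5) (nat_lit 138) (nat_lit 5) (nat_lit 130) (nat_lit 5) (nat_lit 290) (nat_lit 254) (nat_lit 236))) (XT.nd (nat_lit 78) (nat_lit 608) (nat_lit 0) (XT.lf (nat_lit 0) (nat_lit 1862653923) (nat_lit 532) (nat_lit 4504874498) (nat_lit 608) (nat_lit 1398914158) (nat_lit 122) (nat_lit 5) (nat_lit 129) (nat_lit 5) (nat_lit 130) (nat_lit 5) (nat_lit 291) (nat_lit 254) (nat_lit 235)) (XT.nd (nat_lit 78) (nat_lit 532) (nat_lit 0) (XT.lf (nat_lit 0) (nat_lit 1006821528) (nat_lit 608) (nat_lit 1598233775) (nat_lit 76) (nat_lit 5258380397) (nat_lit 121) (nat_lit 5) (nat_lit 129) (nat_lit 5) (nat_lit 122)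 (nat_lit 5) (nat_lit 292) (nat_lit 254) (nat_lit 234)) (XT.lf (nat_lit 0) (nat_lit 2809683025) (nat_lit 532) (nat_lit 609063320) (nat_lit 608) (nat_lit 4545501995) (nat_lit 114) (nat_lit 5) (nat_lit 121) (nat_lit 5) (nat_lit 122) (nat_lit 5) (nat_lit 293) (nat_lit 254) (nat_lit 233))))) (XT.nd (nat_lit 234) (nat_lit 456) (nat_lit 0) (XT.nd (nat_lit 78) (nat_lit 988) (nat_lit 0) (XT.lf (nat_lit 0) (nat_lit 5869571662) (nat_lit 608) (nat_lit 768244774) (nat_lit 76) (nat_lit 1431456385) (nat_lit 114) (nat_lit 5) (nat_lit 122) (nat_lit 5) (nat_lit 115) (nat_lit 5) (nat_lit 294) (nat_lit 254) (nat_lit 232)) (XT.nd (nat_lit 78) (nat_lit 456) (nat_lit 0) (XT.lf (nat_lit 0) (nat_lit 192144011) (nat_lit 532) (nat_lit 4430459069) (nat_lit 76) (nat_lit 3555558894) (nat_lit 107) (nat_lit 5) (nat_lit 114) (nat_lit 5) (nat_lit 108) (nat_lit 5) (nat_lit 295) (nat_lit 254) (nat_lit 231)) (XT.lf (nat_lit 0)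 (nat_lit 35740632) (nat_lit 456) (nat_lit 2522551548) (nat_lit 532) (nat_lit 5733137612) (nat_lit 101) (nat_lit 5) (nat_lit 107) (nat_lit 5) (nat_lit 108) (nat_lit 5) (nat_lit 296) (nat_lit 254) (nat_lit 230)))) (XT.nd (nat_lit 78) (nat_lit 456) (nat_lit 0) (XT.lf (nat_lit 0) (nat_lit 4659519030) (nat_lit 456) (nat_lit 320368701) (nat_lit 532) (nat_lit 3428837282) (nat_lit 101) (nat_lit 5) (nat_lit 107) (nat_lit 5) (nat_lit 108) (nat_lit 5) (nat_lit 297) (nat_lit 254) (nat_lit 229)) (XT.nd (nat_lit 78) (nat_lit 76) (nat_lit 0) (XT.lf (nat_lit 0) (nat_lit 822682454) (nat_lit 380) (nat_lit 6619495756) (nat_lit 456) (nat_lit 1088477969) (nat_lit 96) (nat_lit 5) (nat_lit 101) (nat_lit 5) (nat_lit 102) (nat_lit 5) (nat_lit 298) (nat_lit 254) (nat_lit 228)) (XT.lf (nat_lit 0) (nat_lit 1279461655) (nat_lit 456) (nat_lit 3130551424) (nat_lit 76) (nat_lit 4246505291) (nat_lit 95) (nat_lit 5) (nat_lit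 101) (nat_lit 5) (nat_lit 96) (nat_lit 5) (nat_lit 299) (nat_lit 254) (nat_lit 227)))))) (XT.nd (nat_lit 468) (nat_lit 1140) (nat_lit 0) (XT.nd (nat_lit 234) (nat_lit 456) (nat_lit 0) (XT.nd (nat_lit 78) (nat_lit 380) (nat_lit 0) (XT.lf (nat_lit 0) (nat_lit 1537626060) (nat_lit 456) (nat_lit 2117174805) (nat_lit 532) (nat_lit 5132430140) (nat_lit 89) (nat_lit 5) (nat_lit 95) (nat_lit 5) (nat_lit 96) (nat_lit 5) (nat_lit 300) (nat_lit 254) (nat_lit 226)) (XT.nd (nat_lit 78) (nat_lit 380) (nat_lit 0) (XT.lf (nat_lit 0) (nat_lit 6080061624) (nat_lit 532) (nat_lit 2580421280) (nat_lit 76) (nat_lit 262163099) (nat_lit 89) (nat_lit 5) (nat_lit 96) (nat_lit 5) (nat_lit 90) (nat_lit 5) (nat_lit 301) (nat_lit 254) (nat_lit 225)) (XT.lf (nat_lit 0) (nat_lit 2185608397) (nat_lit 380) (nat_lit 6380449314) (nat_lit 456) (nat_lit 496563138) (nat_lit 84) (nat_lit 5) (nat_lit 89) (nat_lit 5) (nat_lit 90) (nat_lit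 5) (nat_lit 302) (nat_lit 254) (nat_lit 224)))) (XT.nd (nat_lit 78) (nat_lit 380) (nat_lit 0) (XT.lf (nat_lit 0) (nat_lit 1854996385) (nat_lit 456) (nat_lit 2142688338) (nat_lit 76) (nat_lit 5209506836) (nat_lit 83) (nat_lit 5) (nat_lit 89) (nat_lit 5) (nat_lit 84) (nat_lit 5) (nat_lit 303) (nat_lit 254) (nat_lit 223)) (XT.nd (nat_lit 78) (nat_lit 0) (nat_lit 0) (XT.lf (nat_lit 0) (nat_lit 2718220898) (nat_lit 380) (nat_lit 1522899916) (nat_lit 456) (nat_lit 5115736246) (nat_lit 78) (nat_lit 5) (nat_lit 83) (nat_lit 5) (nat_lit 84) (nat_lit 5) (nat_lit 304) (nat_lit 254) (nat_lit 222)) (XT.lf (nat_lit 0) (nat_lit 6679213804) (nat_lit 456) (nat_lit 1816053419) (nat_lit 76) (nat_lit 1016455237) (nat_lit 78) (nat_lit 5) (nat_lit 84) (nat_lit 5) (nat_lit 79) (nat_lit 5) (nat_lit 305) (nat_lit 254) (nat_lit 221))))) (XT.nd (nat_lit 234) (nat_lit 380) (nat_lit 0) (XT.nd (nat_lit 78) (nat_lit 456)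 (nat_lit 0) (XT.lf (nat_lit 0) (nat_lit 3134683556) (nat_lit 304) (nat_lit 6051141664) (nat_lit 380) (nat_lit 485665270) (nat_lit 74) (nat_lit 5) (nat_lit 78) (nat_lit 5) (nat_lit 79) (nat_lit 5) (nat_lit 306) (nat_lit 254) (nat_lit 220)) (XT.nd (nat_lit 78) (nat_lit 380) (nat_lit 0) (XT.lf (nat_lit 0) (nat_lit 1862834649) (nat_lit 380) (nat_lit 1646178563) (nat_lit 76) (nat_lit 6327524191) (nat_lit 73) (nat_lit 5) (nat_lit 78) (nat_lit 5) (nat_lit 74) (nat_lit 5) (nat_lit 307) (nat_lit 254) (nat_lit 219)) (XT.lf (nat_lit 0) (nat_lit 3391275924) (nat_lit 380) (nat_lit 865218488) (nat_lit 456) (nat_lit 5750470999) (nat_lit 68) (nat_lit 5) (nat_lit 73) (nat_lit 5) (nat_lit 74) (nat_lit 5) (nat_lit 308) (nat_lit 254) (nat_lit 218)))) (XT.nd (nat_lit 78) (nat_lit 380) (nat_lit 0) (XT.lf (nat_lit 0) (nat_lit 6709168665) (nat_lit 456) (nat_lit 1648487737) (nat_lit 76) (nat_lit 1825338501) (nat_lit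 68) (nat_lit 5) (nat_lit 74) (nat_lit 5) (nat_lit 69) (nat_lit 5) (nat_lit 309) (nat_lit 254) (nat_lit 217)) (XT.nd (nat_lit 78) (nat_lit 76) (nat_lit 0) (XT.lf (nat_lit 0) (nat_lit 3466560562) (nat_lit 304) (nat_lit 5764691375) (nat_lit 380) (nat_lit 1133280216) (nat_lit 64) (nat_lit 5) (nat_lit 68) (nat_lit 5) (nat_lit 69) (nat_lit 5) (nat_lit 310) (nat_lit 254) (nat_lit 216)) (XT.lf (nat_lit 0) (nat_lit 1223527610) (nat_lit 380) (nat_lit 1855273740) (nat_lit 76) (nat_lit 7473312457) (nat_lit 63) (nat_lit 5) (nat_lit 68) (nat_lit 5) (nat_lit 64) (nat_lit 5) (nat_lit 311) (nat_lit 254) (nat_lit 215))))))))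
noncomputable def xc94 : XT := (XT.nd (nat_lit 1716) (nat_lit 1064) (nat_lit 0) (XT.nd (nat_lit 858) (nat_lit 1140) (nat_lit 0) (XT.nd (nat_lit 390) (nat_lit 532) (nat_lit 0) (XT.nd (nat_lit 156) (nat_lit 608) (nat_lit 0) (XT.nd (nat_lit 78) (nat_lit 0) (nat_lit 0) (XT.lf (nat_lit 0) (nat_lit 3333637125) (nat_lit 304) (nat_lit 282167162) (nat_lit 380) (nat_lit 7129648835) (nat_lit 59) (nat_lit 5) (nat_lit 63) (nat_lit 5) (nat_lit 64) (nat_lit 5) (nat_lit 312) (nat_lit 254) (nat_lit 214)) (XT.lf (nat_lit 0) (nat_lit 6079839604) (nat_lit 380) (nat_lit 2312531194) (nat_lit 76) (nat_lit 2552312499) (nat_lit 59) (nat_lit 5) (nat_lit 64) (nat_lit 5) (nat_lit 60) (nat_lit 5) (nat_lit 313) (nat_lit 254) (nat_lit 213))) (XT.nd (nat_lit 78) (nat_lit 380) (nat_lit 0) (XT.lf (nat_lit 0) (nat_lit 2936388763) (nat_lit 228) (nat_lit 5669799290) (nat_lit 304) (nat_lit 2544138318) (nat_lit 56) (nat_lit 5) (nat_lit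 59) (nat_lit 5) (nat_lit 60) (nat_lit 5) (nat_lit 314) (nat_lit 254) (nat_lit 212)) (XT.nd (nat_lit 78) (nat_lit 380) (nat_lit 0) (XT.lf (nat_lit 0) (nat_lit 8332898916) (nat_lit 228) (nat_lit 2856843011) (nat_lit 304) (nat_lit 173039565) (nat_lit 56) (nat_lit 5) (nat_lit 59) (nat_lit 5) (nat_lit 60) (nat_lit 5) (nat_lit 315) (nat_lit 254) (nat_lit 211)) (XT.lf (nat_lit 0) (nat_lit 2206263049) (nat_lit 380) (nat_lit 9306514647) (nat_lit 76) (nat_lit 68817965) (nat_lit 51) (nat_lit 5) (nat_lit 56) (nat_lit 5) (nat_lit 52) (nat_lit 5) (nat_lit 316) (nat_lit 254) (nat_lit 210))))) (XT.nd (nat_lit 234) (nat_lit 304) (nat_lit 0) (XT.nd (nat_lit 78) (nat_lit 228) (nat_lit 0) (XT.lf (nat_lit 0) (nat_lit 4671965201) (nat_lit 380) (nat_lit 4092160694) (nat_lit 76) (nat_lit 3042319982) (nat_lit 51) (nat_lit 5) (nat_lit 56) (nat_lit 5) (nat_lit 52) (nat_lit 5) (nat_lit 317) (nat_lit 254) (nat_lit 209))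 (XT.nd (nat_lit 78) (nat_lit 0) (nat_lit 0) (XT.lf (nat_lit 0) (nat_lit 1247525171) (nat_lit 228) (nat_lit 5936604254) (nat_lit 304) (nat_lit 4854813145) (nat_lit 48) (nat_lit 5) (nat_lit 51) (nat_lit 5) (nat_lit 52) (nat_lit 5) (nat_lit 318) (nat_lit 254) (nat_lit 208)) (XT.lf (nat_lit 0) (nat_lit 6776388034) (nat_lit 228) (nat_lit 2997715166) (nat_lit 304) (nat_lit 2504311120) (nat_lit 48) (nat_lit 5) (nat_lit 51) (nat_lit 5) (nat_lit 52) (nat_lit 5) (nat_lit 319) (nat_lit 254) (nat_lit 207)))) (XT.nd (nat_lit 78) (nat_lit 304) (nat_lit 0) (XT.lf (nat_lit 0) (nat_lit 12404162914) (nat_lit 304) (nat_lit 108589559) (nat_lit 76) (nat_lit 13517504) (nat_lit 48) (nat_lit 5) (nat_lit 52) (nat_lit 5) (nat_lit 49) (nat_lit 5) (nat_lit 320) (nat_lit 254) (nat_lit 206)) (XT.nd (nat_lit 78) (nat_lit 0) (nat_lit 0) (XT.lf (nat_lit 0) (nat_lit 2331927247) (nat_lit 304) (nat_lit 7332171195) (nat_lit 76)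 (nat_lit 3115481909) (nat_lit 44) (nat_lit 5) (nat_lit 48) (nat_lit 5) (nat_lit 45) (nat_lit 5) (nat_lit 321) (nat_lit 254) (nat_lit 205)) (XT.lf (nat_lit 0) (nat_lit 4821588908) (nat_lit 304) (nat_lit 1922411396) (nat_lit 76) (nat_lit 6297584944) (nat_lit 44) (nat_lit 5) (nat_lit 48) (nat_lit 5) (nat_lit 45) (nat_lit 5) (nat_lit 322) (nat_lit 254) (nat_lit 204)))))) (XT.nd (nat_lit 390) (nat_lit 608) (nat_lit 0) (XT.nd (nat_lit 156) (nat_lit 304) (nat_lit 0) (XT.nd (nat_lit 78) (nat_lit 0) (nat_lit 0) (XT.lf (nat_lit 0) (nat_lit 3669748059) (nat_lit 228) (nat_lit 3715888762) (nat_lit 304) (nat_lit 5925885979) (nat_lit 41) (nat_lit 5) (nat_lit 44) (nat_lit 5) (nat_lit 45) (nat_lit 5) (nat_lit 323) (nat_lit 254) (nat_lit 203)) (XT.lf (nat_lit 0) (nat_lit 9418081643) (nat_lit 228) (nat_lit 592903721) (nat_lit 304) (nat_lit 3579103290) (nat_lit 41) (nat_lit 5) (nat_lit 44) (nat_lit 5) (nat_lit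 45) (nat_lit 5) (nat_lit 324) (nat_lit 254) (nat_lit 202))) (XT.nd (nat_lit 78) (nat_lit 76) (nat_lit 0) (XT.lf (nat_lit 0) (nat_lit 1413776352) (nat_lit 228) (nat_lit 11305967388) (nat_lit 304) (nat_lit 1157188020) (nat_lit 38) (nat_lit 5) (nat_lit 41) (nat_lit 5) (nat_lit 42) (nat_lit 5) (nat_lit 325) (nat_lit 254) (nat_lit 201)) (XT.nd (nat_lit 78) (nat_lit 0) (nat_lit 0) (XT.lf (nat_lit 0) (nat_lit 1325666900) (nat_lit 304) (nat_lit 6988287393) (nat_lit 76) (nat_lit 5857665141) (nat_lit 37) (nat_lit 5) (nat_lit 41) (nat_lit 5) (nat_lit 38) (nat_lit 5) (nat_lit 326) (nat_lit 254) (nat_lit 200)) (XT.lf (nat_lit 0) (nat_lit 3826703352) (nat_lit 304) (nat_lit 1409837597) (nat_lit 76) (nat_lit 9239309132) (nat_lit 37) (nat_lit 5) (nat_lit 41) (nat_lit 5) (nat_lit 38) (nat_lit 5) (nat_lit 327) (nat_lit 254) (nat_lit 199))))) (XT.nd (nat_lit 234) (nat_lit 228) (nat_lit 0) (XT.nd (nat_lit 78) (nat_lit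 228) (nat_lit 0) (XT.lf (nat_lit 0) (nat_lit 4373535380) (nat_lit 152) (nat_lit 2039193329) (nat_lit 228) (nat_lit 8376233298) (nat_lit 35) (nat_lit 5) (nat_lit 37) (nat_lit 5) (nat_lit 38) (nat_lit 5) (nat_lit 328) (nat_lit 254) (nat_lit 198)) (XT.nd (nat_lit 78) (nat_lit 228) (nat_lit 0) (XT.lf (nat_lit 0) (nat_lit 9071012828) (nat_lit 228) (nat_lit 4812080339) (nat_lit 76) (nat_lit 1228585332) (nat_lit 35) (nat_lit 5) (nat_lit 38) (nat_lit 5) (nat_lit 36) (nat_lit 5) (nat_lit 329) (nat_lit 254) (nat_lit 197)) (XT.lf (nat_lit 0) (nat_lit 910185763) (nat_lit 228) (nat_lit 10896969406) (nat_lit 304) (nat_lit 3637028074) (nat_lit 32) (nat_lit 5) (nat_lit 35) (nat_lit 5) (nat_lit 36) (nat_lit 5) (nat_lit 330) (nat_lit 254) (nat_lit 196)))) (XT.nd (nat_lit 78) (nat_lit 228) (nat_lit 0) (XT.lf (nat_lit 0) (nat_lit 6856469582) (nat_lit 228) (nat_lit 7787128128) (nat_lit 304) (nat_lit 1142567530)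 (nat_lit 32) (nat_lit 5) (nat_lit 35) (nat_lit 5) (nat_lit 36) (nat_lit 5) (nat_lit 331) (nat_lit 254) (nat_lit 195)) (XT.nd (nat_lit 78) (nat_lit 152) (nat_lit 0) (XT.lf (nat_lit 0) (nat_lit 1369056109) (nat_lit 304) (nat_lit 3216563681) (nat_lit 76) (nat_lit 11553316175) (nat_lit 31) (nat_lit 5) (nat_lit 35) (nat_lit 5) (nat_lit 32) (nat_lit 5) (nat_lit 332) (nat_lit 254) (nat_lit 194)) (XT.lf (nat_lit 0) (nat_lit 2664384821) (nat_lit 152) (nat_lit 1265329555) (nat_lit 228) (nat_lit 12572381012) (nat_lit 29) (nat_lit 5) (nat_lit 31) (nat_lit 5) (nat_lit 32) (nat_lit 5) (nat_lit 333) (nat_lit 254) (nat_lit 193))))))) (XT.nd (nat_lit 858) (nat_lit 532) (nat_lit 0) (XT.nd (nat_lit 390) (nat_lit 380) (nat_lit 0) (XT.nd (nat_lit 156) (nat_lit 152) (nat_lit 0) (XT.nd (nat_lit 78) (nat_lit 0) (nat_lit 0) (XT.lf (nat_lit 0) (nat_lit 6592020074) (nat_lit 228) (nat_lit 8153084785) (nat_lit 76) (nat_lit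 2130343076) (nat_lit 29) (nat_lit 5) (nat_lit 32) (nat_lit 5) (nat_lit 30) (nat_lit 5) (nat_lit 334) (nat_lit 254) (nat_lit 192)) (XT.lf (nat_lit 0) (nat_lit 9318872534) (nat_lit 228) (nat_lit 2353725104) (nat_lit 76) (nat_lit 5587905006) (nat_lit 29) (nat_lit 5) (nat_lit 32) (nat_lit 5) (nat_lit 30) (nat_lit 5) (nat_lit 335) (nat_lit 254) (nat_lit 191))) (XT.nd (nat_lit 78) (nat_lit 0) (nat_lit 0) (XT.lf (nat_lit 0) (nat_lit 3648800231) (nat_lit 152) (nat_lit 8486765589) (nat_lit 228) (nat_lit 5521342810) (nat_lit 27) (nat_lit 5) (nat_lit 29) (nat_lit 5) (nat_lit 30) (nat_lit 5) (nat_lit 336) (nat_lit 254) (nat_lit 190)) (XT.nd (nat_lit 78) (nat_lit 0) (nat_lit 0) (XT.lf (nat_lit 0) (nat_lit 9838045941) (nat_lit 152) (nat_lit 5195830350) (nat_lit 228) (nat_lit 3031456521) (nat_lit 27) (nat_lit 5) (nat_lit 29) (nat_lit 5) (nat_lit 30) (nat_lit 5) (nat_lit 337) (nat_lit 254) (nat_lit 189)) (XT.lf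 (nat_lit 0) (nat_lit 16172576358) (nat_lit 152) (nat_lit 1820684356) (nat_lit 228) (nat_lit 493563623) (nat_lit 27) (nat_lit 5) (nat_lit 29) (nat_lit 5) (nat_lit 30) (nat_lit 5) (nat_lit 338) (nat_lit 254) (nat_lit 188))))) (XT.nd (nat_lit 234) (nat_lit 152) (nat_lit 0) (XT.nd (nat_lit 78) (nat_lit 0) (nat_lit 0) (XT.lf (nat_lit 0) (nat_lit 2106453279) (nat_lit 228) (nat_lit 15146397472) (nat_lit 76) (nat_lit 1666713561) (nat_lit 24) (nat_lit 5) (nat_lit 27) (nat_lit 5) (nat_lit 25) (nat_lit 5) (nat_lit 339) (nat_lit 254) (nat_lit 187)) (XT.nd (nat_lit 78) (nat_lit 0) (nat_lit 0) (XT.lf (nat_lit 0) (nat_lit 4790994816) (nat_lit 228) (nat_lit 9337103193) (nat_lit 76) (nat_lit 5236583647) (nat_lit 24) (nat_lit 5) (nat_lit 27) (nat_lit 5) (nat_lit 25) (nat_lit 5) (nat_lit 340) (nat_lit 254) (nat_lit 186)) (XT.lf (nat_lit 0) (nat_lit 7531623031) (nat_lit 228) (nat_lit 3392381524) (nat_lit 76) (nat_lit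 8899915533) (nat_lit 24) (nat_lit 5) (nat_lit 27) (nat_lit 5) (nat_lit 25) (nat_lit 5) (nat_lit 341) (nat_lit 254) (nat_lit 185)))) (XT.nd (nat_lit 78) (nat_lit 0) (nat_lit 0) (XT.lf (nat_lit 0) (nat_lit 2746557175) (nat_lit 152) (nat_lit 7610577059) (nat_lit 228) (nat_lit 9939754602) (nat_lit 22) (nat_lit 5) (nat_lit 24) (nat_lit 5) (nat_lit 25) (nat_lit 5) (nat_lit 342) (nat_lit 254) (nat_lit 184)) (XT.nd (nat_lit 78) (nat_lit 0) (nat_lit 0) (XT.lf (nat_lit 0) (nat_lit 9101854490) (nat_lit 152) (nat_lit 4176407589) (nat_lit 228) (nat_lit 7505491151) (nat_lit 22) (nat_lit 5) (nat_lit 24) (nat_lit 5) (nat_lit 25) (nat_lit 5) (nat_lit 343) (nat_lit 254) (nat_lit 183)) (XT.lf (nat_lit 0) (nat_lit 15611548548) (nat_lit 152) (nat_lit 652751817) (nat_lit 228) (nat_lit 5021636079) (nat_lit 22) (nat_lit 5) (nat_lit 24) (nat_lit 5) (nat_lit 25) (nat_lit 5) (nat_lit 344) (nat_lit 254) (nat_lit 182))))))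 (XT.nd (nat_lit 468) (nat_lit 152) (nat_lit 0) (XT.nd (nat_lit 234) (nat_lit 152) (nat_lit 0) (XT.nd (nat_lit 78) (nat_lit 76) (nat_lit 0) (XT.lf (nat_lit 0) (nat_lit 457898725) (nat_lit 152) (nat_lit 18892847810) (nat_lit 228) (nat_lit 2452144099) (nat_lit 20) (nat_lit 5) (nat_lit 22) (nat_lit 5) (nat_lit 23) (nat_lit 4) (nat_lit 345) (nat_lit 254) (nat_lit 181)) (XT.nd (nat_lit 78) (nat_lit 0) (nat_lit 0) (XT.lf (nat_lit 0) (nat_lit 232841351) (nat_lit 228) (nat_lit 15487950321) (nat_lit 76) (nat_lit 6613268164) (nat_lit 19) (nat_lit 5) (nat_lit 22) (nat_lit 5) (nat_lit 20) (nat_lit 5) (nat_lit 346) (nat_lit 254) (nat_lit 180)) (XT.lf (nat_lit 0) (nat_lit 2927607572) (nat_lit 228) (nat_lit 9514320790) (nat_lit 76) (nat_lit 10439179596) (nat_lit 19) (nat_lit 5) (nat_lit 22) (nat_lit 5) (nat_lit 20) (nat_lit 5) (nat_lit 347) (nat_lit 254) (nat_lit 179)))) (XT.nd (nat_lit 78) (nat_lit 152) (nat_lit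 0) (XT.lf (nat_lit 0) (nat_lit 5682359378) (nat_lit 228) (nat_lit 3395312129) (nat_lit 76) (nat_lit 14367548640) (nat_lit 19) (nat_lit 5) (nat_lit 22) (nat_lit 5) (nat_lit 20) (nat_lit 5) (nat_lit 348) (nat_lit 254) (nat_lit 178)) (XT.nd (nat_lit 78) (nat_lit 0) (nat_lit 0) (XT.lf (nat_lit 0) (nat_lit 2931629007) (nat_lit 152) (nat_lit 5596055438) (nat_lit 228) (nat_lit 15498359457) (nat_lit 17) (nat_lit 5) (nat_lit 19) (nat_lit 5) (nat_lit 20) (nat_lit 5) (nat_lit 349) (nat_lit 254) (nat_lit 177)) (XT.lf (nat_lit 0) (nat_lit 9485456528) (nat_lit 152) (nat_lit 1987226004) (nat_lit 228) (nat_lit 13151205797) (nat_lit 17) (nat_lit 5) (nat_lit 19) (nat_lit 5) (nat_lit 20) (nat_lit 5) (nat_lit 350) (nat_lit 254) (nat_lit 176))))) (XT.nd (nat_lit 234) (nat_lit 76) (nat_lit 0) (XT.nd (nat_lit 78) (nat_lit 76) (nat_lit 0) (XT.lf (nat_lit 0) (nat_lit 14503150995) (nat_lit 228) (nat_lit 9052462161) (nat_lit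 76) (nat_lit 1684165939) (nat_lit 17) (nat_lit 5) (nat_lit 20) (nat_lit 5) (nat_lit 18) (nat_lit 4) (nat_lit 351) (nat_lit 254) (nat_lit 175)) (XT.nd (nat_lit 78) (nat_lit 76) (nat_lit 0) (XT.lf (nat_lit 0) (nat_lit 17625269096) (nat_lit 228) (nat_lit 2834719415) (nat_lit 76) (nat_lit 5414159910) (nat_lit 17) (nat_lit 5) (nat_lit 20) (nat_lit 5) (nat_lit 18) (nat_lit 4) (nat_lit 352) (nat_lit 254) (nat_lit 174)) (XT.lf (nat_lit 0) (nat_lit 3609771490) (nat_lit 76) (nat_lit 17247590308) (nat_lit 152) (nat_lit 5669720902) (nat_lit 16) (nat_lit 5) (nat_lit 17) (nat_lit 5) (nat_lit 18) (nat_lit 4) (nat_lit 353) (nat_lit 254) (nat_lit 173)))) (XT.nd (nat_lit 78) (nat_lit 76) (nat_lit 0) (XT.lf (nat_lit 0) (nat_lit 10275778638) (nat_lit 76) (nat_lit 13921123378) (nat_lit 152) (nat_lit 3002410980) (nat_lit 16) (nat_lit 5) (nat_lit 17) (nat_lit 5) (nat_lit 18) (nat_lit 4) (nat_lit 354) (nat_lit 254)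 (nat_lit 172)) (XT.nd (nat_lit 78) (nat_lit 76) (nat_lit 0) (XT.lf (nat_lit 0) (nat_lit 17112710219) (nat_lit 76) (nat_lit 10506306209) (nat_lit 152) (nat_lit 273244009) (nat_lit 16) (nat_lit 5) (nat_lit 17) (nat_lit 5) (nat_lit 18) (nat_lit 4) (nat_lit 355) (nat_lit 254) (nat_lit 171)) (XT.lf (nat_lit 0) (nat_lit 2470987230) (nat_lit 152) (nat_lit 4504215623) (nat_lit 76) (nat_lit 21630600895) (nat_lit 15) (nat_lit 5) (nat_lit 17) (nat_lit 5) (nat_lit 16) (nat_lit 5) (nat_lit 356) (nat_lit 254) (nat_lit 170))))))))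
noncomputable def xc95 : XT := (XT.nd (nat_lit 1794) (nat_lit 228) (nat_lit 0) (XT.nd (nat_lit 858) (nat_lit 76) (nat_lit 0) (XT.nd (nat_lit 390) (nat_lit 304) (nat_lit 0) (XT.nd (nat_lit 156) (nat_lit 0) (nat_lit 0) (XT.nd (nat_lit 78) (nat_lit 0) (nat_lit 0) (XT.lf (nat_lit 0) (nat_lit 1967321201) (nat_lit 152) (nat_lit 3326857772) (nat_lit 228) (nat_lit 24046449476) (nat_lit 13) (nat_lit 5) (nat_lit 15) (nat_lit 5) (nat_lit 16) (nat_lit 5) (nat_lit 357) (nat_lit 254) (nat_lit 169)) (XT.lf (nat_lit 0) (nat_lit 8235477368) (nat_lit 228) (nat_lit 21403271372) (nat_lit 76) (nat_lit 457766259) (nat_lit 13) (nat_lit 5) (nat_lit 16) (nat_lit 5) (nat_lit 14) (nat_lit 4) (nat_lit 358) (nat_lit 254) (nat_lit 168))) (XT.nd (nat_lit 78) (nat_lit 0) (nat_lit 0) (XT.lf (nat_lit 0) (nat_lit 11281773690) (nat_lit 228) (nat_lit 15314142884) (nat_lit 76) (nat_lit 4278677674) (nat_lit 13) (nat_lit 5) (nat_lit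 16) (nat_lit 5) (nat_lit 14) (nat_lit 4) (nat_lit 359) (nat_lit 254) (nat_lit 167)) (XT.nd (nat_lit 78) (nat_lit 0) (nat_lit 0) (XT.lf (nat_lit 0) (nat_lit 14403749958) (nat_lit 228) (nat_lit 9068621394) (nat_lit 76) (nat_lit 8204134108) (nat_lit 13) (nat_lit 5) (nat_lit 16) (nat_lit 5) (nat_lit 14) (nat_lit 4) (nat_lit 360) (nat_lit 254) (nat_lit 166)) (XT.lf (nat_lit 0) (nat_lit 17604134113) (nat_lit 228) (nat_lit 2661249650) (nat_lit 76) (nat_lit 12237565574) (nat_lit 13) (nat_lit 5) (nat_lit 16) (nat_lit 5) (nat_lit 14) (nat_lit 4) (nat_lit 361) (nat_lit 254) (nat_lit 165))))) (XT.nd (nat_lit 234) (nat_lit 228) (nat_lit 0) (XT.nd (nat_lit 78) (nat_lit 0) (nat_lit 0) (XT.lf (nat_lit 0) (nat_lit 3991458758) (nat_lit 76) (nat_lit 16932632192) (nat_lit 152) (nat_lit 12429406012) (nat_lit 12) (nat_lit 5) (nat_lit 13) (nat_lit 5) (nat_lit 14) (nat_lit 4) (nat_lit 362) (nat_lit 254) (nat_lit 164))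 (XT.nd (nat_lit 78) (nat_lit 0) (nat_lit 0) (XT.lf (nat_lit 0) (nat_lit 10873772069) (nat_lit 76) (nat_lit 13482136129) (nat_lit 152) (nat_lit 9873301734) (nat_lit 12) (nat_lit 5) (nat_lit 13) (nat_lit 5) (nat_lit 14) (nat_lit 4) (nat_lit 363) (nat_lit 254) (nat_lit 163)) (XT.lf (nat_lit 0) (nat_lit 17938739867) (nat_lit 76) (nat_lit 9937753980) (nat_lit 152) (nat_lit 7255142303) (nat_lit 12) (nat_lit 5) (nat_lit 13) (nat_lit 5) (nat_lit 14) (nat_lit 4) (nat_lit 364) (nat_lit 254) (nat_lit 162)))) (XT.nd (nat_lit 78) (nat_lit 228) (nat_lit 0) (XT.lf (nat_lit 0) (nat_lit 25192535425) (nat_lit 76) (nat_lit 6296388712) (nat_lit 152) (nat_lit 4572640008) (nat_lit 12) (nat_lit 5) (nat_lit 13) (nat_lit 5) (nat_lit 14) (nat_lit 4) (nat_lit 365) (nat_lit 254) (nat_lit 161)) (XT.nd (nat_lit 78) (nat_lit 228) (nat_lit 0) (XT.lf (nat_lit 0) (nat_lit 32641497012) (nat_lit 76) (nat_lit 2554858549) (nat_lit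 152) (nat_lit 1823450913) (nat_lit 12) (nat_lit 5) (nat_lit 13) (nat_lit 5) (nat_lit 14) (nat_lit 4) (nat_lit 366) (nat_lit 254) (nat_lit 160)) (XT.lf (nat_lit 0) (nat_lit 1010438906) (nat_lit 228) (nat_lit 35698306736) (nat_lit 76) (nat_lit 1297117180) (nat_lit 9) (nat_lit 5) (nat_lit 12) (nat_lit 5) (nat_lit 10) (nat_lit 4) (nat_lit 367) (nat_lit 254) (nat_lit 159)))))) (XT.nd (nat_lit 468) (nat_lit 0) (nat_lit 0) (XT.nd (nat_lit 234) (nat_lit 76) (nat_lit 0) (XT.nd (nat_lit 78) (nat_lit 0) (nat_lit 0) (XT.lf (nat_lit 0) (nat_lit 3949602805) (nat_lit 228) (nat_lit 29802383594) (nat_lit 76) (nat_lit 5267279672) (nat_lit 9) (nat_lit 5) (nat_lit 12) (nat_lit 5) (nat_lit 10) (nat_lit 4) (nat_lit 368) (nat_lit 254) (nat_lit 158)) (XT.nd (nat_lit 78) (nat_lit 0) (nat_lit 0) (XT.lf (nat_lit 0) (nat_lit 6964282616) (nat_lit 228) (nat_lit 23751107434) (nat_lit 76) (nat_lit 9348074770) (nat_lit 9) (nat_lit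 5) (nat_lit 12) (nat_lit 5) (nat_lit 10) (nat_lit 4) (nat_lit 369) (nat_lit 254) (nat_lit 157)) (XT.lf (nat_lit 0) (nat_lit 10057112527) (nat_lit 228) (nat_lit 17539190732) (nat_lit 76) (nat_lit 13543068216) (nat_lit 9) (nat_lit 5) (nat_lit 12) (nat_lit 5) (nat_lit 10) (nat_lit 4) (nat_lit 370) (nat_lit 254) (nat_lit 156)))) (XT.nd (nat_lit 78) (nat_lit 76) (nat_lit 0) (XT.lf (nat_lit 0) (nat_lit 13230795009) (nat_lit 228) (nat_lit 11161205601) (nat_lit 76) (nat_lit 17855925538) (nat_lit 9) (nat_lit 5) (nat_lit 12) (nat_lit 5) (nat_lit 10) (nat_lit 4) (nat_lit 371) (nat_lit 254) (nat_lit 155)) (XT.nd (nat_lit 78) (nat_lit 76) (nat_lit 0) (XT.lf (nat_lit 0) (nat_lit 16488103184) (nat_lit 228) (nat_lit 4611579042) (nat_lit 76) (nat_lit 22290415253) (nat_lit 9) (nat_lit 5) (nat_lit 12) (nat_lit 5) (nat_lit 10) (nat_lit 4) (nat_lit 372) (nat_lit 254) (nat_lit 154)) (XT.lf (nat_lit 0) (nat_lit 2157512761)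 (nat_lit 76) (nat_lit 17695109813) (nat_lit 152) (nat_lit 24713638728) (nat_lit 8) (nat_lit 5) (nat_lit 9) (nat_lit 5) (nat_lit 10) (nat_lit 4) (nat_lit 373) (nat_lit 254) (nat_lit 153))))) (XT.nd (nat_lit 234) (nat_lit 0) (nat_lit 0) (XT.nd (nat_lit 78) (nat_lit 0) (nat_lit 0) (XT.lf (nat_lit 0) (nat_lit 9205273268) (nat_lit 76) (nat_lit 14148270384) (nat_lit 152) (nat_lit 22423114163) (nat_lit 8) (nat_lit 5) (nat_lit 9) (nat_lit 5) (nat_lit 10) (nat_lit 4) (nat_lit 374) (nat_lit 254) (nat_lit 152)) (XT.nd (nat_lit 78) (nat_lit 0) (nat_lit 0) (XT.lf (nat_lit 0) (nat_lit 16446081249) (nat_lit 76) (nat_lit 10502632666) (nat_lit 152) (nat_lit 20074987080) (nat_lit 8) (nat_lit 5) (nat_lit 9) (nat_lit 5) (nat_lit 10) (nat_lit 4) (nat_lit 375) (nat_lit 254) (nat_lit 151)) (XT.lf (nat_lit 0) (nat_lit 23886263624) (nat_lit 76) (nat_lit 6755011149) (nat_lit 152) (nat_lit 17667205715) (nat_lit 8) (nat_lit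 5) (nat_lit 9) (nat_lit 5) (nat_lit 10) (nat_lit 4) (nat_lit 376) (nat_lit 254) (nat_lit 150)))) (XT.nd (nat_lit 78) (nat_lit 0) (nat_lit 0) (XT.lf (nat_lit 0) (nat_lit 31532321522) (nat_lit 76) (nat_lit 2902131213) (nat_lit 152) (nat_lit 15197666182) (nat_lit 8) (nat_lit 5) (nat_lit 9) (nat_lit 5) (nat_lit 10) (nat_lit 4) (nat_lit 377) (nat_lit 254) (nat_lit 149)) (XT.nd (nat_lit 78) (nat_lit 0) (nat_lit 0) (XT.lf (nat_lit 0) (nat_lit 38341745579) (nat_lit 152) (nat_lit 11615020244) (nat_lit 0) (nat_lit 1038701538) (nat_lit 8) (nat_lit 5) (nat_lit 10) (nat_lit 4) (nat_lit 8) (nat_lit 4) (nat_lit 378) (nat_lit 254) (nat_lit 148)) (XT.lf (nat_lit 0) (nat_lit 42385349700) (nat_lit 152) (nat_lit 4981001359) (nat_lit 0) (nat_lit 5032802567) (nat_lit 8) (nat_lit 5) (nat_lit 10) (nat_lit 4) (nat_lit 8) (nat_lit 4) (nat_lit 379) (nat_lit 254) (nat_lit 147))))))) (XT.nd (nat_lit 858) (nat_lit 0) (nat_lit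 0) (XT.nd (nat_lit 390) (nat_lit 76) (nat_lit 0) (XT.nd (nat_lit 156) (nat_lit 76) (nat_lit 0) (XT.nd (nat_lit 78) (nat_lit 0) (nat_lit 0) (XT.lf (nat_lit 0) (nat_lit 1872492102) (nat_lit 76) (nat_lit 44686408724) (nat_lit 76) (nat_lit 7285800336) (nat_lit 7) (nat_lit 4) (nat_lit 8) (nat_lit 5) (nat_lit 8) (nat_lit 4) (nat_lit 380) (nat_lit 254) (nat_lit 146)) (XT.lf (nat_lit 0) (nat_lit 9017768652) (nat_lit 76) (nat_lit 41880947057) (nat_lit 76) (nat_lit 4433677257) (nat_lit 7) (nat_lit 4) (nat_lit 8) (nat_lit 5) (nat_lit 8) (nat_lit 4) (nat_lit 381) (nat_lit 254) (nat_lit 145))) (XT.nd (nat_lit 78) (nat_lit 76) (nat_lit 0) (XT.lf (nat_lit 0) (nat_lit 16361940043) (nat_lit 76) (nat_lit 38997813033) (nat_lit 76) (nat_lit 1505240890) (nat_lit 7) (nat_lit 4) (nat_lit 8) (nat_lit 5) (nat_lit 8) (nat_lit 4) (nat_lit 382) (nat_lit 254) (nat_lit 144)) (XT.nd (nat_lit 78) (nat_lit 0) (nat_lit 0) (XT.lf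 (nat_lit 0) (nat_lit 1472756842) (nat_lit 152) (nat_lit 34546858608) (nat_lit 76) (nat_lit 22423794713) (nat_lit 6) (nat_lit 5) (nat_lit 8) (nat_lit 5) (nat_lit 7) (nat_lit 4) (nat_lit 383) (nat_lit 254) (nat_lit 143)) (XT.lf (nat_lit 0) (nat_lit 4501291408) (nat_lit 152) (nat_lit 28441635241) (nat_lit 76) (nat_lit 27126070069) (nat_lit 6) (nat_lit 5) (nat_lit 8) (nat_lit 5) (nat_lit 7) (nat_lit 4) (nat_lit 384) (nat_lit 254) (nat_lit 142))))) (XT.nd (nat_lit 234) (nat_lit 76) (nat_lit 0) (XT.nd (nat_lit 78) (nat_lit 0) (nat_lit 0) (XT.lf (nat_lit 0) (nat_lit 7612381772) (nat_lit 152) (nat_lit 22167579863) (nat_lit 76) (nat_lit 31963646488) (nat_lit 6) (nat_lit 5) (nat_lit 8) (nat_lit 5) (nat_lit 7) (nat_lit 4) (nat_lit 385) (nat_lit 254) (nat_lit 141)) (XT.nd (nat_lit 78) (nat_lit 0) (nat_lit 0) (XT.lf (nat_lit 0) (nat_lit 10808746361) (nat_lit 152) (nat_lit 15719210291) (nat_lit 76) (nat_lit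 36940750980) (nat_lit 6) (nat_lit 5) (nat_lit 8) (nat_lit 5) (nat_lit 7) (nat_lit 4) (nat_lit 386) (nat_lit 254) (nat_lit 140)) (XT.lf (nat_lit 0) (nat_lit 14093178116) (nat_lit 152) (nat_lit 9090892026) (nat_lit 76) (nat_lit 42061732471) (nat_lit 6) (nat_lit 5) (nat_lit 8) (nat_lit 5) (nat_lit 7) (nat_lit 4) (nat_lit 387) (nat_lit 254) (nat_lit 139)))) (XT.nd (nat_lit 78) (nat_lit 76) (nat_lit 0) (XT.lf (nat_lit 0) (nat_lit 17468546929) (nat_lit 152) (nat_lit 2276833335) (nat_lit 76) (nat_lit 47331065604) (nat_lit 6) (nat_lit 5) (nat_lit 8) (nat_lit 5) (nat_lit 7) (nat_lit 4) (nat_lit 388) (nat_lit 254) (nat_lit 138)) (XT.nd (nat_lit 78) (nat_lit 0) (nat_lit 0) (XT.lf (nat_lit 0) (nat_lit 4823034590) (nat_lit 76) (nat_lit 16161129519) (nat_lit 152) (nat_lit 47976682021) (nat_lit 5) (nat_lit 5) (nat_lit 6) (nat_lit 5) (nat_lit 7) (nat_lit 4) (nat_lit 389) (nat_lit 254) (nat_lit 137)) (XT.lf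 (nat_lit 0) (nat_lit 12169968880) (nat_lit 76) (nat_lit 12450991474) (nat_lit 152) (nat_lit 46280353843) (nat_lit 5) (nat_lit 5) (nat_lit 6) (nat_lit 5) (nat_lit 7) (nat_lit 4) (nat_lit 390) (nat_lit 254) (nat_lit 136)))))) (XT.nd (nat_lit 468) (nat_lit 0) (nat_lit 0) (XT.nd (nat_lit 234) (nat_lit 0) (nat_lit 0) (XT.nd (nat_lit 78) (nat_lit 0) (nat_lit 0) (XT.lf (nat_lit 0) (nat_lit 19725075738) (nat_lit 76) (nat_lit 8634715813) (nat_lit 152) (nat_lit 44540423729) (nat_lit 5) (nat_lit 5) (nat_lit 6) (nat_lit 5) (nat_lit 7) (nat_lit 4) (nat_lit 391) (nat_lit 254) (nat_lit 135)) (XT.nd (nat_lit 78) (nat_lit 0) (nat_lit 0) (XT.lf (nat_lit 0) (nat_lit 27494956713) (nat_lit 76) (nat_lit 4708967928) (nat_lit 152) (nat_lit 42755371352) (nat_lit 5) (nat_lit 5) (nat_lit 6) (nat_lit 5) (nat_lit 7) (nat_lit 4) (nat_lit 392) (nat_lit 254) (nat_lit 134)) (XT.lf (nat_lit 0) (nat_lit 35486401023) (nat_lit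 76) (nat_lit 670317552) (nat_lit 152) (nat_lit 40923636958) (nat_lit 5) (nat_lit 5) (nat_lit 6) (nat_lit 5) (nat_lit 7) (nat_lit 4) (nat_lit 393) (nat_lit 254) (nat_lit 133)))) (XT.nd (nat_lit 78) (nat_lit 0) (nat_lit 0) (XT.lf (nat_lit 0) (nat_lit 40255124935) (nat_lit 152) (nat_lit 35592353456) (nat_lit 0) (nat_lit 3416763929) (nat_lit 5) (nat_lit 5) (nat_lit 7) (nat_lit 4) (nat_lit 5) (nat_lit 4) (nat_lit 394) (nat_lit 254) (nat_lit 132)) (XT.nd (nat_lit 78) (nat_lit 0) (nat_lit 0) (XT.lf (nat_lit 0) (nat_lit 44476795511) (nat_lit 152) (nat_lit 29428362657) (nat_lit 0) (nat_lit 7608484320) (nat_lit 5) (nat_lit 5) (nat_lit 7) (nat_lit 4) (nat_lit 5) (nat_lit 4) (nat_lit 395) (nat_lit 254) (nat_lit 131)) (XT.lf (nat_lit 0) (nat_lit 48818975639) (nat_lit 152) (nat_lit 23090152600) (nat_lit 0) (nat_lit 11921586598) (nat_lit 5) (nat_lit 5) (nat_lit 7) (nat_lit 4) (nat_lit 5) (nat_lit 4) (nat_lit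 396) (nat_lit 254) (nat_lit 130))))) (XT.nd (nat_lit 30810) (nat_lit 0) (nat_lit 16872) (XT.nd (nat_lit 78) (nat_lit 0) (nat_lit 0) (XT.lf (nat_lit 0) (nat_lit 53285459455) (nat_lit 152) (nat_lit 16572185042) (nat_lit 0) (nat_lit 16359839493) (nat_lit 5) (nat_lit 5) (nat_lit 7) (nat_lit 4) (nat_lit 5) (nat_lit 4) (nat_lit 397) (nat_lit 254) (nat_lit 129)) (XT.nd (nat_lit 30654) (nat_lit 0) (nat_lit 17784) (XT.lf (nat_lit 0) (nat_lit 57880149715) (nat_lit 152) (nat_lit 9868764673) (nat_lit 0) (nat_lit 20927121090) (nat_lit 5) (nat_lit 5) (nat_lit 7) (nat_lit 4) (nat_lit 5) (nat_lit 4) (nat_lit 398) (nat_lit 254) (nat_lit 128)) (XT.lf (nat_lit 0) (nat_lit 1174076441) (nat_lit 380) (nat_lit 931402770) (nat_lit 0) (nat_lit 1174076441) (nat_lit 239) (nat_lit 5) (nat_lit 244) (nat_lit 4) (nat_lit 239) (nat_lit 4) (nat_lit 270) (nat_lit 255) (nat_lit 255)))) (XT.nd (nat_lit 78) (nat_lit 532) (nat_lit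 0) (XT.lf (nat_lit 0) (nat_lit 1523465764) (nat_lit 380) (nat_lit 3618864938) (nat_lit 380) (nat_lit 1442172384) (nat_lit 234) (nat_lit 4) (nat_lit 239) (nat_lit 5) (nat_lit 239) (nat_lit 4) (nat_lit 271) (nat_lit 255) (nat_lit 254)) (XT.nd (nat_lit 78) (nat_lit 456) (nat_lit 0) (XT.lf (nat_lit 0) (nat_lit 1303475449) (nat_lit 456) (nat_lit 1643931133) (nat_lit 76) (nat_lit 3665624732) (nat_lit 233) (nat_lit 5) (nat_lit 239) (nat_lit 5) (nat_lit 234) (nat_lit 4) (nat_lit 272) (nat_lit 255) (nat_lit 253)) (XT.lf (nat_lit 0) (nat_lit 1829524678) (nat_lit 456) (nat_lit 2195722844) (nat_lit 532) (nat_lit 2619465417) (nat_lit 227) (nat_lit 5) (nat_lit 233) (nat_lit 5) (nat_lit 234) (nat_lit 4) (nat_lit 273) (nat_lit 255) (nat_lit 252))))))))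
noncomputable def xc96 : XT := (XT.nd (nat_lit 1716) (nat_lit 4256) (nat_lit 0) (XT.nd (nat_lit 858) (nat_lit 4484) (nat_lit 0) (XT.nd (nat_lit 390) (nat_lit 3344) (nat_lit 0) (XT.nd (nat_lit 156) (nat_lit 684) (nat_lit 0) (XT.nd (nat_lit 78) (nat_lit 532) (nat_lit 0) (XT.lf (nat_lit 0) (nat_lit 71106741) (nat_lit 532) (nat_lit 1306761682) (nat_lit 76) (nat_lit 5302135715) (nat_lit 226) (nat_lit 5) (nat_lit 233) (nat_lit 5) (nat_lit 227) (nat_lit 5) (nat_lit 274) (nat_lit 255) (nat_lit 251)) (XT.lf (nat_lit 0) (nat_lit 2257877832) (nat_lit 532) (nat_lit 462279601) (nat_lit 608) (nat_lit 3997879796) (nat_lit 219) (nat_lit 5) (nat_lit 226) (nat_lit 5) (nat_lit 227) (nat_lit 5) (nat_lit 275) (nat_lit 255) (nat_lit 250))) (XT.nd (nat_lit 78) (nat_lit 684) (nat_lit 0) (XT.lf (nat_lit 0) (nat_lit 5377572106) (nat_lit 608) (nat_lit 875088903) (nat_lit 76) (nat_lit 507046167) (nat_lit 219) (nat_lit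 5) (nat_lit 227) (nat_lit 5) (nat_lit 220) (nat_lit 4) (nat_lit 276) (nat_lit 255) (nat_lit 249)) (XT.nd (nat_lit 78) (nat_lit 0) (nat_lit 0) (XT.lf (nat_lit 0) (nat_lit 1230618468) (nat_lit 684) (nat_lit 4016834453) (nat_lit 76) (nat_lit 1556813548) (nat_lit 210) (nat_lit 5) (nat_lit 219) (nat_lit 5) (nat_lit 211) (nat_lit 5) (nat_lit 277) (nat_lit 255) (nat_lit 248)) (XT.lf (nat_lit 0) (nat_lit 3817138578) (nat_lit 684) (nat_lit 355010189) (nat_lit 76) (nat_lit 2680240196) (nat_lit 210) (nat_lit 5) (nat_lit 219) (nat_lit 5) (nat_lit 211) (nat_lit 5) (nat_lit 278) (nat_lit 255) (nat_lit 247))))) (XT.nd (nat_lit 234) (nat_lit 1824) (nat_lit 0) (XT.nd (nat_lit 78) (nat_lit 836) (nat_lit 0) (XT.lf (nat_lit 0) (nat_lit 3416236957) (nat_lit 684) (nat_lit 3014593516) (nat_lit 760) (nat_lit 472959575) (nat_lit 201) (nat_lit 5) (nat_lit 210) (nat_lit 5) (nat_lit 211) (nat_lit 5) (nat_lit 279) (nat_lit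 255) (nat_lit 246)) (XT.nd (nat_lit 78) (nat_lit 0) (nat_lit 0) (XT.lf (nat_lit 0) (nat_lit 267245308) (nat_lit 760) (nat_lit 1780283924) (nat_lit 836) (nat_lit 4911174959) (nat_lit 190) (nat_lit 5) (nat_lit 200) (nat_lit 5) (nat_lit 201) (nat_lit 5) (nat_lit 280) (nat_lit 255) (nat_lit 245)) (XT.lf (nat_lit 0) (nat_lit 4133689014) (nat_lit 760) (nat_lit 454774137) (nat_lit 836) (nat_lit 2428326890) (nat_lit 190) (nat_lit 5) (nat_lit 200) (nat_lit 5) (nat_lit 201) (nat_lit 5) (nat_lit 281) (nat_lit 255) (nat_lit 244)))) (XT.nd (nat_lit 78) (nat_lit 912) (nat_lit 0) (XT.lf (nat_lit 0) (nat_lit 65440707) (nat_lit 912) (nat_lit 6097950525) (nat_lit 76) (nat_lit 915299419) (nat_lit 178) (nat_lit 5) (nat_lit 190) (nat_lit 5) (nat_lit 179) (nat_lit 5) (nat_lit 282) (nat_lit 255) (nat_lit 243)) (XT.nd (nat_lit 78) (nat_lit 912) (nat_lit 0) (XT.lf (nat_lit 0) (nat_lit 2541358833) (nat_lit 912) (nat_lit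 2220462204) (nat_lit 76) (nat_lit 2381491459) (nat_lit 178) (nat_lit 5) (nat_lit 190) (nat_lit 5) (nat_lit 179) (nat_lit 5) (nat_lit 283) (nat_lit 255) (nat_lit 242)) (XT.lf (nat_lit 0) (nat_lit 1739675987) (nat_lit 912) (nat_lit 3293106034) (nat_lit 988) (nat_lit 2179116126) (nat_lit 166) (nat_lit 5) (nat_lit 178) (nat_lit 5) (nat_lit 179) (nat_lit 5) (nat_lit 284) (nat_lit 255) (nat_lit 241)))))) (XT.nd (nat_lit 390) (nat_lit 1672) (nat_lit 0) (XT.nd (nat_lit 156) (nat_lit 1748) (nat_lit 0) (XT.nd (nat_lit 78) (nat_lit 988) (nat_lit 0) (XT.lf (nat_lit 0) (nat_lit 257955088) (nat_lit 988) (nat_lit 1489693757) (nat_lit 76) (nat_lit 5536616533) (nat_lit 165) (nat_lit 5) (nat_lit 178) (nat_lit 5) (nat_lit 166) (nat_lit 5) (nat_lit 285) (nat_lit 255) (nat_lit 240)) (XT.lf (nat_lit 0) (nat_lit 2574272114) (nat_lit 988) (nat_lit 102074374) (nat_lit 1064) (nat_lit 4683489438) (nat_lit 152) (nat_lit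 5) (nat_lit 165) (nat_lit 5) (nat_lit 166) (nat_lit 5) (nat_lit 286) (nat_lit 255) (nat_lit 239))) (XT.nd (nat_lit 78) (nat_lit 1748) (nat_lit 0) (XT.lf (nat_lit 0) (nat_lit 5126587714) (nat_lit 1064) (nat_lit 730451586) (nat_lit 76) (nat_lit 1582088111) (nat_lit 152) (nat_lit 5) (nat_lit 166) (nat_lit 5) (nat_lit 153) (nat_lit 5) (nat_lit 287) (nat_lit 255) (nat_lit 238)) (XT.nd (nat_lit 78) (nat_lit 608) (nat_lit 0) (XT.lf (nat_lit 0) (nat_lit 91447662) (nat_lit 1140) (nat_lit 4076890109) (nat_lit 76) (nat_lit 3353708808) (nat_lit 137) (nat_lit 5) (nat_lit 152) (nat_lit 5) (nat_lit 138) (nat_lit 5) (nat_lit 288) (nat_lit 255) (nat_lit 237)) (XT.lf (nat_lit 0) (nat_lit 64670518) (nat_lit 608) (nat_lit 2395838611) (nat_lit 684) (nat_lit 5148287285) (nat_lit 129) (nat_lit 5) (nat_lit 137) (nat_lit 5) (nat_lit 138) (nat_lit 5) (nat_lit 289) (nat_lit 255) (nat_lit 236))))) (XT.nd (nat_lit 234)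 (nat_lit 1064) (nat_lit 0) (XT.nd (nat_lit 78) (nat_lit 608) (nat_lit 0) (XT.lf (nat_lit 0) (nat_lit 4347314718) (nat_lit 608) (nat_lit 527217370) (nat_lit 684) (nat_lit 2824606773) (nat_lit 129) (nat_lit 5) (nat_lit 137) (nat_lit 5) (nat_lit 138) (nat_lit 5) (nat_lit 290) (nat_lit 255) (nat_lit 235)) (XT.nd (nat_lit 78) (nat_lit 76) (nat_lit 0) (XT.lf (nat_lit 0) (nat_lit 903486491) (nat_lit 532) (nat_lit 6414293079) (nat_lit 608) (nat_lit 475908680) (nat_lit 122) (nat_lit 5) (nat_lit 129) (nat_lit 5) (nat_lit 130) (nat_lit 5) (nat_lit 291) (nat_lit 255) (nat_lit 234)) (XT.lf (nat_lit 0) (nat_lit 1879857942) (nat_lit 608) (nat_lit 2626909089) (nat_lit 76) (nat_lit 3384700134) (nat_lit 121) (nat_lit 5) (nat_lit 129) (nat_lit 5) (nat_lit 122) (nat_lit 5) (nat_lit 292) (nat_lit 255) (nat_lit 233)))) (XT.nd (nat_lit 78) (nat_lit 532) (nat_lit 0) (XT.lf (nat_lit 0) (nat_lit 1727472688) (nat_lit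 532) (nat_lit 2522880113) (nat_lit 608) (nat_lit 3743260417) (nat_lit 114) (nat_lit 5) (nat_lit 121) (nat_lit 5) (nat_lit 122) (nat_lit 5) (nat_lit 293) (nat_lit 255) (nat_lit 232)) (XT.nd (nat_lit 78) (nat_lit 532) (nat_lit 0) (XT.lf (nat_lit 0) (nat_lit 6201173228) (nat_lit 532) (nat_lit 455539056) (nat_lit 608) (nat_lit 1443347269) (nat_lit 114) (nat_lit 5) (nat_lit 121) (nat_lit 5) (nat_lit 122) (nat_lit 5) (nat_lit 294) (nat_lit 255) (nat_lit 231)) (XT.lf (nat_lit 0) (nat_lit 887909816) (nat_lit 532) (nat_lit 5650948560) (nat_lit 76) (nat_lit 1671329913) (nat_lit 107) (nat_lit 5) (nat_lit 114) (nat_lit 5) (nat_lit 108) (nat_lit 5) (nat_lit 295) (nat_lit 255) (nat_lit 230))))))) (XT.nd (nat_lit 858) (nat_lit 1748) (nat_lit 0) (XT.nd (nat_lit 390) (nat_lit 1140) (nat_lit 0) (XT.nd (nat_lit 156) (nat_lit 912) (nat_lit 0) (XT.nd (nat_lit 78) (nat_lit 456) (nat_lit 0) (XT.lf (nat_lit 0) (nat_lit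 3224340148) (nat_lit 532) (nat_lit 1217916984) (nat_lit 76) (nat_lit 3882170933) (nat_lit 107) (nat_lit 5) (nat_lit 114) (nat_lit 5) (nat_lit 108) (nat_lit 5) (nat_lit 296) (nat_lit 255) (nat_lit 229)) (XT.lf (nat_lit 0) (nat_lit 3349470121) (nat_lit 456) (nat_lit 2255697430) (nat_lit 532) (nat_lit 2837856858) (nat_lit 101) (nat_lit 5) (nat_lit 107) (nat_lit 5) (nat_lit 108) (nat_lit 5) (nat_lit 297) (nat_lit 255) (nat_lit 228))) (XT.nd (nat_lit 78) (nat_lit 912) (nat_lit 0) (XT.lf (nat_lit 0) (nat_lit 8012927173) (nat_lit 532) (nat_lit 551216086) (nat_lit 76) (nat_lit 2524047) (nat_lit 101) (nat_lit 5) (nat_lit 108) (nat_lit 5) (nat_lit 102) (nat_lit 5) (nat_lit 298) (nat_lit 255) (nat_lit 227)) (XT.nd (nat_lit 78) (nat_lit 456) (nat_lit 0) (XT.lf (nat_lit 0) (nat_lit 1770454104) (nat_lit 456) (nat_lit 4589091595) (nat_lit 76) (nat_lit 2333900366) (nat_lit 95) (nat_lit 5) (nat_lit 101) (nat_lit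 5) (nat_lit 96) (nat_lit 5) (nat_lit 299) (nat_lit 255) (nat_lit 226)) (XT.lf (nat_lit 0) (nat_lit 17964460) (nat_lit 456) (nat_lit 4086179053) (nat_lit 532) (nat_lit 4721334053) (nat_lit 89) (nat_lit 5) (nat_lit 95) (nat_lit 5) (nat_lit 96) (nat_lit 5) (nat_lit 300) (nat_lit 255) (nat_lit 225))))) (XT.nd (nat_lit 234) (nat_lit 684) (nat_lit 0) (XT.nd (nat_lit 78) (nat_lit 456) (nat_lit 0) (XT.lf (nat_lit 0) (nat_lit 4794051602) (nat_lit 456) (nat_lit 1706228668) (nat_lit 532) (nat_lit 2461553366) (nat_lit 89) (nat_lit 5) (nat_lit 95) (nat_lit 5) (nat_lit 96) (nat_lit 5) (nat_lit 301) (nat_lit 255) (nat_lit 224)) (XT.nd (nat_lit 78) (nat_lit 76) (nat_lit 0) (XT.lf (nat_lit 0) (nat_lit 551718747) (nat_lit 380) (nat_lit 8376627010) (nat_lit 456) (nat_lit 175266033) (nat_lit 84) (nat_lit 5) (nat_lit 89) (nat_lit 5) (nat_lit 90) (nat_lit 5) (nat_lit 302) (nat_lit 255) (nat_lit 223)) (XT.lf (nat_lit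 0) (nat_lit 2144343701) (nat_lit 456) (nat_lit 3851972909) (nat_lit 76) (nat_lit 3252605275) (nat_lit 83) (nat_lit 5) (nat_lit 89) (nat_lit 5) (nat_lit 84) (nat_lit 5) (nat_lit 303) (nat_lit 255) (nat_lit 222)))) (XT.nd (nat_lit 78) (nat_lit 304) (nat_lit 0) (XT.lf (nat_lit 0) (nat_lit 943909751) (nat_lit 380) (nat_lit 3544570454) (nat_lit 456) (nat_lit 4911426659) (nat_lit 78) (nat_lit 5) (nat_lit 83) (nat_lit 5) (nat_lit 84) (nat_lit 5) (nat_lit 304) (nat_lit 255) (nat_lit 221)) (XT.nd (nat_lit 78) (nat_lit 304) (nat_lit 0) (XT.lf (nat_lit 0) (nat_lit 5901516797) (nat_lit 380) (nat_lit 990595778) (nat_lit 456) (nat_lit 2663751605) (nat_lit 78) (nat_lit 5) (nat_lit 83) (nat_lit 5) (nat_lit 84) (nat_lit 5) (nat_lit 305) (nat_lit 255) (nat_lit 220)) (XT.lf (nat_lit 0) (nat_lit 1238973720) (nat_lit 304) (nat_lit 8108171067) (nat_lit 380) (nat_lit 370091206) (nat_lit 74) (nat_lit 5) (nat_lit 78)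 (nat_lit 5) (nat_lit 79) (nat_lit 5) (nat_lit 306) (nat_lit 255) (nat_lit 219)))))) (XT.nd (nat_lit 468) (nat_lit 608) (nat_lit 0) (XT.nd (nat_lit 234) (nat_lit 684) (nat_lit 0) (XT.nd (nat_lit 78) (nat_lit 380) (nat_lit 0) (XT.lf (nat_lit 0) (nat_lit 1952442717) (nat_lit 380) (nat_lit 3618922297) (nat_lit 76) (nat_lit 4311649053) (nat_lit 73) (nat_lit 5) (nat_lit 78) (nat_lit 5) (nat_lit 74) (nat_lit 5) (nat_lit 307) (nat_lit 255) (nat_lit 218)) (XT.nd (nat_lit 78) (nat_lit 0) (nat_lit 0) (XT.lf (nat_lit 0) (nat_lit 1349389151) (nat_lit 380) (nat_lit 2954065336) (nat_lit 456) (nat_lit 5751318646) (nat_lit 68) (nat_lit 5) (nat_lit 73) (nat_lit 5) (nat_lit 74) (nat_lit 5) (nat_lit 308) (nat_lit 255) (nat_lit 217)) (XT.lf (nat_lit 0) (nat_lit 6482041502) (nat_lit 380) (nat_lit 233563252) (nat_lit 456) (nat_lit 3516463709) (nat_lit 68) (nat_lit 5) (nat_lit 73) (nat_lit 5) (nat_lit 74) (nat_lit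 5) (nat_lit 309) (nat_lit 255) (nat_lit 216)))) (XT.nd (nat_lit 78) (nat_lit 380) (nat_lit 0) (XT.lf (nat_lit 0) (nat_lit 1296098543) (nat_lit 304) (nat_lit 7896451527) (nat_lit 380) (nat_lit 1222458438) (nat_lit 64) (nat_lit 5) (nat_lit 68) (nat_lit 5) (nat_lit 69) (nat_lit 5) (nat_lit 310) (nat_lit 255) (nat_lit 215)) (XT.nd (nat_lit 78) (nat_lit 304) (nat_lit 0) (XT.lf (nat_lit 0) (nat_lit 1114167147) (nat_lit 380) (nat_lit 4104368963) (nat_lit 76) (nat_lit 5384783305) (nat_lit 63) (nat_lit 5) (nat_lit 68) (nat_lit 5) (nat_lit 64) (nat_lit 5) (nat_lit 311) (nat_lit 255) (nat_lit 214)) (XT.lf (nat_lit 0) (nat_lit 1011050864) (nat_lit 304) (nat_lit 2451782927) (nat_lit 380) (nat_lit 7335177766) (nat_lit 59) (nat_lit 5) (nat_lit 63) (nat_lit 5) (nat_lit 64) (nat_lit 5) (nat_lit 312) (nat_lit 255) (nat_lit 213))))) (XT.nd (nat_lit 234) (nat_lit 380) (nat_lit 0) (XT.nd (nat_lit 78) (nat_lit 228)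 (nat_lit 0) (XT.lf (nat_lit 0) (nat_lit 5885014407) (nat_lit 380) (nat_lit 4695317347) (nat_lit 76) (nat_lit 418208849) (nat_lit 59) (nat_lit 5) (nat_lit 64) (nat_lit 5) (nat_lit 60) (nat_lit 5) (nat_lit 313) (nat_lit 255) (nat_lit 212)) (XT.nd (nat_lit 78) (nat_lit 0) (nat_lit 0) (XT.lf (nat_lit 0) (nat_lit 477962747) (nat_lit 228) (nat_lit 7889380811) (nat_lit 304) (nat_lit 2838202671) (nat_lit 56) (nat_lit 5) (nat_lit 59) (nat_lit 5) (nat_lit 60) (nat_lit 5) (nat_lit 314) (nat_lit 255) (nat_lit 211)) (XT.lf (nat_lit 0) (nat_lit 5847077028) (nat_lit 228) (nat_lit 5083763460) (nat_lit 304) (nat_lit 487803318) (nat_lit 56) (nat_lit 5) (nat_lit 59) (nat_lit 5) (nat_lit 60) (nat_lit 5) (nat_lit 315) (nat_lit 255) (nat_lit 210)))) (XT.nd (nat_lit 78) (nat_lit 304) (nat_lit 0) (XT.lf (nat_lit 0) (nat_lit 1855386285) (nat_lit 304) (nat_lit 334319641) (nat_lit 76) (nat_lit 9449148885) (nat_lit 55)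 (nat_lit 5) (nat_lit 59) (nat_lit 5) (nat_lit 56) (nat_lit 5) (nat_lit 316) (nat_lit 255) (nat_lit 209)) (XT.nd (nat_lit 78) (nat_lit 0) (nat_lit 0) (XT.lf (nat_lit 0) (nat_lit 4277270944) (nat_lit 380) (nat_lit 6771802737) (nat_lit 76) (nat_lit 815983162) (nat_lit 51) (nat_lit 5) (nat_lit 56) (nat_lit 5) (nat_lit 52) (nat_lit 5) (nat_lit 317) (nat_lit 255) (nat_lit 208)) (XT.lf (nat_lit 0) (nat_lit 6758551345) (nat_lit 380) (nat_lit 1482976632) (nat_lit 76) (nat_lit 3856988278) (nat_lit 51) (nat_lit 5) (nat_lit 56) (nat_lit 5) (nat_lit 52) (nat_lit 5) (nat_lit 318) (nat_lit 255) (nat_lit 207))))))))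
noncomputable def xc97 : XT := (XT.nd (nat_lit 1716) (nat_lit 912) (nat_lit 0) (XT.nd (nat_lit 858) (nat_lit 836) (nat_lit 0) (XT.nd (nat_lit 390) (nat_lit 456) (nat_lit 0) (XT.nd (nat_lit 156) (nat_lit 532) (nat_lit 0) (XT.nd (nat_lit 78) (nat_lit 0) (nat_lit 0) (XT.lf (nat_lit 0) (nat_lit 3990115996) (nat_lit 228) (nat_lit 5325276146) (nat_lit 304) (nat_lit 3023625003) (nat_lit 48) (nat_lit 5) (nat_lit 51) (nat_lit 5) (nat_lit 52) (nat_lit 5) (nat_lit 319) (nat_lit 255) (nat_lit 206)) (XT.lf (nat_lit 0) (nat_lit 9606053530) (nat_lit 228) (nat_lit 2321213383) (nat_lit 304) (nat_lit 660185564) (nat_lit 48) (nat_lit 5) (nat_lit 51) (nat_lit 5) (nat_lit 52) (nat_lit 5) (nat_lit 320) (nat_lit 255) (nat_lit 205))) (XT.nd (nat_lit 78) (nat_lit 228) (nat_lit 0) (XT.lf (nat_lit 0) (nat_lit 1735539382) (nat_lit 304) (nat_lit 10322550579) (nat_lit 76) (nat_lit 784924503) (nat_lit 44) (nat_lit 5) (nat_lit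 48) (nat_lit 5) (nat_lit 45) (nat_lit 5) (nat_lit 321) (nat_lit 255) (nat_lit 204)) (XT.nd (nat_lit 78) (nat_lit 228) (nat_lit 0) (XT.lf (nat_lit 0) (nat_lit 4207674215) (nat_lit 304) (nat_lit 4938161785) (nat_lit 76) (nat_lit 3959740398) (nat_lit 44) (nat_lit 5) (nat_lit 48) (nat_lit 5) (nat_lit 45) (nat_lit 5) (nat_lit 322) (nat_lit 255) (nat_lit 203)) (XT.lf (nat_lit 0) (nat_lit 568856056) (nat_lit 228) (nat_lit 6156042062) (nat_lit 304) (nat_lit 6652050872) (nat_lit 41) (nat_lit 5) (nat_lit 44) (nat_lit 5) (nat_lit 45) (nat_lit 5) (nat_lit 323) (nat_lit 255) (nat_lit 202))))) (XT.nd (nat_lit 234) (nat_lit 152) (nat_lit 0) (XT.nd (nat_lit 78) (nat_lit 304) (nat_lit 0) (XT.lf (nat_lit 0) (nat_lit 6292799088) (nat_lit 228) (nat_lit 3040692399) (nat_lit 304) (nat_lit 4322555450) (nat_lit 41) (nat_lit 5) (nat_lit 44) (nat_lit 5) (nat_lit 45) (nat_lit 5) (nat_lit 324) (nat_lit 255) (nat_lit 201))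 (XT.nd (nat_lit 78) (nat_lit 304) (nat_lit 0) (XT.lf (nat_lit 0) (nat_lit 11988791722) (nat_lit 304) (nat_lit 1805648197) (nat_lit 76) (nat_lit 150082450) (nat_lit 41) (nat_lit 5) (nat_lit 45) (nat_lit 5) (nat_lit 42) (nat_lit 5) (nat_lit 325) (nat_lit 255) (nat_lit 200)) (XT.lf (nat_lit 0) (nat_lit 508550300) (nat_lit 304) (nat_lit 10328158091) (nat_lit 76) (nat_lit 3403783567) (nat_lit 37) (nat_lit 5) (nat_lit 41) (nat_lit 5) (nat_lit 38) (nat_lit 5) (nat_lit 326) (nat_lit 255) (nat_lit 199)))) (XT.nd (nat_lit 78) (nat_lit 152) (nat_lit 0) (XT.lf (nat_lit 0) (nat_lit 2993782177) (nat_lit 304) (nat_lit 4773242157) (nat_lit 76) (nat_lit 6778198562) (nat_lit 37) (nat_lit 5) (nat_lit 41) (nat_lit 5) (nat_lit 38) (nat_lit 5) (nat_lit 327) (nat_lit 255) (nat_lit 198)) (XT.nd (nat_lit 78) (nat_lit 0) (nat_lit 0) (XT.lf (nat_lit 0) (nat_lit 919889335) (nat_lit 152) (nat_lit 4611375394) (nat_lit 228)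 (nat_lit 9328551771) (nat_lit 35) (nat_lit 5) (nat_lit 37) (nat_lit 5) (nat_lit 38) (nat_lit 5) (nat_lit 328) (nat_lit 255) (nat_lit 197)) (XT.lf (nat_lit 0) (nat_lit 6835734013) (nat_lit 152) (nat_lit 1326655074) (nat_lit 228) (nat_lit 7020983352) (nat_lit 35) (nat_lit 5) (nat_lit 37) (nat_lit 5) (nat_lit 38) (nat_lit 5) (nat_lit 329) (nat_lit 255) (nat_lit 196)))))) (XT.nd (nat_lit 390) (nat_lit 380) (nat_lit 0) (XT.nd (nat_lit 156) (nat_lit 228) (nat_lit 0) (XT.nd (nat_lit 78) (nat_lit 228) (nat_lit 0) (XT.lf (nat_lit 0) (nat_lit 10862284892) (nat_lit 228) (nat_lit 2652740238) (nat_lit 76) (nat_lit 2001963385) (nat_lit 35) (nat_lit 5) (nat_lit 38) (nat_lit 5) (nat_lit 36) (nat_lit 5) (nat_lit 330) (nat_lit 255) (nat_lit 195)) (XT.lf (nat_lit 0) (nat_lit 3218608529) (nat_lit 228) (nat_lit 10439583623) (nat_lit 304) (nat_lit 2202017657) (nat_lit 32) (nat_lit 5) (nat_lit 35) (nat_lit 5) (nat_lit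 36) (nat_lit 5) (nat_lit 331) (nat_lit 255) (nat_lit 194))) (XT.nd (nat_lit 78) (nat_lit 152) (nat_lit 0) (XT.lf (nat_lit 0) (nat_lit 316013019) (nat_lit 304) (nat_lit 6940086515) (nat_lit 76) (nat_lit 8957636425) (nat_lit 31) (nat_lit 5) (nat_lit 35) (nat_lit 5) (nat_lit 32) (nat_lit 5) (nat_lit 332) (nat_lit 255) (nat_lit 193)) (XT.nd (nat_lit 78) (nat_lit 152) (nat_lit 0) (XT.lf (nat_lit 0) (nat_lit 2837208471) (nat_lit 304) (nat_lit 1132296064) (nat_lit 76) (nat_lit 12608595999) (nat_lit 31) (nat_lit 5) (nat_lit 35) (nat_lit 5) (nat_lit 32) (nat_lit 5) (nat_lit 333) (nat_lit 255) (nat_lit 192)) (XT.lf (nat_lit 0) (nat_lit 4903700848) (nat_lit 152) (nat_lit 550177506) (nat_lit 228) (nat_lit 11498964448) (nat_lit 29) (nat_lit 5) (nat_lit 31) (nat_lit 5) (nat_lit 32) (nat_lit 5) (nat_lit 334) (nat_lit 255) (nat_lit 191))))) (XT.nd (nat_lit 234) (nat_lit 228) (nat_lit 0) (XT.nd (nat_lit 78)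 (nat_lit 152) (nat_lit 0) (XT.lf (nat_lit 0) (nat_lit 8162122346) (nat_lit 228) (nat_lit 6265191350) (nat_lit 76) (nat_lit 2911162115) (nat_lit 29) (nat_lit 5) (nat_lit 32) (nat_lit 5) (nat_lit 30) (nat_lit 5) (nat_lit 335) (nat_lit 255) (nat_lit 190)) (XT.nd (nat_lit 78) (nat_lit 152) (nat_lit 0) (XT.lf (nat_lit 0) (nat_lit 10930809263) (nat_lit 228) (nat_lit 353962121) (nat_lit 76) (nat_lit 6451570066) (nat_lit 29) (nat_lit 5) (nat_lit 32) (nat_lit 5) (nat_lit 30) (nat_lit 5) (nat_lit 336) (nat_lit 255) (nat_lit 189)) (XT.lf (nat_lit 0) (nat_lit 5808341183) (nat_lit 152) (nat_lit 8004561850) (nat_lit 228) (nat_lit 4332367996) (nat_lit 27) (nat_lit 5) (nat_lit 29) (nat_lit 5) (nat_lit 30) (nat_lit 5) (nat_lit 337) (nat_lit 255) (nat_lit 188)))) (XT.nd (nat_lit 78) (nat_lit 228) (nat_lit 0) (XT.lf (nat_lit 0) (nat_lit 12123553285) (nat_lit 152) (nat_lit 4636358943) (nat_lit 228) (nat_lit 1807239927)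 (nat_lit 27) (nat_lit 5) (nat_lit 29) (nat_lit 5) (nat_lit 30) (nat_lit 5) (nat_lit 338) (nat_lit 255) (nat_lit 187)) (XT.nd (nat_lit 78) (nat_lit 152) (nat_lit 0) (XT.lf (nat_lit 0) (nat_lit 753488224) (nat_lit 228) (nat_lit 419696920) (nat_lit 76) (nat_lit 17829050811) (nat_lit 26) (nat_lit 5) (nat_lit 29) (nat_lit 5) (nat_lit 27) (nat_lit 5) (nat_lit 339) (nat_lit 255) (nat_lit 186)) (XT.lf (nat_lit 0) (nat_lit 3410552851) (nat_lit 228) (nat_lit 13628935357) (nat_lit 76) (nat_lit 2408706188) (nat_lit 24) (nat_lit 5) (nat_lit 27) (nat_lit 5) (nat_lit 25) (nat_lit 5) (nat_lit 340) (nat_lit 255) (nat_lit 185))))))) (XT.nd (nat_lit 858) (nat_lit 380) (nat_lit 0) (XT.nd (nat_lit 390) (nat_lit 380) (nat_lit 0) (XT.nd (nat_lit 156) (nat_lit 152) (nat_lit 0) (XT.nd (nat_lit 78) (nat_lit 0) (nat_lit 0) (XT.lf (nat_lit 0) (nat_lit 6139487743) (nat_lit 228) (nat_lit 7702794891) (nat_lit 76) (nat_lit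 6065517292) (nat_lit 24) (nat_lit 5) (nat_lit 27) (nat_lit 5) (nat_lit 25) (nat_lit 5) (nat_lit 341) (nat_lit 255) (nat_lit 184)) (XT.lf (nat_lit 0) (nat_lit 8927244617) (nat_lit 228) (nat_lit 1635491419) (nat_lit 76) (nat_lit 9819181093) (nat_lit 24) (nat_lit 5) (nat_lit 27) (nat_lit 5) (nat_lit 25) (nat_lit 5) (nat_lit 342) (nat_lit 255) (nat_lit 183))) (XT.nd (nat_lit 78) (nat_lit 0) (nat_lit 0) (XT.lf (nat_lit 0) (nat_lit 4669393269) (nat_lit 152) (nat_lit 7151751173) (nat_lit 228) (nat_lit 9048469284) (nat_lit 22) (nat_lit 5) (nat_lit 24) (nat_lit 5) (nat_lit 25) (nat_lit 5) (nat_lit 343) (nat_lit 255) (nat_lit 182)) (XT.nd (nat_lit 78) (nat_lit 0) (nat_lit 0) (XT.lf (nat_lit 0) (nat_lit 11161744473) (nat_lit 152) (nat_lit 3634570499) (nat_lit 228) (nat_lit 6575822918) (nat_lit 22) (nat_lit 5) (nat_lit 24) (nat_lit 5) (nat_lit 25) (nat_lit 5) (nat_lit 344) (nat_lit 255) (nat_lit 181)) (XT.lf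 (nat_lit 0) (nat_lit 17814685635) (nat_lit 152) (nat_lit 24636004) (nat_lit 228) (nat_lit 4051088106) (nat_lit 22) (nat_lit 5) (nat_lit 24) (nat_lit 5) (nat_lit 25) (nat_lit 5) (nat_lit 345) (nat_lit 255) (nat_lit 180))))) (XT.nd (nat_lit 234) (nat_lit 152) (nat_lit 0) (XT.nd (nat_lit 78) (nat_lit 76) (nat_lit 0) (XT.lf (nat_lit 0) (nat_lit 2217023964) (nat_lit 152) (nat_lit 18792496819) (nat_lit 228) (nat_lit 1413660446) (nat_lit 20) (nat_lit 5) (nat_lit 22) (nat_lit 5) (nat_lit 23) (nat_lit 4) (nat_lit 346) (nat_lit 255) (nat_lit 179)) (XT.nd (nat_lit 78) (nat_lit 0) (nat_lit 0) (XT.lf (nat_lit 0) (nat_lit 1298416799) (nat_lit 228) (nat_lit 14235603670) (nat_lit 76) (nat_lit 7436938041) (nat_lit 19) (nat_lit 5) (nat_lit 22) (nat_lit 5) (nat_lit 20) (nat_lit 5) (nat_lit 347) (nat_lit 255) (nat_lit 178)) (XT.lf (nat_lit 0) (nat_lit 4043193283) (nat_lit 228) (nat_lit 8132774529) (nat_lit 76)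 (nat_lit 11359415015) (nat_lit 19) (nat_lit 5) (nat_lit 22) (nat_lit 5) (nat_lit 20) (nat_lit 5) (nat_lit 348) (nat_lit 255) (nat_lit 177)))) (XT.nd (nat_lit 78) (nat_lit 152) (nat_lit 0) (XT.lf (nat_lit 0) (nat_lit 6850652959) (nat_lit 228) (nat_lit 1878748304) (nat_lit 76) (nat_lit 15387953771) (nat_lit 19) (nat_lit 5) (nat_lit 22) (nat_lit 5) (nat_lit 20) (nat_lit 5) (nat_lit 349) (nat_lit 255) (nat_lit 176)) (XT.nd (nat_lit 78) (nat_lit 0) (nat_lit 0) (XT.lf (nat_lit 0) (nat_lit 4622134172) (nat_lit 152) (nat_lit 5145545558) (nat_lit 228) (nat_lit 14948371000) (nat_lit 17) (nat_lit 5) (nat_lit 19) (nat_lit 5) (nat_lit 20) (nat_lit 5) (nat_lit 350) (nat_lit 255) (nat_lit 175)) (XT.lf (nat_lit 0) (nat_lit 11325900121) (nat_lit 152) (nat_lit 1446462645) (nat_lit 228) (nat_lit 12560364067) (nat_lit 17) (nat_lit 5) (nat_lit 19) (nat_lit 5) (nat_lit 20) (nat_lit 5) (nat_lit 351) (nat_lit 255)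 (nat_lit 174)))))) (XT.nd (nat_lit 468) (nat_lit 228) (nat_lit 0) (XT.nd (nat_lit 234) (nat_lit 76) (nat_lit 0) (XT.nd (nat_lit 78) (nat_lit 76) (nat_lit 0) (XT.lf (nat_lit 0) (nat_lit 15871518321) (nat_lit 228) (nat_lit 7790068237) (nat_lit 76) (nat_lit 2306209908) (nat_lit 17) (nat_lit 5) (nat_lit 20) (nat_lit 5) (nat_lit 18) (nat_lit 4) (nat_lit 352) (nat_lit 255) (nat_lit 173)) (XT.nd (nat_lit 78) (nat_lit 76) (nat_lit 0) (XT.lf (nat_lit 0) (nat_lit 19060117262) (nat_lit 228) (nat_lit 1430471882) (nat_lit 76) (nat_lit 6131457514) (nat_lit 17) (nat_lit 5) (nat_lit 20) (nat_lit 5) (nat_lit 18) (nat_lit 4) (nat_lit 353) (nat_lit 255) (nat_lit 172)) (XT.lf (nat_lit 0) (nat_lit 5192752876) (nat_lit 76) (nat_lit 17184204500) (nat_lit 152) (nat_lit 4918011356) (nat_lit 16) (nat_lit 5) (nat_lit 17) (nat_lit 5) (nat_lit 18) (nat_lit 4) (nat_lit 354) (nat_lit 255) (nat_lit 171)))) (XT.nd (nat_lit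 78) (nat_lit 76) (nat_lit 0) (XT.lf (nat_lit 0) (nat_lit 12015788154) (nat_lit 76) (nat_lit 13774860461) (nat_lit 152) (nat_lit 2197530714) (nat_lit 16) (nat_lit 5) (nat_lit 17) (nat_lit 5) (nat_lit 18) (nat_lit 4) (nat_lit 355) (nat_lit 255) (nat_lit 170)) (XT.nd (nat_lit 78) (nat_lit 0) (nat_lit 0) (XT.lf (nat_lit 0) (nat_lit 575981523) (nat_lit 152) (nat_lit 9692225143) (nat_lit 76) (nat_lit 18434328821) (nat_lit 15) (nat_lit 5) (nat_lit 17) (nat_lit 5) (nat_lit 16) (nat_lit 5) (nat_lit 356) (nat_lit 255) (nat_lit 169)) (XT.lf (nat_lit 0) (nat_lit 3372234244) (nat_lit 152) (nat_lit 3272345785) (nat_lit 76) (nat_lit 22793597905) (nat_lit 15) (nat_lit 5) (nat_lit 17) (nat_lit 5) (nat_lit 16) (nat_lit 5) (nat_lit 357) (nat_lit 255) (nat_lit 168))))) (XT.nd (nat_lit 234) (nat_lit 76) (nat_lit 0) (XT.nd (nat_lit 78) (nat_lit 0) (nat_lit 0) (XT.lf (nat_lit 0) (nat_lit 3379935219) (nat_lit 152)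 (nat_lit 2889107300) (nat_lit 228) (nat_lit 23926365965) (nat_lit 13) (nat_lit 5) (nat_lit 15) (nat_lit 5) (nat_lit 16) (nat_lit 5) (nat_lit 358) (nat_lit 255) (nat_lit 167)) (XT.nd (nat_lit 78) (nat_lit 0) (nat_lit 0) (XT.lf (nat_lit 0) (nat_lit 9279828578) (nat_lit 228) (nat_lit 20711519143) (nat_lit 76) (nat_lit 983214342) (nat_lit 13) (nat_lit 5) (nat_lit 16) (nat_lit 5) (nat_lit 14) (nat_lit 4) (nat_lit 359) (nat_lit 255) (nat_lit 166)) (XT.lf (nat_lit 0) (nat_lit 12394291841) (nat_lit 228) (nat_lit 14478566811) (nat_lit 76) (nat_lit 4903848776) (nat_lit 13) (nat_lit 5) (nat_lit 16) (nat_lit 5) (nat_lit 14) (nat_lit 4) (nat_lit 360) (nat_lit 255) (nat_lit 165)))) (XT.nd (nat_lit 78) (nat_lit 76) (nat_lit 0) (XT.lf (nat_lit 0) (nat_lit 15587381816) (nat_lit 228) (nat_lit 8083398133) (nat_lit 76) (nat_lit 8932598687) (nat_lit 13) (nat_lit 5) (nat_lit 16) (nat_lit 5) (nat_lit 14) (nat_lit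 4) (nat_lit 361) (nat_lit 255) (nat_lit 164)) (XT.nd (nat_lit 78) (nat_lit 76) (nat_lit 0) (XT.lf (nat_lit 0) (nat_lit 18861888583) (nat_lit 228) (nat_lit 1520425098) (nat_lit 76) (nat_lit 13072984342) (nat_lit 13) (nat_lit 5) (nat_lit 16) (nat_lit 5) (nat_lit 14) (nat_lit 4) (nat_lit 362) (nat_lit 255) (nat_lit 163)) (XT.lf (nat_lit 0) (nat_lit 5319897288) (nat_lit 76) (nat_lit 16951914179) (nat_lit 152) (nat_lit 12059864373) (nat_lit 12) (nat_lit 5) (nat_lit 13) (nat_lit 5) (nat_lit 14) (nat_lit 4) (nat_lit 363) (nat_lit 255) (nat_lit 162))))))))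
noncomputable def xc98 : XT := (XT.nd (nat_lit 1716) (nat_lit 76) (nat_lit 0) (XT.nd (nat_lit 858) (nat_lit 152) (nat_lit 0) (XT.nd (nat_lit 390) (nat_lit 76) (nat_lit 0) (XT.nd (nat_lit 156) (nat_lit 228) (nat_lit 0) (XT.nd (nat_lit 78) (nat_lit 0) (nat_lit 0) (XT.lf (nat_lit 0) (nat_lit 12373475296) (nat_lit 76) (nat_lit 13412137126) (nat_lit 152) (nat_lit 9448700961) (nat_lit 12) (nat_lit 5) (nat_lit 13) (nat_lit 5) (nat_lit 14) (nat_lit 4) (nat_lit 364) (nat_lit 255) (nat_lit 161)) (XT.lf (nat_lit 0) (nat_lit 19616212806) (nat_lit 76) (nat_lit 9775242826) (nat_lit 152) (nat_lit 6772990917) (nat_lit 12) (nat_lit 5) (nat_lit 13) (nat_lit 5) (nat_lit 14) (nat_lit 4) (nat_lit 365) (nat_lit 255) (nat_lit 160))) (XT.nd (nat_lit 78) (nat_lit 228) (nat_lit 0) (XT.lf (nat_lit 0) (nat_lit 27054438423) (nat_lit 76) (nat_lit 6038053408) (nat_lit 152) (nat_lit 4030396242) (nat_lit 12) (nat_lit 5) (nat_lit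 13) (nat_lit 5) (nat_lit 14) (nat_lit 4) (nat_lit 366) (nat_lit 255) (nat_lit 159)) (XT.nd (nat_lit 78) (nat_lit 228) (nat_lit 0) (XT.lf (nat_lit 0) (nat_lit 34694651568) (nat_lit 76) (nat_lit 2197303370) (nat_lit 152) (nat_lit 1218520493) (nat_lit 12) (nat_lit 5) (nat_lit 13) (nat_lit 5) (nat_lit 14) (nat_lit 4) (nat_lit 367) (nat_lit 255) (nat_lit 158)) (XT.lf (nat_lit 0) (nat_lit 1683243303) (nat_lit 228) (nat_lit 35676799131) (nat_lit 76) (nat_lit 1766029691) (nat_lit 9) (nat_lit 5) (nat_lit 12) (nat_lit 5) (nat_lit 10) (nat_lit 4) (nat_lit 368) (nat_lit 255) (nat_lit 157))))) (XT.nd (nat_lit 234) (nat_lit 76) (nat_lit 0) (XT.nd (nat_lit 78) (nat_lit 0) (nat_lit 0) (XT.lf (nat_lit 0) (nat_lit 4691868782) (nat_lit 228) (nat_lit 29635817426) (nat_lit 76) (nat_lit 5842772815) (nat_lit 9) (nat_lit 5) (nat_lit 12) (nat_lit 5) (nat_lit 10) (nat_lit 4) (nat_lit 369) (nat_lit 255) (nat_lit 156))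 (XT.nd (nat_lit 78) (nat_lit 0) (nat_lit 0) (XT.lf (nat_lit 0) (nat_lit 7778820700) (nat_lit 228) (nat_lit 23433895340) (nat_lit 76) (nat_lit 10033832307) (nat_lit 9) (nat_lit 5) (nat_lit 12) (nat_lit 5) (nat_lit 10) (nat_lit 4) (nat_lit 370) (nat_lit 255) (nat_lit 155)) (XT.lf (nat_lit 0) (nat_lit 10946796393) (nat_lit 228) (nat_lit 17065613720) (nat_lit 76) (nat_lit 14342870256) (nat_lit 9) (nat_lit 5) (nat_lit 12) (nat_lit 5) (nat_lit 10) (nat_lit 4) (nat_lit 371) (nat_lit 255) (nat_lit 154)))) (XT.nd (nat_lit 78) (nat_lit 76) (nat_lit 0) (XT.lf (nat_lit 0) (nat_lit 14198563995) (nat_lit 228) (nat_lit 10525408046) (nat_lit 76) (nat_lit 18773651842) (nat_lit 9) (nat_lit 5) (nat_lit 12) (nat_lit 5) (nat_lit 10) (nat_lit 4) (nat_lit 372) (nat_lit 255) (nat_lit 153)) (XT.nd (nat_lit 78) (nat_lit 76) (nat_lit 0) (XT.lf (nat_lit 0) (nat_lit 17536964858) (nat_lit 228) (nat_lit 3807563576) (nat_lit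 76) (nat_lit 23330048621) (nat_lit 9) (nat_lit 5) (nat_lit 12) (nat_lit 5) (nat_lit 10) (nat_lit 4) (nat_lit 373) (nat_lit 255) (nat_lit 152)) (XT.lf (nat_lit 0) (nat_lit 3155362131) (nat_lit 76) (nat_lit 17839885170) (nat_lit 152) (nat_lit 24891011051) (nat_lit 8) (nat_lit 5) (nat_lit 9) (nat_lit 5) (nat_lit 10) (nat_lit 4) (nat_lit 374) (nat_lit 255) (nat_lit 151)))))) (XT.nd (nat_lit 390) (nat_lit 152) (nat_lit 0) (XT.nd (nat_lit 156) (nat_lit 0) (nat_lit 0) (XT.nd (nat_lit 78) (nat_lit 0) (nat_lit 0) (XT.lf (nat_lit 0) (nat_lit 10387377084) (nat_lit 76) (nat_lit 14197885546) (nat_lit 152) (nat_lit 22548199007) (nat_lit 8) (nat_lit 5) (nat_lit 9) (nat_lit 5) (nat_lit 10) (nat_lit 4) (nat_lit 375) (nat_lit 255) (nat_lit 150)) (XT.lf (nat_lit 0) (nat_lit 17819022539) (nat_lit 76) (nat_lit 10453796161) (nat_lit 152) (nat_lit 20145577875) (nat_lit 8) (nat_lit 5) (nat_lit 9) (nat_lit 5) (nat_lit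 10) (nat_lit 4) (nat_lit 376) (nat_lit 255) (nat_lit 149))) (XT.nd (nat_lit 78) (nat_lit 0) (nat_lit 0) (XT.lf (nat_lit 0) (nat_lit 25456792166) (nat_lit 76) (nat_lit 6604345479) (nat_lit 152) (nat_lit 17681048278) (nat_lit 8) (nat_lit 5) (nat_lit 9) (nat_lit 5) (nat_lit 10) (nat_lit 4) (nat_lit 377) (nat_lit 255) (nat_lit 148)) (XT.nd (nat_lit 78) (nat_lit 0) (nat_lit 0) (XT.lf (nat_lit 0) (nat_lit 33307359744) (nat_lit 76) (nat_lit 2646169902) (nat_lit 152) (nat_lit 15152456742) (nat_lit 8) (nat_lit 5) (nat_lit 9) (nat_lit 5) (nat_lit 10) (nat_lit 4) (nat_lit 378) (nat_lit 255) (nat_lit 147)) (XT.lf (nat_lit 0) (nat_lit 39967086002) (nat_lit 152) (nat_lit 11147094828) (nat_lit 0) (nat_lit 1396398107) (nat_lit 8) (nat_lit 5) (nat_lit 10) (nat_lit 4) (nat_lit 8) (nat_lit 4) (nat_lit 379) (nat_lit 255) (nat_lit 146))))) (XT.nd (nat_lit 234) (nat_lit 76) (nat_lit 0) (XT.nd (nat_lit 78) (nat_lit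 76) (nat_lit 0) (XT.lf (nat_lit 0) (nat_lit 44118160731) (nat_lit 152) (nat_lit 4337833318) (nat_lit 0) (nat_lit 5500811424) (nat_lit 8) (nat_lit 5) (nat_lit 10) (nat_lit 4) (nat_lit 8) (nat_lit 4) (nat_lit 380) (nat_lit 255) (nat_lit 145)) (XT.nd (nat_lit 78) (nat_lit 0) (nat_lit 0) (XT.lf (nat_lit 0) (nat_lit 2713494377) (nat_lit 76) (nat_lit 45697533773) (nat_lit 76) (nat_lit 7034882125) (nat_lit 7) (nat_lit 4) (nat_lit 8) (nat_lit 5) (nat_lit 8) (nat_lit 4) (nat_lit 381) (nat_lit 255) (nat_lit 144)) (XT.lf (nat_lit 0) (nat_lit 10050270170) (nat_lit 76) (nat_lit 42817504389) (nat_lit 76) (nat_lit 4110869884) (nat_lit 7) (nat_lit 4) (nat_lit 8) (nat_lit 5) (nat_lit 8) (nat_lit 4) (nat_lit 382) (nat_lit 255) (nat_lit 143)))) (XT.nd (nat_lit 78) (nat_lit 76) (nat_lit 0) (XT.lf (nat_lit 0) (nat_lit 17592573446) (nat_lit 76) (nat_lit 39857192977) (nat_lit 76) (nat_lit 1107856670) (nat_lit 7) (nat_lit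 4) (nat_lit 8) (nat_lit 5) (nat_lit 8) (nat_lit 4) (nat_lit 383) (nat_lit 255) (nat_lit 142)) (XT.nd (nat_lit 78) (nat_lit 0) (nat_lit 0) (XT.lf (nat_lit 0) (nat_lit 1938207382) (nat_lit 152) (nat_lit 34856233382) (nat_lit 76) (nat_lit 23389215093) (nat_lit 6) (nat_lit 5) (nat_lit 8) (nat_lit 5) (nat_lit 7) (nat_lit 4) (nat_lit 384) (nat_lit 255) (nat_lit 141)) (XT.lf (nat_lit 0) (nat_lit 5045328048) (nat_lit 152) (nat_lit 28589028973) (nat_lit 76) (nat_lit 28224033276) (nat_lit 6) (nat_lit 5) (nat_lit 8) (nat_lit 5) (nat_lit 7) (nat_lit 4) (nat_lit 385) (nat_lit 255) (nat_lit 140))))))) (XT.nd (nat_lit 858) (nat_lit 0) (nat_lit 0) (XT.nd (nat_lit 390) (nat_lit 0) (nat_lit 0) (XT.nd (nat_lit 156) (nat_lit 76) (nat_lit 0) (XT.nd (nat_lit 78) (nat_lit 0) (nat_lit 0) (XT.lf (nat_lit 0) (nat_lit 8237838563) (nat_lit 152) (nat_lit 22147310827) (nat_lit 76) (nat_lit 33198459868) (nat_lit 6) (nat_lit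 5) (nat_lit 8) (nat_lit 5) (nat_lit 7) (nat_lit 4) (nat_lit 386) (nat_lit 255) (nat_lit 139)) (XT.lf (nat_lit 0) (nat_lit 11518528497) (nat_lit 152) (nat_lit 15525450258) (nat_lit 76) (nat_lit 38316841456) (nat_lit 6) (nat_lit 5) (nat_lit 8) (nat_lit 5) (nat_lit 7) (nat_lit 4) (nat_lit 387) (nat_lit 255) (nat_lit 138))) (XT.nd (nat_lit 78) (nat_lit 76) (nat_lit 0) (XT.lf (nat_lit 0) (nat_lit 14890264474) (nat_lit 152) (nat_lit 8717661174) (nat_lit 76) (nat_lit 43583650413) (nat_lit 6) (nat_lit 5) (nat_lit 8) (nat_lit 5) (nat_lit 7) (nat_lit 4) (nat_lit 388) (nat_lit 255) (nat_lit 137)) (XT.nd (nat_lit 78) (nat_lit 76) (nat_lit 0) (XT.lf (nat_lit 0) (nat_lit 18355992671) (nat_lit 152) (nat_lit 1717995022) (nat_lit 76) (nat_lit 49003488804) (nat_lit 6) (nat_lit 5) (nat_lit 8) (nat_lit 5) (nat_lit 7) (nat_lit 4) (nat_lit 389) (nat_lit 255) (nat_lit 136)) (XT.lf (nat_lit 0) (nat_lit 5588720477)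 (nat_lit 76) (nat_lit 16383743116) (nat_lit 152) (nat_lit 49046094132) (nat_lit 5) (nat_lit 5) (nat_lit 6) (nat_lit 5) (nat_lit 7) (nat_lit 4) (nat_lit 390) (nat_lit 255) (nat_lit 135))))) (XT.nd (nat_lit 234) (nat_lit 0) (nat_lit 0) (XT.nd (nat_lit 78) (nat_lit 0) (nat_lit 0) (XT.lf (nat_lit 0) (nat_lit 13137975568) (nat_lit 76) (nat_lit 12569938414) (nat_lit 152) (nat_lit 47309649555) (nat_lit 5) (nat_lit 5) (nat_lit 6) (nat_lit 5) (nat_lit 7) (nat_lit 4) (nat_lit 391) (nat_lit 255) (nat_lit 134)) (XT.nd (nat_lit 78) (nat_lit 0) (nat_lit 0) (XT.lf (nat_lit 0) (nat_lit 20902175215) (nat_lit 76) (nat_lit 8646589516) (nat_lit 152) (nat_lit 45527981195) (nat_lit 5) (nat_lit 5) (nat_lit 6) (nat_lit 5) (nat_lit 7) (nat_lit 4) (nat_lit 392) (nat_lit 255) (nat_lit 133)) (XT.lf (nat_lit 0) (nat_lit 28888103672) (nat_lit 76) (nat_lit 4610268256) (nat_lit 152) (nat_lit 43699532254) (nat_lit 5) (nat_lit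 5) (nat_lit 6) (nat_lit 5) (nat_lit 7) (nat_lit 4) (nat_lit 393) (nat_lit 255) (nat_lit 132)))) (XT.nd (nat_lit 78) (nat_lit 0) (nat_lit 0) (XT.lf (nat_lit 0) (nat_lit 37102738934) (nat_lit 76) (nat_lit 457447749) (nat_lit 152) (nat_lit 41822705058) (nat_lit 5) (nat_lit 5) (nat_lit 6) (nat_lit 5) (nat_lit 7) (nat_lit 4) (nat_lit 394) (nat_lit 255) (nat_lit 131)) (XT.nd (nat_lit 78) (nat_lit 0) (nat_lit 0) (XT.lf (nat_lit 0) (nat_lit 41774435082) (nat_lit 152) (nat_lit 36117035906) (nat_lit 0) (nat_lit 3741046521) (nat_lit 5) (nat_lit 5) (nat_lit 7) (nat_lit 4) (nat_lit 5) (nat_lit 4) (nat_lit 395) (nat_lit 255) (nat_lit 130)) (XT.lf (nat_lit 0) (nat_lit 46113678405) (nat_lit 152) (nat_lit 29783943485) (nat_lit 0) (nat_lit 8052058921) (nat_lit 5) (nat_lit 5) (nat_lit 7) (nat_lit 4) (nat_lit 5) (nat_lit 4) (nat_lit 396) (nat_lit 255) (nat_lit 129)))))) (XT.nd (nat_lit 30888) (nat_lit 0) (nat_lit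 15580) (XT.nd (nat_lit 30654) (nat_lit 0) (nat_lit 17328) (XT.nd (nat_lit 78) (nat_lit 0) (nat_lit 0) (XT.lf (nat_lit 0) (nat_lit 50577310954) (nat_lit 152) (nat_lit 23270944506) (nat_lit 0) (nat_lit 12488282809) (nat_lit 5) (nat_lit 5) (nat_lit 7) (nat_lit 4) (nat_lit 5) (nat_lit 4) (nat_lit 397) (nat_lit 255) (nat_lit 128)) (XT.nd (nat_lit 30498) (nat_lit 0) (nat_lit 18164) (XT.lf (nat_lit 0) (nat_lit 55169232993) (nat_lit 152) (nat_lit 16572347999) (nat_lit 0) (nat_lit 17053594496) (nat_lit 5) (nat_lit 5) (nat_lit 7) (nat_lit 4) (nat_lit 5) (nat_lit 4) (nat_lit 398) (nat_lit 255) (nat_lit 127)) (XT.lf (nat_lit 0) (nat_lit 2302348198) (nat_lit 228) (nat_lit 478013553) (nat_lit 228) (nat_lit 478013553) (nat_lit 244) (nat_lit 4) (nat_lit 247) (nat_lit 5) (nat_lit 247) (nat_lit 4) (nat_lit 268) (nat_lit 256) (nat_lit 256)))) (XT.nd (nat_lit 78) (nat_lit 456) (nat_lit 0) (XT.lf (nat_lit 0) (nat_lit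 1345309855) (nat_lit 304) (nat_lit 454967477) (nat_lit 380) (nat_lit 4736927014) (nat_lit 239) (nat_lit 5) (nat_lit 243) (nat_lit 5) (nat_lit 244) (nat_lit 4) (nat_lit 269) (nat_lit 256) (nat_lit 255)) (XT.nd (nat_lit 78) (nat_lit 456) (nat_lit 0) (XT.lf (nat_lit 0) (nat_lit 4541606194) (nat_lit 380) (nat_lit 1896260708) (nat_lit 0) (nat_lit 122920309) (nat_lit 239) (nat_lit 5) (nat_lit 244) (nat_lit 4) (nat_lit 239) (nat_lit 4) (nat_lit 270) (nat_lit 256) (nat_lit 254)) (XT.lf (nat_lit 0) (nat_lit 686522724) (nat_lit 456) (nat_lit 5138338495) (nat_lit 76) (nat_lit 762762338) (nat_lit 233) (nat_lit 5) (nat_lit 239) (nat_lit 5) (nat_lit 234) (nat_lit 4) (nat_lit 271) (nat_lit 256) (nat_lit 253))))) (XT.nd (nat_lit 234) (nat_lit 1216) (nat_lit 0) (XT.nd (nat_lit 78) (nat_lit 532) (nat_lit 0) (XT.lf (nat_lit 0) (nat_lit 3357306675) (nat_lit 456) (nat_lit 1768388572) (nat_lit 76) (nat_lit 1491643362)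 (nat_lit 233) (nat_lit 5) (nat_lit 239) (nat_lit 5) (nat_lit 234) (nat_lit 4) (nat_lit 272) (nat_lit 256) (nat_lit 252)) (XT.nd (nat_lit 78) (nat_lit 76) (nat_lit 0) (XT.lf (nat_lit 0) (nat_lit 1669623471) (nat_lit 456) (nat_lit 4362557135) (nat_lit 532) (nat_lit 618441778) (nat_lit 227) (nat_lit 5) (nat_lit 233) (nat_lit 5) (nat_lit 234) (nat_lit 4) (nat_lit 273) (nat_lit 256) (nat_lit 251)) (XT.lf (nat_lit 0) (nat_lit 1988110752) (nat_lit 532) (nat_lit 1524893056) (nat_lit 76) (nat_lit 3173865893) (nat_lit 226) (nat_lit 5) (nat_lit 233) (nat_lit 5) (nat_lit 227) (nat_lit 5) (nat_lit 274) (nat_lit 256) (nat_lit 250)))) (XT.nd (nat_lit 78) (nat_lit 684) (nat_lit 0) (XT.lf (nat_lit 0) (nat_lit 2002643925) (nat_lit 532) (nat_lit 2588401483) (nat_lit 608) (nat_lit 2135419505) (nat_lit 219) (nat_lit 5) (nat_lit 226) (nat_lit 5) (nat_lit 227) (nat_lit 5) (nat_lit 275) (nat_lit 256) (nat_lit 249))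 (XT.nd (nat_lit 78) (nat_lit 608) (nat_lit 0) (XT.lf (nat_lit 0) (nat_lit 422642700) (nat_lit 608) (nat_lit 1171184421) (nat_lit 76) (nat_lit 5175786898) (nat_lit 218) (nat_lit 5) (nat_lit 226) (nat_lit 5) (nat_lit 219) (nat_lit 5) (nat_lit 276) (nat_lit 256) (nat_lit 248)) (XT.lf (nat_lit 0) (nat_lit 2449978790) (nat_lit 608) (nat_lit 502780941) (nat_lit 684) (nat_lit 3862848465) (nat_lit 210) (nat_lit 5) (nat_lit 218) (nat_lit 5) (nat_lit 219) (nat_lit 5) (nat_lit 277) (nat_lit 256) (nat_lit 247))))))))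
noncomputable def xc99 : XT := (XT.nd (nat_lit 1794) (nat_lit 3876) (nat_lit 0) (XT.nd (nat_lit 858) (nat_lit 3192) (nat_lit 0) (XT.nd (nat_lit 390) (nat_lit 3116) (nat_lit 0) (XT.nd (nat_lit 156) (nat_lit 1672) (nat_lit 0) (XT.nd (nat_lit 78) (nat_lit 760) (nat_lit 0) (XT.lf (nat_lit 0) (nat_lit 5493430657) (nat_lit 684) (nat_lit 732023795) (nat_lit 76) (nat_lit 639810433) (nat_lit 210) (nat_lit 5) (nat_lit 219) (nat_lit 5) (nat_lit 211) (nat_lit 5) (nat_lit 278) (nat_lit 256) (nat_lit 246)) (XT.lf (nat_lit 0) (nat_lit 1122809102) (nat_lit 760) (nat_lit 3930150580) (nat_lit 76) (nat_lit 1864845113) (nat_lit 200) (nat_lit 5) (nat_lit 210) (nat_lit 5) (nat_lit 201) (nat_lit 5) (nat_lit 279) (nat_lit 256) (nat_lit 245))) (XT.nd (nat_lit 78) (nat_lit 1672) (nat_lit 0) (XT.lf (nat_lit 0) (nat_lit 3592000252) (nat_lit 760) (nat_lit 217819266) (nat_lit 76) (nat_lit 3164170336) (nat_lit 200) (nat_lit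 5) (nat_lit 210) (nat_lit 5) (nat_lit 201) (nat_lit 5) (nat_lit 280) (nat_lit 256) (nat_lit 244)) (XT.nd (nat_lit 78) (nat_lit 912) (nat_lit 0) (XT.lf (nat_lit 0) (nat_lit 3611904262) (nat_lit 760) (nat_lit 2480234004) (nat_lit 836) (nat_lit 941302333) (nat_lit 190) (nat_lit 5) (nat_lit 200) (nat_lit 5) (nat_lit 201) (nat_lit 5) (nat_lit 281) (nat_lit 256) (nat_lit 243)) (XT.lf (nat_lit 0) (nat_lit 393277598) (nat_lit 836) (nat_lit 1077420784) (nat_lit 912) (nat_lit 5625929417) (nat_lit 178) (nat_lit 5) (nat_lit 189) (nat_lit 5) (nat_lit 190) (nat_lit 5) (nat_lit 282) (nat_lit 256) (nat_lit 242))))) (XT.nd (nat_lit 234) (nat_lit 2128) (nat_lit 0) (XT.nd (nat_lit 78) (nat_lit 988) (nat_lit 0) (XT.lf (nat_lit 0) (nat_lit 3899069872) (nat_lit 912) (nat_lit 2848816443) (nat_lit 76) (nat_lit 414918780) (nat_lit 178) (nat_lit 5) (nat_lit 190) (nat_lit 5) (nat_lit 179) (nat_lit 5) (nat_lit 283) (nat_lit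 256) (nat_lit 241)) (XT.nd (nat_lit 78) (nat_lit 76) (nat_lit 0) (XT.lf (nat_lit 0) (nat_lit 1065831459) (nat_lit 912) (nat_lit 5282077586) (nat_lit 988) (nat_lit 884884516) (nat_lit 166) (nat_lit 5) (nat_lit 178) (nat_lit 5) (nat_lit 179) (nat_lit 5) (nat_lit 284) (nat_lit 256) (nat_lit 240)) (XT.lf (nat_lit 0) (nat_lit 1491099384) (nat_lit 988) (nat_lit 2229729964) (nat_lit 76) (nat_lit 3585151282) (nat_lit 165) (nat_lit 5) (nat_lit 178) (nat_lit 5) (nat_lit 166) (nat_lit 5) (nat_lit 285) (nat_lit 256) (nat_lit 239)))) (XT.nd (nat_lit 78) (nat_lit 1140) (nat_lit 0) (XT.lf (nat_lit 0) (nat_lit 1786974529) (nat_lit 988) (nat_lit 2080159732) (nat_lit 1064) (nat_lit 3515802275) (nat_lit 152) (nat_lit 5) (nat_lit 165) (nat_lit 5) (nat_lit 166) (nat_lit 5) (nat_lit 286) (nat_lit 256) (nat_lit 238)) (XT.nd (nat_lit 78) (nat_lit 1140) (nat_lit 0) (XT.lf (nat_lit 0) (nat_lit 5905768590) (nat_lit 988)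 (nat_lit 362017329) (nat_lit 1064) (nat_lit 1196041112) (nat_lit 152) (nat_lit 5) (nat_lit 165) (nat_lit 5) (nat_lit 166) (nat_lit 5) (nat_lit 287) (nat_lit 256) (nat_lit 237)) (XT.lf (nat_lit 0) (nat_lit 1140674163) (nat_lit 1140) (nat_lit 4986283317) (nat_lit 76) (nat_lit 1420936232) (nat_lit 137) (nat_lit 5) (nat_lit 152) (nat_lit 5) (nat_lit 138) (nat_lit 5) (nat_lit 288) (nat_lit 256) (nat_lit 236)))))) (XT.nd (nat_lit 468) (nat_lit 1444) (nat_lit 0) (XT.nd (nat_lit 234) (nat_lit 1064) (nat_lit 0) (XT.nd (nat_lit 78) (nat_lit 684) (nat_lit 0) (XT.lf (nat_lit 0) (nat_lit 3476287649) (nat_lit 1140) (nat_lit 878217770) (nat_lit 76) (nat_lit 3281243441) (nat_lit 137) (nat_lit 5) (nat_lit 152) (nat_lit 5) (nat_lit 138) (nat_lit 5) (nat_lit 289) (nat_lit 256) (nat_lit 235)) (XT.nd (nat_lit 78) (nat_lit 76) (nat_lit 0) (XT.lf (nat_lit 0) (nat_lit 3355031058) (nat_lit 608) (nat_lit 2494492544)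 (nat_lit 684) (nat_lit 1877890224) (nat_lit 129) (nat_lit 5) (nat_lit 137) (nat_lit 5) (nat_lit 138) (nat_lit 5) (nat_lit 290) (nat_lit 256) (nat_lit 234)) (XT.lf (nat_lit 0) (nat_lit 407635177) (nat_lit 684) (nat_lit 157281208) (nat_lit 76) (nat_lit 7258623856) (nat_lit 128) (nat_lit 5) (nat_lit 137) (nat_lit 5) (nat_lit 129) (nat_lit 5) (nat_lit 291) (nat_lit 256) (nat_lit 233)))) (XT.nd (nat_lit 78) (nat_lit 532) (nat_lit 0) (XT.lf (nat_lit 0) (nat_lit 2716100455) (nat_lit 608) (nat_lit 3752251581) (nat_lit 76) (nat_lit 1454060831) (nat_lit 121) (nat_lit 5) (nat_lit 129) (nat_lit 5) (nat_lit 122) (nat_lit 5) (nat_lit 292) (nat_lit 256) (nat_lit 232)) (XT.nd (nat_lit 78) (nat_lit 0) (nat_lit 0) (XT.lf (nat_lit 0) (nat_lit 547634288) (nat_lit 532) (nat_lit 4497496309) (nat_lit 608) (nat_lit 2980760144) (nat_lit 114) (nat_lit 5) (nat_lit 121) (nat_lit 5) (nat_lit 122) (nat_lit 5) (nat_lit 293)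 (nat_lit 256) (nat_lit 231)) (XT.lf (nat_lit 0) (nat_lit 4990170375) (nat_lit 532) (nat_lit 2431774124) (nat_lit 608) (nat_lit 711364262) (nat_lit 114) (nat_lit 5) (nat_lit 121) (nat_lit 5) (nat_lit 122) (nat_lit 5) (nat_lit 294) (nat_lit 256) (nat_lit 230))))) (XT.nd (nat_lit 234) (nat_lit 456) (nat_lit 0) (XT.nd (nat_lit 78) (nat_lit 456) (nat_lit 0) (XT.lf (nat_lit 0) (nat_lit 1268394859) (nat_lit 456) (nat_lit 279207870) (nat_lit 532) (nat_lit 6697444298) (nat_lit 107) (nat_lit 5) (nat_lit 113) (nat_lit 5) (nat_lit 114) (nat_lit 5) (nat_lit 295) (nat_lit 256) (nat_lit 229)) (XT.nd (nat_lit 78) (nat_lit 456) (nat_lit 0) (XT.lf (nat_lit 0) (nat_lit 3852830428) (nat_lit 532) (nat_lit 2572461622) (nat_lit 76) (nat_lit 1935008910) (nat_lit 107) (nat_lit 5) (nat_lit 114) (nat_lit 5) (nat_lit 108) (nat_lit 5) (nat_lit 296) (nat_lit 256) (nat_lit 228)) (XT.lf (nat_lit 0) (nat_lit 1936751509) (nat_lit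 456) (nat_lit 4255638333) (nat_lit 532) (nat_lit 2287821307) (nat_lit 101) (nat_lit 5) (nat_lit 107) (nat_lit 5) (nat_lit 108) (nat_lit 5) (nat_lit 297) (nat_lit 256) (nat_lit 227)))) (XT.nd (nat_lit 78) (nat_lit 456) (nat_lit 0) (XT.lf (nat_lit 0) (nat_lit 6572451416) (nat_lit 456) (nat_lit 2000500350) (nat_lit 532) (nat_lit 31791807) (nat_lit 101) (nat_lit 5) (nat_lit 107) (nat_lit 5) (nat_lit 108) (nat_lit 5) (nat_lit 298) (nat_lit 256) (nat_lit 226)) (XT.nd (nat_lit 78) (nat_lit 0) (nat_lit 0) (XT.lf (nat_lit 0) (nat_lit 2221281301) (nat_lit 456) (nat_lit 6155266708) (nat_lit 76) (nat_lit 356721258) (nat_lit 95) (nat_lit 5) (nat_lit 101) (nat_lit 5) (nat_lit 96) (nat_lit 5) (nat_lit 299) (nat_lit 256) (nat_lit 225)) (XT.lf (nat_lit 0) (nat_lit 4528543770) (nat_lit 456) (nat_lit 1579112036) (nat_lit 76) (nat_lit 2758505122) (nat_lit 95) (nat_lit 5) (nat_lit 101) (nat_lit 5) (nat_lit 96) (nat_lit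 5) (nat_lit 300) (nat_lit 256) (nat_lit 224))))))) (XT.nd (nat_lit 858) (nat_lit 1444) (nat_lit 0) (XT.nd (nat_lit 390) (nat_lit 1140) (nat_lit 0) (XT.nd (nat_lit 156) (nat_lit 760) (nat_lit 0) (XT.nd (nat_lit 78) (nat_lit 76) (nat_lit 0) (XT.lf (nat_lit 0) (nat_lit 3135296364) (nat_lit 456) (nat_lit 3748122308) (nat_lit 532) (nat_lit 2120401571) (nat_lit 89) (nat_lit 5) (nat_lit 95) (nat_lit 5) (nat_lit 96) (nat_lit 5) (nat_lit 301) (nat_lit 256) (nat_lit 223)) (XT.lf (nat_lit 0) (nat_lit 124807862) (nat_lit 532) (nat_lit 1184121995) (nat_lit 76) (nat_lit 7837817566) (nat_lit 88) (nat_lit 5) (nat_lit 95) (nat_lit 5) (nat_lit 89) (nat_lit 5) (nat_lit 302) (nat_lit 256) (nat_lit 222))) (XT.nd (nat_lit 78) (nat_lit 380) (nat_lit 0) (XT.lf (nat_lit 0) (nat_lit 2391759150) (nat_lit 456) (nat_lit 5674254867) (nat_lit 76) (nat_lit 1227529948) (nat_lit 83) (nat_lit 5) (nat_lit 89) (nat_lit 5) (nat_lit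 84) (nat_lit 5) (nat_lit 303) (nat_lit 256) (nat_lit 221)) (XT.nd (nat_lit 78) (nat_lit 380) (nat_lit 0) (XT.lf (nat_lit 0) (nat_lit 4702616237) (nat_lit 456) (nat_lit 926309124) (nat_lit 76) (nat_lit 3816660066) (nat_lit 83) (nat_lit 5) (nat_lit 89) (nat_lit 5) (nat_lit 84) (nat_lit 5) (nat_lit 304) (nat_lit 256) (nat_lit 220)) (XT.lf (nat_lit 0) (nat_lit 3983634104) (nat_lit 380) (nat_lit 3089751125) (nat_lit 456) (nat_lit 2529199820) (nat_lit 78) (nat_lit 5) (nat_lit 83) (nat_lit 5) (nat_lit 84) (nat_lit 5) (nat_lit 305) (nat_lit 256) (nat_lit 219))))) (XT.nd (nat_lit 234) (nat_lit 760) (nat_lit 0) (XT.nd (nat_lit 78) (nat_lit 380) (nat_lit 0) (XT.lf (nat_lit 0) (nat_lit 9002258476) (nat_lit 380) (nat_lit 475501571) (nat_lit 456) (nat_lit 287771300) (nat_lit 78) (nat_lit 5) (nat_lit 83) (nat_lit 5) (nat_lit 84) (nat_lit 5) (nat_lit 306) (nat_lit 256) (nat_lit 218)) (XT.nd (nat_lit 78) (nat_lit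 0) (nat_lit 0) (XT.lf (nat_lit 0) (nat_lit 1998008169) (nat_lit 380) (nat_lit 5710324243) (nat_lit 76) (nat_lit 2224059332) (nat_lit 73) (nat_lit 5) (nat_lit 78) (nat_lit 5) (nat_lit 74) (nat_lit 5) (nat_lit 307) (nat_lit 256) (nat_lit 217)) (XT.lf (nat_lit 0) (nat_lit 4313699149) (nat_lit 380) (nat_lit 796789355) (nat_lit 76) (nat_lit 4994772046) (nat_lit 73) (nat_lit 5) (nat_lit 78) (nat_lit 5) (nat_lit 74) (nat_lit 5) (nat_lit 308) (nat_lit 256) (nat_lit 216)))) (XT.nd (nat_lit 78) (nat_lit 380) (nat_lit 0) (XT.lf (nat_lit 0) (nat_lit 4291839078) (nat_lit 380) (nat_lit 2404229248) (nat_lit 456) (nat_lit 3587429642) (nat_lit 68) (nat_lit 5) (nat_lit 73) (nat_lit 5) (nat_lit 74) (nat_lit 5) (nat_lit 309) (nat_lit 256) (nat_lit 215)) (XT.nd (nat_lit 78) (nat_lit 380) (nat_lit 0) (XT.lf (nat_lit 0) (nat_lit 9118301606) (nat_lit 456) (nat_lit 977934328) (nat_lit 76) (nat_lit 371890679) (nat_lit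 68) (nat_lit 5) (nat_lit 74) (nat_lit 5) (nat_lit 69) (nat_lit 5) (nat_lit 310) (nat_lit 256) (nat_lit 214)) (XT.lf (nat_lit 0) (nat_lit 958319527) (nat_lit 380) (nat_lit 6478120142) (nat_lit 76) (nat_lit 3221008102) (nat_lit 63) (nat_lit 5) (nat_lit 68) (nat_lit 5) (nat_lit 64) (nat_lit 5) (nat_lit 311) (nat_lit 256) (nat_lit 213)))))) (XT.nd (nat_lit 468) (nat_lit 532) (nat_lit 0) (XT.nd (nat_lit 234) (nat_lit 608) (nat_lit 0) (XT.nd (nat_lit 78) (nat_lit 304) (nat_lit 0) (XT.lf (nat_lit 0) (nat_lit 3276603340) (nat_lit 380) (nat_lit 1409778115) (nat_lit 76) (nat_lit 6166713173) (nat_lit 63) (nat_lit 5) (nat_lit 68) (nat_lit 5) (nat_lit 64) (nat_lit 5) (nat_lit 312) (nat_lit 256) (nat_lit 212)) (XT.nd (nat_lit 78) (nat_lit 0) (nat_lit 0) (XT.lf (nat_lit 0) (nat_lit 3831479582) (nat_lit 304) (nat_lit 1829060489) (nat_lit 380) (nat_lit 5394272891) (nat_lit 59) (nat_lit 5) (nat_lit 63) (nat_lit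 5) (nat_lit 64) (nat_lit 5) (nat_lit 313) (nat_lit 256) (nat_lit 211)) (XT.lf (nat_lit 0) (nat_lit 8100899107) (nat_lit 380) (nat_lit 2068659292) (nat_lit 76) (nat_lit 1093560042) (nat_lit 59) (nat_lit 5) (nat_lit 64) (nat_lit 5) (nat_lit 60) (nat_lit 5) (nat_lit 314) (nat_lit 256) (nat_lit 210)))) (XT.nd (nat_lit 78) (nat_lit 380) (nat_lit 0) (XT.lf (nat_lit 0) (nat_lit 3232686680) (nat_lit 228) (nat_lit 7391955624) (nat_lit 304) (nat_lit 852805888) (nat_lit 56) (nat_lit 5) (nat_lit 59) (nat_lit 5) (nat_lit 60) (nat_lit 5) (nat_lit 315) (nat_lit 256) (nat_lit 209)) (XT.nd (nat_lit 78) (nat_lit 304) (nat_lit 0) (XT.lf (nat_lit 0) (nat_lit 1478375794) (nat_lit 304) (nat_lit 3030247007) (nat_lit 76) (nat_lit 7189752858) (nat_lit 55) (nat_lit 5) (nat_lit 59) (nat_lit 5) (nat_lit 56) (nat_lit 5) (nat_lit 316) (nat_lit 256) (nat_lit 208)) (XT.lf (nat_lit 0) (nat_lit 2325928337) (nat_lit 304) (nat_lit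 1521078607) (nat_lit 380) (nat_lit 8079204557) (nat_lit 51) (nat_lit 5) (nat_lit 55) (nat_lit 5) (nat_lit 56) (nat_lit 5) (nat_lit 317) (nat_lit 256) (nat_lit 207))))) (XT.nd (nat_lit 234) (nat_lit 304) (nat_lit 0) (XT.nd (nat_lit 78) (nat_lit 228) (nat_lit 0) (XT.lf (nat_lit 0) (nat_lit 6295324206) (nat_lit 380) (nat_lit 4322579262) (nat_lit 76) (nat_lit 1542791489) (nat_lit 51) (nat_lit 5) (nat_lit 56) (nat_lit 5) (nat_lit 52) (nat_lit 5) (nat_lit 318) (nat_lit 256) (nat_lit 206)) (XT.nd (nat_lit 78) (nat_lit 0) (nat_lit 0) (XT.lf (nat_lit 0) (nat_lit 1068508355) (nat_lit 228) (nat_lit 7737764990) (nat_lit 304) (nat_lit 3596333380) (nat_lit 48) (nat_lit 5) (nat_lit 51) (nat_lit 5) (nat_lit 52) (nat_lit 5) (nat_lit 319) (nat_lit 256) (nat_lit 205)) (XT.lf (nat_lit 0) (nat_lit 6659697005) (nat_lit 228) (nat_lit 4740924491) (nat_lit 304) (nat_lit 1250979491) (nat_lit 48) (nat_lit 5) (nat_lit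 51) (nat_lit 5) (nat_lit 52) (nat_lit 5) (nat_lit 320) (nat_lit 256) (nat_lit 204)))) (XT.nd (nat_lit 78) (nat_lit 228) (nat_lit 0) (XT.lf (nat_lit 0) (nat_lit 1107058050) (nat_lit 304) (nat_lit 550175783) (nat_lit 76) (nat_lit 11251607221) (nat_lit 47) (nat_lit 5) (nat_lit 51) (nat_lit 5) (nat_lit 48) (nat_lit 5) (nat_lit 321) (nat_lit 256) (nat_lit 203)) (XT.nd (nat_lit 78) (nat_lit 0) (nat_lit 0) (XT.lf (nat_lit 0) (nat_lit 3540798915) (nat_lit 304) (nat_lit 8094387731) (nat_lit 76) (nat_lit 1537398483) (nat_lit 44) (nat_lit 5) (nat_lit 48) (nat_lit 5) (nat_lit 45) (nat_lit 5) (nat_lit 322) (nat_lit 256) (nat_lit 202)) (XT.lf (nat_lit 0) (nat_lit 6036033909) (nat_lit 304) (nat_lit 2622384924) (nat_lit 76) (nat_lit 4786227993) (nat_lit 44) (nat_lit 5) (nat_lit 48) (nat_lit 5) (nat_lit 45) (nat_lit 5) (nat_lit 323) (nat_lit 256) (nat_lit 201))))))))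
noncomputable def xc100 : XT := (XT.nd (nat_lit 1716) (nat_lit 760) (nat_lit 0) (XT.nd (nat_lit 858) (nat_lit 532) (nat_lit 0) (XT.nd (nat_lit 390) (nat_lit 608) (nat_lit 0) (XT.nd (nat_lit 156) (nat_lit 304) (nat_lit 0) (XT.nd (nat_lit 78) (nat_lit 0) (nat_lit 0) (XT.lf (nat_lit 0) (nat_lit 3025687357) (nat_lit 228) (nat_lit 5576963106) (nat_lit 304) (nat_lit 5122382196) (nat_lit 41) (nat_lit 5) (nat_lit 44) (nat_lit 5) (nat_lit 45) (nat_lit 5) (nat_lit 324) (nat_lit 256) (nat_lit 200)) (XT.lf (nat_lit 0) (nat_lit 8850287545) (nat_lit 228) (nat_lit 2390398396) (nat_lit 304) (nat_lit 2773367839) (nat_lit 41) (nat_lit 5) (nat_lit 44) (nat_lit 5) (nat_lit 45) (nat_lit 5) (nat_lit 325) (nat_lit 256) (nat_lit 199))) (XT.nd (nat_lit 78) (nat_lit 76) (nat_lit 0) (XT.lf (nat_lit 0) (nat_lit 492760169) (nat_lit 228) (nat_lit 13447148135) (nat_lit 304) (nat_lit 372430545) (nat_lit 38) (nat_lit 5) (nat_lit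 41) (nat_lit 5) (nat_lit 42) (nat_lit 5) (nat_lit 326) (nat_lit 256) (nat_lit 198)) (XT.nd (nat_lit 78) (nat_lit 0) (nat_lit 0) (XT.lf (nat_lit 0) (nat_lit 2104724546) (nat_lit 304) (nat_lit 8283931127) (nat_lit 76) (nat_lit 4229007236) (nat_lit 37) (nat_lit 5) (nat_lit 41) (nat_lit 5) (nat_lit 38) (nat_lit 5) (nat_lit 327) (nat_lit 256) (nat_lit 197)) (XT.lf (nat_lit 0) (nat_lit 4618467233) (nat_lit 304) (nat_lit 2630932911) (nat_lit 76) (nat_lit 7683593220) (nat_lit 37) (nat_lit 5) (nat_lit 41) (nat_lit 5) (nat_lit 38) (nat_lit 5) (nat_lit 328) (nat_lit 256) (nat_lit 196))))) (XT.nd (nat_lit 234) (nat_lit 456) (nat_lit 0) (XT.nd (nat_lit 78) (nat_lit 0) (nat_lit 0) (XT.lf (nat_lit 0) (nat_lit 3210585600) (nat_lit 152) (nat_lit 3998537961) (nat_lit 228) (nat_lit 8048663718) (nat_lit 35) (nat_lit 5) (nat_lit 37) (nat_lit 5) (nat_lit 38) (nat_lit 5) (nat_lit 329) (nat_lit 256) (nat_lit 195))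 (XT.nd (nat_lit 78) (nat_lit 0) (nat_lit 0) (XT.lf (nat_lit 0) (nat_lit 9237990096) (nat_lit 152) (nat_lit 637155023) (nat_lit 228) (nat_lit 5717297701) (nat_lit 35) (nat_lit 5) (nat_lit 37) (nat_lit 5) (nat_lit 38) (nat_lit 5) (nat_lit 330) (nat_lit 256) (nat_lit 194)) (XT.lf (nat_lit 0) (nat_lit 12620090171) (nat_lit 228) (nat_lit 560861881) (nat_lit 76) (nat_lit 2756263490) (nat_lit 35) (nat_lit 5) (nat_lit 38) (nat_lit 5) (nat_lit 36) (nat_lit 5) (nat_lit 331) (nat_lit 256) (nat_lit 193)))) (XT.nd (nat_lit 78) (nat_lit 228) (nat_lit 0) (XT.lf (nat_lit 0) (nat_lit 5465338519) (nat_lit 228) (nat_lit 10013498000) (nat_lit 304) (nat_lit 812595804) (nat_lit 32) (nat_lit 5) (nat_lit 35) (nat_lit 5) (nat_lit 36) (nat_lit 5) (nat_lit 332) (nat_lit 256) (nat_lit 192)) (XT.nd (nat_lit 78) (nat_lit 152) (nat_lit 0) (XT.lf (nat_lit 0) (nat_lit 1711008632) (nat_lit 304) (nat_lit 5031041997) (nat_lit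 76) (nat_lit 9914404682) (nat_lit 31) (nat_lit 5) (nat_lit 35) (nat_lit 5) (nat_lit 32) (nat_lit 5) (nat_lit 333) (nat_lit 256) (nat_lit 191)) (XT.lf (nat_lit 0) (nat_lit 907013883) (nat_lit 152) (nat_lit 3369190024) (nat_lit 228) (nat_lit 12756557955) (nat_lit 29) (nat_lit 5) (nat_lit 31) (nat_lit 5) (nat_lit 32) (nat_lit 5) (nat_lit 334) (nat_lit 256) (nat_lit 190)))))) (XT.nd (nat_lit 390) (nat_lit 380) (nat_lit 0) (XT.nd (nat_lit 156) (nat_lit 152) (nat_lit 0) (XT.nd (nat_lit 78) (nat_lit 0) (nat_lit 0) (XT.lf (nat_lit 0) (nat_lit 6944417956) (nat_lit 228) (nat_lit 10334794175) (nat_lit 76) (nat_lit 140403100) (nat_lit 29) (nat_lit 5) (nat_lit 32) (nat_lit 5) (nat_lit 30) (nat_lit 5) (nat_lit 335) (nat_lit 256) (nat_lit 189)) (XT.lf (nat_lit 0) (nat_lit 9700549660) (nat_lit 228) (nat_lit 4443074532) (nat_lit 76) (nat_lit 3674252231) (nat_lit 29) (nat_lit 5) (nat_lit 32) (nat_lit 5) (nat_lit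 30) (nat_lit 5) (nat_lit 336) (nat_lit 256) (nat_lit 188))) (XT.nd (nat_lit 78) (nat_lit 0) (nat_lit 0) (XT.lf (nat_lit 0) (nat_lit 1618529103) (nat_lit 152) (nat_lit 10911649762) (nat_lit 228) (nat_lit 5698219417) (nat_lit 27) (nat_lit 5) (nat_lit 29) (nat_lit 5) (nat_lit 30) (nat_lit 5) (nat_lit 337) (nat_lit 256) (nat_lit 187)) (XT.nd (nat_lit 78) (nat_lit 0) (nat_lit 0) (XT.lf (nat_lit 0) (nat_lit 7914985560) (nat_lit 152) (nat_lit 7550187717) (nat_lit 228) (nat_lit 3185484385) (nat_lit 27) (nat_lit 5) (nat_lit 29) (nat_lit 5) (nat_lit 30) (nat_lit 5) (nat_lit 338) (nat_lit 256) (nat_lit 186)) (XT.lf (nat_lit 0) (nat_lit 14363370700) (nat_lit 152) (nat_lit 4101167199) (nat_lit 228) (nat_lit 621792415) (nat_lit 27) (nat_lit 5) (nat_lit 29) (nat_lit 5) (nat_lit 30) (nat_lit 5) (nat_lit 339) (nat_lit 256) (nat_lit 185))))) (XT.nd (nat_lit 234) (nat_lit 152) (nat_lit 0) (XT.nd (nat_lit 78) (nat_lit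 0) (nat_lit 0) (XT.lf (nat_lit 0) (nat_lit 1442492241) (nat_lit 152) (nat_lit 527538966) (nat_lit 228) (nat_lit 17564774389) (nat_lit 24) (nat_lit 5) (nat_lit 26) (nat_lit 5) (nat_lit 27) (nat_lit 5) (nat_lit 340) (nat_lit 256) (nat_lit 184)) (XT.nd (nat_lit 78) (nat_lit 0) (nat_lit 0) (XT.lf (nat_lit 0) (nat_lit 4682542332) (nat_lit 228) (nat_lit 12179141867) (nat_lit 76) (nat_lit 3133235467) (nat_lit 24) (nat_lit 5) (nat_lit 27) (nat_lit 5) (nat_lit 25) (nat_lit 5) (nat_lit 341) (nat_lit 256) (nat_lit 183)) (XT.lf (nat_lit 0) (nat_lit 7459277127) (nat_lit 228) (nat_lit 6129352960) (nat_lit 76) (nat_lit 6880752805) (nat_lit 24) (nat_lit 5) (nat_lit 27) (nat_lit 5) (nat_lit 25) (nat_lit 5) (nat_lit 342) (nat_lit 256) (nat_lit 182)))) (XT.nd (nat_lit 78) (nat_lit 0) (nat_lit 0) (XT.lf (nat_lit 0) (nat_lit 68752216) (nat_lit 152) (nat_lit 10229499513) (nat_lit 228) (nat_lit 10660490434) (nat_lit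 22) (nat_lit 5) (nat_lit 24) (nat_lit 5) (nat_lit 25) (nat_lit 5) (nat_lit 343) (nat_lit 256) (nat_lit 181)) (XT.nd (nat_lit 78) (nat_lit 0) (nat_lit 0) (XT.lf (nat_lit 0) (nat_lit 6544265696) (nat_lit 152) (nat_lit 6718605341) (nat_lit 228) (nat_lit 8198726307) (nat_lit 22) (nat_lit 5) (nat_lit 24) (nat_lit 5) (nat_lit 25) (nat_lit 5) (nat_lit 344) (nat_lit 256) (nat_lit 180)) (XT.lf (nat_lit 0) (nat_lit 13180859554) (nat_lit 152) (nat_lit 3114774248) (nat_lit 228) (nat_lit 5684556775) (nat_lit 22) (nat_lit 5) (nat_lit 24) (nat_lit 5) (nat_lit 25) (nat_lit 5) (nat_lit 345) (nat_lit 256) (nat_lit 179))))))) (XT.nd (nat_lit 858) (nat_lit 304) (nat_lit 0) (XT.nd (nat_lit 390) (nat_lit 228) (nat_lit 0) (XT.nd (nat_lit 156) (nat_lit 76) (nat_lit 0) (XT.nd (nat_lit 78) (nat_lit 152) (nat_lit 0) (XT.lf (nat_lit 0) (nat_lit 19404814758) (nat_lit 228) (nat_lit 2536266996) (nat_lit 76) (nat_lit 573724503)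 (nat_lit 22) (nat_lit 5) (nat_lit 25) (nat_lit 5) (nat_lit 23) (nat_lit 4) (nat_lit 346) (nat_lit 256) (nat_lit 178)) (XT.lf (nat_lit 0) (nat_lit 3928730533) (nat_lit 152) (nat_lit 18727431658) (nat_lit 228) (nat_lit 407858387) (nat_lit 20) (nat_lit 5) (nat_lit 22) (nat_lit 5) (nat_lit 23) (nat_lit 4) (nat_lit 347) (nat_lit 256) (nat_lit 177))) (XT.nd (nat_lit 78) (nat_lit 0) (nat_lit 0) (XT.lf (nat_lit 0) (nat_lit 2335192103) (nat_lit 228) (nat_lit 13044248592) (nat_lit 76) (nat_lit 8249424853) (nat_lit 19) (nat_lit 5) (nat_lit 22) (nat_lit 5) (nat_lit 20) (nat_lit 5) (nat_lit 348) (nat_lit 256) (nat_lit 176)) (XT.nd (nat_lit 78) (nat_lit 0) (nat_lit 0) (XT.lf (nat_lit 0) (nat_lit 5133249081) (nat_lit 228) (nat_lit 6805473116) (nat_lit 76) (nat_lit 12272409768) (nat_lit 19) (nat_lit 5) (nat_lit 22) (nat_lit 5) (nat_lit 20) (nat_lit 5) (nat_lit 349) (nat_lit 256) (nat_lit 175)) (XT.lf (nat_lit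 0) (nat_lit 7996716237) (nat_lit 228) (nat_lit 409591677) (nat_lit 76) (nat_lit 16405138308) (nat_lit 19) (nat_lit 5) (nat_lit 22) (nat_lit 5) (nat_lit 20) (nat_lit 5) (nat_lit 350) (nat_lit 256) (nat_lit 174))))) (XT.nd (nat_lit 234) (nat_lit 76) (nat_lit 0) (XT.nd (nat_lit 78) (nat_lit 0) (nat_lit 0) (XT.lf (nat_lit 0) (nat_lit 6271361204) (nat_lit 152) (nat_lit 4717018585) (nat_lit 228) (nat_lit 14440144553) (nat_lit 17) (nat_lit 5) (nat_lit 19) (nat_lit 5) (nat_lit 20) (nat_lit 5) (nat_lit 351) (nat_lit 256) (nat_lit 173)) (XT.nd (nat_lit 78) (nat_lit 0) (nat_lit 0) (XT.lf (nat_lit 0) (nat_lit 13132243151) (nat_lit 152) (nat_lit 923940661) (nat_lit 228) (nat_lit 12008361808) (nat_lit 17) (nat_lit 5) (nat_lit 19) (nat_lit 5) (nat_lit 20) (nat_lit 5) (nat_lit 352) (nat_lit 256) (nat_lit 172)) (XT.lf (nat_lit 0) (nat_lit 17227362990) (nat_lit 228) (nat_lit 6577858522) (nat_lit 76) (nat_lit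 2914107668) (nat_lit 17) (nat_lit 5) (nat_lit 20) (nat_lit 5) (nat_lit 18) (nat_lit 4) (nat_lit 353) (nat_lit 256) (nat_lit 171)))) (XT.nd (nat_lit 78) (nat_lit 76) (nat_lit 0) (XT.lf (nat_lit 0) (nat_lit 20485997594) (nat_lit 228) (nat_lit 69588211) (nat_lit 76) (nat_lit 6838422076) (nat_lit 17) (nat_lit 5) (nat_lit 20) (nat_lit 5) (nat_lit 18) (nat_lit 4) (nat_lit 354) (nat_lit 256) (nat_lit 170)) (XT.nd (nat_lit 78) (nat_lit 0) (nat_lit 0) (XT.lf (nat_lit 0) (nat_lit 6738570566) (nat_lit 76) (nat_lit 17152258191) (nat_lit 152) (nat_lit 4196665682) (nat_lit 16) (nat_lit 5) (nat_lit 17) (nat_lit 5) (nat_lit 18) (nat_lit 4) (nat_lit 355) (nat_lit 256) (nat_lit 169)) (XT.lf (nat_lit 0) (nat_lit 13725810443) (nat_lit 76) (nat_lit 13656579630) (nat_lit 152) (nat_lit 1419877981) (nat_lit 16) (nat_lit 5) (nat_lit 17) (nat_lit 5) (nat_lit 18) (nat_lit 4) (nat_lit 356) (nat_lit 256) (nat_lit 168))))))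 (XT.nd (nat_lit 468) (nat_lit 76) (nat_lit 0) (XT.nd (nat_lit 234) (nat_lit 0) (nat_lit 0) (XT.nd (nat_lit 78) (nat_lit 152) (nat_lit 0) (XT.lf (nat_lit 0) (nat_lit 1396287568) (nat_lit 152) (nat_lit 8655811017) (nat_lit 76) (nat_lit 19486464495) (nat_lit 15) (nat_lit 5) (nat_lit 17) (nat_lit 5) (nat_lit 16) (nat_lit 5) (nat_lit 357) (nat_lit 256) (nat_lit 167)) (XT.nd (nat_lit 78) (nat_lit 152) (nat_lit 0) (XT.lf (nat_lit 0) (nat_lit 4253038746) (nat_lit 152) (nat_lit 2081991032) (nat_lit 76) (nat_lit 23961974588) (nat_lit 15) (nat_lit 5) (nat_lit 17) (nat_lit 5) (nat_lit 16) (nat_lit 5) (nat_lit 358) (nat_lit 256) (nat_lit 166)) (XT.lf (nat_lit 0) (nat_lit 4757225802) (nat_lit 152) (nat_lit 2469082239) (nat_lit 228) (nat_lit 23850984170) (nat_lit 13) (nat_lit 5) (nat_lit 15) (nat_lit 5) (nat_lit 16) (nat_lit 5) (nat_lit 359) (nat_lit 256) (nat_lit 165)))) (XT.nd (nat_lit 78) (nat_lit 0) (nat_lit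 0) (XT.lf (nat_lit 0) (nat_lit 10309742795) (nat_lit 228) (nat_lit 20075582814) (nat_lit 76) (nat_lit 1495051327) (nat_lit 13) (nat_lit 5) (nat_lit 16) (nat_lit 5) (nat_lit 14) (nat_lit 4) (nat_lit 360) (nat_lit 256) (nat_lit 164)) (XT.nd (nat_lit 78) (nat_lit 0) (nat_lit 0) (XT.lf (nat_lit 0) (nat_lit 13495751043) (nat_lit 228) (nat_lit 13692261773) (nat_lit 76) (nat_lit 5519256040) (nat_lit 13) (nat_lit 5) (nat_lit 16) (nat_lit 5) (nat_lit 14) (nat_lit 4) (nat_lit 361) (nat_lit 256) (nat_lit 163)) (XT.lf (nat_lit 0) (nat_lit 16763382345) (nat_lit 228) (nat_lit 7140791298) (nat_lit 76) (nat_lit 9655228881) (nat_lit 13) (nat_lit 5) (nat_lit 16) (nat_lit 5) (nat_lit 14) (nat_lit 4) (nat_lit 362) (nat_lit 256) (nat_lit 162))))) (XT.nd (nat_lit 234) (nat_lit 0) (nat_lit 0) (XT.nd (nat_lit 78) (nat_lit 76) (nat_lit 0) (XT.lf (nat_lit 0) (nat_lit 20115491914) (nat_lit 228) (nat_lit 415446804) (nat_lit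 76) (nat_lit 13906583808) (nat_lit 13) (nat_lit 5) (nat_lit 16) (nat_lit 5) (nat_lit 14) (nat_lit 4) (nat_lit 363) (nat_lit 256) (nat_lit 161)) (XT.nd (nat_lit 78) (nat_lit 0) (nat_lit 0) (XT.lf (nat_lit 0) (nat_lit 6618804949) (nat_lit 76) (nat_lit 16999827831) (nat_lit 152) (nat_lit 11721854650) (nat_lit 12) (nat_lit 5) (nat_lit 13) (nat_lit 5) (nat_lit 14) (nat_lit 4) (nat_lit 364) (nat_lit 256) (nat_lit 160)) (XT.lf (nat_lit 0) (nat_lit 13850806489) (nat_lit 76) (nat_lit 13367274276) (nat_lit 152) (nat_lit 9052739024) (nat_lit 12) (nat_lit 5) (nat_lit 13) (nat_lit 5) (nat_lit 14) (nat_lit 4) (nat_lit 365) (nat_lit 256) (nat_lit 159)))) (XT.nd (nat_lit 78) (nat_lit 0) (nat_lit 0) (XT.lf (nat_lit 0) (nat_lit 21278608835) (nat_lit 76) (nat_lit 9634299174) (nat_lit 152) (nat_lit 6316546697) (nat_lit 12) (nat_lit 5) (nat_lit 13) (nat_lit 5) (nat_lit 14) (nat_lit 4) (nat_lit 366) (nat_lit 256)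 (nat_lit 158)) (XT.nd (nat_lit 78) (nat_lit 0) (nat_lit 0) (XT.lf (nat_lit 0) (nat_lit 28908702299) (nat_lit 76) (nat_lit 5797640704) (nat_lit 152) (nat_lit 3510886821) (nat_lit 12) (nat_lit 5) (nat_lit 13) (nat_lit 5) (nat_lit 14) (nat_lit 4) (nat_lit 367) (nat_lit 256) (nat_lit 157)) (XT.lf (nat_lit 0) (nat_lit 36747753953) (nat_lit 76) (nat_lit 1853946444) (nat_lit 152) (nat_lit 633307847) (nat_lit 12) (nat_lit 5) (nat_lit 13) (nat_lit 5) (nat_lit 14) (nat_lit 4) (nat_lit 368) (nat_lit 256) (nat_lit 156))))))))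
noncomputable def xc101 : XT := (XT.nd (nat_lit 1716) (nat_lit 76) (nat_lit 0) (XT.nd (nat_lit 858) (nat_lit 152) (nat_lit 0) (XT.nd (nat_lit 390) (nat_lit 76) (nat_lit 0) (XT.nd (nat_lit 156) (nat_lit 0) (nat_lit 0) (XT.nd (nat_lit 78) (nat_lit 0) (nat_lit 0) (XT.lf (nat_lit 0) (nat_lit 2339350207) (nat_lit 228) (nat_lit 35717357788) (nat_lit 76) (nat_lit 2224325876) (nat_lit 9) (nat_lit 5) (nat_lit 12) (nat_lit 5) (nat_lit 10) (nat_lit 4) (nat_lit 369) (nat_lit 256) (nat_lit 155)) (XT.lf (nat_lit 0) (nat_lit 5420595336) (nat_lit 228) (nat_lit 29525139214) (nat_lit 76) (nat_lit 6411565994) (nat_lit 9) (nat_lit 5) (nat_lit 12) (nat_lit 5) (nat_lit 10) (nat_lit 4) (nat_lit 370) (nat_lit 256) (nat_lit 154))) (XT.nd (nat_lit 78) (nat_lit 0) (nat_lit 0) (XT.lf (nat_lit 0) (nat_lit 8583030457) (nat_lit 228) (nat_lit 23166278478) (nat_lit 76) (nat_lit 10716895815) (nat_lit 9) (nat_lit 5) (nat_lit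 12) (nat_lit 5) (nat_lit 10) (nat_lit 4) (nat_lit 371) (nat_lit 256) (nat_lit 153)) (XT.nd (nat_lit 78) (nat_lit 0) (nat_lit 0) (XT.lf (nat_lit 0) (nat_lit 11829418863) (nat_lit 228) (nat_lit 16635219293) (nat_lit 76) (nat_lit 15144077275) (nat_lit 9) (nat_lit 5) (nat_lit 12) (nat_lit 5) (nat_lit 10) (nat_lit 4) (nat_lit 372) (nat_lit 256) (nat_lit 152)) (XT.lf (nat_lit 0) (nat_lit 15162597205) (nat_lit 228) (nat_lit 9926254911) (nat_lit 76) (nat_lit 19696978787) (nat_lit 9) (nat_lit 5) (nat_lit 12) (nat_lit 5) (nat_lit 10) (nat_lit 4) (nat_lit 373) (nat_lit 256) (nat_lit 151))))) (XT.nd (nat_lit 234) (nat_lit 0) (nat_lit 0) (XT.nd (nat_lit 78) (nat_lit 76) (nat_lit 0) (XT.lf (nat_lit 0) (nat_lit 18585477969) (nat_lit 228) (nat_lit 3033523127) (nat_lit 76) (nat_lit 24379578613) (nat_lit 9) (nat_lit 5) (nat_lit 12) (nat_lit 5) (nat_lit 10) (nat_lit 4) (nat_lit 374) (nat_lit 256) (nat_lit 150))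 (XT.nd (nat_lit 78) (nat_lit 0) (nat_lit 0) (XT.lf (nat_lit 0) (nat_lit 4129581847) (nat_lit 76) (nat_lit 18011166240) (nat_lit 152) (nat_lit 25106082566) (nat_lit 8) (nat_lit 5) (nat_lit 9) (nat_lit 5) (nat_lit 10) (nat_lit 4) (nat_lit 375) (nat_lit 256) (nat_lit 149)) (XT.lf (nat_lit 0) (nat_lit 11552939030) (nat_lit 76) (nat_lit 14270506108) (nat_lit 152) (nat_lit 22708471369) (nat_lit 8) (nat_lit 5) (nat_lit 9) (nat_lit 5) (nat_lit 10) (nat_lit 4) (nat_lit 376) (nat_lit 256) (nat_lit 148)))) (XT.nd (nat_lit 78) (nat_lit 0) (nat_lit 0) (XT.lf (nat_lit 0) (nat_lit 19182661791) (nat_lit 76) (nat_lit 10424384798) (nat_lit 152) (nat_lit 20248805786) (nat_lit 8) (nat_lit 5) (nat_lit 9) (nat_lit 5) (nat_lit 10) (nat_lit 4) (nat_lit 377) (nat_lit 256) (nat_lit 147)) (XT.nd (nat_lit 78) (nat_lit 0) (nat_lit 0) (XT.lf (nat_lit 0) (nat_lit 27025416878) (nat_lit 76) (nat_lit 6469441622) (nat_lit 152)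 (nat_lit 17724936594) (nat_lit 8) (nat_lit 5) (nat_lit 9) (nat_lit 5) (nat_lit 10) (nat_lit 4) (nat_lit 378) (nat_lit 256) (nat_lit 146)) (XT.lf (nat_lit 0) (nat_lit 35088057185) (nat_lit 76) (nat_lit 2402220804) (nat_lit 152) (nat_lit 15134658471) (nat_lit 8) (nat_lit 5) (nat_lit 9) (nat_lit 5) (nat_lit 10) (nat_lit 4) (nat_lit 379) (nat_lit 256) (nat_lit 145)))))) (XT.nd (nat_lit 390) (nat_lit 76) (nat_lit 0) (XT.nd (nat_lit 156) (nat_lit 76) (nat_lit 0) (XT.nd (nat_lit 78) (nat_lit 0) (nat_lit 0) (XT.lf (nat_lit 0) (nat_lit 41613914640) (nat_lit 152) (nat_lit 10711994972) (nat_lit 0) (nat_lit 1746081099) (nat_lit 8) (nat_lit 5) (nat_lit 10) (nat_lit 4) (nat_lit 8) (nat_lit 4) (nat_lit 380) (nat_lit 256) (nat_lit 144)) (XT.lf (nat_lit 0) (nat_lit 45876478425) (nat_lit 152) (nat_lit 3720868609) (nat_lit 0) (nat_lit 5964662028) (nat_lit 8) (nat_lit 5) (nat_lit 10) (nat_lit 4) (nat_lit 8) (nat_lit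 4) (nat_lit 381) (nat_lit 256) (nat_lit 143))) (XT.nd (nat_lit 78) (nat_lit 0) (nat_lit 0) (XT.lf (nat_lit 0) (nat_lit 3534674410) (nat_lit 76) (nat_lit 46757905340) (nat_lit 76) (nat_lit 6803387141) (nat_lit 7) (nat_lit 4) (nat_lit 8) (nat_lit 5) (nat_lit 8) (nat_lit 4) (nat_lit 382) (nat_lit 256) (nat_lit 142)) (XT.nd (nat_lit 78) (nat_lit 0) (nat_lit 0) (XT.lf (nat_lit 0) (nat_lit 11070006626) (nat_lit 76) (nat_lit 43800520350) (nat_lit 76) (nat_lit 3804544090) (nat_lit 7) (nat_lit 4) (nat_lit 8) (nat_lit 5) (nat_lit 8) (nat_lit 4) (nat_lit 383) (nat_lit 256) (nat_lit 141)) (XT.lf (nat_lit 0) (nat_lit 18817659729) (nat_lit 76) (nat_lit 40760181416) (nat_lit 76) (nat_lit 723954612) (nat_lit 7) (nat_lit 4) (nat_lit 8) (nat_lit 5) (nat_lit 8) (nat_lit 4) (nat_lit 384) (nat_lit 256) (nat_lit 140))))) (XT.nd (nat_lit 234) (nat_lit 0) (nat_lit 0) (XT.nd (nat_lit 78) (nat_lit 0) (nat_lit 0) (XT.lf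 (nat_lit 0) (nat_lit 2393438940) (nat_lit 152) (nat_lit 35216623952) (nat_lit 76) (nat_lit 24366795531) (nat_lit 6) (nat_lit 5) (nat_lit 8) (nat_lit 5) (nat_lit 7) (nat_lit 4) (nat_lit 385) (nat_lit 256) (nat_lit 139)) (XT.nd (nat_lit 78) (nat_lit 0) (nat_lit 0) (XT.lf (nat_lit 0) (nat_lit 5582207635) (nat_lit 152) (nat_lit 28781363501) (nat_lit 76) (nat_lit 29338622221) (nat_lit 6) (nat_lit 5) (nat_lit 8) (nat_lit 5) (nat_lit 7) (nat_lit 4) (nat_lit 386) (nat_lit 256) (nat_lit 138)) (XT.lf (nat_lit 0) (nat_lit 8859264734) (nat_lit 152) (nat_lit 22165772539) (nat_lit 76) (nat_lit 34454479632) (nat_lit 6) (nat_lit 5) (nat_lit 8) (nat_lit 5) (nat_lit 7) (nat_lit 4) (nat_lit 387) (nat_lit 256) (nat_lit 137)))) (XT.nd (nat_lit 78) (nat_lit 0) (nat_lit 0) (XT.lf (nat_lit 0) (nat_lit 12227473687) (nat_lit 152) (nat_lit 15364070452) (nat_lit 76) (nat_lit 39718837931) (nat_lit 6) (nat_lit 5) (nat_lit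 8) (nat_lit 5) (nat_lit 7) (nat_lit 4) (nat_lit 388) (nat_lit 256) (nat_lit 136)) (XT.nd (nat_lit 78) (nat_lit 0) (nat_lit 0) (XT.lf (nat_lit 0) (nat_lit 15689777588) (nat_lit 152) (nat_lit 8370314005) (nat_lit 76) (nat_lit 45136297043) (nat_lit 6) (nat_lit 5) (nat_lit 8) (nat_lit 5) (nat_lit 7) (nat_lit 4) (nat_lit 389) (nat_lit 256) (nat_lit 135)) (XT.lf (nat_lit 0) (nat_lit 19249201752) (nat_lit 152) (nat_lit 1178392150) (nat_lit 76) (nat_lit 50711590669) (nat_lit 6) (nat_lit 5) (nat_lit 8) (nat_lit 5) (nat_lit 7) (nat_lit 4) (nat_lit 390) (nat_lit 256) (nat_lit 134))))))) (XT.nd (nat_lit 31122) (nat_lit 0) (nat_lit 14820) (XT.nd (nat_lit 390) (nat_lit 0) (nat_lit 0) (XT.nd (nat_lit 156) (nat_lit 0) (nat_lit 0) (XT.nd (nat_lit 78) (nat_lit 0) (nat_lit 0) (XT.lf (nat_lit 0) (nat_lit 6341729297) (nat_lit 76) (nat_lit 16628087638) (nat_lit 152) (nat_lit 50168821710) (nat_lit 5) (nat_lit 5) (nat_lit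 6) (nat_lit 5) (nat_lit 7) (nat_lit 4) (nat_lit 391) (nat_lit 256) (nat_lit 133)) (XT.lf (nat_lit 0) (nat_lit 14100413092) (nat_lit 76) (nat_lit 12707067856) (nat_lit 152) (nat_lit 48390438803) (nat_lit 5) (nat_lit 5) (nat_lit 6) (nat_lit 5) (nat_lit 7) (nat_lit 4) (nat_lit 392) (nat_lit 256) (nat_lit 132))) (XT.nd (nat_lit 78) (nat_lit 0) (nat_lit 0) (XT.lf (nat_lit 0) (nat_lit 22080986353) (nat_lit 76) (nat_lit 8673007872) (nat_lit 152) (nat_lit 46565179623) (nat_lit 5) (nat_lit 5) (nat_lit 6) (nat_lit 5) (nat_lit 7) (nat_lit 4) (nat_lit 393) (nat_lit 256) (nat_lit 131)) (XT.nd (nat_lit 78) (nat_lit 0) (nat_lit 0) (XT.lf (nat_lit 0) (nat_lit 30290422395) (nat_lit 76) (nat_lit 4522382779) (nat_lit 152) (nat_lit 44691449282) (nat_lit 5) (nat_lit 5) (nat_lit 6) (nat_lit 5) (nat_lit 7) (nat_lit 4) (nat_lit 394) (nat_lit 256) (nat_lit 130)) (XT.lf (nat_lit 0) (nat_lit 38735894513) (nat_lit 76)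 (nat_lit 251565818) (nat_lit 152) (nat_lit 42767610540) (nat_lit 5) (nat_lit 5) (nat_lit 6) (nat_lit 5) (nat_lit 7) (nat_lit 4) (nat_lit 395) (nat_lit 256) (nat_lit 129))))) (XT.nd (nat_lit 30498) (nat_lit 0) (nat_lit 18088) (XT.nd (nat_lit 78) (nat_lit 0) (nat_lit 0) (XT.lf (nat_lit 0) (nat_lit 43321434182) (nat_lit 152) (nat_lit 36688634311) (nat_lit 0) (nat_lit 4062326530) (nat_lit 5) (nat_lit 5) (nat_lit 7) (nat_lit 4) (nat_lit 5) (nat_lit 4) (nat_lit 396) (nat_lit 256) (nat_lit 128)) (XT.nd (nat_lit 78) (nat_lit 0) (nat_lit 0) (XT.lf (nat_lit 0) (nat_lit 47782298511) (nat_lit 152) (nat_lit 30180459195) (nat_lit 0) (nat_lit 8496580507) (nat_lit 5) (nat_lit 5) (nat_lit 7) (nat_lit 4) (nat_lit 5) (nat_lit 4) (nat_lit 397) (nat_lit 256) (nat_lit 127)) (XT.lf (nat_lit 0) (nat_lit 52371532957) (nat_lit 152) (nat_lit 23486546051) (nat_lit 0) (nat_lit 13059979661) (nat_lit 5) (nat_lit 5) (nat_lit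 7) (nat_lit 4) (nat_lit 5) (nat_lit 4) (nat_lit 398) (nat_lit 256) (nat_lit 126)))) (XT.nd (nat_lit 78) (nat_lit 304) (nat_lit 0) (XT.lf (nat_lit 0) (nat_lit 1179131881) (nat_lit 228) (nat_lit 883578039) (nat_lit 0) (nat_lit 1179131881) (nat_lit 247) (nat_lit 5) (nat_lit 250) (nat_lit 4) (nat_lit 247) (nat_lit 4) (nat_lit 266) (nat_lit 257) (nat_lit 257)) (XT.nd (nat_lit 78) (nat_lit 76) (nat_lit 0) (XT.lf (nat_lit 0) (nat_lit 1369421838) (nat_lit 228) (nat_lit 3754239576) (nat_lit 228) (nat_lit 1375708852) (nat_lit 244) (nat_lit 4) (nat_lit 247) (nat_lit 5) (nat_lit 247) (nat_lit 4) (nat_lit 267) (nat_lit 257) (nat_lit 256)) (XT.lf (nat_lit 0) (nat_lit 1344892947) (nat_lit 304) (nat_lit 1957651172) (nat_lit 76) (nat_lit 3215518142) (nat_lit 243) (nat_lit 5) (nat_lit 247) (nat_lit 5) (nat_lit 244) (nat_lit 4) (nat_lit 268) (nat_lit 257) (nat_lit 255)))))) (XT.nd (nat_lit 468) (nat_lit 1976)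 (nat_lit 0) (XT.nd (nat_lit 234) (nat_lit 532) (nat_lit 0) (XT.nd (nat_lit 78) (nat_lit 456) (nat_lit 0) (XT.lf (nat_lit 0) (nat_lit 1257822599) (nat_lit 304) (nat_lit 2775477787) (nat_lit 380) (nat_lit 2506636861) (nat_lit 239) (nat_lit 5) (nat_lit 243) (nat_lit 5) (nat_lit 244) (nat_lit 4) (nat_lit 269) (nat_lit 257) (nat_lit 254)) (XT.nd (nat_lit 78) (nat_lit 380) (nat_lit 0) (XT.lf (nat_lit 0) (nat_lit 157809516) (nat_lit 380) (nat_lit 2019144126) (nat_lit 76) (nat_lit 4388188084) (nat_lit 238) (nat_lit 5) (nat_lit 243) (nat_lit 5) (nat_lit 239) (nat_lit 5) (nat_lit 270) (nat_lit 257) (nat_lit 253)) (XT.lf (nat_lit 0) (nat_lit 1279082561) (nat_lit 380) (nat_lit 1490491940) (nat_lit 456) (nat_lit 3823658462) (nat_lit 233) (nat_lit 5) (nat_lit 238) (nat_lit 5) (nat_lit 239) (nat_lit 5) (nat_lit 271) (nat_lit 257) (nat_lit 252)))) (XT.nd (nat_lit 78) (nat_lit 532) (nat_lit 0) (XT.lf (nat_lit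 0) (nat_lit 4655487689) (nat_lit 380) (nat_lit 732220722) (nat_lit 456) (nat_lit 1237014310) (nat_lit 233) (nat_lit 5) (nat_lit 238) (nat_lit 5) (nat_lit 239) (nat_lit 5) (nat_lit 272) (nat_lit 257) (nat_lit 251)) (XT.nd (nat_lit 78) (nat_lit 0) (nat_lit 0) (XT.lf (nat_lit 0) (nat_lit 1323167930) (nat_lit 532) (nat_lit 5232815048) (nat_lit 76) (nat_lit 103422453) (nat_lit 226) (nat_lit 5) (nat_lit 233) (nat_lit 5) (nat_lit 227) (nat_lit 5) (nat_lit 273) (nat_lit 257) (nat_lit 250)) (XT.lf (nat_lit 0) (nat_lit 3873989863) (nat_lit 532) (nat_lit 1814776032) (nat_lit 76) (nat_lit 1008197026) (nat_lit 226) (nat_lit 5) (nat_lit 233) (nat_lit 5) (nat_lit 227) (nat_lit 5) (nat_lit 274) (nat_lit 257) (nat_lit 249))))) (XT.nd (nat_lit 234) (nat_lit 760) (nat_lit 0) (XT.nd (nat_lit 78) (nat_lit 684) (nat_lit 0) (XT.lf (nat_lit 0) (nat_lit 1675184631) (nat_lit 532) (nat_lit 4756201301) (nat_lit 608) (nat_lit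 306711792) (nat_lit 219) (nat_lit 5) (nat_lit 226) (nat_lit 5) (nat_lit 227) (nat_lit 5) (nat_lit 275) (nat_lit 257) (nat_lit 248)) (XT.nd (nat_lit 78) (nat_lit 608) (nat_lit 0) (XT.lf (nat_lit 0) (nat_lit 2173637207) (nat_lit 608) (nat_lit 1559735773) (nat_lit 76) (nat_lit 3048770827) (nat_lit 218) (nat_lit 5) (nat_lit 226) (nat_lit 5) (nat_lit 219) (nat_lit 5) (nat_lit 276) (nat_lit 257) (nat_lit 247)) (XT.lf (nat_lit 0) (nat_lit 2022126470) (nat_lit 608) (nat_lit 2636710592) (nat_lit 684) (nat_lit 2170807156) (nat_lit 210) (nat_lit 5) (nat_lit 218) (nat_lit 5) (nat_lit 219) (nat_lit 5) (nat_lit 277) (nat_lit 257) (nat_lit 246)))) (XT.nd (nat_lit 78) (nat_lit 684) (nat_lit 0) (XT.lf (nat_lit 0) (nat_lit 267167153) (nat_lit 684) (nat_lit 1202258761) (nat_lit 76) (nat_lit 5411336006) (nat_lit 209) (nat_lit 5) (nat_lit 218) (nat_lit 5) (nat_lit 210) (nat_lit 5) (nat_lit 278) (nat_lit 257) (nat_lit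 245)) (XT.nd (nat_lit 78) (nat_lit 0) (nat_lit 0) (XT.lf (nat_lit 0) (nat_lit 2475688229) (nat_lit 684) (nat_lit 203024018) (nat_lit 760) (nat_lit 4256029090) (nat_lit 200) (nat_lit 5) (nat_lit 209) (nat_lit 5) (nat_lit 210) (nat_lit 5) (nat_lit 279) (nat_lit 257) (nat_lit 244)) (XT.lf (nat_lit 0) (nat_lit 5107602692) (nat_lit 760) (nat_lit 776523398) (nat_lit 76) (nat_lit 1108150346) (nat_lit 200) (nat_lit 5) (nat_lit 210) (nat_lit 5) (nat_lit 201) (nat_lit 5) (nat_lit 280) (nat_lit 257) (nat_lit 243))))))))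
noncomputable def xc102 : XT := (XT.nd (nat_lit 1716) (nat_lit 3572) (nat_lit 0) (XT.nd (nat_lit 858) (nat_lit 3040) (nat_lit 0) (XT.nd (nat_lit 390) (nat_lit 2812) (nat_lit 0) (XT.nd (nat_lit 156) (nat_lit 1824) (nat_lit 0) (XT.nd (nat_lit 78) (nat_lit 0) (nat_lit 0) (XT.lf (nat_lit 0) (nat_lit 501591715) (nat_lit 836) (nat_lit 4047433084) (nat_lit 76) (nat_lit 2503982124) (nat_lit 189) (nat_lit 5) (nat_lit 200) (nat_lit 5) (nat_lit 190) (nat_lit 5) (nat_lit 281) (nat_lit 257) (nat_lit 242)) (XT.lf (nat_lit 0) (nat_lit 2854511519) (nat_lit 836) (nat_lit 280731967) (nat_lit 76) (nat_lit 3982029619) (nat_lit 189) (nat_lit 5) (nat_lit 200) (nat_lit 5) (nat_lit 190) (nat_lit 5) (nat_lit 282) (nat_lit 257) (nat_lit 241))) (XT.nd (nat_lit 78) (nat_lit 988) (nat_lit 0) (XT.lf (nat_lit 0) (nat_lit 3607499399) (nat_lit 836) (nat_lit 1632408130) (nat_lit 912) (nat_lit 1944957431) (nat_lit 178) (nat_lit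 5) (nat_lit 189) (nat_lit 5) (nat_lit 190) (nat_lit 5) (nat_lit 283) (nat_lit 257) (nat_lit 240)) (XT.nd (nat_lit 78) (nat_lit 0) (nat_lit 0) (XT.lf (nat_lit 0) (nat_lit 302417326) (nat_lit 912) (nat_lit 64895688) (nat_lit 988) (nat_lit 6889276790) (nat_lit 165) (nat_lit 5) (nat_lit 177) (nat_lit 5) (nat_lit 178) (nat_lit 5) (nat_lit 284) (nat_lit 257) (nat_lit 239)) (XT.lf (nat_lit 0) (nat_lit 2690617278) (nat_lit 988) (nat_lit 3056720942) (nat_lit 76) (nat_lit 1583360505) (nat_lit 165) (nat_lit 5) (nat_lit 178) (nat_lit 5) (nat_lit 166) (nat_lit 5) (nat_lit 285) (nat_lit 257) (nat_lit 238))))) (XT.nd (nat_lit 234) (nat_lit 684) (nat_lit 0) (XT.nd (nat_lit 78) (nat_lit 1140) (nat_lit 0) (XT.lf (nat_lit 0) (nat_lit 911939170) (nat_lit 988) (nat_lit 4112526330) (nat_lit 1064) (nat_lit 2384566052) (nat_lit 152) (nat_lit 5) (nat_lit 165) (nat_lit 5) (nat_lit 166) (nat_lit 5) (nat_lit 286) (nat_lit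 257) (nat_lit 237)) (XT.nd (nat_lit 78) (nat_lit 1140) (nat_lit 0) (XT.lf (nat_lit 0) (nat_lit 5000067563) (nat_lit 988) (nat_lit 2391963284) (nat_lit 1064) (nat_lit 98991868) (nat_lit 152) (nat_lit 5) (nat_lit 165) (nat_lit 5) (nat_lit 166) (nat_lit 5) (nat_lit 287) (nat_lit 257) (nat_lit 236)) (XT.lf (nat_lit 0) (nat_lit 1582610996) (nat_lit 1064) (nat_lit 577682049) (nat_lit 1140) (nat_lit 5416262551) (nat_lit 137) (nat_lit 5) (nat_lit 151) (nat_lit 5) (nat_lit 152) (nat_lit 5) (nat_lit 288) (nat_lit 257) (nat_lit 235)))) (XT.nd (nat_lit 78) (nat_lit 684) (nat_lit 0) (XT.lf (nat_lit 0) (nat_lit 4458483278) (nat_lit 1140) (nat_lit 1911620318) (nat_lit 76) (nat_lit 1295528755) (nat_lit 137) (nat_lit 5) (nat_lit 152) (nat_lit 5) (nat_lit 138) (nat_lit 5) (nat_lit 289) (nat_lit 257) (nat_lit 234)) (XT.nd (nat_lit 78) (nat_lit 76) (nat_lit 0) (XT.lf (nat_lit 0) (nat_lit 2270074282) (nat_lit 608)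 (nat_lit 4520273718) (nat_lit 684) (nat_lit 968286481) (nat_lit 129) (nat_lit 5) (nat_lit 137) (nat_lit 5) (nat_lit 138) (nat_lit 5) (nat_lit 290) (nat_lit 257) (nat_lit 233)) (XT.lf (nat_lit 0) (nat_lit 1268767632) (nat_lit 684) (nat_lit 1312989185) (nat_lit 76) (nat_lit 5273753932) (nat_lit 128) (nat_lit 5) (nat_lit 137) (nat_lit 5) (nat_lit 129) (nat_lit 5) (nat_lit 291) (nat_lit 257) (nat_lit 232)))))) (XT.nd (nat_lit 390) (nat_lit 1444) (nat_lit 0) (XT.nd (nat_lit 156) (nat_lit 1064) (nat_lit 0) (XT.nd (nat_lit 78) (nat_lit 0) (nat_lit 0) (XT.lf (nat_lit 0) (nat_lit 2975650572) (nat_lit 532) (nat_lit 545876491) (nat_lit 608) (nat_lit 4434615368) (nat_lit 121) (nat_lit 5) (nat_lit 128) (nat_lit 5) (nat_lit 129) (nat_lit 5) (nat_lit 292) (nat_lit 257) (nat_lit 231)) (XT.lf (nat_lit 0) (nat_lit 5810799703) (nat_lit 608) (nat_lit 716601329) (nat_lit 76) (nat_lit 1533497316) (nat_lit 121) (nat_lit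 5) (nat_lit 129) (nat_lit 5) (nat_lit 122) (nat_lit 5) (nat_lit 293) (nat_lit 257) (nat_lit 230))) (XT.nd (nat_lit 78) (nat_lit 532) (nat_lit 0) (XT.lf (nat_lit 0) (nat_lit 3681416236) (nat_lit 532) (nat_lit 4470486837) (nat_lit 608) (nat_lit 17567446) (nat_lit 114) (nat_lit 5) (nat_lit 121) (nat_lit 5) (nat_lit 122) (nat_lit 5) (nat_lit 294) (nat_lit 257) (nat_lit 229)) (XT.nd (nat_lit 78) (nat_lit 456) (nat_lit 0) (XT.lf (nat_lit 0) (nat_lit 2187464350) (nat_lit 608) (nat_lit 137956070) (nat_lit 76) (nat_lit 5956878268) (nat_lit 113) (nat_lit 5) (nat_lit 121) (nat_lit 5) (nat_lit 114) (nat_lit 5) (nat_lit 295) (nat_lit 257) (nat_lit 228)) (XT.lf (nat_lit 0) (nat_lit 4368561989) (nat_lit 456) (nat_lit 76138527) (nat_lit 532) (nat_lit 3954367656) (nat_lit 107) (nat_lit 5) (nat_lit 113) (nat_lit 5) (nat_lit 114) (nat_lit 5) (nat_lit 296) (nat_lit 257) (nat_lit 227))))) (XT.nd (nat_lit 234) (nat_lit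 532) (nat_lit 0) (XT.nd (nat_lit 78) (nat_lit 456) (nat_lit 0) (XT.lf (nat_lit 0) (nat_lit 420128778) (nat_lit 456) (nat_lit 6321938932) (nat_lit 532) (nat_lit 1778250015) (nat_lit 101) (nat_lit 5) (nat_lit 107) (nat_lit 5) (nat_lit 108) (nat_lit 5) (nat_lit 297) (nat_lit 257) (nat_lit 226)) (XT.nd (nat_lit 78) (nat_lit 380) (nat_lit 0) (XT.lf (nat_lit 0) (nat_lit 441743517) (nat_lit 532) (nat_lit 3623639142) (nat_lit 76) (nat_lit 4580200465) (nat_lit 100) (nat_lit 5) (nat_lit 107) (nat_lit 5) (nat_lit 101) (nat_lit 5) (nat_lit 298) (nat_lit 257) (nat_lit 225)) (XT.lf (nat_lit 0) (nat_lit 928544544) (nat_lit 380) (nat_lit 1720329490) (nat_lit 456) (nat_lit 6126652634) (nat_lit 95) (nat_lit 5) (nat_lit 100) (nat_lit 5) (nat_lit 101) (nat_lit 5) (nat_lit 299) (nat_lit 257) (nat_lit 224)))) (XT.nd (nat_lit 78) (nat_lit 532) (nat_lit 0) (XT.lf (nat_lit 0) (nat_lit 4914110073) (nat_lit 456) (nat_lit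 3283951595) (nat_lit 76) (nat_lit 711682842) (nat_lit 95) (nat_lit 5) (nat_lit 101) (nat_lit 5) (nat_lit 96) (nat_lit 5) (nat_lit 300) (nat_lit 257) (nat_lit 223)) (XT.nd (nat_lit 78) (nat_lit 76) (nat_lit 0) (XT.lf (nat_lit 0) (nat_lit 1367156946) (nat_lit 456) (nat_lit 5860084437) (nat_lit 532) (nat_lit 1821478236) (nat_lit 89) (nat_lit 5) (nat_lit 95) (nat_lit 5) (nat_lit 96) (nat_lit 5) (nat_lit 301) (nat_lit 257) (nat_lit 222)) (XT.lf (nat_lit 0) (nat_lit 393296629) (nat_lit 532) (nat_lit 3029098447) (nat_lit 76) (nat_lit 5769963405) (nat_lit 88) (nat_lit 5) (nat_lit 95) (nat_lit 5) (nat_lit 89) (nat_lit 5) (nat_lit 302) (nat_lit 257) (nat_lit 221))))))) (XT.nd (nat_lit 858) (nat_lit 1368) (nat_lit 0) (XT.nd (nat_lit 390) (nat_lit 1064) (nat_lit 0) (XT.nd (nat_lit 156) (nat_lit 760) (nat_lit 0) (XT.nd (nat_lit 78) (nat_lit 0) (nat_lit 0) (XT.lf (nat_lit 0) (nat_lit 1721210361) (nat_lit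 380) (nat_lit 884753350) (nat_lit 456) (nat_lit 6734877937) (nat_lit 83) (nat_lit 5) (nat_lit 88) (nat_lit 5) (nat_lit 89) (nat_lit 5) (nat_lit 303) (nat_lit 257) (nat_lit 220)) (XT.lf (nat_lit 0) (nat_lit 4884815056) (nat_lit 456) (nat_lit 2891838851) (nat_lit 76) (nat_lit 1717245782) (nat_lit 83) (nat_lit 5) (nat_lit 89) (nat_lit 5) (nat_lit 84) (nat_lit 5) (nat_lit 304) (nat_lit 257) (nat_lit 219))) (XT.nd (nat_lit 78) (nat_lit 380) (nat_lit 0) (XT.lf (nat_lit 0) (nat_lit 1950609347) (nat_lit 380) (nat_lit 5262615565) (nat_lit 456) (nat_lit 2438999936) (nat_lit 78) (nat_lit 5) (nat_lit 83) (nat_lit 5) (nat_lit 84) (nat_lit 5) (nat_lit 305) (nat_lit 257) (nat_lit 218)) (XT.nd (nat_lit 78) (nat_lit 380) (nat_lit 0) (XT.lf (nat_lit 0) (nat_lit 6941683103) (nat_lit 380) (nat_lit 2653499892) (nat_lit 456) (nat_lit 220713821) (nat_lit 78) (nat_lit 5) (nat_lit 83) (nat_lit 5) (nat_lit 84) (nat_lit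 5) (nat_lit 306) (nat_lit 257) (nat_lit 217)) (XT.lf (nat_lit 0) (nat_lit 1999570821) (nat_lit 380) (nat_lit 7922211839) (nat_lit 76) (nat_lit 62930920) (nat_lit 73) (nat_lit 5) (nat_lit 78) (nat_lit 5) (nat_lit 74) (nat_lit 5) (nat_lit 307) (nat_lit 257) (nat_lit 216))))) (XT.nd (nat_lit 234) (nat_lit 684) (nat_lit 0) (XT.nd (nat_lit 78) (nat_lit 380) (nat_lit 0) (XT.lf (nat_lit 0) (nat_lit 4293563124) (nat_lit 380) (nat_lit 3036293571) (nat_lit 76) (nat_lit 2828425307) (nat_lit 73) (nat_lit 5) (nat_lit 78) (nat_lit 5) (nat_lit 74) (nat_lit 5) (nat_lit 308) (nat_lit 257) (nat_lit 215)) (XT.nd (nat_lit 78) (nat_lit 0) (nat_lit 0) (XT.lf (nat_lit 0) (nat_lit 1980418468) (nat_lit 380) (nat_lit 4652228367) (nat_lit 456) (nat_lit 3705218388) (nat_lit 68) (nat_lit 5) (nat_lit 73) (nat_lit 5) (nat_lit 74) (nat_lit 5) (nat_lit 309) (nat_lit 257) (nat_lit 214)) (XT.lf (nat_lit 0) (nat_lit 7155977654)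 (nat_lit 380) (nat_lit 1874548180) (nat_lit 456) (nat_lit 1492744526) (nat_lit 68) (nat_lit 5) (nat_lit 73) (nat_lit 5) (nat_lit 74) (nat_lit 5) (nat_lit 310) (nat_lit 257) (nat_lit 213)))) (XT.nd (nat_lit 78) (nat_lit 304) (nat_lit 0) (XT.lf (nat_lit 0) (nat_lit 755848573) (nat_lit 380) (nat_lit 8978601428) (nat_lit 76) (nat_lit 980096170) (nat_lit 63) (nat_lit 5) (nat_lit 68) (nat_lit 5) (nat_lit 64) (nat_lit 5) (nat_lit 311) (nat_lit 257) (nat_lit 212)) (XT.nd (nat_lit 78) (nat_lit 304) (nat_lit 0) (XT.lf (nat_lit 0) (nat_lit 3054070257) (nat_lit 380) (nat_lit 3936811400) (nat_lit 76) (nat_lit 3919955208) (nat_lit 63) (nat_lit 5) (nat_lit 68) (nat_lit 5) (nat_lit 64) (nat_lit 5) (nat_lit 312) (nat_lit 257) (nat_lit 211)) (XT.lf (nat_lit 0) (nat_lit 1227861696) (nat_lit 304) (nat_lit 4165639929) (nat_lit 380) (nat_lit 5720429484) (nat_lit 59) (nat_lit 5) (nat_lit 63) (nat_lit 5) (nat_lit 64)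 (nat_lit 5) (nat_lit 313) (nat_lit 257) (nat_lit 210)))))) (XT.nd (nat_lit 468) (nat_lit 760) (nat_lit 0) (XT.nd (nat_lit 234) (nat_lit 304) (nat_lit 0) (XT.nd (nat_lit 78) (nat_lit 304) (nat_lit 0) (XT.lf (nat_lit 0) (nat_lit 6576358168) (nat_lit 304) (nat_lit 1227625464) (nat_lit 380) (nat_lit 3519188827) (nat_lit 59) (nat_lit 5) (nat_lit 63) (nat_lit 5) (nat_lit 64) (nat_lit 5) (nat_lit 314) (nat_lit 257) (nat_lit 209)) (XT.nd (nat_lit 78) (nat_lit 76) (nat_lit 0) (XT.lf (nat_lit 0) (nat_lit 487443452) (nat_lit 228) (nat_lit 9783436371) (nat_lit 304) (nat_lit 1268366208) (nat_lit 56) (nat_lit 5) (nat_lit 59) (nat_lit 5) (nat_lit 60) (nat_lit 5) (nat_lit 315) (nat_lit 257) (nat_lit 208)) (XT.lf (nat_lit 0) (nat_lit 1052351313) (nat_lit 304) (nat_lit 5858770406) (nat_lit 76) (nat_lit 4849765020) (nat_lit 55) (nat_lit 5) (nat_lit 59) (nat_lit 5) (nat_lit 56) (nat_lit 5) (nat_lit 316) (nat_lit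 257) (nat_lit 207)))) (XT.nd (nat_lit 78) (nat_lit 304) (nat_lit 0) (XT.lf (nat_lit 0) (nat_lit 3380591947) (nat_lit 304) (nat_lit 572717205) (nat_lit 76) (nat_lit 8036660295) (nat_lit 55) (nat_lit 5) (nat_lit 59) (nat_lit 5) (nat_lit 56) (nat_lit 5) (nat_lit 317) (nat_lit 257) (nat_lit 206)) (XT.nd (nat_lit 78) (nat_lit 0) (nat_lit 0) (XT.lf (nat_lit 0) (nat_lit 4919158721) (nat_lit 304) (nat_lit 871267710) (nat_lit 380) (nat_lit 6435215082) (nat_lit 51) (nat_lit 5) (nat_lit 55) (nat_lit 5) (nat_lit 56) (nat_lit 5) (nat_lit 318) (nat_lit 257) (nat_lit 205)) (XT.lf (nat_lit 0) (nat_lit 8265440539) (nat_lit 380) (nat_lit 1952136406) (nat_lit 76) (nat_lit 2251087518) (nat_lit 51) (nat_lit 5) (nat_lit 56) (nat_lit 5) (nat_lit 52) (nat_lit 5) (nat_lit 319) (nat_lit 257) (nat_lit 204))))) (XT.nd (nat_lit 234) (nat_lit 228) (nat_lit 0) (XT.nd (nat_lit 78) (nat_lit 304) (nat_lit 0) (XT.lf (nat_lit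 0) (nat_lit 3576172857) (nat_lit 228) (nat_lit 7247461105) (nat_lit 304) (nat_lit 1895141573) (nat_lit 48) (nat_lit 5) (nat_lit 51) (nat_lit 5) (nat_lit 52) (nat_lit 5) (nat_lit 320) (nat_lit 257) (nat_lit 203)) (XT.nd (nat_lit 78) (nat_lit 228) (nat_lit 0) (XT.lf (nat_lit 0) (nat_lit 458751180) (nat_lit 304) (nat_lit 3718373573) (nat_lit 76) (nat_lit 8799608375) (nat_lit 47) (nat_lit 5) (nat_lit 51) (nat_lit 5) (nat_lit 48) (nat_lit 5) (nat_lit 321) (nat_lit 257) (nat_lit 202)) (XT.lf (nat_lit 0) (nat_lit 1839012064) (nat_lit 228) (nat_lit 990893308) (nat_lit 304) (nat_lit 10412478868) (nat_lit 44) (nat_lit 5) (nat_lit 47) (nat_lit 5) (nat_lit 48) (nat_lit 5) (nat_lit 322) (nat_lit 257) (nat_lit 201)))) (XT.nd (nat_lit 78) (nat_lit 228) (nat_lit 0) (XT.lf (nat_lit 0) (nat_lit 5299575763) (nat_lit 304) (nat_lit 5945062359) (nat_lit 76) (nat_lit 2270603334) (nat_lit 44) (nat_lit 5) (nat_lit 48)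 (nat_lit 5) (nat_lit 45) (nat_lit 5) (nat_lit 323) (nat_lit 257) (nat_lit 200)) (XT.nd (nat_lit 78) (nat_lit 228) (nat_lit 0) (XT.lf (nat_lit 0) (nat_lit 7821535198) (nat_lit 304) (nat_lit 378573944) (nat_lit 76) (nat_lit 5596885606) (nat_lit 44) (nat_lit 5) (nat_lit 48) (nat_lit 5) (nat_lit 45) (nat_lit 5) (nat_lit 324) (nat_lit 257) (nat_lit 199)) (XT.lf (nat_lit 0) (nat_lit 5416171069) (nat_lit 228) (nat_lit 5024354741) (nat_lit 304) (nat_lit 3646088347) (nat_lit 41) (nat_lit 5) (nat_lit 44) (nat_lit 5) (nat_lit 45) (nat_lit 5) (nat_lit 325) (nat_lit 257) (nat_lit 198))))))))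
noncomputable def xc103 : XT := (XT.nd (nat_lit 1794) (nat_lit 760) (nat_lit 0) (XT.nd (nat_lit 858) (nat_lit 760) (nat_lit 0) (XT.nd (nat_lit 390) (nat_lit 456) (nat_lit 0) (XT.nd (nat_lit 156) (nat_lit 152) (nat_lit 0) (XT.nd (nat_lit 78) (nat_lit 304) (nat_lit 0) (XT.lf (nat_lit 0) (nat_lit 11348527328) (nat_lit 228) (nat_lit 1763161555) (nat_lit 304) (nat_lit 1274078277) (nat_lit 41) (nat_lit 5) (nat_lit 44) (nat_lit 5) (nat_lit 45) (nat_lit 5) (nat_lit 326) (nat_lit 257) (nat_lit 197)) (XT.lf (nat_lit 0) (nat_lit 1158753613) (nat_lit 304) (nat_lit 11944972099) (nat_lit 76) (nat_lit 1589507705) (nat_lit 37) (nat_lit 5) (nat_lit 41) (nat_lit 5) (nat_lit 38) (nat_lit 5) (nat_lit 327) (nat_lit 257) (nat_lit 196))) (XT.nd (nat_lit 78) (nat_lit 152) (nat_lit 0) (XT.lf (nat_lit 0) (nat_lit 3658032875) (nat_lit 304) (nat_lit 6313510701) (nat_lit 76) (nat_lit 5037478133) (nat_lit 37) (nat_lit 5)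 (nat_lit 41) (nat_lit 5) (nat_lit 38) (nat_lit 5) (nat_lit 328) (nat_lit 257) (nat_lit 195)) (XT.nd (nat_lit 78) (nat_lit 152) (nat_lit 0) (XT.lf (nat_lit 0) (nat_lit 6203784931) (nat_lit 304) (nat_lit 555551810) (nat_lit 76) (nat_lit 8575849250) (nat_lit 37) (nat_lit 5) (nat_lit 41) (nat_lit 5) (nat_lit 38) (nat_lit 5) (nat_lit 329) (nat_lit 257) (nat_lit 194)) (XT.lf (nat_lit 0) (nat_lit 5440091578) (nat_lit 152) (nat_lit 3410436135) (nat_lit 228) (nat_lit 6819914744) (nat_lit 35) (nat_lit 5) (nat_lit 37) (nat_lit 5) (nat_lit 38) (nat_lit 5) (nat_lit 330) (nat_lit 257) (nat_lit 193))))) (XT.nd (nat_lit 234) (nat_lit 152) (nat_lit 0) (XT.nd (nat_lit 78) (nat_lit 304) (nat_lit 0) (XT.lf (nat_lit 0) (nat_lit 11555320844) (nat_lit 228) (nat_lit 4430563701) (nat_lit 76) (nat_lit 30557096) (nat_lit 35) (nat_lit 5) (nat_lit 38) (nat_lit 5) (nat_lit 36) (nat_lit 5) (nat_lit 331) (nat_lit 257) (nat_lit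 192)) (XT.nd (nat_lit 78) (nat_lit 76) (nat_lit 0) (XT.lf (nat_lit 0) (nat_lit 1498360516) (nat_lit 228) (nat_lit 12864473223) (nat_lit 304) (nat_lit 2009382954) (nat_lit 32) (nat_lit 5) (nat_lit 35) (nat_lit 5) (nat_lit 36) (nat_lit 5) (nat_lit 332) (nat_lit 257) (nat_lit 191)) (XT.lf (nat_lit 0) (nat_lit 524519103) (nat_lit 304) (nat_lit 9087251393) (nat_lit 76) (nat_lit 7126226038) (nat_lit 31) (nat_lit 5) (nat_lit 35) (nat_lit 5) (nat_lit 32) (nat_lit 5) (nat_lit 333) (nat_lit 257) (nat_lit 190)))) (XT.nd (nat_lit 78) (nat_lit 152) (nat_lit 0) (XT.lf (nat_lit 0) (nat_lit 3068319871) (nat_lit 304) (nat_lit 3186264788) (nat_lit 76) (nat_lit 10860379724) (nat_lit 31) (nat_lit 5) (nat_lit 35) (nat_lit 5) (nat_lit 32) (nat_lit 5) (nat_lit 334) (nat_lit 257) (nat_lit 189)) (XT.nd (nat_lit 78) (nat_lit 0) (nat_lit 0) (XT.lf (nat_lit 0) (nat_lit 2910366999) (nat_lit 152) (nat_lit 2781061618) (nat_lit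 228) (nat_lit 11811761190) (nat_lit 29) (nat_lit 5) (nat_lit 31) (nat_lit 5) (nat_lit 32) (nat_lit 5) (nat_lit 335) (nat_lit 257) (nat_lit 188)) (XT.lf (nat_lit 0) (nat_lit 8408637528) (nat_lit 228) (nat_lit 8693311244) (nat_lit 76) (nat_lit 800688254) (nat_lit 29) (nat_lit 5) (nat_lit 32) (nat_lit 5) (nat_lit 30) (nat_lit 5) (nat_lit 336) (nat_lit 257) (nat_lit 187)))))) (XT.nd (nat_lit 468) (nat_lit 380) (nat_lit 0) (XT.nd (nat_lit 234) (nat_lit 228) (nat_lit 0) (XT.nd (nat_lit 78) (nat_lit 152) (nat_lit 0) (XT.lf (nat_lit 0) (nat_lit 11210873949) (nat_lit 228) (nat_lit 2681680596) (nat_lit 76) (nat_lit 4421443934) (nat_lit 29) (nat_lit 5) (nat_lit 32) (nat_lit 5) (nat_lit 30) (nat_lit 5) (nat_lit 337) (nat_lit 257) (nat_lit 186)) (XT.nd (nat_lit 78) (nat_lit 0) (nat_lit 0) (XT.lf (nat_lit 0) (nat_lit 3543195793) (nat_lit 152) (nat_lit 10564716742) (nat_lit 228) (nat_lit 4629501290) (nat_lit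 27) (nat_lit 5) (nat_lit 29) (nat_lit 5) (nat_lit 30) (nat_lit 5) (nat_lit 338) (nat_lit 257) (nat_lit 185)) (XT.lf (nat_lit 0) (nat_lit 9973901939) (nat_lit 152) (nat_lit 7122050133) (nat_lit 228) (nat_lit 2077490947) (nat_lit 27) (nat_lit 5) (nat_lit 29) (nat_lit 5) (nat_lit 30) (nat_lit 5) (nat_lit 339) (nat_lit 257) (nat_lit 184)))) (XT.nd (nat_lit 78) (nat_lit 152) (nat_lit 0) (XT.lf (nat_lit 0) (nat_lit 517752407) (nat_lit 228) (nat_lit 3065645585) (nat_lit 76) (nat_lit 16039705511) (nat_lit 26) (nat_lit 5) (nat_lit 29) (nat_lit 5) (nat_lit 27) (nat_lit 5) (nat_lit 340) (nat_lit 257) (nat_lit 183)) (XT.nd (nat_lit 78) (nat_lit 0) (nat_lit 0) (XT.lf (nat_lit 0) (nat_lit 3159513739) (nat_lit 228) (nat_lit 16825333821) (nat_lit 76) (nat_lit 100507868) (nat_lit 24) (nat_lit 5) (nat_lit 27) (nat_lit 5) (nat_lit 25) (nat_lit 5) (nat_lit 341) (nat_lit 257) (nat_lit 182)) (XT.lf (nat_lit 0) (nat_lit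 5925547487) (nat_lit 228) (nat_lit 10792549348) (nat_lit 76) (nat_lit 3842057767) (nat_lit 24) (nat_lit 5) (nat_lit 27) (nat_lit 5) (nat_lit 25) (nat_lit 5) (nat_lit 342) (nat_lit 257) (nat_lit 181))))) (XT.nd (nat_lit 234) (nat_lit 228) (nat_lit 0) (XT.nd (nat_lit 78) (nat_lit 152) (nat_lit 0) (XT.lf (nat_lit 0) (nat_lit 8753471835) (nat_lit 228) (nat_lit 4612294933) (nat_lit 76) (nat_lit 7684093094) (nat_lit 24) (nat_lit 5) (nat_lit 27) (nat_lit 5) (nat_lit 25) (nat_lit 5) (nat_lit 343) (nat_lit 257) (nat_lit 180)) (XT.nd (nat_lit 78) (nat_lit 0) (nat_lit 0) (XT.lf (nat_lit 0) (nat_lit 1755077529) (nat_lit 152) (nat_lit 9907551133) (nat_lit 228) (nat_lit 9891764316) (nat_lit 22) (nat_lit 5) (nat_lit 24) (nat_lit 5) (nat_lit 25) (nat_lit 5) (nat_lit 344) (nat_lit 257) (nat_lit 179)) (XT.lf (nat_lit 0) (nat_lit 8375800218) (nat_lit 152) (nat_lit 6309645671) (nat_lit 228) (nat_lit 7387852338)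 (nat_lit 22) (nat_lit 5) (nat_lit 24) (nat_lit 5) (nat_lit 25) (nat_lit 5) (nat_lit 345) (nat_lit 257) (nat_lit 178)))) (XT.nd (nat_lit 78) (nat_lit 228) (nat_lit 0) (XT.lf (nat_lit 0) (nat_lit 15163864516) (nat_lit 152) (nat_lit 2615481717) (nat_lit 228) (nat_lit 4829039345) (nat_lit 22) (nat_lit 5) (nat_lit 24) (nat_lit 5) (nat_lit 25) (nat_lit 5) (nat_lit 346) (nat_lit 257) (nat_lit 177)) (XT.nd (nat_lit 78) (nat_lit 228) (nat_lit 0) (XT.lf (nat_lit 0) (nat_lit 20958358382) (nat_lit 228) (nat_lit 1046246119) (nat_lit 76) (nat_lit 1155178324) (nat_lit 22) (nat_lit 5) (nat_lit 25) (nat_lit 5) (nat_lit 23) (nat_lit 4) (nat_lit 347) (nat_lit 257) (nat_lit 176)) (XT.lf (nat_lit 0) (nat_lit 556863410) (nat_lit 228) (nat_lit 18134025896) (nat_lit 76) (nat_lit 5034860689) (nat_lit 19) (nat_lit 5) (nat_lit 22) (nat_lit 5) (nat_lit 20) (nat_lit 5) (nat_lit 348) (nat_lit 257) (nat_lit 175))))))) (XT.nd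 (nat_lit 858) (nat_lit 456) (nat_lit 0) (XT.nd (nat_lit 390) (nat_lit 152) (nat_lit 0) (XT.nd (nat_lit 156) (nat_lit 152) (nat_lit 0) (XT.nd (nat_lit 78) (nat_lit 0) (nat_lit 0) (XT.lf (nat_lit 0) (nat_lit 3345791555) (nat_lit 228) (nat_lit 11910056973) (nat_lit 76) (nat_lit 9052453523) (nat_lit 19) (nat_lit 5) (nat_lit 22) (nat_lit 5) (nat_lit 20) (nat_lit 5) (nat_lit 349) (nat_lit 257) (nat_lit 174)) (XT.lf (nat_lit 0) (nat_lit 6200395766) (nat_lit 228) (nat_lit 5528550827) (nat_lit 76) (nat_lit 13179947036) (nat_lit 19) (nat_lit 5) (nat_lit 22) (nat_lit 5) (nat_lit 20) (nat_lit 5) (nat_lit 350) (nat_lit 257) (nat_lit 173))) (XT.nd (nat_lit 78) (nat_lit 0) (nat_lit 0) (XT.lf (nat_lit 0) (nat_lit 1036290371) (nat_lit 152) (nat_lit 8096841443) (nat_lit 228) (nat_lit 16394618859) (nat_lit 17) (nat_lit 5) (nat_lit 19) (nat_lit 5) (nat_lit 20) (nat_lit 5) (nat_lit 351) (nat_lit 257) (nat_lit 172))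 (XT.nd (nat_lit 78) (nat_lit 0) (nat_lit 0) (XT.lf (nat_lit 0) (nat_lit 7883352552) (nat_lit 152) (nat_lit 4309096266) (nat_lit 228) (nat_lit 13971588520) (nat_lit 17) (nat_lit 5) (nat_lit 19) (nat_lit 5) (nat_lit 20) (nat_lit 5) (nat_lit 352) (nat_lit 257) (nat_lit 171)) (XT.lf (nat_lit 0) (nat_lit 14908589583) (nat_lit 152) (nat_lit 418228903) (nat_lit 228) (nat_lit 11493117158) (nat_lit 17) (nat_lit 5) (nat_lit 19) (nat_lit 5) (nat_lit 20) (nat_lit 5) (nat_lit 353) (nat_lit 257) (nat_lit 170))))) (XT.nd (nat_lit 234) (nat_lit 76) (nat_lit 0) (XT.nd (nat_lit 78) (nat_lit 76) (nat_lit 0) (XT.lf (nat_lit 0) (nat_lit 18573384670) (nat_lit 228) (nat_lit 5412283766) (nat_lit 76) (nat_lit 3509318119) (nat_lit 17) (nat_lit 5) (nat_lit 20) (nat_lit 5) (nat_lit 18) (nat_lit 4) (nat_lit 354) (nat_lit 257) (nat_lit 169)) (XT.nd (nat_lit 78) (nat_lit 0) (nat_lit 0) (XT.lf (nat_lit 0) (nat_lit 1276446295)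 (nat_lit 76) (nat_lit 20641450521) (nat_lit 152) (nat_lit 6272395727) (nat_lit 16) (nat_lit 5) (nat_lit 17) (nat_lit 5) (nat_lit 18) (nat_lit 4) (nat_lit 355) (nat_lit 257) (nat_lit 168)) (XT.lf (nat_lit 0) (nat_lit 8250969085) (nat_lit 76) (nat_lit 17150780650) (nat_lit 152) (nat_lit 3503557249) (nat_lit 16) (nat_lit 5) (nat_lit 17) (nat_lit 5) (nat_lit 18) (nat_lit 4) (nat_lit 356) (nat_lit 257) (nat_lit 167)))) (XT.nd (nat_lit 78) (nat_lit 76) (nat_lit 0) (XT.lf (nat_lit 0) (nat_lit 15409663787) (nat_lit 76) (nat_lit 13565262177) (nat_lit 152) (nat_lit 667320531) (nat_lit 16) (nat_lit 5) (nat_lit 17) (nat_lit 5) (nat_lit 18) (nat_lit 4) (nat_lit 357) (nat_lit 257) (nat_lit 166)) (XT.nd (nat_lit 78) (nat_lit 0) (nat_lit 0) (XT.lf (nat_lit 0) (nat_lit 2195105783) (nat_lit 152) (nat_lit 7664490079) (nat_lit 76) (nat_lit 20541513523) (nat_lit 15) (nat_lit 5) (nat_lit 17) (nat_lit 5) (nat_lit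 16) (nat_lit 5) (nat_lit 358) (nat_lit 257) (nat_lit 165)) (XT.lf (nat_lit 0) (nat_lit 5115513003) (nat_lit 152) (nat_lit 929892250) (nat_lit 76) (nat_lit 25137586344) (nat_lit 15) (nat_lit 5) (nat_lit 17) (nat_lit 5) (nat_lit 16) (nat_lit 5) (nat_lit 359) (nat_lit 257) (nat_lit 164)))))) (XT.nd (nat_lit 468) (nat_lit 228) (nat_lit 0) (XT.nd (nat_lit 234) (nat_lit 76) (nat_lit 0) (XT.nd (nat_lit 78) (nat_lit 0) (nat_lit 0) (XT.lf (nat_lit 0) (nat_lit 6102593653) (nat_lit 152) (nat_lit 2065542980) (nat_lit 228) (nat_lit 23818872283) (nat_lit 13) (nat_lit 5) (nat_lit 15) (nat_lit 5) (nat_lit 16) (nat_lit 5) (nat_lit 360) (nat_lit 257) (nat_lit 163)) (XT.nd (nat_lit 78) (nat_lit 0) (nat_lit 0) (XT.lf (nat_lit 0) (nat_lit 11327414153) (nat_lit 228) (nat_lit 19492741520) (nat_lit 76) (nat_lit 1994555101) (nat_lit 13) (nat_lit 5) (nat_lit 16) (nat_lit 5) (nat_lit 14) (nat_lit 4) (nat_lit 361) (nat_lit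 257) (nat_lit 162)) (XT.lf (nat_lit 0) (nat_lit 14588370248) (nat_lit 228) (nat_lit 12952438579) (nat_lit 76) (nat_lit 6126243657) (nat_lit 13) (nat_lit 5) (nat_lit 16) (nat_lit 5) (nat_lit 14) (nat_lit 4) (nat_lit 362) (nat_lit 257) (nat_lit 161)))) (XT.nd (nat_lit 78) (nat_lit 76) (nat_lit 0) (XT.lf (nat_lit 0) (nat_lit 17933999033) (nat_lit 228) (nat_lit 6237936351) (nat_lit 76) (nat_lit 10373439083) (nat_lit 13) (nat_lit 5) (nat_lit 16) (nat_lit 5) (nat_lit 14) (nat_lit 4) (nat_lit 363) (nat_lit 257) (nat_lit 160)) (XT.nd (nat_lit 78) (nat_lit 0) (nat_lit 0) (XT.lf (nat_lit 0) (nat_lit 669700474) (nat_lit 76) (nat_lit 20703960970) (nat_lit 152) (nat_lit 14076589619) (nat_lit 12) (nat_lit 5) (nat_lit 13) (nat_lit 5) (nat_lit 14) (nat_lit 4) (nat_lit 364) (nat_lit 257) (nat_lit 159)) (XT.lf (nat_lit 0) (nat_lit 7891278743) (nat_lit 76) (nat_lit 17075621730) (nat_lit 152) (nat_lit 11413876341)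 (nat_lit 12) (nat_lit 5) (nat_lit 13) (nat_lit 5) (nat_lit 14) (nat_lit 4) (nat_lit 365) (nat_lit 257) (nat_lit 158))))) (XT.nd (nat_lit 234) (nat_lit 228) (nat_lit 0) (XT.nd (nat_lit 78) (nat_lit 0) (nat_lit 0) (XT.lf (nat_lit 0) (nat_lit 15308961408) (nat_lit 76) (nat_lit 13346738197) (nat_lit 152) (nat_lit 8683899887) (nat_lit 12) (nat_lit 5) (nat_lit 13) (nat_lit 5) (nat_lit 14) (nat_lit 4) (nat_lit 366) (nat_lit 257) (nat_lit 157)) (XT.nd (nat_lit 78) (nat_lit 0) (nat_lit 0) (XT.lf (nat_lit 0) (nat_lit 22929229939) (nat_lit 76) (nat_lit 9514052123) (nat_lit 152) (nat_lit 5884274837) (nat_lit 12) (nat_lit 5) (nat_lit 13) (nat_lit 5) (nat_lit 14) (nat_lit 4) (nat_lit 367) (nat_lit 257) (nat_lit 156)) (XT.lf (nat_lit 0) (nat_lit 30758742823) (nat_lit 76) (nat_lit 5574214559) (nat_lit 152) (nat_lit 3012554920) (nat_lit 12) (nat_lit 5) (nat_lit 13) (nat_lit 5) (nat_lit 14) (nat_lit 4) (nat_lit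 368) (nat_lit 257) (nat_lit 155)))) (XT.nd (nat_lit 78) (nat_lit 228) (nat_lit 0) (XT.lf (nat_lit 0) (nat_lit 38804341382) (nat_lit 76) (nat_lit 1523782930) (nat_lit 152) (nat_lit 66230864) (nat_lit 12) (nat_lit 5) (nat_lit 13) (nat_lit 5) (nat_lit 14) (nat_lit 4) (nat_lit 369) (nat_lit 257) (nat_lit 154)) (XT.nd (nat_lit 78) (nat_lit 0) (nat_lit 0) (XT.lf (nat_lit 0) (nat_lit 2980375850) (nat_lit 228) (nat_lit 35818244799) (nat_lit 76) (nat_lit 2673104190) (nat_lit 9) (nat_lit 5) (nat_lit 12) (nat_lit 5) (nat_lit 10) (nat_lit 4) (nat_lit 370) (nat_lit 257) (nat_lit 153)) (XT.lf (nat_lit 0) (nat_lit 6137431775) (nat_lit 228) (nat_lit 29468530552) (nat_lit 76) (nat_lit 6974833885) (nat_lit 9) (nat_lit 5) (nat_lit 12) (nat_lit 5) (nat_lit 10) (nat_lit 4) (nat_lit 371) (nat_lit 257) (nat_lit 152))))))))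
noncomputable def xc104 : XT := (XT.nd (nat_lit 1716) (nat_lit 0) (nat_lit 0) (XT.nd (nat_lit 858) (nat_lit 228) (nat_lit 0) (XT.nd (nat_lit 390) (nat_lit 0) (nat_lit 0) (XT.nd (nat_lit 156) (nat_lit 76) (nat_lit 0) (XT.nd (nat_lit 78) (nat_lit 0) (nat_lit 0) (XT.lf (nat_lit 0) (nat_lit 9378597661) (nat_lit 228) (nat_lit 22946351455) (nat_lit 76) (nat_lit 11398520078) (nat_lit 9) (nat_lit 5) (nat_lit 12) (nat_lit 5) (nat_lit 10) (nat_lit 4) (nat_lit 372) (nat_lit 257) (nat_lit 151)) (XT.lf (nat_lit 0) (nat_lit 12706705594) (nat_lit 228) (nat_lit 16246008516) (nat_lit 76) (nat_lit 15948028127) (nat_lit 9) (nat_lit 5) (nat_lit 12) (nat_lit 5) (nat_lit 10) (nat_lit 4) (nat_lit 373) (nat_lit 257) (nat_lit 150))) (XT.nd (nat_lit 78) (nat_lit 76) (nat_lit 0) (XT.lf (nat_lit 0) (nat_lit 16124663631) (nat_lit 228) (nat_lit 9361647067) (nat_lit 76) (nat_lit 20627333328) (nat_lit 9) (nat_lit 5) (nat_lit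 12) (nat_lit 5) (nat_lit 10) (nat_lit 4) (nat_lit 374) (nat_lit 257) (nat_lit 149)) (XT.nd (nat_lit 78) (nat_lit 76) (nat_lit 0) (XT.lf (nat_lit 0) (nat_lit 19635458337) (nat_lit 228) (nat_lit 2287251645) (nat_lit 76) (nat_lit 25440524397) (nat_lit 9) (nat_lit 5) (nat_lit 12) (nat_lit 5) (nat_lit 10) (nat_lit 4) (nat_lit 375) (nat_lit 257) (nat_lit 148)) (XT.lf (nat_lit 0) (nat_lit 5082537879) (nat_lit 76) (nat_lit 18208475980) (nat_lit 152) (nat_lit 25358125617) (nat_lit 8) (nat_lit 5) (nat_lit 9) (nat_lit 5) (nat_lit 10) (nat_lit 4) (nat_lit 376) (nat_lit 257) (nat_lit 147))))) (XT.nd (nat_lit 234) (nat_lit 0) (nat_lit 0) (XT.nd (nat_lit 78) (nat_lit 0) (nat_lit 0) (XT.lf (nat_lit 0) (nat_lit 12704448149) (nat_lit 76) (nat_lit 14365587071) (nat_lit 152) (nat_lit 22903182378) (nat_lit 8) (nat_lit 5) (nat_lit 9) (nat_lit 5) (nat_lit 10) (nat_lit 4) (nat_lit 377) (nat_lit 257) (nat_lit 146))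 (XT.nd (nat_lit 78) (nat_lit 0) (nat_lit 0) (XT.lf (nat_lit 0) (nat_lit 20539618293) (nat_lit 76) (nat_lit 10413782147) (nat_lit 152) (nat_lit 20383897987) (nat_lit 8) (nat_lit 5) (nat_lit 9) (nat_lit 5) (nat_lit 10) (nat_lit 4) (nat_lit 378) (nat_lit 257) (nat_lit 145)) (XT.lf (nat_lit 0) (nat_lit 28594894577) (nat_lit 76) (nat_lit 6349608177) (nat_lit 152) (nat_lit 17798071126) (nat_lit 8) (nat_lit 5) (nat_lit 9) (nat_lit 5) (nat_lit 10) (nat_lit 4) (nat_lit 379) (nat_lit 257) (nat_lit 144)))) (XT.nd (nat_lit 78) (nat_lit 0) (nat_lit 0) (XT.lf (nat_lit 0) (nat_lit 36877315592) (nat_lit 76) (nat_lit 2169513939) (nat_lit 152) (nat_lit 15143442336) (nat_lit 8) (nat_lit 5) (nat_lit 9) (nat_lit 5) (nat_lit 10) (nat_lit 4) (nat_lit 380) (nat_lit 257) (nat_lit 143)) (XT.nd (nat_lit 78) (nat_lit 0) (nat_lit 0) (XT.lf (nat_lit 0) (nat_lit 43284441663) (nat_lit 152) (nat_lit 10308015298) (nat_lit 0)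 (nat_lit 2088586116) (nat_lit 8) (nat_lit 5) (nat_lit 10) (nat_lit 4) (nat_lit 8) (nat_lit 4) (nat_lit 381) (nat_lit 257) (nat_lit 142)) (XT.lf (nat_lit 0) (nat_lit 47662587908) (nat_lit 152) (nat_lit 3128281537) (nat_lit 0) (nat_lit 6425274300) (nat_lit 8) (nat_lit 5) (nat_lit 10) (nat_lit 4) (nat_lit 8) (nat_lit 4) (nat_lit 382) (nat_lit 257) (nat_lit 141)))))) (XT.nd (nat_lit 390) (nat_lit 76) (nat_lit 0) (XT.nd (nat_lit 156) (nat_lit 76) (nat_lit 0) (XT.nd (nat_lit 78) (nat_lit 0) (nat_lit 0) (XT.lf (nat_lit 0) (nat_lit 4338023722) (nat_lit 76) (nat_lit 47867915150) (nat_lit 76) (nat_lit 6590350998) (nat_lit 7) (nat_lit 4) (nat_lit 8) (nat_lit 5) (nat_lit 8) (nat_lit 4) (nat_lit 383) (nat_lit 257) (nat_lit 140)) (XT.lf (nat_lit 0) (nat_lit 12079105931) (nat_lit 76) (nat_lit 44830334649) (nat_lit 76) (nat_lit 3513692299) (nat_lit 7) (nat_lit 4) (nat_lit 8) (nat_lit 5) (nat_lit 8) (nat_lit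 4) (nat_lit 384) (nat_lit 257) (nat_lit 139))) (XT.nd (nat_lit 78) (nat_lit 76) (nat_lit 0) (XT.lf (nat_lit 0) (nat_lit 20039470206) (nat_lit 76) (nat_lit 41707063256) (nat_lit 76) (nat_lit 352480907) (nat_lit 7) (nat_lit 4) (nat_lit 8) (nat_lit 5) (nat_lit 8) (nat_lit 4) (nat_lit 385) (nat_lit 257) (nat_lit 138)) (XT.nd (nat_lit 78) (nat_lit 0) (nat_lit 0) (XT.lf (nat_lit 0) (nat_lit 2839533123) (nat_lit 152) (nat_lit 35627165057) (nat_lit 76) (nat_lit 25357865365) (nat_lit 6) (nat_lit 5) (nat_lit 8) (nat_lit 5) (nat_lit 7) (nat_lit 4) (nat_lit 386) (nat_lit 257) (nat_lit 137)) (XT.lf (nat_lit 0) (nat_lit 6113063198) (nat_lit 152) (nat_lit 29017661092) (nat_lit 76) (nat_lit 30471272118) (nat_lit 6) (nat_lit 5) (nat_lit 8) (nat_lit 5) (nat_lit 7) (nat_lit 4) (nat_lit 387) (nat_lit 257) (nat_lit 136))))) (XT.nd (nat_lit 234) (nat_lit 76) (nat_lit 0) (XT.nd (nat_lit 78) (nat_lit 0) (nat_lit 0)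 (XT.lf (nat_lit 0) (nat_lit 9477847855) (nat_lit 152) (nat_lit 22221868711) (nat_lit 76) (nat_lit 35733251138) (nat_lit 6) (nat_lit 5) (nat_lit 8) (nat_lit 5) (nat_lit 7) (nat_lit 4) (nat_lit 388) (nat_lit 257) (nat_lit 135)) (XT.nd (nat_lit 78) (nat_lit 0) (nat_lit 0) (XT.lf (nat_lit 0) (nat_lit 12936827197) (nat_lit 152) (nat_lit 15233849843) (nat_lit 76) (nat_lit 41148400270) (nat_lit 6) (nat_lit 5) (nat_lit 8) (nat_lit 5) (nat_lit 7) (nat_lit 4) (nat_lit 389) (nat_lit 257) (nat_lit 134)) (XT.lf (nat_lit 0) (nat_lit 16493023634) (nat_lit 152) (nat_lit 8047498453) (nat_lit 76) (nat_lit 46721451198) (nat_lit 6) (nat_lit 5) (nat_lit 8) (nat_lit 5) (nat_lit 7) (nat_lit 4) (nat_lit 390) (nat_lit 257) (nat_lit 133)))) (XT.nd (nat_lit 78) (nat_lit 76) (nat_lit 0) (XT.lf (nat_lit 0) (nat_lit 20149544521) (nat_lit 152) (nat_lit 656535203) (nat_lit 76) (nat_lit 52457273578) (nat_lit 6) (nat_lit 5)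 (nat_lit 8) (nat_lit 5) (nat_lit 7) (nat_lit 4) (nat_lit 391) (nat_lit 257) (nat_lit 132)) (XT.nd (nat_lit 78) (nat_lit 0) (nat_lit 0) (XT.lf (nat_lit 0) (nat_lit 7083727057) (nat_lit 76) (nat_lit 16893950938) (nat_lit 152) (nat_lit 51345245353) (nat_lit 5) (nat_lit 5) (nat_lit 6) (nat_lit 5) (nat_lit 7) (nat_lit 4) (nat_lit 392) (nat_lit 257) (nat_lit 131)) (XT.lf (nat_lit 0) (nat_lit 15059101098) (nat_lit 76) (nat_lit 12862086368) (nat_lit 152) (nat_lit 49523083027) (nat_lit 5) (nat_lit 5) (nat_lit 6) (nat_lit 5) (nat_lit 7) (nat_lit 4) (nat_lit 393) (nat_lit 257) (nat_lit 130))))))) (XT.nd (nat_lit 31044) (nat_lit 0) (nat_lit 13984) (XT.nd (nat_lit 30576) (nat_lit 0) (nat_lit 17708) (XT.nd (nat_lit 156) (nat_lit 0) (nat_lit 0) (XT.nd (nat_lit 78) (nat_lit 0) (nat_lit 0) (XT.lf (nat_lit 0) (nat_lit 23263489354) (nat_lit 76) (nat_lit 8713592745) (nat_lit 152) (nat_lit 47652359341) (nat_lit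 5) (nat_lit 5) (nat_lit 6) (nat_lit 5) (nat_lit 7) (nat_lit 4) (nat_lit 394) (nat_lit 257) (nat_lit 129)) (XT.lf (nat_lit 0) (nat_lit 31704060708) (nat_lit 76) (nat_lit 4444845172) (nat_lit 152) (nat_lit 45731439683) (nat_lit 5) (nat_lit 5) (nat_lit 6) (nat_lit 5) (nat_lit 7) (nat_lit 4) (nat_lit 395) (nat_lit 257) (nat_lit 128))) (XT.nd (nat_lit 78) (nat_lit 0) (nat_lit 0) (XT.lf (nat_lit 0) (nat_lit 40388190417) (nat_lit 76) (nat_lit 52113675) (nat_lit 152) (nat_lit 43758645577) (nat_lit 5) (nat_lit 5) (nat_lit 6) (nat_lit 5) (nat_lit 7) (nat_lit 4) (nat_lit 396) (nat_lit 257) (nat_lit 127)) (XT.nd (nat_lit 30264) (nat_lit 0) (nat_lit 18620) (XT.lf (nat_lit 0) (nat_lit 44897979881) (nat_lit 152) (nat_lit 37306766550) (nat_lit 0) (nat_lit 4381244693) (nat_lit 5) (nat_lit 5) (nat_lit 7) (nat_lit 4) (nat_lit 5) (nat_lit 4) (nat_lit 397) (nat_lit 257) (nat_lit 126)) (XT.lf (nat_lit 0) (nat_lit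 2533335618) (nat_lit 76) (nat_lit 348492228) (nat_lit 76) (nat_lit 348492228) (nat_lit 250) (nat_lit 4) (nat_lit 251) (nat_lit 5) (nat_lit 251) (nat_lit 4) (nat_lit 264) (nat_lit 258) (nat_lit 258))))) (XT.nd (nat_lit 234) (nat_lit 380) (nat_lit 0) (XT.nd (nat_lit 78) (nat_lit 304) (nat_lit 0) (XT.lf (nat_lit 0) (nat_lit 1619800785) (nat_lit 152) (nat_lit 421176569) (nat_lit 228) (nat_lit 4430419265) (nat_lit 247) (nat_lit 5) (nat_lit 249) (nat_lit 5) (nat_lit 250) (nat_lit 4) (nat_lit 265) (nat_lit 258) (nat_lit 257)) (XT.nd (nat_lit 78) (nat_lit 304) (nat_lit 0) (XT.lf (nat_lit 0) (nat_lit 4686555631) (nat_lit 152) (nat_lit 71979109) (nat_lit 228) (nat_lit 1726877408) (nat_lit 247) (nat_lit 5) (nat_lit 249) (nat_lit 5) (nat_lit 250) (nat_lit 4) (nat_lit 266) (nat_lit 258) (nat_lit 256)) (XT.lf (nat_lit 0) (nat_lit 952016138) (nat_lit 304) (nat_lit 5205077740) (nat_lit 76) (nat_lit 345462014)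 (nat_lit 243) (nat_lit 5) (nat_lit 247) (nat_lit 5) (nat_lit 244) (nat_lit 4) (nat_lit 267) (nat_lit 258) (nat_lit 255)))) (XT.nd (nat_lit 78) (nat_lit 380) (nat_lit 0) (XT.lf (nat_lit 0) (nat_lit 3597372416) (nat_lit 304) (nat_lit 2076997826) (nat_lit 76) (nat_lit 848152637) (nat_lit 243) (nat_lit 5) (nat_lit 247) (nat_lit 5) (nat_lit 244) (nat_lit 4) (nat_lit 268) (nat_lit 258) (nat_lit 254)) (XT.nd (nat_lit 78) (nat_lit 76) (nat_lit 0) (XT.lf (nat_lit 0) (nat_lit 1105411379) (nat_lit 304) (nat_lit 5131912643) (nat_lit 380) (nat_lit 308740824) (nat_lit 239) (nat_lit 5) (nat_lit 243) (nat_lit 5) (nat_lit 244) (nat_lit 4) (nat_lit 269) (nat_lit 258) (nat_lit 253)) (XT.lf (nat_lit 0) (nat_lit 2266250582) (nat_lit 380) (nat_lit 2229733752) (nat_lit 76) (nat_lit 2076249209) (nat_lit 238) (nat_lit 5) (nat_lit 243) (nat_lit 5) (nat_lit 239) (nat_lit 5) (nat_lit 270) (nat_lit 258) (nat_lit 252))))))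 (XT.nd (nat_lit 468) (nat_lit 2204) (nat_lit 0) (XT.nd (nat_lit 234) (nat_lit 608) (nat_lit 0) (XT.nd (nat_lit 78) (nat_lit 532) (nat_lit 0) (XT.lf (nat_lit 0) (nat_lit 1033681672) (nat_lit 380) (nat_lit 3796765141) (nat_lit 456) (nat_lit 1771500232) (nat_lit 233) (nat_lit 5) (nat_lit 238) (nat_lit 5) (nat_lit 239) (nat_lit 5) (nat_lit 271) (nat_lit 258) (nat_lit 251)) (XT.nd (nat_lit 78) (nat_lit 456) (nat_lit 0) (XT.lf (nat_lit 0) (nat_lit 754435507) (nat_lit 456) (nat_lit 2261989580) (nat_lit 76) (nat_lit 3618304705) (nat_lit 232) (nat_lit 5) (nat_lit 238) (nat_lit 5) (nat_lit 233) (nat_lit 5) (nat_lit 272) (nat_lit 258) (nat_lit 250)) (XT.lf (nat_lit 0) (nat_lit 1086424303) (nat_lit 456) (nat_lit 2156263866) (nat_lit 532) (nat_lit 3427979974) (nat_lit 226) (nat_lit 5) (nat_lit 232) (nat_lit 5) (nat_lit 233) (nat_lit 5) (nat_lit 273) (nat_lit 258) (nat_lit 249)))) (XT.nd (nat_lit 78) (nat_lit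 608) (nat_lit 0) (XT.lf (nat_lit 0) (nat_lit 4521543747) (nat_lit 456) (nat_lit 1220581152) (nat_lit 532) (nat_lit 967815725) (nat_lit 226) (nat_lit 5) (nat_lit 232) (nat_lit 5) (nat_lit 233) (nat_lit 5) (nat_lit 274) (nat_lit 258) (nat_lit 248)) (XT.nd (nat_lit 78) (nat_lit 0) (nat_lit 0) (XT.lf (nat_lit 0) (nat_lit 1258440219) (nat_lit 532) (nat_lit 204292637) (nat_lit 608) (nat_lit 5289724422) (nat_lit 218) (nat_lit 5) (nat_lit 225) (nat_lit 5) (nat_lit 226) (nat_lit 5) (nat_lit 275) (nat_lit 258) (nat_lit 247)) (XT.lf (nat_lit 0) (nat_lit 3894328621) (nat_lit 608) (nat_lit 2022776283) (nat_lit 76) (nat_lit 880751772) (nat_lit 218) (nat_lit 5) (nat_lit 226) (nat_lit 5) (nat_lit 219) (nat_lit 5) (nat_lit 276) (nat_lit 258) (nat_lit 246))))) (XT.nd (nat_lit 234) (nat_lit 836) (nat_lit 0) (XT.nd (nat_lit 78) (nat_lit 760) (nat_lit 0) (XT.lf (nat_lit 0) (nat_lit 1519221969) (nat_lit 608) (nat_lit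 4815856360) (nat_lit 684) (nat_lit 511766357) (nat_lit 210) (nat_lit 5) (nat_lit 218) (nat_lit 5) (nat_lit 219) (nat_lit 5) (nat_lit 277) (nat_lit 258) (nat_lit 245)) (XT.nd (nat_lit 78) (nat_lit 684) (nat_lit 0) (XT.lf (nat_lit 0) (nat_lit 1854555667) (nat_lit 684) (nat_lit 1768994312) (nat_lit 76) (nat_lit 3275257581) (nat_lit 209) (nat_lit 5) (nat_lit 218) (nat_lit 5) (nat_lit 210) (nat_lit 5) (nat_lit 278) (nat_lit 258) (nat_lit 244)) (XT.lf (nat_lit 0) (nat_lit 1867291474) (nat_lit 684) (nat_lit 2354826613) (nat_lit 760) (nat_lit 2732129389) (nat_lit 200) (nat_lit 5) (nat_lit 209) (nat_lit 5) (nat_lit 210) (nat_lit 5) (nat_lit 279) (nat_lit 258) (nat_lit 243)))) (XT.nd (nat_lit 78) (nat_lit 836) (nat_lit 0) (XT.lf (nat_lit 0) (nat_lit 5589049288) (nat_lit 684) (nat_lit 1013787798) (nat_lit 760) (nat_lit 410527544) (nat_lit 200) (nat_lit 5) (nat_lit 209) (nat_lit 5) (nat_lit 210) (nat_lit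 5) (nat_lit 280) (nat_lit 258) (nat_lit 242)) (XT.nd (nat_lit 78) (nat_lit 0) (nat_lit 0) (XT.lf (nat_lit 0) (nat_lit 1893880795) (nat_lit 836) (nat_lit 4765148631) (nat_lit 76) (nat_lit 416362369) (nat_lit 189) (nat_lit 5) (nat_lit 200) (nat_lit 5) (nat_lit 190) (nat_lit 5) (nat_lit 281) (nat_lit 258) (nat_lit 241)) (XT.lf (nat_lit 0) (nat_lit 4210944009) (nat_lit 836) (nat_lit 1028923420) (nat_lit 76) (nat_lit 1900991539) (nat_lit 189) (nat_lit 5) (nat_lit 200) (nat_lit 5) (nat_lit 190) (nat_lit 5) (nat_lit 282) (nat_lit 258) (nat_lit 240))))))))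
noncomputable def xc105 : XT := (XT.nd (nat_lit 1716) (nat_lit 3268) (nat_lit 0) (XT.nd (nat_lit 858) (nat_lit 2888) (nat_lit 0) (XT.nd (nat_lit 390) (nat_lit 2280) (nat_lit 0) (XT.nd (nat_lit 156) (nat_lit 1976) (nat_lit 0) (XT.nd (nat_lit 78) (nat_lit 76) (nat_lit 0) (XT.lf (nat_lit 0) (nat_lit 2814240346) (nat_lit 836) (nat_lit 3739662158) (nat_lit 912) (nat_lit 655943090) (nat_lit 178) (nat_lit 5) (nat_lit 189) (nat_lit 5) (nat_lit 190) (nat_lit 5) (nat_lit 283) (nat_lit 258) (nat_lit 239)) (XT.lf (nat_lit 0) (nat_lit 1593733893) (nat_lit 912) (nat_lit 564214522) (nat_lit 76) (nat_lit 5124488165) (nat_lit 177) (nat_lit 5) (nat_lit 189) (nat_lit 5) (nat_lit 178) (nat_lit 5) (nat_lit 284) (nat_lit 258) (nat_lit 238))) (XT.nd (nat_lit 78) (nat_lit 1064) (nat_lit 0) (XT.lf (nat_lit 0) (nat_lit 3382300778) (nat_lit 912) (nat_lit 479868906) (nat_lit 988) (nat_lit 3496133193) (nat_lit 165) (nat_lit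 5) (nat_lit 177) (nat_lit 5) (nat_lit 178) (nat_lit 5) (nat_lit 285) (nat_lit 258) (nat_lit 237)) (XT.nd (nat_lit 78) (nat_lit 1064) (nat_lit 0) (XT.lf (nat_lit 0) (nat_lit 6149847464) (nat_lit 988) (nat_lit 50591681) (nat_lit 76) (nat_lit 1237689753) (nat_lit 165) (nat_lit 5) (nat_lit 178) (nat_lit 5) (nat_lit 166) (nat_lit 5) (nat_lit 286) (nat_lit 258) (nat_lit 236)) (XT.lf (nat_lit 0) (nat_lit 944787506) (nat_lit 1064) (nat_lit 3523708831) (nat_lit 76) (nat_lit 3052429335) (nat_lit 151) (nat_lit 5) (nat_lit 165) (nat_lit 5) (nat_lit 152) (nat_lit 5) (nat_lit 287) (nat_lit 258) (nat_lit 235))))) (XT.nd (nat_lit 234) (nat_lit 608) (nat_lit 0) (XT.nd (nat_lit 78) (nat_lit 608) (nat_lit 0) (XT.lf (nat_lit 0) (nat_lit 498110173) (nat_lit 1064) (nat_lit 2662009984) (nat_lit 1140) (nat_lit 4447669374) (nat_lit 137) (nat_lit 5) (nat_lit 151) (nat_lit 5) (nat_lit 152) (nat_lit 5) (nat_lit 288) (nat_lit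 258) (nat_lit 234)) (XT.nd (nat_lit 78) (nat_lit 608) (nat_lit 0) (XT.lf (nat_lit 0) (nat_lit 4653250973) (nat_lit 1064) (nat_lit 761400668) (nat_lit 1140) (nat_lit 2283620435) (nat_lit 137) (nat_lit 5) (nat_lit 151) (nat_lit 5) (nat_lit 152) (nat_lit 5) (nat_lit 289) (nat_lit 258) (nat_lit 233)) (XT.lf (nat_lit 0) (nat_lit 1091496369) (nat_lit 608) (nat_lit 6606330994) (nat_lit 684) (nat_lit 95000744) (nat_lit 129) (nat_lit 5) (nat_lit 137) (nat_lit 5) (nat_lit 138) (nat_lit 5) (nat_lit 290) (nat_lit 258) (nat_lit 232)))) (XT.nd (nat_lit 78) (nat_lit 532) (nat_lit 0) (XT.lf (nat_lit 0) (nat_lit 2095185581) (nat_lit 684) (nat_lit 2564045454) (nat_lit 76) (nat_lit 3231204186) (nat_lit 128) (nat_lit 5) (nat_lit 137) (nat_lit 5) (nat_lit 129) (nat_lit 5) (nat_lit 291) (nat_lit 258) (nat_lit 231)) (XT.nd (nat_lit 78) (nat_lit 0) (nat_lit 0) (XT.lf (nat_lit 0) (nat_lit 1670098698) (nat_lit 532) (nat_lit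 2636338456) (nat_lit 608) (nat_lit 3685960304) (nat_lit 121) (nat_lit 5) (nat_lit 128) (nat_lit 5) (nat_lit 129) (nat_lit 5) (nat_lit 292) (nat_lit 258) (nat_lit 230)) (XT.lf (nat_lit 0) (nat_lit 6025495381) (nat_lit 532) (nat_lit 526789251) (nat_lit 608) (nat_lit 1546254332) (nat_lit 121) (nat_lit 5) (nat_lit 128) (nat_lit 5) (nat_lit 129) (nat_lit 5) (nat_lit 293) (nat_lit 258) (nat_lit 229)))))) (XT.nd (nat_lit 390) (nat_lit 1292) (nat_lit 0) (XT.nd (nat_lit 156) (nat_lit 988) (nat_lit 0) (XT.nd (nat_lit 78) (nat_lit 0) (nat_lit 0) (XT.lf (nat_lit 0) (nat_lit 626187058) (nat_lit 608) (nat_lit 5940948274) (nat_lit 76) (nat_lit 1641256917) (nat_lit 113) (nat_lit 5) (nat_lit 121) (nat_lit 5) (nat_lit 114) (nat_lit 5) (nat_lit 294) (nat_lit 258) (nat_lit 228)) (XT.lf (nat_lit 0) (nat_lit 2803493398) (nat_lit 608) (nat_lit 1620159591) (nat_lit 76) (nat_lit 3898459647) (nat_lit 113) (nat_lit 5)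 (nat_lit 121) (nat_lit 5) (nat_lit 114) (nat_lit 5) (nat_lit 295) (nat_lit 258) (nat_lit 227))) (XT.nd (nat_lit 78) (nat_lit 532) (nat_lit 0) (XT.lf (nat_lit 0) (nat_lit 2828004743) (nat_lit 456) (nat_lit 2191330942) (nat_lit 532) (nat_lit 3420861849) (nat_lit 107) (nat_lit 5) (nat_lit 113) (nat_lit 5) (nat_lit 114) (nat_lit 5) (nat_lit 296) (nat_lit 258) (nat_lit 226)) (XT.nd (nat_lit 78) (nat_lit 532) (nat_lit 0) (XT.lf (nat_lit 0) (nat_lit 7266233156) (nat_lit 532) (nat_lit 1178273324) (nat_lit 76) (nat_lit 118526151) (nat_lit 107) (nat_lit 5) (nat_lit 114) (nat_lit 5) (nat_lit 108) (nat_lit 5) (nat_lit 297) (nat_lit 258) (nat_lit 225)) (XT.lf (nat_lit 0) (nat_lit 876198423) (nat_lit 532) (nat_lit 5322216731) (nat_lit 76) (nat_lit 2490939411) (nat_lit 100) (nat_lit 5) (nat_lit 107) (nat_lit 5) (nat_lit 101) (nat_lit 5) (nat_lit 298) (nat_lit 258) (nat_lit 224))))) (XT.nd (nat_lit 234) (nat_lit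 912) (nat_lit 0) (XT.nd (nat_lit 78) (nat_lit 380) (nat_lit 0) (XT.lf (nat_lit 0) (nat_lit 3049223855) (nat_lit 532) (nat_lit 816453706) (nat_lit 76) (nat_lit 4954709090) (nat_lit 100) (nat_lit 5) (nat_lit 107) (nat_lit 5) (nat_lit 101) (nat_lit 5) (nat_lit 299) (nat_lit 258) (nat_lit 223)) (XT.nd (nat_lit 78) (nat_lit 0) (nat_lit 0) (XT.lf (nat_lit 0) (nat_lit 3843708288) (nat_lit 380) (nat_lit 1431054525) (nat_lit 456) (nat_lit 3681096080) (nat_lit 95) (nat_lit 5) (nat_lit 100) (nat_lit 5) (nat_lit 101) (nat_lit 5) (nat_lit 300) (nat_lit 258) (nat_lit 222)) (XT.lf (nat_lit 0) (nat_lit 7536969640) (nat_lit 456) (nat_lit 501922388) (nat_lit 76) (nat_lit 1057531345) (nat_lit 95) (nat_lit 5) (nat_lit 101) (nat_lit 5) (nat_lit 96) (nat_lit 5) (nat_lit 301) (nat_lit 258) (nat_lit 221)))) (XT.nd (nat_lit 78) (nat_lit 380) (nat_lit 0) (XT.lf (nat_lit 0) (nat_lit 621353612) (nat_lit 532) (nat_lit 4986706112)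 (nat_lit 76) (nat_lit 3632850680) (nat_lit 88) (nat_lit 5) (nat_lit 95) (nat_lit 5) (nat_lit 89) (nat_lit 5) (nat_lit 302) (nat_lit 258) (nat_lit 220)) (XT.nd (nat_lit 78) (nat_lit 380) (nat_lit 0) (XT.lf (nat_lit 0) (nat_lit 2794286098) (nat_lit 532) (nat_lit 297380136) (nat_lit 76) (nat_lit 6298975783) (nat_lit 88) (nat_lit 5) (nat_lit 95) (nat_lit 5) (nat_lit 89) (nat_lit 5) (nat_lit 303) (nat_lit 258) (nat_lit 219)) (XT.lf (nat_lit 0) (nat_lit 4567765474) (nat_lit 380) (nat_lit 462846113) (nat_lit 456) (nat_lit 4514419006) (nat_lit 83) (nat_lit 5) (nat_lit 88) (nat_lit 5) (nat_lit 89) (nat_lit 5) (nat_lit 304) (nat_lit 258) (nat_lit 218))))))) (XT.nd (nat_lit 858) (nat_lit 1444) (nat_lit 0) (XT.nd (nat_lit 390) (nat_lit 1064) (nat_lit 0) (XT.nd (nat_lit 156) (nat_lit 380) (nat_lit 0) (XT.nd (nat_lit 78) (nat_lit 380) (nat_lit 0) (XT.lf (nat_lit 0) (nat_lit 7313669933) (nat_lit 456) (nat_lit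 195444180) (nat_lit 76) (nat_lit 2195655355) (nat_lit 83) (nat_lit 5) (nat_lit 89) (nat_lit 5) (nat_lit 84) (nat_lit 5) (nat_lit 305) (nat_lit 258) (nat_lit 217)) (XT.lf (nat_lit 0) (nat_lit 4764991682) (nat_lit 380) (nat_lit 4906956394) (nat_lit 456) (nat_lit 197255377) (nat_lit 78) (nat_lit 5) (nat_lit 83) (nat_lit 5) (nat_lit 84) (nat_lit 5) (nat_lit 306) (nat_lit 258) (nat_lit 216))) (XT.nd (nat_lit 78) (nat_lit 304) (nat_lit 0) (XT.lf (nat_lit 0) (nat_lit 1980734131) (nat_lit 456) (nat_lit 233788995) (nat_lit 76) (nat_lit 7824794103) (nat_lit 77) (nat_lit 5) (nat_lit 83) (nat_lit 5) (nat_lit 78) (nat_lit 5) (nat_lit 307) (nat_lit 258) (nat_lit 215)) (XT.nd (nat_lit 78) (nat_lit 0) (nat_lit 0) (XT.lf (nat_lit 0) (nat_lit 4230057664) (nat_lit 380) (nat_lit 5397411787) (nat_lit 76) (nat_lit 586803503) (nat_lit 73) (nat_lit 5) (nat_lit 78) (nat_lit 5) (nat_lit 74) (nat_lit 5) (nat_lit 308)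 (nat_lit 258) (nat_lit 214)) (XT.lf (nat_lit 0) (nat_lit 6529651297) (nat_lit 380) (nat_lit 445376158) (nat_lit 76) (nat_lit 3420059285) (nat_lit 73) (nat_lit 5) (nat_lit 78) (nat_lit 5) (nat_lit 74) (nat_lit 5) (nat_lit 309) (nat_lit 258) (nat_lit 213))))) (XT.nd (nat_lit 234) (nat_lit 304) (nat_lit 0) (XT.nd (nat_lit 78) (nat_lit 380) (nat_lit 0) (XT.lf (nat_lit 0) (nat_lit 4695543064) (nat_lit 380) (nat_lit 4207515660) (nat_lit 456) (nat_lit 1678211828) (nat_lit 68) (nat_lit 5) (nat_lit 73) (nat_lit 5) (nat_lit 74) (nat_lit 5) (nat_lit 310) (nat_lit 258) (nat_lit 212)) (XT.nd (nat_lit 78) (nat_lit 304) (nat_lit 0) (XT.lf (nat_lit 0) (nat_lit 527854318) (nat_lit 456) (nat_lit 830338307) (nat_lit 76) (nat_lit 9415833577) (nat_lit 67) (nat_lit 5) (nat_lit 73) (nat_lit 5) (nat_lit 68) (nat_lit 5) (nat_lit 311) (nat_lit 258) (nat_lit 211)) (XT.lf (nat_lit 0) (nat_lit 2785321258) (nat_lit 380)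 (nat_lit 6591986320) (nat_lit 76) (nat_lit 1594272709) (nat_lit 63) (nat_lit 5) (nat_lit 68) (nat_lit 5) (nat_lit 64) (nat_lit 5) (nat_lit 312) (nat_lit 258) (nat_lit 210)))) (XT.nd (nat_lit 78) (nat_lit 304) (nat_lit 0) (XT.lf (nat_lit 0) (nat_lit 5094039188) (nat_lit 380) (nat_lit 1476301032) (nat_lit 76) (nat_lit 4605295276) (nat_lit 63) (nat_lit 5) (nat_lit 68) (nat_lit 5) (nat_lit 64) (nat_lit 5) (nat_lit 313) (nat_lit 258) (nat_lit 209)) (XT.nd (nat_lit 78) (nat_lit 0) (nat_lit 0) (XT.lf (nat_lit 0) (nat_lit 3818031720) (nat_lit 304) (nat_lit 3653418021) (nat_lit 380) (nat_lit 3914457658) (nat_lit 59) (nat_lit 5) (nat_lit 63) (nat_lit 5) (nat_lit 64) (nat_lit 5) (nat_lit 314) (nat_lit 258) (nat_lit 208)) (XT.lf (nat_lit 0) (nat_lit 9252614130) (nat_lit 304) (nat_lit 645822086) (nat_lit 380) (nat_lit 1704779337) (nat_lit 59) (nat_lit 5) (nat_lit 63) (nat_lit 5) (nat_lit 64) (nat_lit 5)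 (nat_lit 315) (nat_lit 258) (nat_lit 207)))))) (XT.nd (nat_lit 468) (nat_lit 608) (nat_lit 0) (XT.nd (nat_lit 234) (nat_lit 228) (nat_lit 0) (XT.nd (nat_lit 78) (nat_lit 304) (nat_lit 0) (XT.lf (nat_lit 0) (nat_lit 576940588) (nat_lit 304) (nat_lit 8822361363) (nat_lit 76) (nat_lit 2427140721) (nat_lit 55) (nat_lit 5) (nat_lit 59) (nat_lit 5) (nat_lit 56) (nat_lit 5) (nat_lit 316) (nat_lit 258) (nat_lit 206)) (XT.nd (nat_lit 78) (nat_lit 304) (nat_lit 0) (XT.lf (nat_lit 0) (nat_lit 2887674162) (nat_lit 304) (nat_lit 3560322632) (nat_lit 76) (nat_lit 5608087923) (nat_lit 55) (nat_lit 5) (nat_lit 59) (nat_lit 5) (nat_lit 56) (nat_lit 5) (nat_lit 317) (nat_lit 258) (nat_lit 205)) (XT.lf (nat_lit 0) (nat_lit 1848315053) (nat_lit 304) (nat_lit 3402677620) (nat_lit 380) (nat_lit 7042192722) (nat_lit 51) (nat_lit 5) (nat_lit 55) (nat_lit 5) (nat_lit 56) (nat_lit 5) (nat_lit 318) (nat_lit 258) (nat_lit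 204)))) (XT.nd (nat_lit 78) (nat_lit 228) (nat_lit 0) (XT.lf (nat_lit 0) (nat_lit 7445329518) (nat_lit 304) (nat_lit 241883773) (nat_lit 380) (nat_lit 4850191026) (nat_lit 51) (nat_lit 5) (nat_lit 55) (nat_lit 5) (nat_lit 56) (nat_lit 5) (nat_lit 319) (nat_lit 258) (nat_lit 203)) (XT.nd (nat_lit 78) (nat_lit 0) (nat_lit 0) (XT.lf (nat_lit 0) (nat_lit 352786745) (nat_lit 228) (nat_lit 9843013401) (nat_lit 304) (nat_lit 2593234671) (nat_lit 48) (nat_lit 5) (nat_lit 51) (nat_lit 5) (nat_lit 52) (nat_lit 5) (nat_lit 320) (nat_lit 258) (nat_lit 202)) (XT.lf (nat_lit 0) (nat_lit 6016957196) (nat_lit 228) (nat_lit 6783918933) (nat_lit 304) (nat_lit 246762709) (nat_lit 48) (nat_lit 5) (nat_lit 51) (nat_lit 5) (nat_lit 52) (nat_lit 5) (nat_lit 321) (nat_lit 258) (nat_lit 201))))) (XT.nd (nat_lit 234) (nat_lit 304) (nat_lit 0) (XT.nd (nat_lit 78) (nat_lit 228) (nat_lit 0) (XT.lf (nat_lit 0) (nat_lit 2095773785)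 (nat_lit 304) (nat_lit 1529140923) (nat_lit 76) (nat_lit 9689477971) (nat_lit 47) (nat_lit 5) (nat_lit 51) (nat_lit 5) (nat_lit 48) (nat_lit 5) (nat_lit 322) (nat_lit 258) (nat_lit 200)) (XT.nd (nat_lit 78) (nat_lit 0) (nat_lit 0) (XT.lf (nat_lit 0) (nat_lit 4172409578) (nat_lit 228) (nat_lit 340273317) (nat_lit 304) (nat_lit 9076177586) (nat_lit 44) (nat_lit 5) (nat_lit 47) (nat_lit 5) (nat_lit 48) (nat_lit 5) (nat_lit 323) (nat_lit 258) (nat_lit 199)) (XT.lf (nat_lit 0) (nat_lit 7016252620) (nat_lit 304) (nat_lit 3868576825) (nat_lit 76) (nat_lit 2986362961) (nat_lit 44) (nat_lit 5) (nat_lit 48) (nat_lit 5) (nat_lit 45) (nat_lit 5) (nat_lit 324) (nat_lit 258) (nat_lit 198)))) (XT.nd (nat_lit 78) (nat_lit 76) (nat_lit 0) (XT.lf (nat_lit 0) (nat_lit 1835039598) (nat_lit 228) (nat_lit 7751101164) (nat_lit 304) (nat_lit 4576170281) (nat_lit 41) (nat_lit 5) (nat_lit 44) (nat_lit 5) (nat_lit 45)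 (nat_lit 5) (nat_lit 325) (nat_lit 258) (nat_lit 197)) (XT.nd (nat_lit 78) (nat_lit 76) (nat_lit 0) (XT.lf (nat_lit 0) (nat_lit 7746356353) (nat_lit 228) (nat_lit 4496494322) (nat_lit 304) (nat_lit 2219072359) (nat_lit 41) (nat_lit 5) (nat_lit 44) (nat_lit 5) (nat_lit 45) (nat_lit 5) (nat_lit 326) (nat_lit 258) (nat_lit 196)) (XT.lf (nat_lit 0) (nat_lit 175848800) (nat_lit 304) (nat_lit 979605599) (nat_lit 76) (nat_lit 13615921873) (nat_lit 40) (nat_lit 5) (nat_lit 44) (nat_lit 5) (nat_lit 41) (nat_lit 5) (nat_lit 327) (nat_lit 258) (nat_lit 195))))))))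
noncomputable def xc106 : XT := (XT.nd (nat_lit 1716) (nat_lit 760) (nat_lit 0) (XT.nd (nat_lit 858) (nat_lit 760) (nat_lit 0) (XT.nd (nat_lit 390) (nat_lit 456) (nat_lit 0) (XT.nd (nat_lit 156) (nat_lit 152) (nat_lit 0) (XT.nd (nat_lit 78) (nat_lit 0) (nat_lit 0) (XT.lf (nat_lit 0) (nat_lit 2640279903) (nat_lit 304) (nat_lit 10149012174) (nat_lit 76) (nat_lit 2298941170) (nat_lit 37) (nat_lit 5) (nat_lit 41) (nat_lit 5) (nat_lit 38) (nat_lit 5) (nat_lit 328) (nat_lit 258) (nat_lit 194)) (XT.lf (nat_lit 0) (nat_lit 5172398795) (nat_lit 304) (nat_lit 4411353801) (nat_lit 76) (nat_lit 5831076490) (nat_lit 37) (nat_lit 5) (nat_lit 41) (nat_lit 5) (nat_lit 38) (nat_lit 5) (nat_lit 329) (nat_lit 258) (nat_lit 193))) (XT.nd (nat_lit 78) (nat_lit 0) (nat_lit 0) (XT.lf (nat_lit 0) (nat_lit 1487450076) (nat_lit 152) (nat_lit 6280460211) (nat_lit 228) (nat_lit 7983734108) (nat_lit 35) (nat_lit 5) (nat_lit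 37) (nat_lit 5) (nat_lit 38) (nat_lit 5) (nat_lit 330) (nat_lit 258) (nat_lit 192)) (XT.nd (nat_lit 78) (nat_lit 0) (nat_lit 0) (XT.lf (nat_lit 0) (nat_lit 7614028994) (nat_lit 152) (nat_lit 2845336679) (nat_lit 228) (nat_lit 5638699305) (nat_lit 35) (nat_lit 5) (nat_lit 37) (nat_lit 5) (nat_lit 38) (nat_lit 5) (nat_lit 331) (nat_lit 258) (nat_lit 191)) (XT.lf (nat_lit 0) (nat_lit 13212405426) (nat_lit 228) (nat_lit 2576286588) (nat_lit 76) (nat_lit 666802856) (nat_lit 35) (nat_lit 5) (nat_lit 38) (nat_lit 5) (nat_lit 36) (nat_lit 5) (nat_lit 332) (nat_lit 258) (nat_lit 190))))) (XT.nd (nat_lit 234) (nat_lit 152) (nat_lit 0) (XT.nd (nat_lit 78) (nat_lit 76) (nat_lit 0) (XT.lf (nat_lit 0) (nat_lit 3511023061) (nat_lit 228) (nat_lit 12573867779) (nat_lit 304) (nat_lit 737691879) (nat_lit 32) (nat_lit 5) (nat_lit 35) (nat_lit 5) (nat_lit 36) (nat_lit 5) (nat_lit 333) (nat_lit 258) (nat_lit 189))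 (XT.nd (nat_lit 78) (nat_lit 0) (nat_lit 0) (XT.lf (nat_lit 0) (nat_lit 1808197375) (nat_lit 304) (nat_lit 7422287898) (nat_lit 76) (nat_lit 7969666122) (nat_lit 31) (nat_lit 5) (nat_lit 35) (nat_lit 5) (nat_lit 32) (nat_lit 5) (nat_lit 334) (nat_lit 258) (nat_lit 188)) (XT.lf (nat_lit 0) (nat_lit 4391381797) (nat_lit 304) (nat_lit 1400706094) (nat_lit 76) (nat_lit 11797505001) (nat_lit 31) (nat_lit 5) (nat_lit 35) (nat_lit 5) (nat_lit 32) (nat_lit 5) (nat_lit 335) (nat_lit 258) (nat_lit 187)))) (XT.nd (nat_lit 78) (nat_lit 0) (nat_lit 0) (XT.lf (nat_lit 0) (nat_lit 4860382033) (nat_lit 152) (nat_lit 2214852495) (nat_lit 228) (nat_lit 10914824079) (nat_lit 29) (nat_lit 5) (nat_lit 31) (nat_lit 5) (nat_lit 32) (nat_lit 5) (nat_lit 336) (nat_lit 258) (nat_lit 186)) (XT.nd (nat_lit 78) (nat_lit 0) (nat_lit 0) (XT.lf (nat_lit 0) (nat_lit 9844690633) (nat_lit 228) (nat_lit 7114609444) (nat_lit 76)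 (nat_lit 1443120684) (nat_lit 29) (nat_lit 5) (nat_lit 32) (nat_lit 5) (nat_lit 30) (nat_lit 5) (nat_lit 337) (nat_lit 258) (nat_lit 185)) (XT.lf (nat_lit 0) (nat_lit 12696514710) (nat_lit 228) (nat_lit 976207580) (nat_lit 76) (nat_lit 5154487041) (nat_lit 29) (nat_lit 5) (nat_lit 32) (nat_lit 5) (nat_lit 30) (nat_lit 5) (nat_lit 338) (nat_lit 258) (nat_lit 184)))))) (XT.nd (nat_lit 390) (nat_lit 380) (nat_lit 0) (XT.nd (nat_lit 156) (nat_lit 228) (nat_lit 0) (XT.nd (nat_lit 78) (nat_lit 0) (nat_lit 0) (XT.lf (nat_lit 0) (nat_lit 5417906048) (nat_lit 152) (nat_lit 10246082307) (nat_lit 228) (nat_lit 3599883445) (nat_lit 27) (nat_lit 5) (nat_lit 29) (nat_lit 5) (nat_lit 30) (nat_lit 5) (nat_lit 339) (nat_lit 258) (nat_lit 183)) (XT.lf (nat_lit 0) (nat_lit 11990026163) (nat_lit 152) (nat_lit 6718647619) (nat_lit 228) (nat_lit 1005346856) (nat_lit 27) (nat_lit 5) (nat_lit 29) (nat_lit 5) (nat_lit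 30) (nat_lit 5) (nat_lit 340) (nat_lit 258) (nat_lit 182))) (XT.nd (nat_lit 78) (nat_lit 152) (nat_lit 0) (XT.lf (nat_lit 0) (nat_lit 1613218228) (nat_lit 228) (nat_lit 1467685217) (nat_lit 76) (nat_lit 17096958380) (nat_lit 26) (nat_lit 5) (nat_lit 29) (nat_lit 5) (nat_lit 27) (nat_lit 5) (nat_lit 341) (nat_lit 258) (nat_lit 181)) (XT.nd (nat_lit 78) (nat_lit 0) (nat_lit 0) (XT.lf (nat_lit 0) (nat_lit 4324715545) (nat_lit 228) (nat_lit 15629155220) (nat_lit 76) (nat_lit 700440809) (nat_lit 24) (nat_lit 5) (nat_lit 27) (nat_lit 5) (nat_lit 25) (nat_lit 5) (nat_lit 342) (nat_lit 258) (nat_lit 180)) (XT.lf (nat_lit 0) (nat_lit 7142553129) (nat_lit 228) (nat_lit 9464929114) (nat_lit 76) (nat_lit 4536851253) (nat_lit 24) (nat_lit 5) (nat_lit 27) (nat_lit 5) (nat_lit 25) (nat_lit 5) (nat_lit 343) (nat_lit 258) (nat_lit 179))))) (XT.nd (nat_lit 234) (nat_lit 228) (nat_lit 0) (XT.nd (nat_lit 78) (nat_lit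 152) (nat_lit 0) (XT.lf (nat_lit 0) (nat_lit 10025046104) (nat_lit 228) (nat_lit 3147366000) (nat_lit 76) (nat_lit 8477268074) (nat_lit 24) (nat_lit 5) (nat_lit 27) (nat_lit 5) (nat_lit 25) (nat_lit 5) (nat_lit 344) (nat_lit 258) (nat_lit 178)) (XT.nd (nat_lit 78) (nat_lit 0) (nat_lit 0) (XT.lf (nat_lit 0) (nat_lit 3395309031) (nat_lit 152) (nat_lit 9612041908) (nat_lit 228) (nat_lit 9162463112) (nat_lit 22) (nat_lit 5) (nat_lit 24) (nat_lit 5) (nat_lit 25) (nat_lit 5) (nat_lit 345) (nat_lit 258) (nat_lit 177)) (XT.lf (nat_lit 0) (nat_lit 10168413230) (nat_lit 152) (nat_lit 5923463431) (nat_lit 228) (nat_lit 6613318846) (nat_lit 22) (nat_lit 5) (nat_lit 24) (nat_lit 5) (nat_lit 25) (nat_lit 5) (nat_lit 346) (nat_lit 258) (nat_lit 176)))) (XT.nd (nat_lit 78) (nat_lit 228) (nat_lit 0) (XT.lf (nat_lit 0) (nat_lit 17115226088) (nat_lit 152) (nat_lit 2135235868) (nat_lit 228) (nat_lit 4006756096)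 (nat_lit 22) (nat_lit 5) (nat_lit 24) (nat_lit 5) (nat_lit 25) (nat_lit 5) (nat_lit 347) (nat_lit 258) (nat_lit 175)) (XT.nd (nat_lit 78) (nat_lit 76) (nat_lit 0) (XT.lf (nat_lit 0) (nat_lit 406506737) (nat_lit 152) (nat_lit 22100146880) (nat_lit 228) (nat_lit 1319086809) (nat_lit 20) (nat_lit 5) (nat_lit 22) (nat_lit 5) (nat_lit 23) (nat_lit 4) (nat_lit 348) (nat_lit 258) (nat_lit 174)) (XT.lf (nat_lit 0) (nat_lit 1486718524) (nat_lit 228) (nat_lit 17196960191) (nat_lit 76) (nat_lit 5725271484) (nat_lit 19) (nat_lit 5) (nat_lit 22) (nat_lit 5) (nat_lit 20) (nat_lit 5) (nat_lit 349) (nat_lit 258) (nat_lit 173))))))) (XT.nd (nat_lit 858) (nat_lit 304) (nat_lit 0) (XT.nd (nat_lit 390) (nat_lit 304) (nat_lit 0) (XT.nd (nat_lit 156) (nat_lit 152) (nat_lit 0) (XT.nd (nat_lit 78) (nat_lit 0) (nat_lit 0) (XT.lf (nat_lit 0) (nat_lit 4332717935) (nat_lit 228) (nat_lit 10829410641) (nat_lit 76) (nat_lit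 9847682445) (nat_lit 19) (nat_lit 5) (nat_lit 22) (nat_lit 5) (nat_lit 20) (nat_lit 5) (nat_lit 350) (nat_lit 258) (nat_lit 172)) (XT.lf (nat_lit 0) (nat_lit 7247138351) (nat_lit 228) (nat_lit 4298341293) (nat_lit 76) (nat_lit 14083748666) (nat_lit 19) (nat_lit 5) (nat_lit 22) (nat_lit 5) (nat_lit 20) (nat_lit 5) (nat_lit 351) (nat_lit 258) (nat_lit 171))) (XT.nd (nat_lit 78) (nat_lit 0) (nat_lit 0) (XT.lf (nat_lit 0) (nat_lit 2449758219) (nat_lit 152) (nat_lit 7806316709) (nat_lit 228) (nat_lit 16010961920) (nat_lit 17) (nat_lit 5) (nat_lit 19) (nat_lit 5) (nat_lit 20) (nat_lit 5) (nat_lit 352) (nat_lit 258) (nat_lit 170)) (XT.nd (nat_lit 78) (nat_lit 0) (nat_lit 0) (XT.lf (nat_lit 0) (nat_lit 9461968795) (nat_lit 152) (nat_lit 3920475971) (nat_lit 228) (nat_lit 13540740540) (nat_lit 17) (nat_lit 5) (nat_lit 19) (nat_lit 5) (nat_lit 20) (nat_lit 5) (nat_lit 353) (nat_lit 258) (nat_lit 169))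 (XT.lf (nat_lit 0) (nat_lit 16587531473) (nat_lit 228) (nat_lit 10941331473) (nat_lit 76) (nat_lit 70627518) (nat_lit 17) (nat_lit 5) (nat_lit 20) (nat_lit 5) (nat_lit 18) (nat_lit 4) (nat_lit 354) (nat_lit 258) (nat_lit 168))))) (XT.nd (nat_lit 234) (nat_lit 228) (nat_lit 0) (XT.nd (nat_lit 78) (nat_lit 76) (nat_lit 0) (XT.lf (nat_lit 0) (nat_lit 19912187484) (nat_lit 228) (nat_lit 4289978406) (nat_lit 76) (nat_lit 4093235820) (nat_lit 17) (nat_lit 5) (nat_lit 20) (nat_lit 5) (nat_lit 18) (nat_lit 4) (nat_lit 355) (nat_lit 258) (nat_lit 167)) (XT.nd (nat_lit 78) (nat_lit 0) (nat_lit 0) (XT.lf (nat_lit 0) (nat_lit 2586818715) (nat_lit 76) (nat_lit 20759679195) (nat_lit 152) (nat_lit 5665413810) (nat_lit 16) (nat_lit 5) (nat_lit 17) (nat_lit 5) (nat_lit 18) (nat_lit 4) (nat_lit 356) (nat_lit 258) (nat_lit 166)) (XT.lf (nat_lit 0) (nat_lit 9733526343) (nat_lit 76) (nat_lit 17178881893) (nat_lit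 152) (nat_lit 2836669996) (nat_lit 16) (nat_lit 5) (nat_lit 17) (nat_lit 5) (nat_lit 18) (nat_lit 4) (nat_lit 357) (nat_lit 258) (nat_lit 165)))) (XT.nd (nat_lit 78) (nat_lit 152) (nat_lit 0) (XT.lf (nat_lit 0) (nat_lit 60955429) (nat_lit 152) (nat_lit 13438394543) (nat_lit 76) (nat_lit 17009439232) (nat_lit 15) (nat_lit 5) (nat_lit 17) (nat_lit 5) (nat_lit 16) (nat_lit 5) (nat_lit 358) (nat_lit 258) (nat_lit 164)) (XT.nd (nat_lit 78) (nat_lit 152) (nat_lit 0) (XT.lf (nat_lit 0) (nat_lit 2974437689) (nat_lit 152) (nat_lit 6715241759) (nat_lit 76) (nat_lit 21601207975) (nat_lit 15) (nat_lit 5) (nat_lit 17) (nat_lit 5) (nat_lit 16) (nat_lit 5) (nat_lit 359) (nat_lit 258) (nat_lit 163)) (XT.lf (nat_lit 0) (nat_lit 190771506) (nat_lit 152) (nat_lit 5772738498) (nat_lit 228) (nat_lit 26133309295) (nat_lit 13) (nat_lit 5) (nat_lit 15) (nat_lit 5) (nat_lit 16) (nat_lit 5) (nat_lit 360) (nat_lit 258)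 (nat_lit 162)))))) (XT.nd (nat_lit 468) (nat_lit 228) (nat_lit 0) (XT.nd (nat_lit 234) (nat_lit 76) (nat_lit 0) (XT.nd (nat_lit 78) (nat_lit 0) (nat_lit 0) (XT.lf (nat_lit 0) (nat_lit 7419285447) (nat_lit 152) (nat_lit 1677314410) (nat_lit 228) (nat_lit 23828714715) (nat_lit 13) (nat_lit 5) (nat_lit 15) (nat_lit 5) (nat_lit 16) (nat_lit 5) (nat_lit 361) (nat_lit 258) (nat_lit 161)) (XT.nd (nat_lit 78) (nat_lit 0) (nat_lit 0) (XT.lf (nat_lit 0) (nat_lit 12334951796) (nat_lit 228) (nat_lit 18960445079) (nat_lit 76) (nat_lit 2482945090) (nat_lit 13) (nat_lit 5) (nat_lit 16) (nat_lit 5) (nat_lit 14) (nat_lit 4) (nat_lit 362) (nat_lit 258) (nat_lit 160)) (XT.lf (nat_lit 0) (nat_lit 15674288557) (nat_lit 228) (nat_lit 12256469323) (nat_lit 76) (nat_lit 6726102166) (nat_lit 13) (nat_lit 5) (nat_lit 16) (nat_lit 5) (nat_lit 14) (nat_lit 4) (nat_lit 363) (nat_lit 258) (nat_lit 159)))) (XT.nd (nat_lit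 78) (nat_lit 76) (nat_lit 0) (XT.lf (nat_lit 0) (nat_lit 19101404636) (nat_lit 228) (nat_lit 5372120641) (nat_lit 76) (nat_lit 11088594877) (nat_lit 13) (nat_lit 5) (nat_lit 16) (nat_lit 5) (nat_lit 14) (nat_lit 4) (nat_lit 364) (nat_lit 258) (nat_lit 158)) (XT.nd (nat_lit 78) (nat_lit 0) (nat_lit 0) (XT.lf (nat_lit 0) (nat_lit 1732422212) (nat_lit 76) (nat_lit 20903525492) (nat_lit 152) (nat_lit 13858465999) (nat_lit 12) (nat_lit 5) (nat_lit 13) (nat_lit 5) (nat_lit 14) (nat_lit 4) (nat_lit 365) (nat_lit 258) (nat_lit 157)) (XT.lf (nat_lit 0) (nat_lit 9140279944) (nat_lit 76) (nat_lit 17178614355) (nat_lit 152) (nat_lit 11134524371) (nat_lit 12) (nat_lit 5) (nat_lit 13) (nat_lit 5) (nat_lit 14) (nat_lit 4) (nat_lit 366) (nat_lit 258) (nat_lit 156))))) (XT.nd (nat_lit 234) (nat_lit 228) (nat_lit 0) (XT.nd (nat_lit 78) (nat_lit 0) (nat_lit 0) (XT.lf (nat_lit 0) (nat_lit 16751009705) (nat_lit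 76) (nat_lit 13349784977) (nat_lit 152) (nat_lit 8340758378) (nat_lit 12) (nat_lit 5) (nat_lit 13) (nat_lit 5) (nat_lit 14) (nat_lit 4) (nat_lit 367) (nat_lit 258) (nat_lit 155)) (XT.nd (nat_lit 78) (nat_lit 0) (nat_lit 0) (XT.lf (nat_lit 0) (nat_lit 24571261647) (nat_lit 76) (nat_lit 9413691779) (nat_lit 152) (nat_lit 5474726864) (nat_lit 12) (nat_lit 5) (nat_lit 13) (nat_lit 5) (nat_lit 14) (nat_lit 4) (nat_lit 368) (nat_lit 258) (nat_lit 154)) (XT.lf (nat_lit 0) (nat_lit 32607869001) (nat_lit 76) (nat_lit 5366895454) (nat_lit 152) (nat_lit 2533925530) (nat_lit 12) (nat_lit 5) (nat_lit 13) (nat_lit 5) (nat_lit 14) (nat_lit 4) (nat_lit 369) (nat_lit 258) (nat_lit 153)))) (XT.nd (nat_lit 78) (nat_lit 152) (nat_lit 0) (XT.lf (nat_lit 0) (nat_lit 474766472) (nat_lit 152) (nat_lit 726299286) (nat_lit 76) (nat_lit 40388293362) (nat_lit 11) (nat_lit 5) (nat_lit 13) (nat_lit 5) (nat_lit 12) (nat_lit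 5) (nat_lit 370) (nat_lit 258) (nat_lit 152)) (XT.nd (nat_lit 78) (nat_lit 0) (nat_lit 0) (XT.lf (nat_lit 0) (nat_lit 3607863415) (nat_lit 228) (nat_lit 35977876766) (nat_lit 76) (nat_lit 3113414705) (nat_lit 9) (nat_lit 5) (nat_lit 12) (nat_lit 5) (nat_lit 10) (nat_lit 4) (nat_lit 371) (nat_lit 258) (nat_lit 151)) (XT.lf (nat_lit 0) (nat_lit 6843958893) (nat_lit 228) (nat_lit 29464319113) (nat_lit 76) (nat_lit 7533707435) (nat_lit 9) (nat_lit 5) (nat_lit 12) (nat_lit 5) (nat_lit 10) (nat_lit 4) (nat_lit 372) (nat_lit 258) (nat_lit 150))))))))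
noncomputable def xc107 : XT := (XT.nd (nat_lit 1794) (nat_lit 0) (nat_lit 0) (XT.nd (nat_lit 858) (nat_lit 228) (nat_lit 0) (XT.nd (nat_lit 390) (nat_lit 0) (nat_lit 0) (XT.nd (nat_lit 156) (nat_lit 76) (nat_lit 0) (XT.nd (nat_lit 78) (nat_lit 0) (nat_lit 0) (XT.lf (nat_lit 0) (nat_lit 10167144100) (nat_lit 228) (nat_lit 22772346508) (nat_lit 76) (nat_lit 12079920859) (nat_lit 9) (nat_lit 5) (nat_lit 12) (nat_lit 5) (nat_lit 10) (nat_lit 4) (nat_lit 373) (nat_lit 258) (nat_lit 149)) (XT.lf (nat_lit 0) (nat_lit 13580322791) (nat_lit 228) (nat_lit 15896111596) (nat_lit 76) (nat_lit 16756027396) (nat_lit 9) (nat_lit 5) (nat_lit 12) (nat_lit 5) (nat_lit 10) (nat_lit 4) (nat_lit 374) (nat_lit 258) (nat_lit 148))) (XT.nd (nat_lit 78) (nat_lit 76) (nat_lit 0) (XT.lf (nat_lit 0) (nat_lit 17086477355) (nat_lit 228) (nat_lit 8829606017) (nat_lit 76) (nat_lit 21566112964) (nat_lit 9) (nat_lit 5) (nat_lit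 12) (nat_lit 5) (nat_lit 10) (nat_lit 4) (nat_lit 375) (nat_lit 258) (nat_lit 147)) (XT.nd (nat_lit 78) (nat_lit 76) (nat_lit 0) (XT.lf (nat_lit 0) (nat_lit 20688671422) (nat_lit 228) (nat_lit 1566655154) (nat_lit 76) (nat_lit 26514380552) (nat_lit 9) (nat_lit 5) (nat_lit 12) (nat_lit 5) (nat_lit 10) (nat_lit 4) (nat_lit 376) (nat_lit 258) (nat_lit 146)) (XT.lf (nat_lit 0) (nat_lit 6016490663) (nat_lit 76) (nat_lit 18431396065) (nat_lit 152) (nat_lit 25646497413) (nat_lit 8) (nat_lit 5) (nat_lit 9) (nat_lit 5) (nat_lit 10) (nat_lit 4) (nat_lit 377) (nat_lit 258) (nat_lit 145))))) (XT.nd (nat_lit 234) (nat_lit 0) (nat_lit 0) (XT.nd (nat_lit 78) (nat_lit 0) (nat_lit 0) (XT.lf (nat_lit 0) (nat_lit 13844296786) (nat_lit 76) (nat_lit 14482637989) (nat_lit 152) (nat_lit 23131664284) (nat_lit 8) (nat_lit 5) (nat_lit 9) (nat_lit 5) (nat_lit 10) (nat_lit 4) (nat_lit 378) (nat_lit 258) (nat_lit 144))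 (XT.nd (nat_lit 78) (nat_lit 0) (nat_lit 0) (XT.lf (nat_lit 0) (nat_lit 21892423534) (nat_lit 76) (nat_lit 10421422123) (nat_lit 152) (nat_lit 20550159037) (nat_lit 8) (nat_lit 5) (nat_lit 9) (nat_lit 5) (nat_lit 10) (nat_lit 4) (nat_lit 379) (nat_lit 258) (nat_lit 143)) (XT.lf (nat_lit 0) (nat_lit 30167903251) (nat_lit 76) (nat_lit 6244199831) (nat_lit 152) (nat_lit 17899725989) (nat_lit 8) (nat_lit 5) (nat_lit 9) (nat_lit 5) (nat_lit 10) (nat_lit 4) (nat_lit 380) (nat_lit 258) (nat_lit 142)))) (XT.nd (nat_lit 78) (nat_lit 0) (nat_lit 0) (XT.lf (nat_lit 0) (nat_lit 38677966940) (nat_lit 76) (nat_lit 1947321113) (nat_lit 152) (nat_lit 15178049227) (nat_lit 8) (nat_lit 5) (nat_lit 9) (nat_lit 5) (nat_lit 10) (nat_lit 4) (nat_lit 381) (nat_lit 258) (nat_lit 141)) (XT.nd (nat_lit 78) (nat_lit 0) (nat_lit 0) (XT.lf (nat_lit 0) (nat_lit 44980853680) (nat_lit 152) (nat_lit 9933553690) (nat_lit 0)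 (nat_lit 2424712059) (nat_lit 8) (nat_lit 5) (nat_lit 10) (nat_lit 4) (nat_lit 8) (nat_lit 4) (nat_lit 382) (nat_lit 258) (nat_lit 140)) (XT.lf (nat_lit 0) (nat_lit 49478755610) (nat_lit 152) (nat_lit 2558341568) (nat_lit 0) (nat_lit 6883535791) (nat_lit 8) (nat_lit 5) (nat_lit 10) (nat_lit 4) (nat_lit 8) (nat_lit 4) (nat_lit 383) (nat_lit 258) (nat_lit 139)))))) (XT.nd (nat_lit 468) (nat_lit 76) (nat_lit 0) (XT.nd (nat_lit 234) (nat_lit 0) (nat_lit 0) (XT.nd (nat_lit 78) (nat_lit 76) (nat_lit 0) (XT.lf (nat_lit 0) (nat_lit 5125445119) (nat_lit 76) (nat_lit 49028029001) (nat_lit 76) (nat_lit 6394869184) (nat_lit 7) (nat_lit 4) (nat_lit 8) (nat_lit 5) (nat_lit 8) (nat_lit 4) (nat_lit 384) (nat_lit 258) (nat_lit 138)) (XT.nd (nat_lit 78) (nat_lit 76) (nat_lit 0) (XT.lf (nat_lit 0) (nat_lit 13079615697) (nat_lit 76) (nat_lit 45907357695) (nat_lit 76) (nat_lit 3237362928) (nat_lit 7) (nat_lit 4)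 (nat_lit 8) (nat_lit 5) (nat_lit 8) (nat_lit 4) (nat_lit 385) (nat_lit 258) (nat_lit 137)) (XT.lf (nat_lit 0) (nat_lit 7418517) (nat_lit 152) (nat_lit 42690697264) (nat_lit 76) (nat_lit 21252710968) (nat_lit 6) (nat_lit 5) (nat_lit 8) (nat_lit 5) (nat_lit 7) (nat_lit 4) (nat_lit 386) (nat_lit 258) (nat_lit 136)))) (XT.nd (nat_lit 78) (nat_lit 0) (nat_lit 0) (XT.lf (nat_lit 0) (nat_lit 3277524296) (nat_lit 152) (nat_lit 36087103005) (nat_lit 76) (nat_lit 26363738443) (nat_lit 6) (nat_lit 5) (nat_lit 8) (nat_lit 5) (nat_lit 7) (nat_lit 4) (nat_lit 387) (nat_lit 258) (nat_lit 135)) (XT.nd (nat_lit 78) (nat_lit 0) (nat_lit 0) (XT.lf (nat_lit 0) (nat_lit 6638984394) (nat_lit 152) (nat_lit 29297048203) (nat_lit 76) (nat_lit 31623407483) (nat_lit 6) (nat_lit 5) (nat_lit 8) (nat_lit 5) (nat_lit 7) (nat_lit 4) (nat_lit 388) (nat_lit 258) (nat_lit 134)) (XT.lf (nat_lit 0) (nat_lit 10094736009) (nat_lit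 152) (nat_lit 22314599800) (nat_lit 76) (nat_lit 37036313917) (nat_lit 6) (nat_lit 5) (nat_lit 8) (nat_lit 5) (nat_lit 7) (nat_lit 4) (nat_lit 389) (nat_lit 258) (nat_lit 133))))) (XT.nd (nat_lit 234) (nat_lit 76) (nat_lit 0) (XT.nd (nat_lit 78) (nat_lit 0) (nat_lit 0) (XT.lf (nat_lit 0) (nat_lit 13647798731) (nat_lit 152) (nat_lit 15133656627) (nat_lit 76) (nat_lit 42607187467) (nat_lit 6) (nat_lit 5) (nat_lit 8) (nat_lit 5) (nat_lit 7) (nat_lit 4) (nat_lit 390) (nat_lit 258) (nat_lit 132)) (XT.nd (nat_lit 78) (nat_lit 0) (nat_lit 0) (XT.lf (nat_lit 0) (nat_lit 17301277175) (nat_lit 152) (nat_lit 7747944075) (nat_lit 76) (nat_lit 48340895888) (nat_lit 6) (nat_lit 5) (nat_lit 8) (nat_lit 5) (nat_lit 7) (nat_lit 4) (nat_lit 391) (nat_lit 258) (nat_lit 131)) (XT.lf (nat_lit 0) (nat_lit 21058363704) (nat_lit 152) (nat_lit 151008607) (nat_lit 76) (nat_lit 54242449216) (nat_lit 6) (nat_lit 5) (nat_lit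 8) (nat_lit 5) (nat_lit 7) (nat_lit 4) (nat_lit 392) (nat_lit 258) (nat_lit 130)))) (XT.nd (nat_lit 78) (nat_lit 0) (nat_lit 0) (XT.lf (nat_lit 0) (nat_lit 7816312279) (nat_lit 76) (nat_lit 17181164102) (nat_lit 152) (nat_lit 52575827044) (nat_lit 5) (nat_lit 5) (nat_lit 6) (nat_lit 5) (nat_lit 7) (nat_lit 4) (nat_lit 393) (nat_lit 258) (nat_lit 129)) (XT.nd (nat_lit 78) (nat_lit 0) (nat_lit 0) (XT.lf (nat_lit 0) (nat_lit 16015799772) (nat_lit 76) (nat_lit 13034739868) (nat_lit 152) (nat_lit 50708022440) (nat_lit 5) (nat_lit 5) (nat_lit 6) (nat_lit 5) (nat_lit 7) (nat_lit 4) (nat_lit 394) (nat_lit 258) (nat_lit 128)) (XT.lf (nat_lit 0) (nat_lit 24451613103) (nat_lit 76) (nat_lit 8768001410) (nat_lit 152) (nat_lit 48789936842) (nat_lit 5) (nat_lit 5) (nat_lit 6) (nat_lit 5) (nat_lit 7) (nat_lit 4) (nat_lit 395) (nat_lit 258) (nat_lit 127))))))) (XT.nd (nat_lit 30888) (nat_lit 0) (nat_lit 13984)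 (XT.nd (nat_lit 30420) (nat_lit 0) (nat_lit 17708) (XT.nd (nat_lit 30186) (nat_lit 0) (nat_lit 18544) (XT.nd (nat_lit 78) (nat_lit 0) (nat_lit 0) (XT.lf (nat_lit 0) (nat_lit 33131123373) (nat_lit 76) (nat_lit 4377220511) (nat_lit 152) (nat_lit 46819894252) (nat_lit 5) (nat_lit 5) (nat_lit 6) (nat_lit 5) (nat_lit 7) (nat_lit 4) (nat_lit 396) (nat_lit 258) (nat_lit 126)) (XT.lf (nat_lit 0) (nat_lit 41921834786) (nat_lit 152) (nat_lit 44656093441) (nat_lit 0) (nat_lit 138679442) (nat_lit 5) (nat_lit 5) (nat_lit 7) (nat_lit 4) (nat_lit 5) (nat_lit 4) (nat_lit 397) (nat_lit 258) (nat_lit 125))) (XT.nd (nat_lit 78) (nat_lit 152) (nat_lit 0) (XT.lf (nat_lit 0) (nat_lit 1406394695) (nat_lit 76) (nat_lit 410459631) (nat_lit 0) (nat_lit 1406394695) (nat_lit 251) (nat_lit 5) (nat_lit 252) (nat_lit 0) (nat_lit 251) (nat_lit 4) (nat_lit 262) (nat_lit 259) (nat_lit 259)) (XT.nd (nat_lit 78) (nat_lit 76) (nat_lit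 0) (XT.lf (nat_lit 0) (nat_lit 2085317884) (nat_lit 76) (nat_lit 3483224312) (nat_lit 76) (nat_lit 884139569) (nat_lit 250) (nat_lit 4) (nat_lit 251) (nat_lit 5) (nat_lit 251) (nat_lit 4) (nat_lit 263) (nat_lit 259) (nat_lit 258)) (XT.lf (nat_lit 0) (nat_lit 1813241699) (nat_lit 152) (nat_lit 1441587338) (nat_lit 76) (nat_lit 3207062120) (nat_lit 249) (nat_lit 5) (nat_lit 251) (nat_lit 5) (nat_lit 250) (nat_lit 4) (nat_lit 264) (nat_lit 259) (nat_lit 257))))) (XT.nd (nat_lit 234) (nat_lit 380) (nat_lit 0) (XT.nd (nat_lit 78) (nat_lit 304) (nat_lit 0) (XT.lf (nat_lit 0) (nat_lit 1535354798) (nat_lit 152) (nat_lit 2951201572) (nat_lit 228) (nat_lit 1987661729) (nat_lit 247) (nat_lit 5) (nat_lit 249) (nat_lit 5) (nat_lit 250) (nat_lit 4) (nat_lit 265) (nat_lit 259) (nat_lit 256)) (XT.nd (nat_lit 78) (nat_lit 228) (nat_lit 0) (XT.lf (nat_lit 0) (nat_lit 652153968) (nat_lit 228) (nat_lit 1922422676)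 (nat_lit 76) (nat_lit 3915169538) (nat_lit 246) (nat_lit 5) (nat_lit 249) (nat_lit 5) (nat_lit 247) (nat_lit 5) (nat_lit 266) (nat_lit 259) (nat_lit 255)) (XT.lf (nat_lit 0) (nat_lit 1128882294) (nat_lit 228) (nat_lit 2115119028) (nat_lit 304) (nat_lit 3264210772) (nat_lit 243) (nat_lit 5) (nat_lit 246) (nat_lit 5) (nat_lit 247) (nat_lit 5) (nat_lit 267) (nat_lit 259) (nat_lit 254)))) (XT.nd (nat_lit 78) (nat_lit 380) (nat_lit 0) (XT.lf (nat_lit 0) (nat_lit 4253724988) (nat_lit 228) (nat_lit 1583531908) (nat_lit 304) (nat_lit 692698511) (nat_lit 243) (nat_lit 5) (nat_lit 246) (nat_lit 5) (nat_lit 247) (nat_lit 5) (nat_lit 268) (nat_lit 259) (nat_lit 253)) (XT.nd (nat_lit 78) (nat_lit 0) (nat_lit 0) (XT.lf (nat_lit 0) (nat_lit 859918095) (nat_lit 304) (nat_lit 971835799) (nat_lit 380) (nat_lit 4723022343) (nat_lit 238) (nat_lit 5) (nat_lit 242) (nat_lit 5) (nat_lit 243) (nat_lit 5) (nat_lit 269)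 (nat_lit 259) (nat_lit 252)) (XT.lf (nat_lit 0) (nat_lit 4072363436) (nat_lit 304) (nat_lit 276463062) (nat_lit 380) (nat_lit 2233781431) (nat_lit 238) (nat_lit 5) (nat_lit 242) (nat_lit 5) (nat_lit 243) (nat_lit 5) (nat_lit 270) (nat_lit 259) (nat_lit 251)))))) (XT.nd (nat_lit 468) (nat_lit 2204) (nat_lit 0) (XT.nd (nat_lit 234) (nat_lit 608) (nat_lit 0) (XT.nd (nat_lit 78) (nat_lit 456) (nat_lit 0) (XT.lf (nat_lit 0) (nat_lit 244596648) (nat_lit 456) (nat_lit 5895825396) (nat_lit 76) (nat_lit 473503776) (nat_lit 232) (nat_lit 5) (nat_lit 238) (nat_lit 5) (nat_lit 233) (nat_lit 5) (nat_lit 271) (nat_lit 259) (nat_lit 250)) (XT.nd (nat_lit 78) (nat_lit 456) (nat_lit 0) (XT.lf (nat_lit 0) (nat_lit 2692466932) (nat_lit 456) (nat_lit 2636485060) (nat_lit 76) (nat_lit 1318729265) (nat_lit 232) (nat_lit 5) (nat_lit 238) (nat_lit 5) (nat_lit 233) (nat_lit 5) (nat_lit 272) (nat_lit 259) (nat_lit 249))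 (XT.lf (nat_lit 0) (nat_lit 674862119) (nat_lit 456) (nat_lit 4459671088) (nat_lit 532) (nat_lit 1550645427) (nat_lit 226) (nat_lit 5) (nat_lit 232) (nat_lit 5) (nat_lit 233) (nat_lit 5) (nat_lit 273) (nat_lit 259) (nat_lit 248)))) (XT.nd (nat_lit 78) (nat_lit 532) (nat_lit 0) (XT.lf (nat_lit 0) (nat_lit 849920489) (nat_lit 532) (nat_lit 2652959769) (nat_lit 76) (nat_lit 3222727562) (nat_lit 225) (nat_lit 5) (nat_lit 232) (nat_lit 5) (nat_lit 226) (nat_lit 5) (nat_lit 274) (nat_lit 259) (nat_lit 247)) (XT.nd (nat_lit 78) (nat_lit 0) (nat_lit 0) (XT.lf (nat_lit 0) (nat_lit 745687501) (nat_lit 532) (nat_lit 2470335705) (nat_lit 608) (nat_lit 3553347699) (nat_lit 218) (nat_lit 5) (nat_lit 225) (nat_lit 5) (nat_lit 226) (nat_lit 5) (nat_lit 275) (nat_lit 259) (nat_lit 246)) (XT.lf (nat_lit 0) (nat_lit 4242623751) (nat_lit 532) (nat_lit 1356637537) (nat_lit 608) (nat_lit 1217113841) (nat_lit 218)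 (nat_lit 5) (nat_lit 225) (nat_lit 5) (nat_lit 226) (nat_lit 5) (nat_lit 276) (nat_lit 259) (nat_lit 245))))) (XT.nd (nat_lit 234) (nat_lit 836) (nat_lit 0) (XT.nd (nat_lit 78) (nat_lit 684) (nat_lit 0) (XT.lf (nat_lit 0) (nat_lit 928121267) (nat_lit 608) (nat_lit 167440062) (nat_lit 684) (nat_lit 5771293265) (nat_lit 209) (nat_lit 5) (nat_lit 217) (nat_lit 5) (nat_lit 218) (nat_lit 5) (nat_lit 277) (nat_lit 259) (nat_lit 244)) (XT.nd (nat_lit 78) (nat_lit 684) (nat_lit 0) (XT.lf (nat_lit 0) (nat_lit 3412153021) (nat_lit 684) (nat_lit 2413203989) (nat_lit 76) (nat_lit 1094646212) (nat_lit 209) (nat_lit 5) (nat_lit 218) (nat_lit 5) (nat_lit 210) (nat_lit 5) (nat_lit 278) (nat_lit 259) (nat_lit 243)) (XT.lf (nat_lit 0) (nat_lit 1180763621) (nat_lit 684) (nat_lit 4555328814) (nat_lit 760) (nat_lit 1240796307) (nat_lit 200) (nat_lit 5) (nat_lit 209) (nat_lit 5) (nat_lit 210) (nat_lit 5) (nat_lit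 279) (nat_lit 259) (nat_lit 242)))) (XT.nd (nat_lit 78) (nat_lit 760) (nat_lit 0) (XT.lf (nat_lit 0) (nat_lit 1023005571) (nat_lit 760) (nat_lit 2173371471) (nat_lit 76) (nat_lit 3840547513) (nat_lit 199) (nat_lit 5) (nat_lit 209) (nat_lit 5) (nat_lit 200) (nat_lit 5) (nat_lit 280) (nat_lit 259) (nat_lit 241)) (XT.nd (nat_lit 78) (nat_lit 0) (nat_lit 0) (XT.lf (nat_lit 0) (nat_lit 1517250562) (nat_lit 760) (nat_lit 1754767000) (nat_lit 836) (nat_lit 3828362628) (nat_lit 189) (nat_lit 5) (nat_lit 199) (nat_lit 5) (nat_lit 200) (nat_lit 5) (nat_lit 281) (nat_lit 259) (nat_lit 240)) (XT.lf (nat_lit 0) (nat_lit 5305577068) (nat_lit 760) (nat_lit 234073649) (nat_lit 836) (nat_lit 1627801192) (nat_lit 189) (nat_lit 5) (nat_lit 199) (nat_lit 5) (nat_lit 200) (nat_lit 5) (nat_lit 282) (nat_lit 259) (nat_lit 239))))))))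
noncomputable def xc108 : XT := (XT.nd (nat_lit 1716) (nat_lit 3192) (nat_lit 0) (XT.nd (nat_lit 858) (nat_lit 2888) (nat_lit 0) (XT.nd (nat_lit 390) (nat_lit 2280) (nat_lit 0) (XT.nd (nat_lit 156) (nat_lit 1976) (nat_lit 0) (XT.nd (nat_lit 78) (nat_lit 0) (nat_lit 0) (XT.lf (nat_lit 0) (nat_lit 588531328) (nat_lit 912) (nat_lit 5305952554) (nat_lit 76) (nat_lit 1343233879) (nat_lit 177) (nat_lit 5) (nat_lit 189) (nat_lit 5) (nat_lit 178) (nat_lit 5) (nat_lit 283) (nat_lit 259) (nat_lit 238)) (XT.lf (nat_lit 0) (nat_lit 2791881189) (nat_lit 912) (nat_lit 1510090569) (nat_lit 76) (nat_lit 3009264972) (nat_lit 177) (nat_lit 5) (nat_lit 189) (nat_lit 5) (nat_lit 178) (nat_lit 5) (nat_lit 284) (nat_lit 259) (nat_lit 237))) (XT.nd (nat_lit 78) (nat_lit 1064) (nat_lit 0) (XT.lf (nat_lit 0) (nat_lit 2388663034) (nat_lit 912) (nat_lit 2629551706) (nat_lit 988) (nat_lit 2370259433) (nat_lit 165) (nat_lit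 5) (nat_lit 177) (nat_lit 5) (nat_lit 178) (nat_lit 5) (nat_lit 285) (nat_lit 259) (nat_lit 236)) (XT.nd (nat_lit 78) (nat_lit 1064) (nat_lit 0) (XT.lf (nat_lit 0) (nat_lit 6378303625) (nat_lit 912) (nat_lit 883581918) (nat_lit 988) (nat_lit 207839792) (nat_lit 165) (nat_lit 5) (nat_lit 177) (nat_lit 5) (nat_lit 178) (nat_lit 5) (nat_lit 286) (nat_lit 259) (nat_lit 235)) (XT.lf (nat_lit 0) (nat_lit 1953751372) (nat_lit 1064) (nat_lit 4648580343) (nat_lit 76) (nat_lit 951489560) (nat_lit 151) (nat_lit 5) (nat_lit 165) (nat_lit 5) (nat_lit 152) (nat_lit 5) (nat_lit 287) (nat_lit 259) (nat_lit 234))))) (XT.nd (nat_lit 234) (nat_lit 1140) (nat_lit 0) (XT.nd (nat_lit 78) (nat_lit 1140) (nat_lit 0) (XT.lf (nat_lit 0) (nat_lit 4133620456) (nat_lit 1064) (nat_lit 665251221) (nat_lit 76) (nat_lit 2842973391) (nat_lit 151) (nat_lit 5) (nat_lit 165) (nat_lit 5) (nat_lit 152) (nat_lit 5) (nat_lit 288) (nat_lit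 259) (nat_lit 233)) (XT.nd (nat_lit 78) (nat_lit 76) (nat_lit 0) (XT.lf (nat_lit 0) (nat_lit 3448161874) (nat_lit 1064) (nat_lit 2903412183) (nat_lit 1140) (nat_lit 1381944124) (nat_lit 137) (nat_lit 5) (nat_lit 151) (nat_lit 5) (nat_lit 152) (nat_lit 5) (nat_lit 289) (nat_lit 259) (nat_lit 232)) (XT.lf (nat_lit 0) (nat_lit 739136731) (nat_lit 1140) (nat_lit 194478920) (nat_lit 76) (nat_lit 6895867740) (nat_lit 136) (nat_lit 5) (nat_lit 151) (nat_lit 5) (nat_lit 137) (nat_lit 5) (nat_lit 290) (nat_lit 259) (nat_lit 231)))) (XT.nd (nat_lit 78) (nat_lit 532) (nat_lit 0) (XT.lf (nat_lit 0) (nat_lit 2887611137) (nat_lit 684) (nat_lit 3911543170) (nat_lit 76) (nat_lit 1129189867) (nat_lit 128) (nat_lit 5) (nat_lit 137) (nat_lit 5) (nat_lit 129) (nat_lit 5) (nat_lit 291) (nat_lit 259) (nat_lit 230)) (XT.nd (nat_lit 78) (nat_lit 0) (nat_lit 0) (XT.lf (nat_lit 0) (nat_lit 267048056) (nat_lit 532) (nat_lit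 4790213018) (nat_lit 608) (nat_lit 2974376219) (nat_lit 121) (nat_lit 5) (nat_lit 128) (nat_lit 5) (nat_lit 129) (nat_lit 5) (nat_lit 292) (nat_lit 259) (nat_lit 229)) (XT.lf (nat_lit 0) (nat_lit 4594546603) (nat_lit 532) (nat_lit 2680997993) (nat_lit 608) (nat_lit 863141542) (nat_lit 121) (nat_lit 5) (nat_lit 128) (nat_lit 5) (nat_lit 129) (nat_lit 5) (nat_lit 293) (nat_lit 259) (nat_lit 228)))))) (XT.nd (nat_lit 390) (nat_lit 1292) (nat_lit 0) (XT.nd (nat_lit 156) (nat_lit 988) (nat_lit 0) (XT.nd (nat_lit 78) (nat_lit 0) (nat_lit 0) (XT.lf (nat_lit 0) (nat_lit 748694552) (nat_lit 532) (nat_lit 489323448) (nat_lit 608) (nat_lit 7012138789) (nat_lit 113) (nat_lit 5) (nat_lit 120) (nat_lit 5) (nat_lit 121) (nat_lit 5) (nat_lit 294) (nat_lit 259) (nat_lit 227)) (XT.lf (nat_lit 0) (nat_lit 3384035564) (nat_lit 608) (nat_lit 3204261784) (nat_lit 76) (nat_lit 1776592089) (nat_lit 113) (nat_lit 5)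 (nat_lit 121) (nat_lit 5) (nat_lit 114) (nat_lit 5) (nat_lit 295) (nat_lit 259) (nat_lit 226))) (XT.nd (nat_lit 78) (nat_lit 532) (nat_lit 0) (XT.lf (nat_lit 0) (nat_lit 1184361278) (nat_lit 456) (nat_lit 4373906089) (nat_lit 532) (nat_lit 2926026735) (nat_lit 107) (nat_lit 5) (nat_lit 113) (nat_lit 5) (nat_lit 114) (nat_lit 5) (nat_lit 296) (nat_lit 259) (nat_lit 225)) (XT.nd (nat_lit 78) (nat_lit 532) (nat_lit 0) (XT.lf (nat_lit 0) (nat_lit 5715114148) (nat_lit 456) (nat_lit 2063568212) (nat_lit 532) (nat_lit 829310686) (nat_lit 107) (nat_lit 5) (nat_lit 113) (nat_lit 5) (nat_lit 114) (nat_lit 5) (nat_lit 297) (nat_lit 259) (nat_lit 224)) (XT.lf (nat_lit 0) (nat_lit 1272572903) (nat_lit 532) (nat_lit 7129203517) (nat_lit 76) (nat_lit 334328894) (nat_lit 100) (nat_lit 5) (nat_lit 107) (nat_lit 5) (nat_lit 101) (nat_lit 5) (nat_lit 298) (nat_lit 259) (nat_lit 223))))) (XT.nd (nat_lit 234) (nat_lit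 912) (nat_lit 0) (XT.nd (nat_lit 78) (nat_lit 380) (nat_lit 0) (XT.lf (nat_lit 0) (nat_lit 3421152369) (nat_lit 532) (nat_lit 2650917593) (nat_lit 76) (nat_lit 2795864304) (nat_lit 100) (nat_lit 5) (nat_lit 107) (nat_lit 5) (nat_lit 101) (nat_lit 5) (nat_lit 299) (nat_lit 259) (nat_lit 222)) (XT.nd (nat_lit 78) (nat_lit 0) (nat_lit 0) (XT.lf (nat_lit 0) (nat_lit 1945527256) (nat_lit 380) (nat_lit 3659183644) (nat_lit 456) (nat_lit 3400016655) (nat_lit 95) (nat_lit 5) (nat_lit 100) (nat_lit 5) (nat_lit 101) (nat_lit 5) (nat_lit 300) (nat_lit 259) (nat_lit 221)) (XT.lf (nat_lit 0) (nat_lit 6680583688) (nat_lit 380) (nat_lit 1152669496) (nat_lit 456) (nat_lit 1313108628) (nat_lit 95) (nat_lit 5) (nat_lit 100) (nat_lit 5) (nat_lit 101) (nat_lit 5) (nat_lit 301) (nat_lit 259) (nat_lit 220)))) (XT.nd (nat_lit 78) (nat_lit 380) (nat_lit 0) (XT.lf (nat_lit 0) (nat_lit 809178085) (nat_lit 532) (nat_lit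 7058655521) (nat_lit 76) (nat_lit 1424612010) (nat_lit 88) (nat_lit 5) (nat_lit 95) (nat_lit 5) (nat_lit 89) (nat_lit 5) (nat_lit 302) (nat_lit 259) (nat_lit 219)) (XT.nd (nat_lit 78) (nat_lit 380) (nat_lit 0) (XT.lf (nat_lit 0) (nat_lit 2959596716) (nat_lit 532) (nat_lit 2395927427) (nat_lit 76) (nat_lit 4087383264) (nat_lit 88) (nat_lit 5) (nat_lit 95) (nat_lit 5) (nat_lit 89) (nat_lit 5) (nat_lit 303) (nat_lit 259) (nat_lit 218)) (XT.lf (nat_lit 0) (nat_lit 2401115858) (nat_lit 380) (nat_lit 2752121074) (nat_lit 456) (nat_lit 4445392778) (nat_lit 83) (nat_lit 5) (nat_lit 88) (nat_lit 5) (nat_lit 89) (nat_lit 5) (nat_lit 304) (nat_lit 259) (nat_lit 217))))))) (XT.nd (nat_lit 858) (nat_lit 1368) (nat_lit 0) (XT.nd (nat_lit 390) (nat_lit 1064) (nat_lit 0) (XT.nd (nat_lit 156) (nat_lit 380) (nat_lit 0) (XT.nd (nat_lit 78) (nat_lit 380) (nat_lit 0) (XT.lf (nat_lit 0) (nat_lit 7339277467) (nat_lit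 380) (nat_lit 54024515) (nat_lit 456) (nat_lit 2366408020) (nat_lit 83) (nat_lit 5) (nat_lit 88) (nat_lit 5) (nat_lit 89) (nat_lit 5) (nat_lit 305) (nat_lit 259) (nat_lit 216)) (XT.lf (nat_lit 0) (nat_lit 2470282249) (nat_lit 380) (nat_lit 7237840117) (nat_lit 456) (nat_lit 217375471) (nat_lit 78) (nat_lit 5) (nat_lit 83) (nat_lit 5) (nat_lit 84) (nat_lit 5) (nat_lit 306) (nat_lit 259) (nat_lit 215))) (XT.nd (nat_lit 78) (nat_lit 304) (nat_lit 0) (XT.lf (nat_lit 0) (nat_lit 1940241344) (nat_lit 456) (nat_lit 2610272631) (nat_lit 76) (nat_lit 5545773638) (nat_lit 77) (nat_lit 5) (nat_lit 83) (nat_lit 5) (nat_lit 78) (nat_lit 5) (nat_lit 307) (nat_lit 259) (nat_lit 214)) (XT.nd (nat_lit 78) (nat_lit 0) (nat_lit 0) (XT.lf (nat_lit 0) (nat_lit 2373584884) (nat_lit 304) (nat_lit 1766523296) (nat_lit 380) (nat_lit 6132664721) (nat_lit 73) (nat_lit 5) (nat_lit 77) (nat_lit 5) (nat_lit 78) (nat_lit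 5) (nat_lit 308) (nat_lit 259) (nat_lit 213)) (XT.lf (nat_lit 0) (nat_lit 6402863549) (nat_lit 380) (nat_lit 2955444606) (nat_lit 76) (nat_lit 1096428209) (nat_lit 73) (nat_lit 5) (nat_lit 78) (nat_lit 5) (nat_lit 74) (nat_lit 5) (nat_lit 309) (nat_lit 259) (nat_lit 212))))) (XT.nd (nat_lit 234) (nat_lit 304) (nat_lit 0) (XT.nd (nat_lit 78) (nat_lit 380) (nat_lit 0) (XT.lf (nat_lit 0) (nat_lit 2110493988) (nat_lit 380) (nat_lit 6621648921) (nat_lit 456) (nat_lit 1910144339) (nat_lit 68) (nat_lit 5) (nat_lit 73) (nat_lit 5) (nat_lit 74) (nat_lit 5) (nat_lit 310) (nat_lit 259) (nat_lit 211)) (XT.nd (nat_lit 78) (nat_lit 304) (nat_lit 0) (XT.lf (nat_lit 0) (nat_lit 281267837) (nat_lit 456) (nat_lit 3498893517) (nat_lit 76) (nat_lit 7055564571) (nat_lit 67) (nat_lit 5) (nat_lit 73) (nat_lit 5) (nat_lit 68) (nat_lit 5) (nat_lit 311) (nat_lit 259) (nat_lit 210)) (XT.lf (nat_lit 0) (nat_lit 1649551731)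 (nat_lit 304) (nat_lit 828534158) (nat_lit 380) (nat_lit 8557053149) (nat_lit 63) (nat_lit 5) (nat_lit 67) (nat_lit 5) (nat_lit 68) (nat_lit 5) (nat_lit 312) (nat_lit 259) (nat_lit 209)))) (XT.nd (nat_lit 78) (nat_lit 304) (nat_lit 0) (XT.lf (nat_lit 0) (nat_lit 4760479753) (nat_lit 380) (nat_lit 4286236482) (nat_lit 76) (nat_lit 2193306144) (nat_lit 63) (nat_lit 5) (nat_lit 68) (nat_lit 5) (nat_lit 64) (nat_lit 5) (nat_lit 313) (nat_lit 259) (nat_lit 208)) (XT.nd (nat_lit 78) (nat_lit 0) (nat_lit 0) (XT.lf (nat_lit 0) (nat_lit 928112429) (nat_lit 304) (nat_lit 6164173263) (nat_lit 380) (nat_lit 4359414020) (nat_lit 59) (nat_lit 5) (nat_lit 63) (nat_lit 5) (nat_lit 64) (nat_lit 5) (nat_lit 314) (nat_lit 259) (nat_lit 207)) (XT.lf (nat_lit 0) (nat_lit 6339335019) (nat_lit 304) (nat_lit 3162406832) (nat_lit 380) (nat_lit 2167828130) (nat_lit 59) (nat_lit 5) (nat_lit 63) (nat_lit 5) (nat_lit 64)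 (nat_lit 5) (nat_lit 315) (nat_lit 259) (nat_lit 206)))))) (XT.nd (nat_lit 468) (nat_lit 532) (nat_lit 0) (XT.nd (nat_lit 234) (nat_lit 532) (nat_lit 0) (XT.nd (nat_lit 78) (nat_lit 228) (nat_lit 0) (XT.lf (nat_lit 0) (nat_lit 52796678) (nat_lit 380) (nat_lit 28746801) (nat_lit 76) (nat_lit 11813525206) (nat_lit 58) (nat_lit 5) (nat_lit 63) (nat_lit 5) (nat_lit 59) (nat_lit 5) (nat_lit 316) (nat_lit 259) (nat_lit 205)) (XT.nd (nat_lit 78) (nat_lit 0) (nat_lit 0) (XT.lf (nat_lit 0) (nat_lit 2345464639) (nat_lit 304) (nat_lit 6684885713) (nat_lit 76) (nat_lit 3094935479) (nat_lit 55) (nat_lit 5) (nat_lit 59) (nat_lit 5) (nat_lit 56) (nat_lit 5) (nat_lit 317) (nat_lit 259) (nat_lit 204)) (XT.lf (nat_lit 0) (nat_lit 4674513934) (nat_lit 304) (nat_lit 1334951252) (nat_lit 76) (nat_lit 6353981568) (nat_lit 55) (nat_lit 5) (nat_lit 59) (nat_lit 5) (nat_lit 56) (nat_lit 5) (nat_lit 318) (nat_lit 259)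 (nat_lit 203)))) (XT.nd (nat_lit 78) (nat_lit 228) (nat_lit 0) (XT.lf (nat_lit 0) (nat_lit 4213081044) (nat_lit 304) (nat_lit 2868328854) (nat_lit 380) (nat_lit 5527166748) (nat_lit 51) (nat_lit 5) (nat_lit 55) (nat_lit 5) (nat_lit 56) (nat_lit 5) (nat_lit 319) (nat_lit 259) (nat_lit 202)) (XT.nd (nat_lit 78) (nat_lit 228) (nat_lit 0) (XT.lf (nat_lit 0) (nat_lit 9545536929) (nat_lit 380) (nat_lit 2954477976) (nat_lit 76) (nat_lit 361556357) (nat_lit 51) (nat_lit 5) (nat_lit 56) (nat_lit 5) (nat_lit 52) (nat_lit 5) (nat_lit 320) (nat_lit 259) (nat_lit 201)) (XT.lf (nat_lit 0) (nat_lit 2628903506) (nat_lit 228) (nat_lit 9477171760) (nat_lit 304) (nat_lit 1015465583) (nat_lit 48) (nat_lit 5) (nat_lit 51) (nat_lit 5) (nat_lit 52) (nat_lit 5) (nat_lit 321) (nat_lit 259) (nat_lit 200))))) (XT.nd (nat_lit 234) (nat_lit 228) (nat_lit 0) (XT.nd (nat_lit 78) (nat_lit 228) (nat_lit 0) (XT.lf (nat_lit 0)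 (nat_lit 1326774744) (nat_lit 304) (nat_lit 5005388162) (nat_lit 76) (nat_lit 7056840099) (nat_lit 47) (nat_lit 5) (nat_lit 51) (nat_lit 5) (nat_lit 48) (nat_lit 5) (nat_lit 322) (nat_lit 259) (nat_lit 199)) (XT.nd (nat_lit 78) (nat_lit 0) (nat_lit 0) (XT.lf (nat_lit 0) (nat_lit 605509980) (nat_lit 228) (nat_lit 3089035851) (nat_lit 304) (nat_lit 9970426058) (nat_lit 44) (nat_lit 5) (nat_lit 47) (nat_lit 5) (nat_lit 48) (nat_lit 5) (nat_lit 323) (nat_lit 259) (nat_lit 198)) (XT.lf (nat_lit 0) (nat_lit 6157014325) (nat_lit 304) (nat_lit 7506412859) (nat_lit 76) (nat_lit 285135821) (nat_lit 44) (nat_lit 5) (nat_lit 48) (nat_lit 5) (nat_lit 45) (nat_lit 5) (nat_lit 324) (nat_lit 259) (nat_lit 197)))) (XT.nd (nat_lit 78) (nat_lit 228) (nat_lit 0) (XT.lf (nat_lit 0) (nat_lit 8695012029) (nat_lit 304) (nat_lit 1859233615) (nat_lit 76) (nat_lit 3686418104) (nat_lit 44) (nat_lit 5) (nat_lit 48) (nat_lit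 5) (nat_lit 45) (nat_lit 5) (nat_lit 325) (nat_lit 259) (nat_lit 196)) (XT.nd (nat_lit 78) (nat_lit 0) (nat_lit 0) (XT.lf (nat_lit 0) (nat_lit 3994654041) (nat_lit 228) (nat_lit 7324807925) (nat_lit 304) (nat_lit 3221806226) (nat_lit 41) (nat_lit 5) (nat_lit 44) (nat_lit 5) (nat_lit 45) (nat_lit 5) (nat_lit 326) (nat_lit 259) (nat_lit 195)) (XT.lf (nat_lit 0) (nat_lit 10022012339) (nat_lit 228) (nat_lit 3991751993) (nat_lit 304) (nat_lit 837441459) (nat_lit 41) (nat_lit 5) (nat_lit 44) (nat_lit 5) (nat_lit 45) (nat_lit 5) (nat_lit 327) (nat_lit 259) (nat_lit 194))))))))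
noncomputable def xc109 : XT := (XT.nd (nat_lit 1716) (nat_lit 836) (nat_lit 0) (XT.nd (nat_lit 858) (nat_lit 684) (nat_lit 0) (XT.nd (nat_lit 390) (nat_lit 456) (nat_lit 0) (XT.nd (nat_lit 156) (nat_lit 152) (nat_lit 0) (XT.nd (nat_lit 78) (nat_lit 0) (nat_lit 0) (XT.lf (nat_lit 0) (nat_lit 1024511952) (nat_lit 228) (nat_lit 545046385) (nat_lit 304) (nat_lit 13600981675) (nat_lit 37) (nat_lit 5) (nat_lit 40) (nat_lit 5) (nat_lit 41) (nat_lit 5) (nat_lit 328) (nat_lit 259) (nat_lit 193)) (XT.lf (nat_lit 0) (nat_lit 4083201828) (nat_lit 304) (nat_lit 8422839607) (nat_lit 76) (nat_lit 2991670582) (nat_lit 37) (nat_lit 5) (nat_lit 41) (nat_lit 5) (nat_lit 38) (nat_lit 5) (nat_lit 329) (nat_lit 259) (nat_lit 192))) (XT.nd (nat_lit 78) (nat_lit 152) (nat_lit 0) (XT.lf (nat_lit 0) (nat_lit 6651564475) (nat_lit 304) (nat_lit 2572196422) (nat_lit 76) (nat_lit 6611602161) (nat_lit 37) (nat_lit 5) (nat_lit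 41) (nat_lit 5) (nat_lit 38) (nat_lit 5) (nat_lit 330) (nat_lit 259) (nat_lit 191)) (XT.nd (nat_lit 78) (nat_lit 0) (nat_lit 0) (XT.lf (nat_lit 0) (nat_lit 3484243160) (nat_lit 152) (nat_lit 5820900677) (nat_lit 228) (nat_lit 6877796733) (nat_lit 35) (nat_lit 5) (nat_lit 37) (nat_lit 5) (nat_lit 38) (nat_lit 5) (nat_lit 331) (nat_lit 259) (nat_lit 190)) (XT.lf (nat_lit 0) (nat_lit 9737760137) (nat_lit 152) (nat_lit 2301596448) (nat_lit 228) (nat_lit 4501598732) (nat_lit 35) (nat_lit 5) (nat_lit 37) (nat_lit 5) (nat_lit 38) (nat_lit 5) (nat_lit 332) (nat_lit 259) (nat_lit 189))))) (XT.nd (nat_lit 234) (nat_lit 152) (nat_lit 0) (XT.nd (nat_lit 78) (nat_lit 304) (nat_lit 0) (XT.lf (nat_lit 0) (nat_lit 14843978793) (nat_lit 228) (nat_lit 780454229) (nat_lit 76) (nat_lit 1285665502) (nat_lit 35) (nat_lit 5) (nat_lit 38) (nat_lit 5) (nat_lit 36) (nat_lit 5) (nat_lit 333) (nat_lit 259) (nat_lit 188))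 (XT.nd (nat_lit 78) (nat_lit 0) (nat_lit 0) (XT.lf (nat_lit 0) (nat_lit 486016570) (nat_lit 304) (nat_lit 11822455931) (nat_lit 76) (nat_lit 4980186394) (nat_lit 31) (nat_lit 5) (nat_lit 35) (nat_lit 5) (nat_lit 32) (nat_lit 5) (nat_lit 334) (nat_lit 259) (nat_lit 187)) (XT.lf (nat_lit 0) (nat_lit 3057600898) (nat_lit 304) (nat_lit 5818600576) (nat_lit 76) (nat_lit 8802264732) (nat_lit 31) (nat_lit 5) (nat_lit 35) (nat_lit 5) (nat_lit 32) (nat_lit 5) (nat_lit 335) (nat_lit 259) (nat_lit 186)))) (XT.nd (nat_lit 78) (nat_lit 0) (nat_lit 0) (XT.lf (nat_lit 0) (nat_lit 337010129) (nat_lit 152) (nat_lit 5349699856) (nat_lit 228) (nat_lit 12393881537) (nat_lit 29) (nat_lit 5) (nat_lit 31) (nat_lit 5) (nat_lit 32) (nat_lit 5) (nat_lit 336) (nat_lit 259) (nat_lit 185)) (XT.nd (nat_lit 78) (nat_lit 0) (nat_lit 0) (XT.lf (nat_lit 0) (nat_lit 6761970686) (nat_lit 152) (nat_lit 1668949148) (nat_lit 228)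 (nat_lit 10062808017) (nat_lit 29) (nat_lit 5) (nat_lit 31) (nat_lit 5) (nat_lit 32) (nat_lit 5) (nat_lit 337) (nat_lit 259) (nat_lit 184)) (XT.lf (nat_lit 0) (nat_lit 11255870714) (nat_lit 228) (nat_lit 5594141480) (nat_lit 76) (nat_lit 2069326721) (nat_lit 29) (nat_lit 5) (nat_lit 32) (nat_lit 5) (nat_lit 30) (nat_lit 5) (nat_lit 338) (nat_lit 259) (nat_lit 183)))))) (XT.nd (nat_lit 390) (nat_lit 304) (nat_lit 0) (XT.nd (nat_lit 156) (nat_lit 228) (nat_lit 0) (XT.nd (nat_lit 78) (nat_lit 0) (nat_lit 0) (XT.lf (nat_lit 0) (nat_lit 691402060) (nat_lit 152) (nat_lit 13475993457) (nat_lit 228) (nat_lit 5190300157) (nat_lit 27) (nat_lit 5) (nat_lit 29) (nat_lit 5) (nat_lit 30) (nat_lit 5) (nat_lit 339) (nat_lit 259) (nat_lit 182)) (XT.lf (nat_lit 0) (nat_lit 7247343391) (nat_lit 152) (nat_lit 9954373497) (nat_lit 228) (nat_lit 2606453911) (nat_lit 27) (nat_lit 5) (nat_lit 29) (nat_lit 5) (nat_lit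 30) (nat_lit 5) (nat_lit 340) (nat_lit 259) (nat_lit 181))) (XT.nd (nat_lit 78) (nat_lit 152) (nat_lit 0) (XT.lf (nat_lit 0) (nat_lit 33178096) (nat_lit 228) (nat_lit 6305051899) (nat_lit 76) (nat_lit 13934563489) (nat_lit 26) (nat_lit 5) (nat_lit 29) (nat_lit 5) (nat_lit 27) (nat_lit 5) (nat_lit 341) (nat_lit 259) (nat_lit 180)) (XT.nd (nat_lit 78) (nat_lit 0) (nat_lit 0) (XT.lf (nat_lit 0) (nat_lit 82821222) (nat_lit 152) (nat_lit 2597530343) (nat_lit 228) (nat_lit 18070835443) (nat_lit 24) (nat_lit 5) (nat_lit 26) (nat_lit 5) (nat_lit 27) (nat_lit 5) (nat_lit 342) (nat_lit 259) (nat_lit 179)) (XT.lf (nat_lit 0) (nat_lit 5463427125) (nat_lit 228) (nat_lit 14494732095) (nat_lit 76) (nat_lit 1284106221) (nat_lit 24) (nat_lit 5) (nat_lit 27) (nat_lit 5) (nat_lit 25) (nat_lit 5) (nat_lit 343) (nat_lit 259) (nat_lit 178))))) (XT.nd (nat_lit 234) (nat_lit 152) (nat_lit 0) (XT.nd (nat_lit 78) (nat_lit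 152) (nat_lit 0) (XT.lf (nat_lit 0) (nat_lit 8336412358) (nat_lit 228) (nat_lit 8192277200) (nat_lit 76) (nat_lit 5219221050) (nat_lit 24) (nat_lit 5) (nat_lit 27) (nat_lit 5) (nat_lit 25) (nat_lit 5) (nat_lit 344) (nat_lit 259) (nat_lit 177)) (XT.nd (nat_lit 78) (nat_lit 152) (nat_lit 0) (XT.lf (nat_lit 0) (nat_lit 11276848589) (nat_lit 228) (nat_lit 1730525051) (nat_lit 76) (nat_lit 9261939766) (nat_lit 24) (nat_lit 5) (nat_lit 27) (nat_lit 5) (nat_lit 25) (nat_lit 5) (nat_lit 345) (nat_lit 259) (nat_lit 176)) (XT.lf (nat_lit 0) (nat_lit 4993613938) (nat_lit 152) (nat_lit 9341692865) (nat_lit 228) (nat_lit 8470182576) (nat_lit 22) (nat_lit 5) (nat_lit 24) (nat_lit 5) (nat_lit 25) (nat_lit 5) (nat_lit 346) (nat_lit 259) (nat_lit 175)))) (XT.nd (nat_lit 78) (nat_lit 152) (nat_lit 0) (XT.lf (nat_lit 0) (nat_lit 11926325468) (nat_lit 152) (nat_lit 5558730148) (nat_lit 228) (nat_lit 5872733529)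 (nat_lit 22) (nat_lit 5) (nat_lit 24) (nat_lit 5) (nat_lit 25) (nat_lit 5) (nat_lit 347) (nat_lit 259) (nat_lit 174)) (XT.nd (nat_lit 78) (nat_lit 152) (nat_lit 0) (XT.lf (nat_lit 0) (nat_lit 19039226405) (nat_lit 152) (nat_lit 1672654900) (nat_lit 228) (nat_lit 3215322970) (nat_lit 22) (nat_lit 5) (nat_lit 24) (nat_lit 5) (nat_lit 25) (nat_lit 5) (nat_lit 348) (nat_lit 259) (nat_lit 173)) (XT.lf (nat_lit 0) (nat_lit 1837862332) (nat_lit 152) (nat_lit 22220708322) (nat_lit 228) (nat_lit 454462645) (nat_lit 20) (nat_lit 5) (nat_lit 22) (nat_lit 5) (nat_lit 23) (nat_lit 4) (nat_lit 349) (nat_lit 259) (nat_lit 172))))))) (XT.nd (nat_lit 858) (nat_lit 456) (nat_lit 0) (XT.nd (nat_lit 390) (nat_lit 152) (nat_lit 0) (XT.nd (nat_lit 156) (nat_lit 152) (nat_lit 0) (XT.nd (nat_lit 78) (nat_lit 0) (nat_lit 0) (XT.lf (nat_lit 0) (nat_lit 2392050792) (nat_lit 228) (nat_lit 16316802937) (nat_lit 76) (nat_lit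 6405432848) (nat_lit 19) (nat_lit 5) (nat_lit 22) (nat_lit 5) (nat_lit 20) (nat_lit 5) (nat_lit 350) (nat_lit 259) (nat_lit 171)) (XT.lf (nat_lit 0) (nat_lit 5298360358) (nat_lit 228) (nat_lit 9798889019) (nat_lit 76) (nat_lit 10636708277) (nat_lit 19) (nat_lit 5) (nat_lit 22) (nat_lit 5) (nat_lit 20) (nat_lit 5) (nat_lit 351) (nat_lit 259) (nat_lit 170))) (XT.nd (nat_lit 78) (nat_lit 152) (nat_lit 0) (XT.lf (nat_lit 0) (nat_lit 8275873749) (nat_lit 228) (nat_lit 3111365375) (nat_lit 76) (nat_lit 14985479921) (nat_lit 19) (nat_lit 5) (nat_lit 22) (nat_lit 5) (nat_lit 20) (nat_lit 5) (nat_lit 352) (nat_lit 259) (nat_lit 169)) (XT.nd (nat_lit 78) (nat_lit 0) (nat_lit 0) (XT.lf (nat_lit 0) (nat_lit 3826275885) (nat_lit 152) (nat_lit 7537697295) (nat_lit 228) (nat_lit 15666052296) (nat_lit 17) (nat_lit 5) (nat_lit 19) (nat_lit 5) (nat_lit 20) (nat_lit 5) (nat_lit 353) (nat_lit 259) (nat_lit 168))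 (XT.lf (nat_lit 0) (nat_lit 11010900597) (nat_lit 152) (nat_lit 3549926256) (nat_lit 228) (nat_lit 13145760347) (nat_lit 17) (nat_lit 5) (nat_lit 19) (nat_lit 5) (nat_lit 20) (nat_lit 5) (nat_lit 354) (nat_lit 259) (nat_lit 167))))) (XT.nd (nat_lit 234) (nat_lit 76) (nat_lit 0) (XT.nd (nat_lit 78) (nat_lit 76) (nat_lit 0) (XT.lf (nat_lit 0) (nat_lit 17843993605) (nat_lit 228) (nat_lit 10022315230) (nat_lit 76) (nat_lit 537443583) (nat_lit 17) (nat_lit 5) (nat_lit 20) (nat_lit 5) (nat_lit 18) (nat_lit 4) (nat_lit 355) (nat_lit 259) (nat_lit 166)) (XT.nd (nat_lit 78) (nat_lit 76) (nat_lit 0) (XT.lf (nat_lit 0) (nat_lit 21246287271) (nat_lit 228) (nat_lit 3207749421) (nat_lit 76) (nat_lit 4667195263) (nat_lit 17) (nat_lit 5) (nat_lit 20) (nat_lit 5) (nat_lit 18) (nat_lit 4) (nat_lit 356) (nat_lit 259) (nat_lit 165)) (XT.lf (nat_lit 0) (nat_lit 3863479768) (nat_lit 76) (nat_lit 20910215031) (nat_lit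 152) (nat_lit 5085867515) (nat_lit 16) (nat_lit 5) (nat_lit 17) (nat_lit 5) (nat_lit 18) (nat_lit 4) (nat_lit 357) (nat_lit 259) (nat_lit 164)))) (XT.nd (nat_lit 78) (nat_lit 76) (nat_lit 0) (XT.lf (nat_lit 0) (nat_lit 11189664649) (nat_lit 76) (nat_lit 17235748796) (nat_lit 152) (nat_lit 2194091738) (nat_lit 16) (nat_lit 5) (nat_lit 17) (nat_lit 5) (nat_lit 18) (nat_lit 4) (nat_lit 358) (nat_lit 259) (nat_lit 163)) (XT.nd (nat_lit 78) (nat_lit 0) (nat_lit 0) (XT.lf (nat_lit 0) (nat_lit 755481890) (nat_lit 152) (nat_lit 12696708494) (nat_lit 76) (nat_lit 17950255464) (nat_lit 15) (nat_lit 5) (nat_lit 17) (nat_lit 5) (nat_lit 16) (nat_lit 5) (nat_lit 359) (nat_lit 259) (nat_lit 162)) (XT.lf (nat_lit 0) (nat_lit 3736192954) (nat_lit 152) (nat_lit 5805205919) (nat_lit 76) (nat_lit 22667237472) (nat_lit 15) (nat_lit 5) (nat_lit 17) (nat_lit 5) (nat_lit 16) (nat_lit 5) (nat_lit 360) (nat_lit 259)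 (nat_lit 161)))))) (XT.nd (nat_lit 468) (nat_lit 228) (nat_lit 0) (XT.nd (nat_lit 234) (nat_lit 76) (nat_lit 0) (XT.nd (nat_lit 78) (nat_lit 0) (nat_lit 0) (XT.lf (nat_lit 0) (nat_lit 1297090753) (nat_lit 152) (nat_lit 5508838265) (nat_lit 228) (nat_lit 26233110772) (nat_lit 13) (nat_lit 5) (nat_lit 15) (nat_lit 5) (nat_lit 16) (nat_lit 5) (nat_lit 361) (nat_lit 259) (nat_lit 160)) (XT.nd (nat_lit 78) (nat_lit 0) (nat_lit 0) (XT.lf (nat_lit 0) (nat_lit 8710403915) (nat_lit 152) (nat_lit 1303282010) (nat_lit 228) (nat_lit 23879306446) (nat_lit 13) (nat_lit 5) (nat_lit 15) (nat_lit 5) (nat_lit 16) (nat_lit 5) (nat_lit 362) (nat_lit 259) (nat_lit 159)) (XT.lf (nat_lit 0) (nat_lit 13334385982) (nat_lit 228) (nat_lit 18476304631) (nat_lit 76) (nat_lit 2961386064) (nat_lit 13) (nat_lit 5) (nat_lit 16) (nat_lit 5) (nat_lit 14) (nat_lit 4) (nat_lit 363) (nat_lit 259) (nat_lit 158)))) (XT.nd (nat_lit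 78) (nat_lit 76) (nat_lit 0) (XT.lf (nat_lit 0) (nat_lit 16755571226) (nat_lit 228) (nat_lit 11601878159) (nat_lit 76) (nat_lit 7320072242) (nat_lit 13) (nat_lit 5) (nat_lit 16) (nat_lit 5) (nat_lit 14) (nat_lit 4) (nat_lit 364) (nat_lit 259) (nat_lit 157)) (XT.nd (nat_lit 78) (nat_lit 76) (nat_lit 0) (XT.lf (nat_lit 0) (nat_lit 20267703098) (nat_lit 228) (nat_lit 4540774316) (nat_lit 76) (nat_lit 11802016812) (nat_lit 13) (nat_lit 5) (nat_lit 16) (nat_lit 5) (nat_lit 14) (nat_lit 4) (nat_lit 365) (nat_lit 259) (nat_lit 156)) (XT.lf (nat_lit 0) (nat_lit 2767174333) (nat_lit 76) (nat_lit 21133275891) (nat_lit 152) (nat_lit 13670561473) (nat_lit 12) (nat_lit 5) (nat_lit 13) (nat_lit 5) (nat_lit 14) (nat_lit 4) (nat_lit 366) (nat_lit 259) (nat_lit 155))))) (XT.nd (nat_lit 234) (nat_lit 228) (nat_lit 0) (XT.nd (nat_lit 78) (nat_lit 0) (nat_lit 0) (XT.lf (nat_lit 0) (nat_lit 10368643152) (nat_lit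 76) (nat_lit 17308190878) (nat_lit 152) (nat_lit 10882483883) (nat_lit 12) (nat_lit 5) (nat_lit 13) (nat_lit 5) (nat_lit 14) (nat_lit 4) (nat_lit 367) (nat_lit 259) (nat_lit 154)) (XT.nd (nat_lit 78) (nat_lit 0) (nat_lit 0) (XT.lf (nat_lit 0) (nat_lit 18179903890) (nat_lit 76) (nat_lit 13375732985) (nat_lit 152) (nat_lit 8021975091) (nat_lit 12) (nat_lit 5) (nat_lit 13) (nat_lit 5) (nat_lit 14) (nat_lit 4) (nat_lit 368) (nat_lit 259) (nat_lit 153)) (XT.lf (nat_lit 0) (nat_lit 26207781918) (nat_lit 76) (nat_lit 9332466083) (nat_lit 152) (nat_lit 5086535623) (nat_lit 12) (nat_lit 5) (nat_lit 13) (nat_lit 5) (nat_lit 14) (nat_lit 4) (nat_lit 369) (nat_lit 259) (nat_lit 152)))) (XT.nd (nat_lit 78) (nat_lit 228) (nat_lit 0) (XT.lf (nat_lit 0) (nat_lit 34459291888) (nat_lit 76) (nat_lit 5174857222) (nat_lit 152) (nat_lit 2073600532) (nat_lit 12) (nat_lit 5) (nat_lit 13) (nat_lit 5) (nat_lit 14) (nat_lit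 4) (nat_lit 370) (nat_lit 259) (nat_lit 151)) (XT.nd (nat_lit 78) (nat_lit 0) (nat_lit 0) (XT.lf (nat_lit 0) (nat_lit 112586572) (nat_lit 152) (nat_lit 888065129) (nat_lit 228) (nat_lit 41820476393) (nat_lit 9) (nat_lit 5) (nat_lit 11) (nat_lit 5) (nat_lit 12) (nat_lit 5) (nat_lit 371) (nat_lit 259) (nat_lit 150)) (XT.lf (nat_lit 0) (nat_lit 4223287828) (nat_lit 228) (nat_lit 36194817578) (nat_lit 76) (nat_lit 3546262324) (nat_lit 9) (nat_lit 5) (nat_lit 12) (nat_lit 5) (nat_lit 10) (nat_lit 4) (nat_lit 372) (nat_lit 259) (nat_lit 149))))))))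
noncomputable def xc110 : XT := (XT.nd (nat_lit 1716) (nat_lit 0) (nat_lit 0) (XT.nd (nat_lit 858) (nat_lit 228) (nat_lit 0) (XT.nd (nat_lit 390) (nat_lit 76) (nat_lit 0) (XT.nd (nat_lit 156) (nat_lit 0) (nat_lit 0) (XT.nd (nat_lit 78) (nat_lit 0) (nat_lit 0) (XT.lf (nat_lit 0) (nat_lit 7541693689) (nat_lit 228) (nat_lit 29510971510) (nat_lit 76) (nat_lit 8089277083) (nat_lit 9) (nat_lit 5) (nat_lit 12) (nat_lit 5) (nat_lit 10) (nat_lit 4) (nat_lit 373) (nat_lit 259) (nat_lit 148)) (XT.lf (nat_lit 0) (nat_lit 10950232238) (nat_lit 228) (nat_lit 22642626441) (nat_lit 76) (nat_lit 12762278120) (nat_lit 9) (nat_lit 5) (nat_lit 12) (nat_lit 5) (nat_lit 10) (nat_lit 4) (nat_lit 374) (nat_lit 259) (nat_lit 147))) (XT.nd (nat_lit 78) (nat_lit 0) (nat_lit 0) (XT.lf (nat_lit 0) (nat_lit 14451881810) (nat_lit 228) (nat_lit 15583780903) (nat_lit 76) (nat_lit 17569348641) (nat_lit 9) (nat_lit 5) (nat_lit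 12) (nat_lit 5) (nat_lit 10) (nat_lit 4) (nat_lit 375) (nat_lit 259) (nat_lit 146)) (XT.nd (nat_lit 78) (nat_lit 0) (nat_lit 0) (XT.lf (nat_lit 0) (nat_lit 18049702098) (nat_lit 228) (nat_lit 8328266973) (nat_lit 76) (nat_lit 22514688997) (nat_lit 9) (nat_lit 5) (nat_lit 12) (nat_lit 5) (nat_lit 10) (nat_lit 4) (nat_lit 376) (nat_lit 259) (nat_lit 145)) (XT.lf (nat_lit 0) (nat_lit 21746836828) (nat_lit 228) (nat_lit 869744882) (nat_lit 76) (nat_lit 27602620361) (nat_lit 9) (nat_lit 5) (nat_lit 12) (nat_lit 5) (nat_lit 10) (nat_lit 4) (nat_lit 377) (nat_lit 259) (nat_lit 144))))) (XT.nd (nat_lit 234) (nat_lit 0) (nat_lit 0) (XT.nd (nat_lit 78) (nat_lit 0) (nat_lit 0) (XT.lf (nat_lit 0) (nat_lit 6933602075) (nat_lit 76) (nat_lit 18679564457) (nat_lit 152) (nat_lit 25970636446) (nat_lit 8) (nat_lit 5) (nat_lit 9) (nat_lit 5) (nat_lit 10) (nat_lit 4) (nat_lit 378) (nat_lit 259) (nat_lit 143)) (XT.nd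 (nat_lit 78) (nat_lit 0) (nat_lit 0) (XT.lf (nat_lit 0) (nat_lit 14974787526) (nat_lit 76) (nat_lit 14621220537) (nat_lit 152) (nat_lit 23393326942) (nat_lit 8) (nat_lit 5) (nat_lit 9) (nat_lit 5) (nat_lit 10) (nat_lit 4) (nat_lit 379) (nat_lit 259) (nat_lit 142)) (XT.lf (nat_lit 0) (nat_lit 23243528120) (nat_lit 76) (nat_lit 10446786542) (nat_lit 152) (nat_lit 20746967429) (nat_lit 8) (nat_lit 5) (nat_lit 9) (nat_lit 5) (nat_lit 10) (nat_lit 4) (nat_lit 380) (nat_lit 259) (nat_lit 141)))) (XT.nd (nat_lit 78) (nat_lit 0) (nat_lit 0) (XT.lf (nat_lit 0) (nat_lit 31747048970) (nat_lit 76) (nat_lit 6152614909) (nat_lit 152) (nat_lit 18029245556) (nat_lit 8) (nat_lit 5) (nat_lit 9) (nat_lit 5) (nat_lit 10) (nat_lit 4) (nat_lit 381) (nat_lit 259) (nat_lit 140)) (XT.nd (nat_lit 78) (nat_lit 0) (nat_lit 0) (XT.lf (nat_lit 0) (nat_lit 40492780338) (nat_lit 76) (nat_lit 1734953449) (nat_lit 152) (nat_lit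 15237786614) (nat_lit 8) (nat_lit 5) (nat_lit 9) (nat_lit 5) (nat_lit 10) (nat_lit 4) (nat_lit 382) (nat_lit 259) (nat_lit 139)) (XT.lf (nat_lit 0) (nat_lit 46705318189) (nat_lit 152) (nat_lit 9587105528) (nat_lit 0) (nat_lit 2755223579) (nat_lit 8) (nat_lit 5) (nat_lit 10) (nat_lit 4) (nat_lit 8) (nat_lit 4) (nat_lit 383) (nat_lit 259) (nat_lit 138)))))) (XT.nd (nat_lit 390) (nat_lit 76) (nat_lit 0) (XT.nd (nat_lit 156) (nat_lit 76) (nat_lit 0) (XT.nd (nat_lit 78) (nat_lit 76) (nat_lit 0) (XT.lf (nat_lit 0) (nat_lit 51327233714) (nat_lit 152) (nat_lit 2009407571) (nat_lit 0) (nat_lit 7340304154) (nat_lit 8) (nat_lit 5) (nat_lit 10) (nat_lit 4) (nat_lit 8) (nat_lit 4) (nat_lit 384) (nat_lit 259) (nat_lit 137)) (XT.lf (nat_lit 0) (nat_lit 5898758558) (nat_lit 76) (nat_lit 50238785412) (nat_lit 76) (nat_lit 6216093765) (nat_lit 7) (nat_lit 4) (nat_lit 8) (nat_lit 5) (nat_lit 8) (nat_lit 4) (nat_lit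 385) (nat_lit 259) (nat_lit 136))) (XT.nd (nat_lit 78) (nat_lit 76) (nat_lit 0) (XT.lf (nat_lit 0) (nat_lit 14073509105) (nat_lit 76) (nat_lit 47032069242) (nat_lit 76) (nat_lit 2974657122) (nat_lit 7) (nat_lit 4) (nat_lit 8) (nat_lit 5) (nat_lit 8) (nat_lit 4) (nat_lit 386) (nat_lit 259) (nat_lit 135)) (XT.nd (nat_lit 78) (nat_lit 0) (nat_lit 0) (XT.lf (nat_lit 0) (nat_lit 350170372) (nat_lit 152) (nat_lit 43380275460) (nat_lit 76) (nat_lit 22128289499) (nat_lit 6) (nat_lit 5) (nat_lit 8) (nat_lit 5) (nat_lit 7) (nat_lit 4) (nat_lit 387) (nat_lit 259) (nat_lit 134)) (XT.lf (nat_lit 0) (nat_lit 3708402743) (nat_lit 152) (nat_lit 36595791122) (nat_lit 76) (nat_lit 27385715840) (nat_lit 6) (nat_lit 5) (nat_lit 8) (nat_lit 5) (nat_lit 7) (nat_lit 4) (nat_lit 388) (nat_lit 259) (nat_lit 133))))) (XT.nd (nat_lit 234) (nat_lit 76) (nat_lit 0) (XT.nd (nat_lit 78) (nat_lit 0) (nat_lit 0) (XT.lf (nat_lit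 0) (nat_lit 7161020643) (nat_lit 152) (nat_lit 29618750937) (nat_lit 76) (nat_lit 32796444896) (nat_lit 6) (nat_lit 5) (nat_lit 8) (nat_lit 5) (nat_lit 7) (nat_lit 4) (nat_lit 389) (nat_lit 259) (nat_lit 132)) (XT.nd (nat_lit 78) (nat_lit 0) (nat_lit 0) (XT.lf (nat_lit 0) (nat_lit 10711040922) (nat_lit 152) (nat_lit 22443058462) (nat_lit 76) (nat_lit 38365204488) (nat_lit 6) (nat_lit 5) (nat_lit 8) (nat_lit 5) (nat_lit 7) (nat_lit 4) (nat_lit 390) (nat_lit 259) (nat_lit 131)) (XT.lf (nat_lit 0) (nat_lit 14361565539) (nat_lit 152) (nat_lit 15062443674) (nat_lit 76) (nat_lit 44096860522) (nat_lit 6) (nat_lit 5) (nat_lit 8) (nat_lit 5) (nat_lit 7) (nat_lit 4) (nat_lit 391) (nat_lit 259) (nat_lit 130)))) (XT.nd (nat_lit 78) (nat_lit 76) (nat_lit 0) (XT.lf (nat_lit 0) (nat_lit 18115784274) (nat_lit 152) (nat_lit 7470457492) (nat_lit 76) (nat_lit 49996421241) (nat_lit 6) (nat_lit 5) (nat_lit 8) (nat_lit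 5) (nat_lit 7) (nat_lit 4) (nat_lit 392) (nat_lit 259) (nat_lit 129)) (XT.nd (nat_lit 78) (nat_lit 0) (nat_lit 0) (XT.lf (nat_lit 0) (nat_lit 346291246) (nat_lit 76) (nat_lit 21634015028) (nat_lit 152) (nat_lit 55726079118) (nat_lit 5) (nat_lit 5) (nat_lit 6) (nat_lit 5) (nat_lit 7) (nat_lit 4) (nat_lit 393) (nat_lit 259) (nat_lit 128)) (XT.lf (nat_lit 0) (nat_lit 8541020716) (nat_lit 76) (nat_lit 17489599908) (nat_lit 152) (nat_lit 53861108576) (nat_lit 5) (nat_lit 5) (nat_lit 6) (nat_lit 5) (nat_lit 7) (nat_lit 4) (nat_lit 394) (nat_lit 259) (nat_lit 127))))))) (XT.nd (nat_lit 30732) (nat_lit 0) (nat_lit 14744) (XT.nd (nat_lit 30264) (nat_lit 0) (nat_lit 18088) (XT.nd (nat_lit 156) (nat_lit 0) (nat_lit 0) (XT.nd (nat_lit 78) (nat_lit 0) (nat_lit 0) (XT.lf (nat_lit 0) (nat_lit 16972214609) (nat_lit 76) (nat_lit 13224812048) (nat_lit 152) (nat_lit 51945774493) (nat_lit 5) (nat_lit 5) (nat_lit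 6) (nat_lit 5) (nat_lit 7) (nat_lit 4) (nat_lit 395) (nat_lit 259) (nat_lit 126)) (XT.lf (nat_lit 0) (nat_lit 25647239986) (nat_lit 76) (nat_lit 8835924932) (nat_lit 152) (nat_lit 49978403277) (nat_lit 5) (nat_lit 5) (nat_lit 6) (nat_lit 5) (nat_lit 7) (nat_lit 4) (nat_lit 396) (nat_lit 259) (nat_lit 125))) (XT.nd (nat_lit 29952) (nat_lit 0) (nat_lit 18696) (XT.lf (nat_lit 0) (nat_lit 34573676966) (nat_lit 76) (nat_lit 4319103610) (nat_lit 152) (nat_lit 47957275866) (nat_lit 5) (nat_lit 5) (nat_lit 6) (nat_lit 5) (nat_lit 7) (nat_lit 4) (nat_lit 397) (nat_lit 259) (nat_lit 124)) (XT.nd (nat_lit 78) (nat_lit 76) (nat_lit 0) (XT.lf (nat_lit 0) (nat_lit 1073741823) (nat_lit 0) (nat_lit 0) (nat_lit 0) (nat_lit 0) (nat_lit 252) (nat_lit 0) (nat_lit 1) (nat_lit 0) (nat_lit 1) (nat_lit 0) (nat_lit 260) (nat_lit 260) (nat_lit 260)) (XT.lf (nat_lit 0) (nat_lit 2730863486) (nat_lit 76) (nat_lit 3658846629)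 (nat_lit 0) (nat_lit 53806200) (nat_lit 251) (nat_lit 5) (nat_lit 252) (nat_lit 0) (nat_lit 251) (nat_lit 4) (nat_lit 261) (nat_lit 260) (nat_lit 259))))) (XT.nd (nat_lit 234) (nat_lit 456) (nat_lit 0) (XT.nd (nat_lit 78) (nat_lit 152) (nat_lit 0) (XT.lf (nat_lit 0) (nat_lit 5437607646) (nat_lit 76) (nat_lit 849254289) (nat_lit 0) (nat_lit 161465617) (nat_lit 251) (nat_lit 5) (nat_lit 252) (nat_lit 0) (nat_lit 251) (nat_lit 4) (nat_lit 262) (nat_lit 260) (nat_lit 258)) (XT.nd (nat_lit 78) (nat_lit 0) (nat_lit 0) (XT.lf (nat_lit 0) (nat_lit 1652895663) (nat_lit 152) (nat_lit 4444147077) (nat_lit 76) (nat_lit 358775035) (nat_lit 249) (nat_lit 5) (nat_lit 251) (nat_lit 5) (nat_lit 250) (nat_lit 4) (nat_lit 263) (nat_lit 260) (nat_lit 257)) (XT.lf (nat_lit 0) (nat_lit 4282789468) (nat_lit 152) (nat_lit 1555349299) (nat_lit 76) (nat_lit 628380550) (nat_lit 249) (nat_lit 5) (nat_lit 251) (nat_lit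 5) (nat_lit 250) (nat_lit 4) (nat_lit 264) (nat_lit 260) (nat_lit 256)))) (XT.nd (nat_lit 78) (nat_lit 228) (nat_lit 0) (XT.lf (nat_lit 0) (nat_lit 417061744) (nat_lit 228) (nat_lit 5093544835) (nat_lit 76) (nat_lit 969854839) (nat_lit 246) (nat_lit 5) (nat_lit 249) (nat_lit 5) (nat_lit 247) (nat_lit 5) (nat_lit 265) (nat_lit 260) (nat_lit 255)) (XT.nd (nat_lit 78) (nat_lit 228) (nat_lit 0) (XT.lf (nat_lit 0) (nat_lit 2969783471) (nat_lit 228) (nat_lit 2124771230) (nat_lit 76) (nat_lit 1402530529) (nat_lit 246) (nat_lit 5) (nat_lit 249) (nat_lit 5) (nat_lit 247) (nat_lit 5) (nat_lit 266) (nat_lit 260) (nat_lit 254)) (XT.lf (nat_lit 0) (nat_lit 894226209) (nat_lit 228) (nat_lit 4618248441) (nat_lit 304) (nat_lit 1004764481) (nat_lit 243) (nat_lit 5) (nat_lit 246) (nat_lit 5) (nat_lit 247) (nat_lit 5) (nat_lit 267) (nat_lit 260) (nat_lit 253)))))) (XT.nd (nat_lit 468) (nat_lit 1976) (nat_lit 0)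 (XT.nd (nat_lit 234) (nat_lit 988) (nat_lit 0) (XT.nd (nat_lit 78) (nat_lit 304) (nat_lit 0) (XT.lf (nat_lit 0) (nat_lit 1489719973) (nat_lit 304) (nat_lit 2563556381) (nat_lit 76) (nat_lit 2486848982) (nat_lit 242) (nat_lit 5) (nat_lit 246) (nat_lit 5) (nat_lit 243) (nat_lit 5) (nat_lit 268) (nat_lit 260) (nat_lit 252)) (XT.nd (nat_lit 78) (nat_lit 0) (nat_lit 0) (XT.lf (nat_lit 0) (nat_lit 531780540) (nat_lit 304) (nat_lit 3420618680) (nat_lit 380) (nat_lit 2613990074) (nat_lit 238) (nat_lit 5) (nat_lit 242) (nat_lit 5) (nat_lit 243) (nat_lit 5) (nat_lit 269) (nat_lit 260) (nat_lit 251)) (XT.lf (nat_lit 0) (nat_lit 3716748132) (nat_lit 304) (nat_lit 2708671348) (nat_lit 380) (nat_lit 170312593) (nat_lit 238) (nat_lit 5) (nat_lit 242) (nat_lit 5) (nat_lit 243) (nat_lit 5) (nat_lit 270) (nat_lit 260) (nat_lit 250)))) (XT.nd (nat_lit 78) (nat_lit 532) (nat_lit 0) (XT.lf (nat_lit 0) (nat_lit 298302767)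 (nat_lit 380) (nat_lit 1917400369) (nat_lit 456) (nat_lit 4412493308) (nat_lit 232) (nat_lit 5) (nat_lit 237) (nat_lit 5) (nat_lit 238) (nat_lit 5) (nat_lit 271) (nat_lit 260) (nat_lit 249)) (XT.nd (nat_lit 78) (nat_lit 532) (nat_lit 0) (XT.lf (nat_lit 0) (nat_lit 3572486141) (nat_lit 380) (nat_lit 1040427075) (nat_lit 456) (nat_lit 2050731906) (nat_lit 232) (nat_lit 5) (nat_lit 237) (nat_lit 5) (nat_lit 238) (nat_lit 5) (nat_lit 272) (nat_lit 260) (nat_lit 248)) (XT.lf (nat_lit 0) (nat_lit 188635158) (nat_lit 456) (nat_lit 102933369) (nat_lit 532) (nat_lit 6411296329) (nat_lit 225) (nat_lit 5) (nat_lit 231) (nat_lit 5) (nat_lit 232) (nat_lit 5) (nat_lit 273) (nat_lit 260) (nat_lit 247))))) (XT.nd (nat_lit 234) (nat_lit 1368) (nat_lit 0) (XT.nd (nat_lit 78) (nat_lit 608) (nat_lit 0) (XT.lf (nat_lit 0) (nat_lit 2620254909) (nat_lit 532) (nat_lit 3199670183) (nat_lit 76) (nat_lit 924329123) (nat_lit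 225) (nat_lit 5) (nat_lit 232) (nat_lit 5) (nat_lit 226) (nat_lit 5) (nat_lit 274) (nat_lit 260) (nat_lit 246)) (XT.nd (nat_lit 78) (nat_lit 76) (nat_lit 0) (XT.lf (nat_lit 0) (nat_lit 159498688) (nat_lit 532) (nat_lit 4781776170) (nat_lit 608) (nat_lit 1848249020) (nat_lit 218) (nat_lit 5) (nat_lit 225) (nat_lit 5) (nat_lit 226) (nat_lit 5) (nat_lit 275) (nat_lit 260) (nat_lit 245)) (XT.lf (nat_lit 0) (nat_lit 439368081) (nat_lit 608) (nat_lit 3213472123) (nat_lit 76) (nat_lit 3184865255) (nat_lit 217) (nat_lit 5) (nat_lit 225) (nat_lit 5) (nat_lit 218) (nat_lit 5) (nat_lit 276) (nat_lit 260) (nat_lit 244)))) (XT.nd (nat_lit 78) (nat_lit 760) (nat_lit 0) (XT.lf (nat_lit 0) (nat_lit 235329442) (nat_lit 608) (nat_lit 2448348255) (nat_lit 684) (nat_lit 4205635716) (nat_lit 209) (nat_lit 5) (nat_lit 217) (nat_lit 5) (nat_lit 218) (nat_lit 5) (nat_lit 277) (nat_lit 260) (nat_lit 243)) (XT.nd (nat_lit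 78) (nat_lit 760) (nat_lit 0) (XT.lf (nat_lit 0) (nat_lit 3797481680) (nat_lit 608) (nat_lit 1154940537) (nat_lit 684) (nat_lit 1991612151) (nat_lit 209) (nat_lit 5) (nat_lit 217) (nat_lit 5) (nat_lit 218) (nat_lit 5) (nat_lit 278) (nat_lit 260) (nat_lit 242)) (XT.lf (nat_lit 0) (nat_lit 214994452) (nat_lit 760) (nat_lit 6589287915) (nat_lit 76) (nat_lit 198339315) (nat_lit 199) (nat_lit 5) (nat_lit 209) (nat_lit 5) (nat_lit 200) (nat_lit 5) (nat_lit 279) (nat_lit 260) (nat_lit 241))))))))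
noncomputable def xc111 : XT := (XT.nd (nat_lit 1794) (nat_lit 3344) (nat_lit 0) (XT.nd (nat_lit 858) (nat_lit 3648) (nat_lit 0) (XT.nd (nat_lit 390) (nat_lit 3116) (nat_lit 0) (XT.nd (nat_lit 156) (nat_lit 912) (nat_lit 0) (XT.nd (nat_lit 78) (nat_lit 760) (nat_lit 0) (XT.lf (nat_lit 0) (nat_lit 2418943577) (nat_lit 760) (nat_lit 3007100049) (nat_lit 76) (nat_lit 1637450554) (nat_lit 199) (nat_lit 5) (nat_lit 209) (nat_lit 5) (nat_lit 200) (nat_lit 5) (nat_lit 280) (nat_lit 260) (nat_lit 240)) (XT.lf (nat_lit 0) (nat_lit 638571430) (nat_lit 760) (nat_lit 3986335459) (nat_lit 836) (nat_lit 2503456032) (nat_lit 189) (nat_lit 5) (nat_lit 199) (nat_lit 5) (nat_lit 200) (nat_lit 5) (nat_lit 281) (nat_lit 260) (nat_lit 239))) (XT.nd (nat_lit 78) (nat_lit 912) (nat_lit 0) (XT.lf (nat_lit 0) (nat_lit 4399366167) (nat_lit 760) (nat_lit 2459314778) (nat_lit 836) (nat_lit 337887569) (nat_lit 189) (nat_lit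 5) (nat_lit 199) (nat_lit 5) (nat_lit 200) (nat_lit 5) (nat_lit 282) (nat_lit 260) (nat_lit 238)) (XT.nd (nat_lit 78) (nat_lit 0) (nat_lit 0) (XT.lf (nat_lit 0) (nat_lit 950689135) (nat_lit 836) (nat_lit 846544096) (nat_lit 912) (nat_lit 5471021699) (nat_lit 177) (nat_lit 5) (nat_lit 188) (nat_lit 5) (nat_lit 189) (nat_lit 5) (nat_lit 283) (nat_lit 260) (nat_lit 237)) (XT.lf (nat_lit 0) (nat_lit 3959894807) (nat_lit 912) (nat_lit 2541938557) (nat_lit 76) (nat_lit 841269263) (nat_lit 177) (nat_lit 5) (nat_lit 189) (nat_lit 5) (nat_lit 178) (nat_lit 5) (nat_lit 284) (nat_lit 260) (nat_lit 236))))) (XT.nd (nat_lit 234) (nat_lit 1140) (nat_lit 0) (XT.nd (nat_lit 78) (nat_lit 1064) (nat_lit 0) (XT.lf (nat_lit 0) (nat_lit 1308185160) (nat_lit 912) (nat_lit 4836054278) (nat_lit 988) (nat_lit 1277465232) (nat_lit 165) (nat_lit 5) (nat_lit 177) (nat_lit 5) (nat_lit 178) (nat_lit 5) (nat_lit 285) (nat_lit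 260) (nat_lit 235)) (XT.nd (nat_lit 78) (nat_lit 988) (nat_lit 0) (XT.lf (nat_lit 0) (nat_lit 836335063) (nat_lit 988) (nat_lit 2241635466) (nat_lit 76) (nat_lit 4425769530) (nat_lit 164) (nat_lit 5) (nat_lit 177) (nat_lit 5) (nat_lit 165) (nat_lit 5) (nat_lit 286) (nat_lit 260) (nat_lit 234)) (XT.lf (nat_lit 0) (nat_lit 1711982037) (nat_lit 988) (nat_lit 1230559894) (nat_lit 1064) (nat_lit 4646870018) (nat_lit 151) (nat_lit 5) (nat_lit 164) (nat_lit 5) (nat_lit 165) (nat_lit 5) (nat_lit 287) (nat_lit 260) (nat_lit 233)))) (XT.nd (nat_lit 78) (nat_lit 1140) (nat_lit 0) (XT.lf (nat_lit 0) (nat_lit 5080800151) (nat_lit 1064) (nat_lit 1910203895) (nat_lit 76) (nat_lit 687773252) (nat_lit 151) (nat_lit 5) (nat_lit 165) (nat_lit 5) (nat_lit 152) (nat_lit 5) (nat_lit 288) (nat_lit 260) (nat_lit 232)) (XT.nd (nat_lit 78) (nat_lit 76) (nat_lit 0) (XT.lf (nat_lit 0) (nat_lit 2150774045) (nat_lit 1064)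 (nat_lit 5106593889) (nat_lit 1140) (nat_lit 514414566) (nat_lit 137) (nat_lit 5) (nat_lit 151) (nat_lit 5) (nat_lit 152) (nat_lit 5) (nat_lit 289) (nat_lit 260) (nat_lit 231)) (XT.lf (nat_lit 0) (nat_lit 1561040513) (nat_lit 1140) (nat_lit 1565979320) (nat_lit 76) (nat_lit 4741423934) (nat_lit 136) (nat_lit 5) (nat_lit 151) (nat_lit 5) (nat_lit 137) (nat_lit 5) (nat_lit 290) (nat_lit 260) (nat_lit 230)))))) (XT.nd (nat_lit 468) (nat_lit 1900) (nat_lit 0) (XT.nd (nat_lit 234) (nat_lit 608) (nat_lit 0) (XT.nd (nat_lit 78) (nat_lit 532) (nat_lit 0) (XT.lf (nat_lit 0) (nat_lit 2602168330) (nat_lit 608) (nat_lit 1054706867) (nat_lit 684) (nat_lit 4312091378) (nat_lit 128) (nat_lit 5) (nat_lit 136) (nat_lit 5) (nat_lit 137) (nat_lit 5) (nat_lit 291) (nat_lit 260) (nat_lit 229)) (XT.nd (nat_lit 78) (nat_lit 532) (nat_lit 0) (XT.lf (nat_lit 0) (nat_lit 5786523837) (nat_lit 684) (nat_lit 1210633343)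 (nat_lit 76) (nat_lit 1076382975) (nat_lit 128) (nat_lit 5) (nat_lit 137) (nat_lit 5) (nat_lit 129) (nat_lit 5) (nat_lit 292) (nat_lit 260) (nat_lit 228)) (XT.lf (nat_lit 0) (nat_lit 3065685657) (nat_lit 532) (nat_lit 4900491626) (nat_lit 608) (nat_lit 215648699) (nat_lit 121) (nat_lit 5) (nat_lit 128) (nat_lit 5) (nat_lit 129) (nat_lit 5) (nat_lit 293) (nat_lit 260) (nat_lit 227)))) (XT.nd (nat_lit 78) (nat_lit 532) (nat_lit 0) (XT.lf (nat_lit 0) (nat_lit 1839365774) (nat_lit 608) (nat_lit 871034012) (nat_lit 76) (nat_lit 5583789024) (nat_lit 120) (nat_lit 5) (nat_lit 128) (nat_lit 5) (nat_lit 121) (nat_lit 5) (nat_lit 294) (nat_lit 260) (nat_lit 226)) (XT.nd (nat_lit 78) (nat_lit 0) (nat_lit 0) (XT.lf (nat_lit 0) (nat_lit 3514873616) (nat_lit 532) (nat_lit 418749780) (nat_lit 608) (nat_lit 4476922315) (nat_lit 113) (nat_lit 5) (nat_lit 120) (nat_lit 5) (nat_lit 121) (nat_lit 5) (nat_lit 295)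 (nat_lit 260) (nat_lit 225)) (XT.lf (nat_lit 0) (nat_lit 6067386109) (nat_lit 608) (nat_lit 552802741) (nat_lit 76) (nat_lit 1911044970) (nat_lit 113) (nat_lit 5) (nat_lit 121) (nat_lit 5) (nat_lit 114) (nat_lit 5) (nat_lit 296) (nat_lit 260) (nat_lit 224))))) (XT.nd (nat_lit 234) (nat_lit 912) (nat_lit 0) (XT.nd (nat_lit 78) (nat_lit 532) (nat_lit 0) (XT.lf (nat_lit 0) (nat_lit 3940541886) (nat_lit 456) (nat_lit 4317256614) (nat_lit 532) (nat_lit 398101695) (nat_lit 107) (nat_lit 5) (nat_lit 113) (nat_lit 5) (nat_lit 114) (nat_lit 5) (nat_lit 297) (nat_lit 260) (nat_lit 223)) (XT.nd (nat_lit 78) (nat_lit 456) (nat_lit 0) (XT.lf (nat_lit 0) (nat_lit 1652443365) (nat_lit 532) (nat_lit 273950641) (nat_lit 76) (nat_lit 6858845313) (nat_lit 106) (nat_lit 5) (nat_lit 113) (nat_lit 5) (nat_lit 107) (nat_lit 5) (nat_lit 298) (nat_lit 260) (nat_lit 222)) (XT.lf (nat_lit 0) (nat_lit 3756058822) (nat_lit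 532) (nat_lit 4594569292) (nat_lit 76) (nat_lit 567850712) (nat_lit 100) (nat_lit 5) (nat_lit 107) (nat_lit 5) (nat_lit 101) (nat_lit 5) (nat_lit 299) (nat_lit 260) (nat_lit 221)))) (XT.nd (nat_lit 78) (nat_lit 912) (nat_lit 0) (XT.lf (nat_lit 0) (nat_lit 5897873087) (nat_lit 532) (nat_lit 61988489) (nat_lit 76) (nat_lit 3096722710) (nat_lit 100) (nat_lit 5) (nat_lit 107) (nat_lit 5) (nat_lit 101) (nat_lit 5) (nat_lit 300) (nat_lit 260) (nat_lit 220)) (XT.nd (nat_lit 78) (nat_lit 532) (nat_lit 0) (XT.lf (nat_lit 0) (nat_lit 4646188366) (nat_lit 380) (nat_lit 3457001227) (nat_lit 456) (nat_lit 1095783821) (nat_lit 95) (nat_lit 5) (nat_lit 100) (nat_lit 5) (nat_lit 101) (nat_lit 5) (nat_lit 301) (nat_lit 260) (nat_lit 219)) (XT.lf (nat_lit 0) (nat_lit 91601225) (nat_lit 456) (nat_lit 873731786) (nat_lit 532) (nat_lit 8381424171) (nat_lit 88) (nat_lit 5) (nat_lit 94) (nat_lit 5) (nat_lit 95) (nat_lit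 5) (nat_lit 302) (nat_lit 260) (nat_lit 218))))))) (XT.nd (nat_lit 858) (nat_lit 1444) (nat_lit 0) (XT.nd (nat_lit 390) (nat_lit 1064) (nat_lit 0) (XT.nd (nat_lit 156) (nat_lit 456) (nat_lit 0) (XT.nd (nat_lit 78) (nat_lit 380) (nat_lit 0) (XT.lf (nat_lit 0) (nat_lit 3085494686) (nat_lit 532) (nat_lit 4609852207) (nat_lit 76) (nat_lit 1802832957) (nat_lit 88) (nat_lit 5) (nat_lit 95) (nat_lit 5) (nat_lit 89) (nat_lit 5) (nat_lit 303) (nat_lit 260) (nat_lit 217)) (XT.lf (nat_lit 0) (nat_lit 117559615) (nat_lit 380) (nat_lit 5118402880) (nat_lit 456) (nat_lit 4419286450) (nat_lit 83) (nat_lit 5) (nat_lit 88) (nat_lit 5) (nat_lit 89) (nat_lit 5) (nat_lit 304) (nat_lit 260) (nat_lit 216))) (XT.nd (nat_lit 78) (nat_lit 456) (nat_lit 0) (XT.lf (nat_lit 0) (nat_lit 5030895964) (nat_lit 380) (nat_lit 2424289578) (nat_lit 456) (nat_lit 2361819070) (nat_lit 83) (nat_lit 5) (nat_lit 88) (nat_lit 5) (nat_lit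 89) (nat_lit 5) (nat_lit 305) (nat_lit 260) (nat_lit 215)) (XT.nd (nat_lit 78) (nat_lit 76) (nat_lit 0) (XT.lf (nat_lit 0) (nat_lit 55549719) (nat_lit 380) (nat_lit 9648187755) (nat_lit 456) (nat_lit 281091683) (nat_lit 78) (nat_lit 5) (nat_lit 83) (nat_lit 5) (nat_lit 84) (nat_lit 5) (nat_lit 306) (nat_lit 260) (nat_lit 214)) (XT.lf (nat_lit 0) (nat_lit 1857607972) (nat_lit 456) (nat_lit 5108649464) (nat_lit 76) (nat_lit 3190030550) (nat_lit 77) (nat_lit 5) (nat_lit 83) (nat_lit 5) (nat_lit 78) (nat_lit 5) (nat_lit 307) (nat_lit 260) (nat_lit 213))))) (XT.nd (nat_lit 234) (nat_lit 760) (nat_lit 0) (XT.nd (nat_lit 78) (nat_lit 304) (nat_lit 0) (XT.lf (nat_lit 0) (nat_lit 4015085163) (nat_lit 456) (nat_lit 195308616) (nat_lit 76) (nat_lit 6123695711) (nat_lit 77) (nat_lit 5) (nat_lit 83) (nat_lit 5) (nat_lit 78) (nat_lit 5) (nat_lit 308) (nat_lit 260) (nat_lit 212)) (XT.nd (nat_lit 78) (nat_lit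 0) (nat_lit 0) (XT.lf (nat_lit 0) (nat_lit 4913620780) (nat_lit 304) (nat_lit 1332322125) (nat_lit 380) (nat_lit 4271110206) (nat_lit 73) (nat_lit 5) (nat_lit 77) (nat_lit 5) (nat_lit 78) (nat_lit 5) (nat_lit 309) (nat_lit 260) (nat_lit 211)) (XT.lf (nat_lit 0) (nat_lit 8523410342) (nat_lit 380) (nat_lit 589692321) (nat_lit 76) (nat_lit 1593097661) (nat_lit 73) (nat_lit 5) (nat_lit 78) (nat_lit 5) (nat_lit 74) (nat_lit 5) (nat_lit 310) (nat_lit 260) (nat_lit 210)))) (XT.nd (nat_lit 78) (nat_lit 380) (nat_lit 0) (XT.lf (nat_lit 0) (nat_lit 4604161532) (nat_lit 380) (nat_lit 6285599824) (nat_lit 456) (nat_lit 10726531) (nat_lit 68) (nat_lit 5) (nat_lit 73) (nat_lit 5) (nat_lit 74) (nat_lit 5) (nat_lit 311) (nat_lit 260) (nat_lit 209)) (XT.nd (nat_lit 78) (nat_lit 304) (nat_lit 0) (XT.lf (nat_lit 0) (nat_lit 2152365525) (nat_lit 456) (nat_lit 1203266641) (nat_lit 76) (nat_lit 7745328398) (nat_lit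 67) (nat_lit 5) (nat_lit 73) (nat_lit 5) (nat_lit 68) (nat_lit 5) (nat_lit 312) (nat_lit 260) (nat_lit 208)) (XT.lf (nat_lit 0) (nat_lit 4076096733) (nat_lit 304) (nat_lit 307588902) (nat_lit 380) (nat_lit 6923727772) (nat_lit 63) (nat_lit 5) (nat_lit 67) (nat_lit 5) (nat_lit 68) (nat_lit 5) (nat_lit 313) (nat_lit 260) (nat_lit 207)))))) (XT.nd (nat_lit 468) (nat_lit 532) (nat_lit 0) (XT.nd (nat_lit 234) (nat_lit 608) (nat_lit 0) (XT.nd (nat_lit 78) (nat_lit 304) (nat_lit 0) (XT.lf (nat_lit 0) (nat_lit 6686307490) (nat_lit 380) (nat_lit 2055025832) (nat_lit 76) (nat_lit 2778669146) (nat_lit 63) (nat_lit 5) (nat_lit 68) (nat_lit 5) (nat_lit 64) (nat_lit 5) (nat_lit 314) (nat_lit 260) (nat_lit 206)) (XT.nd (nat_lit 78) (nat_lit 0) (nat_lit 0) (XT.lf (nat_lit 0) (nat_lit 3292618275) (nat_lit 304) (nat_lit 5765978335) (nat_lit 380) (nat_lit 2680426288) (nat_lit 59) (nat_lit 5) (nat_lit 63) (nat_lit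 5) (nat_lit 64) (nat_lit 5) (nat_lit 315) (nat_lit 260) (nat_lit 205)) (XT.lf (nat_lit 0) (nat_lit 8798119412) (nat_lit 304) (nat_lit 2691142992) (nat_lit 380) (nat_lit 475804573) (nat_lit 59) (nat_lit 5) (nat_lit 63) (nat_lit 5) (nat_lit 64) (nat_lit 5) (nat_lit 316) (nat_lit 260) (nat_lit 204)))) (XT.nd (nat_lit 78) (nat_lit 304) (nat_lit 0) (XT.lf (nat_lit 0) (nat_lit 1753489604) (nat_lit 304) (nat_lit 9949136647) (nat_lit 76) (nat_lit 495007005) (nat_lit 55) (nat_lit 5) (nat_lit 59) (nat_lit 5) (nat_lit 56) (nat_lit 5) (nat_lit 317) (nat_lit 260) (nat_lit 203)) (XT.nd (nat_lit 78) (nat_lit 304) (nat_lit 0) (XT.lf (nat_lit 0) (nat_lit 4066517460) (nat_lit 304) (nat_lit 4621178828) (nat_lit 76) (nat_lit 3748609764) (nat_lit 55) (nat_lit 5) (nat_lit 59) (nat_lit 5) (nat_lit 56) (nat_lit 5) (nat_lit 318) (nat_lit 260) (nat_lit 202)) (XT.lf (nat_lit 0) (nat_lit 839689910) (nat_lit 304) (nat_lit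 5585741619) (nat_lit 380) (nat_lit 6257474193) (nat_lit 51) (nat_lit 5) (nat_lit 55) (nat_lit 5) (nat_lit 56) (nat_lit 5) (nat_lit 319) (nat_lit 260) (nat_lit 201))))) (XT.nd (nat_lit 234) (nat_lit 228) (nat_lit 0) (XT.nd (nat_lit 78) (nat_lit 304) (nat_lit 0) (XT.lf (nat_lit 0) (nat_lit 6516225798) (nat_lit 304) (nat_lit 2354483258) (nat_lit 380) (nat_lit 4065786204) (nat_lit 51) (nat_lit 5) (nat_lit 55) (nat_lit 5) (nat_lit 56) (nat_lit 5) (nat_lit 320) (nat_lit 260) (nat_lit 200)) (XT.nd (nat_lit 78) (nat_lit 304) (nat_lit 0) (XT.lf (nat_lit 0) (nat_lit 11368430633) (nat_lit 380) (nat_lit 886486639) (nat_lit 76) (nat_lit 943460659) (nat_lit 51) (nat_lit 5) (nat_lit 56) (nat_lit 5) (nat_lit 52) (nat_lit 5) (nat_lit 321) (nat_lit 260) (nat_lit 199)) (XT.lf (nat_lit 0) (nat_lit 504558602) (nat_lit 304) (nat_lit 8628652898) (nat_lit 76) (nat_lit 4333599244) (nat_lit 47) (nat_lit 5) (nat_lit 51)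 (nat_lit 5) (nat_lit 48) (nat_lit 5) (nat_lit 322) (nat_lit 260) (nat_lit 198)))) (XT.nd (nat_lit 78) (nat_lit 228) (nat_lit 0) (XT.lf (nat_lit 0) (nat_lit 2852090900) (nat_lit 304) (nat_lit 3050006650) (nat_lit 76) (nat_lit 7841315395) (nat_lit 47) (nat_lit 5) (nat_lit 51) (nat_lit 5) (nat_lit 48) (nat_lit 5) (nat_lit 323) (nat_lit 260) (nat_lit 197)) (XT.nd (nat_lit 78) (nat_lit 0) (nat_lit 0) (XT.lf (nat_lit 0) (nat_lit 2708575856) (nat_lit 228) (nat_lit 2559093236) (nat_lit 304) (nat_lit 8760767071) (nat_lit 44) (nat_lit 5) (nat_lit 47) (nat_lit 5) (nat_lit 48) (nat_lit 5) (nat_lit 324) (nat_lit 260) (nat_lit 196)) (XT.lf (nat_lit 0) (nat_lit 7767231387) (nat_lit 304) (nat_lit 5668109599) (nat_lit 76) (nat_lit 886373637) (nat_lit 44) (nat_lit 5) (nat_lit 48) (nat_lit 5) (nat_lit 45) (nat_lit 5) (nat_lit 325) (nat_lit 260) (nat_lit 195))))))))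
noncomputable def xc112 : XT := (XT.nd (nat_lit 1716) (nat_lit 760) (nat_lit 0) (XT.nd (nat_lit 858) (nat_lit 684) (nat_lit 0) (XT.nd (nat_lit 390) (nat_lit 456) (nat_lit 0) (XT.nd (nat_lit 156) (nat_lit 304) (nat_lit 0) (XT.nd (nat_lit 78) (nat_lit 0) (nat_lit 0) (XT.lf (nat_lit 0) (nat_lit 90142205) (nat_lit 228) (nat_lit 10250573708) (nat_lit 304) (nat_lit 4283156053) (nat_lit 41) (nat_lit 5) (nat_lit 44) (nat_lit 5) (nat_lit 45) (nat_lit 5) (nat_lit 326) (nat_lit 260) (nat_lit 194)) (XT.lf (nat_lit 0) (nat_lit 6098246376) (nat_lit 228) (nat_lit 6923545213) (nat_lit 304) (nat_lit 1912438014) (nat_lit 41) (nat_lit 5) (nat_lit 44) (nat_lit 5) (nat_lit 45) (nat_lit 5) (nat_lit 327) (nat_lit 260) (nat_lit 193))) (XT.nd (nat_lit 78) (nat_lit 228) (nat_lit 0) (XT.lf (nat_lit 0) (nat_lit 492699892) (nat_lit 304) (nat_lit 3010909988) (nat_lit 76) (nat_lit 11750971023) (nat_lit 40) (nat_lit 5) (nat_lit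 44) (nat_lit 5) (nat_lit 41) (nat_lit 5) (nat_lit 328) (nat_lit 260) (nat_lit 192)) (XT.nd (nat_lit 78) (nat_lit 0) (nat_lit 0) (XT.lf (nat_lit 0) (nat_lit 2935242305) (nat_lit 304) (nat_lit 12593514410) (nat_lit 76) (nat_lit 55150492) (nat_lit 37) (nat_lit 5) (nat_lit 41) (nat_lit 5) (nat_lit 38) (nat_lit 5) (nat_lit 329) (nat_lit 260) (nat_lit 191)) (XT.lf (nat_lit 0) (nat_lit 5491128676) (nat_lit 304) (nat_lit 6761449073) (nat_lit 76) (nat_lit 3669375434) (nat_lit 37) (nat_lit 5) (nat_lit 41) (nat_lit 5) (nat_lit 38) (nat_lit 5) (nat_lit 330) (nat_lit 260) (nat_lit 190))))) (XT.nd (nat_lit 234) (nat_lit 304) (nat_lit 0) (XT.nd (nat_lit 78) (nat_lit 152) (nat_lit 0) (XT.lf (nat_lit 0) (nat_lit 8099102471) (nat_lit 304) (nat_lit 791036371) (nat_lit 76) (nat_lit 7380780065) (nat_lit 37) (nat_lit 5) (nat_lit 41) (nat_lit 5) (nat_lit 38) (nat_lit 5) (nat_lit 331) (nat_lit 260) (nat_lit 189)) (XT.nd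 (nat_lit 78) (nat_lit 0) (nat_lit 0) (XT.lf (nat_lit 0) (nat_lit 5428877516) (nat_lit 152) (nat_lit 5384750677) (nat_lit 228) (nat_lit 5815915535) (nat_lit 35) (nat_lit 5) (nat_lit 37) (nat_lit 5) (nat_lit 38) (nat_lit 5) (nat_lit 332) (nat_lit 260) (nat_lit 188)) (XT.lf (nat_lit 0) (nat_lit 11816404652) (nat_lit 152) (nat_lit 1777656944) (nat_lit 228) (nat_lit 3405369898) (nat_lit 35) (nat_lit 5) (nat_lit 37) (nat_lit 5) (nat_lit 38) (nat_lit 5) (nat_lit 333) (nat_lit 260) (nat_lit 187)))) (XT.nd (nat_lit 78) (nat_lit 76) (nat_lit 0) (XT.lf (nat_lit 0) (nat_lit 980868574) (nat_lit 228) (nat_lit 15482153893) (nat_lit 304) (nat_lit 917277231) (nat_lit 32) (nat_lit 5) (nat_lit 35) (nat_lit 5) (nat_lit 36) (nat_lit 5) (nat_lit 334) (nat_lit 260) (nat_lit 186)) (XT.nd (nat_lit 78) (nat_lit 0) (nat_lit 0) (XT.lf (nat_lit 0) (nat_lit 1660944253) (nat_lit 304) (nat_lit 10403968484) (nat_lit 76) (nat_lit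 5705813954) (nat_lit 31) (nat_lit 5) (nat_lit 35) (nat_lit 5) (nat_lit 32) (nat_lit 5) (nat_lit 335) (nat_lit 260) (nat_lit 185)) (XT.lf (nat_lit 0) (nat_lit 4275879592) (nat_lit 304) (nat_lit 4271642937) (nat_lit 76) (nat_lit 9625771478) (nat_lit 31) (nat_lit 5) (nat_lit 35) (nat_lit 5) (nat_lit 32) (nat_lit 5) (nat_lit 336) (nat_lit 260) (nat_lit 184)))))) (XT.nd (nat_lit 390) (nat_lit 380) (nat_lit 0) (XT.nd (nat_lit 156) (nat_lit 152) (nat_lit 0) (XT.nd (nat_lit 78) (nat_lit 0) (nat_lit 0) (XT.lf (nat_lit 0) (nat_lit 2051758484) (nat_lit 152) (nat_lit 4915677335) (nat_lit 228) (nat_lit 11620590425) (nat_lit 29) (nat_lit 5) (nat_lit 31) (nat_lit 5) (nat_lit 32) (nat_lit 5) (nat_lit 337) (nat_lit 260) (nat_lit 183)) (XT.lf (nat_lit 0) (nat_lit 8619818206) (nat_lit 152) (nat_lit 1141820033) (nat_lit 228) (nat_lit 9252937347) (nat_lit 29) (nat_lit 5) (nat_lit 31) (nat_lit 5) (nat_lit 32) (nat_lit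 5) (nat_lit 338) (nat_lit 260) (nat_lit 182))) (XT.nd (nat_lit 78) (nat_lit 152) (nat_lit 0) (XT.lf (nat_lit 0) (nat_lit 12645332454) (nat_lit 228) (nat_lit 4127592790) (nat_lit 76) (nat_lit 2680857382) (nat_lit 29) (nat_lit 5) (nat_lit 32) (nat_lit 5) (nat_lit 30) (nat_lit 5) (nat_lit 339) (nat_lit 260) (nat_lit 181)) (XT.nd (nat_lit 78) (nat_lit 0) (nat_lit 0) (XT.lf (nat_lit 0) (nat_lit 2330493793) (nat_lit 152) (nat_lit 13298631243) (nat_lit 228) (nat_lit 4276663494) (nat_lit 27) (nat_lit 5) (nat_lit 29) (nat_lit 5) (nat_lit 30) (nat_lit 5) (nat_lit 340) (nat_lit 260) (nat_lit 180)) (XT.lf (nat_lit 0) (nat_lit 9035976965) (nat_lit 152) (nat_lit 9688303713) (nat_lit 228) (nat_lit 1646447850) (nat_lit 27) (nat_lit 5) (nat_lit 29) (nat_lit 5) (nat_lit 30) (nat_lit 5) (nat_lit 341) (nat_lit 260) (nat_lit 179))))) (XT.nd (nat_lit 234) (nat_lit 152) (nat_lit 0) (XT.nd (nat_lit 78) (nat_lit 152)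 (nat_lit 0) (XT.lf (nat_lit 0) (nat_lit 1022465344) (nat_lit 228) (nat_lit 4947678353) (nat_lit 76) (nat_lit 14879778458) (nat_lit 26) (nat_lit 5) (nat_lit 29) (nat_lit 5) (nat_lit 27) (nat_lit 5) (nat_lit 342) (nat_lit 260) (nat_lit 178)) (XT.nd (nat_lit 78) (nat_lit 0) (nat_lit 0) (XT.lf (nat_lit 0) (nat_lit 1616668951) (nat_lit 152) (nat_lit 2118320264) (nat_lit 228) (nat_lit 17608141176) (nat_lit 24) (nat_lit 5) (nat_lit 26) (nat_lit 5) (nat_lit 27) (nat_lit 5) (nat_lit 343) (nat_lit 260) (nat_lit 177)) (XT.lf (nat_lit 0) (nat_lit 6578381041) (nat_lit 228) (nat_lit 13418312129) (nat_lit 76) (nat_lit 1852983057) (nat_lit 24) (nat_lit 5) (nat_lit 27) (nat_lit 5) (nat_lit 25) (nat_lit 5) (nat_lit 344) (nat_lit 260) (nat_lit 176)))) (XT.nd (nat_lit 78) (nat_lit 152) (nat_lit 0) (XT.lf (nat_lit 0) (nat_lit 9509855313) (nat_lit 228) (nat_lit 6970800924) (nat_lit 76) (nat_lit 5890704137) (nat_lit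 24) (nat_lit 5) (nat_lit 27) (nat_lit 5) (nat_lit 25) (nat_lit 5) (nat_lit 345) (nat_lit 260) (nat_lit 175)) (XT.nd (nat_lit 78) (nat_lit 152) (nat_lit 0) (XT.lf (nat_lit 0) (nat_lit 12511610925) (nat_lit 228) (nat_lit 357931490) (nat_lit 76) (nat_lit 10039707140) (nat_lit 24) (nat_lit 5) (nat_lit 27) (nat_lit 5) (nat_lit 25) (nat_lit 5) (nat_lit 346) (nat_lit 260) (nat_lit 174)) (XT.lf (nat_lit 0) (nat_lit 6553965891) (nat_lit 152) (nat_lit 9095305607) (nat_lit 228) (nat_lit 7812652245) (nat_lit 22) (nat_lit 5) (nat_lit 24) (nat_lit 5) (nat_lit 25) (nat_lit 5) (nat_lit 347) (nat_lit 260) (nat_lit 173))))))) (XT.nd (nat_lit 858) (nat_lit 304) (nat_lit 0) (XT.nd (nat_lit 390) (nat_lit 228) (nat_lit 0) (XT.nd (nat_lit 156) (nat_lit 228) (nat_lit 0) (XT.nd (nat_lit 78) (nat_lit 0) (nat_lit 0) (XT.lf (nat_lit 0) (nat_lit 13653574974) (nat_lit 152) (nat_lit 5214192981) (nat_lit 228) (nat_lit 5163832226)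 (nat_lit 22) (nat_lit 5) (nat_lit 24) (nat_lit 5) (nat_lit 25) (nat_lit 5) (nat_lit 348) (nat_lit 260) (nat_lit 172)) (XT.lf (nat_lit 0) (nat_lit 20939975763) (nat_lit 152) (nat_lit 1226427681) (nat_lit 228) (nat_lit 2452478476) (nat_lit 22) (nat_lit 5) (nat_lit 24) (nat_lit 5) (nat_lit 25) (nat_lit 5) (nat_lit 349) (nat_lit 260) (nat_lit 171))) (XT.nd (nat_lit 78) (nat_lit 0) (nat_lit 0) (XT.lf (nat_lit 0) (nat_lit 376698610) (nat_lit 228) (nat_lit 21995522525) (nat_lit 76) (nat_lit 2850190454) (nat_lit 19) (nat_lit 5) (nat_lit 22) (nat_lit 5) (nat_lit 20) (nat_lit 5) (nat_lit 350) (nat_lit 260) (nat_lit 170)) (XT.nd (nat_lit 78) (nat_lit 0) (nat_lit 0) (XT.lf (nat_lit 0) (nat_lit 3275133564) (nat_lit 228) (nat_lit 15490380869) (nat_lit 76) (nat_lit 7076814628) (nat_lit 19) (nat_lit 5) (nat_lit 22) (nat_lit 5) (nat_lit 20) (nat_lit 5) (nat_lit 351) (nat_lit 260) (nat_lit 169)) (XT.lf (nat_lit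 0) (nat_lit 6245001701) (nat_lit 228) (nat_lit 8815257479) (nat_lit 76) (nat_lit 11421070491) (nat_lit 19) (nat_lit 5) (nat_lit 22) (nat_lit 5) (nat_lit 20) (nat_lit 5) (nat_lit 352) (nat_lit 260) (nat_lit 168))))) (XT.nd (nat_lit 234) (nat_lit 76) (nat_lit 0) (XT.nd (nat_lit 78) (nat_lit 152) (nat_lit 0) (XT.lf (nat_lit 0) (nat_lit 9288898051) (nat_lit 228) (nat_lit 1964319725) (nat_lit 76) (nat_lit 15886753993) (nat_lit 19) (nat_lit 5) (nat_lit 22) (nat_lit 5) (nat_lit 20) (nat_lit 5) (nat_lit 353) (nat_lit 260) (nat_lit 167)) (XT.nd (nat_lit 78) (nat_lit 0) (nat_lit 0) (XT.lf (nat_lit 0) (nat_lit 5169290120) (nat_lit 152) (nat_lit 7289882588) (nat_lit 228) (nat_lit 15358167449) (nat_lit 17) (nat_lit 5) (nat_lit 19) (nat_lit 5) (nat_lit 20) (nat_lit 5) (nat_lit 354) (nat_lit 260) (nat_lit 166)) (XT.lf (nat_lit 0) (nat_lit 12533680002) (nat_lit 152) (nat_lit 3196282659) (nat_lit 228) (nat_lit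 12784923044) (nat_lit 17) (nat_lit 5) (nat_lit 19) (nat_lit 5) (nat_lit 20) (nat_lit 5) (nat_lit 355) (nat_lit 260) (nat_lit 165)))) (XT.nd (nat_lit 78) (nat_lit 76) (nat_lit 0) (XT.lf (nat_lit 0) (nat_lit 19094589299) (nat_lit 228) (nat_lit 9147326107) (nat_lit 76) (nat_lit 991588608) (nat_lit 17) (nat_lit 5) (nat_lit 20) (nat_lit 5) (nat_lit 18) (nat_lit 4) (nat_lit 356) (nat_lit 260) (nat_lit 164)) (XT.nd (nat_lit 78) (nat_lit 76) (nat_lit 0) (XT.lf (nat_lit 0) (nat_lit 22578118498) (nat_lit 228) (nat_lit 2162565807) (nat_lit 76) (nat_lit 5232474924) (nat_lit 17) (nat_lit 5) (nat_lit 20) (nat_lit 5) (nat_lit 18) (nat_lit 4) (nat_lit 357) (nat_lit 260) (nat_lit 163)) (XT.lf (nat_lit 0) (nat_lit 5109609904) (nat_lit 76) (nat_lit 21092376284) (nat_lit 152) (nat_lit 4531959698) (nat_lit 16) (nat_lit 5) (nat_lit 17) (nat_lit 5) (nat_lit 18) (nat_lit 4) (nat_lit 358) (nat_lit 260) (nat_lit 162))))))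 (XT.nd (nat_lit 468) (nat_lit 76) (nat_lit 0) (XT.nd (nat_lit 234) (nat_lit 152) (nat_lit 0) (XT.nd (nat_lit 78) (nat_lit 76) (nat_lit 0) (XT.lf (nat_lit 0) (nat_lit 12622661135) (nat_lit 76) (nat_lit 17320641457) (nat_lit 152) (nat_lit 1574007846) (nat_lit 16) (nat_lit 5) (nat_lit 17) (nat_lit 5) (nat_lit 18) (nat_lit 4) (nat_lit 359) (nat_lit 260) (nat_lit 161)) (XT.nd (nat_lit 78) (nat_lit 0) (nat_lit 0) (XT.lf (nat_lit 0) (nat_lit 1431080458) (nat_lit 152) (nat_lit 11998490241) (nat_lit 76) (nat_lit 18894581824) (nat_lit 15) (nat_lit 5) (nat_lit 17) (nat_lit 5) (nat_lit 16) (nat_lit 5) (nat_lit 360) (nat_lit 260) (nat_lit 160)) (XT.lf (nat_lit 0) (nat_lit 4482195355) (nat_lit 152) (nat_lit 4931673255) (nat_lit 76) (nat_lit 23741253331) (nat_lit 15) (nat_lit 5) (nat_lit 17) (nat_lit 5) (nat_lit 16) (nat_lit 5) (nat_lit 361) (nat_lit 260) (nat_lit 159)))) (XT.nd (nat_lit 78) (nat_lit 0) (nat_lit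 0) (XT.lf (nat_lit 0) (nat_lit 2373420858) (nat_lit 152) (nat_lit 5262111343) (nat_lit 228) (nat_lit 26375182046) (nat_lit 13) (nat_lit 5) (nat_lit 15) (nat_lit 5) (nat_lit 16) (nat_lit 5) (nat_lit 362) (nat_lit 260) (nat_lit 158)) (XT.nd (nat_lit 78) (nat_lit 0) (nat_lit 0) (XT.lf (nat_lit 0) (nat_lit 9978917375) (nat_lit 152) (nat_lit 942388169) (nat_lit 228) (nat_lit 23969547727) (nat_lit 13) (nat_lit 5) (nat_lit 15) (nat_lit 5) (nat_lit 16) (nat_lit 5) (nat_lit 363) (nat_lit 260) (nat_lit 157)) (XT.lf (nat_lit 0) (nat_lit 14327673884) (nat_lit 228) (nat_lit 18038083826) (nat_lit 76) (nat_lit 3430991734) (nat_lit 13) (nat_lit 5) (nat_lit 16) (nat_lit 5) (nat_lit 14) (nat_lit 4) (nat_lit 364) (nat_lit 260) (nat_lit 156))))) (XT.nd (nat_lit 234) (nat_lit 0) (nat_lit 0) (XT.nd (nat_lit 78) (nat_lit 76) (nat_lit 0) (XT.lf (nat_lit 0) (nat_lit 17834215375) (nat_lit 228) (nat_lit 10986332616) (nat_lit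 76) (nat_lit 7909348282) (nat_lit 13) (nat_lit 5) (nat_lit 16) (nat_lit 5) (nat_lit 14) (nat_lit 4) (nat_lit 365) (nat_lit 260) (nat_lit 155)) (XT.nd (nat_lit 78) (nat_lit 76) (nat_lit 0) (XT.lf (nat_lit 0) (nat_lit 21434935173) (nat_lit 228) (nat_lit 3741461732) (nat_lit 76) (nat_lit 12514983988) (nat_lit 13) (nat_lit 5) (nat_lit 16) (nat_lit 5) (nat_lit 14) (nat_lit 4) (nat_lit 366) (nat_lit 260) (nat_lit 154)) (XT.lf (nat_lit 0) (nat_lit 3776553456) (nat_lit 76) (nat_lit 21392728626) (nat_lit 152) (nat_lit 13511672280) (nat_lit 12) (nat_lit 5) (nat_lit 13) (nat_lit 5) (nat_lit 14) (nat_lit 4) (nat_lit 367) (nat_lit 260) (nat_lit 153)))) (XT.nd (nat_lit 78) (nat_lit 0) (nat_lit 0) (XT.lf (nat_lit 0) (nat_lit 11579084868) (nat_lit 76) (nat_lit 17463800156) (nat_lit 152) (nat_lit 10656525354) (nat_lit 12) (nat_lit 5) (nat_lit 13) (nat_lit 5) (nat_lit 14) (nat_lit 4) (nat_lit 368) (nat_lit 260)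 (nat_lit 152)) (XT.nd (nat_lit 78) (nat_lit 0) (nat_lit 0) (XT.lf (nat_lit 0) (nat_lit 19598487823) (nat_lit 76) (nat_lit 13423959879) (nat_lit 152) (nat_lit 7726291581) (nat_lit 12) (nat_lit 5) (nat_lit 13) (nat_lit 5) (nat_lit 14) (nat_lit 4) (nat_lit 369) (nat_lit 260) (nat_lit 151)) (XT.lf (nat_lit 0) (nat_lit 27841769566) (nat_lit 76) (nat_lit 9269677837) (nat_lit 152) (nat_lit 4718410562) (nat_lit 12) (nat_lit 5) (nat_lit 13) (nat_lit 5) (nat_lit 14) (nat_lit 4) (nat_lit 370) (nat_lit 260) (nat_lit 150))))))))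
noncomputable def xc113 : XT := (XT.nd (nat_lit 1716) (nat_lit 76) (nat_lit 0) (XT.nd (nat_lit 858) (nat_lit 152) (nat_lit 0) (XT.nd (nat_lit 390) (nat_lit 76) (nat_lit 0) (XT.nd (nat_lit 156) (nat_lit 0) (nat_lit 0) (XT.nd (nat_lit 78) (nat_lit 228) (nat_lit 0) (XT.lf (nat_lit 0) (nat_lit 36316132966) (nat_lit 76) (nat_lit 4997324076) (nat_lit 152) (nat_lit 1630254054) (nat_lit 12) (nat_lit 5) (nat_lit 13) (nat_lit 5) (nat_lit 14) (nat_lit 4) (nat_lit 371) (nat_lit 260) (nat_lit 149)) (XT.lf (nat_lit 0) (nat_lit 941266517) (nat_lit 152) (nat_lit 578589799) (nat_lit 228) (nat_lit 42570699828) (nat_lit 9) (nat_lit 5) (nat_lit 11) (nat_lit 5) (nat_lit 12) (nat_lit 5) (nat_lit 372) (nat_lit 260) (nat_lit 148))) (XT.nd (nat_lit 78) (nat_lit 0) (nat_lit 0) (XT.lf (nat_lit 0) (nat_lit 4828060277) (nat_lit 228) (nat_lit 36467771643) (nat_lit 76) (nat_lit 3972609830) (nat_lit 9) (nat_lit 5) (nat_lit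 12) (nat_lit 5) (nat_lit 10) (nat_lit 4) (nat_lit 373) (nat_lit 260) (nat_lit 147)) (XT.nd (nat_lit 78) (nat_lit 0) (nat_lit 0) (XT.lf (nat_lit 0) (nat_lit 8232093834) (nat_lit 228) (nat_lit 29607086615) (nat_lit 76) (nat_lit 8642595819) (nat_lit 9) (nat_lit 5) (nat_lit 12) (nat_lit 5) (nat_lit 10) (nat_lit 4) (nat_lit 374) (nat_lit 260) (nat_lit 146)) (XT.lf (nat_lit 0) (nat_lit 11729369627) (nat_lit 228) (nat_lit 22555678010) (nat_lit 76) (nat_lit 13446739108) (nat_lit 9) (nat_lit 5) (nat_lit 12) (nat_lit 5) (nat_lit 10) (nat_lit 4) (nat_lit 375) (nat_lit 260) (nat_lit 145))))) (XT.nd (nat_lit 234) (nat_lit 76) (nat_lit 0) (XT.nd (nat_lit 78) (nat_lit 0) (nat_lit 0) (XT.lf (nat_lit 0) (nat_lit 15322943528) (nat_lit 228) (nat_lit 15307384404) (nat_lit 76) (nat_lit 18389237492) (nat_lit 9) (nat_lit 5) (nat_lit 12) (nat_lit 5) (nat_lit 10) (nat_lit 4) (nat_lit 376) (nat_lit 260) (nat_lit 144))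 (XT.nd (nat_lit 78) (nat_lit 0) (nat_lit 0) (XT.lf (nat_lit 0) (nat_lit 19015955553) (nat_lit 228) (nat_lit 7855872335) (nat_lit 76) (nat_lit 23474409660) (nat_lit 9) (nat_lit 5) (nat_lit 12) (nat_lit 5) (nat_lit 10) (nat_lit 4) (nat_lit 377) (nat_lit 260) (nat_lit 143)) (XT.lf (nat_lit 0) (nat_lit 22811632605) (nat_lit 228) (nat_lit 194630775) (nat_lit 76) (nat_lit 28706698965) (nat_lit 9) (nat_lit 5) (nat_lit 12) (nat_lit 5) (nat_lit 10) (nat_lit 4) (nat_lit 378) (nat_lit 260) (nat_lit 142)))) (XT.nd (nat_lit 78) (nat_lit 0) (nat_lit 0) (XT.lf (nat_lit 0) (nat_lit 7835942018) (nat_lit 76) (nat_lit 18952673147) (nat_lit 152) (nat_lit 26330059160) (nat_lit 8) (nat_lit 5) (nat_lit 9) (nat_lit 5) (nat_lit 10) (nat_lit 4) (nat_lit 379) (nat_lit 260) (nat_lit 141)) (XT.nd (nat_lit 78) (nat_lit 0) (nat_lit 0) (XT.lf (nat_lit 0) (nat_lit 16098139773) (nat_lit 76) (nat_lit 14780946236) (nat_lit 152)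 (nat_lit 23687654537) (nat_lit 8) (nat_lit 5) (nat_lit 9) (nat_lit 5) (nat_lit 10) (nat_lit 4) (nat_lit 380) (nat_lit 260) (nat_lit 140)) (XT.lf (nat_lit 0) (nat_lit 24595308354) (nat_lit 76) (nat_lit 10489402841) (nat_lit 152) (nat_lit 20973772362) (nat_lit 8) (nat_lit 5) (nat_lit 9) (nat_lit 5) (nat_lit 10) (nat_lit 4) (nat_lit 381) (nat_lit 260) (nat_lit 139)))))) (XT.nd (nat_lit 390) (nat_lit 76) (nat_lit 0) (XT.nd (nat_lit 156) (nat_lit 76) (nat_lit 0) (XT.nd (nat_lit 78) (nat_lit 0) (nat_lit 0) (XT.lf (nat_lit 0) (nat_lit 33334872469) (nat_lit 76) (nat_lit 6074293067) (nat_lit 152) (nat_lit 18186041281) (nat_lit 8) (nat_lit 5) (nat_lit 9) (nat_lit 5) (nat_lit 10) (nat_lit 4) (nat_lit 382) (nat_lit 260) (nat_lit 138)) (XT.lf (nat_lit 0) (nat_lit 42324468631) (nat_lit 76) (nat_lit 1531759053) (nat_lit 152) (nat_lit 15322025415) (nat_lit 8) (nat_lit 5) (nat_lit 9) (nat_lit 5) (nat_lit 10)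 (nat_lit 4) (nat_lit 383) (nat_lit 260) (nat_lit 137))) (XT.nd (nat_lit 78) (nat_lit 76) (nat_lit 0) (XT.lf (nat_lit 0) (nat_lit 48459987866) (nat_lit 152) (nat_lit 9267258263) (nat_lit 0) (nat_lit 3080853382) (nat_lit 8) (nat_lit 5) (nat_lit 10) (nat_lit 4) (nat_lit 8) (nat_lit 4) (nat_lit 384) (nat_lit 260) (nat_lit 136)) (XT.nd (nat_lit 78) (nat_lit 76) (nat_lit 0) (XT.lf (nat_lit 0) (nat_lit 53210264445) (nat_lit 152) (nat_lit 1479922389) (nat_lit 0) (nat_lit 7796409488) (nat_lit 8) (nat_lit 5) (nat_lit 10) (nat_lit 4) (nat_lit 8) (nat_lit 4) (nat_lit 385) (nat_lit 260) (nat_lit 135)) (XT.lf (nat_lit 0) (nat_lit 6659706690) (nat_lit 76) (nat_lit 51500794427) (nat_lit 76) (nat_lit 6053230273) (nat_lit 7) (nat_lit 4) (nat_lit 8) (nat_lit 5) (nat_lit 8) (nat_lit 4) (nat_lit 386) (nat_lit 260) (nat_lit 134))))) (XT.nd (nat_lit 234) (nat_lit 0) (nat_lit 0) (XT.nd (nat_lit 78) (nat_lit 76) (nat_lit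 0) (XT.lf (nat_lit 0) (nat_lit 15062690471) (nat_lit 76) (nat_lit 48205017196) (nat_lit 76) (nat_lit 2724725666) (nat_lit 7) (nat_lit 4) (nat_lit 8) (nat_lit 5) (nat_lit 8) (nat_lit 4) (nat_lit 387) (nat_lit 260) (nat_lit 133)) (XT.nd (nat_lit 78) (nat_lit 0) (nat_lit 0) (XT.lf (nat_lit 0) (nat_lit 683542201) (nat_lit 152) (nat_lit 44124475012) (nat_lit 76) (nat_lit 23016473372) (nat_lit 6) (nat_lit 5) (nat_lit 8) (nat_lit 5) (nat_lit 7) (nat_lit 4) (nat_lit 388) (nat_lit 260) (nat_lit 132)) (XT.lf (nat_lit 0) (nat_lit 4133117658) (nat_lit 152) (nat_lit 37152685525) (nat_lit 76) (nat_lit 28425088469) (nat_lit 6) (nat_lit 5) (nat_lit 8) (nat_lit 5) (nat_lit 7) (nat_lit 4) (nat_lit 389) (nat_lit 260) (nat_lit 131)))) (XT.nd (nat_lit 78) (nat_lit 0) (nat_lit 0) (XT.lf (nat_lit 0) (nat_lit 7680184109) (nat_lit 152) (nat_lit 29982090814) (nat_lit 76) (nat_lit 33991795674) (nat_lit 6) (nat_lit 5)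 (nat_lit 8) (nat_lit 5) (nat_lit 7) (nat_lit 4) (nat_lit 390) (nat_lit 260) (nat_lit 130)) (XT.nd (nat_lit 78) (nat_lit 0) (nat_lit 0) (XT.lf (nat_lit 0) (nat_lit 11327840933) (nat_lit 152) (nat_lit 22606425311) (nat_lit 76) (nat_lit 39721459099) (nat_lit 6) (nat_lit 5) (nat_lit 8) (nat_lit 5) (nat_lit 7) (nat_lit 4) (nat_lit 391) (nat_lit 260) (nat_lit 129)) (XT.lf (nat_lit 0) (nat_lit 15079275402) (nat_lit 152) (nat_lit 15019244261) (nat_lit 76) (nat_lit 45619085247) (nat_lit 6) (nat_lit 5) (nat_lit 8) (nat_lit 5) (nat_lit 7) (nat_lit 4) (nat_lit 392) (nat_lit 260) (nat_lit 128))))))) (XT.nd (nat_lit 30810) (nat_lit 0) (nat_lit 15504) (XT.nd (nat_lit 30342) (nat_lit 0) (nat_lit 18240) (XT.nd (nat_lit 156) (nat_lit 0) (nat_lit 0) (XT.nd (nat_lit 78) (nat_lit 76) (nat_lit 0) (XT.lf (nat_lit 0) (nat_lit 18937765468) (nat_lit 152) (nat_lit 7213918088) (nat_lit 76) (nat_lit 51689827383) (nat_lit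 6) (nat_lit 5) (nat_lit 8) (nat_lit 5) (nat_lit 7) (nat_lit 4) (nat_lit 393) (nat_lit 260) (nat_lit 127)) (XT.lf (nat_lit 0) (nat_lit 832620827) (nat_lit 76) (nat_lit 22082065462) (nat_lit 152) (nat_lit 57114372871) (nat_lit 5) (nat_lit 5) (nat_lit 6) (nat_lit 5) (nat_lit 7) (nat_lit 4) (nat_lit 394) (nat_lit 260) (nat_lit 126))) (XT.nd (nat_lit 78) (nat_lit 0) (nat_lit 0) (XT.lf (nat_lit 0) (nat_lit 9259329827) (nat_lit 76) (nat_lit 17819171385) (nat_lit 152) (nat_lit 55201710163) (nat_lit 5) (nat_lit 5) (nat_lit 6) (nat_lit 5) (nat_lit 7) (nat_lit 4) (nat_lit 395) (nat_lit 260) (nat_lit 125)) (XT.nd (nat_lit 78) (nat_lit 0) (nat_lit 0) (XT.lf (nat_lit 0) (nat_lit 17930000939) (nat_lit 76) (nat_lit 13432122894) (nat_lit 152) (nat_lit 53236932514) (nat_lit 5) (nat_lit 5) (nat_lit 6) (nat_lit 5) (nat_lit 7) (nat_lit 4) (nat_lit 396) (nat_lit 260) (nat_lit 124)) (XT.lf (nat_lit 0) (nat_lit 26852210479)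 (nat_lit 76) (nat_lit 8917086645) (nat_lit 152) (nat_lit 51218323129) (nat_lit 5) (nat_lit 5) (nat_lit 6) (nat_lit 5) (nat_lit 7) (nat_lit 4) (nat_lit 397) (nat_lit 260) (nat_lit 123))))) (XT.nd (nat_lit 234) (nat_lit 228) (nat_lit 0) (XT.nd (nat_lit 78) (nat_lit 228) (nat_lit 0) (XT.lf (nat_lit 0) (nat_lit 1352045157) (nat_lit 0) (nat_lit 1352045157) (nat_lit 76) (nat_lit 519134894) (nat_lit 251) (nat_lit 5) (nat_lit 251) (nat_lit 3) (nat_lit 252) (nat_lit 0) (nat_lit 261) (nat_lit 261) (nat_lit 258)) (XT.nd (nat_lit 78) (nat_lit 0) (nat_lit 0) (XT.lf (nat_lit 0) (nat_lit 1578416389) (nat_lit 228) (nat_lit 974451741) (nat_lit 228) (nat_lit 3899744518) (nat_lit 248) (nat_lit 3) (nat_lit 251) (nat_lit 3) (nat_lit 251) (nat_lit 5) (nat_lit 262) (nat_lit 261) (nat_lit 257)) (XT.lf (nat_lit 76) (nat_lit 1849569555) (nat_lit 0) (nat_lit 2319017406) (nat_lit 228) (nat_lit 2293076181) (nat_lit 249)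 (nat_lit 5) (nat_lit 248) (nat_lit 3) (nat_lit 251) (nat_lit 5) (nat_lit 263) (nat_lit 261) (nat_lit 256)))) (XT.nd (nat_lit 78) (nat_lit 0) (nat_lit 0) (XT.lf (nat_lit 0) (nat_lit 267374112) (nat_lit 228) (nat_lit 1750700598) (nat_lit 304) (nat_lit 4455993572) (nat_lit 245) (nat_lit 5) (nat_lit 248) (nat_lit 3) (nat_lit 249) (nat_lit 5) (nat_lit 264) (nat_lit 261) (nat_lit 255)) (XT.nd (nat_lit 78) (nat_lit 0) (nat_lit 0) (XT.lf (nat_lit 76) (nat_lit 1143041303) (nat_lit 0) (nat_lit 1628525681) (nat_lit 304) (nat_lit 3717652951) (nat_lit 246) (nat_lit 5) (nat_lit 245) (nat_lit 5) (nat_lit 249) (nat_lit 5) (nat_lit 265) (nat_lit 261) (nat_lit 254)) (XT.lf (nat_lit 76) (nat_lit 4106909633) (nat_lit 0) (nat_lit 1166032797) (nat_lit 304) (nat_lit 1234655010) (nat_lit 246) (nat_lit 5) (nat_lit 245) (nat_lit 5) (nat_lit 249) (nat_lit 5) (nat_lit 266) (nat_lit 261) (nat_lit 253)))))) (XT.nd (nat_lit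 468) (nat_lit 1748) (nat_lit 0) (XT.nd (nat_lit 234) (nat_lit 456) (nat_lit 0) (XT.nd (nat_lit 78) (nat_lit 228) (nat_lit 0) (XT.lf (nat_lit 76) (nat_lit 578414317) (nat_lit 0) (nat_lit 629997267) (nat_lit 380) (nat_lit 5320799605) (nat_lit 242) (nat_lit 5) (nat_lit 241) (nat_lit 5) (nat_lit 246) (nat_lit 5) (nat_lit 267) (nat_lit 261) (nat_lit 252)) (XT.nd (nat_lit 78) (nat_lit 228) (nat_lit 0) (XT.lf (nat_lit 76) (nat_lit 3630831956) (nat_lit 0) (nat_lit 1312347) (nat_lit 380) (nat_lit 2921392896) (nat_lit 242) (nat_lit 5) (nat_lit 241) (nat_lit 5) (nat_lit 246) (nat_lit 5) (nat_lit 268) (nat_lit 261) (nat_lit 251)) (XT.lf (nat_lit 0) (nat_lit 138019028) (nat_lit 304) (nat_lit 5909218620) (nat_lit 380) (nat_lit 534180604) (nat_lit 238) (nat_lit 5) (nat_lit 242) (nat_lit 5) (nat_lit 243) (nat_lit 5) (nat_lit 269) (nat_lit 261) (nat_lit 250)))) (XT.nd (nat_lit 78) (nat_lit 380) (nat_lit 0) (XT.lf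 (nat_lit 0) (nat_lit 1828862582) (nat_lit 380) (nat_lit 3333848941) (nat_lit 76) (nat_lit 1448978685) (nat_lit 237) (nat_lit 5) (nat_lit 242) (nat_lit 5) (nat_lit 238) (nat_lit 5) (nat_lit 270) (nat_lit 261) (nat_lit 249)) (XT.nd (nat_lit 78) (nat_lit 380) (nat_lit 0) (XT.lf (nat_lit 0) (nat_lit 4166577596) (nat_lit 380) (nat_lit 190932259) (nat_lit 76) (nat_lit 2288118364) (nat_lit 237) (nat_lit 5) (nat_lit 242) (nat_lit 5) (nat_lit 238) (nat_lit 5) (nat_lit 271) (nat_lit 261) (nat_lit 248)) (XT.lf (nat_lit 0) (nat_lit 3052803112) (nat_lit 380) (nat_lit 3467973185) (nat_lit 456) (nat_lit 161759326) (nat_lit 232) (nat_lit 5) (nat_lit 237) (nat_lit 5) (nat_lit 238) (nat_lit 5) (nat_lit 272) (nat_lit 261) (nat_lit 247))))) (XT.nd (nat_lit 234) (nat_lit 1216) (nat_lit 0) (XT.nd (nat_lit 78) (nat_lit 456) (nat_lit 0) (XT.lf (nat_lit 0) (nat_lit 2101370168) (nat_lit 456) (nat_lit 398613889) (nat_lit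 76) (nat_lit 4222654588) (nat_lit 231) (nat_lit 5) (nat_lit 237) (nat_lit 5) (nat_lit 232) (nat_lit 5) (nat_lit 273) (nat_lit 261) (nat_lit 246)) (XT.nd (nat_lit 78) (nat_lit 0) (nat_lit 0) (XT.lf (nat_lit 0) (nat_lit 2932162195) (nat_lit 456) (nat_lit 1445351403) (nat_lit 532) (nat_lit 2388244789) (nat_lit 225) (nat_lit 5) (nat_lit 231) (nat_lit 5) (nat_lit 232) (nat_lit 5) (nat_lit 274) (nat_lit 261) (nat_lit 245)) (XT.lf (nat_lit 0) (nat_lit 6318659737) (nat_lit 456) (nat_lit 329313581) (nat_lit 532) (nat_lit 164721147) (nat_lit 225) (nat_lit 5) (nat_lit 231) (nat_lit 5) (nat_lit 232) (nat_lit 5) (nat_lit 275) (nat_lit 261) (nat_lit 244)))) (XT.nd (nat_lit 78) (nat_lit 608) (nat_lit 0) (XT.lf (nat_lit 0) (nat_lit 2044031524) (nat_lit 608) (nat_lit 3940975846) (nat_lit 76) (nat_lit 876904585) (nat_lit 217) (nat_lit 5) (nat_lit 225) (nat_lit 5) (nat_lit 218) (nat_lit 5) (nat_lit 276) (nat_lit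 261) (nat_lit 243)) (XT.nd (nat_lit 78) (nat_lit 608) (nat_lit 0) (XT.lf (nat_lit 0) (nat_lit 4249228775) (nat_lit 608) (nat_lit 523807738) (nat_lit 76) (nat_lit 2141793678) (nat_lit 217) (nat_lit 5) (nat_lit 225) (nat_lit 5) (nat_lit 218) (nat_lit 5) (nat_lit 277) (nat_lit 261) (nat_lit 242)) (XT.lf (nat_lit 0) (nat_lit 3001143476) (nat_lit 608) (nat_lit 3475660133) (nat_lit 684) (nat_lit 494115552) (nat_lit 209) (nat_lit 5) (nat_lit 217) (nat_lit 5) (nat_lit 218) (nat_lit 5) (nat_lit 278) (nat_lit 261) (nat_lit 241))))))))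
noncomputable def xc114 : XT := (XT.nd (nat_lit 1716) (nat_lit 4028) (nat_lit 0) (XT.nd (nat_lit 858) (nat_lit 2736) (nat_lit 0) (XT.nd (nat_lit 390) (nat_lit 3952) (nat_lit 0) (XT.nd (nat_lit 156) (nat_lit 836) (nat_lit 0) (XT.nd (nat_lit 78) (nat_lit 684) (nat_lit 0) (XT.lf (nat_lit 0) (nat_lit 1641874834) (nat_lit 684) (nat_lit 457213261) (nat_lit 76) (nat_lit 4931353668) (nat_lit 208) (nat_lit 5) (nat_lit 217) (nat_lit 5) (nat_lit 209) (nat_lit 5) (nat_lit 279) (nat_lit 261) (nat_lit 240)) (XT.lf (nat_lit 0) (nat_lit 3164715573) (nat_lit 684) (nat_lit 627836674) (nat_lit 760) (nat_lit 3300481810) (nat_lit 199) (nat_lit 5) (nat_lit 208) (nat_lit 5) (nat_lit 209) (nat_lit 5) (nat_lit 280) (nat_lit 261) (nat_lit 239))) (XT.nd (nat_lit 78) (nat_lit 836) (nat_lit 0) (XT.lf (nat_lit 0) (nat_lit 5952747625) (nat_lit 760) (nat_lit 316067208) (nat_lit 76) (nat_lit 890579105) (nat_lit 199) (nat_lit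 5) (nat_lit 209) (nat_lit 5) (nat_lit 200) (nat_lit 5) (nat_lit 281) (nat_lit 261) (nat_lit 238)) (XT.nd (nat_lit 78) (nat_lit 0) (nat_lit 0) (XT.lf (nat_lit 0) (nat_lit 903769936) (nat_lit 836) (nat_lit 3825946532) (nat_lit 76) (nat_lit 2498811058) (nat_lit 188) (nat_lit 5) (nat_lit 199) (nat_lit 5) (nat_lit 189) (nat_lit 5) (nat_lit 282) (nat_lit 261) (nat_lit 237)) (XT.lf (nat_lit 0) (nat_lit 2990818138) (nat_lit 836) (nat_lit 126557452) (nat_lit 76) (nat_lit 4184093369) (nat_lit 188) (nat_lit 5) (nat_lit 199) (nat_lit 5) (nat_lit 189) (nat_lit 5) (nat_lit 283) (nat_lit 261) (nat_lit 236))))) (XT.nd (nat_lit 234) (nat_lit 2128) (nat_lit 0) (XT.nd (nat_lit 78) (nat_lit 988) (nat_lit 0) (XT.lf (nat_lit 0) (nat_lit 3703452653) (nat_lit 836) (nat_lit 1408885761) (nat_lit 912) (nat_lit 2265317413) (nat_lit 177) (nat_lit 5) (nat_lit 188) (nat_lit 5) (nat_lit 189) (nat_lit 5) (nat_lit 284) (nat_lit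 261) (nat_lit 235)) (XT.nd (nat_lit 78) (nat_lit 76) (nat_lit 0) (XT.lf (nat_lit 0) (nat_lit 139923049) (nat_lit 912) (nat_lit 7101304635) (nat_lit 988) (nat_lit 216795721) (nat_lit 165) (nat_lit 5) (nat_lit 177) (nat_lit 5) (nat_lit 178) (nat_lit 5) (nat_lit 285) (nat_lit 261) (nat_lit 234)) (XT.lf (nat_lit 0) (nat_lit 1845869521) (nat_lit 988) (nat_lit 3483595282) (nat_lit 76) (nat_lit 2211297271) (nat_lit 164) (nat_lit 5) (nat_lit 177) (nat_lit 5) (nat_lit 165) (nat_lit 5) (nat_lit 286) (nat_lit 261) (nat_lit 233)))) (XT.nd (nat_lit 78) (nat_lit 1140) (nat_lit 0) (XT.lf (nat_lit 0) (nat_lit 418388120) (nat_lit 988) (nat_lit 3491702413) (nat_lit 1064) (nat_lit 3717696237) (nat_lit 151) (nat_lit 5) (nat_lit 164) (nat_lit 5) (nat_lit 165) (nat_lit 5) (nat_lit 287) (nat_lit 261) (nat_lit 232)) (XT.nd (nat_lit 78) (nat_lit 1140) (nat_lit 0) (XT.lf (nat_lit 0) (nat_lit 4455791964) (nat_lit 988)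 (nat_lit 1556872381) (nat_lit 1064) (nat_lit 1705648822) (nat_lit 151) (nat_lit 5) (nat_lit 164) (nat_lit 5) (nat_lit 165) (nat_lit 5) (nat_lit 288) (nat_lit 261) (nat_lit 231)) (XT.lf (nat_lit 0) (nat_lit 313487261) (nat_lit 1140) (nat_lit 7056218026) (nat_lit 76) (nat_lit 443300978) (nat_lit 136) (nat_lit 5) (nat_lit 151) (nat_lit 5) (nat_lit 137) (nat_lit 5) (nat_lit 289) (nat_lit 261) (nat_lit 230)))))) (XT.nd (nat_lit 390) (nat_lit 1520) (nat_lit 0) (XT.nd (nat_lit 156) (nat_lit 608) (nat_lit 0) (XT.nd (nat_lit 78) (nat_lit 608) (nat_lit 0) (XT.lf (nat_lit 0) (nat_lit 2351042951) (nat_lit 1140) (nat_lit 3032841552) (nat_lit 76) (nat_lit 2526553358) (nat_lit 136) (nat_lit 5) (nat_lit 151) (nat_lit 5) (nat_lit 137) (nat_lit 5) (nat_lit 290) (nat_lit 261) (nat_lit 229)) (XT.lf (nat_lit 0) (nat_lit 1079666712) (nat_lit 608) (nat_lit 3325525891) (nat_lit 684) (nat_lit 3607099039) (nat_lit 128)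 (nat_lit 5) (nat_lit 136) (nat_lit 5) (nat_lit 137) (nat_lit 5) (nat_lit 291) (nat_lit 261) (nat_lit 228))) (XT.nd (nat_lit 78) (nat_lit 608) (nat_lit 0) (XT.lf (nat_lit 0) (nat_lit 5325598869) (nat_lit 608) (nat_lit 1172180832) (nat_lit 684) (nat_lit 1620275446) (nat_lit 128) (nat_lit 5) (nat_lit 136) (nat_lit 5) (nat_lit 137) (nat_lit 5) (nat_lit 292) (nat_lit 261) (nat_lit 227)) (XT.nd (nat_lit 78) (nat_lit 0) (nat_lit 0) (XT.lf (nat_lit 0) (nat_lit 389047165) (nat_lit 608) (nat_lit 6794233732) (nat_lit 76) (nat_lit 1044600865) (nat_lit 120) (nat_lit 5) (nat_lit 128) (nat_lit 5) (nat_lit 121) (nat_lit 5) (nat_lit 293) (nat_lit 261) (nat_lit 226)) (XT.lf (nat_lit 0) (nat_lit 2414306721) (nat_lit 608) (nat_lit 2577310998) (nat_lit 76) (nat_lit 3349402543) (nat_lit 120) (nat_lit 5) (nat_lit 128) (nat_lit 5) (nat_lit 121) (nat_lit 5) (nat_lit 294) (nat_lit 261) (nat_lit 225))))) (XT.nd (nat_lit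 234) (nat_lit 532) (nat_lit 0) (XT.nd (nat_lit 78) (nat_lit 456) (nat_lit 0) (XT.lf (nat_lit 0) (nat_lit 1748783727) (nat_lit 532) (nat_lit 2718001124) (nat_lit 608) (nat_lit 3991915066) (nat_lit 113) (nat_lit 5) (nat_lit 120) (nat_lit 5) (nat_lit 121) (nat_lit 5) (nat_lit 295) (nat_lit 261) (nat_lit 224)) (XT.nd (nat_lit 78) (nat_lit 456) (nat_lit 0) (XT.lf (nat_lit 0) (nat_lit 6206537401) (nat_lit 532) (nat_lit 350952793) (nat_lit 608) (nat_lit 2023256906) (nat_lit 113) (nat_lit 5) (nat_lit 120) (nat_lit 5) (nat_lit 121) (nat_lit 5) (nat_lit 296) (nat_lit 261) (nat_lit 223)) (XT.lf (nat_lit 0) (nat_lit 2060688805) (nat_lit 456) (nat_lit 6642149393) (nat_lit 532) (nat_lit 3992598) (nat_lit 107) (nat_lit 5) (nat_lit 113) (nat_lit 5) (nat_lit 114) (nat_lit 5) (nat_lit 297) (nat_lit 261) (nat_lit 222)))) (XT.nd (nat_lit 78) (nat_lit 456) (nat_lit 0) (XT.lf (nat_lit 0) (nat_lit 2015398498) (nat_lit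 532) (nat_lit 2233941897) (nat_lit 76) (nat_lit 4587481413) (nat_lit 106) (nat_lit 5) (nat_lit 113) (nat_lit 5) (nat_lit 107) (nat_lit 5) (nat_lit 298) (nat_lit 261) (nat_lit 221)) (XT.nd (nat_lit 78) (nat_lit 0) (nat_lit 0) (XT.lf (nat_lit 0) (nat_lit 2305474841) (nat_lit 456) (nat_lit 1765734328) (nat_lit 532) (nat_lit 4900346132) (nat_lit 100) (nat_lit 5) (nat_lit 106) (nat_lit 5) (nat_lit 107) (nat_lit 5) (nat_lit 299) (nat_lit 261) (nat_lit 220)) (XT.lf (nat_lit 0) (nat_lit 6173678593) (nat_lit 532) (nat_lit 2141671777) (nat_lit 76) (nat_lit 795548833) (nat_lit 100) (nat_lit 5) (nat_lit 107) (nat_lit 5) (nat_lit 101) (nat_lit 5) (nat_lit 300) (nat_lit 261) (nat_lit 219))))))) (XT.nd (nat_lit 858) (nat_lit 1596) (nat_lit 0) (XT.nd (nat_lit 390) (nat_lit 1140) (nat_lit 0) (XT.nd (nat_lit 156) (nat_lit 836) (nat_lit 0) (XT.nd (nat_lit 78) (nat_lit 76) (nat_lit 0) (XT.lf (nat_lit 0) (nat_lit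 2500216387) (nat_lit 380) (nat_lit 5836430391) (nat_lit 456) (nat_lit 917968408) (nat_lit 95) (nat_lit 5) (nat_lit 100) (nat_lit 5) (nat_lit 101) (nat_lit 5) (nat_lit 301) (nat_lit 261) (nat_lit 218)) (XT.lf (nat_lit 0) (nat_lit 1117213619) (nat_lit 456) (nat_lit 2138165712) (nat_lit 76) (nat_lit 6147695464) (nat_lit 94) (nat_lit 5) (nat_lit 100) (nat_lit 5) (nat_lit 95) (nat_lit 5) (nat_lit 302) (nat_lit 261) (nat_lit 217))) (XT.nd (nat_lit 78) (nat_lit 380) (nat_lit 0) (XT.lf (nat_lit 0) (nat_lit 2609797378) (nat_lit 456) (nat_lit 567750199) (nat_lit 532) (nat_lit 6378796336) (nat_lit 88) (nat_lit 5) (nat_lit 94) (nat_lit 5) (nat_lit 95) (nat_lit 5) (nat_lit 303) (nat_lit 261) (nat_lit 216)) (XT.nd (nat_lit 78) (nat_lit 380) (nat_lit 0) (XT.lf (nat_lit 0) (nat_lit 5300824403) (nat_lit 532) (nat_lit 2240311992) (nat_lit 76) (nat_lit 2173142459) (nat_lit 88) (nat_lit 5) (nat_lit 95) (nat_lit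 5) (nat_lit 89) (nat_lit 5) (nat_lit 304) (nat_lit 261) (nat_lit 215)) (XT.lf (nat_lit 0) (nat_lit 2604335559) (nat_lit 380) (nat_lit 4873513094) (nat_lit 456) (nat_lit 2399500488) (nat_lit 83) (nat_lit 5) (nat_lit 88) (nat_lit 5) (nat_lit 89) (nat_lit 5) (nat_lit 305) (nat_lit 261) (nat_lit 214))))) (XT.nd (nat_lit 234) (nat_lit 684) (nat_lit 0) (XT.nd (nat_lit 78) (nat_lit 456) (nat_lit 0) (XT.lf (nat_lit 0) (nat_lit 7592744353) (nat_lit 380) (nat_lit 2110181497) (nat_lit 456) (nat_lit 342999317) (nat_lit 83) (nat_lit 5) (nat_lit 88) (nat_lit 5) (nat_lit 89) (nat_lit 5) (nat_lit 306) (nat_lit 261) (nat_lit 213)) (XT.nd (nat_lit 78) (nat_lit 0) (nat_lit 0) (XT.lf (nat_lit 0) (nat_lit 1732761809) (nat_lit 456) (nat_lit 7731102541) (nat_lit 76) (nat_lit 755506422) (nat_lit 77) (nat_lit 5) (nat_lit 83) (nat_lit 5) (nat_lit 78) (nat_lit 5) (nat_lit 307) (nat_lit 261) (nat_lit 212)) (XT.lf (nat_lit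 0) (nat_lit 3871235802) (nat_lit 456) (nat_lit 2841256332) (nat_lit 76) (nat_lit 3685293470) (nat_lit 77) (nat_lit 5) (nat_lit 83) (nat_lit 5) (nat_lit 78) (nat_lit 5) (nat_lit 308) (nat_lit 261) (nat_lit 211)))) (XT.nd (nat_lit 78) (nat_lit 380) (nat_lit 0) (XT.lf (nat_lit 0) (nat_lit 2191749217) (nat_lit 304) (nat_lit 3865730325) (nat_lit 380) (nat_lit 4524650076) (nat_lit 73) (nat_lit 5) (nat_lit 77) (nat_lit 5) (nat_lit 78) (nat_lit 5) (nat_lit 309) (nat_lit 261) (nat_lit 210)) (XT.nd (nat_lit 78) (nat_lit 380) (nat_lit 0) (XT.lf (nat_lit 0) (nat_lit 7388136905) (nat_lit 304) (nat_lit 913062013) (nat_lit 380) (nat_lit 2471131102) (nat_lit 73) (nat_lit 5) (nat_lit 77) (nat_lit 5) (nat_lit 78) (nat_lit 5) (nat_lit 310) (nat_lit 261) (nat_lit 209)) (XT.lf (nat_lit 0) (nat_lit 1740094546) (nat_lit 380) (nat_lit 8873504302) (nat_lit 456) (nat_lit 354676829) (nat_lit 68) (nat_lit 5) (nat_lit 73)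 (nat_lit 5) (nat_lit 74) (nat_lit 5) (nat_lit 311) (nat_lit 261) (nat_lit 208)))))) (XT.nd (nat_lit 468) (nat_lit 836) (nat_lit 0) (XT.nd (nat_lit 234) (nat_lit 380) (nat_lit 0) (XT.nd (nat_lit 78) (nat_lit 304) (nat_lit 0) (XT.lf (nat_lit 0) (nat_lit 1797574694) (nat_lit 456) (nat_lit 4154436465) (nat_lit 76) (nat_lit 5217400240) (nat_lit 67) (nat_lit 5) (nat_lit 73) (nat_lit 5) (nat_lit 68) (nat_lit 5) (nat_lit 312) (nat_lit 261) (nat_lit 207)) (XT.nd (nat_lit 78) (nat_lit 0) (nat_lit 0) (XT.lf (nat_lit 0) (nat_lit 1043793310) (nat_lit 304) (nat_lit 2938912127) (nat_lit 380) (nat_lit 7394580691) (nat_lit 63) (nat_lit 5) (nat_lit 67) (nat_lit 5) (nat_lit 68) (nat_lit 5) (nat_lit 313) (nat_lit 261) (nat_lit 206)) (XT.lf (nat_lit 0) (nat_lit 6243231687) (nat_lit 380) (nat_lit 5154144969) (nat_lit 76) (nat_lit 193796553) (nat_lit 63) (nat_lit 5) (nat_lit 68) (nat_lit 5) (nat_lit 64) (nat_lit 5)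 (nat_lit 314) (nat_lit 261) (nat_lit 205)))) (XT.nd (nat_lit 78) (nat_lit 76) (nat_lit 0) (XT.lf (nat_lit 0) (nat_lit 109801719) (nat_lit 304) (nat_lit 8458811561) (nat_lit 380) (nat_lit 3243021710) (nat_lit 59) (nat_lit 5) (nat_lit 63) (nat_lit 5) (nat_lit 64) (nat_lit 5) (nat_lit 315) (nat_lit 261) (nat_lit 204)) (XT.nd (nat_lit 78) (nat_lit 76) (nat_lit 0) (XT.lf (nat_lit 0) (nat_lit 5593925311) (nat_lit 304) (nat_lit 5389311039) (nat_lit 380) (nat_lit 1054957134) (nat_lit 59) (nat_lit 5) (nat_lit 63) (nat_lit 5) (nat_lit 64) (nat_lit 5) (nat_lit 316) (nat_lit 261) (nat_lit 203)) (XT.lf (nat_lit 0) (nat_lit 1143362199) (nat_lit 380) (nat_lit 1083331845) (nat_lit 76) (nat_lit 10045532250) (nat_lit 58) (nat_lit 5) (nat_lit 63) (nat_lit 5) (nat_lit 59) (nat_lit 5) (nat_lit 317) (nat_lit 261) (nat_lit 202))))) (XT.nd (nat_lit 234) (nat_lit 304) (nat_lit 0) (XT.nd (nat_lit 78) (nat_lit 304) (nat_lit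 0) (XT.lf (nat_lit 0) (nat_lit 3408704857) (nat_lit 304) (nat_lit 8049306421) (nat_lit 76) (nat_lit 1054348691) (nat_lit 55) (nat_lit 5) (nat_lit 59) (nat_lit 5) (nat_lit 56) (nat_lit 5) (nat_lit 318) (nat_lit 261) (nat_lit 201)) (XT.nd (nat_lit 78) (nat_lit 304) (nat_lit 0) (XT.lf (nat_lit 0) (nat_lit 5744445570) (nat_lit 304) (nat_lit 2625538149) (nat_lit 76) (nat_lit 4389700558) (nat_lit 55) (nat_lit 5) (nat_lit 59) (nat_lit 5) (nat_lit 56) (nat_lit 5) (nat_lit 319) (nat_lit 261) (nat_lit 200)) (XT.lf (nat_lit 0) (nat_lit 2978232377) (nat_lit 304) (nat_lit 5170891090) (nat_lit 380) (nat_lit 4865396917) (nat_lit 51) (nat_lit 5) (nat_lit 55) (nat_lit 5) (nat_lit 56) (nat_lit 5) (nat_lit 320) (nat_lit 261) (nat_lit 199)))) (XT.nd (nat_lit 78) (nat_lit 304) (nat_lit 0) (XT.lf (nat_lit 0) (nat_lit 8763510407) (nat_lit 304) (nat_lit 1859658748) (nat_lit 380) (nat_lit 2653971924) (nat_lit 51) (nat_lit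 5) (nat_lit 55) (nat_lit 5) (nat_lit 56) (nat_lit 5) (nat_lit 321) (nat_lit 261) (nat_lit 198)) (XT.nd (nat_lit 78) (nat_lit 76) (nat_lit 0) (XT.lf (nat_lit 0) (nat_lit 1142030427) (nat_lit 228) (nat_lit 12026755645) (nat_lit 304) (nat_lit 378988515) (nat_lit 48) (nat_lit 5) (nat_lit 51) (nat_lit 5) (nat_lit 52) (nat_lit 5) (nat_lit 322) (nat_lit 261) (nat_lit 197)) (XT.lf (nat_lit 0) (nat_lit 1961940906) (nat_lit 304) (nat_lit 6843295828) (nat_lit 76) (nat_lit 5019694690) (nat_lit 47) (nat_lit 5) (nat_lit 51) (nat_lit 5) (nat_lit 48) (nat_lit 5) (nat_lit 323) (nat_lit 261) (nat_lit 196))))))))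
noncomputable def xc115 : XT := (XT.nd (nat_lit 1794) (nat_lit 912) (nat_lit 0) (XT.nd (nat_lit 858) (nat_lit 836) (nat_lit 0) (XT.nd (nat_lit 390) (nat_lit 456) (nat_lit 0) (XT.nd (nat_lit 156) (nat_lit 228) (nat_lit 0) (XT.nd (nat_lit 78) (nat_lit 228) (nat_lit 0) (XT.lf (nat_lit 0) (nat_lit 4337892022) (nat_lit 304) (nat_lit 1156830484) (nat_lit 76) (nat_lit 8616445603) (nat_lit 47) (nat_lit 5) (nat_lit 51) (nat_lit 5) (nat_lit 48) (nat_lit 5) (nat_lit 324) (nat_lit 261) (nat_lit 195)) (XT.lf (nat_lit 0) (nat_lit 4755051886) (nat_lit 228) (nat_lit 2048992916) (nat_lit 304) (nat_lit 7601427987) (nat_lit 44) (nat_lit 5) (nat_lit 47) (nat_lit 5) (nat_lit 48) (nat_lit 5) (nat_lit 325) (nat_lit 261) (nat_lit 194))) (XT.nd (nat_lit 78) (nat_lit 228) (nat_lit 0) (XT.lf (nat_lit 0) (nat_lit 9343925047) (nat_lit 304) (nat_lit 3893110334) (nat_lit 76) (nat_lit 1471626117) (nat_lit 44) (nat_lit 5) (nat_lit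 48) (nat_lit 5) (nat_lit 45) (nat_lit 5) (nat_lit 326) (nat_lit 261) (nat_lit 193)) (XT.nd (nat_lit 78) (nat_lit 0) (nat_lit 0) (XT.lf (nat_lit 0) (nat_lit 2018819980) (nat_lit 228) (nat_lit 9955171550) (nat_lit 304) (nat_lit 3046580444) (nat_lit 41) (nat_lit 5) (nat_lit 44) (nat_lit 5) (nat_lit 45) (nat_lit 5) (nat_lit 327) (nat_lit 261) (nat_lit 192)) (XT.lf (nat_lit 0) (nat_lit 8151070960) (nat_lit 228) (nat_lit 6545892958) (nat_lit 304) (nat_lit 644500193) (nat_lit 41) (nat_lit 5) (nat_lit 44) (nat_lit 5) (nat_lit 45) (nat_lit 5) (nat_lit 328) (nat_lit 261) (nat_lit 191))))) (XT.nd (nat_lit 234) (nat_lit 152) (nat_lit 0) (XT.nd (nat_lit 78) (nat_lit 228) (nat_lit 0) (XT.lf (nat_lit 0) (nat_lit 1769082220) (nat_lit 304) (nat_lit 1258586926) (nat_lit 76) (nat_lit 12644573873) (nat_lit 40) (nat_lit 5) (nat_lit 44) (nat_lit 5) (nat_lit 41) (nat_lit 5) (nat_lit 329) (nat_lit 261) (nat_lit 190))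 (XT.nd (nat_lit 78) (nat_lit 0) (nat_lit 0) (XT.lf (nat_lit 0) (nat_lit 4271290635) (nat_lit 304) (nat_lit 11112993899) (nat_lit 76) (nat_lit 627634845) (nat_lit 37) (nat_lit 5) (nat_lit 41) (nat_lit 5) (nat_lit 38) (nat_lit 5) (nat_lit 330) (nat_lit 261) (nat_lit 189)) (XT.lf (nat_lit 0) (nat_lit 6867504343) (nat_lit 304) (nat_lit 5160092601) (nat_lit 76) (nat_lit 4333660424) (nat_lit 37) (nat_lit 5) (nat_lit 41) (nat_lit 5) (nat_lit 38) (nat_lit 5) (nat_lit 331) (nat_lit 261) (nat_lit 188)))) (XT.nd (nat_lit 78) (nat_lit 0) (nat_lit 0) (XT.lf (nat_lit 0) (nat_lit 955528777) (nat_lit 152) (nat_lit 8572083163) (nat_lit 228) (nat_lit 7193921688) (nat_lit 35) (nat_lit 5) (nat_lit 37) (nat_lit 5) (nat_lit 38) (nat_lit 5) (nat_lit 332) (nat_lit 261) (nat_lit 187)) (XT.nd (nat_lit 78) (nat_lit 0) (nat_lit 0) (XT.lf (nat_lit 0) (nat_lit 7326221230) (nat_lit 152) (nat_lit 4970577277) (nat_lit 228)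 (nat_lit 4794978637) (nat_lit 35) (nat_lit 5) (nat_lit 37) (nat_lit 5) (nat_lit 38) (nat_lit 5) (nat_lit 333) (nat_lit 261) (nat_lit 186)) (XT.lf (nat_lit 0) (nat_lit 13854855421) (nat_lit 152) (nat_lit 1272039157) (nat_lit 228) (nat_lit 2346934525) (nat_lit 35) (nat_lit 5) (nat_lit 37) (nat_lit 5) (nat_lit 38) (nat_lit 5) (nat_lit 334) (nat_lit 261) (nat_lit 185)))))) (XT.nd (nat_lit 468) (nat_lit 380) (nat_lit 0) (XT.nd (nat_lit 234) (nat_lit 152) (nat_lit 0) (XT.nd (nat_lit 78) (nat_lit 0) (nat_lit 0) (XT.lf (nat_lit 0) (nat_lit 200191481) (nat_lit 304) (nat_lit 15160816450) (nat_lit 76) (nat_lit 2505447030) (nat_lit 31) (nat_lit 5) (nat_lit 35) (nat_lit 5) (nat_lit 32) (nat_lit 5) (nat_lit 335) (nat_lit 261) (nat_lit 184)) (XT.nd (nat_lit 78) (nat_lit 0) (nat_lit 0) (XT.lf (nat_lit 0) (nat_lit 2804511091) (nat_lit 304) (nat_lit 9044713115) (nat_lit 76) (nat_lit 6420132842) (nat_lit 31) (nat_lit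 5) (nat_lit 35) (nat_lit 5) (nat_lit 32) (nat_lit 5) (nat_lit 336) (nat_lit 261) (nat_lit 183)) (XT.lf (nat_lit 0) (nat_lit 5466038029) (nat_lit 304) (nat_lit 2777098611) (nat_lit 76) (nat_lit 10441869350) (nat_lit 31) (nat_lit 5) (nat_lit 35) (nat_lit 5) (nat_lit 32) (nat_lit 5) (nat_lit 337) (nat_lit 261) (nat_lit 182)))) (XT.nd (nat_lit 78) (nat_lit 0) (nat_lit 0) (XT.lf (nat_lit 0) (nat_lit 3720096092) (nat_lit 152) (nat_lit 4502761646) (nat_lit 228) (nat_lit 10889834438) (nat_lit 29) (nat_lit 5) (nat_lit 31) (nat_lit 5) (nat_lit 32) (nat_lit 5) (nat_lit 338) (nat_lit 261) (nat_lit 181)) (XT.nd (nat_lit 78) (nat_lit 0) (nat_lit 0) (XT.lf (nat_lit 0) (nat_lit 10438398047) (nat_lit 152) (nat_lit 632010548) (nat_lit 228) (nat_lit 8482589837) (nat_lit 29) (nat_lit 5) (nat_lit 31) (nat_lit 5) (nat_lit 32) (nat_lit 5) (nat_lit 339) (nat_lit 261) (nat_lit 180)) (XT.lf (nat_lit 0) (nat_lit 14016101248)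 (nat_lit 228) (nat_lit 2710867331) (nat_lit 76) (nat_lit 3279193236) (nat_lit 29) (nat_lit 5) (nat_lit 32) (nat_lit 5) (nat_lit 30) (nat_lit 5) (nat_lit 340) (nat_lit 261) (nat_lit 179))))) (XT.nd (nat_lit 234) (nat_lit 152) (nat_lit 0) (XT.nd (nat_lit 78) (nat_lit 76) (nat_lit 0) (XT.lf (nat_lit 0) (nat_lit 3925858386) (nat_lit 152) (nat_lit 13149336793) (nat_lit 228) (nat_lit 3397002547) (nat_lit 27) (nat_lit 5) (nat_lit 29) (nat_lit 5) (nat_lit 30) (nat_lit 5) (nat_lit 341) (nat_lit 261) (nat_lit 178)) (XT.nd (nat_lit 78) (nat_lit 76) (nat_lit 0) (XT.lf (nat_lit 0) (nat_lit 10788075478) (nat_lit 152) (nat_lit 9446667982) (nat_lit 228) (nat_lit 717238517) (nat_lit 27) (nat_lit 5) (nat_lit 29) (nat_lit 5) (nat_lit 30) (nat_lit 5) (nat_lit 342) (nat_lit 261) (nat_lit 177)) (XT.lf (nat_lit 0) (nat_lit 1984699212) (nat_lit 228) (nat_lit 3638360468) (nat_lit 76) (nat_lit 15823087698) (nat_lit 26)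 (nat_lit 5) (nat_lit 29) (nat_lit 5) (nat_lit 27) (nat_lit 5) (nat_lit 343) (nat_lit 261) (nat_lit 176)))) (XT.nd (nat_lit 78) (nat_lit 0) (nat_lit 0) (XT.lf (nat_lit 0) (nat_lit 3108625605) (nat_lit 152) (nat_lit 1656715768) (nat_lit 228) (nat_lit 17189246821) (nat_lit 24) (nat_lit 5) (nat_lit 26) (nat_lit 5) (nat_lit 27) (nat_lit 5) (nat_lit 344) (nat_lit 261) (nat_lit 175)) (XT.nd (nat_lit 78) (nat_lit 0) (nat_lit 0) (XT.lf (nat_lit 0) (nat_lit 7672189350) (nat_lit 228) (nat_lit 12396352180) (nat_lit 76) (nat_lit 2408481729) (nat_lit 24) (nat_lit 5) (nat_lit 27) (nat_lit 5) (nat_lit 25) (nat_lit 5) (nat_lit 345) (nat_lit 261) (nat_lit 174)) (XT.lf (nat_lit 0) (nat_lit 10665497456) (nat_lit 228) (nat_lit 5796906202) (nat_lit 76) (nat_lit 6552773980) (nat_lit 24) (nat_lit 5) (nat_lit 27) (nat_lit 5) (nat_lit 25) (nat_lit 5) (nat_lit 346) (nat_lit 261) (nat_lit 173))))))) (XT.nd (nat_lit 858)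 (nat_lit 380) (nat_lit 0) (XT.nd (nat_lit 390) (nat_lit 152) (nat_lit 0) (XT.nd (nat_lit 156) (nat_lit 228) (nat_lit 0) (XT.nd (nat_lit 78) (nat_lit 0) (nat_lit 0) (XT.lf (nat_lit 0) (nat_lit 993453063) (nat_lit 152) (nat_lit 12748052454) (nat_lit 228) (nat_lit 9828207318) (nat_lit 22) (nat_lit 5) (nat_lit 24) (nat_lit 5) (nat_lit 25) (nat_lit 5) (nat_lit 347) (nat_lit 261) (nat_lit 172)) (XT.lf (nat_lit 0) (nat_lit 8080157433) (nat_lit 152) (nat_lit 8871757909) (nat_lit 228) (nat_lit 7187727629) (nat_lit 22) (nat_lit 5) (nat_lit 24) (nat_lit 5) (nat_lit 25) (nat_lit 5) (nat_lit 348) (nat_lit 261) (nat_lit 171))) (XT.nd (nat_lit 78) (nat_lit 228) (nat_lit 0) (XT.lf (nat_lit 0) (nat_lit 15354029375) (nat_lit 152) (nat_lit 4888670357) (nat_lit 228) (nat_lit 4484471286) (nat_lit 22) (nat_lit 5) (nat_lit 24) (nat_lit 5) (nat_lit 25) (nat_lit 5) (nat_lit 349) (nat_lit 261) (nat_lit 170)) (XT.nd (nat_lit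 78) (nat_lit 228) (nat_lit 0) (XT.lf (nat_lit 0) (nat_lit 22821424697) (nat_lit 152) (nat_lit 795309430) (nat_lit 228) (nat_lit 1716076222) (nat_lit 22) (nat_lit 5) (nat_lit 24) (nat_lit 5) (nat_lit 25) (nat_lit 5) (nat_lit 350) (nat_lit 261) (nat_lit 169)) (XT.lf (nat_lit 0) (nat_lit 1175690100) (nat_lit 228) (nat_lit 21377789991) (nat_lit 76) (nat_lit 3400957134) (nat_lit 19) (nat_lit 5) (nat_lit 22) (nat_lit 5) (nat_lit 20) (nat_lit 5) (nat_lit 351) (nat_lit 261) (nat_lit 168))))) (XT.nd (nat_lit 234) (nat_lit 152) (nat_lit 0) (XT.nd (nat_lit 78) (nat_lit 0) (nat_lit 0) (XT.lf (nat_lit 0) (nat_lit 4138135660) (nat_lit 228) (nat_lit 14714705683) (nat_lit 76) (nat_lit 7740828742) (nat_lit 19) (nat_lit 5) (nat_lit 22) (nat_lit 5) (nat_lit 20) (nat_lit 5) (nat_lit 352) (nat_lit 261) (nat_lit 167)) (XT.nd (nat_lit 78) (nat_lit 0) (nat_lit 0) (XT.lf (nat_lit 0) (nat_lit 7174825625) (nat_lit 228)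 (nat_lit 7875456357) (nat_lit 76) (nat_lit 12202255688) (nat_lit 19) (nat_lit 5) (nat_lit 22) (nat_lit 5) (nat_lit 20) (nat_lit 5) (nat_lit 353) (nat_lit 261) (nat_lit 166)) (XT.lf (nat_lit 0) (nat_lit 10288413414) (nat_lit 228) (nat_lit 854065970) (nat_lit 76) (nat_lit 16789136305) (nat_lit 19) (nat_lit 5) (nat_lit 22) (nat_lit 5) (nat_lit 20) (nat_lit 5) (nat_lit 354) (nat_lit 261) (nat_lit 165)))) (XT.nd (nat_lit 78) (nat_lit 0) (nat_lit 0) (XT.lf (nat_lit 0) (nat_lit 6482089588) (nat_lit 152) (nat_lit 7061839857) (nat_lit 228) (nat_lit 15085698770) (nat_lit 17) (nat_lit 5) (nat_lit 19) (nat_lit 5) (nat_lit 20) (nat_lit 5) (nat_lit 355) (nat_lit 261) (nat_lit 164)) (XT.nd (nat_lit 78) (nat_lit 0) (nat_lit 0) (XT.lf (nat_lit 0) (nat_lit 14033691144) (nat_lit 152) (nat_lit 2858443752) (nat_lit 228) (nat_lit 12456612772) (nat_lit 17) (nat_lit 5) (nat_lit 19) (nat_lit 5) (nat_lit 20) (nat_lit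 5) (nat_lit 356) (nat_lit 261) (nat_lit 163)) (XT.lf (nat_lit 0) (nat_lit 20341643102) (nat_lit 228) (nat_lit 8313574922) (nat_lit 76) (nat_lit 1434213745) (nat_lit 17) (nat_lit 5) (nat_lit 20) (nat_lit 5) (nat_lit 18) (nat_lit 4) (nat_lit 357) (nat_lit 261) (nat_lit 162)))))) (XT.nd (nat_lit 468) (nat_lit 76) (nat_lit 0) (XT.nd (nat_lit 234) (nat_lit 228) (nat_lit 0) (XT.nd (nat_lit 78) (nat_lit 76) (nat_lit 0) (XT.lf (nat_lit 0) (nat_lit 23910040814) (nat_lit 228) (nat_lit 1151548637) (nat_lit 76) (nat_lit 5790301093) (nat_lit 17) (nat_lit 5) (nat_lit 20) (nat_lit 5) (nat_lit 18) (nat_lit 4) (nat_lit 358) (nat_lit 261) (nat_lit 161)) (XT.nd (nat_lit 78) (nat_lit 0) (nat_lit 0) (XT.lf (nat_lit 0) (nat_lit 6328244363) (nat_lit 76) (nat_lit 21305555530) (nat_lit 152) (nat_lit 4001989708) (nat_lit 16) (nat_lit 5) (nat_lit 17) (nat_lit 5) (nat_lit 18) (nat_lit 4) (nat_lit 359) (nat_lit 261) (nat_lit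 160)) (XT.lf (nat_lit 0) (nat_lit 14035657631) (nat_lit 76) (nat_lit 17432889786) (nat_lit 152) (nat_lit 974695285) (nat_lit 16) (nat_lit 5) (nat_lit 17) (nat_lit 5) (nat_lit 18) (nat_lit 4) (nat_lit 360) (nat_lit 261) (nat_lit 159)))) (XT.nd (nat_lit 78) (nat_lit 152) (nat_lit 0) (XT.lf (nat_lit 0) (nat_lit 2089465894) (nat_lit 152) (nat_lit 11341271315) (nat_lit 76) (nat_lit 19843942322) (nat_lit 15) (nat_lit 5) (nat_lit 17) (nat_lit 5) (nat_lit 16) (nat_lit 5) (nat_lit 361) (nat_lit 261) (nat_lit 158)) (XT.nd (nat_lit 78) (nat_lit 152) (nat_lit 0) (XT.lf (nat_lit 0) (nat_lit 5214188422) (nat_lit 152) (nat_lit 4092076236) (nat_lit 76) (nat_lit 24824872526) (nat_lit 15) (nat_lit 5) (nat_lit 17) (nat_lit 5) (nat_lit 16) (nat_lit 5) (nat_lit 362) (nat_lit 261) (nat_lit 157)) (XT.lf (nat_lit 0) (nat_lit 3422488865) (nat_lit 152) (nat_lit 5031632643) (nat_lit 228) (nat_lit 26558536621) (nat_lit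 13) (nat_lit 5) (nat_lit 15) (nat_lit 5) (nat_lit 16) (nat_lit 5) (nat_lit 363) (nat_lit 261) (nat_lit 156))))) (XT.nd (nat_lit 234) (nat_lit 76) (nat_lit 0) (XT.nd (nat_lit 78) (nat_lit 0) (nat_lit 0) (XT.lf (nat_lit 0) (nat_lit 11227668762) (nat_lit 152) (nat_lit 593628707) (nat_lit 228) (nat_lit 24098439124) (nat_lit 13) (nat_lit 5) (nat_lit 15) (nat_lit 5) (nat_lit 16) (nat_lit 5) (nat_lit 364) (nat_lit 261) (nat_lit 155)) (XT.nd (nat_lit 78) (nat_lit 0) (nat_lit 0) (XT.lf (nat_lit 0) (nat_lit 15316705083) (nat_lit 228) (nat_lit 17643690527) (nat_lit 76) (nat_lit 3892828158) (nat_lit 13) (nat_lit 5) (nat_lit 16) (nat_lit 5) (nat_lit 14) (nat_lit 4) (nat_lit 365) (nat_lit 261) (nat_lit 154)) (XT.lf (nat_lit 0) (nat_lit 18912155411) (nat_lit 228) (nat_lit 10407635397) (nat_lit 76) (nat_lit 8495081810) (nat_lit 13) (nat_lit 5) (nat_lit 16) (nat_lit 5) (nat_lit 14) (nat_lit 4) (nat_lit 366)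 (nat_lit 261) (nat_lit 153)))) (XT.nd (nat_lit 78) (nat_lit 76) (nat_lit 0) (XT.lf (nat_lit 0) (nat_lit 22605083787) (nat_lit 228) (nat_lit 2971873354) (nat_lit 76) (nat_lit 13228737468) (nat_lit 13) (nat_lit 5) (nat_lit 16) (nat_lit 5) (nat_lit 14) (nat_lit 4) (nat_lit 367) (nat_lit 261) (nat_lit 152)) (XT.nd (nat_lit 78) (nat_lit 0) (nat_lit 0) (XT.lf (nat_lit 0) (nat_lit 4763036877) (nat_lit 76) (nat_lit 21681465389) (nat_lit 152) (nat_lit 13380679685) (nat_lit 12) (nat_lit 5) (nat_lit 13) (nat_lit 5) (nat_lit 14) (nat_lit 4) (nat_lit 368) (nat_lit 261) (nat_lit 151)) (XT.lf (nat_lit 0) (nat_lit 12774211605) (nat_lit 76) (nat_lit 17644951932) (nat_lit 152) (nat_lit 10455499985) (nat_lit 12) (nat_lit 5) (nat_lit 13) (nat_lit 5) (nat_lit 14) (nat_lit 4) (nat_lit 369) (nat_lit 261) (nat_lit 150))))))))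
noncomputable def xc116 : XT := (XT.nd (nat_lit 1716) (nat_lit 76) (nat_lit 0) (XT.nd (nat_lit 858) (nat_lit 152) (nat_lit 0) (XT.nd (nat_lit 390) (nat_lit 76) (nat_lit 0) (XT.nd (nat_lit 156) (nat_lit 228) (nat_lit 0) (XT.nd (nat_lit 78) (nat_lit 0) (nat_lit 0) (XT.lf (nat_lit 0) (nat_lit 21009504779) (nat_lit 76) (nat_lit 13493899812) (nat_lit 152) (nat_lit 7452525833) (nat_lit 12) (nat_lit 5) (nat_lit 13) (nat_lit 5) (nat_lit 14) (nat_lit 4) (nat_lit 370) (nat_lit 261) (nat_lit 149)) (XT.lf (nat_lit 0) (nat_lit 29476112285) (nat_lit 76) (nat_lit 9224681898) (nat_lit 152) (nat_lit 4369133273) (nat_lit 12) (nat_lit 5) (nat_lit 13) (nat_lit 5) (nat_lit 14) (nat_lit 4) (nat_lit 371) (nat_lit 261) (nat_lit 148))) (XT.nd (nat_lit 78) (nat_lit 228) (nat_lit 0) (XT.lf (nat_lit 0) (nat_lit 38181432132) (nat_lit 76) (nat_lit 4833567804) (nat_lit 152) (nat_lit 1202628077) (nat_lit 12) (nat_lit 5) (nat_lit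 13) (nat_lit 5) (nat_lit 14) (nat_lit 4) (nat_lit 372) (nat_lit 261) (nat_lit 147)) (XT.nd (nat_lit 78) (nat_lit 0) (nat_lit 0) (XT.lf (nat_lit 0) (nat_lit 1747431130) (nat_lit 152) (nat_lit 279124716) (nat_lit 228) (nat_lit 43372384064) (nat_lit 9) (nat_lit 5) (nat_lit 11) (nat_lit 5) (nat_lit 12) (nat_lit 5) (nat_lit 373) (nat_lit 261) (nat_lit 146)) (XT.lf (nat_lit 0) (nat_lit 5423532507) (nat_lit 228) (nat_lit 36795577569) (nat_lit 76) (nat_lit 4393380769) (nat_lit 9) (nat_lit 5) (nat_lit 12) (nat_lit 5) (nat_lit 10) (nat_lit 4) (nat_lit 374) (nat_lit 261) (nat_lit 145))))) (XT.nd (nat_lit 234) (nat_lit 76) (nat_lit 0) (XT.nd (nat_lit 78) (nat_lit 0) (nat_lit 0) (XT.lf (nat_lit 0) (nat_lit 8916561913) (nat_lit 228) (nat_lit 29751389287) (nat_lit 76) (nat_lit 9194682086) (nat_lit 9) (nat_lit 5) (nat_lit 12) (nat_lit 5) (nat_lit 10) (nat_lit 4) (nat_lit 375) (nat_lit 261) (nat_lit 144)) (XT.nd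 (nat_lit 78) (nat_lit 0) (nat_lit 0) (XT.lf (nat_lit 0) (nat_lit 12506013108) (nat_lit 228) (nat_lit 22510105703) (nat_lit 76) (nat_lit 14134421274) (nat_lit 9) (nat_lit 5) (nat_lit 12) (nat_lit 5) (nat_lit 10) (nat_lit 4) (nat_lit 376) (nat_lit 261) (nat_lit 143)) (XT.lf (nat_lit 0) (nat_lit 16195022506) (nat_lit 228) (nat_lit 15065399482) (nat_lit 76) (nat_lit 19216914610) (nat_lit 9) (nat_lit 5) (nat_lit 12) (nat_lit 5) (nat_lit 10) (nat_lit 4) (nat_lit 377) (nat_lit 261) (nat_lit 142)))) (XT.nd (nat_lit 78) (nat_lit 76) (nat_lit 0) (XT.lf (nat_lit 0) (nat_lit 19986813512) (nat_lit 228) (nat_lit 7410765541) (nat_lit 76) (nat_lit 24446603108) (nat_lit 9) (nat_lit 5) (nat_lit 12) (nat_lit 5) (nat_lit 10) (nat_lit 4) (nat_lit 378) (nat_lit 261) (nat_lit 141)) (XT.nd (nat_lit 78) (nat_lit 0) (nat_lit 0) (XT.lf (nat_lit 0) (nat_lit 469649182) (nat_lit 76) (nat_lit 23419564716) (nat_lit 152) (nat_lit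 29362921770) (nat_lit 8) (nat_lit 5) (nat_lit 9) (nat_lit 5) (nat_lit 10) (nat_lit 4) (nat_lit 379) (nat_lit 261) (nat_lit 140)) (XT.lf (nat_lit 0) (nat_lit 8725494668) (nat_lit 76) (nat_lit 19250466043) (nat_lit 152) (nat_lit 26724356845) (nat_lit 8) (nat_lit 5) (nat_lit 9) (nat_lit 5) (nat_lit 10) (nat_lit 4) (nat_lit 380) (nat_lit 261) (nat_lit 139)))))) (XT.nd (nat_lit 390) (nat_lit 152) (nat_lit 0) (XT.nd (nat_lit 156) (nat_lit 0) (nat_lit 0) (XT.nd (nat_lit 78) (nat_lit 0) (nat_lit 0) (XT.lf (nat_lit 0) (nat_lit 17216495996) (nat_lit 76) (nat_lit 14961474334) (nat_lit 152) (nat_lit 24014202532) (nat_lit 8) (nat_lit 5) (nat_lit 9) (nat_lit 5) (nat_lit 10) (nat_lit 4) (nat_lit 381) (nat_lit 261) (nat_lit 138)) (XT.lf (nat_lit 0) (nat_lit 25950072487) (nat_lit 76) (nat_lit 10548841927) (nat_lit 152) (nat_lit 21230090735) (nat_lit 8) (nat_lit 5) (nat_lit 9) (nat_lit 5) (nat_lit 10) (nat_lit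 4) (nat_lit 382) (nat_lit 261) (nat_lit 137))) (XT.nd (nat_lit 78) (nat_lit 0) (nat_lit 0) (XT.lf (nat_lit 0) (nat_lit 34933855422) (nat_lit 76) (nat_lit 6008713122) (nat_lit 152) (nat_lit 18369588736) (nat_lit 8) (nat_lit 5) (nat_lit 9) (nat_lit 5) (nat_lit 10) (nat_lit 4) (nat_lit 383) (nat_lit 261) (nat_lit 136)) (XT.nd (nat_lit 78) (nat_lit 0) (nat_lit 0) (XT.lf (nat_lit 0) (nat_lit 44175694708) (nat_lit 76) (nat_lit 1337120818) (nat_lit 152) (nat_lit 15430197067) (nat_lit 8) (nat_lit 5) (nat_lit 9) (nat_lit 5) (nat_lit 10) (nat_lit 4) (nat_lit 384) (nat_lit 261) (nat_lit 135)) (XT.lf (nat_lit 0) (nat_lit 50247004706) (nat_lit 152) (nat_lit 8972686293) (nat_lit 0) (nat_lit 3402304430) (nat_lit 8) (nat_lit 5) (nat_lit 10) (nat_lit 4) (nat_lit 8) (nat_lit 4) (nat_lit 385) (nat_lit 261) (nat_lit 134))))) (XT.nd (nat_lit 234) (nat_lit 76) (nat_lit 0) (XT.nd (nat_lit 78) (nat_lit 76) (nat_lit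 0) (XT.lf (nat_lit 0) (nat_lit 55130084226) (nat_lit 152) (nat_lit 968407713) (nat_lit 0) (nat_lit 8252656575) (nat_lit 8) (nat_lit 5) (nat_lit 10) (nat_lit 4) (nat_lit 8) (nat_lit 4) (nat_lit 386) (nat_lit 261) (nat_lit 133)) (XT.nd (nat_lit 78) (nat_lit 0) (nat_lit 0) (XT.lf (nat_lit 0) (nat_lit 7409960117) (nat_lit 76) (nat_lit 52814736586) (nat_lit 76) (nat_lit 5905534783) (nat_lit 7) (nat_lit 4) (nat_lit 8) (nat_lit 5) (nat_lit 8) (nat_lit 4) (nat_lit 387) (nat_lit 261) (nat_lit 132)) (XT.lf (nat_lit 0) (nat_lit 16049000531) (nat_lit 76) (nat_lit 49426816572) (nat_lit 76) (nat_lit 2486766079) (nat_lit 7) (nat_lit 4) (nat_lit 8) (nat_lit 5) (nat_lit 8) (nat_lit 4) (nat_lit 388) (nat_lit 261) (nat_lit 131)))) (XT.nd (nat_lit 78) (nat_lit 0) (nat_lit 0) (XT.lf (nat_lit 0) (nat_lit 1008381313) (nat_lit 152) (nat_lit 44922986611) (nat_lit 76) (nat_lit 23918425004) (nat_lit 6) (nat_lit 5) (nat_lit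 8) (nat_lit 5) (nat_lit 7) (nat_lit 4) (nat_lit 389) (nat_lit 261) (nat_lit 130)) (XT.nd (nat_lit 78) (nat_lit 0) (nat_lit 0) (XT.lf (nat_lit 0) (nat_lit 4552579971) (nat_lit 152) (nat_lit 37757341185) (nat_lit 76) (nat_lit 29483139600) (nat_lit 6) (nat_lit 5) (nat_lit 8) (nat_lit 5) (nat_lit 7) (nat_lit 4) (nat_lit 390) (nat_lit 261) (nat_lit 129)) (XT.lf (nat_lit 0) (nat_lit 8197452529) (nat_lit 152) (nat_lit 30386480815) (nat_lit 76) (nat_lit 35210868454) (nat_lit 6) (nat_lit 5) (nat_lit 8) (nat_lit 5) (nat_lit 7) (nat_lit 4) (nat_lit 391) (nat_lit 261) (nat_lit 128))))))) (XT.nd (nat_lit 30888) (nat_lit 0) (nat_lit 15428) (XT.nd (nat_lit 390) (nat_lit 0) (nat_lit 0) (XT.nd (nat_lit 156) (nat_lit 76) (nat_lit 0) (XT.nd (nat_lit 78) (nat_lit 0) (nat_lit 0) (XT.lf (nat_lit 0) (nat_lit 11946183827) (nat_lit 152) (nat_lit 22803964941) (nat_lit 76) (nat_lit 41106616377) (nat_lit 6) (nat_lit 5)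 (nat_lit 8) (nat_lit 5) (nat_lit 7) (nat_lit 4) (nat_lit 392) (nat_lit 261) (nat_lit 127)) (XT.lf (nat_lit 0) (nat_lit 15802049456) (nat_lit 152) (nat_lit 15003168065) (nat_lit 76) (nat_lit 47175534993) (nat_lit 6) (nat_lit 5) (nat_lit 8) (nat_lit 5) (nat_lit 7) (nat_lit 4) (nat_lit 393) (nat_lit 261) (nat_lit 126))) (XT.nd (nat_lit 78) (nat_lit 76) (nat_lit 0) (XT.lf (nat_lit 0) (nat_lit 19768418619) (nat_lit 152) (nat_lit 6977273957) (nat_lit 76) (nat_lit 53422927242) (nat_lit 6) (nat_lit 5) (nat_lit 8) (nat_lit 5) (nat_lit 7) (nat_lit 4) (nat_lit 394) (nat_lit 261) (nat_lit 125)) (XT.nd (nat_lit 78) (nat_lit 0) (nat_lit 0) (XT.lf (nat_lit 0) (nat_lit 1306219344) (nat_lit 76) (nat_lit 22555093910) (nat_lit 152) (nat_lit 58560588843) (nat_lit 5) (nat_lit 5) (nat_lit 6) (nat_lit 5) (nat_lit 7) (nat_lit 4) (nat_lit 395) (nat_lit 261) (nat_lit 124)) (XT.lf (nat_lit 0) (nat_lit 9972663015) (nat_lit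 76) (nat_lit 18169830492) (nat_lit 152) (nat_lit 56598329221) (nat_lit 5) (nat_lit 5) (nat_lit 6) (nat_lit 5) (nat_lit 7) (nat_lit 4) (nat_lit 396) (nat_lit 261) (nat_lit 123))))) (XT.nd (nat_lit 30264) (nat_lit 0) (nat_lit 17936) (XT.nd (nat_lit 30108) (nat_lit 0) (nat_lit 18240) (XT.lf (nat_lit 0) (nat_lit 18890768242) (nat_lit 76) (nat_lit 13656527324) (nat_lit 152) (nat_lit 54582164522) (nat_lit 5) (nat_lit 5) (nat_lit 6) (nat_lit 5) (nat_lit 7) (nat_lit 4) (nat_lit 397) (nat_lit 261) (nat_lit 122)) (XT.nd (nat_lit 78) (nat_lit 228) (nat_lit 0) (XT.lf (nat_lit 0) (nat_lit 2062315872) (nat_lit 228) (nat_lit 583897527) (nat_lit 228) (nat_lit 583897527) (nat_lit 248) (nat_lit 3) (nat_lit 251) (nat_lit 3) (nat_lit 251) (nat_lit 5) (nat_lit 262) (nat_lit 262) (nat_lit 256)) (XT.lf (nat_lit 0) (nat_lit 189115597) (nat_lit 228) (nat_lit 4846231622) (nat_lit 304) (nat_lit 1435629314) (nat_lit 245)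 (nat_lit 5) (nat_lit 248) (nat_lit 3) (nat_lit 249) (nat_lit 5) (nat_lit 263) (nat_lit 262) (nat_lit 255)))) (XT.nd (nat_lit 78) (nat_lit 304) (nat_lit 0) (XT.lf (nat_lit 0) (nat_lit 2656558641) (nat_lit 228) (nat_lit 2033035766) (nat_lit 304) (nat_lit 1794793529) (nat_lit 245) (nat_lit 5) (nat_lit 248) (nat_lit 3) (nat_lit 249) (nat_lit 5) (nat_lit 264) (nat_lit 262) (nat_lit 254)) (XT.nd (nat_lit 78) (nat_lit 304) (nat_lit 0) (XT.lf (nat_lit 76) (nat_lit 829188848) (nat_lit 0) (nat_lit 4281690310) (nat_lit 304) (nat_lit 1390369904) (nat_lit 246) (nat_lit 5) (nat_lit 245) (nat_lit 5) (nat_lit 249) (nat_lit 5) (nat_lit 265) (nat_lit 262) (nat_lit 253)) (XT.lf (nat_lit 0) (nat_lit 1024918689) (nat_lit 304) (nat_lit 2763340622) (nat_lit 380) (nat_lit 2732644874) (nat_lit 241) (nat_lit 5) (nat_lit 245) (nat_lit 5) (nat_lit 246) (nat_lit 5) (nat_lit 266) (nat_lit 262) (nat_lit 252)))))) (XT.nd (nat_lit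 468) (nat_lit 1748) (nat_lit 0) (XT.nd (nat_lit 234) (nat_lit 380) (nat_lit 0) (XT.nd (nat_lit 78) (nat_lit 380) (nat_lit 0) (XT.lf (nat_lit 76) (nat_lit 170428849) (nat_lit 0) (nat_lit 3224504939) (nat_lit 380) (nat_lit 3148892069) (nat_lit 242) (nat_lit 5) (nat_lit 241) (nat_lit 5) (nat_lit 246) (nat_lit 5) (nat_lit 267) (nat_lit 262) (nat_lit 251)) (XT.nd (nat_lit 78) (nat_lit 380) (nat_lit 0) (XT.lf (nat_lit 76) (nat_lit 3197593391) (nat_lit 0) (nat_lit 2577105006) (nat_lit 380) (nat_lit 794962032) (nat_lit 242) (nat_lit 5) (nat_lit 241) (nat_lit 5) (nat_lit 246) (nat_lit 5) (nat_lit 268) (nat_lit 262) (nat_lit 250)) (XT.lf (nat_lit 0) (nat_lit 1509907014) (nat_lit 380) (nat_lit 348244032) (nat_lit 456) (nat_lit 4740648087) (nat_lit 236) (nat_lit 5) (nat_lit 241) (nat_lit 5) (nat_lit 242) (nat_lit 5) (nat_lit 269) (nat_lit 262) (nat_lit 249)))) (XT.nd (nat_lit 78) (nat_lit 380) (nat_lit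 0) (XT.lf (nat_lit 76) (nat_lit 2761947138) (nat_lit 0) (nat_lit 1047226373) (nat_lit 456) (nat_lit 2821517553) (nat_lit 237) (nat_lit 5) (nat_lit 236) (nat_lit 5) (nat_lit 242) (nat_lit 5) (nat_lit 270) (nat_lit 262) (nat_lit 248)) (XT.nd (nat_lit 78) (nat_lit 380) (nat_lit 0) (XT.lf (nat_lit 76) (nat_lit 5922705389) (nat_lit 0) (nat_lit 174914605) (nat_lit 456) (nat_lit 568655521) (nat_lit 237) (nat_lit 5) (nat_lit 236) (nat_lit 5) (nat_lit 242) (nat_lit 5) (nat_lit 271) (nat_lit 262) (nat_lit 247)) (XT.lf (nat_lit 0) (nat_lit 1666863540) (nat_lit 456) (nat_lit 4256089328) (nat_lit 76) (nat_lit 781314004) (nat_lit 231) (nat_lit 5) (nat_lit 237) (nat_lit 5) (nat_lit 232) (nat_lit 5) (nat_lit 272) (nat_lit 262) (nat_lit 246))))) (XT.nd (nat_lit 234) (nat_lit 1216) (nat_lit 0) (XT.nd (nat_lit 78) (nat_lit 532) (nat_lit 0) (XT.lf (nat_lit 0) (nat_lit 3887519049) (nat_lit 456) (nat_lit 1052580592)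 (nat_lit 76) (nat_lit 1805557225) (nat_lit 231) (nat_lit 5) (nat_lit 237) (nat_lit 5) (nat_lit 232) (nat_lit 5) (nat_lit 273) (nat_lit 262) (nat_lit 245)) (XT.nd (nat_lit 78) (nat_lit 76) (nat_lit 0) (XT.lf (nat_lit 0) (nat_lit 2239380755) (nat_lit 456) (nat_lit 3879449974) (nat_lit 532) (nat_lit 671440439) (nat_lit 225) (nat_lit 5) (nat_lit 231) (nat_lit 5) (nat_lit 232) (nat_lit 5) (nat_lit 274) (nat_lit 262) (nat_lit 244)) (XT.lf (nat_lit 0) (nat_lit 1483983460) (nat_lit 532) (nat_lit 1252190171) (nat_lit 76) (nat_lit 4101861437) (nat_lit 224) (nat_lit 5) (nat_lit 231) (nat_lit 5) (nat_lit 225) (nat_lit 5) (nat_lit 275) (nat_lit 262) (nat_lit 243)))) (XT.nd (nat_lit 78) (nat_lit 684) (nat_lit 0) (XT.lf (nat_lit 0) (nat_lit 2129244674) (nat_lit 532) (nat_lit 1507273051) (nat_lit 608) (nat_lit 3252414366) (nat_lit 217) (nat_lit 5) (nat_lit 224) (nat_lit 5) (nat_lit 225) (nat_lit 5) (nat_lit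 276) (nat_lit 262) (nat_lit 242)) (XT.nd (nat_lit 78) (nat_lit 684) (nat_lit 0) (XT.lf (nat_lit 0) (nat_lit 5587164775) (nat_lit 532) (nat_lit 206267210) (nat_lit 608) (nat_lit 1149999757) (nat_lit 217) (nat_lit 5) (nat_lit 224) (nat_lit 5) (nat_lit 225) (nat_lit 5) (nat_lit 277) (nat_lit 262) (nat_lit 241)) (XT.lf (nat_lit 0) (nat_lit 955870605) (nat_lit 684) (nat_lit 4882231757) (nat_lit 76) (nat_lit 1162619547) (nat_lit 208) (nat_lit 5) (nat_lit 217) (nat_lit 5) (nat_lit 209) (nat_lit 5) (nat_lit 278) (nat_lit 262) (nat_lit 240))))))))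
noncomputable def xc117 : XT := (XT.nd (nat_lit 1716) (nat_lit 4028) (nat_lit 0) (XT.nd (nat_lit 858) (nat_lit 3800) (nat_lit 0) (XT.nd (nat_lit 390) (nat_lit 2888) (nat_lit 0) (XT.nd (nat_lit 156) (nat_lit 836) (nat_lit 0) (XT.nd (nat_lit 78) (nat_lit 684) (nat_lit 0) (XT.lf (nat_lit 0) (nat_lit 3047794076) (nat_lit 684) (nat_lit 1400464999) (nat_lit 76) (nat_lit 2612997338) (nat_lit 208) (nat_lit 5) (nat_lit 217) (nat_lit 5) (nat_lit 209) (nat_lit 5) (nat_lit 279) (nat_lit 262) (nat_lit 239)) (XT.lf (nat_lit 0) (nat_lit 2176900703) (nat_lit 684) (nat_lit 2978653031) (nat_lit 760) (nat_lit 1969700607) (nat_lit 199) (nat_lit 5) (nat_lit 208) (nat_lit 5) (nat_lit 209) (nat_lit 5) (nat_lit 280) (nat_lit 262) (nat_lit 238))) (XT.nd (nat_lit 78) (nat_lit 760) (nat_lit 0) (XT.lf (nat_lit 0) (nat_lit 79769368) (nat_lit 760) (nat_lit 1354287985) (nat_lit 76) (nat_lit 5758890688) (nat_lit 198) (nat_lit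 5) (nat_lit 208) (nat_lit 5) (nat_lit 199) (nat_lit 5) (nat_lit 281) (nat_lit 262) (nat_lit 237)) (XT.nd (nat_lit 78) (nat_lit 0) (nat_lit 0) (XT.lf (nat_lit 0) (nat_lit 2110234562) (nat_lit 836) (nat_lit 4943105661) (nat_lit 76) (nat_lit 210193667) (nat_lit 188) (nat_lit 5) (nat_lit 199) (nat_lit 5) (nat_lit 189) (nat_lit 5) (nat_lit 282) (nat_lit 262) (nat_lit 236)) (XT.lf (nat_lit 0) (nat_lit 4165884131) (nat_lit 836) (nat_lit 1269641875) (nat_lit 76) (nat_lit 1901996207) (nat_lit 188) (nat_lit 5) (nat_lit 199) (nat_lit 5) (nat_lit 189) (nat_lit 5) (nat_lit 283) (nat_lit 262) (nat_lit 235))))) (XT.nd (nat_lit 234) (nat_lit 1064) (nat_lit 0) (XT.nd (nat_lit 78) (nat_lit 988) (nat_lit 0) (XT.lf (nat_lit 0) (nat_lit 2511947484) (nat_lit 836) (nat_lit 3733519337) (nat_lit 912) (nat_lit 1169602263) (nat_lit 177) (nat_lit 5) (nat_lit 188) (nat_lit 5) (nat_lit 189) (nat_lit 5) (nat_lit 284) (nat_lit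 262) (nat_lit 234)) (XT.nd (nat_lit 78) (nat_lit 912) (nat_lit 0) (XT.lf (nat_lit 0) (nat_lit 826663466) (nat_lit 912) (nat_lit 1122263670) (nat_lit 76) (nat_lit 5547405245) (nat_lit 176) (nat_lit 5) (nat_lit 188) (nat_lit 5) (nat_lit 177) (nat_lit 5) (nat_lit 285) (nat_lit 262) (nat_lit 233)) (XT.lf (nat_lit 0) (nat_lit 2763877120) (nat_lit 912) (nat_lit 62424342) (nat_lit 988) (nat_lit 4754564201) (nat_lit 164) (nat_lit 5) (nat_lit 176) (nat_lit 5) (nat_lit 177) (nat_lit 5) (nat_lit 286) (nat_lit 262) (nat_lit 232)))) (XT.nd (nat_lit 78) (nat_lit 1064) (nat_lit 0) (XT.lf (nat_lit 0) (nat_lit 4857210282) (nat_lit 988) (nat_lit 948192081) (nat_lit 76) (nat_lit 1863577878) (nat_lit 164) (nat_lit 5) (nat_lit 177) (nat_lit 5) (nat_lit 165) (nat_lit 5) (nat_lit 287) (nat_lit 262) (nat_lit 231)) (XT.nd (nat_lit 78) (nat_lit 76) (nat_lit 0) (XT.lf (nat_lit 0) (nat_lit 3044969343) (nat_lit 988) (nat_lit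 3877420175) (nat_lit 1064) (nat_lit 838326836) (nat_lit 151) (nat_lit 5) (nat_lit 164) (nat_lit 5) (nat_lit 165) (nat_lit 5) (nat_lit 288) (nat_lit 262) (nat_lit 230)) (XT.lf (nat_lit 0) (nat_lit 1124586916) (nat_lit 1064) (nat_lit 740418707) (nat_lit 76) (nat_lit 5991415479) (nat_lit 150) (nat_lit 5) (nat_lit 164) (nat_lit 5) (nat_lit 151) (nat_lit 5) (nat_lit 289) (nat_lit 262) (nat_lit 229)))))) (XT.nd (nat_lit 390) (nat_lit 1520) (nat_lit 0) (XT.nd (nat_lit 156) (nat_lit 1216) (nat_lit 0) (XT.nd (nat_lit 78) (nat_lit 0) (nat_lit 0) (XT.lf (nat_lit 0) (nat_lit 3109834337) (nat_lit 1140) (nat_lit 4596347341) (nat_lit 76) (nat_lit 249320689) (nat_lit 136) (nat_lit 5) (nat_lit 151) (nat_lit 5) (nat_lit 137) (nat_lit 5) (nat_lit 290) (nat_lit 262) (nat_lit 228)) (XT.lf (nat_lit 0) (nat_lit 5127343615) (nat_lit 1140) (nat_lit 530081919) (nat_lit 76) (nat_lit 2401107903) (nat_lit 136) (nat_lit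 5) (nat_lit 151) (nat_lit 5) (nat_lit 137) (nat_lit 5) (nat_lit 291) (nat_lit 262) (nat_lit 227))) (XT.nd (nat_lit 78) (nat_lit 608) (nat_lit 0) (XT.lf (nat_lit 0) (nat_lit 3680372721) (nat_lit 608) (nat_lit 3508624443) (nat_lit 684) (nat_lit 976303589) (nat_lit 128) (nat_lit 5) (nat_lit 136) (nat_lit 5) (nat_lit 137) (nat_lit 5) (nat_lit 292) (nat_lit 262) (nat_lit 226)) (XT.nd (nat_lit 78) (nat_lit 532) (nat_lit 0) (XT.lf (nat_lit 0) (nat_lit 971022514) (nat_lit 684) (nat_lit 307423926) (nat_lit 76) (nat_lit 6998049584) (nat_lit 127) (nat_lit 5) (nat_lit 136) (nat_lit 5) (nat_lit 128) (nat_lit 5) (nat_lit 293) (nat_lit 262) (nat_lit 225)) (XT.lf (nat_lit 0) (nat_lit 2956146306) (nat_lit 608) (nat_lit 4386237052) (nat_lit 76) (nat_lit 1048524610) (nat_lit 120) (nat_lit 5) (nat_lit 128) (nat_lit 5) (nat_lit 121) (nat_lit 5) (nat_lit 294) (nat_lit 262) (nat_lit 224))))) (XT.nd (nat_lit 234) (nat_lit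 456) (nat_lit 0) (XT.nd (nat_lit 78) (nat_lit 1064) (nat_lit 0) (XT.lf (nat_lit 0) (nat_lit 4967733714) (nat_lit 608) (nat_lit 118879171) (nat_lit 76) (nat_lit 3423268813) (nat_lit 120) (nat_lit 5) (nat_lit 128) (nat_lit 5) (nat_lit 121) (nat_lit 5) (nat_lit 295) (nat_lit 262) (nat_lit 223)) (XT.nd (nat_lit 78) (nat_lit 532) (nat_lit 0) (XT.lf (nat_lit 0) (nat_lit 4312138091) (nat_lit 532) (nat_lit 2721522245) (nat_lit 608) (nat_lit 1599077296) (nat_lit 113) (nat_lit 5) (nat_lit 120) (nat_lit 5) (nat_lit 121) (nat_lit 5) (nat_lit 296) (nat_lit 262) (nat_lit 222)) (XT.lf (nat_lit 0) (nat_lit 67626108) (nat_lit 456) (nat_lit 281545906) (nat_lit 532) (nat_lit 8411474246) (nat_lit 106) (nat_lit 5) (nat_lit 112) (nat_lit 5) (nat_lit 113) (nat_lit 5) (nat_lit 297) (nat_lit 262) (nat_lit 221)))) (XT.nd (nat_lit 78) (nat_lit 456) (nat_lit 0) (XT.lf (nat_lit 0) (nat_lit 2342998739) (nat_lit 532) (nat_lit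 4302830837) (nat_lit 76) (nat_lit 2245630981) (nat_lit 106) (nat_lit 5) (nat_lit 113) (nat_lit 5) (nat_lit 107) (nat_lit 5) (nat_lit 298) (nat_lit 262) (nat_lit 220)) (XT.nd (nat_lit 78) (nat_lit 0) (nat_lit 0) (XT.lf (nat_lit 0) (nat_lit 170974112) (nat_lit 456) (nat_lit 4185200595) (nat_lit 532) (nat_lit 4671356480) (nat_lit 100) (nat_lit 5) (nat_lit 106) (nat_lit 5) (nat_lit 107) (nat_lit 5) (nat_lit 299) (nat_lit 262) (nat_lit 219)) (XT.lf (nat_lit 0) (nat_lit 4819035091) (nat_lit 456) (nat_lit 1610109078) (nat_lit 532) (nat_lit 2738672326) (nat_lit 100) (nat_lit 5) (nat_lit 106) (nat_lit 5) (nat_lit 107) (nat_lit 5) (nat_lit 300) (nat_lit 262) (nat_lit 218))))))) (XT.nd (nat_lit 858) (nat_lit 1976) (nat_lit 0) (XT.nd (nat_lit 390) (nat_lit 760) (nat_lit 0) (XT.nd (nat_lit 156) (nat_lit 836) (nat_lit 0) (XT.nd (nat_lit 78) (nat_lit 76) (nat_lit 0) (XT.lf (nat_lit 0) (nat_lit 240792630) (nat_lit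 380) (nat_lit 8293036103) (nat_lit 456) (nat_lit 779507018) (nat_lit 95) (nat_lit 5) (nat_lit 100) (nat_lit 5) (nat_lit 101) (nat_lit 5) (nat_lit 301) (nat_lit 262) (nat_lit 217)) (XT.lf (nat_lit 0) (nat_lit 1232017344) (nat_lit 456) (nat_lit 4481579305) (nat_lit 76) (nat_lit 3748839074) (nat_lit 94) (nat_lit 5) (nat_lit 100) (nat_lit 5) (nat_lit 95) (nat_lit 5) (nat_lit 302) (nat_lit 262) (nat_lit 216))) (XT.nd (nat_lit 78) (nat_lit 380) (nat_lit 0) (XT.lf (nat_lit 0) (nat_lit 196041652) (nat_lit 456) (nat_lit 3052761730) (nat_lit 532) (nat_lit 6368258011) (nat_lit 88) (nat_lit 5) (nat_lit 94) (nat_lit 5) (nat_lit 95) (nat_lit 5) (nat_lit 303) (nat_lit 262) (nat_lit 215)) (XT.nd (nat_lit 78) (nat_lit 380) (nat_lit 0) (XT.lf (nat_lit 0) (nat_lit 5059142403) (nat_lit 456) (nat_lit 271658432) (nat_lit 532) (nat_lit 4445482536) (nat_lit 88) (nat_lit 5) (nat_lit 94) (nat_lit 5) (nat_lit 95) (nat_lit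 5) (nat_lit 304) (nat_lit 262) (nat_lit 214)) (XT.lf (nat_lit 0) (nat_lit 57475958) (nat_lit 380) (nat_lit 7403835159) (nat_lit 456) (nat_lit 2479485201) (nat_lit 83) (nat_lit 5) (nat_lit 88) (nat_lit 5) (nat_lit 89) (nat_lit 5) (nat_lit 305) (nat_lit 262) (nat_lit 213))))) (XT.nd (nat_lit 234) (nat_lit 304) (nat_lit 0) (XT.nd (nat_lit 78) (nat_lit 456) (nat_lit 0) (XT.lf (nat_lit 0) (nat_lit 5023166121) (nat_lit 380) (nat_lit 4644148808) (nat_lit 456) (nat_lit 442675478) (nat_lit 83) (nat_lit 5) (nat_lit 88) (nat_lit 5) (nat_lit 89) (nat_lit 5) (nat_lit 306) (nat_lit 262) (nat_lit 212)) (XT.nd (nat_lit 78) (nat_lit 380) (nat_lit 0) (XT.lf (nat_lit 0) (nat_lit 1584886818) (nat_lit 456) (nat_lit 207965118) (nat_lit 76) (nat_lit 8492160369) (nat_lit 82) (nat_lit 5) (nat_lit 88) (nat_lit 5) (nat_lit 83) (nat_lit 5) (nat_lit 307) (nat_lit 262) (nat_lit 211)) (XT.lf (nat_lit 0) (nat_lit 3685618053)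 (nat_lit 456) (nat_lit 5612887447) (nat_lit 76) (nat_lit 1166095890) (nat_lit 77) (nat_lit 5) (nat_lit 83) (nat_lit 5) (nat_lit 78) (nat_lit 5) (nat_lit 308) (nat_lit 262) (nat_lit 210)))) (XT.nd (nat_lit 78) (nat_lit 304) (nat_lit 0) (XT.lf (nat_lit 0) (nat_lit 5832881021) (nat_lit 456) (nat_lit 644796769) (nat_lit 76) (nat_lit 4172477785) (nat_lit 77) (nat_lit 5) (nat_lit 83) (nat_lit 5) (nat_lit 78) (nat_lit 5) (nat_lit 309) (nat_lit 262) (nat_lit 209)) (XT.nd (nat_lit 78) (nat_lit 0) (nat_lit 0) (XT.lf (nat_lit 0) (nat_lit 4516829365) (nat_lit 304) (nat_lit 3535848083) (nat_lit 380) (nat_lit 2788435781) (nat_lit 73) (nat_lit 5) (nat_lit 77) (nat_lit 5) (nat_lit 78) (nat_lit 5) (nat_lit 310) (nat_lit 262) (nat_lit 208)) (XT.lf (nat_lit 0) (nat_lit 9803303024) (nat_lit 304) (nat_lit 507585765) (nat_lit 380) (nat_lit 727834164) (nat_lit 73) (nat_lit 5) (nat_lit 77) (nat_lit 5) (nat_lit 78)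 (nat_lit 5) (nat_lit 311) (nat_lit 262) (nat_lit 207)))))) (XT.nd (nat_lit 468) (nat_lit 836) (nat_lit 0) (XT.nd (nat_lit 234) (nat_lit 380) (nat_lit 0) (XT.nd (nat_lit 78) (nat_lit 304) (nat_lit 0) (XT.lf (nat_lit 0) (nat_lit 1397546886) (nat_lit 456) (nat_lit 7238725130) (nat_lit 76) (nat_lit 2604755038) (nat_lit 67) (nat_lit 5) (nat_lit 73) (nat_lit 5) (nat_lit 68) (nat_lit 5) (nat_lit 312) (nat_lit 262) (nat_lit 206)) (XT.nd (nat_lit 78) (nat_lit 304) (nat_lit 0) (XT.lf (nat_lit 0) (nat_lit 3556099380) (nat_lit 456) (nat_lit 2082186274) (nat_lit 76) (nat_lit 5811448628) (nat_lit 67) (nat_lit 5) (nat_lit 73) (nat_lit 5) (nat_lit 68) (nat_lit 5) (nat_lit 313) (nat_lit 262) (nat_lit 205)) (XT.lf (nat_lit 0) (nat_lit 3250452324) (nat_lit 304) (nat_lit 2527594002) (nat_lit 380) (nat_lit 5886766541) (nat_lit 63) (nat_lit 5) (nat_lit 67) (nat_lit 5) (nat_lit 68) (nat_lit 5) (nat_lit 314) (nat_lit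 262) (nat_lit 204)))) (XT.nd (nat_lit 78) (nat_lit 380) (nat_lit 0) (XT.lf (nat_lit 0) (nat_lit 8062238429) (nat_lit 380) (nat_lit 3149220094) (nat_lit 76) (nat_lit 675084943) (nat_lit 63) (nat_lit 5) (nat_lit 68) (nat_lit 5) (nat_lit 64) (nat_lit 5) (nat_lit 315) (nat_lit 262) (nat_lit 203)) (XT.nd (nat_lit 78) (nat_lit 76) (nat_lit 0) (XT.lf (nat_lit 0) (nat_lit 2251472943) (nat_lit 304) (nat_lit 8178938388) (nat_lit 380) (nat_lit 1684116301) (nat_lit 59) (nat_lit 5) (nat_lit 63) (nat_lit 5) (nat_lit 64) (nat_lit 5) (nat_lit 316) (nat_lit 262) (nat_lit 202)) (XT.lf (nat_lit 0) (nat_lit 511178046) (nat_lit 380) (nat_lit 4516555748) (nat_lit 76) (nat_lit 7321497470) (nat_lit 58) (nat_lit 5) (nat_lit 63) (nat_lit 5) (nat_lit 59) (nat_lit 5) (nat_lit 317) (nat_lit 262) (nat_lit 201))))) (XT.nd (nat_lit 234) (nat_lit 608) (nat_lit 0) (XT.nd (nat_lit 78) (nat_lit 0) (nat_lit 0) (XT.lf (nat_lit 0)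 (nat_lit 951864197) (nat_lit 228) (nat_lit 1765609256) (nat_lit 304) (nat_lit 9873692340) (nat_lit 55) (nat_lit 5) (nat_lit 58) (nat_lit 5) (nat_lit 59) (nat_lit 5) (nat_lit 318) (nat_lit 262) (nat_lit 200)) (XT.nd (nat_lit 78) (nat_lit 0) (nat_lit 0) (XT.lf (nat_lit 0) (nat_lit 5021580164) (nat_lit 304) (nat_lit 6218672948) (nat_lit 76) (nat_lit 1599214589) (nat_lit 55) (nat_lit 5) (nat_lit 59) (nat_lit 5) (nat_lit 56) (nat_lit 5) (nat_lit 319) (nat_lit 262) (nat_lit 199)) (XT.lf (nat_lit 0) (nat_lit 7383394628) (nat_lit 304) (nat_lit 692544424) (nat_lit 76) (nat_lit 5019678407) (nat_lit 55) (nat_lit 5) (nat_lit 59) (nat_lit 5) (nat_lit 56) (nat_lit 5) (nat_lit 320) (nat_lit 262) (nat_lit 198)))) (XT.nd (nat_lit 78) (nat_lit 304) (nat_lit 0) (XT.lf (nat_lit 0) (nat_lit 5059616081) (nat_lit 304) (nat_lit 4777028494) (nat_lit 380) (nat_lit 3522244391) (nat_lit 51) (nat_lit 5) (nat_lit 55) (nat_lit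 5) (nat_lit 56) (nat_lit 5) (nat_lit 321) (nat_lit 262) (nat_lit 197)) (XT.nd (nat_lit 78) (nat_lit 304) (nat_lit 0) (XT.lf (nat_lit 0) (nat_lit 10960431965) (nat_lit 304) (nat_lit 1382449163) (nat_lit 380) (nat_lit 1287848913) (nat_lit 51) (nat_lit 5) (nat_lit 55) (nat_lit 5) (nat_lit 56) (nat_lit 5) (nat_lit 322) (nat_lit 262) (nat_lit 196)) (XT.lf (nat_lit 0) (nat_lit 1017497517) (nat_lit 304) (nat_lit 10789487758) (nat_lit 76) (nat_lit 2102787896) (nat_lit 47) (nat_lit 5) (nat_lit 51) (nat_lit 5) (nat_lit 48) (nat_lit 5) (nat_lit 323) (nat_lit 262) (nat_lit 195))))))))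
noncomputable def xc118 : XT := (XT.nd (nat_lit 1716) (nat_lit 836) (nat_lit 0) (XT.nd (nat_lit 858) (nat_lit 836) (nat_lit 0) (XT.nd (nat_lit 390) (nat_lit 456) (nat_lit 0) (XT.nd (nat_lit 156) (nat_lit 228) (nat_lit 0) (XT.nd (nat_lit 78) (nat_lit 228) (nat_lit 0) (XT.lf (nat_lit 0) (nat_lit 3380253886) (nat_lit 304) (nat_lit 5121724445) (nat_lit 76) (nat_lit 5694451303) (nat_lit 47) (nat_lit 5) (nat_lit 51) (nat_lit 5) (nat_lit 48) (nat_lit 5) (nat_lit 324) (nat_lit 262) (nat_lit 194)) (XT.lf (nat_lit 0) (nat_lit 692730083) (nat_lit 228) (nat_lit 5101816627) (nat_lit 304) (nat_lit 8697766642) (nat_lit 44) (nat_lit 5) (nat_lit 47) (nat_lit 5) (nat_lit 48) (nat_lit 5) (nat_lit 325) (nat_lit 262) (nat_lit 193))) (XT.nd (nat_lit 78) (nat_lit 228) (nat_lit 0) (XT.lf (nat_lit 0) (nat_lit 6750110601) (nat_lit 228) (nat_lit 1557278504) (nat_lit 304) (nat_lit 6488946653) (nat_lit 44) (nat_lit 5) (nat_lit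 47) (nat_lit 5) (nat_lit 48) (nat_lit 5) (nat_lit 326) (nat_lit 262) (nat_lit 192)) (XT.nd (nat_lit 78) (nat_lit 228) (nat_lit 0) (XT.lf (nat_lit 0) (nat_lit 10890786977) (nat_lit 304) (nat_lit 2176514490) (nat_lit 76) (nat_lit 2042366729) (nat_lit 44) (nat_lit 5) (nat_lit 48) (nat_lit 5) (nat_lit 45) (nat_lit 5) (nat_lit 327) (nat_lit 262) (nat_lit 191)) (XT.lf (nat_lit 0) (nat_lit 3894799330) (nat_lit 228) (nat_lit 9685517365) (nat_lit 304) (nat_lit 1851268186) (nat_lit 41) (nat_lit 5) (nat_lit 44) (nat_lit 5) (nat_lit 45) (nat_lit 5) (nat_lit 328) (nat_lit 262) (nat_lit 190))))) (XT.nd (nat_lit 234) (nat_lit 152) (nat_lit 0) (XT.nd (nat_lit 78) (nat_lit 228) (nat_lit 0) (XT.lf (nat_lit 0) (nat_lit 573974277) (nat_lit 304) (nat_lit 5610742823) (nat_lit 76) (nat_lit 9578371390) (nat_lit 40) (nat_lit 5) (nat_lit 44) (nat_lit 5) (nat_lit 41) (nat_lit 5) (nat_lit 329) (nat_lit 262) (nat_lit 189))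 (XT.nd (nat_lit 78) (nat_lit 0) (nat_lit 0) (XT.lf (nat_lit 0) (nat_lit 449297572) (nat_lit 228) (nat_lit 2566356290) (nat_lit 304) (nat_lit 13088946315) (nat_lit 37) (nat_lit 5) (nat_lit 40) (nat_lit 5) (nat_lit 41) (nat_lit 5) (nat_lit 330) (nat_lit 262) (nat_lit 188)) (XT.lf (nat_lit 0) (nat_lit 5575780623) (nat_lit 304) (nat_lit 9694733284) (nat_lit 76) (nat_lit 1184525762) (nat_lit 37) (nat_lit 5) (nat_lit 41) (nat_lit 5) (nat_lit 38) (nat_lit 5) (nat_lit 331) (nat_lit 262) (nat_lit 187)))) (XT.nd (nat_lit 78) (nat_lit 152) (nat_lit 0) (XT.lf (nat_lit 0) (nat_lit 8215618083) (nat_lit 304) (nat_lit 3614263891) (nat_lit 76) (nat_lit 4986060403) (nat_lit 37) (nat_lit 5) (nat_lit 41) (nat_lit 5) (nat_lit 38) (nat_lit 5) (nat_lit 332) (nat_lit 262) (nat_lit 186)) (XT.nd (nat_lit 78) (nat_lit 0) (nat_lit 0) (XT.lf (nat_lit 0) (nat_lit 2668153270) (nat_lit 152) (nat_lit 8270298162) (nat_lit 228)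 (nat_lit 6249142868) (nat_lit 35) (nat_lit 5) (nat_lit 37) (nat_lit 5) (nat_lit 38) (nat_lit 5) (nat_lit 333) (nat_lit 262) (nat_lit 185)) (XT.lf (nat_lit 0) (nat_lit 9180919158) (nat_lit 152) (nat_lit 4577027124) (nat_lit 228) (nat_lit 3812035306) (nat_lit 35) (nat_lit 5) (nat_lit 37) (nat_lit 5) (nat_lit 38) (nat_lit 5) (nat_lit 334) (nat_lit 262) (nat_lit 184)))))) (XT.nd (nat_lit 390) (nat_lit 380) (nat_lit 0) (XT.nd (nat_lit 156) (nat_lit 152) (nat_lit 0) (XT.nd (nat_lit 78) (nat_lit 304) (nat_lit 0) (XT.lf (nat_lit 0) (nat_lit 15857793599) (nat_lit 152) (nat_lit 783338708) (nat_lit 228) (nat_lit 1323369075) (nat_lit 35) (nat_lit 5) (nat_lit 37) (nat_lit 5) (nat_lit 38) (nat_lit 5) (nat_lit 335) (nat_lit 262) (nat_lit 183)) (XT.lf (nat_lit 0) (nat_lit 1268079275) (nat_lit 304) (nat_lit 13992947329) (nat_lit 76) (nat_lit 3107935169) (nat_lit 31) (nat_lit 5) (nat_lit 35) (nat_lit 5) (nat_lit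 32) (nat_lit 5) (nat_lit 336) (nat_lit 262) (nat_lit 182))) (XT.nd (nat_lit 78) (nat_lit 152) (nat_lit 0) (XT.lf (nat_lit 0) (nat_lit 3919599870) (nat_lit 304) (nat_lit 7740623815) (nat_lit 76) (nat_lit 7124702583) (nat_lit 31) (nat_lit 5) (nat_lit 35) (nat_lit 5) (nat_lit 32) (nat_lit 5) (nat_lit 337) (nat_lit 262) (nat_lit 181)) (XT.nd (nat_lit 78) (nat_lit 152) (nat_lit 0) (XT.lf (nat_lit 0) (nat_lit 6630944845) (nat_lit 304) (nat_lit 1330867206) (nat_lit 76) (nat_lit 11252179561) (nat_lit 31) (nat_lit 5) (nat_lit 35) (nat_lit 5) (nat_lit 32) (nat_lit 5) (nat_lit 338) (nat_lit 262) (nat_lit 180)) (XT.lf (nat_lit 0) (nat_lit 5346247805) (nat_lit 152) (nat_lit 4109626936) (nat_lit 228) (nat_lit 10199116238) (nat_lit 29) (nat_lit 5) (nat_lit 31) (nat_lit 5) (nat_lit 32) (nat_lit 5) (nat_lit 339) (nat_lit 262) (nat_lit 179))))) (XT.nd (nat_lit 234) (nat_lit 228) (nat_lit 0) (XT.nd (nat_lit 78)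 (nat_lit 152) (nat_lit 0) (XT.lf (nat_lit 0) (nat_lit 12221985746) (nat_lit 152) (nat_lit 138138283) (nat_lit 228) (nat_lit 7749287693) (nat_lit 29) (nat_lit 5) (nat_lit 31) (nat_lit 5) (nat_lit 32) (nat_lit 5) (nat_lit 340) (nat_lit 262) (nat_lit 178)) (XT.nd (nat_lit 78) (nat_lit 152) (nat_lit 0) (XT.lf (nat_lit 0) (nat_lit 15371082185) (nat_lit 228) (nat_lit 1340074166) (nat_lit 76) (nat_lit 3865749005) (nat_lit 29) (nat_lit 5) (nat_lit 32) (nat_lit 5) (nat_lit 30) (nat_lit 5) (nat_lit 341) (nat_lit 262) (nat_lit 177)) (XT.lf (nat_lit 0) (nat_lit 5481516859) (nat_lit 152) (nat_lit 13027035497) (nat_lit 228) (nat_lit 2548812847) (nat_lit 27) (nat_lit 5) (nat_lit 29) (nat_lit 5) (nat_lit 30) (nat_lit 5) (nat_lit 342) (nat_lit 262) (nat_lit 176)))) (XT.nd (nat_lit 78) (nat_lit 152) (nat_lit 0) (XT.lf (nat_lit 0) (nat_lit 180087205) (nat_lit 228) (nat_lit 9046432774) (nat_lit 76) (nat_lit 12325814652)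 (nat_lit 26) (nat_lit 5) (nat_lit 29) (nat_lit 5) (nat_lit 27) (nat_lit 5) (nat_lit 343) (nat_lit 262) (nat_lit 175)) (XT.nd (nat_lit 78) (nat_lit 152) (nat_lit 0) (XT.lf (nat_lit 0) (nat_lit 2922324745) (nat_lit 228) (nat_lit 2373443759) (nat_lit 76) (nat_lit 16766171210) (nat_lit 26) (nat_lit 5) (nat_lit 29) (nat_lit 5) (nat_lit 27) (nat_lit 5) (nat_lit 344) (nat_lit 262) (nat_lit 174)) (XT.lf (nat_lit 0) (nat_lit 4562480647) (nat_lit 152) (nat_lit 1211409130) (nat_lit 228) (nat_lit 16812155266) (nat_lit 24) (nat_lit 5) (nat_lit 26) (nat_lit 5) (nat_lit 27) (nat_lit 5) (nat_lit 345) (nat_lit 262) (nat_lit 173))))))) (XT.nd (nat_lit 858) (nat_lit 304) (nat_lit 0) (XT.nd (nat_lit 390) (nat_lit 380) (nat_lit 0) (XT.nd (nat_lit 156) (nat_lit 152) (nat_lit 0) (XT.nd (nat_lit 78) (nat_lit 0) (nat_lit 0) (XT.lf (nat_lit 0) (nat_lit 8747351616) (nat_lit 228) (nat_lit 11425506095) (nat_lit 76) (nat_lit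 2951948530) (nat_lit 24) (nat_lit 5) (nat_lit 27) (nat_lit 5) (nat_lit 25) (nat_lit 5) (nat_lit 346) (nat_lit 262) (nat_lit 172)) (XT.lf (nat_lit 0) (nat_lit 11805847415) (nat_lit 228) (nat_lit 4667185572) (nat_lit 76) (nat_lit 7206844917) (nat_lit 24) (nat_lit 5) (nat_lit 27) (nat_lit 5) (nat_lit 25) (nat_lit 5) (nat_lit 347) (nat_lit 262) (nat_lit 171))) (XT.nd (nat_lit 78) (nat_lit 0) (nat_lit 0) (XT.lf (nat_lit 0) (nat_lit 2314103806) (nat_lit 152) (nat_lit 12648545614) (nat_lit 228) (nat_lit 9288777631) (nat_lit 22) (nat_lit 5) (nat_lit 24) (nat_lit 5) (nat_lit 25) (nat_lit 5) (nat_lit 348) (nat_lit 262) (nat_lit 170)) (XT.nd (nat_lit 78) (nat_lit 0) (nat_lit 0) (XT.lf (nat_lit 0) (nat_lit 9575811818) (nat_lit 152) (nat_lit 8669999565) (nat_lit 228) (nat_lit 6593382849) (nat_lit 22) (nat_lit 5) (nat_lit 24) (nat_lit 5) (nat_lit 25) (nat_lit 5) (nat_lit 349) (nat_lit 262) (nat_lit 169))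 (XT.lf (nat_lit 0) (nat_lit 17031397500) (nat_lit 152) (nat_lit 4581047865) (nat_lit 228) (nat_lit 3832620368) (nat_lit 22) (nat_lit 5) (nat_lit 24) (nat_lit 5) (nat_lit 25) (nat_lit 5) (nat_lit 350) (nat_lit 262) (nat_lit 168))))) (XT.nd (nat_lit 234) (nat_lit 152) (nat_lit 0) (XT.nd (nat_lit 78) (nat_lit 228) (nat_lit 0) (XT.lf (nat_lit 0) (nat_lit 24687375442) (nat_lit 152) (nat_lit 378117642) (nat_lit 228) (nat_lit 1004077871) (nat_lit 22) (nat_lit 5) (nat_lit 24) (nat_lit 5) (nat_lit 25) (nat_lit 5) (nat_lit 351) (nat_lit 262) (nat_lit 167)) (XT.nd (nat_lit 78) (nat_lit 0) (nat_lit 0) (XT.lf (nat_lit 0) (nat_lit 1953434677) (nat_lit 228) (nat_lit 20814864844) (nat_lit 76) (nat_lit 3941538931) (nat_lit 19) (nat_lit 5) (nat_lit 22) (nat_lit 5) (nat_lit 20) (nat_lit 5) (nat_lit 352) (nat_lit 262) (nat_lit 166)) (XT.lf (nat_lit 0) (nat_lit 4983128151) (nat_lit 228) (nat_lit 13986963508) (nat_lit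 76) (nat_lit 8398833297) (nat_lit 19) (nat_lit 5) (nat_lit 22) (nat_lit 5) (nat_lit 20) (nat_lit 5) (nat_lit 353) (nat_lit 262) (nat_lit 165)))) (XT.nd (nat_lit 78) (nat_lit 152) (nat_lit 0) (XT.lf (nat_lit 0) (nat_lit 8089923230) (nat_lit 228) (nat_lit 6976590586) (nat_lit 76) (nat_lit 12981701701) (nat_lit 19) (nat_lit 5) (nat_lit 22) (nat_lit 5) (nat_lit 20) (nat_lit 5) (nat_lit 354) (nat_lit 262) (nat_lit 164)) (XT.nd (nat_lit 78) (nat_lit 0) (nat_lit 0) (XT.lf (nat_lit 0) (nat_lit 226805276) (nat_lit 152) (nat_lit 11051909503) (nat_lit 228) (nat_lit 17469523505) (nat_lit 17) (nat_lit 5) (nat_lit 19) (nat_lit 5) (nat_lit 20) (nat_lit 5) (nat_lit 355) (nat_lit 262) (nat_lit 163)) (XT.lf (nat_lit 0) (nat_lit 7767815132) (nat_lit 152) (nat_lit 6852600503) (nat_lit 228) (nat_lit 14847145497) (nat_lit 17) (nat_lit 5) (nat_lit 19) (nat_lit 5) (nat_lit 20) (nat_lit 5) (nat_lit 356) (nat_lit 262)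 (nat_lit 162)))))) (XT.nd (nat_lit 468) (nat_lit 152) (nat_lit 0) (XT.nd (nat_lit 234) (nat_lit 152) (nat_lit 0) (XT.nd (nat_lit 78) (nat_lit 0) (nat_lit 0) (XT.lf (nat_lit 0) (nat_lit 15514180379) (nat_lit 152) (nat_lit 2535367404) (nat_lit 228) (nat_lit 12159316751) (nat_lit 17) (nat_lit 5) (nat_lit 19) (nat_lit 5) (nat_lit 20) (nat_lit 5) (nat_lit 357) (nat_lit 262) (nat_lit 161)) (XT.nd (nat_lit 78) (nat_lit 0) (nat_lit 0) (XT.lf (nat_lit 0) (nat_lit 21587405756) (nat_lit 228) (nat_lit 7518424749) (nat_lit 76) (nat_lit 1866416780) (nat_lit 17) (nat_lit 5) (nat_lit 20) (nat_lit 5) (nat_lit 18) (nat_lit 4) (nat_lit 358) (nat_lit 262) (nat_lit 160)) (XT.lf (nat_lit 0) (nat_lit 25244345301) (nat_lit 228) (nat_lit 171961678) (nat_lit 76) (nat_lit 6341851507) (nat_lit 17) (nat_lit 5) (nat_lit 20) (nat_lit 5) (nat_lit 18) (nat_lit 4) (nat_lit 359) (nat_lit 262) (nat_lit 159)))) (XT.nd (nat_lit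 78) (nat_lit 76) (nat_lit 0) (XT.lf (nat_lit 0) (nat_lit 7522282628) (nat_lit 76) (nat_lit 21549216454) (nat_lit 152) (nat_lit 3494347656) (nat_lit 16) (nat_lit 5) (nat_lit 17) (nat_lit 5) (nat_lit 18) (nat_lit 4) (nat_lit 360) (nat_lit 262) (nat_lit 158)) (XT.nd (nat_lit 78) (nat_lit 76) (nat_lit 0) (XT.lf (nat_lit 0) (nat_lit 15431670015) (nat_lit 76) (nat_lit 17571890322) (nat_lit 152) (nat_lit 394516975) (nat_lit 16) (nat_lit 5) (nat_lit 17) (nat_lit 5) (nat_lit 18) (nat_lit 4) (nat_lit 361) (nat_lit 262) (nat_lit 157)) (XT.lf (nat_lit 0) (nat_lit 2732273372) (nat_lit 152) (nat_lit 10722725749) (nat_lit 76) (nat_lit 20799825247) (nat_lit 15) (nat_lit 5) (nat_lit 17) (nat_lit 5) (nat_lit 16) (nat_lit 5) (nat_lit 362) (nat_lit 262) (nat_lit 156))))) (XT.nd (nat_lit 234) (nat_lit 0) (nat_lit 0) (XT.nd (nat_lit 78) (nat_lit 152) (nat_lit 0) (XT.lf (nat_lit 0) (nat_lit 5933840774) (nat_lit 152)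 (nat_lit 3283980556) (nat_lit 76) (nat_lit 25919681474) (nat_lit 15) (nat_lit 5) (nat_lit 17) (nat_lit 5) (nat_lit 16) (nat_lit 5) (nat_lit 363) (nat_lit 262) (nat_lit 155)) (XT.nd (nat_lit 78) (nat_lit 0) (nat_lit 0) (XT.lf (nat_lit 0) (nat_lit 4446895440) (nat_lit 152) (nat_lit 4816532004) (nat_lit 228) (nat_lit 26782287832) (nat_lit 13) (nat_lit 5) (nat_lit 15) (nat_lit 5) (nat_lit 16) (nat_lit 5) (nat_lit 364) (nat_lit 262) (nat_lit 154)) (XT.lf (nat_lit 0) (nat_lit 12459384173) (nat_lit 152) (nat_lit 256049589) (nat_lit 228) (nat_lit 24265076873) (nat_lit 13) (nat_lit 5) (nat_lit 15) (nat_lit 5) (nat_lit 16) (nat_lit 5) (nat_lit 365) (nat_lit 262) (nat_lit 153)))) (XT.nd (nat_lit 78) (nat_lit 0) (nat_lit 0) (XT.lf (nat_lit 0) (nat_lit 16303306794) (nat_lit 228) (nat_lit 17291169012) (nat_lit 76) (nat_lit 4347916963) (nat_lit 13) (nat_lit 5) (nat_lit 16) (nat_lit 5) (nat_lit 14) (nat_lit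 4) (nat_lit 366) (nat_lit 262) (nat_lit 152)) (XT.nd (nat_lit 78) (nat_lit 0) (nat_lit 0) (XT.lf (nat_lit 0) (nat_lit 19991268189) (nat_lit 228) (nat_lit 9863716663) (nat_lit 76) (nat_lit 9078384711) (nat_lit 13) (nat_lit 5) (nat_lit 16) (nat_lit 5) (nat_lit 14) (nat_lit 4) (nat_lit 367) (nat_lit 262) (nat_lit 151)) (XT.lf (nat_lit 0) (nat_lit 23780079131) (nat_lit 228) (nat_lit 2229818101) (nat_lit 76) (nat_lit 13944483522) (nat_lit 13) (nat_lit 5) (nat_lit 16) (nat_lit 5) (nat_lit 14) (nat_lit 4) (nat_lit 368) (nat_lit 262) (nat_lit 150))))))))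
noncomputable def xc119 : XT := (XT.nd (nat_lit 1794) (nat_lit 76) (nat_lit 0) (XT.nd (nat_lit 858) (nat_lit 228) (nat_lit 0) (XT.nd (nat_lit 390) (nat_lit 228) (nat_lit 0) (XT.nd (nat_lit 156) (nat_lit 0) (nat_lit 0) (XT.nd (nat_lit 78) (nat_lit 0) (nat_lit 0) (XT.lf (nat_lit 0) (nat_lit 5728990304) (nat_lit 76) (nat_lit 21999130488) (nat_lit 152) (nat_lit 13276545581) (nat_lit 12) (nat_lit 5) (nat_lit 13) (nat_lit 5) (nat_lit 14) (nat_lit 4) (nat_lit 369) (nat_lit 262) (nat_lit 149)) (XT.lf (nat_lit 0) (nat_lit 13956527585) (nat_lit 76) (nat_lit 17851214215) (nat_lit 152) (nat_lit 10278335378) (nat_lit 12) (nat_lit 5) (nat_lit 13) (nat_lit 5) (nat_lit 14) (nat_lit 4) (nat_lit 370) (nat_lit 262) (nat_lit 148))) (XT.nd (nat_lit 78) (nat_lit 0) (nat_lit 0) (XT.lf (nat_lit 0) (nat_lit 22415605099) (nat_lit 76) (nat_lit 13585040812) (nat_lit 152) (nat_lit 7199568010) (nat_lit 12) (nat_lit 5) (nat_lit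 13) (nat_lit 5) (nat_lit 14) (nat_lit 4) (nat_lit 371) (nat_lit 262) (nat_lit 147)) (XT.nd (nat_lit 78) (nat_lit 0) (nat_lit 0) (XT.lf (nat_lit 0) (nat_lit 31113614272) (nat_lit 76) (nat_lit 9196882554) (nat_lit 152) (nat_lit 4037553292) (nat_lit 12) (nat_lit 5) (nat_lit 13) (nat_lit 5) (nat_lit 14) (nat_lit 4) (nat_lit 372) (nat_lit 262) (nat_lit 146)) (XT.lf (nat_lit 0) (nat_lit 40058155307) (nat_lit 76) (nat_lit 4682905129) (nat_lit 152) (nat_lit 789528298) (nat_lit 12) (nat_lit 5) (nat_lit 13) (nat_lit 5) (nat_lit 14) (nat_lit 4) (nat_lit 373) (nat_lit 262) (nat_lit 145))))) (XT.nd (nat_lit 234) (nat_lit 0) (nat_lit 0) (XT.nd (nat_lit 78) (nat_lit 0) (nat_lit 0) (XT.lf (nat_lit 0) (nat_lit 2522094175) (nat_lit 228) (nat_lit 44214380507) (nat_lit 76) (nat_lit 10920064) (nat_lit 9) (nat_lit 5) (nat_lit 12) (nat_lit 5) (nat_lit 10) (nat_lit 4) (nat_lit 374) (nat_lit 262) (nat_lit 144)) (XT.nd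 (nat_lit 78) (nat_lit 0) (nat_lit 0) (XT.lf (nat_lit 0) (nat_lit 6011000875) (nat_lit 228) (nat_lit 37177202249) (nat_lit 76) (nat_lit 4809462185) (nat_lit 9) (nat_lit 5) (nat_lit 12) (nat_lit 5) (nat_lit 10) (nat_lit 4) (nat_lit 375) (nat_lit 262) (nat_lit 143)) (XT.lf (nat_lit 0) (nat_lit 9596449442) (nat_lit 228) (nat_lit 29942724512) (nat_lit 76) (nat_lit 9746522541) (nat_lit 9) (nat_lit 5) (nat_lit 12) (nat_lit 5) (nat_lit 10) (nat_lit 4) (nat_lit 376) (nat_lit 262) (nat_lit 142)))) (XT.nd (nat_lit 78) (nat_lit 0) (nat_lit 0) (XT.lf (nat_lit 0) (nat_lit 13281572794) (nat_lit 228) (nat_lit 22504625910) (nat_lit 76) (nat_lit 14826415070) (nat_lit 9) (nat_lit 5) (nat_lit 12) (nat_lit 5) (nat_lit 10) (nat_lit 4) (nat_lit 377) (nat_lit 262) (nat_lit 141)) (XT.nd (nat_lit 78) (nat_lit 0) (nat_lit 0) (XT.lf (nat_lit 0) (nat_lit 17069590941) (nat_lit 228) (nat_lit 14856407133) (nat_lit 76) (nat_lit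 20053578512) (nat_lit 9) (nat_lit 5) (nat_lit 12) (nat_lit 5) (nat_lit 10) (nat_lit 4) (nat_lit 378) (nat_lit 262) (nat_lit 140)) (XT.lf (nat_lit 0) (nat_lit 20963813802) (nat_lit 228) (nat_lit 6991385270) (nat_lit 76) (nat_lit 25432580292) (nat_lit 9) (nat_lit 5) (nat_lit 12) (nat_lit 5) (nat_lit 10) (nat_lit 4) (nat_lit 379) (nat_lit 262) (nat_lit 139)))))) (XT.nd (nat_lit 468) (nat_lit 152) (nat_lit 0) (XT.nd (nat_lit 234) (nat_lit 0) (nat_lit 0) (XT.nd (nat_lit 78) (nat_lit 0) (nat_lit 0) (XT.lf (nat_lit 0) (nat_lit 1119150687) (nat_lit 76) (nat_lit 23859251369) (nat_lit 152) (nat_lit 29859727782) (nat_lit 8) (nat_lit 5) (nat_lit 9) (nat_lit 5) (nat_lit 10) (nat_lit 4) (nat_lit 380) (nat_lit 262) (nat_lit 138)) (XT.nd (nat_lit 78) (nat_lit 0) (nat_lit 0) (XT.lf (nat_lit 0) (nat_lit 9604164391) (nat_lit 76) (nat_lit 19572737025) (nat_lit 152) (nat_lit 27153192753) (nat_lit 8) (nat_lit 5)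 (nat_lit 9) (nat_lit 5) (nat_lit 10) (nat_lit 4) (nat_lit 381) (nat_lit 262) (nat_lit 137)) (XT.lf (nat_lit 0) (nat_lit 18331927655) (nat_lit 76) (nat_lit 15162509827) (nat_lit 152) (nat_lit 24372594824) (nat_lit 8) (nat_lit 5) (nat_lit 9) (nat_lit 5) (nat_lit 10) (nat_lit 4) (nat_lit 382) (nat_lit 262) (nat_lit 136)))) (XT.nd (nat_lit 78) (nat_lit 0) (nat_lit 0) (XT.lf (nat_lit 0) (nat_lit 27310066680) (nat_lit 76) (nat_lit 10624716178) (nat_lit 152) (nat_lit 21515504347) (nat_lit 8) (nat_lit 5) (nat_lit 9) (nat_lit 5) (nat_lit 10) (nat_lit 4) (nat_lit 383) (nat_lit 262) (nat_lit 135)) (XT.nd (nat_lit 78) (nat_lit 0) (nat_lit 0) (XT.lf (nat_lit 0) (nat_lit 36546426442) (nat_lit 76) (nat_lit 5955391014) (nat_lit 152) (nat_lit 18579424835) (nat_lit 8) (nat_lit 5) (nat_lit 9) (nat_lit 5) (nat_lit 10) (nat_lit 4) (nat_lit 384) (nat_lit 262) (nat_lit 134)) (XT.lf (nat_lit 0) (nat_lit 46049077547)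 (nat_lit 76) (nat_lit 1150454343) (nat_lit 152) (nat_lit 15561790781) (nat_lit 8) (nat_lit 5) (nat_lit 9) (nat_lit 5) (nat_lit 10) (nat_lit 4) (nat_lit 385) (nat_lit 262) (nat_lit 133))))) (XT.nd (nat_lit 234) (nat_lit 76) (nat_lit 0) (XT.nd (nat_lit 78) (nat_lit 76) (nat_lit 0) (XT.lf (nat_lit 0) (nat_lit 52068504020) (nat_lit 152) (nat_lit 8702146156) (nat_lit 0) (nat_lit 3720252012) (nat_lit 8) (nat_lit 5) (nat_lit 10) (nat_lit 4) (nat_lit 8) (nat_lit 4) (nat_lit 386) (nat_lit 262) (nat_lit 132)) (XT.nd (nat_lit 78) (nat_lit 76) (nat_lit 0) (XT.lf (nat_lit 0) (nat_lit 57088927698) (nat_lit 152) (nat_lit 473459240) (nat_lit 0) (nat_lit 8709826999) (nat_lit 8) (nat_lit 5) (nat_lit 10) (nat_lit 4) (nat_lit 8) (nat_lit 4) (nat_lit 387) (nat_lit 262) (nat_lit 131)) (XT.lf (nat_lit 0) (nat_lit 8151122363) (nat_lit 76) (nat_lit 54181362043) (nat_lit 76) (nat_lit 5772311160) (nat_lit 7) (nat_lit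 4) (nat_lit 8) (nat_lit 5) (nat_lit 8) (nat_lit 4) (nat_lit 388) (nat_lit 262) (nat_lit 130)))) (XT.nd (nat_lit 78) (nat_lit 76) (nat_lit 0) (XT.lf (nat_lit 0) (nat_lit 17034221463) (nat_lit 76) (nat_lit 50698148603) (nat_lit 76) (nat_lit 2260019870) (nat_lit 7) (nat_lit 4) (nat_lit 8) (nat_lit 5) (nat_lit 8) (nat_lit 4) (nat_lit 389) (nat_lit 262) (nat_lit 129)) (XT.nd (nat_lit 78) (nat_lit 0) (nat_lit 0) (XT.lf (nat_lit 0) (nat_lit 1325495649) (nat_lit 152) (nat_lit 45775603486) (nat_lit 76) (nat_lit 24835296664) (nat_lit 6) (nat_lit 5) (nat_lit 8) (nat_lit 5) (nat_lit 7) (nat_lit 4) (nat_lit 390) (nat_lit 262) (nat_lit 128)) (XT.lf (nat_lit 0) (nat_lit 4967665036) (nat_lit 152) (nat_lit 38409408292) (nat_lit 76) (nat_lit 30561147292) (nat_lit 6) (nat_lit 5) (nat_lit 8) (nat_lit 5) (nat_lit 7) (nat_lit 4) (nat_lit 391) (nat_lit 262) (nat_lit 127))))))) (XT.nd (nat_lit 31044) (nat_lit 0) (nat_lit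 14744) (XT.nd (nat_lit 30576) (nat_lit 0) (nat_lit 17556) (XT.nd (nat_lit 156) (nat_lit 76) (nat_lit 0) (XT.nd (nat_lit 78) (nat_lit 0) (nat_lit 0) (XT.lf (nat_lit 0) (nat_lit 8713771897) (nat_lit 152) (nat_lit 30831421716) (nat_lit 76) (nat_lit 36455071696) (nat_lit 6) (nat_lit 5) (nat_lit 8) (nat_lit 5) (nat_lit 7) (nat_lit 4) (nat_lit 392) (nat_lit 262) (nat_lit 126)) (XT.lf (nat_lit 0) (nat_lit 12567089529) (nat_lit 152) (nat_lit 23035022216) (nat_lit 76) (nat_lit 42522219905) (nat_lit 6) (nat_lit 5) (nat_lit 8) (nat_lit 5) (nat_lit 7) (nat_lit 4) (nat_lit 393) (nat_lit 262) (nat_lit 125))) (XT.nd (nat_lit 78) (nat_lit 76) (nat_lit 0) (XT.lf (nat_lit 0) (nat_lit 16530984908) (nat_lit 152) (nat_lit 15013397405) (nat_lit 76) (nat_lit 48767893312) (nat_lit 6) (nat_lit 5) (nat_lit 8) (nat_lit 5) (nat_lit 7) (nat_lit 4) (nat_lit 394) (nat_lit 262) (nat_lit 124)) (XT.nd (nat_lit 78) (nat_lit 76)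 (nat_lit 0) (XT.lf (nat_lit 0) (nat_lit 20608921632) (nat_lit 152) (nat_lit 6759538096) (nat_lit 76) (nat_lit 55197549301) (nat_lit 6) (nat_lit 5) (nat_lit 8) (nat_lit 5) (nat_lit 7) (nat_lit 4) (nat_lit 395) (nat_lit 262) (nat_lit 123)) (XT.lf (nat_lit 0) (nat_lit 1768273200) (nat_lit 76) (nat_lit 23053187471) (nat_lit 152) (nat_lit 60065530541) (nat_lit 5) (nat_lit 5) (nat_lit 6) (nat_lit 5) (nat_lit 7) (nat_lit 4) (nat_lit 396) (nat_lit 262) (nat_lit 122))))) (XT.nd (nat_lit 234) (nat_lit 304) (nat_lit 0) (XT.nd (nat_lit 78) (nat_lit 380) (nat_lit 0) (XT.lf (nat_lit 0) (nat_lit 653569903) (nat_lit 0) (nat_lit 653569903) (nat_lit 228) (nat_lit 1934308373) (nat_lit 245) (nat_lit 5) (nat_lit 245) (nat_lit 3) (nat_lit 248) (nat_lit 3) (nat_lit 263) (nat_lit 263) (nat_lit 254)) (XT.nd (nat_lit 78) (nat_lit 380) (nat_lit 0) (XT.lf (nat_lit 0) (nat_lit 4113833069) (nat_lit 0) (nat_lit 917286669)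 (nat_lit 228) (nat_lit 1466919417) (nat_lit 245) (nat_lit 5) (nat_lit 245) (nat_lit 3) (nat_lit 248) (nat_lit 3) (nat_lit 264) (nat_lit 263) (nat_lit 253)) (XT.lf (nat_lit 76) (nat_lit 441347489) (nat_lit 0) (nat_lit 455953970) (nat_lit 380) (nat_lit 5619148994) (nat_lit 241) (nat_lit 5) (nat_lit 240) (nat_lit 3) (nat_lit 245) (nat_lit 5) (nat_lit 265) (nat_lit 263) (nat_lit 252)))) (XT.nd (nat_lit 78) (nat_lit 380) (nat_lit 0) (XT.lf (nat_lit 0) (nat_lit 3236038897) (nat_lit 304) (nat_lit 3200868678) (nat_lit 380) (nat_lit 100474853) (nat_lit 241) (nat_lit 5) (nat_lit 245) (nat_lit 5) (nat_lit 246) (nat_lit 5) (nat_lit 266) (nat_lit 263) (nat_lit 251)) (XT.nd (nat_lit 78) (nat_lit 380) (nat_lit 0) (XT.lf (nat_lit 0) (nat_lit 5560690368) (nat_lit 304) (nat_lit 295185205) (nat_lit 380) (nat_lit 705978954) (nat_lit 241) (nat_lit 5) (nat_lit 245) (nat_lit 5) (nat_lit 246) (nat_lit 5) (nat_lit 267)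 (nat_lit 263) (nat_lit 250)) (XT.lf (nat_lit 0) (nat_lit 1280155374) (nat_lit 380) (nat_lit 3900204083) (nat_lit 456) (nat_lit 1408504568) (nat_lit 236) (nat_lit 5) (nat_lit 241) (nat_lit 5) (nat_lit 242) (nat_lit 5) (nat_lit 268) (nat_lit 263) (nat_lit 249)))))) (XT.nd (nat_lit 468) (nat_lit 1900) (nat_lit 0) (XT.nd (nat_lit 234) (nat_lit 456) (nat_lit 0) (XT.nd (nat_lit 78) (nat_lit 456) (nat_lit 0) (XT.lf (nat_lit 0) (nat_lit 3527482195) (nat_lit 380) (nat_lit 908836112) (nat_lit 456) (nat_lit 2182889496) (nat_lit 236) (nat_lit 5) (nat_lit 241) (nat_lit 5) (nat_lit 242) (nat_lit 5) (nat_lit 269) (nat_lit 263) (nat_lit 248)) (XT.nd (nat_lit 78) (nat_lit 456) (nat_lit 0) (XT.lf (nat_lit 76) (nat_lit 2165628070) (nat_lit 0) (nat_lit 3614582951) (nat_lit 456) (nat_lit 872453229) (nat_lit 237) (nat_lit 5) (nat_lit 236) (nat_lit 5) (nat_lit 242) (nat_lit 5) (nat_lit 270) (nat_lit 263) (nat_lit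 247)) (XT.lf (nat_lit 0) (nat_lit 1313070963) (nat_lit 456) (nat_lit 1399948967) (nat_lit 532) (nat_lit 3976201442) (nat_lit 230) (nat_lit 5) (nat_lit 236) (nat_lit 5) (nat_lit 237) (nat_lit 5) (nat_lit 271) (nat_lit 263) (nat_lit 246)))) (XT.nd (nat_lit 78) (nat_lit 456) (nat_lit 0) (XT.lf (nat_lit 76) (nat_lit 1756476219) (nat_lit 0) (nat_lit 1727408091) (nat_lit 532) (nat_lit 3244926802) (nat_lit 231) (nat_lit 5) (nat_lit 230) (nat_lit 5) (nat_lit 237) (nat_lit 5) (nat_lit 272) (nat_lit 263) (nat_lit 245)) (XT.nd (nat_lit 78) (nat_lit 456) (nat_lit 0) (XT.lf (nat_lit 76) (nat_lit 4987859597) (nat_lit 0) (nat_lit 668327379) (nat_lit 532) (nat_lit 1115614323) (nat_lit 231) (nat_lit 5) (nat_lit 230) (nat_lit 5) (nat_lit 237) (nat_lit 5) (nat_lit 273) (nat_lit 263) (nat_lit 244)) (XT.lf (nat_lit 0) (nat_lit 998703788) (nat_lit 532) (nat_lit 5352908772) (nat_lit 76) (nat_lit 466179541) (nat_lit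 224) (nat_lit 5) (nat_lit 231) (nat_lit 5) (nat_lit 225) (nat_lit 5) (nat_lit 274) (nat_lit 263) (nat_lit 243))))) (XT.nd (nat_lit 234) (nat_lit 1292) (nat_lit 0) (XT.nd (nat_lit 78) (nat_lit 608) (nat_lit 0) (XT.lf (nat_lit 0) (nat_lit 3104313808) (nat_lit 532) (nat_lit 2085848891) (nat_lit 76) (nat_lit 1676437935) (nat_lit 224) (nat_lit 5) (nat_lit 231) (nat_lit 5) (nat_lit 225) (nat_lit 5) (nat_lit 275) (nat_lit 263) (nat_lit 242)) (XT.nd (nat_lit 78) (nat_lit 76) (nat_lit 0) (XT.lf (nat_lit 0) (nat_lit 1254055368) (nat_lit 532) (nat_lit 3958737463) (nat_lit 608) (nat_lit 1706159407) (nat_lit 217) (nat_lit 5) (nat_lit 224) (nat_lit 5) (nat_lit 225) (nat_lit 5) (nat_lit 276) (nat_lit 263) (nat_lit 241)) (XT.lf (nat_lit 0) (nat_lit 353214373) (nat_lit 608) (nat_lit 2290326229) (nat_lit 76) (nat_lit 4330981563) (nat_lit 216) (nat_lit 5) (nat_lit 224) (nat_lit 5) (nat_lit 217) (nat_lit 5) (nat_lit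 277) (nat_lit 263) (nat_lit 240)))) (XT.nd (nat_lit 78) (nat_lit 684) (nat_lit 0) (XT.lf (nat_lit 0) (nat_lit 1141511686) (nat_lit 608) (nat_lit 1239949952) (nat_lit 684) (nat_lit 4651796178) (nat_lit 208) (nat_lit 5) (nat_lit 216) (nat_lit 5) (nat_lit 217) (nat_lit 5) (nat_lit 278) (nat_lit 263) (nat_lit 239)) (XT.nd (nat_lit 78) (nat_lit 684) (nat_lit 0) (XT.lf (nat_lit 0) (nat_lit 4428043677) (nat_lit 684) (nat_lit 2423347521) (nat_lit 76) (nat_lit 243879465) (nat_lit 208) (nat_lit 5) (nat_lit 217) (nat_lit 5) (nat_lit 209) (nat_lit 5) (nat_lit 279) (nat_lit 263) (nat_lit 238)) (XT.lf (nat_lit 0) (nat_lit 1108621421) (nat_lit 684) (nat_lit 5384464150) (nat_lit 760) (nat_lit 667579216) (nat_lit 199) (nat_lit 5) (nat_lit 208) (nat_lit 5) (nat_lit 209) (nat_lit 5) (nat_lit 280) (nat_lit 263) (nat_lit 237))))))))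
noncomputable def xc120 : XT := (XT.nd (nat_lit 1716) (nat_lit 3572) (nat_lit 0) (XT.nd (nat_lit 858) (nat_lit 3192) (nat_lit 0) (XT.nd (nat_lit 390) (nat_lit 3040) (nat_lit 0) (XT.nd (nat_lit 156) (nat_lit 912) (nat_lit 0) (XT.nd (nat_lit 78) (nat_lit 760) (nat_lit 0) (XT.lf (nat_lit 0) (nat_lit 1324320917) (nat_lit 760) (nat_lit 2495552731) (nat_lit 76) (nat_lit 3409182238) (nat_lit 198) (nat_lit 5) (nat_lit 208) (nat_lit 5) (nat_lit 199) (nat_lit 5) (nat_lit 281) (nat_lit 263) (nat_lit 236)) (XT.lf (nat_lit 0) (nat_lit 1133760059) (nat_lit 760) (nat_lit 2176313903) (nat_lit 836) (nat_lit 3991014068) (nat_lit 188) (nat_lit 5) (nat_lit 198) (nat_lit 5) (nat_lit 199) (nat_lit 5) (nat_lit 282) (nat_lit 263) (nat_lit 235))) (XT.nd (nat_lit 78) (nat_lit 912) (nat_lit 0) (XT.lf (nat_lit 0) (nat_lit 4874206190) (nat_lit 760) (nat_lit 444384870) (nat_lit 836) (nat_lit 2058001142) (nat_lit 188) (nat_lit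 5) (nat_lit 198) (nat_lit 5) (nat_lit 199) (nat_lit 5) (nat_lit 283) (nat_lit 263) (nat_lit 234)) (XT.nd (nat_lit 78) (nat_lit 76) (nat_lit 0) (XT.lf (nat_lit 0) (nat_lit 1234102613) (nat_lit 836) (nat_lit 6117919789) (nat_lit 912) (nat_lit 103600119) (nat_lit 177) (nat_lit 5) (nat_lit 188) (nat_lit 5) (nat_lit 189) (nat_lit 5) (nat_lit 284) (nat_lit 263) (nat_lit 233)) (XT.lf (nat_lit 0) (nat_lit 1842516317) (nat_lit 912) (nat_lit 2475783849) (nat_lit 76) (nat_lit 3219251904) (nat_lit 176) (nat_lit 5) (nat_lit 188) (nat_lit 5) (nat_lit 177) (nat_lit 5) (nat_lit 285) (nat_lit 263) (nat_lit 232))))) (XT.nd (nat_lit 234) (nat_lit 1140) (nat_lit 0) (XT.nd (nat_lit 78) (nat_lit 988) (nat_lit 0) (XT.lf (nat_lit 0) (nat_lit 1358788301) (nat_lit 912) (nat_lit 2441366477) (nat_lit 988) (nat_lit 3823281077) (nat_lit 164) (nat_lit 5) (nat_lit 176) (nat_lit 5) (nat_lit 177) (nat_lit 5) (nat_lit 286) (nat_lit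 263) (nat_lit 231)) (XT.nd (nat_lit 78) (nat_lit 988) (nat_lit 0) (XT.lf (nat_lit 0) (nat_lit 5310604295) (nat_lit 912) (nat_lit 474295989) (nat_lit 988) (nat_lit 1928122925) (nat_lit 164) (nat_lit 5) (nat_lit 176) (nat_lit 5) (nat_lit 177) (nat_lit 5) (nat_lit 287) (nat_lit 263) (nat_lit 230)) (XT.lf (nat_lit 0) (nat_lit 1541817943) (nat_lit 988) (nat_lit 6262209755) (nat_lit 1064) (nat_lit 2198497) (nat_lit 151) (nat_lit 5) (nat_lit 164) (nat_lit 5) (nat_lit 165) (nat_lit 5) (nat_lit 288) (nat_lit 263) (nat_lit 229)))) (XT.nd (nat_lit 78) (nat_lit 1064) (nat_lit 0) (XT.lf (nat_lit 0) (nat_lit 1917570325) (nat_lit 1064) (nat_lit 2321646806) (nat_lit 76) (nat_lit 3663357985) (nat_lit 150) (nat_lit 5) (nat_lit 164) (nat_lit 5) (nat_lit 151) (nat_lit 5) (nat_lit 289) (nat_lit 263) (nat_lit 228)) (XT.nd (nat_lit 78) (nat_lit 0) (nat_lit 0) (XT.lf (nat_lit 0) (nat_lit 1724686042) (nat_lit 1064)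 (nat_lit 2133904040) (nat_lit 1140) (nat_lit 4144471207) (nat_lit 136) (nat_lit 5) (nat_lit 150) (nat_lit 5) (nat_lit 151) (nat_lit 5) (nat_lit 290) (nat_lit 263) (nat_lit 227)) (XT.lf (nat_lit 0) (nat_lit 5830089926) (nat_lit 1140) (nat_lit 2216038849) (nat_lit 76) (nat_lit 61419673) (nat_lit 136) (nat_lit 5) (nat_lit 151) (nat_lit 5) (nat_lit 137) (nat_lit 5) (nat_lit 291) (nat_lit 263) (nat_lit 226)))))) (XT.nd (nat_lit 390) (nat_lit 1444) (nat_lit 0) (XT.nd (nat_lit 156) (nat_lit 1064) (nat_lit 0) (XT.nd (nat_lit 78) (nat_lit 76) (nat_lit 0) (XT.lf (nat_lit 0) (nat_lit 1936660150) (nat_lit 608) (nat_lit 5913567280) (nat_lit 684) (nat_lit 365407412) (nat_lit 128) (nat_lit 5) (nat_lit 136) (nat_lit 5) (nat_lit 137) (nat_lit 5) (nat_lit 292) (nat_lit 263) (nat_lit 225)) (XT.lf (nat_lit 0) (nat_lit 1545428380) (nat_lit 684) (nat_lit 2131398133) (nat_lit 76) (nat_lit 4650633889) (nat_lit 127)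 (nat_lit 5) (nat_lit 136) (nat_lit 5) (nat_lit 128) (nat_lit 5) (nat_lit 293) (nat_lit 263) (nat_lit 224))) (XT.nd (nat_lit 78) (nat_lit 532) (nat_lit 0) (XT.lf (nat_lit 0) (nat_lit 2131164684) (nat_lit 532) (nat_lit 1347142857) (nat_lit 608) (nat_lit 4965199495) (nat_lit 120) (nat_lit 5) (nat_lit 127) (nat_lit 5) (nat_lit 128) (nat_lit 5) (nat_lit 294) (nat_lit 263) (nat_lit 223)) (XT.nd (nat_lit 78) (nat_lit 532) (nat_lit 0) (XT.lf (nat_lit 0) (nat_lit 5453566415) (nat_lit 608) (nat_lit 2055929837) (nat_lit 76) (nat_lit 1054139760) (nat_lit 120) (nat_lit 5) (nat_lit 128) (nat_lit 5) (nat_lit 121) (nat_lit 5) (nat_lit 295) (nat_lit 263) (nat_lit 222)) (XT.lf (nat_lit 0) (nat_lit 2312875655) (nat_lit 532) (nat_lit 5164701215) (nat_lit 608) (nat_lit 1210236047) (nat_lit 113) (nat_lit 5) (nat_lit 120) (nat_lit 5) (nat_lit 121) (nat_lit 5) (nat_lit 296) (nat_lit 263) (nat_lit 221))))) (XT.nd (nat_lit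 234) (nat_lit 912) (nat_lit 0) (XT.nd (nat_lit 78) (nat_lit 456) (nat_lit 0) (XT.lf (nat_lit 0) (nat_lit 707236958) (nat_lit 608) (nat_lit 2015248940) (nat_lit 76) (nat_lit 6093879013) (nat_lit 112) (nat_lit 5) (nat_lit 120) (nat_lit 5) (nat_lit 113) (nat_lit 5) (nat_lit 297) (nat_lit 263) (nat_lit 220)) (XT.nd (nat_lit 78) (nat_lit 0) (nat_lit 0) (XT.lf (nat_lit 0) (nat_lit 2465074011) (nat_lit 456) (nat_lit 172110761) (nat_lit 532) (nat_lit 6311968900) (nat_lit 106) (nat_lit 5) (nat_lit 112) (nat_lit 5) (nat_lit 113) (nat_lit 5) (nat_lit 298) (nat_lit 263) (nat_lit 219)) (XT.lf (nat_lit 0) (nat_lit 4625590397) (nat_lit 532) (nat_lit 2035218727) (nat_lit 76) (nat_lit 2425214696) (nat_lit 106) (nat_lit 5) (nat_lit 113) (nat_lit 5) (nat_lit 107) (nat_lit 5) (nat_lit 299) (nat_lit 263) (nat_lit 218)))) (XT.nd (nat_lit 78) (nat_lit 456) (nat_lit 0) (XT.lf (nat_lit 0) (nat_lit 2549303340) (nat_lit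 456) (nat_lit 4108234983) (nat_lit 532) (nat_lit 2570056214) (nat_lit 100) (nat_lit 5) (nat_lit 106) (nat_lit 5) (nat_lit 107) (nat_lit 5) (nat_lit 300) (nat_lit 263) (nat_lit 217)) (XT.nd (nat_lit 78) (nat_lit 456) (nat_lit 0) (XT.lf (nat_lit 0) (nat_lit 7267683819) (nat_lit 456) (nat_lit 1461789408) (nat_lit 532) (nat_lit 644676223) (nat_lit 100) (nat_lit 5) (nat_lit 106) (nat_lit 5) (nat_lit 107) (nat_lit 5) (nat_lit 301) (nat_lit 263) (nat_lit 216)) (XT.lf (nat_lit 0) (nat_lit 1308963973) (nat_lit 456) (nat_lit 6942474666) (nat_lit 76) (nat_lit 1273479610) (nat_lit 94) (nat_lit 5) (nat_lit 100) (nat_lit 5) (nat_lit 95) (nat_lit 5) (nat_lit 302) (nat_lit 263) (nat_lit 215))))))) (XT.nd (nat_lit 858) (nat_lit 1520) (nat_lit 0) (XT.nd (nat_lit 390) (nat_lit 1140) (nat_lit 0) (XT.nd (nat_lit 156) (nat_lit 456) (nat_lit 0) (XT.nd (nat_lit 78) (nat_lit 456) (nat_lit 0) (XT.lf (nat_lit 0) (nat_lit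 3304112702) (nat_lit 456) (nat_lit 2291243327) (nat_lit 76) (nat_lit 4084885667) (nat_lit 94) (nat_lit 5) (nat_lit 100) (nat_lit 5) (nat_lit 95) (nat_lit 5) (nat_lit 303) (nat_lit 263) (nat_lit 214)) (XT.lf (nat_lit 0) (nat_lit 2503914265) (nat_lit 456) (nat_lit 2840340433) (nat_lit 532) (nat_lit 4496511878) (nat_lit 88) (nat_lit 5) (nat_lit 94) (nat_lit 5) (nat_lit 95) (nat_lit 5) (nat_lit 304) (nat_lit 263) (nat_lit 213))) (XT.nd (nat_lit 78) (nat_lit 456) (nat_lit 0) (XT.lf (nat_lit 0) (nat_lit 7430665745) (nat_lit 532) (nat_lit 2560940513) (nat_lit 76) (nat_lit 15042105) (nat_lit 88) (nat_lit 5) (nat_lit 95) (nat_lit 5) (nat_lit 89) (nat_lit 5) (nat_lit 305) (nat_lit 263) (nat_lit 212)) (XT.nd (nat_lit 78) (nat_lit 76) (nat_lit 0) (XT.lf (nat_lit 0) (nat_lit 2331724989) (nat_lit 380) (nat_lit 7261319458) (nat_lit 456) (nat_lit 584151286) (nat_lit 83) (nat_lit 5) (nat_lit 88) (nat_lit 5)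 (nat_lit 89) (nat_lit 5) (nat_lit 306) (nat_lit 263) (nat_lit 211)) (XT.lf (nat_lit 0) (nat_lit 1427972827) (nat_lit 456) (nat_lit 2987070277) (nat_lit 76) (nat_lit 5937803263) (nat_lit 82) (nat_lit 5) (nat_lit 88) (nat_lit 5) (nat_lit 83) (nat_lit 5) (nat_lit 307) (nat_lit 263) (nat_lit 210))))) (XT.nd (nat_lit 234) (nat_lit 456) (nat_lit 0) (XT.nd (nat_lit 78) (nat_lit 304) (nat_lit 0) (XT.lf (nat_lit 0) (nat_lit 2007469680) (nat_lit 380) (nat_lit 1464679439) (nat_lit 456) (nat_lit 7062023730) (nat_lit 77) (nat_lit 5) (nat_lit 82) (nat_lit 5) (nat_lit 83) (nat_lit 5) (nat_lit 308) (nat_lit 263) (nat_lit 209)) (XT.nd (nat_lit 78) (nat_lit 304) (nat_lit 0) (XT.lf (nat_lit 0) (nat_lit 5587942075) (nat_lit 456) (nat_lit 3566034020) (nat_lit 76) (nat_lit 1566734603) (nat_lit 77) (nat_lit 5) (nat_lit 83) (nat_lit 5) (nat_lit 78) (nat_lit 5) (nat_lit 309) (nat_lit 263) (nat_lit 208)) (XT.lf (nat_lit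 0) (nat_lit 1516163636) (nat_lit 304) (nat_lit 6245846534) (nat_lit 380) (nat_lit 3151068439) (nat_lit 73) (nat_lit 5) (nat_lit 77) (nat_lit 5) (nat_lit 78) (nat_lit 5) (nat_lit 310) (nat_lit 263) (nat_lit 207)))) (XT.nd (nat_lit 78) (nat_lit 456) (nat_lit 0) (XT.lf (nat_lit 0) (nat_lit 6781967267) (nat_lit 304) (nat_lit 3221663226) (nat_lit 380) (nat_lit 1107592864) (nat_lit 73) (nat_lit 5) (nat_lit 77) (nat_lit 5) (nat_lit 78) (nat_lit 5) (nat_lit 311) (nat_lit 263) (nat_lit 206)) (XT.nd (nat_lit 78) (nat_lit 0) (nat_lit 0) (XT.lf (nat_lit 0) (nat_lit 856084256) (nat_lit 380) (nat_lit 96778600) (nat_lit 456) (nat_lit 10362979338) (nat_lit 67) (nat_lit 5) (nat_lit 72) (nat_lit 5) (nat_lit 73) (nat_lit 5) (nat_lit 312) (nat_lit 263) (nat_lit 205)) (XT.lf (nat_lit 0) (nat_lit 3094422268) (nat_lit 456) (nat_lit 5322990490) (nat_lit 76) (nat_lit 3107680583) (nat_lit 67) (nat_lit 5) (nat_lit 73)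 (nat_lit 5) (nat_lit 68) (nat_lit 5) (nat_lit 313) (nat_lit 263) (nat_lit 204)))))) (XT.nd (nat_lit 468) (nat_lit 608) (nat_lit 0) (XT.nd (nat_lit 234) (nat_lit 608) (nat_lit 0) (XT.nd (nat_lit 78) (nat_lit 304) (nat_lit 0) (XT.lf (nat_lit 0) (nat_lit 5269528939) (nat_lit 456) (nat_lit 73878664) (nat_lit 76) (nat_lit 6398202664) (nat_lit 67) (nat_lit 5) (nat_lit 73) (nat_lit 5) (nat_lit 68) (nat_lit 5) (nat_lit 314) (nat_lit 263) (nat_lit 203)) (XT.nd (nat_lit 78) (nat_lit 0) (nat_lit 0) (XT.lf (nat_lit 0) (nat_lit 5398437393) (nat_lit 304) (nat_lit 2132608843) (nat_lit 380) (nat_lit 4433007042) (nat_lit 63) (nat_lit 5) (nat_lit 67) (nat_lit 5) (nat_lit 68) (nat_lit 5) (nat_lit 315) (nat_lit 263) (nat_lit 202)) (XT.lf (nat_lit 0) (nat_lit 9842148555) (nat_lit 380) (nat_lit 1208114433) (nat_lit 76) (nat_lit 1143517804) (nat_lit 63) (nat_lit 5) (nat_lit 68) (nat_lit 5) (nat_lit 64) (nat_lit 5)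 (nat_lit 316) (nat_lit 263) (nat_lit 201)))) (XT.nd (nat_lit 78) (nat_lit 304) (nat_lit 0) (XT.lf (nat_lit 0) (nat_lit 4334642707) (nat_lit 304) (nat_lit 7921301996) (nat_lit 380) (nat_lit 173516158) (nat_lit 59) (nat_lit 5) (nat_lit 63) (nat_lit 5) (nat_lit 64) (nat_lit 5) (nat_lit 317) (nat_lit 263) (nat_lit 200)) (XT.nd (nat_lit 78) (nat_lit 228) (nat_lit 0) (XT.lf (nat_lit 0) (nat_lit 2012591530) (nat_lit 380) (nat_lit 2662613877) (nat_lit 76) (nat_lit 7996975810) (nat_lit 58) (nat_lit 5) (nat_lit 63) (nat_lit 5) (nat_lit 59) (nat_lit 5) (nat_lit 318) (nat_lit 263) (nat_lit 199)) (XT.lf (nat_lit 0) (nat_lit 2950354367) (nat_lit 228) (nat_lit 1310373815) (nat_lit 304) (nat_lit 8661461794) (nat_lit 55) (nat_lit 5) (nat_lit 58) (nat_lit 5) (nat_lit 59) (nat_lit 5) (nat_lit 319) (nat_lit 263) (nat_lit 198))))) (XT.nd (nat_lit 234) (nat_lit 304) (nat_lit 0) (XT.nd (nat_lit 78) (nat_lit 304) (nat_lit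 0) (XT.lf (nat_lit 0) (nat_lit 6596126298) (nat_lit 304) (nat_lit 4452068216) (nat_lit 76) (nat_lit 2130964651) (nat_lit 55) (nat_lit 5) (nat_lit 59) (nat_lit 5) (nat_lit 56) (nat_lit 5) (nat_lit 320) (nat_lit 263) (nat_lit 197)) (XT.nd (nat_lit 78) (nat_lit 0) (nat_lit 0) (XT.lf (nat_lit 0) (nat_lit 1206499006) (nat_lit 304) (nat_lit 7792421018) (nat_lit 380) (nat_lit 4445050490) (nat_lit 51) (nat_lit 5) (nat_lit 55) (nat_lit 5) (nat_lit 56) (nat_lit 5) (nat_lit 321) (nat_lit 263) (nat_lit 196)) (XT.lf (nat_lit 0) (nat_lit 7089090239) (nat_lit 304) (nat_lit 4402864255) (nat_lit 380) (nat_lit 2224278550) (nat_lit 51) (nat_lit 5) (nat_lit 55) (nat_lit 5) (nat_lit 56) (nat_lit 5) (nat_lit 322) (nat_lit 263) (nat_lit 195)))) (XT.nd (nat_lit 78) (nat_lit 228) (nat_lit 0) (XT.lf (nat_lit 0) (nat_lit 35558586) (nat_lit 380) (nat_lit 885601976) (nat_lit 76) (nat_lit 13076323067) (nat_lit 50) (nat_lit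 5) (nat_lit 55) (nat_lit 5) (nat_lit 51) (nat_lit 5) (nat_lit 323) (nat_lit 263) (nat_lit 194)) (XT.nd (nat_lit 78) (nat_lit 0) (nat_lit 0) (XT.lf (nat_lit 0) (nat_lit 2367881426) (nat_lit 304) (nat_lit 9242424567) (nat_lit 76) (nat_lit 2674770342) (nat_lit 47) (nat_lit 5) (nat_lit 51) (nat_lit 5) (nat_lit 48) (nat_lit 5) (nat_lit 324) (nat_lit 263) (nat_lit 193)) (XT.lf (nat_lit 0) (nat_lit 4763077991) (nat_lit 304) (nat_lit 3459116155) (nat_lit 76) (nat_lit 6359361356) (nat_lit 47) (nat_lit 5) (nat_lit 51) (nat_lit 5) (nat_lit 48) (nat_lit 5) (nat_lit 325) (nat_lit 263) (nat_lit 192))))))))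
noncomputable def xc121 : XT := (XT.nd (nat_lit 1716) (nat_lit 912) (nat_lit 0) (XT.nd (nat_lit 858) (nat_lit 836) (nat_lit 0) (XT.nd (nat_lit 390) (nat_lit 380) (nat_lit 0) (XT.nd (nat_lit 156) (nat_lit 304) (nat_lit 0) (XT.nd (nat_lit 78) (nat_lit 0) (nat_lit 0) (XT.lf (nat_lit 0) (nat_lit 2511965538) (nat_lit 228) (nat_lit 4717799088) (nat_lit 304) (nat_lit 7657219860) (nat_lit 44) (nat_lit 5) (nat_lit 47) (nat_lit 5) (nat_lit 48) (nat_lit 5) (nat_lit 326) (nat_lit 263) (nat_lit 191)) (XT.lf (nat_lit 0) (nat_lit 8698685329) (nat_lit 228) (nat_lit 1082567696) (nat_lit 304) (nat_lit 5420042449) (nat_lit 44) (nat_lit 5) (nat_lit 47) (nat_lit 5) (nat_lit 48) (nat_lit 5) (nat_lit 327) (nat_lit 263) (nat_lit 190))) (XT.nd (nat_lit 78) (nat_lit 304) (nat_lit 0) (XT.lf (nat_lit 0) (nat_lit 12411349948) (nat_lit 304) (nat_lit 513664808) (nat_lit 76) (nat_lit 2600001034) (nat_lit 44) (nat_lit 5) (nat_lit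 48) (nat_lit 5) (nat_lit 45) (nat_lit 5) (nat_lit 328) (nat_lit 263) (nat_lit 189)) (XT.nd (nat_lit 78) (nat_lit 76) (nat_lit 0) (XT.lf (nat_lit 0) (nat_lit 5722845827) (nat_lit 228) (nat_lit 9440396836) (nat_lit 304) (nat_lit 693958960) (nat_lit 41) (nat_lit 5) (nat_lit 44) (nat_lit 5) (nat_lit 45) (nat_lit 5) (nat_lit 329) (nat_lit 263) (nat_lit 188)) (XT.lf (nat_lit 0) (nat_lit 1745737441) (nat_lit 304) (nat_lit 4092778998) (nat_lit 76) (nat_lit 10360881633) (nat_lit 40) (nat_lit 5) (nat_lit 44) (nat_lit 5) (nat_lit 41) (nat_lit 5) (nat_lit 330) (nat_lit 263) (nat_lit 187))))) (XT.nd (nat_lit 234) (nat_lit 152) (nat_lit 0) (XT.nd (nat_lit 78) (nat_lit 0) (nat_lit 0) (XT.lf (nat_lit 0) (nat_lit 2132530392) (nat_lit 228) (nat_lit 2110560224) (nat_lit 304) (nat_lit 12308648500) (nat_lit 37) (nat_lit 5) (nat_lit 40) (nat_lit 5) (nat_lit 41) (nat_lit 5) (nat_lit 331) (nat_lit 263) (nat_lit 186))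 (XT.nd (nat_lit 78) (nat_lit 0) (nat_lit 0) (XT.lf (nat_lit 0) (nat_lit 6851877935) (nat_lit 304) (nat_lit 8334476751) (nat_lit 76) (nat_lit 1727236453) (nat_lit 37) (nat_lit 5) (nat_lit 41) (nat_lit 5) (nat_lit 38) (nat_lit 5) (nat_lit 332) (nat_lit 263) (nat_lit 185)) (XT.lf (nat_lit 0) (nat_lit 9538614678) (nat_lit 304) (nat_lit 2119683525) (nat_lit 76) (nat_lit 5628045049) (nat_lit 37) (nat_lit 5) (nat_lit 41) (nat_lit 5) (nat_lit 38) (nat_lit 5) (nat_lit 333) (nat_lit 263) (nat_lit 184)))) (XT.nd (nat_lit 78) (nat_lit 0) (nat_lit 0) (XT.lf (nat_lit 0) (nat_lit 4335490383) (nat_lit 152) (nat_lit 7991545484) (nat_lit 228) (nat_lit 5342643669) (nat_lit 35) (nat_lit 5) (nat_lit 37) (nat_lit 5) (nat_lit 38) (nat_lit 5) (nat_lit 334) (nat_lit 263) (nat_lit 183)) (XT.nd (nat_lit 78) (nat_lit 0) (nat_lit 0) (XT.lf (nat_lit 0) (nat_lit 10997407427) (nat_lit 152) (nat_lit 4202821799) (nat_lit 228)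 (nat_lit 2864286185) (nat_lit 35) (nat_lit 5) (nat_lit 37) (nat_lit 5) (nat_lit 38) (nat_lit 5) (nat_lit 335) (nat_lit 263) (nat_lit 182)) (XT.lf (nat_lit 0) (nat_lit 17829702838) (nat_lit 152) (nat_lit 310221259) (nat_lit 228) (nat_lit 331895216) (nat_lit 35) (nat_lit 5) (nat_lit 37) (nat_lit 5) (nat_lit 38) (nat_lit 5) (nat_lit 336) (nat_lit 263) (nat_lit 181)))))) (XT.nd (nat_lit 390) (nat_lit 380) (nat_lit 0) (XT.nd (nat_lit 156) (nat_lit 152) (nat_lit 0) (XT.nd (nat_lit 78) (nat_lit 0) (nat_lit 0) (XT.lf (nat_lit 0) (nat_lit 2307047329) (nat_lit 304) (nat_lit 12883191386) (nat_lit 76) (nat_lit 3698227355) (nat_lit 31) (nat_lit 5) (nat_lit 35) (nat_lit 5) (nat_lit 32) (nat_lit 5) (nat_lit 337) (nat_lit 263) (nat_lit 180)) (XT.lf (nat_lit 0) (nat_lit 5008960367) (nat_lit 304) (nat_lit 6487848002) (nat_lit 76) (nat_lit 7821020487) (nat_lit 31) (nat_lit 5) (nat_lit 35) (nat_lit 5) (nat_lit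 32) (nat_lit 5) (nat_lit 338) (nat_lit 263) (nat_lit 179))) (XT.nd (nat_lit 78) (nat_lit 0) (nat_lit 0) (XT.lf (nat_lit 0) (nat_lit 72361061) (nat_lit 152) (nat_lit 7701676155) (nat_lit 228) (nat_lit 11986600656) (nat_lit 29) (nat_lit 5) (nat_lit 31) (nat_lit 5) (nat_lit 32) (nat_lit 5) (nat_lit 339) (nat_lit 263) (nat_lit 178)) (XT.nd (nat_lit 78) (nat_lit 0) (nat_lit 0) (XT.lf (nat_lit 0) (nat_lit 6934242770) (nat_lit 152) (nat_lit 3735020034) (nat_lit 228) (nat_lit 9546080173) (nat_lit 29) (nat_lit 5) (nat_lit 31) (nat_lit 5) (nat_lit 32) (nat_lit 5) (nat_lit 340) (nat_lit 263) (nat_lit 177)) (XT.lf (nat_lit 0) (nat_lit 13636839558) (nat_lit 228) (nat_lit 6712856599) (nat_lit 76) (nat_lit 334455148) (nat_lit 29) (nat_lit 5) (nat_lit 32) (nat_lit 5) (nat_lit 30) (nat_lit 5) (nat_lit 341) (nat_lit 263) (nat_lit 176))))) (XT.nd (nat_lit 234) (nat_lit 152) (nat_lit 0) (XT.nd (nat_lit 78) (nat_lit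 228) (nat_lit 0) (XT.lf (nat_lit 0) (nat_lit 16713068547) (nat_lit 228) (nat_lit 11514788) (nat_lit 76) (nat_lit 4441877920) (nat_lit 29) (nat_lit 5) (nat_lit 32) (nat_lit 5) (nat_lit 30) (nat_lit 5) (nat_lit 342) (nat_lit 263) (nat_lit 175)) (XT.nd (nat_lit 78) (nat_lit 76) (nat_lit 0) (XT.lf (nat_lit 0) (nat_lit 7001304737) (nat_lit 152) (nat_lit 12930730528) (nat_lit 228) (nat_lit 1729717071) (nat_lit 27) (nat_lit 5) (nat_lit 29) (nat_lit 5) (nat_lit 30) (nat_lit 5) (nat_lit 343) (nat_lit 263) (nat_lit 174)) (XT.lf (nat_lit 0) (nat_lit 1037999100) (nat_lit 228) (nat_lit 7983779618) (nat_lit 76) (nat_lit 13150337520) (nat_lit 26) (nat_lit 5) (nat_lit 29) (nat_lit 5) (nat_lit 27) (nat_lit 5) (nat_lit 344) (nat_lit 263) (nat_lit 173)))) (XT.nd (nat_lit 78) (nat_lit 152) (nat_lit 0) (XT.lf (nat_lit 0) (nat_lit 3837673399) (nat_lit 228) (nat_lit 1149456645) (nat_lit 76) (nat_lit 17710659676) (nat_lit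 26) (nat_lit 5) (nat_lit 29) (nat_lit 5) (nat_lit 27) (nat_lit 5) (nat_lit 345) (nat_lit 263) (nat_lit 172)) (XT.nd (nat_lit 78) (nat_lit 0) (nat_lit 0) (XT.lf (nat_lit 0) (nat_lit 5981847547) (nat_lit 152) (nat_lit 781158785) (nat_lit 228) (nat_lit 16474999554) (nat_lit 24) (nat_lit 5) (nat_lit 26) (nat_lit 5) (nat_lit 27) (nat_lit 5) (nat_lit 346) (nat_lit 263) (nat_lit 171)) (XT.lf (nat_lit 0) (nat_lit 9806262490) (nat_lit 228) (nat_lit 10502613204) (nat_lit 76) (nat_lit 3484669818) (nat_lit 24) (nat_lit 5) (nat_lit 27) (nat_lit 5) (nat_lit 25) (nat_lit 5) (nat_lit 347) (nat_lit 263) (nat_lit 170))))))) (XT.nd (nat_lit 858) (nat_lit 380) (nat_lit 0) (XT.nd (nat_lit 390) (nat_lit 380) (nat_lit 0) (XT.nd (nat_lit 156) (nat_lit 0) (nat_lit 0) (XT.nd (nat_lit 78) (nat_lit 152) (nat_lit 0) (XT.lf (nat_lit 0) (nat_lit 12933314415) (nat_lit 228) (nat_lit 3578406893) (nat_lit 76) (nat_lit 7854276315)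 (nat_lit 24) (nat_lit 5) (nat_lit 27) (nat_lit 5) (nat_lit 25) (nat_lit 5) (nat_lit 348) (nat_lit 263) (nat_lit 169)) (XT.lf (nat_lit 0) (nat_lit 3600274164) (nat_lit 152) (nat_lit 12573719379) (nat_lit 228) (nat_lit 8781055903) (nat_lit 22) (nat_lit 5) (nat_lit 24) (nat_lit 5) (nat_lit 25) (nat_lit 5) (nat_lit 349) (nat_lit 263) (nat_lit 168))) (XT.nd (nat_lit 78) (nat_lit 0) (nat_lit 0) (XT.lf (nat_lit 0) (nat_lit 11044394176) (nat_lit 152) (nat_lit 8489048481) (nat_lit 228) (nat_lit 6027703697) (nat_lit 22) (nat_lit 5) (nat_lit 24) (nat_lit 5) (nat_lit 25) (nat_lit 5) (nat_lit 350) (nat_lit 263) (nat_lit 167)) (XT.nd (nat_lit 78) (nat_lit 0) (nat_lit 0) (XT.lf (nat_lit 0) (nat_lit 18689240399) (nat_lit 152) (nat_lit 4290274378) (nat_lit 228) (nat_lit 3206355642) (nat_lit 22) (nat_lit 5) (nat_lit 24) (nat_lit 5) (nat_lit 25) (nat_lit 5) (nat_lit 351) (nat_lit 263) (nat_lit 166)) (XT.lf (nat_lit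 0) (nat_lit 26515473574) (nat_lit 228) (nat_lit 288527259) (nat_lit 76) (nat_lit 25759106) (nat_lit 22) (nat_lit 5) (nat_lit 25) (nat_lit 5) (nat_lit 23) (nat_lit 4) (nat_lit 352) (nat_lit 263) (nat_lit 165))))) (XT.nd (nat_lit 234) (nat_lit 152) (nat_lit 0) (XT.nd (nat_lit 78) (nat_lit 0) (nat_lit 0) (XT.lf (nat_lit 0) (nat_lit 2711890552) (nat_lit 228) (nat_lit 20304181328) (nat_lit 76) (nat_lit 4473163440) (nat_lit 19) (nat_lit 5) (nat_lit 22) (nat_lit 5) (nat_lit 20) (nat_lit 5) (nat_lit 353) (nat_lit 263) (nat_lit 164)) (XT.nd (nat_lit 78) (nat_lit 0) (nat_lit 0) (XT.lf (nat_lit 0) (nat_lit 5812090768) (nat_lit 228) (nat_lit 13304504974) (nat_lit 76) (nat_lit 9052136491) (nat_lit 19) (nat_lit 5) (nat_lit 22) (nat_lit 5) (nat_lit 20) (nat_lit 5) (nat_lit 354) (nat_lit 263) (nat_lit 163)) (XT.lf (nat_lit 0) (nat_lit 8992299346) (nat_lit 228) (nat_lit 6115919916) (nat_lit 76) (nat_lit 13760801486)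 (nat_lit 19) (nat_lit 5) (nat_lit 22) (nat_lit 5) (nat_lit 20) (nat_lit 5) (nat_lit 355) (nat_lit 263) (nat_lit 162)))) (XT.nd (nat_lit 78) (nat_lit 0) (nat_lit 0) (XT.lf (nat_lit 0) (nat_lit 1293087936) (nat_lit 152) (nat_lit 10974637127) (nat_lit 228) (nat_lit 17322614806) (nat_lit 17) (nat_lit 5) (nat_lit 19) (nat_lit 5) (nat_lit 20) (nat_lit 5) (nat_lit 356) (nat_lit 263) (nat_lit 161)) (XT.nd (nat_lit 78) (nat_lit 0) (nat_lit 0) (XT.lf (nat_lit 0) (nat_lit 9029469490) (nat_lit 152) (nat_lit 6661256518) (nat_lit 228) (nat_lit 14641108984) (nat_lit 17) (nat_lit 5) (nat_lit 19) (nat_lit 5) (nat_lit 20) (nat_lit 5) (nat_lit 357) (nat_lit 263) (nat_lit 160)) (XT.lf (nat_lit 0) (nat_lit 16978265891) (nat_lit 152) (nat_lit 2226067260) (nat_lit 228) (nat_lit 11891619674) (nat_lit 17) (nat_lit 5) (nat_lit 19) (nat_lit 5) (nat_lit 20) (nat_lit 5) (nat_lit 358) (nat_lit 263) (nat_lit 159)))))) (XT.nd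 (nat_lit 468) (nat_lit 228) (nat_lit 0) (XT.nd (nat_lit 234) (nat_lit 76) (nat_lit 0) (XT.nd (nat_lit 78) (nat_lit 76) (nat_lit 0) (XT.lf (nat_lit 0) (nat_lit 22834060223) (nat_lit 228) (nat_lit 6759381940) (nat_lit 76) (nat_lit 2289245576) (nat_lit 17) (nat_lit 5) (nat_lit 20) (nat_lit 5) (nat_lit 18) (nat_lit 4) (nat_lit 359) (nat_lit 263) (nat_lit 158)) (XT.nd (nat_lit 78) (nat_lit 0) (nat_lit 0) (XT.lf (nat_lit 0) (nat_lit 794297079) (nat_lit 76) (nat_lit 25796598601) (nat_lit 152) (nat_lit 6101596982) (nat_lit 16) (nat_lit 5) (nat_lit 17) (nat_lit 5) (nat_lit 18) (nat_lit 4) (nat_lit 360) (nat_lit 263) (nat_lit 157)) (XT.lf (nat_lit 0) (nat_lit 8694497373) (nat_lit 76) (nat_lit 21822890853) (nat_lit 152) (nat_lit 3007508989) (nat_lit 16) (nat_lit 5) (nat_lit 17) (nat_lit 5) (nat_lit 18) (nat_lit 4) (nat_lit 361) (nat_lit 263) (nat_lit 156)))) (XT.nd (nat_lit 78) (nat_lit 0) (nat_lit 0)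 (XT.lf (nat_lit 0) (nat_lit 164803615) (nat_lit 152) (nat_lit 17570635441) (nat_lit 76) (nat_lit 16647129264) (nat_lit 15) (nat_lit 5) (nat_lit 17) (nat_lit 5) (nat_lit 16) (nat_lit 5) (nat_lit 362) (nat_lit 263) (nat_lit 155)) (XT.nd (nat_lit 78) (nat_lit 0) (nat_lit 0) (XT.lf (nat_lit 0) (nat_lit 3361063612) (nat_lit 152) (nat_lit 10140661922) (nat_lit 76) (nat_lit 21763686774) (nat_lit 15) (nat_lit 5) (nat_lit 17) (nat_lit 5) (nat_lit 16) (nat_lit 5) (nat_lit 363) (nat_lit 263) (nat_lit 154)) (XT.lf (nat_lit 0) (nat_lit 6642751181) (nat_lit 152) (nat_lit 2505077061) (nat_lit 76) (nat_lit 27027239655) (nat_lit 15) (nat_lit 5) (nat_lit 17) (nat_lit 5) (nat_lit 16) (nat_lit 5) (nat_lit 364) (nat_lit 263) (nat_lit 153))))) (XT.nd (nat_lit 234) (nat_lit 76) (nat_lit 0) (XT.nd (nat_lit 78) (nat_lit 0) (nat_lit 0) (XT.lf (nat_lit 0) (nat_lit 5449123029) (nat_lit 152) (nat_lit 4615991091) (nat_lit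 228) (nat_lit 27045644404) (nat_lit 13) (nat_lit 5) (nat_lit 15) (nat_lit 5) (nat_lit 16) (nat_lit 5) (nat_lit 365) (nat_lit 263) (nat_lit 152)) (XT.nd (nat_lit 78) (nat_lit 0) (nat_lit 0) (XT.lf (nat_lit 0) (nat_lit 13606109746) (nat_lit 228) (nat_lit 24398077315) (nat_lit 76) (nat_lit 69865713) (nat_lit 13) (nat_lit 5) (nat_lit 16) (nat_lit 5) (nat_lit 14) (nat_lit 4) (nat_lit 366) (nat_lit 263) (nat_lit 151)) (XT.lf (nat_lit 0) (nat_lit 17289248828) (nat_lit 228) (nat_lit 16978692630) (nat_lit 76) (nat_lit 4797238402) (nat_lit 13) (nat_lit 5) (nat_lit 16) (nat_lit 5) (nat_lit 14) (nat_lit 4) (nat_lit 367) (nat_lit 263) (nat_lit 150)))) (XT.nd (nat_lit 78) (nat_lit 76) (nat_lit 0) (XT.lf (nat_lit 0) (nat_lit 21073377914) (nat_lit 228) (nat_lit 9352626752) (nat_lit 76) (nat_lit 9660332300) (nat_lit 13) (nat_lit 5) (nat_lit 16) (nat_lit 5) (nat_lit 14) (nat_lit 4) (nat_lit 368) (nat_lit 263)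 (nat_lit 149)) (XT.nd (nat_lit 78) (nat_lit 76) (nat_lit 0) (XT.lf (nat_lit 0) (nat_lit 24961803524) (nat_lit 228) (nat_lit 1513216129) (nat_lit 76) (nat_lit 14663396715) (nat_lit 13) (nat_lit 5) (nat_lit 16) (nat_lit 5) (nat_lit 14) (nat_lit 4) (nat_lit 369) (nat_lit 263) (nat_lit 148)) (XT.lf (nat_lit 0) (nat_lit 6676675190) (nat_lit 76) (nat_lit 22345428408) (nat_lit 152) (nat_lit 13198308350) (nat_lit 12) (nat_lit 5) (nat_lit 13) (nat_lit 5) (nat_lit 14) (nat_lit 4) (nat_lit 370) (nat_lit 263) (nat_lit 147))))))))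
noncomputable def xc122 : XT := (XT.nd (nat_lit 1716) (nat_lit 0) (nat_lit 0) (XT.nd (nat_lit 858) (nat_lit 152) (nat_lit 0) (XT.nd (nat_lit 390) (nat_lit 76) (nat_lit 0) (XT.nd (nat_lit 156) (nat_lit 228) (nat_lit 0) (XT.nd (nat_lit 78) (nat_lit 0) (nat_lit 0) (XT.lf (nat_lit 0) (nat_lit 15128442031) (nat_lit 76) (nat_lit 18082210841) (nat_lit 152) (nat_lit 10124031460) (nat_lit 12) (nat_lit 5) (nat_lit 13) (nat_lit 5) (nat_lit 14) (nat_lit 4) (nat_lit 371) (nat_lit 263) (nat_lit 146)) (XT.lf (nat_lit 0) (nat_lit 23819353464) (nat_lit 76) (nat_lit 13696922327) (nat_lit 152) (nat_lit 6966376430) (nat_lit 12) (nat_lit 5) (nat_lit 13) (nat_lit 5) (nat_lit 14) (nat_lit 4) (nat_lit 372) (nat_lit 263) (nat_lit 145))) (XT.nd (nat_lit 78) (nat_lit 228) (nat_lit 0) (XT.lf (nat_lit 0) (nat_lit 32757003489) (nat_lit 76) (nat_lit 9185731060) (nat_lit 152) (nat_lit 3722584143) (nat_lit 12) (nat_lit 5) (nat_lit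 13) (nat_lit 5) (nat_lit 14) (nat_lit 4) (nat_lit 373) (nat_lit 263) (nat_lit 144)) (XT.nd (nat_lit 78) (nat_lit 228) (nat_lit 0) (XT.lf (nat_lit 0) (nat_lit 41949201703) (nat_lit 76) (nat_lit 4544695224) (nat_lit 152) (nat_lit 389820217) (nat_lit 12) (nat_lit 5) (nat_lit 13) (nat_lit 5) (nat_lit 14) (nat_lit 4) (nat_lit 374) (nat_lit 263) (nat_lit 143)) (XT.lf (nat_lit 0) (nat_lit 3010147672) (nat_lit 228) (nat_lit 44839605469) (nat_lit 76) (nat_lit 287247659) (nat_lit 9) (nat_lit 5) (nat_lit 12) (nat_lit 5) (nat_lit 10) (nat_lit 4) (nat_lit 375) (nat_lit 263) (nat_lit 142))))) (XT.nd (nat_lit 234) (nat_lit 76) (nat_lit 0) (XT.nd (nat_lit 78) (nat_lit 0) (nat_lit 0) (XT.lf (nat_lit 0) (nat_lit 6591710194) (nat_lit 228) (nat_lit 37611735352) (nat_lit 76) (nat_lit 5221707208) (nat_lit 9) (nat_lit 5) (nat_lit 12) (nat_lit 5) (nat_lit 10) (nat_lit 4) (nat_lit 376) (nat_lit 263) (nat_lit 141)) (XT.nd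 (nat_lit 78) (nat_lit 0) (nat_lit 0) (XT.lf (nat_lit 0) (nat_lit 10273060686) (nat_lit 228) (nat_lit 30180051913) (nat_lit 76) (nat_lit 10299074682) (nat_lit 9) (nat_lit 5) (nat_lit 12) (nat_lit 5) (nat_lit 10) (nat_lit 4) (nat_lit 377) (nat_lit 263) (nat_lit 140)) (XT.lf (nat_lit 0) (nat_lit 14057415862) (nat_lit 228) (nat_lit 22538061450) (nat_lit 76) (nat_lit 15523786614) (nat_lit 9) (nat_lit 5) (nat_lit 12) (nat_lit 5) (nat_lit 10) (nat_lit 4) (nat_lit 378) (nat_lit 263) (nat_lit 139)))) (XT.nd (nat_lit 78) (nat_lit 76) (nat_lit 0) (XT.lf (nat_lit 0) (nat_lit 17948082440) (nat_lit 228) (nat_lit 14679086495) (nat_lit 76) (nat_lit 20900408286) (nat_lit 9) (nat_lit 5) (nat_lit 12) (nat_lit 5) (nat_lit 10) (nat_lit 4) (nat_lit 379) (nat_lit 263) (nat_lit 138)) (XT.nd (nat_lit 78) (nat_lit 76) (nat_lit 0) (XT.lf (nat_lit 0) (nat_lit 21948460032) (nat_lit 228) (nat_lit 6596259982) (nat_lit 76)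 (nat_lit 26433637719) (nat_lit 9) (nat_lit 5) (nat_lit 12) (nat_lit 5) (nat_lit 10) (nat_lit 4) (nat_lit 380) (nat_lit 263) (nat_lit 137)) (XT.lf (nat_lit 0) (nat_lit 1751661987) (nat_lit 76) (nat_lit 24327220173) (nat_lit 152) (nat_lit 30393485832) (nat_lit 8) (nat_lit 5) (nat_lit 9) (nat_lit 5) (nat_lit 10) (nat_lit 4) (nat_lit 381) (nat_lit 263) (nat_lit 136)))))) (XT.nd (nat_lit 390) (nat_lit 152) (nat_lit 0) (XT.nd (nat_lit 156) (nat_lit 0) (nat_lit 0) (XT.nd (nat_lit 78) (nat_lit 0) (nat_lit 0) (XT.lf (nat_lit 0) (nat_lit 10473781341) (nat_lit 76) (nat_lit 19919328129) (nat_lit 152) (nat_lit 27616299425) (nat_lit 8) (nat_lit 5) (nat_lit 9) (nat_lit 5) (nat_lit 10) (nat_lit 4) (nat_lit 382) (nat_lit 263) (nat_lit 135)) (XT.lf (nat_lit 0) (nat_lit 19446440842) (nat_lit 76) (nat_lit 15383801620) (nat_lit 152) (nat_lit 24762521105) (nat_lit 8) (nat_lit 5) (nat_lit 9) (nat_lit 5) (nat_lit 10)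 (nat_lit 4) (nat_lit 383) (nat_lit 263) (nat_lit 134))) (XT.nd (nat_lit 78) (nat_lit 0) (nat_lit 0) (XT.lf (nat_lit 0) (nat_lit 28677480678) (nat_lit 76) (nat_lit 10716677564) (nat_lit 152) (nat_lit 21829657280) (nat_lit 8) (nat_lit 5) (nat_lit 9) (nat_lit 5) (nat_lit 10) (nat_lit 4) (nat_lit 384) (nat_lit 263) (nat_lit 133)) (XT.nd (nat_lit 78) (nat_lit 0) (nat_lit 0) (XT.lf (nat_lit 0) (nat_lit 38174966807) (nat_lit 76) (nat_lit 5913877891) (nat_lit 152) (nat_lit 18815145252) (nat_lit 8) (nat_lit 5) (nat_lit 9) (nat_lit 5) (nat_lit 10) (nat_lit 4) (nat_lit 385) (nat_lit 263) (nat_lit 132)) (XT.lf (nat_lit 0) (nat_lit 47947198001) (nat_lit 76) (nat_lit 971205980) (nat_lit 152) (nat_lit 15716350983) (nat_lit 8) (nat_lit 5) (nat_lit 9) (nat_lit 5) (nat_lit 10) (nat_lit 4) (nat_lit 386) (nat_lit 263) (nat_lit 131))))) (XT.nd (nat_lit 234) (nat_lit 76) (nat_lit 0) (XT.nd (nat_lit 78) (nat_lit 76)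 (nat_lit 0) (XT.lf (nat_lit 0) (nat_lit 53926618310) (nat_lit 152) (nat_lit 8454471993) (nat_lit 0) (nat_lit 4035345715) (nat_lit 8) (nat_lit 5) (nat_lit 10) (nat_lit 4) (nat_lit 8) (nat_lit 4) (nat_lit 387) (nat_lit 263) (nat_lit 130)) (XT.nd (nat_lit 78) (nat_lit 0) (nat_lit 0) (XT.lf (nat_lit 0) (nat_lit 6382447) (nat_lit 76) (nat_lit 59082710521) (nat_lit 76) (nat_lit 9162360076) (nat_lit 7) (nat_lit 4) (nat_lit 8) (nat_lit 5) (nat_lit 8) (nat_lit 4) (nat_lit 388) (nat_lit 263) (nat_lit 129)) (XT.lf (nat_lit 0) (nat_lit 8884734593) (nat_lit 76) (nat_lit 55601489831) (nat_lit 76) (nat_lit 5652908464) (nat_lit 7) (nat_lit 4) (nat_lit 8) (nat_lit 5) (nat_lit 8) (nat_lit 4) (nat_lit 389) (nat_lit 263) (nat_lit 128)))) (XT.nd (nat_lit 78) (nat_lit 76) (nat_lit 0) (XT.lf (nat_lit 0) (nat_lit 18020081658) (nat_lit 76) (nat_lit 52019759979) (nat_lit 76) (nat_lit 2043769951) (nat_lit 7) (nat_lit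 4) (nat_lit 8) (nat_lit 5) (nat_lit 8) (nat_lit 4) (nat_lit 390) (nat_lit 263) (nat_lit 127)) (XT.nd (nat_lit 78) (nat_lit 0) (nat_lit 0) (XT.lf (nat_lit 0) (nat_lit 1635656311) (nat_lit 152) (nat_lit 46682218067) (nat_lit 76) (nat_lit 25768232752) (nat_lit 6) (nat_lit 5) (nat_lit 8) (nat_lit 5) (nat_lit 7) (nat_lit 4) (nat_lit 391) (nat_lit 263) (nat_lit 126)) (XT.lf (nat_lit 0) (nat_lit 5379215174) (nat_lit 152) (nat_lit 39108628867) (nat_lit 76) (nat_lit 31660386749) (nat_lit 6) (nat_lit 5) (nat_lit 8) (nat_lit 5) (nat_lit 7) (nat_lit 4) (nat_lit 392) (nat_lit 263) (nat_lit 125))))))) (XT.nd (nat_lit 31122) (nat_lit 0) (nat_lit 14592) (XT.nd (nat_lit 30654) (nat_lit 0) (nat_lit 17024) (XT.nd (nat_lit 156) (nat_lit 0) (nat_lit 0) (XT.nd (nat_lit 78) (nat_lit 0) (nat_lit 0) (XT.lf (nat_lit 0) (nat_lit 9230059022) (nat_lit 152) (nat_lit 31316498665) (nat_lit 76) (nat_lit 37725816116) (nat_lit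 6) (nat_lit 5) (nat_lit 8) (nat_lit 5) (nat_lit 7) (nat_lit 4) (nat_lit 393) (nat_lit 263) (nat_lit 124)) (XT.lf (nat_lit 0) (nat_lit 13191552669) (nat_lit 152) (nat_lit 23299018803) (nat_lit 76) (nat_lit 43969820745) (nat_lit 6) (nat_lit 5) (nat_lit 8) (nat_lit 5) (nat_lit 7) (nat_lit 4) (nat_lit 394) (nat_lit 263) (nat_lit 123))) (XT.nd (nat_lit 78) (nat_lit 0) (nat_lit 0) (XT.lf (nat_lit 0) (nat_lit 17267157615) (nat_lit 152) (nat_lit 15049183716) (nat_lit 76) (nat_lit 50397856560) (nat_lit 6) (nat_lit 5) (nat_lit 8) (nat_lit 5) (nat_lit 7) (nat_lit 4) (nat_lit 395) (nat_lit 263) (nat_lit 122)) (XT.nd (nat_lit 30342) (nat_lit 0) (nat_lit 17784) (XT.lf (nat_lit 0) (nat_lit 21460435067) (nat_lit 152) (nat_lit 6559784810) (nat_lit 76) (nat_lit 57015540293) (nat_lit 6) (nat_lit 5) (nat_lit 8) (nat_lit 5) (nat_lit 7) (nat_lit 4) (nat_lit 396) (nat_lit 263) (nat_lit 121)) (XT.lf (nat_lit 0) (nat_lit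 435085504) (nat_lit 380) (nat_lit 1411083352) (nat_lit 380) (nat_lit 1411083352) (nat_lit 240) (nat_lit 3) (nat_lit 245) (nat_lit 3) (nat_lit 245) (nat_lit 5) (nat_lit 264) (nat_lit 264) (nat_lit 252))))) (XT.nd (nat_lit 234) (nat_lit 380) (nat_lit 0) (XT.nd (nat_lit 78) (nat_lit 380) (nat_lit 0) (XT.lf (nat_lit 0) (nat_lit 3156508951) (nat_lit 380) (nat_lit 42606946) (nat_lit 380) (nat_lit 3335049738) (nat_lit 240) (nat_lit 3) (nat_lit 245) (nat_lit 3) (nat_lit 245) (nat_lit 5) (nat_lit 265) (nat_lit 264) (nat_lit 251)) (XT.nd (nat_lit 78) (nat_lit 380) (nat_lit 0) (XT.lf (nat_lit 76) (nat_lit 2829673582) (nat_lit 0) (nat_lit 2620244031) (nat_lit 380) (nat_lit 1106729379) (nat_lit 241) (nat_lit 5) (nat_lit 240) (nat_lit 3) (nat_lit 245) (nat_lit 5) (nat_lit 266) (nat_lit 264) (nat_lit 250)) (XT.lf (nat_lit 0) (nat_lit 1120917128) (nat_lit 380) (nat_lit 850187345) (nat_lit 456) (nat_lit 4611326423)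 (nat_lit 235) (nat_lit 5) (nat_lit 240) (nat_lit 3) (nat_lit 241) (nat_lit 5) (nat_lit 267) (nat_lit 264) (nat_lit 249)))) (XT.nd (nat_lit 78) (nat_lit 380) (nat_lit 0) (XT.lf (nat_lit 76) (nat_lit 2096700253) (nat_lit 0) (nat_lit 1231364533) (nat_lit 456) (nat_lit 3282899396) (nat_lit 236) (nat_lit 5) (nat_lit 235) (nat_lit 5) (nat_lit 241) (nat_lit 5) (nat_lit 268) (nat_lit 264) (nat_lit 248)) (XT.nd (nat_lit 78) (nat_lit 380) (nat_lit 0) (XT.lf (nat_lit 76) (nat_lit 5103716514) (nat_lit 0) (nat_lit 423100072) (nat_lit 456) (nat_lit 1116117010) (nat_lit 236) (nat_lit 5) (nat_lit 235) (nat_lit 5) (nat_lit 241) (nat_lit 5) (nat_lit 269) (nat_lit 264) (nat_lit 247)) (XT.lf (nat_lit 0) (nat_lit 1030919251) (nat_lit 456) (nat_lit 5185167336) (nat_lit 532) (nat_lit 461665335) (nat_lit 230) (nat_lit 5) (nat_lit 236) (nat_lit 5) (nat_lit 237) (nat_lit 5) (nat_lit 270) (nat_lit 264) (nat_lit 246))))))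 (XT.nd (nat_lit 468) (nat_lit 1444) (nat_lit 0) (XT.nd (nat_lit 234) (nat_lit 456) (nat_lit 0) (XT.nd (nat_lit 78) (nat_lit 532) (nat_lit 0) (XT.lf (nat_lit 0) (nat_lit 3160194380) (nat_lit 456) (nat_lit 2130561096) (nat_lit 532) (nat_lit 1424632799) (nat_lit 230) (nat_lit 5) (nat_lit 236) (nat_lit 5) (nat_lit 237) (nat_lit 5) (nat_lit 271) (nat_lit 264) (nat_lit 245)) (XT.nd (nat_lit 78) (nat_lit 532) (nat_lit 0) (XT.lf (nat_lit 76) (nat_lit 987465276) (nat_lit 0) (nat_lit 4298068345) (nat_lit 532) (nat_lit 1470958223) (nat_lit 231) (nat_lit 5) (nat_lit 230) (nat_lit 5) (nat_lit 237) (nat_lit 5) (nat_lit 272) (nat_lit 264) (nat_lit 244)) (XT.lf (nat_lit 0) (nat_lit 607801324) (nat_lit 532) (nat_lit 2611016626) (nat_lit 608) (nat_lit 3581746428) (nat_lit 223) (nat_lit 5) (nat_lit 230) (nat_lit 5) (nat_lit 231) (nat_lit 5) (nat_lit 273) (nat_lit 264) (nat_lit 243)))) (XT.nd (nat_lit 78) (nat_lit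 456) (nat_lit 0) (XT.lf (nat_lit 76) (nat_lit 591299183) (nat_lit 0) (nat_lit 2059429702) (nat_lit 608) (nat_lit 4197130114) (nat_lit 224) (nat_lit 5) (nat_lit 223) (nat_lit 5) (nat_lit 231) (nat_lit 5) (nat_lit 274) (nat_lit 264) (nat_lit 242)) (XT.nd (nat_lit 78) (nat_lit 456) (nat_lit 0) (XT.lf (nat_lit 76) (nat_lit 3896263675) (nat_lit 0) (nat_lit 812446074) (nat_lit 608) (nat_lit 2189519583) (nat_lit 224) (nat_lit 5) (nat_lit 223) (nat_lit 5) (nat_lit 231) (nat_lit 5) (nat_lit 275) (nat_lit 264) (nat_lit 241)) (XT.lf (nat_lit 0) (nat_lit 303458479) (nat_lit 532) (nat_lit 6462178587) (nat_lit 608) (nat_lit 186619474) (nat_lit 217) (nat_lit 5) (nat_lit 224) (nat_lit 5) (nat_lit 225) (nat_lit 5) (nat_lit 276) (nat_lit 264) (nat_lit 240))))) (XT.nd (nat_lit 234) (nat_lit 760) (nat_lit 0) (XT.nd (nat_lit 78) (nat_lit 608) (nat_lit 0) (XT.lf (nat_lit 0) (nat_lit 1808822548) (nat_lit 608) (nat_lit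 3313145587) (nat_lit 76) (nat_lit 1886570176) (nat_lit 216) (nat_lit 5) (nat_lit 224) (nat_lit 5) (nat_lit 217) (nat_lit 5) (nat_lit 277) (nat_lit 264) (nat_lit 239)) (XT.nd (nat_lit 78) (nat_lit 0) (nat_lit 0) (XT.lf (nat_lit 0) (nat_lit 74263146) (nat_lit 608) (nat_lit 3719266010) (nat_lit 684) (nat_lit 3275169128) (nat_lit 208) (nat_lit 5) (nat_lit 216) (nat_lit 5) (nat_lit 217) (nat_lit 5) (nat_lit 278) (nat_lit 264) (nat_lit 238)) (XT.lf (nat_lit 0) (nat_lit 3583765392) (nat_lit 608) (nat_lit 2221417917) (nat_lit 684) (nat_lit 1326690319) (nat_lit 208) (nat_lit 5) (nat_lit 216) (nat_lit 5) (nat_lit 217) (nat_lit 5) (nat_lit 279) (nat_lit 264) (nat_lit 237)))) (XT.nd (nat_lit 78) (nat_lit 684) (nat_lit 0) (XT.lf (nat_lit 0) (nat_lit 601986236) (nat_lit 684) (nat_lit 52506216) (nat_lit 76) (nat_lit 6544424495) (nat_lit 207) (nat_lit 5) (nat_lit 216) (nat_lit 5) (nat_lit 208) (nat_lit 5) (nat_lit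 280) (nat_lit 264) (nat_lit 236)) (XT.nd (nat_lit 78) (nat_lit 0) (nat_lit 0) (XT.lf (nat_lit 0) (nat_lit 2542824206) (nat_lit 760) (nat_lit 3720442029) (nat_lit 76) (nat_lit 1005095285) (nat_lit 198) (nat_lit 5) (nat_lit 208) (nat_lit 5) (nat_lit 199) (nat_lit 5) (nat_lit 281) (nat_lit 264) (nat_lit 235)) (XT.lf (nat_lit 0) (nat_lit 4487364252) (nat_lit 760) (nat_lit 136872767) (nat_lit 76) (nat_lit 2717494912) (nat_lit 198) (nat_lit 5) (nat_lit 208) (nat_lit 5) (nat_lit 199) (nat_lit 5) (nat_lit 282) (nat_lit 264) (nat_lit 234))))))))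
noncomputable def xc123 : XT := (XT.nd (nat_lit 1794) (nat_lit 3344) (nat_lit 0) (XT.nd (nat_lit 858) (nat_lit 2964) (nat_lit 0) (XT.nd (nat_lit 390) (nat_lit 2812) (nat_lit 0) (XT.nd (nat_lit 156) (nat_lit 1748) (nat_lit 0) (XT.nd (nat_lit 78) (nat_lit 76) (nat_lit 0) (XT.lf (nat_lit 0) (nat_lit 3577461108) (nat_lit 760) (nat_lit 2887421875) (nat_lit 836) (nat_lit 953381979) (nat_lit 188) (nat_lit 5) (nat_lit 198) (nat_lit 5) (nat_lit 199) (nat_lit 5) (nat_lit 283) (nat_lit 264) (nat_lit 233)) (XT.lf (nat_lit 0) (nat_lit 927206099) (nat_lit 836) (nat_lit 148155659) (nat_lit 76) (nat_lit 6423366465) (nat_lit 187) (nat_lit 5) (nat_lit 198) (nat_lit 5) (nat_lit 188) (nat_lit 5) (nat_lit 284) (nat_lit 264) (nat_lit 232))) (XT.nd (nat_lit 78) (nat_lit 912) (nat_lit 0) (XT.lf (nat_lit 0) (nat_lit 2831004040) (nat_lit 912) (nat_lit 3918934735) (nat_lit 76) (nat_lit 831988543) (nat_lit 176) (nat_lit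 5) (nat_lit 188) (nat_lit 5) (nat_lit 177) (nat_lit 5) (nat_lit 285) (nat_lit 264) (nat_lit 231)) (XT.nd (nat_lit 78) (nat_lit 912) (nat_lit 0) (XT.lf (nat_lit 0) (nat_lit 4747917927) (nat_lit 912) (nat_lit 134324327) (nat_lit 76) (nat_lit 2786878463) (nat_lit 176) (nat_lit 5) (nat_lit 188) (nat_lit 5) (nat_lit 177) (nat_lit 5) (nat_lit 286) (nat_lit 264) (nat_lit 230)) (XT.lf (nat_lit 0) (nat_lit 3791601330) (nat_lit 912) (nat_lit 2912664671) (nat_lit 988) (nat_lit 1055379312) (nat_lit 164) (nat_lit 5) (nat_lit 176) (nat_lit 5) (nat_lit 177) (nat_lit 5) (nat_lit 287) (nat_lit 264) (nat_lit 229))))) (XT.nd (nat_lit 234) (nat_lit 1748) (nat_lit 0) (XT.nd (nat_lit 78) (nat_lit 988) (nat_lit 0) (XT.lf (nat_lit 0) (nat_lit 796816150) (nat_lit 988) (nat_lit 70125739) (nat_lit 76) (nat_lit 6987438031) (nat_lit 163) (nat_lit 5) (nat_lit 176) (nat_lit 5) (nat_lit 164) (nat_lit 5) (nat_lit 288) (nat_lit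 264) (nat_lit 228)) (XT.nd (nat_lit 78) (nat_lit 0) (nat_lit 0) (XT.lf (nat_lit 0) (nat_lit 2681466557) (nat_lit 1064) (nat_lit 3998656258) (nat_lit 76) (nat_lit 1271735735) (nat_lit 150) (nat_lit 5) (nat_lit 164) (nat_lit 5) (nat_lit 151) (nat_lit 5) (nat_lit 289) (nat_lit 264) (nat_lit 227)) (XT.lf (nat_lit 0) (nat_lit 4580618622) (nat_lit 1064) (nat_lit 9099633) (nat_lit 76) (nat_lit 3463958306) (nat_lit 150) (nat_lit 5) (nat_lit 164) (nat_lit 5) (nat_lit 151) (nat_lit 5) (nat_lit 290) (nat_lit 264) (nat_lit 226)))) (XT.nd (nat_lit 78) (nat_lit 684) (nat_lit 0) (XT.lf (nat_lit 0) (nat_lit 4135268333) (nat_lit 1064) (nat_lit 2391386302) (nat_lit 1140) (nat_lit 1632346595) (nat_lit 136) (nat_lit 5) (nat_lit 150) (nat_lit 5) (nat_lit 151) (nat_lit 5) (nat_lit 291) (nat_lit 264) (nat_lit 225)) (XT.nd (nat_lit 78) (nat_lit 0) (nat_lit 0) (XT.lf (nat_lit 0) (nat_lit 89637950) (nat_lit 608) (nat_lit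 120310060) (nat_lit 684) (nat_lit 8059057281) (nat_lit 127) (nat_lit 5) (nat_lit 135) (nat_lit 5) (nat_lit 136) (nat_lit 5) (nat_lit 292) (nat_lit 264) (nat_lit 224)) (XT.lf (nat_lit 0) (nat_lit 2088642985) (nat_lit 684) (nat_lit 4057501409) (nat_lit 76) (nat_lit 2235398744) (nat_lit 127) (nat_lit 5) (nat_lit 136) (nat_lit 5) (nat_lit 128) (nat_lit 5) (nat_lit 293) (nat_lit 264) (nat_lit 223)))))) (XT.nd (nat_lit 468) (nat_lit 1368) (nat_lit 0) (XT.nd (nat_lit 234) (nat_lit 532) (nat_lit 0) (XT.nd (nat_lit 78) (nat_lit 532) (nat_lit 0) (XT.lf (nat_lit 0) (nat_lit 143602541) (nat_lit 532) (nat_lit 3835654807) (nat_lit 608) (nat_lit 4519665759) (nat_lit 120) (nat_lit 5) (nat_lit 127) (nat_lit 5) (nat_lit 128) (nat_lit 5) (nat_lit 294) (nat_lit 264) (nat_lit 222)) (XT.nd (nat_lit 78) (nat_lit 532) (nat_lit 0) (XT.lf (nat_lit 0) (nat_lit 4508336704) (nat_lit 532) (nat_lit 1413144393) (nat_lit 608)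 (nat_lit 2698625524) (nat_lit 120) (nat_lit 5) (nat_lit 127) (nat_lit 5) (nat_lit 128) (nat_lit 5) (nat_lit 295) (nat_lit 264) (nat_lit 221)) (XT.lf (nat_lit 0) (nat_lit 207003166) (nat_lit 532) (nat_lit 7682624518) (nat_lit 608) (nat_lit 856393394) (nat_lit 113) (nat_lit 5) (nat_lit 120) (nat_lit 5) (nat_lit 121) (nat_lit 5) (nat_lit 296) (nat_lit 264) (nat_lit 220)))) (XT.nd (nat_lit 78) (nat_lit 456) (nat_lit 0) (XT.lf (nat_lit 0) (nat_lit 1032292780) (nat_lit 608) (nat_lit 4205526981) (nat_lit 76) (nat_lit 3637365831) (nat_lit 112) (nat_lit 5) (nat_lit 120) (nat_lit 5) (nat_lit 113) (nat_lit 5) (nat_lit 297) (nat_lit 264) (nat_lit 219)) (XT.nd (nat_lit 78) (nat_lit 0) (nat_lit 0) (XT.lf (nat_lit 0) (nat_lit 208632594) (nat_lit 456) (nat_lit 2710672960) (nat_lit 532) (nat_lit 6090013256) (nat_lit 106) (nat_lit 5) (nat_lit 112) (nat_lit 5) (nat_lit 113) (nat_lit 5) (nat_lit 298) (nat_lit 264)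 (nat_lit 218)) (XT.lf (nat_lit 0) (nat_lit 4796938494) (nat_lit 456) (nat_lit 66159443) (nat_lit 532) (nat_lit 4284484181) (nat_lit 106) (nat_lit 5) (nat_lit 112) (nat_lit 5) (nat_lit 113) (nat_lit 5) (nat_lit 299) (nat_lit 264) (nat_lit 217))))) (XT.nd (nat_lit 234) (nat_lit 456) (nat_lit 0) (XT.nd (nat_lit 78) (nat_lit 456) (nat_lit 0) (XT.lf (nat_lit 0) (nat_lit 166082396) (nat_lit 456) (nat_lit 6685178726) (nat_lit 532) (nat_lit 2439258424) (nat_lit 100) (nat_lit 5) (nat_lit 106) (nat_lit 5) (nat_lit 107) (nat_lit 5) (nat_lit 300) (nat_lit 264) (nat_lit 216)) (XT.nd (nat_lit 78) (nat_lit 456) (nat_lit 0) (XT.lf (nat_lit 0) (nat_lit 4862751057) (nat_lit 456) (nat_lit 4040585971) (nat_lit 532) (nat_lit 534384820) (nat_lit 100) (nat_lit 5) (nat_lit 106) (nat_lit 5) (nat_lit 107) (nat_lit 5) (nat_lit 301) (nat_lit 264) (nat_lit 215)) (XT.lf (nat_lit 0) (nat_lit 54643877) (nat_lit 380) (nat_lit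 1306031234) (nat_lit 456) (nat_lit 8229525229) (nat_lit 94) (nat_lit 5) (nat_lit 99) (nat_lit 5) (nat_lit 100) (nat_lit 5) (nat_lit 302) (nat_lit 264) (nat_lit 214)))) (XT.nd (nat_lit 78) (nat_lit 456) (nat_lit 0) (XT.lf (nat_lit 0) (nat_lit 3324091957) (nat_lit 456) (nat_lit 4893677686) (nat_lit 76) (nat_lit 1528753339) (nat_lit 94) (nat_lit 5) (nat_lit 100) (nat_lit 5) (nat_lit 95) (nat_lit 5) (nat_lit 303) (nat_lit 264) (nat_lit 213)) (XT.nd (nat_lit 78) (nat_lit 456) (nat_lit 0) (XT.lf (nat_lit 0) (nat_lit 5321545855) (nat_lit 456) (nat_lit 168649345) (nat_lit 76) (nat_lit 4418179170) (nat_lit 94) (nat_lit 5) (nat_lit 100) (nat_lit 5) (nat_lit 95) (nat_lit 5) (nat_lit 304) (nat_lit 264) (nat_lit 212)) (XT.lf (nat_lit 0) (nat_lit 4748879335) (nat_lit 456) (nat_lit 2638997580) (nat_lit 532) (nat_lit 2687026168) (nat_lit 88) (nat_lit 5) (nat_lit 94) (nat_lit 5) (nat_lit 95) (nat_lit 5) (nat_lit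 305) (nat_lit 264) (nat_lit 211))))))) (XT.nd (nat_lit 858) (nat_lit 1444) (nat_lit 0) (XT.nd (nat_lit 390) (nat_lit 1064) (nat_lit 0) (XT.nd (nat_lit 156) (nat_lit 380) (nat_lit 0) (XT.nd (nat_lit 78) (nat_lit 456) (nat_lit 0) (XT.lf (nat_lit 0) (nat_lit 9484701347) (nat_lit 532) (nat_lit 474487554) (nat_lit 76) (nat_lit 288271411) (nat_lit 88) (nat_lit 5) (nat_lit 95) (nat_lit 5) (nat_lit 89) (nat_lit 5) (nat_lit 306) (nat_lit 264) (nat_lit 210)) (XT.lf (nat_lit 0) (nat_lit 1230483708) (nat_lit 456) (nat_lit 5892550402) (nat_lit 76) (nat_lit 3300840093) (nat_lit 82) (nat_lit 5) (nat_lit 88) (nat_lit 5) (nat_lit 83) (nat_lit 5) (nat_lit 307) (nat_lit 264) (nat_lit 209))) (XT.nd (nat_lit 78) (nat_lit 380) (nat_lit 0) (XT.lf (nat_lit 0) (nat_lit 3238208780) (nat_lit 456) (nat_lit 957749580) (nat_lit 76) (nat_lit 6410375424) (nat_lit 82) (nat_lit 5) (nat_lit 88) (nat_lit 5) (nat_lit 83) (nat_lit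 5) (nat_lit 308) (nat_lit 264) (nat_lit 208)) (XT.nd (nat_lit 78) (nat_lit 0) (nat_lit 0) (XT.lf (nat_lit 0) (nat_lit 4165852725) (nat_lit 380) (nat_lit 1146548848) (nat_lit 456) (nat_lit 5481756472) (nat_lit 77) (nat_lit 5) (nat_lit 82) (nat_lit 5) (nat_lit 83) (nat_lit 5) (nat_lit 309) (nat_lit 264) (nat_lit 207)) (XT.lf (nat_lit 0) (nat_lit 7444481723) (nat_lit 456) (nat_lit 1584938830) (nat_lit 76) (nat_lit 1958402335) (nat_lit 77) (nat_lit 5) (nat_lit 83) (nat_lit 5) (nat_lit 78) (nat_lit 5) (nat_lit 310) (nat_lit 264) (nat_lit 206))))) (XT.nd (nat_lit 234) (nat_lit 304) (nat_lit 0) (XT.nd (nat_lit 78) (nat_lit 456) (nat_lit 0) (XT.lf (nat_lit 0) (nat_lit 3629253420) (nat_lit 304) (nat_lit 6025202222) (nat_lit 380) (nat_lit 1532497589) (nat_lit 73) (nat_lit 5) (nat_lit 77) (nat_lit 5) (nat_lit 78) (nat_lit 5) (nat_lit 311) (nat_lit 264) (nat_lit 205)) (XT.nd (nat_lit 78) (nat_lit 380) (nat_lit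 0) (XT.lf (nat_lit 0) (nat_lit 512192419) (nat_lit 380) (nat_lit 2404812925) (nat_lit 76) (nat_lit 8475445100) (nat_lit 72) (nat_lit 5) (nat_lit 77) (nat_lit 5) (nat_lit 73) (nat_lit 5) (nat_lit 312) (nat_lit 264) (nat_lit 204)) (XT.lf (nat_lit 0) (nat_lit 2587237117) (nat_lit 456) (nat_lit 8701819276) (nat_lit 76) (nat_lit 314673772) (nat_lit 67) (nat_lit 5) (nat_lit 73) (nat_lit 5) (nat_lit 68) (nat_lit 5) (nat_lit 313) (nat_lit 264) (nat_lit 203)))) (XT.nd (nat_lit 78) (nat_lit 304) (nat_lit 0) (XT.lf (nat_lit 0) (nat_lit 4747203071) (nat_lit 456) (nat_lit 3472220790) (nat_lit 76) (nat_lit 3601309619) (nat_lit 67) (nat_lit 5) (nat_lit 73) (nat_lit 5) (nat_lit 68) (nat_lit 5) (nat_lit 314) (nat_lit 264) (nat_lit 202)) (XT.nd (nat_lit 78) (nat_lit 0) (nat_lit 0) (XT.lf (nat_lit 0) (nat_lit 1913139564) (nat_lit 304) (nat_lit 5047378263) (nat_lit 380) (nat_lit 5084135970) (nat_lit 63) (nat_lit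 5) (nat_lit 67) (nat_lit 5) (nat_lit 68) (nat_lit 5) (nat_lit 315) (nat_lit 264) (nat_lit 201)) (XT.lf (nat_lit 0) (nat_lit 7493156563) (nat_lit 304) (nat_lit 1752800720) (nat_lit 380) (nat_lit 3029224235) (nat_lit 63) (nat_lit 5) (nat_lit 67) (nat_lit 5) (nat_lit 68) (nat_lit 5) (nat_lit 316) (nat_lit 264) (nat_lit 200)))))) (XT.nd (nat_lit 468) (nat_lit 532) (nat_lit 0) (XT.nd (nat_lit 234) (nat_lit 532) (nat_lit 0) (XT.nd (nat_lit 78) (nat_lit 76) (nat_lit 0) (XT.lf (nat_lit 0) (nat_lit 687795006) (nat_lit 304) (nat_lit 10905982527) (nat_lit 380) (nat_lit 919092768) (nat_lit 59) (nat_lit 5) (nat_lit 63) (nat_lit 5) (nat_lit 64) (nat_lit 5) (nat_lit 317) (nat_lit 264) (nat_lit 199)) (XT.nd (nat_lit 78) (nat_lit 0) (nat_lit 0) (XT.lf (nat_lit 0) (nat_lit 1267560172) (nat_lit 380) (nat_lit 6404450986) (nat_lit 76) (nat_lit 5084242364) (nat_lit 58) (nat_lit 5) (nat_lit 63) (nat_lit 5) (nat_lit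 59) (nat_lit 5) (nat_lit 318) (nat_lit 264) (nat_lit 198)) (XT.lf (nat_lit 0) (nat_lit 3473740454) (nat_lit 380) (nat_lit 867255661) (nat_lit 76) (nat_lit 8666551798) (nat_lit 58) (nat_lit 5) (nat_lit 63) (nat_lit 5) (nat_lit 59) (nat_lit 5) (nat_lit 319) (nat_lit 264) (nat_lit 197)))) (XT.nd (nat_lit 78) (nat_lit 304) (nat_lit 0) (XT.lf (nat_lit 0) (nat_lit 4895716957) (nat_lit 228) (nat_lit 870654285) (nat_lit 304) (nat_lit 7499455034) (nat_lit 55) (nat_lit 5) (nat_lit 58) (nat_lit 5) (nat_lit 59) (nat_lit 5) (nat_lit 320) (nat_lit 264) (nat_lit 196)) (XT.nd (nat_lit 78) (nat_lit 304) (nat_lit 0) (XT.lf (nat_lit 0) (nat_lit 8136171204) (nat_lit 304) (nat_lit 2744584998) (nat_lit 76) (nat_lit 2650896629) (nat_lit 55) (nat_lit 5) (nat_lit 59) (nat_lit 5) (nat_lit 56) (nat_lit 5) (nat_lit 321) (nat_lit 264) (nat_lit 195)) (XT.lf (nat_lit 0) (nat_lit 3065689777) (nat_lit 304) (nat_lit 7523790645)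 (nat_lit 380) (nat_lit 3215651351) (nat_lit 51) (nat_lit 5) (nat_lit 55) (nat_lit 5) (nat_lit 56) (nat_lit 5) (nat_lit 322) (nat_lit 264) (nat_lit 194))))) (XT.nd (nat_lit 234) (nat_lit 228) (nat_lit 0) (XT.nd (nat_lit 78) (nat_lit 304) (nat_lit 0) (XT.lf (nat_lit 0) (nat_lit 9071661782) (nat_lit 304) (nat_lit 4047180275) (nat_lit 380) (nat_lit 967948020) (nat_lit 51) (nat_lit 5) (nat_lit 55) (nat_lit 5) (nat_lit 56) (nat_lit 5) (nat_lit 323) (nat_lit 264) (nat_lit 193)) (XT.nd (nat_lit 78) (nat_lit 0) (nat_lit 0) (XT.lf (nat_lit 0) (nat_lit 850158198) (nat_lit 228) (nat_lit 454096903) (nat_lit 304) (nat_lit 13072799617) (nat_lit 47) (nat_lit 5) (nat_lit 50) (nat_lit 5) (nat_lit 51) (nat_lit 5) (nat_lit 324) (nat_lit 264) (nat_lit 192)) (XT.lf (nat_lit 0) (nat_lit 3683011547) (nat_lit 304) (nat_lit 7756338059) (nat_lit 76) (nat_lit 3234699387) (nat_lit 47) (nat_lit 5) (nat_lit 51) (nat_lit 5)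 (nat_lit 48) (nat_lit 5) (nat_lit 325) (nat_lit 264) (nat_lit 191)))) (XT.nd (nat_lit 78) (nat_lit 228) (nat_lit 0) (XT.lf (nat_lit 0) (nat_lit 6113828271) (nat_lit 304) (nat_lit 1850890373) (nat_lit 76) (nat_lit 7015856697) (nat_lit 47) (nat_lit 5) (nat_lit 51) (nat_lit 5) (nat_lit 48) (nat_lit 5) (nat_lit 326) (nat_lit 264) (nat_lit 190)) (XT.nd (nat_lit 78) (nat_lit 0) (nat_lit 0) (XT.lf (nat_lit 0) (nat_lit 4282539465) (nat_lit 228) (nat_lit 4353091155) (nat_lit 304) (nat_lit 6660166939) (nat_lit 44) (nat_lit 5) (nat_lit 47) (nat_lit 5) (nat_lit 48) (nat_lit 5) (nat_lit 327) (nat_lit 264) (nat_lit 189)) (XT.lf (nat_lit 0) (nat_lit 10605485657) (nat_lit 228) (nat_lit 623547731) (nat_lit 304) (nat_lit 4391605357) (nat_lit 44) (nat_lit 5) (nat_lit 47) (nat_lit 5) (nat_lit 48) (nat_lit 5) (nat_lit 328) (nat_lit 264) (nat_lit 188))))))))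
noncomputable def xc124 : XT := (XT.nd (nat_lit 1716) (nat_lit 760) (nat_lit 0) (XT.nd (nat_lit 858) (nat_lit 684) (nat_lit 0) (XT.nd (nat_lit 390) (nat_lit 456) (nat_lit 0) (XT.nd (nat_lit 156) (nat_lit 228) (nat_lit 0) (XT.nd (nat_lit 78) (nat_lit 76) (nat_lit 0) (XT.lf (nat_lit 0) (nat_lit 1121757289) (nat_lit 228) (nat_lit 12798024273) (nat_lit 304) (nat_lit 2034896812) (nat_lit 41) (nat_lit 5) (nat_lit 44) (nat_lit 5) (nat_lit 45) (nat_lit 5) (nat_lit 329) (nat_lit 264) (nat_lit 187)) (XT.lf (nat_lit 0) (nat_lit 420086601) (nat_lit 304) (nat_lit 8794344609) (nat_lit 76) (nat_lit 7083175042) (nat_lit 40) (nat_lit 5) (nat_lit 44) (nat_lit 5) (nat_lit 41) (nat_lit 5) (nat_lit 330) (nat_lit 264) (nat_lit 186))) (XT.nd (nat_lit 78) (nat_lit 228) (nat_lit 0) (XT.lf (nat_lit 0) (nat_lit 2886377954) (nat_lit 304) (nat_lit 2626075980) (nat_lit 76) (nat_lit 11138443026) (nat_lit 40) (nat_lit 5) (nat_lit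 44) (nat_lit 5) (nat_lit 41) (nat_lit 5) (nat_lit 331) (nat_lit 264) (nat_lit 185)) (XT.nd (nat_lit 78) (nat_lit 0) (nat_lit 0) (XT.lf (nat_lit 0) (nat_lit 3770409492) (nat_lit 228) (nat_lit 1671674416) (nat_lit 304) (nat_lit 11572274808) (nat_lit 37) (nat_lit 5) (nat_lit 40) (nat_lit 5) (nat_lit 41) (nat_lit 5) (nat_lit 332) (nat_lit 264) (nat_lit 184)) (XT.lf (nat_lit 0) (nat_lit 8102607139) (nat_lit 304) (nat_lit 7028192332) (nat_lit 76) (nat_lit 2257114550) (nat_lit 37) (nat_lit 5) (nat_lit 41) (nat_lit 5) (nat_lit 38) (nat_lit 5) (nat_lit 333) (nat_lit 264) (nat_lit 183))))) (XT.nd (nat_lit 234) (nat_lit 304) (nat_lit 0) (XT.nd (nat_lit 78) (nat_lit 152) (nat_lit 0) (XT.lf (nat_lit 0) (nat_lit 10839504056) (nat_lit 304) (nat_lit 672284981) (nat_lit 76) (nat_lit 6261023297) (nat_lit 37) (nat_lit 5) (nat_lit 41) (nat_lit 5) (nat_lit 38) (nat_lit 5) (nat_lit 334) (nat_lit 264) (nat_lit 182))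 (XT.nd (nat_lit 78) (nat_lit 0) (nat_lit 0) (XT.lf (nat_lit 0) (nat_lit 5961730527) (nat_lit 152) (nat_lit 7734674239) (nat_lit 228) (nat_lit 4471748047) (nat_lit 35) (nat_lit 5) (nat_lit 37) (nat_lit 5) (nat_lit 38) (nat_lit 5) (nat_lit 335) (nat_lit 264) (nat_lit 181)) (XT.lf (nat_lit 0) (nat_lit 12779927156) (nat_lit 152) (nat_lit 3846753433) (nat_lit 228) (nat_lit 1949074060) (nat_lit 35) (nat_lit 5) (nat_lit 37) (nat_lit 5) (nat_lit 38) (nat_lit 5) (nat_lit 336) (nat_lit 264) (nat_lit 180)))) (XT.nd (nat_lit 78) (nat_lit 0) (nat_lit 0) (XT.lf (nat_lit 0) (nat_lit 626971379) (nat_lit 304) (nat_lit 18209294831) (nat_lit 76) (nat_lit 159449661) (nat_lit 31) (nat_lit 5) (nat_lit 35) (nat_lit 5) (nat_lit 32) (nat_lit 5) (nat_lit 337) (nat_lit 264) (nat_lit 179)) (XT.nd (nat_lit 78) (nat_lit 0) (nat_lit 0) (XT.lf (nat_lit 0) (nat_lit 3319727196) (nat_lit 304) (nat_lit 11827944869) (nat_lit 76)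 (nat_lit 4277695367) (nat_lit 31) (nat_lit 5) (nat_lit 35) (nat_lit 5) (nat_lit 32) (nat_lit 5) (nat_lit 338) (nat_lit 264) (nat_lit 178)) (XT.lf (nat_lit 0) (nat_lit 6075217962) (nat_lit 304) (nat_lit 5282733676) (nat_lit 76) (nat_lit 8510526044) (nat_lit 31) (nat_lit 5) (nat_lit 35) (nat_lit 5) (nat_lit 32) (nat_lit 5) (nat_lit 339) (nat_lit 264) (nat_lit 177)))))) (XT.nd (nat_lit 390) (nat_lit 380) (nat_lit 0) (XT.nd (nat_lit 156) (nat_lit 152) (nat_lit 0) (XT.nd (nat_lit 78) (nat_lit 0) (nat_lit 0) (XT.lf (nat_lit 0) (nat_lit 1460558622) (nat_lit 152) (nat_lit 7449332546) (nat_lit 228) (nat_lit 11415121441) (nat_lit 29) (nat_lit 5) (nat_lit 31) (nat_lit 5) (nat_lit 32) (nat_lit 5) (nat_lit 340) (nat_lit 264) (nat_lit 176)) (XT.lf (nat_lit 0) (nat_lit 8487927072) (nat_lit 152) (nat_lit 3377756175) (nat_lit 228) (nat_lit 8928504098) (nat_lit 29) (nat_lit 5) (nat_lit 31) (nat_lit 5) (nat_lit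 32) (nat_lit 5) (nat_lit 341) (nat_lit 264) (nat_lit 175))) (XT.nd (nat_lit 78) (nat_lit 152) (nat_lit 0) (XT.lf (nat_lit 0) (nat_lit 14901142702) (nat_lit 228) (nat_lit 5585347537) (nat_lit 76) (nat_lit 791242632) (nat_lit 29) (nat_lit 5) (nat_lit 32) (nat_lit 5) (nat_lit 30) (nat_lit 5) (nat_lit 342) (nat_lit 264) (nat_lit 174)) (XT.nd (nat_lit 78) (nat_lit 0) (nat_lit 0) (XT.lf (nat_lit 0) (nat_lit 1303770105) (nat_lit 152) (nat_lit 16753512413) (nat_lit 228) (nat_lit 3717638370) (nat_lit 27) (nat_lit 5) (nat_lit 29) (nat_lit 5) (nat_lit 30) (nat_lit 5) (nat_lit 343) (nat_lit 264) (nat_lit 173)) (XT.lf (nat_lit 0) (nat_lit 8488884053) (nat_lit 152) (nat_lit 12859498863) (nat_lit 228) (nat_lit 937457238) (nat_lit 27) (nat_lit 5) (nat_lit 29) (nat_lit 5) (nat_lit 30) (nat_lit 5) (nat_lit 344) (nat_lit 264) (nat_lit 172))))) (XT.nd (nat_lit 234) (nat_lit 152) (nat_lit 0) (XT.nd (nat_lit 78)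 (nat_lit 152) (nat_lit 0) (XT.lf (nat_lit 0) (nat_lit 1872710832) (nat_lit 228) (nat_lit 6965826574) (nat_lit 76) (nat_lit 13973491654) (nat_lit 26) (nat_lit 5) (nat_lit 29) (nat_lit 5) (nat_lit 27) (nat_lit 5) (nat_lit 345) (nat_lit 264) (nat_lit 171)) (XT.nd (nat_lit 78) (nat_lit 0) (nat_lit 0) (XT.lf (nat_lit 0) (nat_lit 37635251) (nat_lit 152) (nat_lit 4695696879) (nat_lit 228) (nat_lit 18620865219) (nat_lit 24) (nat_lit 5) (nat_lit 26) (nat_lit 5) (nat_lit 27) (nat_lit 5) (nat_lit 346) (nat_lit 264) (nat_lit 170)) (XT.lf (nat_lit 0) (nat_lit 7370175139) (nat_lit 152) (nat_lit 364785254) (nat_lit 228) (nat_lit 16176035882) (nat_lit 24) (nat_lit 5) (nat_lit 26) (nat_lit 5) (nat_lit 27) (nat_lit 5) (nat_lit 347) (nat_lit 264) (nat_lit 169)))) (XT.nd (nat_lit 78) (nat_lit 152) (nat_lit 0) (XT.lf (nat_lit 0) (nat_lit 10851218887) (nat_lit 228) (nat_lit 9624687478) (nat_lit 76) (nat_lit 4007875981)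 (nat_lit 24) (nat_lit 5) (nat_lit 27) (nat_lit 5) (nat_lit 25) (nat_lit 5) (nat_lit 348) (nat_lit 264) (nat_lit 168)) (XT.nd (nat_lit 78) (nat_lit 152) (nat_lit 0) (XT.lf (nat_lit 0) (nat_lit 14050215325) (nat_lit 228) (nat_lit 2527502670) (nat_lit 76) (nat_lit 8496376516) (nat_lit 24) (nat_lit 5) (nat_lit 27) (nat_lit 5) (nat_lit 25) (nat_lit 5) (nat_lit 349) (nat_lit 264) (nat_lit 167)) (XT.lf (nat_lit 0) (nat_lit 4855183363) (nat_lit 152) (nat_lit 12522726038) (nat_lit 228) (nat_lit 8303244243) (nat_lit 22) (nat_lit 5) (nat_lit 24) (nat_lit 5) (nat_lit 25) (nat_lit 5) (nat_lit 350) (nat_lit 264) (nat_lit 166))))))) (XT.nd (nat_lit 858) (nat_lit 304) (nat_lit 0) (XT.nd (nat_lit 390) (nat_lit 228) (nat_lit 0) (XT.nd (nat_lit 156) (nat_lit 228) (nat_lit 0) (XT.nd (nat_lit 78) (nat_lit 0) (nat_lit 0) (XT.lf (nat_lit 0) (nat_lit 12489222093) (nat_lit 152) (nat_lit 8327987001) (nat_lit 228) (nat_lit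 5488881083) (nat_lit 22) (nat_lit 5) (nat_lit 24) (nat_lit 5) (nat_lit 25) (nat_lit 5) (nat_lit 351) (nat_lit 264) (nat_lit 165)) (XT.lf (nat_lit 0) (nat_lit 20330981778) (nat_lit 152) (nat_lit 4015358400) (nat_lit 228) (nat_lit 2603853374) (nat_lit 22) (nat_lit 5) (nat_lit 24) (nat_lit 5) (nat_lit 25) (nat_lit 5) (nat_lit 352) (nat_lit 264) (nat_lit 164))) (XT.nd (nat_lit 78) (nat_lit 0) (nat_lit 0) (XT.lf (nat_lit 0) (nat_lit 359128253) (nat_lit 228) (nat_lit 26832629716) (nat_lit 76) (nat_lit 421815922) (nat_lit 19) (nat_lit 5) (nat_lit 22) (nat_lit 5) (nat_lit 20) (nat_lit 5) (nat_lit 353) (nat_lit 264) (nat_lit 163)) (XT.nd (nat_lit 78) (nat_lit 0) (nat_lit 0) (XT.lf (nat_lit 0) (nat_lit 3452925689) (nat_lit 228) (nat_lit 19843338380) (nat_lit 76) (nat_lit 4997007077) (nat_lit 19) (nat_lit 5) (nat_lit 22) (nat_lit 5) (nat_lit 20) (nat_lit 5) (nat_lit 354) (nat_lit 264) (nat_lit 162)) (XT.lf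 (nat_lit 0) (nat_lit 6626917976) (nat_lit 228) (nat_lit 12664835864) (nat_lit 76) (nat_lit 9702000328) (nat_lit 19) (nat_lit 5) (nat_lit 22) (nat_lit 5) (nat_lit 20) (nat_lit 5) (nat_lit 355) (nat_lit 264) (nat_lit 161))))) (XT.nd (nat_lit 234) (nat_lit 76) (nat_lit 0) (XT.nd (nat_lit 78) (nat_lit 152) (nat_lit 0) (XT.lf (nat_lit 0) (nat_lit 9883878507) (nat_lit 228) (nat_lit 5290849689) (nat_lit 76) (nat_lit 14540906833) (nat_lit 19) (nat_lit 5) (nat_lit 22) (nat_lit 5) (nat_lit 20) (nat_lit 5) (nat_lit 356) (nat_lit 264) (nat_lit 160)) (XT.nd (nat_lit 78) (nat_lit 0) (nat_lit 0) (XT.lf (nat_lit 0) (nat_lit 2330540675) (nat_lit 152) (nat_lit 10918515076) (nat_lit 228) (nat_lit 17209816670) (nat_lit 17) (nat_lit 5) (nat_lit 19) (nat_lit 5) (nat_lit 20) (nat_lit 5) (nat_lit 357) (nat_lit 264) (nat_lit 159)) (XT.lf (nat_lit 0) (nat_lit 10269926488) (nat_lit 152) (nat_lit 6486957159) (nat_lit 228)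 (nat_lit 14466287322) (nat_lit 17) (nat_lit 5) (nat_lit 19) (nat_lit 5) (nat_lit 20) (nat_lit 5) (nat_lit 358) (nat_lit 264) (nat_lit 158)))) (XT.nd (nat_lit 78) (nat_lit 76) (nat_lit 0) (XT.lf (nat_lit 0) (nat_lit 18428946794) (nat_lit 152) (nat_lit 1929609420) (nat_lit 228) (nat_lit 11652198427) (nat_lit 17) (nat_lit 5) (nat_lit 19) (nat_lit 5) (nat_lit 20) (nat_lit 5) (nat_lit 359) (nat_lit 264) (nat_lit 157)) (XT.nd (nat_lit 78) (nat_lit 76) (nat_lit 0) (XT.lf (nat_lit 0) (nat_lit 24083727419) (nat_lit 228) (nat_lit 6034087659) (nat_lit 76) (nat_lit 2703701332) (nat_lit 17) (nat_lit 5) (nat_lit 20) (nat_lit 5) (nat_lit 18) (nat_lit 4) (nat_lit 360) (nat_lit 264) (nat_lit 156)) (XT.lf (nat_lit 0) (nat_lit 1737102949) (nat_lit 76) (nat_lit 26208552778) (nat_lit 152) (nat_lit 5710208876) (nat_lit 16) (nat_lit 5) (nat_lit 17) (nat_lit 5) (nat_lit 18) (nat_lit 4) (nat_lit 361) (nat_lit 264) (nat_lit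 155)))))) (XT.nd (nat_lit 468) (nat_lit 76) (nat_lit 0) (XT.nd (nat_lit 234) (nat_lit 152) (nat_lit 0) (XT.nd (nat_lit 78) (nat_lit 76) (nat_lit 0) (XT.lf (nat_lit 0) (nat_lit 9847542932) (nat_lit 76) (nat_lit 22126175849) (nat_lit 152) (nat_lit 2540029389) (nat_lit 16) (nat_lit 5) (nat_lit 17) (nat_lit 5) (nat_lit 18) (nat_lit 4) (nat_lit 362) (nat_lit 264) (nat_lit 154)) (XT.nd (nat_lit 78) (nat_lit 0) (nat_lit 0) (XT.lf (nat_lit 0) (nat_lit 700642907) (nat_lit 152) (nat_lit 17220331593) (nat_lit 76) (nat_lit 17476510879) (nat_lit 15) (nat_lit 5) (nat_lit 17) (nat_lit 5) (nat_lit 16) (nat_lit 5) (nat_lit 363) (nat_lit 264) (nat_lit 153)) (XT.lf (nat_lit 0) (nat_lit 3977327737) (nat_lit 152) (nat_lit 9593014876) (nat_lit 76) (nat_lit 22736954403) (nat_lit 15) (nat_lit 5) (nat_lit 17) (nat_lit 5) (nat_lit 16) (nat_lit 5) (nat_lit 364) (nat_lit 264) (nat_lit 152)))) (XT.nd (nat_lit 78) (nat_lit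 152) (nat_lit 0) (XT.lf (nat_lit 0) (nat_lit 7342453344) (nat_lit 152) (nat_lit 1753174126) (nat_lit 76) (nat_lit 28149083084) (nat_lit 15) (nat_lit 5) (nat_lit 17) (nat_lit 5) (nat_lit 16) (nat_lit 5) (nat_lit 365) (nat_lit 264) (nat_lit 151)) (XT.nd (nat_lit 78) (nat_lit 0) (nat_lit 0) (XT.lf (nat_lit 0) (nat_lit 6431543582) (nat_lit 152) (nat_lit 4429240479) (nat_lit 228) (nat_lit 27347906315) (nat_lit 13) (nat_lit 5) (nat_lit 15) (nat_lit 5) (nat_lit 16) (nat_lit 5) (nat_lit 366) (nat_lit 264) (nat_lit 150)) (XT.lf (nat_lit 0) (nat_lit 14496664718) (nat_lit 228) (nat_lit 24323018224) (nat_lit 76) (nat_lit 381557732) (nat_lit 13) (nat_lit 5) (nat_lit 16) (nat_lit 5) (nat_lit 14) (nat_lit 4) (nat_lit 367) (nat_lit 264) (nat_lit 149))))) (XT.nd (nat_lit 234) (nat_lit 76) (nat_lit 0) (XT.nd (nat_lit 78) (nat_lit 0) (nat_lit 0) (XT.lf (nat_lit 0) (nat_lit 18276248312) (nat_lit 228) (nat_lit 16704556893)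 (nat_lit 76) (nat_lit 5241734241) (nat_lit 13) (nat_lit 5) (nat_lit 16) (nat_lit 5) (nat_lit 14) (nat_lit 4) (nat_lit 368) (nat_lit 264) (nat_lit 148)) (XT.nd (nat_lit 78) (nat_lit 0) (nat_lit 0) (XT.lf (nat_lit 0) (nat_lit 22160260824) (nat_lit 228) (nat_lit 8872529326) (nat_lit 76) (nat_lit 10241966238) (nat_lit 13) (nat_lit 5) (nat_lit 16) (nat_lit 5) (nat_lit 14) (nat_lit 4) (nat_lit 369) (nat_lit 264) (nat_lit 147)) (XT.lf (nat_lit 0) (nat_lit 26152096050) (nat_lit 228) (nat_lit 820092003) (nat_lit 76) (nat_lit 15386622857) (nat_lit 13) (nat_lit 5) (nat_lit 16) (nat_lit 5) (nat_lit 14) (nat_lit 4) (nat_lit 370) (nat_lit 264) (nat_lit 146)))) (XT.nd (nat_lit 78) (nat_lit 0) (nat_lit 0) (XT.lf (nat_lit 0) (nat_lit 7608255658) (nat_lit 76) (nat_lit 22720121551) (nat_lit 152) (nat_lit 13145078979) (nat_lit 12) (nat_lit 5) (nat_lit 13) (nat_lit 5) (nat_lit 14) (nat_lit 4) (nat_lit 371) (nat_lit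 264) (nat_lit 145)) (XT.nd (nat_lit 78) (nat_lit 0) (nat_lit 0) (XT.lf (nat_lit 0) (nat_lit 16292276080) (nat_lit 76) (nat_lit 18337619196) (nat_lit 152) (nat_lit 9991656656) (nat_lit 12) (nat_lit 5) (nat_lit 13) (nat_lit 5) (nat_lit 14) (nat_lit 4) (nat_lit 372) (nat_lit 264) (nat_lit 144)) (XT.lf (nat_lit 0) (nat_lit 25223235804) (nat_lit 76) (nat_lit 13829132938) (nat_lit 152) (nat_lit 6751973792) (nat_lit 12) (nat_lit 5) (nat_lit 13) (nat_lit 5) (nat_lit 14) (nat_lit 4) (nat_lit 373) (nat_lit 264) (nat_lit 143))))))))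
noncomputable def xc125 : XT := (XT.nd (nat_lit 1716) (nat_lit 0) (nat_lit 0) (XT.nd (nat_lit 858) (nat_lit 152) (nat_lit 0) (XT.nd (nat_lit 390) (nat_lit 76) (nat_lit 0) (XT.nd (nat_lit 156) (nat_lit 228) (nat_lit 0) (XT.nd (nat_lit 78) (nat_lit 0) (nat_lit 0) (XT.lf (nat_lit 0) (nat_lit 34408938580) (nat_lit 76) (nat_lit 9190723324) (nat_lit 152) (nat_lit 3423199599) (nat_lit 12) (nat_lit 5) (nat_lit 13) (nat_lit 5) (nat_lit 14) (nat_lit 4) (nat_lit 374) (nat_lit 264) (nat_lit 142)) (XT.lf (nat_lit 0) (nat_lit 43857410751) (nat_lit 76) (nat_lit 4418337373) (nat_lit 152) (nat_lit 2425437) (nat_lit 12) (nat_lit 5) (nat_lit 13) (nat_lit 5) (nat_lit 14) (nat_lit 4) (nat_lit 375) (nat_lit 264) (nat_lit 141))) (XT.nd (nat_lit 78) (nat_lit 0) (nat_lit 0) (XT.lf (nat_lit 0) (nat_lit 3489169863) (nat_lit 228) (nat_lit 45523839299) (nat_lit 76) (nat_lit 556021552) (nat_lit 9) (nat_lit 5) (nat_lit 12)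 (nat_lit 5) (nat_lit 10) (nat_lit 4) (nat_lit 376) (nat_lit 264) (nat_lit 140)) (XT.nd (nat_lit 78) (nat_lit 0) (nat_lit 0) (XT.lf (nat_lit 0) (nat_lit 7166857384) (nat_lit 228) (nat_lit 38098384175) (nat_lit 76) (nat_lit 5630937516) (nat_lit 9) (nat_lit 5) (nat_lit 12) (nat_lit 5) (nat_lit 10) (nat_lit 4) (nat_lit 377) (nat_lit 264) (nat_lit 139)) (XT.lf (nat_lit 0) (nat_lit 10947656277) (nat_lit 228) (nat_lit 30462440619) (nat_lit 76) (nat_lit 10853269341) (nat_lit 9) (nat_lit 5) (nat_lit 12) (nat_lit 5) (nat_lit 10) (nat_lit 4) (nat_lit 378) (nat_lit 264) (nat_lit 138))))) (XT.nd (nat_lit 234) (nat_lit 76) (nat_lit 0) (XT.nd (nat_lit 78) (nat_lit 0) (nat_lit 0) (XT.lf (nat_lit 0) (nat_lit 14834870154) (nat_lit 228) (nat_lit 22609336447) (nat_lit 76) (nat_lit 16227580230) (nat_lit 9) (nat_lit 5) (nat_lit 12) (nat_lit 5) (nat_lit 10) (nat_lit 4) (nat_lit 379) (nat_lit 264) (nat_lit 137)) (XT.nd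 (nat_lit 78) (nat_lit 0) (nat_lit 0) (XT.lf (nat_lit 0) (nat_lit 18831895609) (nat_lit 228) (nat_lit 14532209724) (nat_lit 76) (nat_lit 21758566184) (nat_lit 9) (nat_lit 5) (nat_lit 12) (nat_lit 5) (nat_lit 10) (nat_lit 4) (nat_lit 380) (nat_lit 264) (nat_lit 136)) (XT.lf (nat_lit 0) (nat_lit 22942225188) (nat_lit 228) (nat_lit 6224002766) (nat_lit 76) (nat_lit 27451060102) (nat_lit 9) (nat_lit 5) (nat_lit 12) (nat_lit 5) (nat_lit 10) (nat_lit 4) (nat_lit 381) (nat_lit 264) (nat_lit 135)))) (XT.nd (nat_lit 78) (nat_lit 0) (nat_lit 0) (XT.lf (nat_lit 0) (nat_lit 2368767204) (nat_lit 76) (nat_lit 24823453276) (nat_lit 152) (nat_lit 30964038843) (nat_lit 8) (nat_lit 5) (nat_lit 9) (nat_lit 5) (nat_lit 10) (nat_lit 4) (nat_lit 382) (nat_lit 264) (nat_lit 134)) (XT.nd (nat_lit 78) (nat_lit 0) (nat_lit 0) (XT.lf (nat_lit 0) (nat_lit 11336106779) (nat_lit 76) (nat_lit 20290127874) (nat_lit 152) (nat_lit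 28113476210) (nat_lit 8) (nat_lit 5) (nat_lit 9) (nat_lit 5) (nat_lit 10) (nat_lit 4) (nat_lit 383) (nat_lit 264) (nat_lit 133)) (XT.lf (nat_lit 0) (nat_lit 20561981638) (nat_lit 76) (nat_lit 15625140816) (nat_lit 152) (nat_lit 25183734411) (nat_lit 8) (nat_lit 5) (nat_lit 9) (nat_lit 5) (nat_lit 10) (nat_lit 4) (nat_lit 384) (nat_lit 264) (nat_lit 132)))))) (XT.nd (nat_lit 390) (nat_lit 76) (nat_lit 0) (XT.nd (nat_lit 156) (nat_lit 76) (nat_lit 0) (XT.nd (nat_lit 78) (nat_lit 0) (nat_lit 0) (XT.lf (nat_lit 0) (nat_lit 30054453226) (nat_lit 76) (nat_lit 10824415898) (nat_lit 152) (nat_lit 22172253476) (nat_lit 8) (nat_lit 5) (nat_lit 9) (nat_lit 5) (nat_lit 10) (nat_lit 4) (nat_lit 385) (nat_lit 264) (nat_lit 131)) (XT.lf (nat_lit 0) (nat_lit 39821815934) (nat_lit 76) (nat_lit 5883758312) (nat_lit 152) (nat_lit 19076402016) (nat_lit 8) (nat_lit 5) (nat_lit 9) (nat_lit 5) (nat_lit 10) (nat_lit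 4) (nat_lit 386) (nat_lit 264) (nat_lit 130))) (XT.nd (nat_lit 78) (nat_lit 76) (nat_lit 0) (XT.lf (nat_lit 0) (nat_lit 49872604352) (nat_lit 76) (nat_lit 798850979) (nat_lit 152) (nat_lit 15893474916) (nat_lit 8) (nat_lit 5) (nat_lit 9) (nat_lit 5) (nat_lit 10) (nat_lit 4) (nat_lit 387) (nat_lit 264) (nat_lit 129)) (XT.nd (nat_lit 78) (nat_lit 76) (nat_lit 0) (XT.lf (nat_lit 0) (nat_lit 55823481021) (nat_lit 152) (nat_lit 8228571278) (nat_lit 0) (nat_lit 4348211292) (nat_lit 8) (nat_lit 5) (nat_lit 10) (nat_lit 4) (nat_lit 8) (nat_lit 4) (nat_lit 388) (nat_lit 264) (nat_lit 128)) (XT.lf (nat_lit 0) (nat_lit 481407472) (nat_lit 76) (nat_lit 60655858755) (nat_lit 76) (nat_lit 9153180363) (nat_lit 7) (nat_lit 4) (nat_lit 8) (nat_lit 5) (nat_lit 8) (nat_lit 4) (nat_lit 389) (nat_lit 264) (nat_lit 127))))) (XT.nd (nat_lit 234) (nat_lit 0) (nat_lit 0) (XT.nd (nat_lit 78) (nat_lit 76) (nat_lit 0)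 (XT.lf (nat_lit 0) (nat_lit 9612280079) (nat_lit 76) (nat_lit 57076007262) (nat_lit 76) (nat_lit 5546718519) (nat_lit 7) (nat_lit 4) (nat_lit 8) (nat_lit 5) (nat_lit 8) (nat_lit 4) (nat_lit 390) (nat_lit 264) (nat_lit 126)) (XT.nd (nat_lit 78) (nat_lit 76) (nat_lit 0) (XT.lf (nat_lit 0) (nat_lit 19008260272) (nat_lit 76) (nat_lit 53392462232) (nat_lit 76) (nat_lit 1837338196) (nat_lit 7) (nat_lit 4) (nat_lit 8) (nat_lit 5) (nat_lit 8) (nat_lit 4) (nat_lit 391) (nat_lit 264) (nat_lit 125)) (XT.lf (nat_lit 0) (nat_lit 1939599968) (nat_lit 152) (nat_lit 47642818907) (nat_lit 76) (nat_lit 26718372004) (nat_lit 6) (nat_lit 5) (nat_lit 8) (nat_lit 5) (nat_lit 7) (nat_lit 4) (nat_lit 392) (nat_lit 264) (nat_lit 124)))) (XT.nd (nat_lit 78) (nat_lit 0) (nat_lit 0) (XT.lf (nat_lit 0) (nat_lit 5788042084) (nat_lit 152) (nat_lit 39854833653) (nat_lit 76) (nat_lit 32782132593) (nat_lit 6) (nat_lit 5) (nat_lit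 8) (nat_lit 5) (nat_lit 7) (nat_lit 4) (nat_lit 393) (nat_lit 264) (nat_lit 123)) (XT.nd (nat_lit 78) (nat_lit 0) (nat_lit 0) (XT.lf (nat_lit 0) (nat_lit 9747203952) (nat_lit 152) (nat_lit 31841378013) (nat_lit 76) (nat_lit 39024517048) (nat_lit 6) (nat_lit 5) (nat_lit 8) (nat_lit 5) (nat_lit 7) (nat_lit 4) (nat_lit 394) (nat_lit 264) (nat_lit 122)) (XT.lf (nat_lit 0) (nat_lit 13820545035) (nat_lit 152) (nat_lit 23595449938) (nat_lit 76) (nat_lit 45450979880) (nat_lit 6) (nat_lit 5) (nat_lit 8) (nat_lit 5) (nat_lit 7) (nat_lit 4) (nat_lit 395) (nat_lit 264) (nat_lit 121))))))) (XT.nd (nat_lit 31200) (nat_lit 0) (nat_lit 12920) (XT.nd (nat_lit 30732) (nat_lit 0) (nat_lit 16416) (XT.nd (nat_lit 30498) (nat_lit 0) (nat_lit 17404) (XT.nd (nat_lit 30420) (nat_lit 0) (nat_lit 17784) (XT.lf (nat_lit 0) (nat_lit 18011624562) (nat_lit 152) (nat_lit 15109844248) (nat_lit 76) (nat_lit 52067136444) (nat_lit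 6) (nat_lit 5) (nat_lit 8) (nat_lit 5) (nat_lit 7) (nat_lit 4) (nat_lit 396) (nat_lit 264) (nat_lit 120)) (XT.lf (nat_lit 0) (nat_lit 2699571237) (nat_lit 380) (nat_lit 289046257) (nat_lit 380) (nat_lit 289046257) (nat_lit 240) (nat_lit 3) (nat_lit 245) (nat_lit 3) (nat_lit 245) (nat_lit 5) (nat_lit 265) (nat_lit 265) (nat_lit 250))) (XT.nd (nat_lit 78) (nat_lit 0) (nat_lit 0) (XT.lf (nat_lit 0) (nat_lit 1044438536) (nat_lit 380) (nat_lit 4328519485) (nat_lit 456) (nat_lit 1206164542) (nat_lit 235) (nat_lit 5) (nat_lit 240) (nat_lit 3) (nat_lit 241) (nat_lit 5) (nat_lit 266) (nat_lit 265) (nat_lit 249)) (XT.nd (nat_lit 78) (nat_lit 0) (nat_lit 0) (XT.lf (nat_lit 0) (nat_lit 3208499188) (nat_lit 380) (nat_lit 1485110159) (nat_lit 456) (nat_lit 1912411085) (nat_lit 235) (nat_lit 5) (nat_lit 240) (nat_lit 3) (nat_lit 241) (nat_lit 5) (nat_lit 267) (nat_lit 265) (nat_lit 248)) (XT.lf (nat_lit 76)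 (nat_lit 1426625972) (nat_lit 0) (nat_lit 3941813130) (nat_lit 456) (nat_lit 1267699234) (nat_lit 236) (nat_lit 5) (nat_lit 235) (nat_lit 5) (nat_lit 241) (nat_lit 5) (nat_lit 268) (nat_lit 265) (nat_lit 247))))) (XT.nd (nat_lit 234) (nat_lit 532) (nat_lit 0) (XT.nd (nat_lit 78) (nat_lit 0) (nat_lit 0) (XT.lf (nat_lit 0) (nat_lit 841195225) (nat_lit 456) (nat_lit 2265929162) (nat_lit 532) (nat_lit 3562093113) (nat_lit 229) (nat_lit 5) (nat_lit 235) (nat_lit 5) (nat_lit 236) (nat_lit 5) (nat_lit 269) (nat_lit 265) (nat_lit 246)) (XT.nd (nat_lit 78) (nat_lit 0) (nat_lit 0) (XT.lf (nat_lit 76) (nat_lit 722531731) (nat_lit 0) (nat_lit 2192778609) (nat_lit 532) (nat_lit 3790091968) (nat_lit 230) (nat_lit 5) (nat_lit 229) (nat_lit 5) (nat_lit 236) (nat_lit 5) (nat_lit 270) (nat_lit 265) (nat_lit 245)) (XT.lf (nat_lit 76) (nat_lit 3802559212) (nat_lit 0) (nat_lit 1194346818) (nat_lit 532) (nat_lit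 1747712621) (nat_lit 230) (nat_lit 5) (nat_lit 229) (nat_lit 5) (nat_lit 236) (nat_lit 5) (nat_lit 271) (nat_lit 265) (nat_lit 244)))) (XT.nd (nat_lit 78) (nat_lit 0) (nat_lit 76) (XT.lf (nat_lit 76) (nat_lit 144324692) (nat_lit 0) (nat_lit 129656420) (nat_lit 608) (nat_lit 6513464338) (nat_lit 223) (nat_lit 5) (nat_lit 222) (nat_lit 5) (nat_lit 230) (nat_lit 5) (nat_lit 272) (nat_lit 265) (nat_lit 243)) (XT.nd (nat_lit 78) (nat_lit 0) (nat_lit 0) (XT.lf (nat_lit 0) (nat_lit 2286182799) (nat_lit 532) (nat_lit 3521358349) (nat_lit 608) (nat_lit 1024825179) (nat_lit 223) (nat_lit 5) (nat_lit 230) (nat_lit 5) (nat_lit 231) (nat_lit 5) (nat_lit 273) (nat_lit 265) (nat_lit 242)) (XT.lf (nat_lit 0) (nat_lit 4287884846) (nat_lit 532) (nat_lit 353254820) (nat_lit 608) (nat_lit 2239890973) (nat_lit 223) (nat_lit 5) (nat_lit 230) (nat_lit 5) (nat_lit 231) (nat_lit 5) (nat_lit 274) (nat_lit 265) (nat_lit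 241)))))) (XT.nd (nat_lit 468) (nat_lit 2356) (nat_lit 0) (XT.nd (nat_lit 234) (nat_lit 608) (nat_lit 0) (XT.nd (nat_lit 78) (nat_lit 608) (nat_lit 0) (XT.lf (nat_lit 76) (nat_lit 2922227597) (nat_lit 0) (nat_lit 3385452618) (nat_lit 608) (nat_lit 624995373) (nat_lit 224) (nat_lit 5) (nat_lit 223) (nat_lit 5) (nat_lit 231) (nat_lit 5) (nat_lit 275) (nat_lit 265) (nat_lit 240)) (XT.nd (nat_lit 78) (nat_lit 0) (nat_lit 0) (XT.lf (nat_lit 0) (nat_lit 1309080059) (nat_lit 608) (nat_lit 741937754) (nat_lit 684) (nat_lit 4936667373) (nat_lit 215) (nat_lit 5) (nat_lit 223) (nat_lit 5) (nat_lit 224) (nat_lit 5) (nat_lit 276) (nat_lit 265) (nat_lit 239)) (XT.lf (nat_lit 76) (nat_lit 2625124942) (nat_lit 0) (nat_lit 621385491) (nat_lit 684) (nat_lit 3799151909) (nat_lit 216) (nat_lit 5) (nat_lit 215) (nat_lit 5) (nat_lit 224) (nat_lit 5) (nat_lit 277) (nat_lit 265) (nat_lit 238)))) (XT.nd (nat_lit 78)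 (nat_lit 684) (nat_lit 0) (XT.lf (nat_lit 0) (nat_lit 5192217797) (nat_lit 608) (nat_lit 1051520516) (nat_lit 76) (nat_lit 863368642) (nat_lit 216) (nat_lit 5) (nat_lit 224) (nat_lit 5) (nat_lit 217) (nat_lit 5) (nat_lit 278) (nat_lit 265) (nat_lit 237)) (XT.nd (nat_lit 78) (nat_lit 76) (nat_lit 0) (XT.lf (nat_lit 0) (nat_lit 2414363230) (nat_lit 608) (nat_lit 4747610462) (nat_lit 684) (nat_lit 9676877) (nat_lit 208) (nat_lit 5) (nat_lit 216) (nat_lit 5) (nat_lit 217) (nat_lit 5) (nat_lit 279) (nat_lit 265) (nat_lit 236)) (XT.lf (nat_lit 0) (nat_lit 1862221218) (nat_lit 684) (nat_lit 1297098989) (nat_lit 76) (nat_lit 4080031177) (nat_lit 207) (nat_lit 5) (nat_lit 216) (nat_lit 5) (nat_lit 208) (nat_lit 5) (nat_lit 280) (nat_lit 265) (nat_lit 235))))) (XT.nd (nat_lit 234) (nat_lit 836) (nat_lit 0) (XT.nd (nat_lit 78) (nat_lit 836) (nat_lit 0) (XT.lf (nat_lit 0) (nat_lit 2266175718) (nat_lit 684)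 (nat_lit 1484437550) (nat_lit 760) (nat_lit 3559857943) (nat_lit 198) (nat_lit 5) (nat_lit 207) (nat_lit 5) (nat_lit 208) (nat_lit 5) (nat_lit 281) (nat_lit 265) (nat_lit 234)) (XT.nd (nat_lit 78) (nat_lit 836) (nat_lit 0) (XT.lf (nat_lit 0) (nat_lit 5651452337) (nat_lit 760) (nat_lit 1469388741) (nat_lit 76) (nat_lit 264410481) (nat_lit 198) (nat_lit 5) (nat_lit 208) (nat_lit 5) (nat_lit 199) (nat_lit 5) (nat_lit 282) (nat_lit 265) (nat_lit 233)) (XT.lf (nat_lit 0) (nat_lit 121558914) (nat_lit 836) (nat_lit 5268609626) (nat_lit 76) (nat_lit 2072932023) (nat_lit 187) (nat_lit 5) (nat_lit 198) (nat_lit 5) (nat_lit 188) (nat_lit 5) (nat_lit 283) (nat_lit 265) (nat_lit 232)))) (XT.nd (nat_lit 78) (nat_lit 836) (nat_lit 0) (XT.lf (nat_lit 0) (nat_lit 1955220819) (nat_lit 836) (nat_lit 1607825744) (nat_lit 76) (nat_lit 3981182508) (nat_lit 187) (nat_lit 5) (nat_lit 198) (nat_lit 5) (nat_lit 188)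 (nat_lit 5) (nat_lit 284) (nat_lit 265) (nat_lit 231)) (XT.nd (nat_lit 78) (nat_lit 0) (nat_lit 0) (XT.lf (nat_lit 0) (nat_lit 2160196378) (nat_lit 836) (nat_lit 1648641737) (nat_lit 912) (nat_lit 3820183349) (nat_lit 176) (nat_lit 5) (nat_lit 187) (nat_lit 5) (nat_lit 188) (nat_lit 5) (nat_lit 285) (nat_lit 265) (nat_lit 230)) (XT.lf (nat_lit 0) (nat_lit 5683046899) (nat_lit 912) (nat_lit 1691130896) (nat_lit 76) (nat_lit 343403540) (nat_lit 176) (nat_lit 5) (nat_lit 188) (nat_lit 5) (nat_lit 177) (nat_lit 5) (nat_lit 286) (nat_lit 265) (nat_lit 229))))))))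
noncomputable def xc126 : XT := (XT.nd (nat_lit 1716) (nat_lit 3192) (nat_lit 0) (XT.nd (nat_lit 858) (nat_lit 2280) (nat_lit 0) (XT.nd (nat_lit 390) (nat_lit 1824) (nat_lit 0) (XT.nd (nat_lit 156) (nat_lit 2052) (nat_lit 0) (XT.nd (nat_lit 78) (nat_lit 76) (nat_lit 0) (XT.lf (nat_lit 0) (nat_lit 2181270464) (nat_lit 912) (nat_lit 5416569928) (nat_lit 988) (nat_lit 211595012) (nat_lit 164) (nat_lit 5) (nat_lit 176) (nat_lit 5) (nat_lit 177) (nat_lit 5) (nat_lit 287) (nat_lit 265) (nat_lit 228)) (XT.lf (nat_lit 0) (nat_lit 1598277602) (nat_lit 988) (nat_lit 1760834628) (nat_lit 76) (nat_lit 4545668257) (nat_lit 163) (nat_lit 5) (nat_lit 176) (nat_lit 5) (nat_lit 164) (nat_lit 5) (nat_lit 288) (nat_lit 265) (nat_lit 227))) (XT.nd (nat_lit 78) (nat_lit 1064) (nat_lit 0) (XT.lf (nat_lit 0) (nat_lit 2219430420) (nat_lit 988) (nat_lit 1209135626) (nat_lit 1064) (nat_lit 4575399736) (nat_lit 150) (nat_lit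 5) (nat_lit 163) (nat_lit 5) (nat_lit 164) (nat_lit 5) (nat_lit 289) (nat_lit 265) (nat_lit 226)) (XT.nd (nat_lit 78) (nat_lit 1064) (nat_lit 0) (XT.lf (nat_lit 0) (nat_lit 5291542775) (nat_lit 1064) (nat_lit 1805803735) (nat_lit 76) (nat_lit 1009596139) (nat_lit 150) (nat_lit 5) (nat_lit 164) (nat_lit 5) (nat_lit 151) (nat_lit 5) (nat_lit 290) (nat_lit 265) (nat_lit 225)) (XT.lf (nat_lit 0) (nat_lit 2280578426) (nat_lit 1064) (nat_lit 4915334682) (nat_lit 1140) (nat_lit 1017675634) (nat_lit 136) (nat_lit 5) (nat_lit 150) (nat_lit 5) (nat_lit 151) (nat_lit 5) (nat_lit 291) (nat_lit 265) (nat_lit 224))))) (XT.nd (nat_lit 234) (nat_lit 1140) (nat_lit 0) (XT.nd (nat_lit 78) (nat_lit 608) (nat_lit 0) (XT.lf (nat_lit 0) (nat_lit 788113238) (nat_lit 1140) (nat_lit 1849415704) (nat_lit 76) (nat_lit 5686689291) (nat_lit 135) (nat_lit 5) (nat_lit 150) (nat_lit 5) (nat_lit 136) (nat_lit 5) (nat_lit 292)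 (nat_lit 265) (nat_lit 223)) (XT.nd (nat_lit 78) (nat_lit 0) (nat_lit 0) (XT.lf (nat_lit 0) (nat_lit 2348852584) (nat_lit 608) (nat_lit 254737088) (nat_lit 684) (nat_lit 5835128356) (nat_lit 127) (nat_lit 5) (nat_lit 135) (nat_lit 5) (nat_lit 136) (nat_lit 5) (nat_lit 293) (nat_lit 265) (nat_lit 222)) (XT.lf (nat_lit 0) (nat_lit 4467890354) (nat_lit 684) (nat_lit 1911128959) (nat_lit 76) (nat_lit 2177931579) (nat_lit 127) (nat_lit 5) (nat_lit 136) (nat_lit 5) (nat_lit 128) (nat_lit 5) (nat_lit 294) (nat_lit 265) (nat_lit 221)))) (XT.nd (nat_lit 78) (nat_lit 608) (nat_lit 0) (XT.lf (nat_lit 0) (nat_lit 2393771860) (nat_lit 532) (nat_lit 3975566441) (nat_lit 608) (nat_lit 2310081016) (nat_lit 120) (nat_lit 5) (nat_lit 127) (nat_lit 5) (nat_lit 128) (nat_lit 5) (nat_lit 295) (nat_lit 265) (nat_lit 220)) (XT.nd (nat_lit 78) (nat_lit 608) (nat_lit 0) (XT.lf (nat_lit 0) (nat_lit 6824034613) (nat_lit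 532) (nat_lit 1479657161) (nat_lit 608) (nat_lit 502715634) (nat_lit 120) (nat_lit 5) (nat_lit 127) (nat_lit 5) (nat_lit 128) (nat_lit 5) (nat_lit 296) (nat_lit 265) (nat_lit 219)) (XT.lf (nat_lit 0) (nat_lit 1323973446) (nat_lit 608) (nat_lit 6506441478) (nat_lit 76) (nat_lit 1106764279) (nat_lit 112) (nat_lit 5) (nat_lit 120) (nat_lit 5) (nat_lit 113) (nat_lit 5) (nat_lit 297) (nat_lit 265) (nat_lit 218)))))) (XT.nd (nat_lit 390) (nat_lit 1292) (nat_lit 0) (XT.nd (nat_lit 156) (nat_lit 532) (nat_lit 0) (XT.nd (nat_lit 78) (nat_lit 456) (nat_lit 0) (XT.lf (nat_lit 0) (nat_lit 3188354752) (nat_lit 608) (nat_lit 2117840528) (nat_lit 76) (nat_lit 3765850849) (nat_lit 112) (nat_lit 5) (nat_lit 120) (nat_lit 5) (nat_lit 113) (nat_lit 5) (nat_lit 298) (nat_lit 265) (nat_lit 217)) (XT.lf (nat_lit 0) (nat_lit 2407039400) (nat_lit 456) (nat_lit 2684114857) (nat_lit 532) (nat_lit 4120438133) (nat_lit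 106) (nat_lit 5) (nat_lit 112) (nat_lit 5) (nat_lit 113) (nat_lit 5) (nat_lit 299) (nat_lit 265) (nat_lit 216))) (XT.nd (nat_lit 78) (nat_lit 532) (nat_lit 0) (XT.lf (nat_lit 0) (nat_lit 7032905277) (nat_lit 532) (nat_lit 2287190588) (nat_lit 76) (nat_lit 35877937) (nat_lit 106) (nat_lit 5) (nat_lit 113) (nat_lit 5) (nat_lit 107) (nat_lit 5) (nat_lit 300) (nat_lit 265) (nat_lit 215)) (XT.nd (nat_lit 78) (nat_lit 76) (nat_lit 0) (XT.lf (nat_lit 0) (nat_lit 2342879059) (nat_lit 456) (nat_lit 6700398106) (nat_lit 532) (nat_lit 461200176) (nat_lit 100) (nat_lit 5) (nat_lit 106) (nat_lit 5) (nat_lit 107) (nat_lit 5) (nat_lit 301) (nat_lit 265) (nat_lit 214)) (XT.lf (nat_lit 0) (nat_lit 1412954335) (nat_lit 532) (nat_lit 2554643301) (nat_lit 76) (nat_lit 5689968651) (nat_lit 99) (nat_lit 5) (nat_lit 106) (nat_lit 5) (nat_lit 100) (nat_lit 5) (nat_lit 302) (nat_lit 265) (nat_lit 213))))) (XT.nd (nat_lit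 234) (nat_lit 456) (nat_lit 0) (XT.nd (nat_lit 78) (nat_lit 456) (nat_lit 0) (XT.lf (nat_lit 0) (nat_lit 2187468029) (nat_lit 380) (nat_lit 1130270961) (nat_lit 456) (nat_lit 6497954768) (nat_lit 94) (nat_lit 5) (nat_lit 99) (nat_lit 5) (nat_lit 100) (nat_lit 5) (nat_lit 303) (nat_lit 265) (nat_lit 212)) (XT.nd (nat_lit 78) (nat_lit 456) (nat_lit 0) (XT.lf (nat_lit 0) (nat_lit 5286251388) (nat_lit 456) (nat_lit 2912981917) (nat_lit 76) (nat_lit 1779224612) (nat_lit 94) (nat_lit 5) (nat_lit 100) (nat_lit 5) (nat_lit 95) (nat_lit 5) (nat_lit 304) (nat_lit 265) (nat_lit 211)) (XT.lf (nat_lit 0) (nat_lit 1929482223) (nat_lit 456) (nat_lit 5378448314) (nat_lit 532) (nat_lit 2838438881) (nat_lit 88) (nat_lit 5) (nat_lit 94) (nat_lit 5) (nat_lit 95) (nat_lit 5) (nat_lit 305) (nat_lit 265) (nat_lit 210)))) (XT.nd (nat_lit 78) (nat_lit 456) (nat_lit 0) (XT.lf (nat_lit 0) (nat_lit 6936635226) (nat_lit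 456) (nat_lit 2448063759) (nat_lit 532) (nat_lit 934871314) (nat_lit 88) (nat_lit 5) (nat_lit 94) (nat_lit 5) (nat_lit 95) (nat_lit 5) (nat_lit 306) (nat_lit 265) (nat_lit 209)) (XT.nd (nat_lit 78) (nat_lit 0) (nat_lit 0) (XT.lf (nat_lit 0) (nat_lit 992246899) (nat_lit 456) (nat_lit 8926944261) (nat_lit 76) (nat_lit 578966714) (nat_lit 82) (nat_lit 5) (nat_lit 88) (nat_lit 5) (nat_lit 83) (nat_lit 5) (nat_lit 307) (nat_lit 265) (nat_lit 208)) (XT.lf (nat_lit 0) (nat_lit 2983317412) (nat_lit 456) (nat_lit 4012110598) (nat_lit 76) (nat_lit 3685727493) (nat_lit 82) (nat_lit 5) (nat_lit 88) (nat_lit 5) (nat_lit 83) (nat_lit 5) (nat_lit 308) (nat_lit 265) (nat_lit 207))))))) (XT.nd (nat_lit 858) (nat_lit 1368) (nat_lit 0) (XT.nd (nat_lit 390) (nat_lit 1064) (nat_lit 0) (XT.nd (nat_lit 156) (nat_lit 380) (nat_lit 0) (XT.nd (nat_lit 78) (nat_lit 0) (nat_lit 0) (XT.lf (nat_lit 0) (nat_lit 1030932532)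 (nat_lit 380) (nat_lit 3980273428) (nat_lit 456) (nat_lit 5859200222) (nat_lit 77) (nat_lit 5) (nat_lit 82) (nat_lit 5) (nat_lit 83) (nat_lit 5) (nat_lit 309) (nat_lit 265) (nat_lit 206)) (XT.lf (nat_lit 0) (nat_lit 6268544354) (nat_lit 380) (nat_lit 839658695) (nat_lit 456) (nat_lit 3956956673) (nat_lit 77) (nat_lit 5) (nat_lit 82) (nat_lit 5) (nat_lit 83) (nat_lit 5) (nat_lit 310) (nat_lit 265) (nat_lit 205))) (XT.nd (nat_lit 78) (nat_lit 76) (nat_lit 0) (XT.lf (nat_lit 0) (nat_lit 342406685) (nat_lit 304) (nat_lit 8920652449) (nat_lit 380) (nat_lit 2002919616) (nat_lit 73) (nat_lit 5) (nat_lit 77) (nat_lit 5) (nat_lit 78) (nat_lit 5) (nat_lit 311) (nat_lit 265) (nat_lit 204)) (XT.nd (nat_lit 78) (nat_lit 0) (nat_lit 0) (XT.lf (nat_lit 0) (nat_lit 35583098) (nat_lit 380) (nat_lit 5785418163) (nat_lit 76) (nat_lit 5651104501) (nat_lit 72) (nat_lit 5) (nat_lit 77) (nat_lit 5) (nat_lit 73) (nat_lit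 5) (nat_lit 312) (nat_lit 265) (nat_lit 203)) (XT.lf (nat_lit 0) (nat_lit 2064697931) (nat_lit 380) (nat_lit 550899644) (nat_lit 76) (nat_lit 9069197972) (nat_lit 72) (nat_lit 5) (nat_lit 77) (nat_lit 5) (nat_lit 73) (nat_lit 5) (nat_lit 313) (nat_lit 265) (nat_lit 202))))) (XT.nd (nat_lit 234) (nat_lit 380) (nat_lit 0) (XT.nd (nat_lit 78) (nat_lit 304) (nat_lit 0) (XT.lf (nat_lit 0) (nat_lit 4179366982) (nat_lit 456) (nat_lit 7010971509) (nat_lit 76) (nat_lit 712850507) (nat_lit 67) (nat_lit 5) (nat_lit 73) (nat_lit 5) (nat_lit 68) (nat_lit 5) (nat_lit 314) (nat_lit 265) (nat_lit 201)) (XT.nd (nat_lit 78) (nat_lit 304) (nat_lit 0) (XT.lf (nat_lit 0) (nat_lit 6360019892) (nat_lit 456) (nat_lit 1681336593) (nat_lit 76) (nat_lit 4086763007) (nat_lit 67) (nat_lit 5) (nat_lit 73) (nat_lit 5) (nat_lit 68) (nat_lit 5) (nat_lit 315) (nat_lit 265) (nat_lit 200)) (XT.lf (nat_lit 0) (nat_lit 3847005641)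 (nat_lit 304) (nat_lit 4767939040) (nat_lit 380) (nat_lit 3744647411) (nat_lit 63) (nat_lit 5) (nat_lit 67) (nat_lit 5) (nat_lit 68) (nat_lit 5) (nat_lit 316) (nat_lit 265) (nat_lit 199)))) (XT.nd (nat_lit 78) (nat_lit 380) (nat_lit 0) (XT.lf (nat_lit 0) (nat_lit 9539768629) (nat_lit 304) (nat_lit 1387073507) (nat_lit 380) (nat_lit 1671545002) (nat_lit 63) (nat_lit 5) (nat_lit 67) (nat_lit 5) (nat_lit 68) (nat_lit 5) (nat_lit 317) (nat_lit 265) (nat_lit 198)) (XT.nd (nat_lit 78) (nat_lit 0) (nat_lit 0) (XT.lf (nat_lit 0) (nat_lit 472578480) (nat_lit 380) (nat_lit 10295490994) (nat_lit 76) (nat_lit 2075661192) (nat_lit 58) (nat_lit 5) (nat_lit 63) (nat_lit 5) (nat_lit 59) (nat_lit 5) (nat_lit 318) (nat_lit 265) (nat_lit 197)) (XT.lf (nat_lit 0) (nat_lit 2665558994) (nat_lit 380) (nat_lit 4775966426) (nat_lit 76) (nat_lit 5653921784) (nat_lit 58) (nat_lit 5) (nat_lit 63) (nat_lit 5) (nat_lit 59)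 (nat_lit 5) (nat_lit 319) (nat_lit 265) (nat_lit 196)))))) (XT.nd (nat_lit 468) (nat_lit 532) (nat_lit 0) (XT.nd (nat_lit 234) (nat_lit 608) (nat_lit 0) (XT.nd (nat_lit 78) (nat_lit 0) (nat_lit 0) (XT.lf (nat_lit 0) (nat_lit 891717670) (nat_lit 228) (nat_lit 4015167914) (nat_lit 304) (nat_lit 8448404503) (nat_lit 55) (nat_lit 5) (nat_lit 58) (nat_lit 5) (nat_lit 59) (nat_lit 5) (nat_lit 320) (nat_lit 265) (nat_lit 195)) (XT.nd (nat_lit 78) (nat_lit 0) (nat_lit 0) (XT.lf (nat_lit 0) (nat_lit 6792849527) (nat_lit 228) (nat_lit 445241492) (nat_lit 304) (nat_lit 6384208113) (nat_lit 55) (nat_lit 5) (nat_lit 58) (nat_lit 5) (nat_lit 59) (nat_lit 5) (nat_lit 321) (nat_lit 265) (nat_lit 194)) (XT.lf (nat_lit 0) (nat_lit 9645371919) (nat_lit 304) (nat_lit 1091560813) (nat_lit 76) (nat_lit 3160250127) (nat_lit 55) (nat_lit 5) (nat_lit 59) (nat_lit 5) (nat_lit 56) (nat_lit 5) (nat_lit 322) (nat_lit 265)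 (nat_lit 193)))) (XT.nd (nat_lit 78) (nat_lit 304) (nat_lit 0) (XT.lf (nat_lit 0) (nat_lit 4876008855) (nat_lit 304) (nat_lit 7275941347) (nat_lit 380) (nat_lit 2027597701) (nat_lit 51) (nat_lit 5) (nat_lit 55) (nat_lit 5) (nat_lit 56) (nat_lit 5) (nat_lit 323) (nat_lit 265) (nat_lit 192)) (XT.nd (nat_lit 78) (nat_lit 228) (nat_lit 0) (XT.lf (nat_lit 0) (nat_lit 245242623) (nat_lit 380) (nat_lit 3461106671) (nat_lit 76) (nat_lit 10764391945) (nat_lit 50) (nat_lit 5) (nat_lit 55) (nat_lit 5) (nat_lit 51) (nat_lit 5) (nat_lit 324) (nat_lit 265) (nat_lit 191)) (XT.lf (nat_lit 0) (nat_lit 2546744685) (nat_lit 304) (nat_lit 12216208140) (nat_lit 76) (nat_lit 7121588) (nat_lit 47) (nat_lit 5) (nat_lit 51) (nat_lit 5) (nat_lit 48) (nat_lit 5) (nat_lit 325) (nat_lit 265) (nat_lit 190))))) (XT.nd (nat_lit 234) (nat_lit 304) (nat_lit 0) (XT.nd (nat_lit 78) (nat_lit 228) (nat_lit 0) (XT.lf (nat_lit 0)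 (nat_lit 4966179504) (nat_lit 304) (nat_lit 6326892990) (nat_lit 76) (nat_lit 3783890369) (nat_lit 47) (nat_lit 5) (nat_lit 51) (nat_lit 5) (nat_lit 48) (nat_lit 5) (nat_lit 326) (nat_lit 265) (nat_lit 189)) (XT.nd (nat_lit 78) (nat_lit 228) (nat_lit 0) (XT.lf (nat_lit 0) (nat_lit 7435765072) (nat_lit 304) (nat_lit 292693578) (nat_lit 76) (nat_lit 7665312981) (nat_lit 47) (nat_lit 5) (nat_lit 51) (nat_lit 5) (nat_lit 48) (nat_lit 5) (nat_lit 327) (nat_lit 265) (nat_lit 188)) (XT.lf (nat_lit 0) (nat_lit 6008918336) (nat_lit 228) (nat_lit 4006502339) (nat_lit 304) (nat_lit 5703624019) (nat_lit 44) (nat_lit 5) (nat_lit 47) (nat_lit 5) (nat_lit 48) (nat_lit 5) (nat_lit 328) (nat_lit 265) (nat_lit 187)))) (XT.nd (nat_lit 78) (nat_lit 304) (nat_lit 0) (XT.lf (nat_lit 0) (nat_lit 12475012058) (nat_lit 228) (nat_lit 178971105) (nat_lit 304) (nat_lit 3400685626) (nat_lit 44) (nat_lit 5) (nat_lit 47)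 (nat_lit 5) (nat_lit 48) (nat_lit 5) (nat_lit 329) (nat_lit 265) (nat_lit 186)) (XT.nd (nat_lit 78) (nat_lit 76) (nat_lit 0) (XT.lf (nat_lit 0) (nat_lit 2721402718) (nat_lit 228) (nat_lit 12691736381) (nat_lit 304) (nat_lit 986016651) (nat_lit 41) (nat_lit 5) (nat_lit 44) (nat_lit 5) (nat_lit 45) (nat_lit 5) (nat_lit 330) (nat_lit 265) (nat_lit 185)) (XT.lf (nat_lit 0) (nat_lit 1489260451) (nat_lit 304) (nat_lit 7514984279) (nat_lit 76) (nat_lit 7748811015) (nat_lit 40) (nat_lit 5) (nat_lit 44) (nat_lit 5) (nat_lit 41) (nat_lit 5) (nat_lit 331) (nat_lit 265) (nat_lit 184))))))))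
noncomputable def xc127 : XT := (XT.nd (nat_lit 1794) (nat_lit 760) (nat_lit 0) (XT.nd (nat_lit 858) (nat_lit 760) (nat_lit 0) (XT.nd (nat_lit 390) (nat_lit 456) (nat_lit 0) (XT.nd (nat_lit 156) (nat_lit 152) (nat_lit 0) (XT.nd (nat_lit 78) (nat_lit 228) (nat_lit 0) (XT.lf (nat_lit 0) (nat_lit 3998766626) (nat_lit 304) (nat_lit 1206614892) (nat_lit 76) (nat_lit 11912538766) (nat_lit 40) (nat_lit 5) (nat_lit 44) (nat_lit 5) (nat_lit 41) (nat_lit 5) (nat_lit 332) (nat_lit 265) (nat_lit 183)) (XT.lf (nat_lit 0) (nat_lit 5367076484) (nat_lit 228) (nat_lit 1248450517) (nat_lit 304) (nat_lit 10877277772) (nat_lit 37) (nat_lit 5) (nat_lit 40) (nat_lit 5) (nat_lit 41) (nat_lit 5) (nat_lit 333) (nat_lit 265) (nat_lit 182))) (XT.nd (nat_lit 78) (nat_lit 152) (nat_lit 0) (XT.lf (nat_lit 0) (nat_lit 9330861021) (nat_lit 304) (nat_lit 5772058442) (nat_lit 76) (nat_lit 2775446333) (nat_lit 37) (nat_lit 5)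 (nat_lit 41) (nat_lit 5) (nat_lit 38) (nat_lit 5) (nat_lit 334) (nat_lit 265) (nat_lit 181)) (XT.nd (nat_lit 78) (nat_lit 0) (nat_lit 0) (XT.lf (nat_lit 0) (nat_lit 746362792) (nat_lit 152) (nat_lit 11381982112) (nat_lit 228) (nat_lit 6147159239) (nat_lit 35) (nat_lit 5) (nat_lit 37) (nat_lit 5) (nat_lit 38) (nat_lit 5) (nat_lit 335) (nat_lit 265) (nat_lit 180)) (XT.lf (nat_lit 0) (nat_lit 7550871284) (nat_lit 152) (nat_lit 7498604738) (nat_lit 228) (nat_lit 3633919216) (nat_lit 35) (nat_lit 5) (nat_lit 37) (nat_lit 5) (nat_lit 38) (nat_lit 5) (nat_lit 336) (nat_lit 265) (nat_lit 179))))) (XT.nd (nat_lit 234) (nat_lit 152) (nat_lit 0) (XT.nd (nat_lit 78) (nat_lit 304) (nat_lit 0) (XT.lf (nat_lit 0) (nat_lit 14532537438) (nat_lit 152) (nat_lit 3507680572) (nat_lit 228) (nat_lit 1063875144) (nat_lit 35) (nat_lit 5) (nat_lit 37) (nat_lit 5) (nat_lit 38) (nat_lit 5) (nat_lit 337) (nat_lit 265) (nat_lit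 178)) (XT.nd (nat_lit 78) (nat_lit 0) (nat_lit 0) (XT.lf (nat_lit 0) (nat_lit 1561769304) (nat_lit 304) (nat_lit 17355823909) (nat_lit 76) (nat_lit 619108093) (nat_lit 31) (nat_lit 5) (nat_lit 35) (nat_lit 5) (nat_lit 32) (nat_lit 5) (nat_lit 338) (nat_lit 265) (nat_lit 177)) (XT.lf (nat_lit 0) (nat_lit 4308628511) (nat_lit 304) (nat_lit 10823802859) (nat_lit 76) (nat_lit 4847652385) (nat_lit 31) (nat_lit 5) (nat_lit 35) (nat_lit 5) (nat_lit 32) (nat_lit 5) (nat_lit 339) (nat_lit 265) (nat_lit 176)))) (XT.nd (nat_lit 78) (nat_lit 152) (nat_lit 0) (XT.lf (nat_lit 0) (nat_lit 7120881781) (nat_lit 304) (nat_lit 4121817283) (nat_lit 76) (nat_lit 9194605085) (nat_lit 31) (nat_lit 5) (nat_lit 35) (nat_lit 5) (nat_lit 32) (nat_lit 5) (nat_lit 340) (nat_lit 265) (nat_lit 175)) (XT.nd (nat_lit 78) (nat_lit 0) (nat_lit 0) (XT.lf (nat_lit 0) (nat_lit 2810838506) (nat_lit 152) (nat_lit 7217167416) (nat_lit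 228) (nat_lit 10879945492) (nat_lit 29) (nat_lit 5) (nat_lit 31) (nat_lit 5) (nat_lit 32) (nat_lit 5) (nat_lit 341) (nat_lit 265) (nat_lit 174)) (XT.lf (nat_lit 0) (nat_lit 10010975686) (nat_lit 152) (nat_lit 3036714970) (nat_lit 228) (nat_lit 8344291655) (nat_lit 29) (nat_lit 5) (nat_lit 31) (nat_lit 5) (nat_lit 32) (nat_lit 5) (nat_lit 342) (nat_lit 265) (nat_lit 173)))))) (XT.nd (nat_lit 468) (nat_lit 380) (nat_lit 0) (XT.nd (nat_lit 234) (nat_lit 228) (nat_lit 0) (XT.nd (nat_lit 78) (nat_lit 152) (nat_lit 0) (XT.lf (nat_lit 0) (nat_lit 16154283080) (nat_lit 228) (nat_lit 4500297199) (nat_lit 76) (nat_lit 1236088243) (nat_lit 29) (nat_lit 5) (nat_lit 32) (nat_lit 5) (nat_lit 30) (nat_lit 5) (nat_lit 343) (nat_lit 265) (nat_lit 172)) (XT.nd (nat_lit 78) (nat_lit 0) (nat_lit 0) (XT.lf (nat_lit 0) (nat_lit 2583213475) (nat_lit 152) (nat_lit 16810337610) (nat_lit 228) (nat_lit 3009603108) (nat_lit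 27) (nat_lit 5) (nat_lit 29) (nat_lit 5) (nat_lit 30) (nat_lit 5) (nat_lit 344) (nat_lit 265) (nat_lit 171)) (XT.lf (nat_lit 0) (nat_lit 9947754717) (nat_lit 152) (nat_lit 12812487542) (nat_lit 228) (nat_lit 169887351) (nat_lit 27) (nat_lit 5) (nat_lit 29) (nat_lit 5) (nat_lit 30) (nat_lit 5) (nat_lit 345) (nat_lit 265) (nat_lit 170)))) (XT.nd (nat_lit 78) (nat_lit 152) (nat_lit 0) (XT.lf (nat_lit 0) (nat_lit 2686335609) (nat_lit 228) (nat_lit 5989518655) (nat_lit 76) (nat_lit 14796734493) (nat_lit 26) (nat_lit 5) (nat_lit 29) (nat_lit 5) (nat_lit 27) (nat_lit 5) (nat_lit 346) (nat_lit 265) (nat_lit 169)) (XT.nd (nat_lit 78) (nat_lit 0) (nat_lit 0) (XT.lf (nat_lit 0) (nat_lit 1212426605) (nat_lit 152) (nat_lit 4409569441) (nat_lit 228) (nat_lit 18409380828) (nat_lit 24) (nat_lit 5) (nat_lit 26) (nat_lit 5) (nat_lit 27) (nat_lit 5) (nat_lit 347) (nat_lit 265) (nat_lit 168)) (XT.lf (nat_lit 0)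 (nat_lit 8692298948) (nat_lit 228) (nat_lit 15875177605) (nat_lit 76) (nat_lit 38074921) (nat_lit 24) (nat_lit 5) (nat_lit 27) (nat_lit 5) (nat_lit 25) (nat_lit 5) (nat_lit 348) (nat_lit 265) (nat_lit 167))))) (XT.nd (nat_lit 234) (nat_lit 228) (nat_lit 0) (XT.nd (nat_lit 78) (nat_lit 152) (nat_lit 0) (XT.lf (nat_lit 0) (nat_lit 11884426791) (nat_lit 228) (nat_lit 8788907296) (nat_lit 76) (nat_lit 4522745184) (nat_lit 24) (nat_lit 5) (nat_lit 27) (nat_lit 5) (nat_lit 25) (nat_lit 5) (nat_lit 349) (nat_lit 265) (nat_lit 166)) (XT.nd (nat_lit 78) (nat_lit 152) (nat_lit 0) (XT.lf (nat_lit 0) (nat_lit 15158781336) (nat_lit 228) (nat_lit 1511559978) (nat_lit 76) (nat_lit 9134406572) (nat_lit 24) (nat_lit 5) (nat_lit 27) (nat_lit 5) (nat_lit 25) (nat_lit 5) (nat_lit 350) (nat_lit 265) (nat_lit 165)) (XT.lf (nat_lit 0) (nat_lit 6081903031) (nat_lit 152) (nat_lit 12494783610) (nat_lit 228) (nat_lit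 7853648633) (nat_lit 22) (nat_lit 5) (nat_lit 24) (nat_lit 5) (nat_lit 25) (nat_lit 5) (nat_lit 351) (nat_lit 265) (nat_lit 164)))) (XT.nd (nat_lit 78) (nat_lit 228) (nat_lit 0) (XT.lf (nat_lit 0) (nat_lit 13913475617) (nat_lit 152) (nat_lit 8185958447) (nat_lit 228) (nat_lit 4975204858) (nat_lit 22) (nat_lit 5) (nat_lit 24) (nat_lit 5) (nat_lit 25) (nat_lit 5) (nat_lit 352) (nat_lit 265) (nat_lit 163)) (XT.nd (nat_lit 78) (nat_lit 228) (nat_lit 0) (XT.lf (nat_lit 0) (nat_lit 21959917893) (nat_lit 152) (nat_lit 3755364624) (nat_lit 228) (nat_lit 2023383871) (nat_lit 22) (nat_lit 5) (nat_lit 24) (nat_lit 5) (nat_lit 25) (nat_lit 5) (nat_lit 353) (nat_lit 265) (nat_lit 162)) (XT.lf (nat_lit 0) (nat_lit 1010366586) (nat_lit 228) (nat_lit 26598804348) (nat_lit 76) (nat_lit 812770142) (nat_lit 19) (nat_lit 5) (nat_lit 22) (nat_lit 5) (nat_lit 20) (nat_lit 5) (nat_lit 354) (nat_lit 265) (nat_lit 161)))))))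 (XT.nd (nat_lit 858) (nat_lit 456) (nat_lit 0) (XT.nd (nat_lit 390) (nat_lit 152) (nat_lit 0) (XT.nd (nat_lit 156) (nat_lit 152) (nat_lit 0) (XT.nd (nat_lit 78) (nat_lit 0) (nat_lit 0) (XT.lf (nat_lit 0) (nat_lit 4178323639) (nat_lit 228) (nat_lit 19430090707) (nat_lit 76) (nat_lit 5514198592) (nat_lit 19) (nat_lit 5) (nat_lit 22) (nat_lit 5) (nat_lit 20) (nat_lit 5) (nat_lit 355) (nat_lit 265) (nat_lit 160)) (XT.lf (nat_lit 0) (nat_lit 7429424719) (nat_lit 228) (nat_lit 12065608294) (nat_lit 76) (nat_lit 10349644127) (nat_lit 19) (nat_lit 5) (nat_lit 22) (nat_lit 5) (nat_lit 20) (nat_lit 5) (nat_lit 356) (nat_lit 265) (nat_lit 159))) (XT.nd (nat_lit 78) (nat_lit 152) (nat_lit 0) (XT.lf (nat_lit 0) (nat_lit 10766510594) (nat_lit 228) (nat_lit 4498922126) (nat_lit 76) (nat_lit 15323331891) (nat_lit 19) (nat_lit 5) (nat_lit 22) (nat_lit 5) (nat_lit 20) (nat_lit 5) (nat_lit 357) (nat_lit 265) (nat_lit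 158)) (XT.nd (nat_lit 78) (nat_lit 0) (nat_lit 0) (XT.lf (nat_lit 0) (nat_lit 3341789821) (nat_lit 152) (nat_lit 10882830670) (nat_lit 228) (nat_lit 17129941333) (nat_lit 17) (nat_lit 5) (nat_lit 19) (nat_lit 5) (nat_lit 20) (nat_lit 5) (nat_lit 358) (nat_lit 265) (nat_lit 157)) (XT.lf (nat_lit 0) (nat_lit 11491939745) (nat_lit 152) (nat_lit 6328905818) (nat_lit 228) (nat_lit 14321470274) (nat_lit 17) (nat_lit 5) (nat_lit 19) (nat_lit 5) (nat_lit 20) (nat_lit 5) (nat_lit 359) (nat_lit 265) (nat_lit 156))))) (XT.nd (nat_lit 234) (nat_lit 76) (nat_lit 0) (XT.nd (nat_lit 78) (nat_lit 76) (nat_lit 0) (XT.lf (nat_lit 0) (nat_lit 19869111763) (nat_lit 152) (nat_lit 1645109298) (nat_lit 228) (nat_lit 11439817130) (nat_lit 17) (nat_lit 5) (nat_lit 19) (nat_lit 5) (nat_lit 20) (nat_lit 5) (nat_lit 360) (nat_lit 265) (nat_lit 155)) (XT.nd (nat_lit 78) (nat_lit 76) (nat_lit 0) (XT.lf (nat_lit 0) (nat_lit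 25338471677) (nat_lit 228) (nat_lit 5340309893) (nat_lit 76) (nat_lit 3110741666) (nat_lit 17) (nat_lit 5) (nat_lit 20) (nat_lit 5) (nat_lit 18) (nat_lit 4) (nat_lit 361) (nat_lit 265) (nat_lit 154)) (XT.lf (nat_lit 0) (nat_lit 2655439959) (nat_lit 76) (nat_lit 26653642634) (nat_lit 152) (nat_lit 5340054104) (nat_lit 16) (nat_lit 5) (nat_lit 17) (nat_lit 5) (nat_lit 18) (nat_lit 4) (nat_lit 362) (nat_lit 265) (nat_lit 153)))) (XT.nd (nat_lit 78) (nat_lit 76) (nat_lit 0) (XT.lf (nat_lit 0) (nat_lit 10983963318) (nat_lit 76) (nat_lit 22458731292) (nat_lit 152) (nat_lit 2090539942) (nat_lit 16) (nat_lit 5) (nat_lit 17) (nat_lit 5) (nat_lit 18) (nat_lit 4) (nat_lit 363) (nat_lit 265) (nat_lit 152)) (XT.nd (nat_lit 78) (nat_lit 0) (nat_lit 0) (XT.lf (nat_lit 0) (nat_lit 1222081822) (nat_lit 152) (nat_lit 16909886294) (nat_lit 76) (nat_lit 18311832444) (nat_lit 15) (nat_lit 5) (nat_lit 17) (nat_lit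 5) (nat_lit 16) (nat_lit 5) (nat_lit 364) (nat_lit 265) (nat_lit 151)) (XT.lf (nat_lit 0) (nat_lit 4582491868) (nat_lit 152) (nat_lit 9077839063) (nat_lit 76) (nat_lit 23721030258) (nat_lit 15) (nat_lit 5) (nat_lit 17) (nat_lit 5) (nat_lit 16) (nat_lit 5) (nat_lit 365) (nat_lit 265) (nat_lit 150)))))) (XT.nd (nat_lit 468) (nat_lit 304) (nat_lit 0) (XT.nd (nat_lit 234) (nat_lit 0) (nat_lit 0) (XT.nd (nat_lit 78) (nat_lit 152) (nat_lit 0) (XT.lf (nat_lit 0) (nat_lit 8034420439) (nat_lit 152) (nat_lit 1026190458) (nat_lit 76) (nat_lit 29286727637) (nat_lit 15) (nat_lit 5) (nat_lit 17) (nat_lit 5) (nat_lit 16) (nat_lit 5) (nat_lit 366) (nat_lit 265) (nat_lit 149)) (XT.nd (nat_lit 78) (nat_lit 0) (nat_lit 0) (XT.lf (nat_lit 0) (nat_lit 7396425851) (nat_lit 152) (nat_lit 4255556901) (nat_lit 228) (nat_lit 27688460932) (nat_lit 13) (nat_lit 5) (nat_lit 15) (nat_lit 5) (nat_lit 16) (nat_lit 5) (nat_lit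 367) (nat_lit 265) (nat_lit 148)) (XT.lf (nat_lit 0) (nat_lit 15386246232) (nat_lit 228) (nat_lit 24292032542) (nat_lit 76) (nat_lit 684828432) (nat_lit 13) (nat_lit 5) (nat_lit 16) (nat_lit 5) (nat_lit 14) (nat_lit 4) (nat_lit 368) (nat_lit 265) (nat_lit 147)))) (XT.nd (nat_lit 78) (nat_lit 0) (nat_lit 0) (XT.lf (nat_lit 0) (nat_lit 19265974181) (nat_lit 228) (nat_lit 16467172990) (nat_lit 76) (nat_lit 5682310509) (nat_lit 13) (nat_lit 5) (nat_lit 16) (nat_lit 5) (nat_lit 14) (nat_lit 4) (nat_lit 369) (nat_lit 265) (nat_lit 146)) (XT.nd (nat_lit 78) (nat_lit 0) (nat_lit 0) (XT.lf (nat_lit 0) (nat_lit 23253649638) (nat_lit 228) (nat_lit 8421694905) (nat_lit 76) (nat_lit 10824297304) (nat_lit 13) (nat_lit 5) (nat_lit 16) (nat_lit 5) (nat_lit 14) (nat_lit 4) (nat_lit 370) (nat_lit 265) (nat_lit 145)) (XT.lf (nat_lit 0) (nat_lit 27352756979) (nat_lit 228) (nat_lit 148568257) (nat_lit 76) (nat_lit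 16115281813) (nat_lit 13) (nat_lit 5) (nat_lit 16) (nat_lit 5) (nat_lit 14) (nat_lit 4) (nat_lit 371) (nat_lit 265) (nat_lit 144))))) (XT.nd (nat_lit 234) (nat_lit 228) (nat_lit 0) (XT.nd (nat_lit 78) (nat_lit 0) (nat_lit 0) (XT.lf (nat_lit 0) (nat_lit 8525805064) (nat_lit 76) (nat_lit 23123028139) (nat_lit 152) (nat_lit 13116037419) (nat_lit 12) (nat_lit 5) (nat_lit 13) (nat_lit 5) (nat_lit 14) (nat_lit 4) (nat_lit 372) (nat_lit 265) (nat_lit 143)) (XT.nd (nat_lit 78) (nat_lit 0) (nat_lit 0) (XT.lf (nat_lit 0) (nat_lit 17450269349) (nat_lit 76) (nat_lit 18617168103) (nat_lit 152) (nat_lit 9880344287) (nat_lit 12) (nat_lit 5) (nat_lit 13) (nat_lit 5) (nat_lit 14) (nat_lit 4) (nat_lit 373) (nat_lit 265) (nat_lit 142)) (XT.lf (nat_lit 0) (nat_lit 26629665875) (nat_lit 76) (nat_lit 13981308219) (nat_lit 152) (nat_lit 6555443620) (nat_lit 12) (nat_lit 5) (nat_lit 13) (nat_lit 5) (nat_lit 14) (nat_lit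 4) (nat_lit 374) (nat_lit 265) (nat_lit 141)))) (XT.nd (nat_lit 78) (nat_lit 228) (nat_lit 0) (XT.lf (nat_lit 0) (nat_lit 36072015472) (nat_lit 76) (nat_lit 9211397735) (nat_lit 152) (nat_lit 3138430163) (nat_lit 12) (nat_lit 5) (nat_lit 13) (nat_lit 5) (nat_lit 14) (nat_lit 4) (nat_lit 375) (nat_lit 265) (nat_lit 140)) (XT.nd (nat_lit 78) (nat_lit 152) (nat_lit 0) (XT.lf (nat_lit 0) (nat_lit 366389944) (nat_lit 152) (nat_lit 3933179004) (nat_lit 76) (nat_lit 45415478974) (nat_lit 11) (nat_lit 5) (nat_lit 13) (nat_lit 5) (nat_lit 12) (nat_lit 5) (nat_lit 376) (nat_lit 265) (nat_lit 139)) (XT.lf (nat_lit 0) (nat_lit 3960248729) (nat_lit 228) (nat_lit 46266541626) (nat_lit 76) (nat_lit 817924618) (nat_lit 9) (nat_lit 5) (nat_lit 12) (nat_lit 5) (nat_lit 10) (nat_lit 4) (nat_lit 377) (nat_lit 265) (nat_lit 138))))))))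
noncomputable def xc128 : XT := (XT.nd (nat_lit 32136) (nat_lit 0) (nat_lit 9880) (XT.nd (nat_lit 858) (nat_lit 152) (nat_lit 0) (XT.nd (nat_lit 390) (nat_lit 76) (nat_lit 0) (XT.nd (nat_lit 156) (nat_lit 0) (nat_lit 0) (XT.nd (nat_lit 78) (nat_lit 0) (nat_lit 0) (XT.lf (nat_lit 0) (nat_lit 7737594922) (nat_lit 228) (nat_lit 38636468854) (nat_lit 76) (nat_lit 6037945659) (nat_lit 9) (nat_lit 5) (nat_lit 12) (nat_lit 5) (nat_lit 10) (nat_lit 4) (nat_lit 378) (nat_lit 265) (nat_lit 137)) (XT.lf (nat_lit 0) (nat_lit 11621456661) (nat_lit 228) (nat_lit 30789064472) (nat_lit 76) (nat_lit 11410013070) (nat_lit 9) (nat_lit 5) (nat_lit 12) (nat_lit 5) (nat_lit 10) (nat_lit 4) (nat_lit 379) (nat_lit 265) (nat_lit 136))) (XT.nd (nat_lit 78) (nat_lit 0) (nat_lit 0) (XT.lf (nat_lit 0) (nat_lit 15615227614) (nat_lit 228) (nat_lit 22717471526) (nat_lit 76) (nat_lit 16938820888) (nat_lit 9) (nat_lit 5) (nat_lit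 12) (nat_lit 5) (nat_lit 10) (nat_lit 4) (nat_lit 380) (nat_lit 265) (nat_lit 135)) (XT.nd (nat_lit 78) (nat_lit 0) (nat_lit 0) (XT.lf (nat_lit 0) (nat_lit 19722397482) (nat_lit 228) (nat_lit 14414637167) (nat_lit 76) (nat_lit 22629200112) (nat_lit 9) (nat_lit 5) (nat_lit 12) (nat_lit 5) (nat_lit 10) (nat_lit 4) (nat_lit 381) (nat_lit 265) (nat_lit 134)) (XT.lf (nat_lit 0) (nat_lit 23946555055) (nat_lit 228) (nat_lit 5873306491) (nat_lit 76) (nat_lit 28486122918) (nat_lit 9) (nat_lit 5) (nat_lit 12) (nat_lit 5) (nat_lit 10) (nat_lit 4) (nat_lit 382) (nat_lit 265) (nat_lit 133))))) (XT.nd (nat_lit 234) (nat_lit 0) (nat_lit 0) (XT.nd (nat_lit 78) (nat_lit 0) (nat_lit 0) (XT.lf (nat_lit 0) (nat_lit 2971977791) (nat_lit 76) (nat_lit 25347982021) (nat_lit 152) (nat_lit 31571297681) (nat_lit 8) (nat_lit 5) (nat_lit 9) (nat_lit 5) (nat_lit 10) (nat_lit 4) (nat_lit 383) (nat_lit 265) (nat_lit 132))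 (XT.nd (nat_lit 78) (nat_lit 0) (nat_lit 0) (XT.lf (nat_lit 0) (nat_lit 12192838110) (nat_lit 76) (nat_lit 20685069717) (nat_lit 152) (nat_lit 28644586974) (nat_lit 8) (nat_lit 5) (nat_lit 9) (nat_lit 5) (nat_lit 10) (nat_lit 4) (nat_lit 384) (nat_lit 265) (nat_lit 131)) (XT.lf (nat_lit 0) (nat_lit 21680441211) (nat_lit 76) (nat_lit 15886359124) (nat_lit 152) (nat_lit 25636048849) (nat_lit 8) (nat_lit 5) (nat_lit 9) (nat_lit 5) (nat_lit 10) (nat_lit 4) (nat_lit 385) (nat_lit 265) (nat_lit 130)))) (XT.nd (nat_lit 78) (nat_lit 0) (nat_lit 0) (XT.lf (nat_lit 0) (nat_lit 31443077234) (nat_lit 76) (nat_lit 10947657194) (nat_lit 152) (nat_lit 22543054484) (nat_lit 8) (nat_lit 5) (nat_lit 9) (nat_lit 5) (nat_lit 10) (nat_lit 4) (nat_lit 386) (nat_lit 265) (nat_lit 129)) (XT.nd (nat_lit 78) (nat_lit 0) (nat_lit 0) (XT.lf (nat_lit 0) (nat_lit 41489276636) (nat_lit 76) (nat_lit 5864648556) (nat_lit 152)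 (nat_lit 19362901264) (nat_lit 8) (nat_lit 5) (nat_lit 9) (nat_lit 5) (nat_lit 10) (nat_lit 4) (nat_lit 387) (nat_lit 265) (nat_lit 128)) (XT.lf (nat_lit 0) (nat_lit 51827817652) (nat_lit 76) (nat_lit 632891746) (nat_lit 152) (nat_lit 16092810414) (nat_lit 8) (nat_lit 5) (nat_lit 9) (nat_lit 5) (nat_lit 10) (nat_lit 4) (nat_lit 388) (nat_lit 265) (nat_lit 127)))))) (XT.nd (nat_lit 390) (nat_lit 0) (nat_lit 0) (XT.nd (nat_lit 156) (nat_lit 76) (nat_lit 0) (XT.nd (nat_lit 78) (nat_lit 76) (nat_lit 0) (XT.lf (nat_lit 0) (nat_lit 57761230189) (nat_lit 152) (nat_lit 8023420806) (nat_lit 0) (nat_lit 4659452433) (nat_lit 8) (nat_lit 5) (nat_lit 10) (nat_lit 4) (nat_lit 8) (nat_lit 4) (nat_lit 389) (nat_lit 265) (nat_lit 126)) (XT.lf (nat_lit 0) (nat_lit 943425860) (nat_lit 76) (nat_lit 62287643970) (nat_lit 76) (nat_lit 9160030921) (nat_lit 7) (nat_lit 4) (nat_lit 8) (nat_lit 5) (nat_lit 8) (nat_lit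 4) (nat_lit 390) (nat_lit 265) (nat_lit 125))) (XT.nd (nat_lit 78) (nat_lit 76) (nat_lit 0) (XT.lf (nat_lit 0) (nat_lit 10335188446) (nat_lit 76) (nat_lit 58605869473) (nat_lit 76) (nat_lit 5453173615) (nat_lit 7) (nat_lit 4) (nat_lit 8) (nat_lit 5) (nat_lit 8) (nat_lit 4) (nat_lit 391) (nat_lit 265) (nat_lit 124)) (XT.nd (nat_lit 78) (nat_lit 76) (nat_lit 0) (XT.lf (nat_lit 0) (nat_lit 20000391541) (nat_lit 76) (nat_lit 54817131237) (nat_lit 76) (nat_lit 1640083138) (nat_lit 7) (nat_lit 4) (nat_lit 8) (nat_lit 5) (nat_lit 8) (nat_lit 4) (nat_lit 392) (nat_lit 265) (nat_lit 123)) (XT.lf (nat_lit 0) (nat_lit 2238031127) (nat_lit 152) (nat_lit 48657487862) (nat_lit 76) (nat_lit 27686849613) (nat_lit 6) (nat_lit 5) (nat_lit 8) (nat_lit 5) (nat_lit 7) (nat_lit 4) (nat_lit 393) (nat_lit 265) (nat_lit 122))))) (XT.nd (nat_lit 30654) (nat_lit 0) (nat_lit 16872) (XT.nd (nat_lit 78) (nat_lit 0) (nat_lit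 0) (XT.lf (nat_lit 0) (nat_lit 6194929132) (nat_lit 152) (nat_lit 40647939234) (nat_lit 76) (nat_lit 33927661084) (nat_lit 6) (nat_lit 5) (nat_lit 8) (nat_lit 5) (nat_lit 7) (nat_lit 4) (nat_lit 394) (nat_lit 265) (nat_lit 121)) (XT.nd (nat_lit 78) (nat_lit 0) (nat_lit 0) (XT.lf (nat_lit 0) (nat_lit 10266072290) (nat_lit 152) (nat_lit 32405804374) (nat_lit 76) (nat_lit 40352596747) (nat_lit 6) (nat_lit 5) (nat_lit 8) (nat_lit 5) (nat_lit 7) (nat_lit 4) (nat_lit 395) (nat_lit 265) (nat_lit 120)) (XT.lf (nat_lit 0) (nat_lit 14455017910) (nat_lit 152) (nat_lit 23923881417) (nat_lit 76) (nat_lit 46967270624) (nat_lit 6) (nat_lit 5) (nat_lit 8) (nat_lit 5) (nat_lit 7) (nat_lit 4) (nat_lit 396) (nat_lit 265) (nat_lit 119)))) (XT.nd (nat_lit 78) (nat_lit 532) (nat_lit 0) (XT.lf (nat_lit 0) (nat_lit 791971075) (nat_lit 0) (nat_lit 791971075) (nat_lit 380) (nat_lit 1718255917) (nat_lit 235) (nat_lit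 5) (nat_lit 235) (nat_lit 3) (nat_lit 240) (nat_lit 3) (nat_lit 266) (nat_lit 266) (nat_lit 248)) (XT.nd (nat_lit 78) (nat_lit 532) (nat_lit 0) (XT.lf (nat_lit 0) (nat_lit 4440899319) (nat_lit 0) (nat_lit 843158184) (nat_lit 380) (nat_lit 1348841510) (nat_lit 235) (nat_lit 5) (nat_lit 235) (nat_lit 3) (nat_lit 240) (nat_lit 3) (nat_lit 267) (nat_lit 266) (nat_lit 247)) (XT.lf (nat_lit 76) (nat_lit 684645762) (nat_lit 0) (nat_lit 25896494) (nat_lit 532) (nat_lit 5954064116) (nat_lit 229) (nat_lit 5) (nat_lit 228) (nat_lit 3) (nat_lit 235) (nat_lit 5) (nat_lit 268) (nat_lit 266) (nat_lit 246))))))) (XT.nd (nat_lit 858) (nat_lit 5320) (nat_lit 0) (XT.nd (nat_lit 390) (nat_lit 1216) (nat_lit 0) (XT.nd (nat_lit 156) (nat_lit 532) (nat_lit 0) (XT.nd (nat_lit 78) (nat_lit 0) (nat_lit 0) (XT.lf (nat_lit 0) (nat_lit 2755281886) (nat_lit 456) (nat_lit 3070470791) (nat_lit 532) (nat_lit 872903901) (nat_lit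 229) (nat_lit 5) (nat_lit 235) (nat_lit 5) (nat_lit 236) (nat_lit 5) (nat_lit 269) (nat_lit 266) (nat_lit 245)) (XT.lf (nat_lit 0) (nat_lit 4784423896) (nat_lit 456) (nat_lit 117620176) (nat_lit 532) (nat_lit 1834296116) (nat_lit 229) (nat_lit 5) (nat_lit 235) (nat_lit 5) (nat_lit 236) (nat_lit 5) (nat_lit 270) (nat_lit 266) (nat_lit 244))) (XT.nd (nat_lit 78) (nat_lit 0) (nat_lit 0) (XT.lf (nat_lit 0) (nat_lit 49898412) (nat_lit 532) (nat_lit 3838573078) (nat_lit 608) (nat_lit 2888363953) (nat_lit 222) (nat_lit 5) (nat_lit 229) (nat_lit 5) (nat_lit 230) (nat_lit 5) (nat_lit 271) (nat_lit 266) (nat_lit 243)) (XT.nd (nat_lit 78) (nat_lit 0) (nat_lit 0) (XT.lf (nat_lit 0) (nat_lit 1999561976) (nat_lit 532) (nat_lit 793349221) (nat_lit 608) (nat_lit 4027521734) (nat_lit 222) (nat_lit 5) (nat_lit 229) (nat_lit 5) (nat_lit 230) (nat_lit 5) (nat_lit 272) (nat_lit 266) (nat_lit 242)) (XT.lf (nat_lit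 76) (nat_lit 2346560900) (nat_lit 0) (nat_lit 1611698028) (nat_lit 608) (nat_lit 2908832947) (nat_lit 223) (nat_lit 5) (nat_lit 222) (nat_lit 5) (nat_lit 230) (nat_lit 5) (nat_lit 273) (nat_lit 266) (nat_lit 241))))) (XT.nd (nat_lit 234) (nat_lit 684) (nat_lit 0) (XT.nd (nat_lit 78) (nat_lit 532) (nat_lit 0) (XT.lf (nat_lit 76) (nat_lit 5554887178) (nat_lit 0) (nat_lit 358521100) (nat_lit 608) (nat_lit 1003873542) (nat_lit 223) (nat_lit 5) (nat_lit 222) (nat_lit 5) (nat_lit 230) (nat_lit 5) (nat_lit 274) (nat_lit 266) (nat_lit 240)) (XT.nd (nat_lit 78) (nat_lit 0) (nat_lit 0) (XT.lf (nat_lit 0) (nat_lit 897855050) (nat_lit 608) (nat_lit 5104543926) (nat_lit 684) (nat_lit 967799520) (nat_lit 215) (nat_lit 5) (nat_lit 223) (nat_lit 5) (nat_lit 224) (nat_lit 5) (nat_lit 275) (nat_lit 266) (nat_lit 239)) (XT.lf (nat_lit 0) (nat_lit 2786562237) (nat_lit 608) (nat_lit 1863982619) (nat_lit 684) (nat_lit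 2375596275) (nat_lit 215) (nat_lit 5) (nat_lit 223) (nat_lit 5) (nat_lit 224) (nat_lit 5) (nat_lit 276) (nat_lit 266) (nat_lit 238)))) (XT.nd (nat_lit 78) (nat_lit 684) (nat_lit 0) (XT.lf (nat_lit 76) (nat_lit 1459023200) (nat_lit 0) (nat_lit 3221553977) (nat_lit 684) (nat_lit 2404958235) (nat_lit 216) (nat_lit 5) (nat_lit 215) (nat_lit 5) (nat_lit 224) (nat_lit 5) (nat_lit 277) (nat_lit 266) (nat_lit 237)) (XT.nd (nat_lit 78) (nat_lit 684) (nat_lit 0) (XT.lf (nat_lit 76) (nat_lit 4877109840) (nat_lit 0) (nat_lit 1709239434) (nat_lit 684) (nat_lit 561940130) (nat_lit 216) (nat_lit 5) (nat_lit 215) (nat_lit 5) (nat_lit 224) (nat_lit 5) (nat_lit 278) (nat_lit 266) (nat_lit 236)) (XT.lf (nat_lit 76) (nat_lit 1151399066) (nat_lit 0) (nat_lit 107105700) (nat_lit 760) (nat_lit 5955802473) (nat_lit 207) (nat_lit 5) (nat_lit 206) (nat_lit 5) (nat_lit 216) (nat_lit 5) (nat_lit 279) (nat_lit 266) (nat_lit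 235)))))) (XT.nd (nat_lit 468) (nat_lit 3040) (nat_lit 0) (XT.nd (nat_lit 234) (nat_lit 1672) (nat_lit 0) (XT.nd (nat_lit 78) (nat_lit 684) (nat_lit 0) (XT.lf (nat_lit 0) (nat_lit 3099010890) (nat_lit 684) (nat_lit 2623874279) (nat_lit 76) (nat_lit 1560158065) (nat_lit 207) (nat_lit 5) (nat_lit 216) (nat_lit 5) (nat_lit 208) (nat_lit 5) (nat_lit 280) (nat_lit 266) (nat_lit 234)) (XT.nd (nat_lit 78) (nat_lit 0) (nat_lit 0) (XT.lf (nat_lit 0) (nat_lit 891120576) (nat_lit 684) (nat_lit 4053769759) (nat_lit 760) (nat_lit 2410647012) (nat_lit 198) (nat_lit 5) (nat_lit 207) (nat_lit 5) (nat_lit 208) (nat_lit 5) (nat_lit 281) (nat_lit 266) (nat_lit 233)) (XT.lf (nat_lit 0) (nat_lit 4522240401) (nat_lit 684) (nat_lit 2292251107) (nat_lit 760) (nat_lit 616859351) (nat_lit 198) (nat_lit 5) (nat_lit 207) (nat_lit 5) (nat_lit 208) (nat_lit 5) (nat_lit 282) (nat_lit 266) (nat_lit 232)))) (XT.nd (nat_lit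 78) (nat_lit 836) (nat_lit 0) (XT.lf (nat_lit 0) (nat_lit 711734694) (nat_lit 760) (nat_lit 444631190) (nat_lit 836) (nat_lit 6354412513) (nat_lit 187) (nat_lit 5) (nat_lit 197) (nat_lit 5) (nat_lit 198) (nat_lit 5) (nat_lit 283) (nat_lit 266) (nat_lit 231)) (XT.nd (nat_lit 78) (nat_lit 836) (nat_lit 0) (XT.lf (nat_lit 0) (nat_lit 2958256385) (nat_lit 836) (nat_lit 3156024419) (nat_lit 76) (nat_lit 1478667123) (nat_lit 187) (nat_lit 5) (nat_lit 198) (nat_lit 5) (nat_lit 188) (nat_lit 5) (nat_lit 284) (nat_lit 266) (nat_lit 230)) (XT.lf (nat_lit 0) (nat_lit 559362916) (nat_lit 836) (nat_lit 4210426129) (nat_lit 912) (nat_lit 2909299131) (nat_lit 176) (nat_lit 5) (nat_lit 187) (nat_lit 5) (nat_lit 188) (nat_lit 5) (nat_lit 285) (nat_lit 266) (nat_lit 229))))) (XT.nd (nat_lit 234) (nat_lit 2052) (nat_lit 0) (XT.nd (nat_lit 78) (nat_lit 988) (nat_lit 0) (XT.lf (nat_lit 0) (nat_lit 4407897692) (nat_lit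 836) (nat_lit 2206610896) (nat_lit 912) (nat_lit 1154106972) (nat_lit 176) (nat_lit 5) (nat_lit 187) (nat_lit 5) (nat_lit 188) (nat_lit 5) (nat_lit 286) (nat_lit 266) (nat_lit 228)) (XT.nd (nat_lit 78) (nat_lit 0) (nat_lit 0) (XT.lf (nat_lit 0) (nat_lit 471013407) (nat_lit 912) (nat_lit 122344328) (nat_lit 988) (nat_lit 7268869797) (nat_lit 163) (nat_lit 5) (nat_lit 175) (nat_lit 5) (nat_lit 176) (nat_lit 5) (nat_lit 287) (nat_lit 266) (nat_lit 227)) (XT.lf (nat_lit 0) (nat_lit 2372820876) (nat_lit 988) (nat_lit 3546564038) (nat_lit 76) (nat_lit 2038990901) (nat_lit 163) (nat_lit 5) (nat_lit 176) (nat_lit 5) (nat_lit 164) (nat_lit 5) (nat_lit 288) (nat_lit 266) (nat_lit 226)))) (XT.nd (nat_lit 78) (nat_lit 1064) (nat_lit 0) (XT.lf (nat_lit 0) (nat_lit 376553144) (nat_lit 988) (nat_lit 3784468065) (nat_lit 1064) (nat_lit 3897876141) (nat_lit 150) (nat_lit 5) (nat_lit 163) (nat_lit 5) (nat_lit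 164) (nat_lit 5) (nat_lit 289) (nat_lit 266) (nat_lit 225)) (XT.nd (nat_lit 78) (nat_lit 1064) (nat_lit 0) (XT.lf (nat_lit 0) (nat_lit 4447477600) (nat_lit 988) (nat_lit 1542757327) (nat_lit 1064) (nat_lit 2172723634) (nat_lit 150) (nat_lit 5) (nat_lit 163) (nat_lit 5) (nat_lit 164) (nat_lit 5) (nat_lit 290) (nat_lit 266) (nat_lit 224)) (XT.lf (nat_lit 0) (nat_lit 326439492) (nat_lit 1064) (nat_lit 7511408485) (nat_lit 1140) (nat_lit 433528768) (nat_lit 136) (nat_lit 5) (nat_lit 150) (nat_lit 5) (nat_lit 151) (nat_lit 5) (nat_lit 291) (nat_lit 266) (nat_lit 223))))))))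
noncomputable def xc129 : XT := (XT.nd (nat_lit 1716) (nat_lit 2812) (nat_lit 0) (XT.nd (nat_lit 858) (nat_lit 2052) (nat_lit 0) (XT.nd (nat_lit 390) (nat_lit 1596) (nat_lit 0) (XT.nd (nat_lit 156) (nat_lit 532) (nat_lit 0) (XT.nd (nat_lit 78) (nat_lit 608) (nat_lit 0) (XT.lf (nat_lit 0) (nat_lit 1337900486) (nat_lit 1140) (nat_lit 3888432074) (nat_lit 76) (nat_lit 3156259436) (nat_lit 135) (nat_lit 5) (nat_lit 150) (nat_lit 5) (nat_lit 136) (nat_lit 5) (nat_lit 292) (nat_lit 266) (nat_lit 222)) (XT.lf (nat_lit 0) (nat_lit 247992067) (nat_lit 608) (nat_lit 2862898049) (nat_lit 684) (nat_lit 5387539764) (nat_lit 127) (nat_lit 5) (nat_lit 135) (nat_lit 5) (nat_lit 136) (nat_lit 5) (nat_lit 293) (nat_lit 266) (nat_lit 221))) (XT.nd (nat_lit 78) (nat_lit 532) (nat_lit 0) (XT.lf (nat_lit 0) (nat_lit 4546309863) (nat_lit 608) (nat_lit 385687453) (nat_lit 684) (nat_lit 3686022868) (nat_lit 127) (nat_lit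 5) (nat_lit 135) (nat_lit 5) (nat_lit 136) (nat_lit 5) (nat_lit 294) (nat_lit 266) (nat_lit 220)) (XT.nd (nat_lit 78) (nat_lit 0) (nat_lit 0) (XT.lf (nat_lit 0) (nat_lit 172808709) (nat_lit 532) (nat_lit 6614385945) (nat_lit 608) (nat_lit 1954741315) (nat_lit 120) (nat_lit 5) (nat_lit 127) (nat_lit 5) (nat_lit 128) (nat_lit 5) (nat_lit 295) (nat_lit 266) (nat_lit 219)) (XT.lf (nat_lit 0) (nat_lit 4582524635) (nat_lit 532) (nat_lit 4118249392) (nat_lit 608) (nat_lit 168831354) (nat_lit 120) (nat_lit 5) (nat_lit 127) (nat_lit 5) (nat_lit 128) (nat_lit 5) (nat_lit 296) (nat_lit 266) (nat_lit 218))))) (XT.nd (nat_lit 234) (nat_lit 988) (nat_lit 0) (XT.nd (nat_lit 78) (nat_lit 0) (nat_lit 0) (XT.lf (nat_lit 0) (nat_lit 67248532) (nat_lit 532) (nat_lit 1529992514) (nat_lit 608) (nat_lit 7404717649) (nat_lit 112) (nat_lit 5) (nat_lit 119) (nat_lit 5) (nat_lit 120) (nat_lit 5) (nat_lit 297) (nat_lit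 266) (nat_lit 217)) (XT.nd (nat_lit 78) (nat_lit 0) (nat_lit 0) (XT.lf (nat_lit 0) (nat_lit 3426889919) (nat_lit 608) (nat_lit 4552263595) (nat_lit 76) (nat_lit 1158767248) (nat_lit 112) (nat_lit 5) (nat_lit 120) (nat_lit 5) (nat_lit 113) (nat_lit 5) (nat_lit 298) (nat_lit 266) (nat_lit 216)) (XT.lf (nat_lit 0) (nat_lit 5287109540) (nat_lit 608) (nat_lit 94607659) (nat_lit 76) (nat_lit 3897078841) (nat_lit 112) (nat_lit 5) (nat_lit 120) (nat_lit 5) (nat_lit 113) (nat_lit 5) (nat_lit 299) (nat_lit 266) (nat_lit 215)))) (XT.nd (nat_lit 78) (nat_lit 532) (nat_lit 0) (XT.lf (nat_lit 0) (nat_lit 4545560157) (nat_lit 456) (nat_lit 2662952666) (nat_lit 532) (nat_lit 2215325176) (nat_lit 106) (nat_lit 5) (nat_lit 112) (nat_lit 5) (nat_lit 113) (nat_lit 5) (nat_lit 300) (nat_lit 266) (nat_lit 214)) (XT.nd (nat_lit 78) (nat_lit 532) (nat_lit 0) (XT.lf (nat_lit 0) (nat_lit 9152243312) (nat_lit 532) (nat_lit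 288394390) (nat_lit 76) (nat_lit 133751735) (nat_lit 106) (nat_lit 5) (nat_lit 113) (nat_lit 5) (nat_lit 107) (nat_lit 5) (nat_lit 301) (nat_lit 266) (nat_lit 213)) (XT.lf (nat_lit 0) (nat_lit 1429990858) (nat_lit 532) (nat_lit 5282282149) (nat_lit 76) (nat_lit 3015877639) (nat_lit 99) (nat_lit 5) (nat_lit 106) (nat_lit 5) (nat_lit 100) (nat_lit 5) (nat_lit 302) (nat_lit 266) (nat_lit 212)))))) (XT.nd (nat_lit 390) (nat_lit 1140) (nat_lit 0) (XT.nd (nat_lit 156) (nat_lit 532) (nat_lit 0) (XT.nd (nat_lit 78) (nat_lit 380) (nat_lit 0) (XT.lf (nat_lit 0) (nat_lit 3295884105) (nat_lit 532) (nat_lit 602546926) (nat_lit 76) (nat_lit 5989058356) (nat_lit 99) (nat_lit 5) (nat_lit 106) (nat_lit 5) (nat_lit 100) (nat_lit 5) (nat_lit 303) (nat_lit 266) (nat_lit 211)) (XT.lf (nat_lit 0) (nat_lit 4261938178) (nat_lit 380) (nat_lit 961576385) (nat_lit 456) (nat_lit 4828008673) (nat_lit 94) (nat_lit 5) (nat_lit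 99) (nat_lit 5) (nat_lit 100) (nat_lit 5) (nat_lit 304) (nat_lit 266) (nat_lit 210))) (XT.nd (nat_lit 78) (nat_lit 532) (nat_lit 0) (XT.lf (nat_lit 0) (nat_lit 7200364118) (nat_lit 456) (nat_lit 994992829) (nat_lit 76) (nat_lit 2025464648) (nat_lit 94) (nat_lit 5) (nat_lit 100) (nat_lit 5) (nat_lit 95) (nat_lit 5) (nat_lit 305) (nat_lit 266) (nat_lit 209)) (XT.nd (nat_lit 78) (nat_lit 76) (nat_lit 0) (XT.lf (nat_lit 0) (nat_lit 3973084662) (nat_lit 456) (nat_lit 5277565115) (nat_lit 532) (nat_lit 1144207932) (nat_lit 88) (nat_lit 5) (nat_lit 94) (nat_lit 5) (nat_lit 95) (nat_lit 5) (nat_lit 306) (nat_lit 266) (nat_lit 208)) (XT.lf (nat_lit 0) (nat_lit 749719059) (nat_lit 532) (nat_lit 1509617231) (nat_lit 76) (nat_lit 8315326056) (nat_lit 87) (nat_lit 5) (nat_lit 94) (nat_lit 5) (nat_lit 88) (nat_lit 5) (nat_lit 307) (nat_lit 266) (nat_lit 207))))) (XT.nd (nat_lit 234) (nat_lit 380) (nat_lit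 0) (XT.nd (nat_lit 78) (nat_lit 380) (nat_lit 0) (XT.lf (nat_lit 0) (nat_lit 2687955270) (nat_lit 456) (nat_lit 7197455195) (nat_lit 76) (nat_lit 873871829) (nat_lit 82) (nat_lit 5) (nat_lit 88) (nat_lit 5) (nat_lit 83) (nat_lit 5) (nat_lit 308) (nat_lit 266) (nat_lit 206)) (XT.nd (nat_lit 78) (nat_lit 380) (nat_lit 0) (XT.lf (nat_lit 0) (nat_lit 4690235346) (nat_lit 456) (nat_lit 2193350233) (nat_lit 76) (nat_lit 4065751855) (nat_lit 82) (nat_lit 5) (nat_lit 88) (nat_lit 5) (nat_lit 83) (nat_lit 5) (nat_lit 309) (nat_lit 266) (nat_lit 205)) (XT.lf (nat_lit 0) (nat_lit 2981973175) (nat_lit 380) (nat_lit 3768335399) (nat_lit 456) (nat_lit 4394925265) (nat_lit 77) (nat_lit 5) (nat_lit 82) (nat_lit 5) (nat_lit 83) (nat_lit 5) (nat_lit 310) (nat_lit 266) (nat_lit 204)))) (XT.nd (nat_lit 78) (nat_lit 380) (nat_lit 0) (XT.lf (nat_lit 0) (nat_lit 8320787740) (nat_lit 380) (nat_lit 543153084) (nat_lit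 456) (nat_lit 2483382884) (nat_lit 77) (nat_lit 5) (nat_lit 82) (nat_lit 5) (nat_lit 83) (nat_lit 5) (nat_lit 311) (nat_lit 266) (nat_lit 203)) (XT.nd (nat_lit 78) (nat_lit 76) (nat_lit 0) (XT.lf (nat_lit 0) (nat_lit 2244830242) (nat_lit 304) (nat_lit 8814876190) (nat_lit 380) (nat_lit 495275370) (nat_lit 73) (nat_lit 5) (nat_lit 77) (nat_lit 5) (nat_lit 78) (nat_lit 5) (nat_lit 312) (nat_lit 266) (nat_lit 202)) (XT.lf (nat_lit 0) (nat_lit 1529019270) (nat_lit 380) (nat_lit 4089021806) (nat_lit 76) (nat_lit 6150239111) (nat_lit 72) (nat_lit 5) (nat_lit 77) (nat_lit 5) (nat_lit 73) (nat_lit 5) (nat_lit 313) (nat_lit 266) (nat_lit 201))))))) (XT.nd (nat_lit 858) (nat_lit 1216) (nat_lit 0) (XT.nd (nat_lit 390) (nat_lit 912) (nat_lit 0) (XT.nd (nat_lit 156) (nat_lit 304) (nat_lit 0) (XT.nd (nat_lit 78) (nat_lit 0) (nat_lit 0) (XT.lf (nat_lit 0) (nat_lit 1272906435) (nat_lit 380) (nat_lit 2314870018)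 (nat_lit 456) (nat_lit 8400604863) (nat_lit 67) (nat_lit 5) (nat_lit 72) (nat_lit 5) (nat_lit 73) (nat_lit 5) (nat_lit 314) (nat_lit 266) (nat_lit 200)) (XT.lf (nat_lit 0) (nat_lit 5732321516) (nat_lit 456) (nat_lit 5381445489) (nat_lit 76) (nat_lit 1100657479) (nat_lit 67) (nat_lit 5) (nat_lit 73) (nat_lit 5) (nat_lit 68) (nat_lit 5) (nat_lit 315) (nat_lit 266) (nat_lit 199))) (XT.nd (nat_lit 78) (nat_lit 0) (nat_lit 0) (XT.lf (nat_lit 0) (nat_lit 55574926) (nat_lit 304) (nat_lit 7881773495) (nat_lit 380) (nat_lit 4510074178) (nat_lit 63) (nat_lit 5) (nat_lit 67) (nat_lit 5) (nat_lit 68) (nat_lit 5) (nat_lit 316) (nat_lit 266) (nat_lit 198)) (XT.nd (nat_lit 78) (nat_lit 0) (nat_lit 0) (XT.lf (nat_lit 0) (nat_lit 5731170538) (nat_lit 304) (nat_lit 4504849799) (nat_lit 380) (nat_lit 2450621823) (nat_lit 63) (nat_lit 5) (nat_lit 67) (nat_lit 5) (nat_lit 68) (nat_lit 5) (nat_lit 317) (nat_lit 266)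 (nat_lit 197)) (XT.lf (nat_lit 0) (nat_lit 11543199288) (nat_lit 304) (nat_lit 1034387255) (nat_lit 380) (nat_lit 356288430) (nat_lit 63) (nat_lit 5) (nat_lit 67) (nat_lit 5) (nat_lit 68) (nat_lit 5) (nat_lit 318) (nat_lit 266) (nat_lit 196))))) (XT.nd (nat_lit 234) (nat_lit 304) (nat_lit 0) (XT.nd (nat_lit 78) (nat_lit 228) (nat_lit 0) (XT.lf (nat_lit 0) (nat_lit 1807117016) (nat_lit 380) (nat_lit 8836765346) (nat_lit 76) (nat_lit 2542933114) (nat_lit 58) (nat_lit 5) (nat_lit 63) (nat_lit 5) (nat_lit 59) (nat_lit 5) (nat_lit 319) (nat_lit 266) (nat_lit 195)) (XT.nd (nat_lit 78) (nat_lit 228) (nat_lit 0) (XT.lf (nat_lit 0) (nat_lit 4027429824) (nat_lit 380) (nat_lit 3203138256) (nat_lit 76) (nat_lit 6216745347) (nat_lit 58) (nat_lit 5) (nat_lit 63) (nat_lit 5) (nat_lit 59) (nat_lit 5) (nat_lit 320) (nat_lit 266) (nat_lit 194)) (XT.lf (nat_lit 0) (nat_lit 2617751783) (nat_lit 228) (nat_lit 3697241961)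 (nat_lit 304) (nat_lit 7400661909) (nat_lit 55) (nat_lit 5) (nat_lit 58) (nat_lit 5) (nat_lit 59) (nat_lit 5) (nat_lit 321) (nat_lit 266) (nat_lit 193)))) (XT.nd (nat_lit 78) (nat_lit 304) (nat_lit 0) (XT.lf (nat_lit 0) (nat_lit 8646423929) (nat_lit 228) (nat_lit 32986124) (nat_lit 304) (nat_lit 5312438503) (nat_lit 55) (nat_lit 5) (nat_lit 58) (nat_lit 5) (nat_lit 59) (nat_lit 5) (nat_lit 322) (nat_lit 266) (nat_lit 192)) (XT.nd (nat_lit 78) (nat_lit 0) (nat_lit 0) (XT.lf (nat_lit 0) (nat_lit 521615838) (nat_lit 304) (nat_lit 10610624098) (nat_lit 380) (nat_lit 3143608678) (nat_lit 51) (nat_lit 5) (nat_lit 55) (nat_lit 5) (nat_lit 56) (nat_lit 5) (nat_lit 323) (nat_lit 266) (nat_lit 191)) (XT.lf (nat_lit 0) (nat_lit 6641997278) (nat_lit 304) (nat_lit 7047841025) (nat_lit 380) (nat_lit 877639327) (nat_lit 51) (nat_lit 5) (nat_lit 55) (nat_lit 5) (nat_lit 56) (nat_lit 5) (nat_lit 324) (nat_lit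 266) (nat_lit 190)))))) (XT.nd (nat_lit 468) (nat_lit 684) (nat_lit 0) (XT.nd (nat_lit 234) (nat_lit 228) (nat_lit 0) (XT.nd (nat_lit 78) (nat_lit 228) (nat_lit 0) (XT.lf (nat_lit 0) (nat_lit 1405181944) (nat_lit 380) (nat_lit 1967341766) (nat_lit 76) (nat_lit 11495635035) (nat_lit 50) (nat_lit 5) (nat_lit 55) (nat_lit 5) (nat_lit 51) (nat_lit 5) (nat_lit 325) (nat_lit 266) (nat_lit 189)) (XT.nd (nat_lit 78) (nat_lit 0) (nat_lit 0) (XT.lf (nat_lit 0) (nat_lit 3761668978) (nat_lit 304) (nat_lit 10968970878) (nat_lit 76) (nat_lit 446315818) (nat_lit 47) (nat_lit 5) (nat_lit 51) (nat_lit 5) (nat_lit 48) (nat_lit 5) (nat_lit 326) (nat_lit 266) (nat_lit 188)) (XT.lf (nat_lit 0) (nat_lit 6220526009) (nat_lit 304) (nat_lit 4949977929) (nat_lit 76) (nat_lit 4323601821) (nat_lit 47) (nat_lit 5) (nat_lit 51) (nat_lit 5) (nat_lit 48) (nat_lit 5) (nat_lit 327) (nat_lit 266) (nat_lit 187)))) (XT.nd (nat_lit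 78) (nat_lit 0) (nat_lit 0) (XT.lf (nat_lit 0) (nat_lit 1243887514) (nat_lit 228) (nat_lit 7500073652) (nat_lit 304) (nat_lit 7077123165) (nat_lit 44) (nat_lit 5) (nat_lit 47) (nat_lit 5) (nat_lit 48) (nat_lit 5) (nat_lit 328) (nat_lit 266) (nat_lit 186)) (XT.nd (nat_lit 78) (nat_lit 0) (nat_lit 0) (XT.lf (nat_lit 0) (nat_lit 7695362422) (nat_lit 228) (nat_lit 3676908033) (nat_lit 304) (nat_lit 4784763912) (nat_lit 44) (nat_lit 5) (nat_lit 47) (nat_lit 5) (nat_lit 48) (nat_lit 5) (nat_lit 329) (nat_lit 266) (nat_lit 185)) (XT.lf (nat_lit 0) (nat_lit 14061646988) (nat_lit 304) (nat_lit 2194561284) (nat_lit 76) (nat_lit 247424249) (nat_lit 44) (nat_lit 5) (nat_lit 48) (nat_lit 5) (nat_lit 45) (nat_lit 5) (nat_lit 330) (nat_lit 266) (nat_lit 184))))) (XT.nd (nat_lit 234) (nat_lit 152) (nat_lit 0) (XT.nd (nat_lit 78) (nat_lit 228) (nat_lit 0) (XT.lf (nat_lit 0) (nat_lit 30018140) (nat_lit 304) (nat_lit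 12580079715) (nat_lit 76) (nat_lit 4248821859) (nat_lit 40) (nat_lit 5) (nat_lit 44) (nat_lit 5) (nat_lit 41) (nat_lit 5) (nat_lit 331) (nat_lit 266) (nat_lit 183)) (XT.nd (nat_lit 78) (nat_lit 228) (nat_lit 0) (XT.lf (nat_lit 0) (nat_lit 2529858006) (nat_lit 304) (nat_lit 6285828596) (nat_lit 76) (nat_lit 8408403937) (nat_lit 40) (nat_lit 5) (nat_lit 44) (nat_lit 5) (nat_lit 41) (nat_lit 5) (nat_lit 332) (nat_lit 266) (nat_lit 182)) (XT.lf (nat_lit 0) (nat_lit 172796614) (nat_lit 228) (nat_lit 4914506407) (nat_lit 304) (nat_lit 12513467294) (nat_lit 37) (nat_lit 5) (nat_lit 40) (nat_lit 5) (nat_lit 41) (nat_lit 5) (nat_lit 333) (nat_lit 266) (nat_lit 181)))) (XT.nd (nat_lit 78) (nat_lit 152) (nat_lit 0) (XT.lf (nat_lit 0) (nat_lit 6926481376) (nat_lit 228) (nat_lit 839703514) (nat_lit 304) (nat_lit 10221255375) (nat_lit 37) (nat_lit 5) (nat_lit 40) (nat_lit 5) (nat_lit 41) (nat_lit 5) (nat_lit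 334) (nat_lit 266) (nat_lit 180)) (XT.nd (nat_lit 78) (nat_lit 152) (nat_lit 0) (XT.lf (nat_lit 0) (nat_lit 10539409406) (nat_lit 304) (nat_lit 4562451169) (nat_lit 76) (nat_lit 3283460733) (nat_lit 37) (nat_lit 5) (nat_lit 41) (nat_lit 5) (nat_lit 38) (nat_lit 5) (nat_lit 335) (nat_lit 266) (nat_lit 179)) (XT.lf (nat_lit 0) (nat_lit 2137966143) (nat_lit 152) (nat_lit 11268966111) (nat_lit 228) (nat_lit 5387902878) (nat_lit 35) (nat_lit 5) (nat_lit 37) (nat_lit 5) (nat_lit 38) (nat_lit 5) (nat_lit 336) (nat_lit 266) (nat_lit 178))))))))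
noncomputable def xc130 : XT := (XT.nd (nat_lit 1716) (nat_lit 760) (nat_lit 0) (XT.nd (nat_lit 858) (nat_lit 532) (nat_lit 0) (XT.nd (nat_lit 390) (nat_lit 380) (nat_lit 0) (XT.nd (nat_lit 156) (nat_lit 304) (nat_lit 0) (XT.nd (nat_lit 78) (nat_lit 0) (nat_lit 0) (XT.lf (nat_lit 0) (nat_lit 9106729914) (nat_lit 152) (nat_lit 7282324565) (nat_lit 228) (nat_lit 2826751221) (nat_lit 35) (nat_lit 5) (nat_lit 37) (nat_lit 5) (nat_lit 38) (nat_lit 5) (nat_lit 337) (nat_lit 266) (nat_lit 177)) (XT.lf (nat_lit 0) (nat_lit 16259127631) (nat_lit 152) (nat_lit 3184524276) (nat_lit 228) (nat_lit 206290843) (nat_lit 35) (nat_lit 5) (nat_lit 37) (nat_lit 5) (nat_lit 38) (nat_lit 5) (nat_lit 338) (nat_lit 266) (nat_lit 176))) (XT.nd (nat_lit 78) (nat_lit 0) (nat_lit 0) (XT.lf (nat_lit 0) (nat_lit 2472029663) (nat_lit 304) (nat_lit 16557100223) (nat_lit 76) (nat_lit 1066444595) (nat_lit 31) (nat_lit 5) (nat_lit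 35) (nat_lit 5) (nat_lit 32) (nat_lit 5) (nat_lit 339) (nat_lit 266) (nat_lit 175)) (XT.nd (nat_lit 78) (nat_lit 0) (nat_lit 0) (XT.lf (nat_lit 0) (nat_lit 5276146861) (nat_lit 304) (nat_lit 9867547621) (nat_lit 76) (nat_lit 5409356967) (nat_lit 31) (nat_lit 5) (nat_lit 35) (nat_lit 5) (nat_lit 32) (nat_lit 5) (nat_lit 340) (nat_lit 266) (nat_lit 174)) (XT.lf (nat_lit 0) (nat_lit 8148352405) (nat_lit 304) (nat_lit 3001812264) (nat_lit 76) (nat_lit 9874593732) (nat_lit 31) (nat_lit 5) (nat_lit 35) (nat_lit 5) (nat_lit 32) (nat_lit 5) (nat_lit 341) (nat_lit 266) (nat_lit 173))))) (XT.nd (nat_lit 234) (nat_lit 228) (nat_lit 0) (XT.nd (nat_lit 78) (nat_lit 0) (nat_lit 0) (XT.lf (nat_lit 0) (nat_lit 4126630458) (nat_lit 152) (nat_lit 7004193225) (nat_lit 228) (nat_lit 10379093793) (nat_lit 29) (nat_lit 5) (nat_lit 31) (nat_lit 5) (nat_lit 32) (nat_lit 5) (nat_lit 342) (nat_lit 266) (nat_lit 172))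 (XT.nd (nat_lit 78) (nat_lit 0) (nat_lit 0) (XT.lf (nat_lit 0) (nat_lit 11506903788) (nat_lit 152) (nat_lit 2710836600) (nat_lit 228) (nat_lit 7791465003) (nat_lit 29) (nat_lit 5) (nat_lit 31) (nat_lit 5) (nat_lit 32) (nat_lit 5) (nat_lit 343) (nat_lit 266) (nat_lit 171)) (XT.lf (nat_lit 0) (nat_lit 17398743881) (nat_lit 228) (nat_lit 3454600333) (nat_lit 76) (nat_lit 1670105882) (nat_lit 29) (nat_lit 5) (nat_lit 32) (nat_lit 5) (nat_lit 30) (nat_lit 5) (nat_lit 344) (nat_lit 266) (nat_lit 170)))) (XT.nd (nat_lit 78) (nat_lit 76) (nat_lit 0) (XT.lf (nat_lit 0) (nat_lit 3829840114) (nat_lit 152) (nat_lit 16894457169) (nat_lit 228) (nat_lit 2327373139) (nat_lit 27) (nat_lit 5) (nat_lit 29) (nat_lit 5) (nat_lit 30) (nat_lit 5) (nat_lit 345) (nat_lit 266) (nat_lit 169)) (XT.nd (nat_lit 78) (nat_lit 0) (nat_lit 0) (XT.lf (nat_lit 0) (nat_lit 563812588) (nat_lit 228) (nat_lit 12219404169) (nat_lit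 76) (nat_lit 10811759267) (nat_lit 26) (nat_lit 5) (nat_lit 29) (nat_lit 5) (nat_lit 27) (nat_lit 5) (nat_lit 346) (nat_lit 266) (nat_lit 168)) (XT.lf (nat_lit 0) (nat_lit 3480888777) (nat_lit 228) (nat_lit 5051961576) (nat_lit 76) (nat_lit 15621481178) (nat_lit 26) (nat_lit 5) (nat_lit 29) (nat_lit 5) (nat_lit 27) (nat_lit 5) (nat_lit 347) (nat_lit 266) (nat_lit 167)))))) (XT.nd (nat_lit 390) (nat_lit 228) (nat_lit 0) (XT.nd (nat_lit 156) (nat_lit 152) (nat_lit 0) (XT.nd (nat_lit 78) (nat_lit 0) (nat_lit 0) (XT.lf (nat_lit 0) (nat_lit 2355088684) (nat_lit 152) (nat_lit 4139369632) (nat_lit 228) (nat_lit 18235759390) (nat_lit 24) (nat_lit 5) (nat_lit 26) (nat_lit 5) (nat_lit 27) (nat_lit 5) (nat_lit 348) (nat_lit 266) (nat_lit 166)) (XT.lf (nat_lit 0) (nat_lit 9640127468) (nat_lit 228) (nat_lit 15259665161) (nat_lit 76) (nat_lit 422355930) (nat_lit 24) (nat_lit 5) (nat_lit 27) (nat_lit 5) (nat_lit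 25) (nat_lit 5) (nat_lit 349) (nat_lit 266) (nat_lit 165))) (XT.nd (nat_lit 78) (nat_lit 152) (nat_lit 0) (XT.lf (nat_lit 0) (nat_lit 12908007703) (nat_lit 228) (nat_lit 7992605804) (nat_lit 76) (nat_lit 5030406919) (nat_lit 24) (nat_lit 5) (nat_lit 27) (nat_lit 5) (nat_lit 25) (nat_lit 5) (nat_lit 350) (nat_lit 266) (nat_lit 164)) (XT.nd (nat_lit 78) (nat_lit 152) (nat_lit 0) (XT.lf (nat_lit 0) (nat_lit 16261164298) (nat_lit 228) (nat_lit 527810941) (nat_lit 76) (nat_lit 9769583798) (nat_lit 24) (nat_lit 5) (nat_lit 27) (nat_lit 5) (nat_lit 25) (nat_lit 5) (nat_lit 351) (nat_lit 266) (nat_lit 163)) (XT.lf (nat_lit 0) (nat_lit 7283366783) (nat_lit 152) (nat_lit 12489172590) (nat_lit 228) (nat_lit 7430672988) (nat_lit 22) (nat_lit 5) (nat_lit 24) (nat_lit 5) (nat_lit 25) (nat_lit 5) (nat_lit 352) (nat_lit 266) (nat_lit 162))))) (XT.nd (nat_lit 234) (nat_lit 0) (nat_lit 0) (XT.nd (nat_lit 78)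 (nat_lit 228) (nat_lit 0) (XT.lf (nat_lit 0) (nat_lit 15320206741) (nat_lit 152) (nat_lit 8062163872) (nat_lit 228) (nat_lit 4485057989) (nat_lit 22) (nat_lit 5) (nat_lit 24) (nat_lit 5) (nat_lit 25) (nat_lit 5) (nat_lit 353) (nat_lit 266) (nat_lit 161)) (XT.nd (nat_lit 78) (nat_lit 228) (nat_lit 0) (XT.lf (nat_lit 0) (nat_lit 23579226940) (nat_lit 152) (nat_lit 3509410681) (nat_lit 228) (nat_lit 1463305761) (nat_lit 22) (nat_lit 5) (nat_lit 24) (nat_lit 5) (nat_lit 25) (nat_lit 5) (nat_lit 354) (nat_lit 266) (nat_lit 160)) (XT.lf (nat_lit 0) (nat_lit 1644376787) (nat_lit 228) (nat_lit 26417595833) (nat_lit 76) (nat_lit 1193737035) (nat_lit 19) (nat_lit 5) (nat_lit 22) (nat_lit 5) (nat_lit 20) (nat_lit 5) (nat_lit 355) (nat_lit 266) (nat_lit 159)))) (XT.nd (nat_lit 78) (nat_lit 0) (nat_lit 0) (XT.lf (nat_lit 0) (nat_lit 4889789080) (nat_lit 228) (nat_lit 19062340374) (nat_lit 76) (nat_lit 6025822404)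 (nat_lit 19) (nat_lit 5) (nat_lit 22) (nat_lit 5) (nat_lit 20) (nat_lit 5) (nat_lit 356) (nat_lit 266) (nat_lit 158)) (XT.nd (nat_lit 78) (nat_lit 0) (nat_lit 0) (XT.lf (nat_lit 0) (nat_lit 8221351861) (nat_lit 228) (nat_lit 11504612413) (nat_lit 76) (nat_lit 10996247871) (nat_lit 19) (nat_lit 5) (nat_lit 22) (nat_lit 5) (nat_lit 20) (nat_lit 5) (nat_lit 357) (nat_lit 266) (nat_lit 157)) (XT.lf (nat_lit 0) (nat_lit 11641976203) (nat_lit 228) (nat_lit 3737808110) (nat_lit 76) (nat_lit 16109356528) (nat_lit 19) (nat_lit 5) (nat_lit 22) (nat_lit 5) (nat_lit 20) (nat_lit 5) (nat_lit 358) (nat_lit 266) (nat_lit 156))))))) (XT.nd (nat_lit 858) (nat_lit 304) (nat_lit 0) (XT.nd (nat_lit 390) (nat_lit 228) (nat_lit 0) (XT.nd (nat_lit 156) (nat_lit 76) (nat_lit 0) (XT.nd (nat_lit 78) (nat_lit 0) (nat_lit 0) (XT.lf (nat_lit 0) (nat_lit 4329340081) (nat_lit 152) (nat_lit 10866927186) (nat_lit 228) (nat_lit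 17081892323) (nat_lit 17) (nat_lit 5) (nat_lit 19) (nat_lit 5) (nat_lit 20) (nat_lit 5) (nat_lit 359) (nat_lit 266) (nat_lit 155)) (XT.lf (nat_lit 0) (nat_lit 12698150913) (nat_lit 152) (nat_lit 6186357066) (nat_lit 228) (nat_lit 14205534528) (nat_lit 17) (nat_lit 5) (nat_lit 19) (nat_lit 5) (nat_lit 20) (nat_lit 5) (nat_lit 360) (nat_lit 266) (nat_lit 154))) (XT.nd (nat_lit 78) (nat_lit 76) (nat_lit 0) (XT.lf (nat_lit 0) (nat_lit 21301547228) (nat_lit 152) (nat_lit 1371728668) (nat_lit 228) (nat_lit 11253322465) (nat_lit 17) (nat_lit 5) (nat_lit 19) (nat_lit 5) (nat_lit 20) (nat_lit 5) (nat_lit 361) (nat_lit 266) (nat_lit 153)) (XT.nd (nat_lit 78) (nat_lit 76) (nat_lit 0) (XT.lf (nat_lit 0) (nat_lit 26600305942) (nat_lit 228) (nat_lit 4675935916) (nat_lit 76) (nat_lit 3511283536) (nat_lit 17) (nat_lit 5) (nat_lit 20) (nat_lit 5) (nat_lit 18) (nat_lit 4) (nat_lit 362) (nat_lit 266) (nat_lit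 152)) (XT.lf (nat_lit 0) (nat_lit 3551602282) (nat_lit 76) (nat_lit 27131669551) (nat_lit 152) (nat_lit 4989876767) (nat_lit 16) (nat_lit 5) (nat_lit 17) (nat_lit 5) (nat_lit 18) (nat_lit 4) (nat_lit 363) (nat_lit 266) (nat_lit 151))))) (XT.nd (nat_lit 234) (nat_lit 152) (nat_lit 0) (XT.nd (nat_lit 78) (nat_lit 76) (nat_lit 0) (XT.lf (nat_lit 0) (nat_lit 12106199814) (nat_lit 76) (nat_lit 22820277345) (nat_lit 152) (nat_lit 1657742588) (nat_lit 16) (nat_lit 5) (nat_lit 17) (nat_lit 5) (nat_lit 18) (nat_lit 4) (nat_lit 364) (nat_lit 266) (nat_lit 150)) (XT.nd (nat_lit 78) (nat_lit 0) (nat_lit 0) (XT.lf (nat_lit 0) (nat_lit 1730437771) (nat_lit 152) (nat_lit 16637603990) (nat_lit 76) (nat_lit 19154359478) (nat_lit 15) (nat_lit 5) (nat_lit 17) (nat_lit 5) (nat_lit 16) (nat_lit 5) (nat_lit 365) (nat_lit 266) (nat_lit 149)) (XT.lf (nat_lit 0) (nat_lit 5177921473) (nat_lit 152) (nat_lit 8593301524)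 (nat_lit 76) (nat_lit 24717294234) (nat_lit 15) (nat_lit 5) (nat_lit 17) (nat_lit 5) (nat_lit 16) (nat_lit 5) (nat_lit 366) (nat_lit 266) (nat_lit 148)))) (XT.nd (nat_lit 78) (nat_lit 152) (nat_lit 0) (XT.lf (nat_lit 0) (nat_lit 8720069410) (nat_lit 152) (nat_lit 322148297) (nat_lit 76) (nat_lit 30441672252) (nat_lit 15) (nat_lit 5) (nat_lit 17) (nat_lit 5) (nat_lit 16) (nat_lit 5) (nat_lit 367) (nat_lit 266) (nat_lit 147)) (XT.nd (nat_lit 78) (nat_lit 0) (nat_lit 0) (XT.lf (nat_lit 0) (nat_lit 8345942306) (nat_lit 152) (nat_lit 4094260659) (nat_lit 228) (nat_lit 28066779410) (nat_lit 13) (nat_lit 5) (nat_lit 15) (nat_lit 5) (nat_lit 16) (nat_lit 5) (nat_lit 368) (nat_lit 266) (nat_lit 146)) (XT.lf (nat_lit 0) (nat_lit 16276414609) (nat_lit 228) (nat_lit 24303783217) (nat_lit 76) (nat_lit 980445364) (nat_lit 13) (nat_lit 5) (nat_lit 16) (nat_lit 5) (nat_lit 14) (nat_lit 4) (nat_lit 369) (nat_lit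 266) (nat_lit 145)))))) (XT.nd (nat_lit 468) (nat_lit 228) (nat_lit 0) (XT.nd (nat_lit 234) (nat_lit 0) (nat_lit 0) (XT.nd (nat_lit 78) (nat_lit 76) (nat_lit 0) (XT.lf (nat_lit 0) (nat_lit 20260051455) (nat_lit 228) (nat_lit 16265061674) (nat_lit 76) (nat_lit 6119840095) (nat_lit 13) (nat_lit 5) (nat_lit 16) (nat_lit 5) (nat_lit 14) (nat_lit 4) (nat_lit 370) (nat_lit 266) (nat_lit 144)) (XT.nd (nat_lit 78) (nat_lit 76) (nat_lit 0) (XT.lf (nat_lit 0) (nat_lit 24355237815) (nat_lit 228) (nat_lit 7998494775) (nat_lit 76) (nat_lit 11408308039) (nat_lit 13) (nat_lit 5) (nat_lit 16) (nat_lit 5) (nat_lit 14) (nat_lit 4) (nat_lit 371) (nat_lit 266) (nat_lit 143)) (XT.lf (nat_lit 0) (nat_lit 513154178) (nat_lit 76) (nat_lit 28057330581) (nat_lit 152) (nat_lit 16342248760) (nat_lit 12) (nat_lit 5) (nat_lit 13) (nat_lit 5) (nat_lit 14) (nat_lit 4) (nat_lit 372) (nat_lit 266) (nat_lit 142)))) (XT.nd (nat_lit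 78) (nat_lit 0) (nat_lit 0) (XT.lf (nat_lit 0) (nat_lit 9431312213) (nat_lit 76) (nat_lit 23554020276) (nat_lit 152) (nat_lit 13110429155) (nat_lit 12) (nat_lit 5) (nat_lit 13) (nat_lit 5) (nat_lit 14) (nat_lit 4) (nat_lit 373) (nat_lit 266) (nat_lit 141)) (XT.nd (nat_lit 78) (nat_lit 0) (nat_lit 0) (XT.lf (nat_lit 0) (nat_lit 18604586165) (nat_lit 76) (nat_lit 18920635858) (nat_lit 152) (nat_lit 9789289192) (nat_lit 12) (nat_lit 5) (nat_lit 13) (nat_lit 5) (nat_lit 14) (nat_lit 4) (nat_lit 374) (nat_lit 266) (nat_lit 140)) (XT.lf (nat_lit 0) (nat_lit 28040991516) (nat_lit 76) (nat_lit 14153128739) (nat_lit 152) (nat_lit 6375926905) (nat_lit 12) (nat_lit 5) (nat_lit 13) (nat_lit 5) (nat_lit 14) (nat_lit 4) (nat_lit 375) (nat_lit 266) (nat_lit 139))))) (XT.nd (nat_lit 234) (nat_lit 0) (nat_lit 0) (XT.nd (nat_lit 78) (nat_lit 228) (nat_lit 0) (XT.lf (nat_lit 0) (nat_lit 37748773669) (nat_lit 76)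 (nat_lit 9247333136) (nat_lit 152) (nat_lit 2867359744) (nat_lit 12) (nat_lit 5) (nat_lit 13) (nat_lit 5) (nat_lit 14) (nat_lit 4) (nat_lit 376) (nat_lit 266) (nat_lit 138)) (XT.nd (nat_lit 78) (nat_lit 152) (nat_lit 0) (XT.lf (nat_lit 0) (nat_lit 725048148) (nat_lit 152) (nat_lit 3466592719) (nat_lit 76) (nat_lit 47004045440) (nat_lit 11) (nat_lit 5) (nat_lit 13) (nat_lit 5) (nat_lit 12) (nat_lit 5) (nat_lit 377) (nat_lit 266) (nat_lit 137)) (XT.lf (nat_lit 0) (nat_lit 4424426886) (nat_lit 228) (nat_lit 47067288510) (nat_lit 76) (nat_lit 1073608005) (nat_lit 9) (nat_lit 5) (nat_lit 12) (nat_lit 5) (nat_lit 10) (nat_lit 4) (nat_lit 378) (nat_lit 266) (nat_lit 136)))) (XT.nd (nat_lit 78) (nat_lit 0) (nat_lit 0) (XT.lf (nat_lit 0) (nat_lit 8305034124) (nat_lit 228) (nat_lit 39225417905) (nat_lit 76) (nat_lit 6443497280) (nat_lit 9) (nat_lit 5) (nat_lit 12) (nat_lit 5) (nat_lit 10) (nat_lit 4)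 (nat_lit 379) (nat_lit 266) (nat_lit 135)) (XT.nd (nat_lit 78) (nat_lit 0) (nat_lit 0) (XT.lf (nat_lit 0) (nat_lit 12295645366) (nat_lit 228) (nat_lit 31159197557) (nat_lit 76) (nat_lit 11970190405) (nat_lit 9) (nat_lit 5) (nat_lit 12) (nat_lit 5) (nat_lit 10) (nat_lit 4) (nat_lit 380) (nat_lit 266) (nat_lit 134)) (XT.lf (nat_lit 0) (nat_lit 16399747553) (nat_lit 228) (nat_lit 22861579313) (nat_lit 76) (nat_lit 17658516528) (nat_lit 9) (nat_lit 5) (nat_lit 12) (nat_lit 5) (nat_lit 10) (nat_lit 4) (nat_lit 381) (nat_lit 266) (nat_lit 133))))))))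
noncomputable def xc131 : XT := (XT.nd (nat_lit 32370) (nat_lit 0) (nat_lit 8056) (XT.nd (nat_lit 858) (nat_lit 76) (nat_lit 0) (XT.nd (nat_lit 390) (nat_lit 76) (nat_lit 0) (XT.nd (nat_lit 156) (nat_lit 76) (nat_lit 0) (XT.nd (nat_lit 78) (nat_lit 0) (nat_lit 0) (XT.lf (nat_lit 0) (nat_lit 20620926796) (nat_lit 228) (nat_lit 14325312827) (nat_lit 76) (nat_lit 23513446031) (nat_lit 9) (nat_lit 5) (nat_lit 12) (nat_lit 5) (nat_lit 10) (nat_lit 4) (nat_lit 382) (nat_lit 266) (nat_lit 132)) (XT.lf (nat_lit 0) (nat_lit 24962871502) (nat_lit 228) (nat_lit 5542939224) (nat_lit 76) (nat_lit 29540094872) (nat_lit 9) (nat_lit 5) (nat_lit 12) (nat_lit 5) (nat_lit 10) (nat_lit 4) (nat_lit 383) (nat_lit 266) (nat_lit 131))) (XT.nd (nat_lit 78) (nat_lit 0) (nat_lit 0) (XT.lf (nat_lit 0) (nat_lit 3562737248) (nat_lit 76) (nat_lit 25900885566) (nat_lit 152) (nat_lit 32215239017) (nat_lit 8) (nat_lit 5) (nat_lit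 9) (nat_lit 5) (nat_lit 10) (nat_lit 4) (nat_lit 384) (nat_lit 266) (nat_lit 130)) (XT.nd (nat_lit 78) (nat_lit 0) (nat_lit 0) (XT.lf (nat_lit 0) (nat_lit 13045613664) (nat_lit 76) (nat_lit 21104130628) (nat_lit 152) (nat_lit 29209557987) (nat_lit 8) (nat_lit 5) (nat_lit 9) (nat_lit 5) (nat_lit 10) (nat_lit 4) (nat_lit 385) (nat_lit 266) (nat_lit 129)) (XT.lf (nat_lit 0) (nat_lit 22803660672) (nat_lit 76) (nat_lit 16167327393) (nat_lit 152) (nat_lit 26119337502) (nat_lit 8) (nat_lit 5) (nat_lit 9) (nat_lit 5) (nat_lit 10) (nat_lit 4) (nat_lit 386) (nat_lit 266) (nat_lit 128))))) (XT.nd (nat_lit 234) (nat_lit 76) (nat_lit 0) (XT.nd (nat_lit 78) (nat_lit 0) (nat_lit 0) (XT.lf (nat_lit 0) (nat_lit 32845404720) (nat_lit 76) (nat_lit 11086162147) (nat_lit 152) (nat_lit 22941877369) (nat_lit 8) (nat_lit 5) (nat_lit 9) (nat_lit 5) (nat_lit 10) (nat_lit 4) (nat_lit 387) (nat_lit 266) (nat_lit 127))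 (XT.nd (nat_lit 78) (nat_lit 0) (nat_lit 0) (XT.lf (nat_lit 0) (nat_lit 43179620148) (nat_lit 76) (nat_lit 5856195039) (nat_lit 152) (nat_lit 19674401167) (nat_lit 8) (nat_lit 5) (nat_lit 9) (nat_lit 5) (nat_lit 10) (nat_lit 4) (nat_lit 388) (nat_lit 266) (nat_lit 126)) (XT.lf (nat_lit 0) (nat_lit 53815336854) (nat_lit 76) (nat_lit 472856194) (nat_lit 152) (nat_lit 16314053818) (nat_lit 8) (nat_lit 5) (nat_lit 9) (nat_lit 5) (nat_lit 10) (nat_lit 4) (nat_lit 389) (nat_lit 266) (nat_lit 125)))) (XT.nd (nat_lit 78) (nat_lit 76) (nat_lit 0) (XT.lf (nat_lit 0) (nat_lit 59742011989) (nat_lit 152) (nat_lit 7838062905) (nat_lit 0) (nat_lit 4969652447) (nat_lit 8) (nat_lit 5) (nat_lit 10) (nat_lit 4) (nat_lit 8) (nat_lit 4) (nat_lit 390) (nat_lit 266) (nat_lit 124)) (XT.nd (nat_lit 78) (nat_lit 0) (nat_lit 0) (XT.lf (nat_lit 0) (nat_lit 1393612096) (nat_lit 76) (nat_lit 63979168428) (nat_lit 76) (nat_lit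 9182456645) (nat_lit 7) (nat_lit 4) (nat_lit 8) (nat_lit 5) (nat_lit 8) (nat_lit 4) (nat_lit 391) (nat_lit 266) (nat_lit 123)) (XT.lf (nat_lit 0) (nat_lit 11054839692) (nat_lit 76) (nat_lit 60192099090) (nat_lit 76) (nat_lit 5371744354) (nat_lit 7) (nat_lit 4) (nat_lit 8) (nat_lit 5) (nat_lit 8) (nat_lit 4) (nat_lit 392) (nat_lit 266) (nat_lit 122)))))) (XT.nd (nat_lit 31044) (nat_lit 0) (nat_lit 15808) (XT.nd (nat_lit 30810) (nat_lit 0) (nat_lit 16872) (XT.nd (nat_lit 78) (nat_lit 76) (nat_lit 0) (XT.lf (nat_lit 0) (nat_lit 20998068911) (nat_lit 76) (nat_lit 56294706857) (nat_lit 76) (nat_lit 1451397798) (nat_lit 7) (nat_lit 4) (nat_lit 8) (nat_lit 5) (nat_lit 8) (nat_lit 4) (nat_lit 393) (nat_lit 266) (nat_lit 121)) (XT.nd (nat_lit 78) (nat_lit 0) (nat_lit 0) (XT.lf (nat_lit 0) (nat_lit 2531624280) (nat_lit 152) (nat_lit 49726397519) (nat_lit 76) (nat_lit 28674799289) (nat_lit 6) (nat_lit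 5) (nat_lit 8) (nat_lit 5) (nat_lit 7) (nat_lit 4) (nat_lit 394) (nat_lit 266) (nat_lit 120)) (XT.lf (nat_lit 0) (nat_lit 6600633530) (nat_lit 152) (nat_lit 41487945392) (nat_lit 76) (nat_lit 35098252264) (nat_lit 6) (nat_lit 5) (nat_lit 8) (nat_lit 5) (nat_lit 7) (nat_lit 4) (nat_lit 395) (nat_lit 266) (nat_lit 119)))) (XT.nd (nat_lit 78) (nat_lit 0) (nat_lit 0) (XT.lf (nat_lit 0) (nat_lit 342043596) (nat_lit 532) (nat_lit 1494617521) (nat_lit 532) (nat_lit 1494617521) (nat_lit 228) (nat_lit 3) (nat_lit 235) (nat_lit 3) (nat_lit 235) (nat_lit 5) (nat_lit 267) (nat_lit 267) (nat_lit 246)) (XT.nd (nat_lit 78) (nat_lit 0) (nat_lit 0) (XT.lf (nat_lit 0) (nat_lit 2671419058) (nat_lit 532) (nat_lit 159154632) (nat_lit 532) (nat_lit 3864828001) (nat_lit 228) (nat_lit 3) (nat_lit 235) (nat_lit 3) (nat_lit 235) (nat_lit 5) (nat_lit 268) (nat_lit 267) (nat_lit 245)) (XT.lf (nat_lit 76) (nat_lit 2769991692)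 (nat_lit 0) (nat_lit 1897846506) (nat_lit 532) (nat_lit 2063212922) (nat_lit 229) (nat_lit 5) (nat_lit 228) (nat_lit 3) (nat_lit 235) (nat_lit 5) (nat_lit 269) (nat_lit 267) (nat_lit 244))))) (XT.nd (nat_lit 234) (nat_lit 608) (nat_lit 0) (XT.nd (nat_lit 78) (nat_lit 456) (nat_lit 0) (XT.lf (nat_lit 76) (nat_lit 5750776978) (nat_lit 0) (nat_lit 899688236) (nat_lit 532) (nat_lit 119810215) (nat_lit 229) (nat_lit 5) (nat_lit 228) (nat_lit 3) (nat_lit 235) (nat_lit 5) (nat_lit 270) (nat_lit 267) (nat_lit 243)) (XT.nd (nat_lit 78) (nat_lit 0) (nat_lit 0) (XT.lf (nat_lit 0) (nat_lit 1792136993) (nat_lit 532) (nat_lit 4823020326) (nat_lit 608) (nat_lit 196845433) (nat_lit 222) (nat_lit 5) (nat_lit 229) (nat_lit 5) (nat_lit 230) (nat_lit 5) (nat_lit 271) (nat_lit 267) (nat_lit 242)) (XT.lf (nat_lit 0) (nat_lit 3706326125) (nat_lit 532) (nat_lit 1798712876) (nat_lit 608) (nat_lit 1351758397) (nat_lit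 222) (nat_lit 5) (nat_lit 229) (nat_lit 5) (nat_lit 230) (nat_lit 5) (nat_lit 272) (nat_lit 267) (nat_lit 241)))) (XT.nd (nat_lit 78) (nat_lit 608) (nat_lit 0) (XT.lf (nat_lit 76) (nat_lit 1300477193) (nat_lit 0) (nat_lit 4320049091) (nat_lit 608) (nat_lit 1284394014) (nat_lit 223) (nat_lit 5) (nat_lit 222) (nat_lit 5) (nat_lit 230) (nat_lit 5) (nat_lit 273) (nat_lit 267) (nat_lit 240)) (XT.nd (nat_lit 78) (nat_lit 0) (nat_lit 0) (XT.lf (nat_lit 0) (nat_lit 574368746) (nat_lit 608) (nat_lit 2473180173) (nat_lit 684) (nat_lit 3908526626) (nat_lit 214) (nat_lit 5) (nat_lit 222) (nat_lit 5) (nat_lit 223) (nat_lit 5) (nat_lit 274) (nat_lit 267) (nat_lit 239)) (XT.lf (nat_lit 76) (nat_lit 711990045) (nat_lit 0) (nat_lit 1690751854) (nat_lit 684) (nat_lit 4607691917) (nat_lit 215) (nat_lit 5) (nat_lit 214) (nat_lit 5) (nat_lit 223) (nat_lit 5) (nat_lit 275) (nat_lit 267) (nat_lit 238))))))) (XT.nd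 (nat_lit 858) (nat_lit 4864) (nat_lit 0) (XT.nd (nat_lit 390) (nat_lit 2280) (nat_lit 0) (XT.nd (nat_lit 156) (nat_lit 608) (nat_lit 0) (XT.nd (nat_lit 78) (nat_lit 0) (nat_lit 76) (XT.lf (nat_lit 76) (nat_lit 4002609813) (nat_lit 0) (nat_lit 242713693) (nat_lit 684) (nat_lit 2822551373) (nat_lit 215) (nat_lit 5) (nat_lit 214) (nat_lit 5) (nat_lit 223) (nat_lit 5) (nat_lit 276) (nat_lit 267) (nat_lit 237)) (XT.lf (nat_lit 76) (nat_lit 215119235) (nat_lit 0) (nat_lit 5878660827) (nat_lit 684) (nat_lit 1034967172) (nat_lit 216) (nat_lit 5) (nat_lit 215) (nat_lit 5) (nat_lit 224) (nat_lit 5) (nat_lit 277) (nat_lit 267) (nat_lit 236))) (XT.nd (nat_lit 78) (nat_lit 0) (nat_lit 0) (XT.lf (nat_lit 0) (nat_lit 761320219) (nat_lit 684) (nat_lit 3587262805) (nat_lit 760) (nat_lit 2843718991) (nat_lit 206) (nat_lit 5) (nat_lit 215) (nat_lit 5) (nat_lit 216) (nat_lit 5) (nat_lit 278) (nat_lit 267) (nat_lit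 235)) (XT.nd (nat_lit 78) (nat_lit 0) (nat_lit 0) (XT.lf (nat_lit 0) (nat_lit 2529670787) (nat_lit 684) (nat_lit 213136327) (nat_lit 760) (nat_lit 4516686424) (nat_lit 206) (nat_lit 5) (nat_lit 215) (nat_lit 5) (nat_lit 216) (nat_lit 5) (nat_lit 279) (nat_lit 267) (nat_lit 234)) (XT.lf (nat_lit 76) (nat_lit 3285765557) (nat_lit 0) (nat_lit 1037644861) (nat_lit 760) (nat_lit 3006321018) (nat_lit 207) (nat_lit 5) (nat_lit 206) (nat_lit 5) (nat_lit 216) (nat_lit 5) (nat_lit 280) (nat_lit 267) (nat_lit 233))))) (XT.nd (nat_lit 234) (nat_lit 1596) (nat_lit 0) (XT.nd (nat_lit 78) (nat_lit 760) (nat_lit 0) (XT.lf (nat_lit 0) (nat_lit 6122307900) (nat_lit 684) (nat_lit 557208406) (nat_lit 76) (nat_lit 724214729) (nat_lit 207) (nat_lit 5) (nat_lit 216) (nat_lit 5) (nat_lit 208) (nat_lit 5) (nat_lit 281) (nat_lit 267) (nat_lit 232)) (XT.nd (nat_lit 78) (nat_lit 0) (nat_lit 0) (XT.lf (nat_lit 0) (nat_lit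 468671465) (nat_lit 760) (nat_lit 4443027684) (nat_lit 76) (nat_lit 2568799008) (nat_lit 197) (nat_lit 5) (nat_lit 207) (nat_lit 5) (nat_lit 198) (nat_lit 5) (nat_lit 282) (nat_lit 267) (nat_lit 231)) (XT.lf (nat_lit 0) (nat_lit 2195660577) (nat_lit 760) (nat_lit 862651207) (nat_lit 76) (nat_lit 4502549870) (nat_lit 197) (nat_lit 5) (nat_lit 207) (nat_lit 5) (nat_lit 198) (nat_lit 5) (nat_lit 283) (nat_lit 267) (nat_lit 230)))) (XT.nd (nat_lit 78) (nat_lit 836) (nat_lit 0) (XT.lf (nat_lit 0) (nat_lit 2839852712) (nat_lit 760) (nat_lit 1107987174) (nat_lit 836) (nat_lit 3696767954) (nat_lit 187) (nat_lit 5) (nat_lit 197) (nat_lit 5) (nat_lit 198) (nat_lit 5) (nat_lit 284) (nat_lit 267) (nat_lit 229)) (XT.nd (nat_lit 78) (nat_lit 836) (nat_lit 0) (XT.lf (nat_lit 0) (nat_lit 5717426080) (nat_lit 836) (nat_lit 1110405881) (nat_lit 76) (nat_lit 904257356) (nat_lit 187) (nat_lit 5) (nat_lit 198) (nat_lit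 5) (nat_lit 188) (nat_lit 5) (nat_lit 285) (nat_lit 267) (nat_lit 228)) (XT.lf (nat_lit 0) (nat_lit 2695459748) (nat_lit 836) (nat_lit 4830437852) (nat_lit 912) (nat_lit 296886962) (nat_lit 176) (nat_lit 5) (nat_lit 187) (nat_lit 5) (nat_lit 188) (nat_lit 5) (nat_lit 286) (nat_lit 267) (nat_lit 227)))))) (XT.nd (nat_lit 468) (nat_lit 1748) (nat_lit 0) (XT.nd (nat_lit 234) (nat_lit 2128) (nat_lit 0) (XT.nd (nat_lit 78) (nat_lit 912) (nat_lit 0) (XT.lf (nat_lit 0) (nat_lit 1404379279) (nat_lit 912) (nat_lit 1333567825) (nat_lit 76) (nat_lit 5179162162) (nat_lit 175) (nat_lit 5) (nat_lit 187) (nat_lit 5) (nat_lit 176) (nat_lit 5) (nat_lit 287) (nat_lit 267) (nat_lit 226)) (XT.nd (nat_lit 78) (nat_lit 0) (nat_lit 0) (XT.lf (nat_lit 0) (nat_lit 2580938148) (nat_lit 912) (nat_lit 545427593) (nat_lit 988) (nat_lit 4888689706) (nat_lit 163) (nat_lit 5) (nat_lit 175) (nat_lit 5) (nat_lit 176) (nat_lit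 5) (nat_lit 288) (nat_lit 267) (nat_lit 225)) (XT.lf (nat_lit 0) (nat_lit 4882040085) (nat_lit 988) (nat_lit 1533674645) (nat_lit 76) (nat_lit 1700909484) (nat_lit 163) (nat_lit 5) (nat_lit 176) (nat_lit 5) (nat_lit 164) (nat_lit 5) (nat_lit 289) (nat_lit 267) (nat_lit 224)))) (XT.nd (nat_lit 78) (nat_lit 1140) (nat_lit 0) (XT.lf (nat_lit 0) (nat_lit 2486358736) (nat_lit 988) (nat_lit 4186689129) (nat_lit 1064) (nat_lit 1548853111) (nat_lit 150) (nat_lit 5) (nat_lit 163) (nat_lit 5) (nat_lit 164) (nat_lit 5) (nat_lit 290) (nat_lit 267) (nat_lit 223)) (XT.nd (nat_lit 78) (nat_lit 1064) (nat_lit 0) (XT.lf (nat_lit 0) (nat_lit 153181305) (nat_lit 1064) (nat_lit 1714590573) (nat_lit 76) (nat_lit 6463561167) (nat_lit 149) (nat_lit 5) (nat_lit 163) (nat_lit 5) (nat_lit 150) (nat_lit 5) (nat_lit 291) (nat_lit 267) (nat_lit 222)) (XT.lf (nat_lit 0) (nat_lit 1858928496) (nat_lit 1140) (nat_lit 6030941982)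 (nat_lit 76) (nat_lit 554332954) (nat_lit 135) (nat_lit 5) (nat_lit 150) (nat_lit 5) (nat_lit 136) (nat_lit 5) (nat_lit 292) (nat_lit 267) (nat_lit 221))))) (XT.nd (nat_lit 234) (nat_lit 1140) (nat_lit 0) (XT.nd (nat_lit 78) (nat_lit 608) (nat_lit 0) (XT.lf (nat_lit 0) (nat_lit 3607891510) (nat_lit 1140) (nat_lit 1919598604) (nat_lit 76) (nat_lit 3033333636) (nat_lit 135) (nat_lit 5) (nat_lit 150) (nat_lit 5) (nat_lit 136) (nat_lit 5) (nat_lit 293) (nat_lit 267) (nat_lit 220)) (XT.nd (nat_lit 78) (nat_lit 0) (nat_lit 0) (XT.lf (nat_lit 0) (nat_lit 2320472316) (nat_lit 608) (nat_lit 3068501741) (nat_lit 684) (nat_lit 3292700579) (nat_lit 127) (nat_lit 5) (nat_lit 135) (nat_lit 5) (nat_lit 136) (nat_lit 5) (nat_lit 294) (nat_lit 267) (nat_lit 219)) (XT.lf (nat_lit 0) (nat_lit 6687592836) (nat_lit 608) (nat_lit 513487932) (nat_lit 684) (nat_lit 1605860469) (nat_lit 127) (nat_lit 5) (nat_lit 135)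 (nat_lit 5) (nat_lit 136) (nat_lit 5) (nat_lit 295) (nat_lit 267) (nat_lit 218)))) (XT.nd (nat_lit 78) (nat_lit 532) (nat_lit 0) (XT.lf (nat_lit 0) (nat_lit 130192440) (nat_lit 608) (nat_lit 6704044334) (nat_lit 76) (nat_lit 2101767025) (nat_lit 119) (nat_lit 5) (nat_lit 127) (nat_lit 5) (nat_lit 120) (nat_lit 5) (nat_lit 296) (nat_lit 267) (nat_lit 217)) (XT.nd (nat_lit 78) (nat_lit 532) (nat_lit 0) (XT.lf (nat_lit 0) (nat_lit 1872494746) (nat_lit 608) (nat_lit 2372465388) (nat_lit 76) (nat_lit 4824015727) (nat_lit 119) (nat_lit 5) (nat_lit 127) (nat_lit 5) (nat_lit 120) (nat_lit 5) (nat_lit 297) (nat_lit 267) (nat_lit 216)) (XT.lf (nat_lit 0) (nat_lit 2090806915) (nat_lit 532) (nat_lit 1557276562) (nat_lit 608) (nat_lit 5558527875) (nat_lit 112) (nat_lit 5) (nat_lit 119) (nat_lit 5) (nat_lit 120) (nat_lit 5) (nat_lit 298) (nat_lit 267) (nat_lit 215))))))))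
noncomputable def xc132 : XT := (XT.nd (nat_lit 1716) (nat_lit 2204) (nat_lit 0) (XT.nd (nat_lit 858) (nat_lit 1824) (nat_lit 0) (XT.nd (nat_lit 390) (nat_lit 1292) (nat_lit 0) (XT.nd (nat_lit 156) (nat_lit 532) (nat_lit 0) (XT.nd (nat_lit 78) (nat_lit 456) (nat_lit 0) (XT.lf (nat_lit 0) (nat_lit 5474457923) (nat_lit 608) (nat_lit 2662843070) (nat_lit 76) (nat_lit 1211251108) (nat_lit 112) (nat_lit 5) (nat_lit 120) (nat_lit 5) (nat_lit 113) (nat_lit 5) (nat_lit 299) (nat_lit 267) (nat_lit 214)) (XT.lf (nat_lit 0) (nat_lit 1906740547) (nat_lit 456) (nat_lit 5445428808) (nat_lit 532) (nat_lit 2142784117) (nat_lit 106) (nat_lit 5) (nat_lit 112) (nat_lit 5) (nat_lit 113) (nat_lit 5) (nat_lit 300) (nat_lit 267) (nat_lit 213))) (XT.nd (nat_lit 78) (nat_lit 532) (nat_lit 0) (XT.lf (nat_lit 0) (nat_lit 6629621914) (nat_lit 456) (nat_lit 2646992781) (nat_lit 532) (nat_lit 369516008) (nat_lit 106) (nat_lit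 5) (nat_lit 112) (nat_lit 5) (nat_lit 113) (nat_lit 5) (nat_lit 301) (nat_lit 267) (nat_lit 212)) (XT.nd (nat_lit 78) (nat_lit 0) (nat_lit 0) (XT.lf (nat_lit 0) (nat_lit 1411274297) (nat_lit 532) (nat_lit 8131722340) (nat_lit 76) (nat_lit 259034217) (nat_lit 99) (nat_lit 5) (nat_lit 106) (nat_lit 5) (nat_lit 100) (nat_lit 5) (nat_lit 302) (nat_lit 267) (nat_lit 211)) (XT.lf (nat_lit 0) (nat_lit 3259823729) (nat_lit 532) (nat_lit 3471104328) (nat_lit 76) (nat_lit 3231005081) (nat_lit 99) (nat_lit 5) (nat_lit 106) (nat_lit 5) (nat_lit 100) (nat_lit 5) (nat_lit 303) (nat_lit 267) (nat_lit 210))))) (XT.nd (nat_lit 234) (nat_lit 456) (nat_lit 0) (XT.nd (nat_lit 78) (nat_lit 456) (nat_lit 0) (XT.lf (nat_lit 0) (nat_lit 1317361071) (nat_lit 380) (nat_lit 3824949386) (nat_lit 456) (nat_lit 4985052814) (nat_lit 94) (nat_lit 5) (nat_lit 99) (nat_lit 5) (nat_lit 100) (nat_lit 5) (nat_lit 304) (nat_lit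 267) (nat_lit 209)) (XT.nd (nat_lit 78) (nat_lit 456) (nat_lit 0) (XT.lf (nat_lit 0) (nat_lit 6283326447) (nat_lit 380) (nat_lit 799451195) (nat_lit 456) (nat_lit 3215016208) (nat_lit 94) (nat_lit 5) (nat_lit 99) (nat_lit 5) (nat_lit 100) (nat_lit 5) (nat_lit 305) (nat_lit 267) (nat_lit 208)) (XT.lf (nat_lit 0) (nat_lit 882642533) (nat_lit 456) (nat_lit 8196967870) (nat_lit 532) (nat_lit 1393862710) (nat_lit 88) (nat_lit 5) (nat_lit 94) (nat_lit 5) (nat_lit 95) (nat_lit 5) (nat_lit 306) (nat_lit 267) (nat_lit 207)))) (XT.nd (nat_lit 78) (nat_lit 380) (nat_lit 0) (XT.lf (nat_lit 0) (nat_lit 488974466) (nat_lit 532) (nat_lit 4694796726) (nat_lit 76) (nat_lit 5470094688) (nat_lit 87) (nat_lit 5) (nat_lit 94) (nat_lit 5) (nat_lit 88) (nat_lit 5) (nat_lit 307) (nat_lit 267) (nat_lit 206)) (XT.nd (nat_lit 78) (nat_lit 0) (nat_lit 0) (XT.lf (nat_lit 0) (nat_lit 303740469) (nat_lit 380) (nat_lit 2068002708)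 (nat_lit 456) (nat_lit 8468442881) (nat_lit 82) (nat_lit 5) (nat_lit 87) (nat_lit 5) (nat_lit 88) (nat_lit 5) (nat_lit 308) (nat_lit 267) (nat_lit 205)) (XT.lf (nat_lit 0) (nat_lit 4338903065) (nat_lit 456) (nat_lit 5530734498) (nat_lit 76) (nat_lit 1161692389) (nat_lit 82) (nat_lit 5) (nat_lit 88) (nat_lit 5) (nat_lit 83) (nat_lit 5) (nat_lit 309) (nat_lit 267) (nat_lit 204)))))) (XT.nd (nat_lit 390) (nat_lit 1064) (nat_lit 0) (XT.nd (nat_lit 156) (nat_lit 380) (nat_lit 0) (XT.nd (nat_lit 78) (nat_lit 380) (nat_lit 0) (XT.lf (nat_lit 0) (nat_lit 6355514384) (nat_lit 456) (nat_lit 431340688) (nat_lit 76) (nat_lit 4441709270) (nat_lit 82) (nat_lit 5) (nat_lit 88) (nat_lit 5) (nat_lit 83) (nat_lit 5) (nat_lit 310) (nat_lit 267) (nat_lit 203)) (XT.lf (nat_lit 0) (nat_lit 4881322715) (nat_lit 380) (nat_lit 3569059858) (nat_lit 456) (nat_lit 2980867693) (nat_lit 77) (nat_lit 5) (nat_lit 82) (nat_lit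 5) (nat_lit 83) (nat_lit 5) (nat_lit 311) (nat_lit 267) (nat_lit 202))) (XT.nd (nat_lit 78) (nat_lit 380) (nat_lit 0) (XT.lf (nat_lit 0) (nat_lit 10327586464) (nat_lit 380) (nat_lit 256218936) (nat_lit 456) (nat_lit 1057005410) (nat_lit 77) (nat_lit 5) (nat_lit 82) (nat_lit 5) (nat_lit 83) (nat_lit 5) (nat_lit 312) (nat_lit 267) (nat_lit 201)) (XT.nd (nat_lit 78) (nat_lit 0) (nat_lit 0) (XT.lf (nat_lit 0) (nat_lit 948722542) (nat_lit 380) (nat_lit 7769058311) (nat_lit 76) (nat_lit 3137406496) (nat_lit 72) (nat_lit 5) (nat_lit 77) (nat_lit 5) (nat_lit 73) (nat_lit 5) (nat_lit 313) (nat_lit 267) (nat_lit 200)) (XT.lf (nat_lit 0) (nat_lit 2981590460) (nat_lit 380) (nat_lit 2449076848) (nat_lit 76) (nat_lit 6645427287) (nat_lit 72) (nat_lit 5) (nat_lit 77) (nat_lit 5) (nat_lit 73) (nat_lit 5) (nat_lit 314) (nat_lit 267) (nat_lit 199))))) (XT.nd (nat_lit 234) (nat_lit 380) (nat_lit 0) (XT.nd (nat_lit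 78) (nat_lit 304) (nat_lit 0) (XT.lf (nat_lit 0) (nat_lit 3056428695) (nat_lit 380) (nat_lit 2021487030) (nat_lit 456) (nat_lit 7225697212) (nat_lit 67) (nat_lit 5) (nat_lit 72) (nat_lit 5) (nat_lit 73) (nat_lit 5) (nat_lit 315) (nat_lit 267) (nat_lit 198)) (XT.nd (nat_lit 78) (nat_lit 304) (nat_lit 0) (XT.lf (nat_lit 0) (nat_lit 7249916125) (nat_lit 456) (nat_lit 3808648901) (nat_lit 76) (nat_lit 1479064569) (nat_lit 67) (nat_lit 5) (nat_lit 73) (nat_lit 5) (nat_lit 68) (nat_lit 5) (nat_lit 316) (nat_lit 267) (nat_lit 197)) (XT.lf (nat_lit 0) (nat_lit 1774479774) (nat_lit 304) (nat_lit 7723928242) (nat_lit 380) (nat_lit 3279973481) (nat_lit 63) (nat_lit 5) (nat_lit 67) (nat_lit 5) (nat_lit 68) (nat_lit 5) (nat_lit 317) (nat_lit 267) (nat_lit 196)))) (XT.nd (nat_lit 78) (nat_lit 380) (nat_lit 0) (XT.lf (nat_lit 0) (nat_lit 7570326625) (nat_lit 304) (nat_lit 4257181257) (nat_lit 380) (nat_lit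 1198506573) (nat_lit 63) (nat_lit 5) (nat_lit 67) (nat_lit 5) (nat_lit 68) (nat_lit 5) (nat_lit 318) (nat_lit 267) (nat_lit 195)) (XT.nd (nat_lit 78) (nat_lit 0) (nat_lit 0) (XT.lf (nat_lit 0) (nat_lit 221774947) (nat_lit 304) (nat_lit 682449600) (nat_lit 380) (nat_lit 12377311213) (nat_lit 58) (nat_lit 5) (nat_lit 62) (nat_lit 5) (nat_lit 63) (nat_lit 5) (nat_lit 319) (nat_lit 267) (nat_lit 194)) (XT.lf (nat_lit 0) (nat_lit 3105897575) (nat_lit 380) (nat_lit 7435744846) (nat_lit 76) (nat_lit 3000974418) (nat_lit 58) (nat_lit 5) (nat_lit 63) (nat_lit 5) (nat_lit 59) (nat_lit 5) (nat_lit 320) (nat_lit 267) (nat_lit 193))))))) (XT.nd (nat_lit 858) (nat_lit 1140) (nat_lit 0) (XT.nd (nat_lit 390) (nat_lit 456) (nat_lit 0) (XT.nd (nat_lit 156) (nat_lit 380) (nat_lit 0) (XT.nd (nat_lit 78) (nat_lit 228) (nat_lit 0) (XT.lf (nat_lit 0) (nat_lit 5356570242) (nat_lit 380) (nat_lit 1681636811) (nat_lit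 76) (nat_lit 6773881988) (nat_lit 58) (nat_lit 5) (nat_lit 63) (nat_lit 5) (nat_lit 59) (nat_lit 5) (nat_lit 321) (nat_lit 267) (nat_lit 192)) (XT.lf (nat_lit 0) (nat_lit 4298021148) (nat_lit 228) (nat_lit 3394943090) (nat_lit 304) (nat_lit 6396180936) (nat_lit 55) (nat_lit 5) (nat_lit 58) (nat_lit 5) (nat_lit 59) (nat_lit 5) (nat_lit 322) (nat_lit 267) (nat_lit 191))) (XT.nd (nat_lit 78) (nat_lit 380) (nat_lit 0) (XT.lf (nat_lit 0) (nat_lit 10097225729) (nat_lit 304) (nat_lit 3917358953) (nat_lit 76) (nat_lit 360039507) (nat_lit 55) (nat_lit 5) (nat_lit 59) (nat_lit 5) (nat_lit 56) (nat_lit 5) (nat_lit 323) (nat_lit 267) (nat_lit 190)) (XT.nd (nat_lit 78) (nat_lit 76) (nat_lit 0) (XT.lf (nat_lit 0) (nat_lit 2109796505) (nat_lit 304) (nat_lit 10495565576) (nat_lit 380) (nat_lit 2062396253) (nat_lit 51) (nat_lit 5) (nat_lit 55) (nat_lit 5) (nat_lit 56) (nat_lit 5) (nat_lit 324) (nat_lit 267)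 (nat_lit 189)) (XT.lf (nat_lit 0) (nat_lit 232682864) (nat_lit 380) (nat_lit 6603489144) (nat_lit 76) (nat_lit 8132954974) (nat_lit 50) (nat_lit 5) (nat_lit 55) (nat_lit 5) (nat_lit 51) (nat_lit 5) (nat_lit 325) (nat_lit 267) (nat_lit 188))))) (XT.nd (nat_lit 234) (nat_lit 228) (nat_lit 0) (XT.nd (nat_lit 78) (nat_lit 228) (nat_lit 0) (XT.lf (nat_lit 0) (nat_lit 2533756519) (nat_lit 380) (nat_lit 520472580) (nat_lit 76) (nat_lit 12225376677) (nat_lit 50) (nat_lit 5) (nat_lit 55) (nat_lit 5) (nat_lit 51) (nat_lit 5) (nat_lit 326) (nat_lit 267) (nat_lit 187)) (XT.nd (nat_lit 78) (nat_lit 0) (nat_lit 0) (XT.lf (nat_lit 0) (nat_lit 4947685183) (nat_lit 304) (nat_lit 9776950830) (nat_lit 76) (nat_lit 873486594) (nat_lit 47) (nat_lit 5) (nat_lit 51) (nat_lit 5) (nat_lit 48) (nat_lit 5) (nat_lit 327) (nat_lit 267) (nat_lit 186)) (XT.lf (nat_lit 0) (nat_lit 7449050658) (nat_lit 304) (nat_lit 3621691660)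 (nat_lit 76) (nat_lit 4855039295) (nat_lit 47) (nat_lit 5) (nat_lit 51) (nat_lit 5) (nat_lit 48) (nat_lit 5) (nat_lit 328) (nat_lit 267) (nat_lit 185)))) (XT.nd (nat_lit 78) (nat_lit 0) (nat_lit 0) (XT.lf (nat_lit 0) (nat_lit 2743511456) (nat_lit 228) (nat_lit 7288387146) (nat_lit 304) (nat_lit 6231214698) (nat_lit 44) (nat_lit 5) (nat_lit 47) (nat_lit 5) (nat_lit 48) (nat_lit 5) (nat_lit 329) (nat_lit 267) (nat_lit 184)) (XT.nd (nat_lit 78) (nat_lit 0) (nat_lit 0) (XT.lf (nat_lit 0) (nat_lit 9345939136) (nat_lit 228) (nat_lit 3363245648) (nat_lit 304) (nat_lit 3900906672) (nat_lit 44) (nat_lit 5) (nat_lit 47) (nat_lit 5) (nat_lit 48) (nat_lit 5) (nat_lit 330) (nat_lit 267) (nat_lit 183)) (XT.lf (nat_lit 0) (nat_lit 15454197049) (nat_lit 304) (nat_lit 855257998) (nat_lit 76) (nat_lit 658435764) (nat_lit 44) (nat_lit 5) (nat_lit 48) (nat_lit 5) (nat_lit 45) (nat_lit 5) (nat_lit 331) (nat_lit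 267) (nat_lit 182)))))) (XT.nd (nat_lit 468) (nat_lit 456) (nat_lit 0) (XT.nd (nat_lit 234) (nat_lit 152) (nat_lit 0) (XT.nd (nat_lit 78) (nat_lit 228) (nat_lit 0) (XT.lf (nat_lit 0) (nat_lit 997831054) (nat_lit 304) (nat_lit 11545244037) (nat_lit 76) (nat_lit 4790974467) (nat_lit 40) (nat_lit 5) (nat_lit 44) (nat_lit 5) (nat_lit 41) (nat_lit 5) (nat_lit 332) (nat_lit 267) (nat_lit 181)) (XT.nd (nat_lit 78) (nat_lit 228) (nat_lit 0) (XT.lf (nat_lit 0) (nat_lit 3544503619) (nat_lit 304) (nat_lit 5103298533) (nat_lit 76) (nat_lit 9063265717) (nat_lit 40) (nat_lit 5) (nat_lit 44) (nat_lit 5) (nat_lit 41) (nat_lit 5) (nat_lit 333) (nat_lit 267) (nat_lit 180)) (XT.lf (nat_lit 0) (nat_lit 1535643228) (nat_lit 228) (nat_lit 4628737211) (nat_lit 304) (nat_lit 11935142448) (nat_lit 37) (nat_lit 5) (nat_lit 40) (nat_lit 5) (nat_lit 41) (nat_lit 5) (nat_lit 334) (nat_lit 267) (nat_lit 179)))) (XT.nd (nat_lit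 78) (nat_lit 152) (nat_lit 0) (XT.lf (nat_lit 0) (nat_lit 8452394960) (nat_lit 228) (nat_lit 444307835) (nat_lit 304) (nat_lit 9601942683) (nat_lit 37) (nat_lit 5) (nat_lit 40) (nat_lit 5) (nat_lit 41) (nat_lit 5) (nat_lit 335) (nat_lit 267) (nat_lit 178)) (XT.nd (nat_lit 78) (nat_lit 152) (nat_lit 0) (XT.lf (nat_lit 0) (nat_lit 11730907509) (nat_lit 304) (nat_lit 3395932277) (nat_lit 76) (nat_lit 3782333119) (nat_lit 37) (nat_lit 5) (nat_lit 41) (nat_lit 5) (nat_lit 38) (nat_lit 5) (nat_lit 336) (nat_lit 267) (nat_lit 177)) (XT.lf (nat_lit 0) (nat_lit 3492719197) (nat_lit 152) (nat_lit 11178648381) (nat_lit 228) (nat_lit 4660039410) (nat_lit 35) (nat_lit 5) (nat_lit 37) (nat_lit 5) (nat_lit 38) (nat_lit 5) (nat_lit 337) (nat_lit 267) (nat_lit 176))))) (XT.nd (nat_lit 234) (nat_lit 152) (nat_lit 0) (XT.nd (nat_lit 78) (nat_lit 304) (nat_lit 0) (XT.lf (nat_lit 0) (nat_lit 10632955181) (nat_lit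 152) (nat_lit 7084884872) (nat_lit 228) (nat_lit 2047960987) (nat_lit 35) (nat_lit 5) (nat_lit 37) (nat_lit 5) (nat_lit 38) (nat_lit 5) (nat_lit 338) (nat_lit 267) (nat_lit 175)) (XT.nd (nat_lit 78) (nat_lit 228) (nat_lit 0) (XT.lf (nat_lit 0) (nat_lit 613745280) (nat_lit 228) (nat_lit 2256321537) (nat_lit 76) (nat_lit 17343486099) (nat_lit 34) (nat_lit 5) (nat_lit 37) (nat_lit 5) (nat_lit 35) (nat_lit 5) (nat_lit 339) (nat_lit 267) (nat_lit 174)) (XT.lf (nat_lit 0) (nat_lit 3360034724) (nat_lit 304) (nat_lit 15810153692) (nat_lit 76) (nat_lit 1502588428) (nat_lit 31) (nat_lit 5) (nat_lit 35) (nat_lit 5) (nat_lit 32) (nat_lit 5) (nat_lit 340) (nat_lit 267) (nat_lit 173)))) (XT.nd (nat_lit 78) (nat_lit 152) (nat_lit 0) (XT.lf (nat_lit 0) (nat_lit 6224571239) (nat_lit 304) (nat_lit 8956137605) (nat_lit 76) (nat_lit 5964016797) (nat_lit 31) (nat_lit 5) (nat_lit 35) (nat_lit 5) (nat_lit 32) (nat_lit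 5) (nat_lit 341) (nat_lit 267) (nat_lit 172)) (XT.nd (nat_lit 78) (nat_lit 152) (nat_lit 0) (XT.lf (nat_lit 0) (nat_lit 9159929162) (nat_lit 304) (nat_lit 1919598239) (nat_lit 76) (nat_lit 10551782147) (nat_lit 31) (nat_lit 5) (nat_lit 35) (nat_lit 5) (nat_lit 32) (nat_lit 5) (nat_lit 342) (nat_lit 267) (nat_lit 171)) (XT.lf (nat_lit 0) (nat_lit 5411204937) (nat_lit 152) (nat_lit 6809484246) (nat_lit 228) (nat_lit 9910704080) (nat_lit 29) (nat_lit 5) (nat_lit 31) (nat_lit 5) (nat_lit 32) (nat_lit 5) (nat_lit 343) (nat_lit 267) (nat_lit 170))))))))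
noncomputable def xc133 : XT := (XT.nd (nat_lit 1716) (nat_lit 608) (nat_lit 0) (XT.nd (nat_lit 858) (nat_lit 456) (nat_lit 0) (XT.nd (nat_lit 390) (nat_lit 304) (nat_lit 0) (XT.nd (nat_lit 156) (nat_lit 228) (nat_lit 0) (XT.nd (nat_lit 78) (nat_lit 0) (nat_lit 0) (XT.lf (nat_lit 0) (nat_lit 12979077470) (nat_lit 152) (nat_lit 2399118226) (nat_lit 228) (nat_lit 7268157957) (nat_lit 29) (nat_lit 5) (nat_lit 31) (nat_lit 5) (nat_lit 32) (nat_lit 5) (nat_lit 344) (nat_lit 267) (nat_lit 169)) (XT.lf (nat_lit 0) (nat_lit 18636921024) (nat_lit 228) (nat_lit 2445309903) (nat_lit 76) (nat_lit 2094358357) (nat_lit 29) (nat_lit 5) (nat_lit 32) (nat_lit 5) (nat_lit 30) (nat_lit 5) (nat_lit 345) (nat_lit 267) (nat_lit 168))) (XT.nd (nat_lit 78) (nat_lit 76) (nat_lit 0) (XT.lf (nat_lit 0) (nat_lit 5046752695) (nat_lit 152) (nat_lit 17005220972) (nat_lit 228) (nat_lit 1669021968) (nat_lit 27) (nat_lit 5)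 (nat_lit 29) (nat_lit 5) (nat_lit 30) (nat_lit 5) (nat_lit 346) (nat_lit 267) (nat_lit 167)) (XT.nd (nat_lit 78) (nat_lit 0) (nat_lit 0) (XT.lf (nat_lit 0) (nat_lit 1273895024) (nat_lit 228) (nat_lit 11501284703) (nat_lit 76) (nat_lit 11505864133) (nat_lit 26) (nat_lit 5) (nat_lit 29) (nat_lit 5) (nat_lit 27) (nat_lit 5) (nat_lit 347) (nat_lit 267) (nat_lit 166)) (XT.lf (nat_lit 0) (nat_lit 4258294138) (nat_lit 228) (nat_lit 4150412082) (nat_lit 76) (nat_lit 16449108222) (nat_lit 26) (nat_lit 5) (nat_lit 29) (nat_lit 5) (nat_lit 27) (nat_lit 5) (nat_lit 348) (nat_lit 267) (nat_lit 165))))) (XT.nd (nat_lit 234) (nat_lit 152) (nat_lit 0) (XT.nd (nat_lit 78) (nat_lit 0) (nat_lit 0) (XT.lf (nat_lit 0) (nat_lit 3468525094) (nat_lit 152) (nat_lit 3884168223) (nat_lit 228) (nat_lit 18098599102) (nat_lit 24) (nat_lit 5) (nat_lit 26) (nat_lit 5) (nat_lit 27) (nat_lit 5) (nat_lit 349) (nat_lit 267) (nat_lit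 164)) (XT.nd (nat_lit 78) (nat_lit 0) (nat_lit 0) (XT.lf (nat_lit 0) (nat_lit 10576950814) (nat_lit 228) (nat_lit 14688359280) (nat_lit 76) (nat_lit 796171636) (nat_lit 24) (nat_lit 5) (nat_lit 27) (nat_lit 5) (nat_lit 25) (nat_lit 5) (nat_lit 350) (nat_lit 267) (nat_lit 163)) (XT.lf (nat_lit 0) (nat_lit 13924004752) (nat_lit 228) (nat_lit 7233261807) (nat_lit 76) (nat_lit 5531945368) (nat_lit 24) (nat_lit 5) (nat_lit 27) (nat_lit 5) (nat_lit 25) (nat_lit 5) (nat_lit 351) (nat_lit 267) (nat_lit 162)))) (XT.nd (nat_lit 78) (nat_lit 0) (nat_lit 0) (XT.lf (nat_lit 0) (nat_lit 434861978) (nat_lit 152) (nat_lit 16928760920) (nat_lit 228) (nat_lit 9972403319) (nat_lit 22) (nat_lit 5) (nat_lit 24) (nat_lit 5) (nat_lit 25) (nat_lit 5) (nat_lit 352) (nat_lit 267) (nat_lit 161)) (XT.nd (nat_lit 78) (nat_lit 0) (nat_lit 0) (XT.lf (nat_lit 0) (nat_lit 8462379297) (nat_lit 152) (nat_lit 12505232886) (nat_lit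 228) (nat_lit 7032813552) (nat_lit 22) (nat_lit 5) (nat_lit 24) (nat_lit 5) (nat_lit 25) (nat_lit 5) (nat_lit 353) (nat_lit 267) (nat_lit 160)) (XT.lf (nat_lit 0) (nat_lit 16712348390) (nat_lit 152) (nat_lit 7955859000) (nat_lit 228) (nat_lit 4016911064) (nat_lit 22) (nat_lit 5) (nat_lit 24) (nat_lit 5) (nat_lit 25) (nat_lit 5) (nat_lit 354) (nat_lit 267) (nat_lit 159)))))) (XT.nd (nat_lit 390) (nat_lit 228) (nat_lit 0) (XT.nd (nat_lit 156) (nat_lit 0) (nat_lit 0) (XT.nd (nat_lit 78) (nat_lit 228) (nat_lit 0) (XT.lf (nat_lit 0) (nat_lit 25191977968) (nat_lit 152) (nat_lit 3276664081) (nat_lit 228) (nat_lit 922060599) (nat_lit 22) (nat_lit 5) (nat_lit 24) (nat_lit 5) (nat_lit 25) (nat_lit 5) (nat_lit 355) (nat_lit 267) (nat_lit 158)) (XT.lf (nat_lit 0) (nat_lit 2262752491) (nat_lit 228) (nat_lit 26287159578) (nat_lit 76) (nat_lit 1565663567) (nat_lit 19) (nat_lit 5) (nat_lit 22) (nat_lit 5) (nat_lit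 20) (nat_lit 5) (nat_lit 356) (nat_lit 267) (nat_lit 157))) (XT.nd (nat_lit 78) (nat_lit 0) (nat_lit 0) (XT.lf (nat_lit 0) (nat_lit 5588953044) (nat_lit 228) (nat_lit 18738128906) (nat_lit 76) (nat_lit 6532921756) (nat_lit 19) (nat_lit 5) (nat_lit 22) (nat_lit 5) (nat_lit 20) (nat_lit 5) (nat_lit 357) (nat_lit 267) (nat_lit 156)) (XT.nd (nat_lit 78) (nat_lit 0) (nat_lit 0) (XT.lf (nat_lit 0) (nat_lit 9004371340) (nat_lit 228) (nat_lit 10979768573) (nat_lit 76) (nat_lit 11642955385) (nat_lit 19) (nat_lit 5) (nat_lit 22) (nat_lit 5) (nat_lit 20) (nat_lit 5) (nat_lit 358) (nat_lit 267) (nat_lit 155)) (XT.lf (nat_lit 0) (nat_lit 12511991725) (nat_lit 228) (nat_lit 3005299428) (nat_lit 76) (nat_lit 16900229533) (nat_lit 19) (nat_lit 5) (nat_lit 22) (nat_lit 5) (nat_lit 20) (nat_lit 5) (nat_lit 359) (nat_lit 267) (nat_lit 154))))) (XT.nd (nat_lit 234) (nat_lit 76) (nat_lit 0) (XT.nd (nat_lit 78) (nat_lit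 0) (nat_lit 0) (XT.lf (nat_lit 0) (nat_lit 5295582395) (nat_lit 152) (nat_lit 10870201092) (nat_lit 228) (nat_lit 17064659914) (nat_lit 17) (nat_lit 5) (nat_lit 19) (nat_lit 5) (nat_lit 20) (nat_lit 5) (nat_lit 360) (nat_lit 267) (nat_lit 153)) (XT.nd (nat_lit 78) (nat_lit 0) (nat_lit 0) (XT.lf (nat_lit 0) (nat_lit 13891097491) (nat_lit 152) (nat_lit 6058613885) (nat_lit 228) (nat_lit 14117439226) (nat_lit 17) (nat_lit 5) (nat_lit 19) (nat_lit 5) (nat_lit 20) (nat_lit 5) (nat_lit 361) (nat_lit 267) (nat_lit 152)) (XT.lf (nat_lit 0) (nat_lit 22728945151) (nat_lit 152) (nat_lit 1108672866) (nat_lit 228) (nat_lit 11091639286) (nat_lit 17) (nat_lit 5) (nat_lit 19) (nat_lit 5) (nat_lit 20) (nat_lit 5) (nat_lit 362) (nat_lit 267) (nat_lit 151)))) (XT.nd (nat_lit 78) (nat_lit 76) (nat_lit 0) (XT.lf (nat_lit 0) (nat_lit 27871196745) (nat_lit 228) (nat_lit 4038965173) (nat_lit 76) (nat_lit 3906205998)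 (nat_lit 17) (nat_lit 5) (nat_lit 20) (nat_lit 5) (nat_lit 18) (nat_lit 4) (nat_lit 363) (nat_lit 267) (nat_lit 150)) (XT.nd (nat_lit 78) (nat_lit 0) (nat_lit 0) (XT.lf (nat_lit 0) (nat_lit 4427779084) (nat_lit 76) (nat_lit 27642497419) (nat_lit 152) (nat_lit 4658491951) (nat_lit 16) (nat_lit 5) (nat_lit 17) (nat_lit 5) (nat_lit 18) (nat_lit 4) (nat_lit 364) (nat_lit 267) (nat_lit 149)) (XT.lf (nat_lit 0) (nat_lit 13216598172) (nat_lit 76) (nat_lit 23210592249) (nat_lit 152) (nat_lit 1240405817) (nat_lit 16) (nat_lit 5) (nat_lit 17) (nat_lit 5) (nat_lit 18) (nat_lit 4) (nat_lit 365) (nat_lit 267) (nat_lit 148))))))) (XT.nd (nat_lit 858) (nat_lit 304) (nat_lit 0) (XT.nd (nat_lit 390) (nat_lit 76) (nat_lit 0) (XT.nd (nat_lit 156) (nat_lit 152) (nat_lit 0) (XT.nd (nat_lit 78) (nat_lit 0) (nat_lit 0) (XT.lf (nat_lit 0) (nat_lit 2226967262) (nat_lit 152) (nat_lit 16401904235) (nat_lit 76) (nat_lit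 20005333048) (nat_lit 15) (nat_lit 5) (nat_lit 17) (nat_lit 5) (nat_lit 16) (nat_lit 5) (nat_lit 366) (nat_lit 267) (nat_lit 147)) (XT.lf (nat_lit 0) (nat_lit 5764925484) (nat_lit 152) (nat_lit 8137675449) (nat_lit 76) (nat_lit 25727107028) (nat_lit 15) (nat_lit 5) (nat_lit 17) (nat_lit 5) (nat_lit 16) (nat_lit 5) (nat_lit 367) (nat_lit 267) (nat_lit 146))) (XT.nd (nat_lit 78) (nat_lit 0) (nat_lit 0) (XT.lf (nat_lit 0) (nat_lit 368014286) (nat_lit 152) (nat_lit 9036288345) (nat_lit 228) (nat_lit 31250925290) (nat_lit 13) (nat_lit 5) (nat_lit 15) (nat_lit 5) (nat_lit 16) (nat_lit 5) (nat_lit 368) (nat_lit 267) (nat_lit 145)) (XT.nd (nat_lit 78) (nat_lit 0) (nat_lit 0) (XT.lf (nat_lit 0) (nat_lit 9282175680) (nat_lit 152) (nat_lit 3944713185) (nat_lit 228) (nat_lit 28482413342) (nat_lit 13) (nat_lit 5) (nat_lit 15) (nat_lit 5) (nat_lit 16) (nat_lit 5) (nat_lit 369) (nat_lit 267) (nat_lit 144))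 (XT.lf (nat_lit 0) (nat_lit 17168685735) (nat_lit 228) (nat_lit 24357045737) (nat_lit 76) (nat_lit 1269140541) (nat_lit 13) (nat_lit 5) (nat_lit 16) (nat_lit 5) (nat_lit 14) (nat_lit 4) (nat_lit 370) (nat_lit 267) (nat_lit 143))))) (XT.nd (nat_lit 234) (nat_lit 0) (nat_lit 0) (XT.nd (nat_lit 78) (nat_lit 76) (nat_lit 0) (XT.lf (nat_lit 0) (nat_lit 21260065317) (nat_lit 228) (nat_lit 16096847527) (nat_lit 76) (nat_lit 6555165216) (nat_lit 13) (nat_lit 5) (nat_lit 16) (nat_lit 5) (nat_lit 14) (nat_lit 4) (nat_lit 371) (nat_lit 267) (nat_lit 142)) (XT.nd (nat_lit 78) (nat_lit 76) (nat_lit 0) (XT.lf (nat_lit 0) (nat_lit 25466683608) (nat_lit 228) (nat_lit 7601395253) (nat_lit 76) (nat_lit 11994955259) (nat_lit 13) (nat_lit 5) (nat_lit 16) (nat_lit 5) (nat_lit 14) (nat_lit 4) (nat_lit 372) (nat_lit 267) (nat_lit 141)) (XT.lf (nat_lit 0) (nat_lit 1159357538) (nat_lit 76) (nat_lit 28644003210) (nat_lit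 152) (nat_lit 16445050799) (nat_lit 12) (nat_lit 5) (nat_lit 13) (nat_lit 5) (nat_lit 14) (nat_lit 4) (nat_lit 373) (nat_lit 267) (nat_lit 140)))) (XT.nd (nat_lit 78) (nat_lit 0) (nat_lit 0) (XT.lf (nat_lit 0) (nat_lit 10326687244) (nat_lit 76) (nat_lit 24013022157) (nat_lit 152) (nat_lit 13127562006) (nat_lit 12) (nat_lit 5) (nat_lit 13) (nat_lit 5) (nat_lit 14) (nat_lit 4) (nat_lit 374) (nat_lit 267) (nat_lit 139)) (XT.nd (nat_lit 78) (nat_lit 0) (nat_lit 0) (XT.lf (nat_lit 0) (nat_lit 19757321482) (nat_lit 76) (nat_lit 19247848403) (nat_lit 152) (nat_lit 9717744544) (nat_lit 12) (nat_lit 5) (nat_lit 13) (nat_lit 5) (nat_lit 14) (nat_lit 4) (nat_lit 375) (nat_lit 267) (nat_lit 138)) (XT.lf (nat_lit 0) (nat_lit 29459500614) (nat_lit 76) (nat_lit 14344318202) (nat_lit 152) (nat_lit 6212618961) (nat_lit 12) (nat_lit 5) (nat_lit 13) (nat_lit 5) (nat_lit 14) (nat_lit 4) (nat_lit 376) (nat_lit 267)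 (nat_lit 137)))))) (XT.nd (nat_lit 468) (nat_lit 76) (nat_lit 0) (XT.nd (nat_lit 234) (nat_lit 0) (nat_lit 0) (XT.nd (nat_lit 78) (nat_lit 228) (nat_lit 0) (XT.lf (nat_lit 0) (nat_lit 39441702270) (nat_lit 76) (nat_lit 9298146918) (nat_lit 152) (nat_lit 2609122526) (nat_lit 12) (nat_lit 5) (nat_lit 13) (nat_lit 5) (nat_lit 14) (nat_lit 4) (nat_lit 377) (nat_lit 267) (nat_lit 136)) (XT.nd (nat_lit 78) (nat_lit 152) (nat_lit 0) (XT.lf (nat_lit 0) (nat_lit 1074508618) (nat_lit 152) (nat_lit 3019566224) (nat_lit 76) (nat_lit 48627289714) (nat_lit 11) (nat_lit 5) (nat_lit 13) (nat_lit 5) (nat_lit 12) (nat_lit 5) (nat_lit 378) (nat_lit 267) (nat_lit 135)) (XT.lf (nat_lit 0) (nat_lit 4882704698) (nat_lit 228) (nat_lit 47925768316) (nat_lit 76) (nat_lit 1323693188) (nat_lit 9) (nat_lit 5) (nat_lit 12) (nat_lit 5) (nat_lit 10) (nat_lit 4) (nat_lit 379) (nat_lit 267) (nat_lit 134)))) (XT.nd (nat_lit 78)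 (nat_lit 0) (nat_lit 0) (XT.lf (nat_lit 0) (nat_lit 8870248259) (nat_lit 228) (nat_lit 39864764083) (nat_lit 76) (nat_lit 6848333211) (nat_lit 9) (nat_lit 5) (nat_lit 12) (nat_lit 5) (nat_lit 10) (nat_lit 4) (nat_lit 380) (nat_lit 267) (nat_lit 133)) (XT.nd (nat_lit 78) (nat_lit 0) (nat_lit 0) (XT.lf (nat_lit 0) (nat_lit 12971372116) (nat_lit 228) (nat_lit 31572210029) (nat_lit 76) (nat_lit 12534666032) (nat_lit 9) (nat_lit 5) (nat_lit 12) (nat_lit 5) (nat_lit 10) (nat_lit 4) (nat_lit 381) (nat_lit 267) (nat_lit 132)) (XT.lf (nat_lit 0) (nat_lit 17189659776) (nat_lit 228) (nat_lit 23040860231) (nat_lit 76) (nat_lit 18387660291) (nat_lit 9) (nat_lit 5) (nat_lit 12) (nat_lit 5) (nat_lit 10) (nat_lit 4) (nat_lit 382) (nat_lit 267) (nat_lit 131))))) (XT.nd (nat_lit 234) (nat_lit 0) (nat_lit 0) (XT.nd (nat_lit 78) (nat_lit 76) (nat_lit 0) (XT.lf (nat_lit 0) (nat_lit 21528797120) (nat_lit 228) (nat_lit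 14263260113) (nat_lit 76) (nat_lit 24412430254) (nat_lit 9) (nat_lit 5) (nat_lit 12) (nat_lit 5) (nat_lit 10) (nat_lit 4) (nat_lit 383) (nat_lit 267) (nat_lit 130)) (XT.nd (nat_lit 78) (nat_lit 76) (nat_lit 0) (XT.lf (nat_lit 0) (nat_lit 25992575628) (nat_lit 228) (nat_lit 5231739927) (nat_lit 76) (nat_lit 30614240283) (nat_lit 9) (nat_lit 5) (nat_lit 12) (nat_lit 5) (nat_lit 10) (nat_lit 4) (nat_lit 384) (nat_lit 267) (nat_lit 129)) (XT.lf (nat_lit 0) (nat_lit 4142425590) (nat_lit 76) (nat_lit 26482289627) (nat_lit 152) (nat_lit 32895903376) (nat_lit 8) (nat_lit 5) (nat_lit 9) (nat_lit 5) (nat_lit 10) (nat_lit 4) (nat_lit 385) (nat_lit 267) (nat_lit 128)))) (XT.nd (nat_lit 78) (nat_lit 0) (nat_lit 0) (XT.lf (nat_lit 0) (nat_lit 13896017243) (nat_lit 76) (nat_lit 21547329785) (nat_lit 152) (nat_lit 29808375977) (nat_lit 8) (nat_lit 5) (nat_lit 9) (nat_lit 5) (nat_lit 10) (nat_lit 4) (nat_lit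 386) (nat_lit 267) (nat_lit 127)) (XT.nd (nat_lit 78) (nat_lit 0) (nat_lit 0) (XT.lf (nat_lit 0) (nat_lit 23933435705) (nat_lit 76) (nat_lit 16467954241) (nat_lit 152) (nat_lit 26633530492) (nat_lit 8) (nat_lit 5) (nat_lit 9) (nat_lit 5) (nat_lit 10) (nat_lit 4) (nat_lit 387) (nat_lit 267) (nat_lit 126)) (XT.lf (nat_lit 0) (nat_lit 34263451534) (nat_lit 76) (nat_lit 11239724708) (nat_lit 152) (nat_lit 23368592782) (nat_lit 8) (nat_lit 5) (nat_lit 9) (nat_lit 5) (nat_lit 10) (nat_lit 4) (nat_lit 388) (nat_lit 267) (nat_lit 125))))))))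
noncomputable def xc134 : XT := (XT.nd (nat_lit 32370) (nat_lit 0) (nat_lit 6688) (XT.nd (nat_lit 31512) (nat_lit 0) (nat_lit 14440) (XT.nd (nat_lit 390) (nat_lit 76) (nat_lit 0) (XT.nd (nat_lit 156) (nat_lit 76) (nat_lit 0) (XT.nd (nat_lit 78) (nat_lit 0) (nat_lit 0) (XT.lf (nat_lit 0) (nat_lit 44895090959) (nat_lit 76) (nat_lit 5858072828) (nat_lit 152) (nat_lit 20010709990) (nat_lit 8) (nat_lit 5) (nat_lit 9) (nat_lit 5) (nat_lit 10) (nat_lit 4) (nat_lit 389) (nat_lit 267) (nat_lit 124)) (XT.lf (nat_lit 0) (nat_lit 55837643762) (nat_lit 76) (nat_lit 318296189) (nat_lit 152) (nat_lit 16556948043) (nat_lit 8) (nat_lit 5) (nat_lit 9) (nat_lit 5) (nat_lit 10) (nat_lit 4) (nat_lit 390) (nat_lit 267) (nat_lit 123))) (XT.nd (nat_lit 78) (nat_lit 76) (nat_lit 0) (XT.lf (nat_lit 0) (nat_lit 61767984191) (nat_lit 152) (nat_lit 7671601885) (nat_lit 0) (nat_lit 5279375860) (nat_lit 8) (nat_lit 5) (nat_lit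 10) (nat_lit 4) (nat_lit 8) (nat_lit 4) (nat_lit 391) (nat_lit 267) (nat_lit 122)) (XT.nd (nat_lit 78) (nat_lit 0) (nat_lit 0) (XT.lf (nat_lit 0) (nat_lit 1833086083) (nat_lit 76) (nat_lit 65731605163) (nat_lit 76) (nat_lit 9220042510) (nat_lit 7) (nat_lit 4) (nat_lit 8) (nat_lit 5) (nat_lit 8) (nat_lit 4) (nat_lit 392) (nat_lit 267) (nat_lit 121)) (XT.lf (nat_lit 0) (nat_lit 11772568013) (nat_lit 76) (nat_lit 61835786026) (nat_lit 76) (nat_lit 5301937622) (nat_lit 7) (nat_lit 4) (nat_lit 8) (nat_lit 5) (nat_lit 8) (nat_lit 4) (nat_lit 393) (nat_lit 267) (nat_lit 120))))) (XT.nd (nat_lit 30888) (nat_lit 0) (nat_lit 16340) (XT.nd (nat_lit 78) (nat_lit 76) (nat_lit 0) (XT.lf (nat_lit 0) (nat_lit 22002848969) (nat_lit 76) (nat_lit 57826192687) (nat_lit 76) (nat_lit 1270707632) (nat_lit 7) (nat_lit 4) (nat_lit 8) (nat_lit 5) (nat_lit 8) (nat_lit 4) (nat_lit 394) (nat_lit 267) (nat_lit 119)) (XT.nd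 (nat_lit 30732) (nat_lit 0) (nat_lit 16872) (XT.lf (nat_lit 0) (nat_lit 2821025944) (nat_lit 152) (nat_lit 50849808844) (nat_lit 76) (nat_lit 29683355255) (nat_lit 6) (nat_lit 5) (nat_lit 8) (nat_lit 5) (nat_lit 7) (nat_lit 4) (nat_lit 395) (nat_lit 267) (nat_lit 118)) (XT.lf (nat_lit 0) (nat_lit 2310370650) (nat_lit 532) (nat_lit 527198675) (nat_lit 532) (nat_lit 527198675) (nat_lit 228) (nat_lit 3) (nat_lit 235) (nat_lit 3) (nat_lit 235) (nat_lit 5) (nat_lit 268) (nat_lit 268) (nat_lit 244)))) (XT.nd (nat_lit 78) (nat_lit 532) (nat_lit 0) (XT.lf (nat_lit 76) (nat_lit 1837474774) (nat_lit 0) (nat_lit 4733819196) (nat_lit 532) (nat_lit 195412702) (nat_lit 229) (nat_lit 5) (nat_lit 228) (nat_lit 3) (nat_lit 235) (nat_lit 5) (nat_lit 269) (nat_lit 268) (nat_lit 243)) (XT.nd (nat_lit 78) (nat_lit 0) (nat_lit 0) (XT.lf (nat_lit 0) (nat_lit 1677376325) (nat_lit 532) (nat_lit 2024227489) (nat_lit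 608) (nat_lit 3105055120) (nat_lit 221) (nat_lit 5) (nat_lit 228) (nat_lit 3) (nat_lit 229) (nat_lit 5) (nat_lit 270) (nat_lit 268) (nat_lit 242)) (XT.lf (nat_lit 76) (nat_lit 945510301) (nat_lit 0) (nat_lit 2594054976) (nat_lit 608) (nat_lit 3310341963) (nat_lit 222) (nat_lit 5) (nat_lit 221) (nat_lit 5) (nat_lit 229) (nat_lit 5) (nat_lit 271) (nat_lit 268) (nat_lit 241)))))) (XT.nd (nat_lit 390) (nat_lit 1292) (nat_lit 0) (XT.nd (nat_lit 156) (nat_lit 0) (nat_lit 76) (XT.nd (nat_lit 78) (nat_lit 608) (nat_lit 0) (XT.lf (nat_lit 76) (nat_lit 4007284313) (nat_lit 0) (nat_lit 1400556260) (nat_lit 608) (nat_lit 1488367780) (nat_lit 222) (nat_lit 5) (nat_lit 221) (nat_lit 5) (nat_lit 229) (nat_lit 5) (nat_lit 272) (nat_lit 268) (nat_lit 240)) (XT.lf (nat_lit 76) (nat_lit 177698425) (nat_lit 0) (nat_lit 135599694) (nat_lit 684) (nat_lit 6632757082) (nat_lit 214) (nat_lit 5) (nat_lit 213) (nat_lit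 5) (nat_lit 222) (nat_lit 5) (nat_lit 273) (nat_lit 268) (nat_lit 239))) (XT.nd (nat_lit 78) (nat_lit 0) (nat_lit 0) (XT.lf (nat_lit 0) (nat_lit 2112599912) (nat_lit 608) (nat_lit 3668435931) (nat_lit 684) (nat_lit 1216954250) (nat_lit 214) (nat_lit 5) (nat_lit 222) (nat_lit 5) (nat_lit 223) (nat_lit 5) (nat_lit 274) (nat_lit 268) (nat_lit 238)) (XT.nd (nat_lit 78) (nat_lit 0) (nat_lit 0) (XT.lf (nat_lit 0) (nat_lit 3901998546) (nat_lit 608) (nat_lit 516867136) (nat_lit 684) (nat_lit 2634766579) (nat_lit 214) (nat_lit 5) (nat_lit 222) (nat_lit 5) (nat_lit 223) (nat_lit 5) (nat_lit 275) (nat_lit 268) (nat_lit 237)) (XT.lf (nat_lit 76) (nat_lit 2743951243) (nat_lit 0) (nat_lit 2964179402) (nat_lit 684) (nat_lit 1404147488) (nat_lit 215) (nat_lit 5) (nat_lit 214) (nat_lit 5) (nat_lit 223) (nat_lit 5) (nat_lit 276) (nat_lit 268) (nat_lit 236))))) (XT.nd (nat_lit 234) (nat_lit 684) (nat_lit 0) (XT.nd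 (nat_lit 78) (nat_lit 0) (nat_lit 76) (XT.lf (nat_lit 0) (nat_lit 330633754) (nat_lit 684) (nat_lit 1103114823) (nat_lit 760) (nat_lit 5740755889) (nat_lit 205) (nat_lit 5) (nat_lit 214) (nat_lit 5) (nat_lit 215) (nat_lit 5) (nat_lit 277) (nat_lit 268) (nat_lit 235)) (XT.nd (nat_lit 78) (nat_lit 0) (nat_lit 0) (XT.lf (nat_lit 0) (nat_lit 2051960310) (nat_lit 684) (nat_lit 4990174779) (nat_lit 760) (nat_lit 197370518) (nat_lit 206) (nat_lit 5) (nat_lit 215) (nat_lit 5) (nat_lit 216) (nat_lit 5) (nat_lit 278) (nat_lit 268) (nat_lit 234)) (XT.lf (nat_lit 0) (nat_lit 3791125537) (nat_lit 684) (nat_lit 1636031310) (nat_lit 760) (nat_lit 1880514753) (nat_lit 206) (nat_lit 5) (nat_lit 215) (nat_lit 5) (nat_lit 216) (nat_lit 5) (nat_lit 279) (nat_lit 268) (nat_lit 233)))) (XT.nd (nat_lit 78) (nat_lit 760) (nat_lit 0) (XT.lf (nat_lit 76) (nat_lit 1814765078) (nat_lit 0) (nat_lit 3727624650) (nat_lit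 760) (nat_lit 1836890059) (nat_lit 207) (nat_lit 5) (nat_lit 206) (nat_lit 5) (nat_lit 216) (nat_lit 5) (nat_lit 280) (nat_lit 268) (nat_lit 232)) (XT.nd (nat_lit 78) (nat_lit 760) (nat_lit 0) (XT.lf (nat_lit 76) (nat_lit 5363624525) (nat_lit 0) (nat_lit 1942867891) (nat_lit 760) (nat_lit 147924044) (nat_lit 207) (nat_lit 5) (nat_lit 206) (nat_lit 5) (nat_lit 216) (nat_lit 5) (nat_lit 281) (nat_lit 268) (nat_lit 231)) (XT.lf (nat_lit 76) (nat_lit 1461214534) (nat_lit 0) (nat_lit 58179251) (nat_lit 836) (nat_lit 6013370543) (nat_lit 197) (nat_lit 5) (nat_lit 196) (nat_lit 5) (nat_lit 207) (nat_lit 5) (nat_lit 282) (nat_lit 268) (nat_lit 230))))))) (XT.nd (nat_lit 858) (nat_lit 3116) (nat_lit 0) (XT.nd (nat_lit 390) (nat_lit 3040) (nat_lit 0) (XT.nd (nat_lit 156) (nat_lit 912) (nat_lit 0) (XT.nd (nat_lit 78) (nat_lit 760) (nat_lit 0) (XT.lf (nat_lit 0) (nat_lit 3219263111) (nat_lit 760) (nat_lit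 2510663130) (nat_lit 76) (nat_lit 1884100497) (nat_lit 197) (nat_lit 5) (nat_lit 207) (nat_lit 5) (nat_lit 198) (nat_lit 5) (nat_lit 283) (nat_lit 268) (nat_lit 229)) (XT.lf (nat_lit 0) (nat_lit 1139189613) (nat_lit 760) (nat_lit 3790118069) (nat_lit 836) (nat_lit 2769812116) (nat_lit 187) (nat_lit 5) (nat_lit 197) (nat_lit 5) (nat_lit 198) (nat_lit 5) (nat_lit 284) (nat_lit 268) (nat_lit 228))) (XT.nd (nat_lit 78) (nat_lit 912) (nat_lit 0) (XT.lf (nat_lit 0) (nat_lit 4910877285) (nat_lit 760) (nat_lit 1753930199) (nat_lit 836) (nat_lit 1122896805) (nat_lit 187) (nat_lit 5) (nat_lit 197) (nat_lit 5) (nat_lit 198) (nat_lit 5) (nat_lit 285) (nat_lit 268) (nat_lit 227)) (XT.nd (nat_lit 78) (nat_lit 0) (nat_lit 0) (XT.lf (nat_lit 0) (nat_lit 523978713) (nat_lit 912) (nat_lit 6994265717) (nat_lit 76) (nat_lit 361838134) (nat_lit 175) (nat_lit 5) (nat_lit 187) (nat_lit 5) (nat_lit 176) (nat_lit 5)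 (nat_lit 286) (nat_lit 268) (nat_lit 226)) (XT.lf (nat_lit 0) (nat_lit 2195234779) (nat_lit 912) (nat_lit 3223307242) (nat_lit 76) (nat_lit 2556579734) (nat_lit 175) (nat_lit 5) (nat_lit 187) (nat_lit 5) (nat_lit 176) (nat_lit 5) (nat_lit 287) (nat_lit 268) (nat_lit 225))))) (XT.nd (nat_lit 234) (nat_lit 1140) (nat_lit 0) (XT.nd (nat_lit 78) (nat_lit 988) (nat_lit 0) (XT.lf (nat_lit 0) (nat_lit 633840091) (nat_lit 912) (nat_lit 3241152955) (nat_lit 988) (nat_lit 4199413189) (nat_lit 163) (nat_lit 5) (nat_lit 175) (nat_lit 5) (nat_lit 176) (nat_lit 5) (nat_lit 288) (nat_lit 268) (nat_lit 224)) (XT.nd (nat_lit 78) (nat_lit 988) (nat_lit 0) (XT.lf (nat_lit 0) (nat_lit 4633853462) (nat_lit 912) (nat_lit 957127338) (nat_lit 988) (nat_lit 2586254173) (nat_lit 163) (nat_lit 5) (nat_lit 175) (nat_lit 5) (nat_lit 176) (nat_lit 5) (nat_lit 289) (nat_lit 268) (nat_lit 223)) (XT.lf (nat_lit 0) (nat_lit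 426263664) (nat_lit 988) (nat_lit 6904416555) (nat_lit 1064) (nat_lit 953438117) (nat_lit 150) (nat_lit 5) (nat_lit 163) (nat_lit 5) (nat_lit 164) (nat_lit 5) (nat_lit 290) (nat_lit 268) (nat_lit 222)))) (XT.nd (nat_lit 78) (nat_lit 1064) (nat_lit 0) (XT.lf (nat_lit 0) (nat_lit 714857393) (nat_lit 1064) (nat_lit 3862328957) (nat_lit 76) (nat_lit 3816919442) (nat_lit 149) (nat_lit 5) (nat_lit 163) (nat_lit 5) (nat_lit 150) (nat_lit 5) (nat_lit 291) (nat_lit 268) (nat_lit 221)) (XT.nd (nat_lit 78) (nat_lit 0) (nat_lit 0) (XT.lf (nat_lit 0) (nat_lit 208867239) (nat_lit 1064) (nat_lit 2163582977) (nat_lit 1140) (nat_lit 6136032230) (nat_lit 135) (nat_lit 5) (nat_lit 149) (nat_lit 5) (nat_lit 150) (nat_lit 5) (nat_lit 292) (nat_lit 268) (nat_lit 220)) (XT.lf (nat_lit 0) (nat_lit 4079603155) (nat_lit 1140) (nat_lit 4187126133) (nat_lit 76) (nat_lit 359687620) (nat_lit 135) (nat_lit 5) (nat_lit 150)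 (nat_lit 5) (nat_lit 136) (nat_lit 5) (nat_lit 293) (nat_lit 268) (nat_lit 219)))))) (XT.nd (nat_lit 468) (nat_lit 1368) (nat_lit 0) (XT.nd (nat_lit 234) (nat_lit 1064) (nat_lit 0) (XT.nd (nat_lit 78) (nat_lit 684) (nat_lit 0) (XT.lf (nat_lit 0) (nat_lit 5817979522) (nat_lit 1140) (nat_lit 11415583) (nat_lit 76) (nat_lit 2919211972) (nat_lit 135) (nat_lit 5) (nat_lit 150) (nat_lit 5) (nat_lit 136) (nat_lit 5) (nat_lit 294) (nat_lit 268) (nat_lit 218)) (XT.nd (nat_lit 78) (nat_lit 76) (nat_lit 0) (XT.lf (nat_lit 0) (nat_lit 4336585201) (nat_lit 608) (nat_lit 3273401312) (nat_lit 684) (nat_lit 1264546563) (nat_lit 127) (nat_lit 5) (nat_lit 135) (nat_lit 5) (nat_lit 136) (nat_lit 5) (nat_lit 295) (nat_lit 268) (nat_lit 217)) (XT.lf (nat_lit 0) (nat_lit 402930086) (nat_lit 684) (nat_lit 231451464) (nat_lit 76) (nat_lit 8371026308) (nat_lit 126) (nat_lit 5) (nat_lit 135) (nat_lit 5) (nat_lit 127)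 (nat_lit 5) (nat_lit 296) (nat_lit 268) (nat_lit 216)))) (XT.nd (nat_lit 78) (nat_lit 532) (nat_lit 0) (XT.lf (nat_lit 0) (nat_lit 2117591125) (nat_lit 608) (nat_lit 4923072282) (nat_lit 76) (nat_lit 2098597371) (nat_lit 119) (nat_lit 5) (nat_lit 127) (nat_lit 5) (nat_lit 120) (nat_lit 5) (nat_lit 297) (nat_lit 268) (nat_lit 215)) (XT.nd (nat_lit 78) (nat_lit 532) (nat_lit 0) (XT.lf (nat_lit 0) (nat_lit 3854390862) (nat_lit 608) (nat_lit 519276843) (nat_lit 76) (nat_lit 4904442349) (nat_lit 119) (nat_lit 5) (nat_lit 127) (nat_lit 5) (nat_lit 120) (nat_lit 5) (nat_lit 298) (nat_lit 268) (nat_lit 214)) (XT.lf (nat_lit 0) (nat_lit 4059027331) (nat_lit 532) (nat_lit 1586447751) (nat_lit 608) (nat_lit 3775683085) (nat_lit 112) (nat_lit 5) (nat_lit 119) (nat_lit 5) (nat_lit 120) (nat_lit 5) (nat_lit 299) (nat_lit 268) (nat_lit 213))))) (XT.nd (nat_lit 234) (nat_lit 836) (nat_lit 0) (XT.nd (nat_lit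 78) (nat_lit 532) (nat_lit 0) (XT.lf (nat_lit 0) (nat_lit 7471815713) (nat_lit 608) (nat_lit 833039954) (nat_lit 76) (nat_lit 1264292234) (nat_lit 112) (nat_lit 5) (nat_lit 120) (nat_lit 5) (nat_lit 113) (nat_lit 5) (nat_lit 300) (nat_lit 268) (nat_lit 212)) (XT.nd (nat_lit 78) (nat_lit 76) (nat_lit 0) (XT.lf (nat_lit 0) (nat_lit 3854908736) (nat_lit 456) (nat_lit 5515734911) (nat_lit 532) (nat_lit 350495870) (nat_lit 106) (nat_lit 5) (nat_lit 112) (nat_lit 5) (nat_lit 113) (nat_lit 5) (nat_lit 301) (nat_lit 268) (nat_lit 211)) (XT.lf (nat_lit 0) (nat_lit 1394149075) (nat_lit 532) (nat_lit 1227828946) (nat_lit 76) (nat_lit 7256172618) (nat_lit 105) (nat_lit 5) (nat_lit 112) (nat_lit 5) (nat_lit 106) (nat_lit 5) (nat_lit 302) (nat_lit 268) (nat_lit 210)))) (XT.nd (nat_lit 78) (nat_lit 380) (nat_lit 0) (XT.lf (nat_lit 0) (nat_lit 3188499074) (nat_lit 532) (nat_lit 6463396064) (nat_lit 76) (nat_lit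 387825741) (nat_lit 99) (nat_lit 5) (nat_lit 106) (nat_lit 5) (nat_lit 100) (nat_lit 5) (nat_lit 303) (nat_lit 268) (nat_lit 209)) (XT.nd (nat_lit 78) (nat_lit 380) (nat_lit 0) (XT.lf (nat_lit 0) (nat_lit 5041974314) (nat_lit 532) (nat_lit 1718656928) (nat_lit 76) (nat_lit 3445430862) (nat_lit 99) (nat_lit 5) (nat_lit 106) (nat_lit 5) (nat_lit 100) (nat_lit 5) (nat_lit 304) (nat_lit 268) (nat_lit 208)) (XT.lf (nat_lit 0) (nat_lit 3195260664) (nat_lit 380) (nat_lit 3754287691) (nat_lit 456) (nat_lit 3427970685) (nat_lit 94) (nat_lit 5) (nat_lit 99) (nat_lit 5) (nat_lit 100) (nat_lit 5) (nat_lit 305) (nat_lit 268) (nat_lit 207))))))))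
noncomputable def xc135 : XT := (XT.nd (nat_lit 1794) (nat_lit 1748) (nat_lit 0) (XT.nd (nat_lit 858) (nat_lit 1520) (nat_lit 0) (XT.nd (nat_lit 390) (nat_lit 1140) (nat_lit 0) (XT.nd (nat_lit 156) (nat_lit 380) (nat_lit 0) (XT.nd (nat_lit 78) (nat_lit 532) (nat_lit 0) (XT.lf (nat_lit 0) (nat_lit 8256659989) (nat_lit 380) (nat_lit 643424852) (nat_lit 456) (nat_lit 1654540759) (nat_lit 94) (nat_lit 5) (nat_lit 99) (nat_lit 5) (nat_lit 100) (nat_lit 5) (nat_lit 306) (nat_lit 268) (nat_lit 206)) (XT.lf (nat_lit 0) (nat_lit 188949475) (nat_lit 532) (nat_lit 8012035729) (nat_lit 76) (nat_lit 2535477554) (nat_lit 87) (nat_lit 5) (nat_lit 94) (nat_lit 5) (nat_lit 88) (nat_lit 5) (nat_lit 307) (nat_lit 268) (nat_lit 205))) (XT.nd (nat_lit 78) (nat_lit 380) (nat_lit 0) (XT.lf (nat_lit 0) (nat_lit 2053753221) (nat_lit 532) (nat_lit 3036884174) (nat_lit 76) (nat_lit 5832719639) (nat_lit 87) (nat_lit 5)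 (nat_lit 94) (nat_lit 5) (nat_lit 88) (nat_lit 5) (nat_lit 308) (nat_lit 268) (nat_lit 204)) (XT.nd (nat_lit 78) (nat_lit 0) (nat_lit 0) (XT.lf (nat_lit 0) (nat_lit 2093974269) (nat_lit 380) (nat_lit 1871003133) (nat_lit 456) (nat_lit 7151235725) (nat_lit 82) (nat_lit 5) (nat_lit 87) (nat_lit 5) (nat_lit 88) (nat_lit 5) (nat_lit 309) (nat_lit 268) (nat_lit 203)) (XT.lf (nat_lit 0) (nat_lit 5949237126) (nat_lit 456) (nat_lit 3922083668) (nat_lit 76) (nat_lit 1443130403) (nat_lit 82) (nat_lit 5) (nat_lit 88) (nat_lit 5) (nat_lit 83) (nat_lit 5) (nat_lit 310) (nat_lit 268) (nat_lit 202))))) (XT.nd (nat_lit 234) (nat_lit 380) (nat_lit 0) (XT.nd (nat_lit 78) (nat_lit 380) (nat_lit 0) (XT.lf (nat_lit 0) (nat_lit 1304052121) (nat_lit 380) (nat_lit 6691718350) (nat_lit 456) (nat_lit 3522848863) (nat_lit 77) (nat_lit 5) (nat_lit 82) (nat_lit 5) (nat_lit 83) (nat_lit 5) (nat_lit 311) (nat_lit 268) (nat_lit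 201)) (XT.nd (nat_lit 78) (nat_lit 380) (nat_lit 0) (XT.lf (nat_lit 0) (nat_lit 6733757632) (nat_lit 380) (nat_lit 3381734818) (nat_lit 456) (nat_lit 1613129684) (nat_lit 77) (nat_lit 5) (nat_lit 82) (nat_lit 5) (nat_lit 83) (nat_lit 5) (nat_lit 312) (nat_lit 268) (nat_lit 200)) (XT.lf (nat_lit 0) (nat_lit 323300691) (nat_lit 380) (nat_lit 11594224725) (nat_lit 76) (nat_lit 28067556) (nat_lit 72) (nat_lit 5) (nat_lit 77) (nat_lit 5) (nat_lit 73) (nat_lit 5) (nat_lit 313) (nat_lit 268) (nat_lit 199)))) (XT.nd (nat_lit 78) (nat_lit 380) (nat_lit 0) (XT.lf (nat_lit 0) (nat_lit 2342912967) (nat_lit 380) (nat_lit 6290852768) (nat_lit 76) (nat_lit 3533160732) (nat_lit 72) (nat_lit 5) (nat_lit 77) (nat_lit 5) (nat_lit 73) (nat_lit 5) (nat_lit 314) (nat_lit 268) (nat_lit 198)) (XT.nd (nat_lit 78) (nat_lit 380) (nat_lit 0) (XT.lf (nat_lit 0) (nat_lit 4396988415) (nat_lit 380) (nat_lit 861114889) (nat_lit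 76) (nat_lit 7137636747) (nat_lit 72) (nat_lit 5) (nat_lit 77) (nat_lit 5) (nat_lit 73) (nat_lit 5) (nat_lit 315) (nat_lit 268) (nat_lit 197)) (XT.lf (nat_lit 0) (nat_lit 4793267249) (nat_lit 380) (nat_lit 1740130426) (nat_lit 456) (nat_lit 6097453709) (nat_lit 67) (nat_lit 5) (nat_lit 72) (nat_lit 5) (nat_lit 73) (nat_lit 5) (nat_lit 316) (nat_lit 268) (nat_lit 196)))))) (XT.nd (nat_lit 468) (nat_lit 836) (nat_lit 0) (XT.nd (nat_lit 234) (nat_lit 304) (nat_lit 0) (XT.nd (nat_lit 78) (nat_lit 380) (nat_lit 0) (XT.lf (nat_lit 0) (nat_lit 8735794195) (nat_lit 456) (nat_lit 2288220884) (nat_lit 76) (nat_lit 1848997224) (nat_lit 67) (nat_lit 5) (nat_lit 73) (nat_lit 5) (nat_lit 68) (nat_lit 5) (nat_lit 317) (nat_lit 268) (nat_lit 195)) (XT.nd (nat_lit 78) (nat_lit 76) (nat_lit 0) (XT.lf (nat_lit 0) (nat_lit 3446375304) (nat_lit 304) (nat_lit 7583981976) (nat_lit 380) (nat_lit 2091349477) (nat_lit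 63) (nat_lit 5) (nat_lit 67) (nat_lit 5) (nat_lit 68) (nat_lit 5) (nat_lit 318) (nat_lit 268) (nat_lit 194)) (XT.lf (nat_lit 0) (nat_lit 14781151) (nat_lit 380) (nat_lit 4009127337) (nat_lit 76) (nat_lit 9354021678) (nat_lit 62) (nat_lit 5) (nat_lit 67) (nat_lit 5) (nat_lit 63) (nat_lit 5) (nat_lit 319) (nat_lit 268) (nat_lit 193)))) (XT.nd (nat_lit 78) (nat_lit 0) (nat_lit 0) (XT.lf (nat_lit 0) (nat_lit 1811122679) (nat_lit 304) (nat_lit 324912458) (nat_lit 380) (nat_lit 11505411919) (nat_lit 58) (nat_lit 5) (nat_lit 62) (nat_lit 5) (nat_lit 63) (nat_lit 5) (nat_lit 320) (nat_lit 268) (nat_lit 192)) (XT.nd (nat_lit 78) (nat_lit 0) (nat_lit 0) (XT.lf (nat_lit 0) (nat_lit 4372198311) (nat_lit 380) (nat_lit 6088336035) (nat_lit 76) (nat_lit 3450842758) (nat_lit 58) (nat_lit 5) (nat_lit 63) (nat_lit 5) (nat_lit 59) (nat_lit 5) (nat_lit 321) (nat_lit 268) (nat_lit 191)) (XT.lf (nat_lit 0) (nat_lit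 6656222503) (nat_lit 380) (nat_lit 207346928) (nat_lit 76) (nat_lit 7326456805) (nat_lit 58) (nat_lit 5) (nat_lit 63) (nat_lit 5) (nat_lit 59) (nat_lit 5) (nat_lit 322) (nat_lit 268) (nat_lit 190))))) (XT.nd (nat_lit 234) (nat_lit 304) (nat_lit 0) (XT.nd (nat_lit 78) (nat_lit 304) (nat_lit 0) (XT.lf (nat_lit 0) (nat_lit 5936752349) (nat_lit 228) (nat_lit 3107295550) (nat_lit 304) (nat_lit 5431971700) (nat_lit 55) (nat_lit 5) (nat_lit 58) (nat_lit 5) (nat_lit 59) (nat_lit 5) (nat_lit 323) (nat_lit 268) (nat_lit 189)) (XT.nd (nat_lit 78) (nat_lit 304) (nat_lit 0) (XT.lf (nat_lit 0) (nat_lit 11491442312) (nat_lit 304) (nat_lit 2537941445) (nat_lit 76) (nat_lit 741612892) (nat_lit 55) (nat_lit 5) (nat_lit 59) (nat_lit 5) (nat_lit 56) (nat_lit 5) (nat_lit 324) (nat_lit 268) (nat_lit 188)) (XT.lf (nat_lit 0) (nat_lit 3655352811) (nat_lit 304) (nat_lit 10401932925) (nat_lit 380) (nat_lit 1016227153)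 (nat_lit 51) (nat_lit 5) (nat_lit 55) (nat_lit 5) (nat_lit 56) (nat_lit 5) (nat_lit 325) (nat_lit 268) (nat_lit 187)))) (XT.nd (nat_lit 78) (nat_lit 228) (nat_lit 0) (XT.lf (nat_lit 0) (nat_lit 1294439193) (nat_lit 380) (nat_lit 5339565237) (nat_lit 76) (nat_lit 8750606333) (nat_lit 50) (nat_lit 5) (nat_lit 55) (nat_lit 5) (nat_lit 51) (nat_lit 5) (nat_lit 326) (nat_lit 268) (nat_lit 186)) (XT.nd (nat_lit 78) (nat_lit 0) (nat_lit 0) (XT.lf (nat_lit 0) (nat_lit 900939031) (nat_lit 228) (nat_lit 2741544776) (nat_lit 304) (nat_lit 12062638652) (nat_lit 47) (nat_lit 5) (nat_lit 50) (nat_lit 5) (nat_lit 51) (nat_lit 5) (nat_lit 327) (nat_lit 268) (nat_lit 185)) (XT.lf (nat_lit 0) (nat_lit 6107677747) (nat_lit 304) (nat_lit 8636486921) (nat_lit 76) (nat_lit 1289719754) (nat_lit 47) (nat_lit 5) (nat_lit 51) (nat_lit 5) (nat_lit 48) (nat_lit 5) (nat_lit 328) (nat_lit 268) (nat_lit 184))))))) (XT.nd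 (nat_lit 858) (nat_lit 836) (nat_lit 0) (XT.nd (nat_lit 390) (nat_lit 380) (nat_lit 0) (XT.nd (nat_lit 156) (nat_lit 304) (nat_lit 0) (XT.nd (nat_lit 78) (nat_lit 228) (nat_lit 0) (XT.lf (nat_lit 0) (nat_lit 8654621216) (nat_lit 304) (nat_lit 2338330338) (nat_lit 76) (nat_lit 5379358981) (nat_lit 47) (nat_lit 5) (nat_lit 51) (nat_lit 5) (nat_lit 48) (nat_lit 5) (nat_lit 329) (nat_lit 268) (nat_lit 183)) (XT.lf (nat_lit 0) (nat_lit 4204181695) (nat_lit 228) (nat_lit 7095417764) (nat_lit 304) (nat_lit 5420675258) (nat_lit 44) (nat_lit 5) (nat_lit 47) (nat_lit 5) (nat_lit 48) (nat_lit 5) (nat_lit 330) (nat_lit 268) (nat_lit 182))) (XT.nd (nat_lit 78) (nat_lit 304) (nat_lit 0) (XT.lf (nat_lit 0) (nat_lit 10964535654) (nat_lit 228) (nat_lit 3064510981) (nat_lit 304) (nat_lit 3049510687) (nat_lit 44) (nat_lit 5) (nat_lit 47) (nat_lit 5) (nat_lit 48) (nat_lit 5) (nat_lit 331) (nat_lit 268) (nat_lit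 181)) (XT.nd (nat_lit 78) (nat_lit 76) (nat_lit 0) (XT.lf (nat_lit 0) (nat_lit 452391380) (nat_lit 228) (nat_lit 16384758705) (nat_lit 304) (nat_lit 610567261) (nat_lit 41) (nat_lit 5) (nat_lit 44) (nat_lit 5) (nat_lit 45) (nat_lit 5) (nat_lit 332) (nat_lit 268) (nat_lit 180)) (XT.lf (nat_lit 0) (nat_lit 1939173629) (nat_lit 304) (nat_lit 10560431532) (nat_lit 76) (nat_lit 5325586868) (nat_lit 40) (nat_lit 5) (nat_lit 44) (nat_lit 5) (nat_lit 41) (nat_lit 5) (nat_lit 333) (nat_lit 268) (nat_lit 179))))) (XT.nd (nat_lit 234) (nat_lit 152) (nat_lit 0) (XT.nd (nat_lit 78) (nat_lit 228) (nat_lit 0) (XT.lf (nat_lit 0) (nat_lit 4535700518) (nat_lit 304) (nat_lit 3963999599) (nat_lit 76) (nat_lit 9714661910) (nat_lit 40) (nat_lit 5) (nat_lit 44) (nat_lit 5) (nat_lit 41) (nat_lit 5) (nat_lit 334) (nat_lit 268) (nat_lit 178)) (XT.nd (nat_lit 78) (nat_lit 0) (nat_lit 0) (XT.lf (nat_lit 0) (nat_lit 2861439847)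 (nat_lit 228) (nat_lit 4359262644) (nat_lit 304) (nat_lit 11394215796) (nat_lit 37) (nat_lit 5) (nat_lit 40) (nat_lit 5) (nat_lit 41) (nat_lit 5) (nat_lit 335) (nat_lit 268) (nat_lit 177)) (XT.lf (nat_lit 0) (nat_lit 9948420519) (nat_lit 228) (nat_lit 61193688) (nat_lit 304) (nat_lit 9017203948) (nat_lit 37) (nat_lit 5) (nat_lit 40) (nat_lit 5) (nat_lit 41) (nat_lit 5) (nat_lit 336) (nat_lit 268) (nat_lit 176)))) (XT.nd (nat_lit 78) (nat_lit 152) (nat_lit 0) (XT.lf (nat_lit 0) (nat_lit 12907903846) (nat_lit 304) (nat_lit 2269237875) (nat_lit 76) (nat_lit 4273188883) (nat_lit 37) (nat_lit 5) (nat_lit 41) (nat_lit 5) (nat_lit 38) (nat_lit 5) (nat_lit 337) (nat_lit 268) (nat_lit 175)) (XT.nd (nat_lit 78) (nat_lit 0) (nat_lit 0) (XT.lf (nat_lit 0) (nat_lit 4814028316) (nat_lit 152) (nat_lit 11110212270) (nat_lit 228) (nat_lit 3961401008) (nat_lit 35) (nat_lit 5) (nat_lit 37) (nat_lit 5) (nat_lit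 38) (nat_lit 5) (nat_lit 338) (nat_lit 268) (nat_lit 174)) (XT.lf (nat_lit 0) (nat_lit 12133038538) (nat_lit 152) (nat_lit 6905396891) (nat_lit 228) (nat_lit 1295380803) (nat_lit 35) (nat_lit 5) (nat_lit 37) (nat_lit 5) (nat_lit 38) (nat_lit 5) (nat_lit 339) (nat_lit 268) (nat_lit 173)))))) (XT.nd (nat_lit 468) (nat_lit 380) (nat_lit 0) (XT.nd (nat_lit 234) (nat_lit 152) (nat_lit 0) (XT.nd (nat_lit 78) (nat_lit 228) (nat_lit 0) (XT.lf (nat_lit 0) (nat_lit 1407045571) (nat_lit 228) (nat_lit 1160682356) (nat_lit 76) (nat_lit 18227771786) (nat_lit 34) (nat_lit 5) (nat_lit 37) (nat_lit 5) (nat_lit 35) (nat_lit 5) (nat_lit 340) (nat_lit 268) (nat_lit 172)) (XT.nd (nat_lit 78) (nat_lit 0) (nat_lit 0) (XT.lf (nat_lit 0) (nat_lit 4227961951) (nat_lit 304) (nat_lit 15112189910) (nat_lit 76) (nat_lit 1928616684) (nat_lit 31) (nat_lit 5) (nat_lit 35) (nat_lit 5) (nat_lit 32) (nat_lit 5) (nat_lit 341) (nat_lit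 268) (nat_lit 171)) (XT.lf (nat_lit 0) (nat_lit 7156091080) (nat_lit 304) (nat_lit 8086697080) (nat_lit 76) (nat_lit 6512792255) (nat_lit 31) (nat_lit 5) (nat_lit 35) (nat_lit 5) (nat_lit 32) (nat_lit 5) (nat_lit 342) (nat_lit 268) (nat_lit 170)))) (XT.nd (nat_lit 78) (nat_lit 152) (nat_lit 0) (XT.lf (nat_lit 0) (nat_lit 10157817042) (nat_lit 304) (nat_lit 872210795) (nat_lit 76) (nat_lit 11227418091) (nat_lit 31) (nat_lit 5) (nat_lit 35) (nat_lit 5) (nat_lit 32) (nat_lit 5) (nat_lit 343) (nat_lit 268) (nat_lit 169)) (XT.nd (nat_lit 78) (nat_lit 0) (nat_lit 0) (XT.lf (nat_lit 0) (nat_lit 6667683384) (nat_lit 152) (nat_lit 6632173169) (nat_lit 228) (nat_lit 9473024236) (nat_lit 29) (nat_lit 5) (nat_lit 31) (nat_lit 5) (nat_lit 32) (nat_lit 5) (nat_lit 344) (nat_lit 268) (nat_lit 168)) (XT.lf (nat_lit 0) (nat_lit 14430723871) (nat_lit 152) (nat_lit 2100610605) (nat_lit 228) (nat_lit 6772609524)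 (nat_lit 29) (nat_lit 5) (nat_lit 31) (nat_lit 5) (nat_lit 32) (nat_lit 5) (nat_lit 345) (nat_lit 268) (nat_lit 167))))) (XT.nd (nat_lit 234) (nat_lit 152) (nat_lit 0) (XT.nd (nat_lit 78) (nat_lit 228) (nat_lit 0) (XT.lf (nat_lit 0) (nat_lit 19871129820) (nat_lit 228) (nat_lit 1469627405) (nat_lit 76) (nat_lit 2509860706) (nat_lit 29) (nat_lit 5) (nat_lit 32) (nat_lit 5) (nat_lit 30) (nat_lit 5) (nat_lit 346) (nat_lit 268) (nat_lit 166)) (XT.nd (nat_lit 78) (nat_lit 76) (nat_lit 0) (XT.lf (nat_lit 0) (nat_lit 6236912347) (nat_lit 152) (nat_lit 17142043723) (nat_lit 228) (nat_lit 1032720334) (nat_lit 27) (nat_lit 5) (nat_lit 29) (nat_lit 5) (nat_lit 30) (nat_lit 5) (nat_lit 347) (nat_lit 268) (nat_lit 165)) (XT.lf (nat_lit 0) (nat_lit 1965489250) (nat_lit 228) (nat_lit 10823887962) (nat_lit 76) (nat_lit 12199566862) (nat_lit 26) (nat_lit 5) (nat_lit 29) (nat_lit 5) (nat_lit 27) (nat_lit 5) (nat_lit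 348) (nat_lit 268) (nat_lit 164)))) (XT.nd (nat_lit 78) (nat_lit 152) (nat_lit 0) (XT.lf (nat_lit 0) (nat_lit 5020389929) (nat_lit 228) (nat_lit 3282268830) (nat_lit 76) (nat_lit 17280957008) (nat_lit 26) (nat_lit 5) (nat_lit 29) (nat_lit 5) (nat_lit 27) (nat_lit 5) (nat_lit 349) (nat_lit 268) (nat_lit 163)) (XT.nd (nat_lit 78) (nat_lit 0) (nat_lit 0) (XT.lf (nat_lit 0) (nat_lit 4555504543) (nat_lit 152) (nat_lit 3643088878) (nat_lit 228) (nat_lit 17996601783) (nat_lit 24) (nat_lit 5) (nat_lit 26) (nat_lit 5) (nat_lit 27) (nat_lit 5) (nat_lit 350) (nat_lit 268) (nat_lit 162)) (XT.lf (nat_lit 0) (nat_lit 11504702851) (nat_lit 228) (nat_lit 14158988533) (nat_lit 76) (nat_lit 1160470612) (nat_lit 24) (nat_lit 5) (nat_lit 27) (nat_lit 5) (nat_lit 25) (nat_lit 5) (nat_lit 351) (nat_lit 268) (nat_lit 161))))))))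
noncomputable def xc136 : XT := (XT.nd (nat_lit 1716) (nat_lit 456) (nat_lit 0) (XT.nd (nat_lit 858) (nat_lit 304) (nat_lit 0) (XT.nd (nat_lit 390) (nat_lit 380) (nat_lit 0) (XT.nd (nat_lit 156) (nat_lit 0) (nat_lit 0) (XT.nd (nat_lit 78) (nat_lit 152) (nat_lit 0) (XT.lf (nat_lit 0) (nat_lit 14934388498) (nat_lit 228) (nat_lit 6508491191) (nat_lit 76) (nat_lit 6028402590) (nat_lit 24) (nat_lit 5) (nat_lit 27) (nat_lit 5) (nat_lit 25) (nat_lit 5) (nat_lit 352) (nat_lit 268) (nat_lit 160)) (XT.lf (nat_lit 0) (nat_lit 1380443284) (nat_lit 152) (nat_lit 17088453960) (nat_lit 228) (nat_lit 9668876753) (nat_lit 22) (nat_lit 5) (nat_lit 24) (nat_lit 5) (nat_lit 25) (nat_lit 5) (nat_lit 353) (nat_lit 268) (nat_lit 159))) (XT.nd (nat_lit 78) (nat_lit 0) (nat_lit 0) (XT.lf (nat_lit 0) (nat_lit 9621624896) (nat_lit 152) (nat_lit 12542360952) (nat_lit 228) (nat_lit 6658653623) (nat_lit 22) (nat_lit 5) (nat_lit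 24) (nat_lit 5) (nat_lit 25) (nat_lit 5) (nat_lit 354) (nat_lit 268) (nat_lit 158)) (XT.nd (nat_lit 78) (nat_lit 0) (nat_lit 0) (XT.lf (nat_lit 0) (nat_lit 18092722939) (nat_lit 152) (nat_lit 7866351352) (nat_lit 228) (nat_lit 3569317099) (nat_lit 22) (nat_lit 5) (nat_lit 24) (nat_lit 5) (nat_lit 25) (nat_lit 5) (nat_lit 355) (nat_lit 268) (nat_lit 157)) (XT.lf (nat_lit 0) (nat_lit 26801139343) (nat_lit 152) (nat_lit 3056339326) (nat_lit 228) (nat_lit 398167760) (nat_lit 22) (nat_lit 5) (nat_lit 24) (nat_lit 5) (nat_lit 25) (nat_lit 5) (nat_lit 356) (nat_lit 268) (nat_lit 156))))) (XT.nd (nat_lit 234) (nat_lit 152) (nat_lit 0) (XT.nd (nat_lit 78) (nat_lit 0) (nat_lit 0) (XT.lf (nat_lit 0) (nat_lit 2867013989) (nat_lit 228) (nat_lit 26205792152) (nat_lit 76) (nat_lit 1929453551) (nat_lit 19) (nat_lit 5) (nat_lit 22) (nat_lit 5) (nat_lit 20) (nat_lit 5) (nat_lit 357) (nat_lit 268) (nat_lit 155))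 (XT.nd (nat_lit 78) (nat_lit 0) (nat_lit 0) (XT.lf (nat_lit 0) (nat_lit 6277377871) (nat_lit 228) (nat_lit 18455629848) (nat_lit 76) (nat_lit 7036501717) (nat_lit 19) (nat_lit 5) (nat_lit 22) (nat_lit 5) (nat_lit 20) (nat_lit 5) (nat_lit 358) (nat_lit 268) (nat_lit 154)) (XT.lf (nat_lit 0) (nat_lit 9780091059) (nat_lit 228) (nat_lit 10489119955) (nat_lit 76) (nat_lit 12290877356) (nat_lit 19) (nat_lit 5) (nat_lit 22) (nat_lit 5) (nat_lit 20) (nat_lit 5) (nat_lit 359) (nat_lit 268) (nat_lit 153)))) (XT.nd (nat_lit 78) (nat_lit 152) (nat_lit 0) (XT.lf (nat_lit 0) (nat_lit 13378214175) (nat_lit 228) (nat_lit 2299301445) (nat_lit 76) (nat_lit 17697171670) (nat_lit 19) (nat_lit 5) (nat_lit 22) (nat_lit 5) (nat_lit 20) (nat_lit 5) (nat_lit 360) (nat_lit 268) (nat_lit 152)) (XT.nd (nat_lit 78) (nat_lit 0) (nat_lit 0) (XT.lf (nat_lit 0) (nat_lit 6242801373) (nat_lit 152) (nat_lit 10892099462) (nat_lit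 228) (nat_lit 17077316859) (nat_lit 17) (nat_lit 5) (nat_lit 19) (nat_lit 5) (nat_lit 20) (nat_lit 5) (nat_lit 361) (nat_lit 268) (nat_lit 151)) (XT.lf (nat_lit 0) (nat_lit 15073220227) (nat_lit 152) (nat_lit 5945025057) (nat_lit 228) (nat_lit 14056221768) (nat_lit 17) (nat_lit 5) (nat_lit 19) (nat_lit 5) (nat_lit 20) (nat_lit 5) (nat_lit 362) (nat_lit 268) (nat_lit 150)))))) (XT.nd (nat_lit 390) (nat_lit 152) (nat_lit 0) (XT.nd (nat_lit 156) (nat_lit 152) (nat_lit 0) (XT.nd (nat_lit 78) (nat_lit 0) (nat_lit 0) (XT.lf (nat_lit 0) (nat_lit 24153910409) (nat_lit 152) (nat_lit 855188153) (nat_lit 228) (nat_lit 10953766490) (nat_lit 17) (nat_lit 5) (nat_lit 19) (nat_lit 5) (nat_lit 20) (nat_lit 5) (nat_lit 363) (nat_lit 268) (nat_lit 149)) (XT.lf (nat_lit 0) (nat_lit 29153068932) (nat_lit 228) (nat_lit 3427502569) (nat_lit 76) (nat_lit 4296352831) (nat_lit 17) (nat_lit 5) (nat_lit 20) (nat_lit 5)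 (nat_lit 18) (nat_lit 4) (nat_lit 364) (nat_lit 268) (nat_lit 148))) (XT.nd (nat_lit 78) (nat_lit 76) (nat_lit 0) (XT.lf (nat_lit 0) (nat_lit 5286061353) (nat_lit 76) (nat_lit 28186050578) (nat_lit 152) (nat_lit 4344781614) (nat_lit 16) (nat_lit 5) (nat_lit 17) (nat_lit 5) (nat_lit 18) (nat_lit 4) (nat_lit 365) (nat_lit 268) (nat_lit 147)) (XT.nd (nat_lit 78) (nat_lit 76) (nat_lit 0) (XT.lf (nat_lit 0) (nat_lit 14317415434) (nat_lit 76) (nat_lit 23629510247) (nat_lit 152) (nat_lit 837360618) (nat_lit 16) (nat_lit 5) (nat_lit 17) (nat_lit 5) (nat_lit 18) (nat_lit 4) (nat_lit 366) (nat_lit 268) (nat_lit 146)) (XT.lf (nat_lit 0) (nat_lit 2712869840) (nat_lit 152) (nat_lit 16201315614) (nat_lit 76) (nat_lit 20865972618) (nat_lit 15) (nat_lit 5) (nat_lit 17) (nat_lit 5) (nat_lit 16) (nat_lit 5) (nat_lit 367) (nat_lit 268) (nat_lit 145))))) (XT.nd (nat_lit 234) (nat_lit 0) (nat_lit 0) (XT.nd (nat_lit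 78) (nat_lit 152) (nat_lit 0) (XT.lf (nat_lit 0) (nat_lit 6344760200) (nat_lit 152) (nat_lit 7709334112) (nat_lit 76) (nat_lit 26751813033) (nat_lit 15) (nat_lit 5) (nat_lit 17) (nat_lit 5) (nat_lit 16) (nat_lit 5) (nat_lit 368) (nat_lit 268) (nat_lit 144)) (XT.nd (nat_lit 78) (nat_lit 0) (nat_lit 0) (XT.lf (nat_lit 0) (nat_lit 1044933456) (nat_lit 152) (nat_lit 9042934962) (nat_lit 228) (nat_lit 31774502126) (nat_lit 13) (nat_lit 5) (nat_lit 15) (nat_lit 5) (nat_lit 16) (nat_lit 5) (nat_lit 369) (nat_lit 268) (nat_lit 143)) (XT.lf (nat_lit 0) (nat_lit 10207125165) (nat_lit 152) (nat_lit 3806314744) (nat_lit 228) (nat_lit 28934991643) (nat_lit 13) (nat_lit 5) (nat_lit 15) (nat_lit 5) (nat_lit 16) (nat_lit 5) (nat_lit 370) (nat_lit 268) (nat_lit 142)))) (XT.nd (nat_lit 78) (nat_lit 0) (nat_lit 0) (XT.lf (nat_lit 0) (nat_lit 18064534965) (nat_lit 228) (nat_lit 24450702744) (nat_lit 76) (nat_lit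 1551612736) (nat_lit 13) (nat_lit 5) (nat_lit 16) (nat_lit 5) (nat_lit 14) (nat_lit 4) (nat_lit 371) (nat_lit 268) (nat_lit 141)) (XT.nd (nat_lit 78) (nat_lit 0) (nat_lit 0) (XT.lf (nat_lit 0) (nat_lit 22267565003) (nat_lit 228) (nat_lit 15961253569) (nat_lit 76) (nat_lit 6989099764) (nat_lit 13) (nat_lit 5) (nat_lit 16) (nat_lit 5) (nat_lit 14) (nat_lit 4) (nat_lit 372) (nat_lit 268) (nat_lit 140)) (XT.lf (nat_lit 0) (nat_lit 26589613948) (nat_lit 228) (nat_lit 7228952271) (nat_lit 76) (nat_lit 12585172452) (nat_lit 13) (nat_lit 5) (nat_lit 16) (nat_lit 5) (nat_lit 14) (nat_lit 4) (nat_lit 373) (nat_lit 268) (nat_lit 139))))))) (XT.nd (nat_lit 858) (nat_lit 152) (nat_lit 0) (XT.nd (nat_lit 390) (nat_lit 228) (nat_lit 0) (XT.nd (nat_lit 156) (nat_lit 0) (nat_lit 0) (XT.nd (nat_lit 78) (nat_lit 0) (nat_lit 0) (XT.lf (nat_lit 0) (nat_lit 1788735997) (nat_lit 76) (nat_lit 29262916775) (nat_lit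 152) (nat_lit 16573179000) (nat_lit 12) (nat_lit 5) (nat_lit 13) (nat_lit 5) (nat_lit 14) (nat_lit 4) (nat_lit 374) (nat_lit 268) (nat_lit 138)) (XT.lf (nat_lit 0) (nat_lit 11213767213) (nat_lit 76) (nat_lit 24500008423) (nat_lit 152) (nat_lit 13166803115) (nat_lit 12) (nat_lit 5) (nat_lit 13) (nat_lit 5) (nat_lit 14) (nat_lit 4) (nat_lit 375) (nat_lit 268) (nat_lit 137))) (XT.nd (nat_lit 78) (nat_lit 0) (nat_lit 0) (XT.lf (nat_lit 0) (nat_lit 20910506517) (nat_lit 76) (nat_lit 19598677642) (nat_lit 152) (nat_lit 9665018870) (nat_lit 12) (nat_lit 5) (nat_lit 13) (nat_lit 5) (nat_lit 14) (nat_lit 4) (nat_lit 376) (nat_lit 268) (nat_lit 136)) (XT.nd (nat_lit 78) (nat_lit 0) (nat_lit 0) (XT.lf (nat_lit 0) (nat_lit 30887426788) (nat_lit 76) (nat_lit 14554641717) (nat_lit 152) (nat_lit 6064766452) (nat_lit 12) (nat_lit 5) (nat_lit 13) (nat_lit 5) (nat_lit 14) (nat_lit 4) (nat_lit 377) (nat_lit 268)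 (nat_lit 135)) (XT.lf (nat_lit 0) (nat_lit 41153245722) (nat_lit 76) (nat_lit 9363493236) (nat_lit 152) (nat_lit 2362900009) (nat_lit 12) (nat_lit 5) (nat_lit 13) (nat_lit 5) (nat_lit 14) (nat_lit 4) (nat_lit 378) (nat_lit 268) (nat_lit 134))))) (XT.nd (nat_lit 234) (nat_lit 0) (nat_lit 0) (XT.nd (nat_lit 78) (nat_lit 152) (nat_lit 0) (XT.lf (nat_lit 0) (nat_lit 1415641064) (nat_lit 152) (nat_lit 2590759982) (nat_lit 76) (nat_lit 50286997190) (nat_lit 11) (nat_lit 5) (nat_lit 13) (nat_lit 5) (nat_lit 12) (nat_lit 5) (nat_lit 379) (nat_lit 268) (nat_lit 133)) (XT.nd (nat_lit 78) (nat_lit 0) (nat_lit 0) (XT.lf (nat_lit 0) (nat_lit 5336043228) (nat_lit 228) (nat_lit 48841777910) (nat_lit 76) (nat_lit 1568773899) (nat_lit 9) (nat_lit 5) (nat_lit 12) (nat_lit 5) (nat_lit 10) (nat_lit 4) (nat_lit 380) (nat_lit 268) (nat_lit 132)) (XT.lf (nat_lit 0) (nat_lit 9434275503) (nat_lit 228) (nat_lit 40554140545)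 (nat_lit 76) (nat_lit 7253171475) (nat_lit 9) (nat_lit 5) (nat_lit 12) (nat_lit 5) (nat_lit 10) (nat_lit 4) (nat_lit 381) (nat_lit 268) (nat_lit 131)))) (XT.nd (nat_lit 78) (nat_lit 0) (nat_lit 0) (XT.lf (nat_lit 0) (nat_lit 13649755800) (nat_lit 228) (nat_lit 32027564232) (nat_lit 76) (nat_lit 13104286855) (nat_lit 9) (nat_lit 5) (nat_lit 12) (nat_lit 5) (nat_lit 10) (nat_lit 4) (nat_lit 382) (nat_lit 268) (nat_lit 130)) (XT.nd (nat_lit 78) (nat_lit 0) (nat_lit 0) (XT.lf (nat_lit 0) (nat_lit 17986167550) (nat_lit 228) (nat_lit 23254598564) (nat_lit 76) (nat_lit 19127232664) (nat_lit 9) (nat_lit 5) (nat_lit 12) (nat_lit 5) (nat_lit 10) (nat_lit 4) (nat_lit 383) (nat_lit 268) (nat_lit 129)) (XT.lf (nat_lit 0) (nat_lit 22447299850) (nat_lit 228) (nat_lit 14227577845) (nat_lit 76) (nat_lit 25327271671) (nat_lit 9) (nat_lit 5) (nat_lit 12) (nat_lit 5) (nat_lit 10) (nat_lit 4) (nat_lit 384) (nat_lit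 268) (nat_lit 128)))))) (XT.nd (nat_lit 468) (nat_lit 76) (nat_lit 0) (XT.nd (nat_lit 234) (nat_lit 0) (nat_lit 0) (XT.nd (nat_lit 78) (nat_lit 76) (nat_lit 0) (XT.lf (nat_lit 0) (nat_lit 27037050777) (nat_lit 228) (nat_lit 4938614385) (nat_lit 76) (nat_lit 31709821385) (nat_lit 9) (nat_lit 5) (nat_lit 12) (nat_lit 5) (nat_lit 10) (nat_lit 4) (nat_lit 385) (nat_lit 268) (nat_lit 127)) (XT.nd (nat_lit 78) (nat_lit 0) (nat_lit 0) (XT.lf (nat_lit 0) (nat_lit 4712363570) (nat_lit 76) (nat_lit 27092365343) (nat_lit 152) (nat_lit 33613393341) (nat_lit 8) (nat_lit 5) (nat_lit 9) (nat_lit 5) (nat_lit 10) (nat_lit 4) (nat_lit 386) (nat_lit 268) (nat_lit 126)) (XT.lf (nat_lit 0) (nat_lit 14745582433) (nat_lit 76) (nat_lit 22014727374) (nat_lit 152) (nat_lit 30441086349) (nat_lit 8) (nat_lit 5) (nat_lit 9) (nat_lit 5) (nat_lit 10) (nat_lit 4) (nat_lit 387) (nat_lit 268) (nat_lit 125)))) (XT.nd (nat_lit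 78) (nat_lit 0) (nat_lit 0) (XT.lf (nat_lit 0) (nat_lit 25071520982) (nat_lit 76) (nat_lit 16788184806) (nat_lit 152) (nat_lit 27178613195) (nat_lit 8) (nat_lit 5) (nat_lit 9) (nat_lit 5) (nat_lit 10) (nat_lit 4) (nat_lit 388) (nat_lit 268) (nat_lit 124)) (XT.nd (nat_lit 78) (nat_lit 0) (nat_lit 0) (XT.lf (nat_lit 0) (nat_lit 35699201882) (nat_lit 76) (nat_lit 11408170757) (nat_lit 152) (nat_lit 23823123175) (nat_lit 8) (nat_lit 5) (nat_lit 9) (nat_lit 5) (nat_lit 10) (nat_lit 4) (nat_lit 389) (nat_lit 268) (nat_lit 123)) (XT.lf (nat_lit 0) (nat_lit 46637911457) (nat_lit 76) (nat_lit 5869984245) (nat_lit 152) (nat_lit 20371684309) (nat_lit 8) (nat_lit 5) (nat_lit 9) (nat_lit 5) (nat_lit 10) (nat_lit 4) (nat_lit 390) (nat_lit 268) (nat_lit 122))))) (XT.nd (nat_lit 234) (nat_lit 0) (nat_lit 0) (XT.nd (nat_lit 78) (nat_lit 76) (nat_lit 0) (XT.lf (nat_lit 0) (nat_lit 57897207802) (nat_lit 76) (nat_lit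 168786076) (nat_lit 152) (nat_lit 16821280774) (nat_lit 8) (nat_lit 5) (nat_lit 9) (nat_lit 5) (nat_lit 10) (nat_lit 4) (nat_lit 391) (nat_lit 268) (nat_lit 121)) (XT.nd (nat_lit 78) (nat_lit 76) (nat_lit 0) (XT.lf (nat_lit 0) (nat_lit 63841319543) (nat_lit 152) (nat_lit 7523200684) (nat_lit 0) (nat_lit 5589169937) (nat_lit 8) (nat_lit 5) (nat_lit 10) (nat_lit 4) (nat_lit 8) (nat_lit 4) (nat_lit 392) (nat_lit 268) (nat_lit 120)) (XT.lf (nat_lit 0) (nat_lit 2262916656) (nat_lit 76) (nat_lit 67546197943) (nat_lit 76) (nat_lit 9272411685) (nat_lit 7) (nat_lit 4) (nat_lit 8) (nat_lit 5) (nat_lit 8) (nat_lit 4) (nat_lit 393) (nat_lit 268) (nat_lit 119)))) (XT.nd (nat_lit 78) (nat_lit 0) (nat_lit 0) (XT.lf (nat_lit 0) (nat_lit 12489665433) (nat_lit 76) (nat_lit 63538087397) (nat_lit 76) (nat_lit 5243294683) (nat_lit 7) (nat_lit 4) (nat_lit 8) (nat_lit 5) (nat_lit 8) (nat_lit 4) (nat_lit 394) (nat_lit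 268) (nat_lit 118)) (XT.nd (nat_lit 30810) (nat_lit 0) (nat_lit 16264) (XT.lf (nat_lit 0) (nat_lit 23016255195) (nat_lit 76) (nat_lit 59412655935) (nat_lit 76) (nat_lit 1097468602) (nat_lit 7) (nat_lit 4) (nat_lit 8) (nat_lit 5) (nat_lit 8) (nat_lit 4) (nat_lit 395) (nat_lit 268) (nat_lit 117)) (XT.lf (nat_lit 0) (nat_lit 407104286) (nat_lit 0) (nat_lit 407104286) (nat_lit 532) (nat_lit 2588391268) (nat_lit 221) (nat_lit 5) (nat_lit 221) (nat_lit 3) (nat_lit 228) (nat_lit 3) (nat_lit 269) (nat_lit 269) (nat_lit 242))))))))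
noncomputable def xc137 : XT := (XT.nd (nat_lit 1716) (nat_lit 5852) (nat_lit 0) (XT.nd (nat_lit 858) (nat_lit 4256) (nat_lit 0) (XT.nd (nat_lit 390) (nat_lit 608) (nat_lit 0) (XT.nd (nat_lit 156) (nat_lit 608) (nat_lit 0) (XT.nd (nat_lit 78) (nat_lit 0) (nat_lit 0) (XT.lf (nat_lit 0) (nat_lit 3454125428) (nat_lit 532) (nat_lit 3099216920) (nat_lit 608) (nat_lit 293184194) (nat_lit 221) (nat_lit 5) (nat_lit 228) (nat_lit 3) (nat_lit 229) (nat_lit 5) (nat_lit 270) (nat_lit 269) (nat_lit 241)) (XT.lf (nat_lit 0) (nat_lit 5272816946) (nat_lit 532) (nat_lit 166549308) (nat_lit 608) (nat_lit 1451842571) (nat_lit 221) (nat_lit 5) (nat_lit 228) (nat_lit 3) (nat_lit 229) (nat_lit 5) (nat_lit 271) (nat_lit 269) (nat_lit 240))) (XT.nd (nat_lit 78) (nat_lit 0) (nat_lit 0) (XT.lf (nat_lit 0) (nat_lit 163921665) (nat_lit 608) (nat_lit 4066826077) (nat_lit 684) (nat_lit 2707895772) (nat_lit 213) (nat_lit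 5) (nat_lit 221) (nat_lit 5) (nat_lit 222) (nat_lit 5) (nat_lit 272) (nat_lit 269) (nat_lit 239)) (XT.nd (nat_lit 78) (nat_lit 0) (nat_lit 0) (XT.lf (nat_lit 0) (nat_lit 1901788420) (nat_lit 608) (nat_lit 1036654372) (nat_lit 684) (nat_lit 4050779130) (nat_lit 213) (nat_lit 5) (nat_lit 221) (nat_lit 5) (nat_lit 222) (nat_lit 5) (nat_lit 273) (nat_lit 269) (nat_lit 238)) (XT.lf (nat_lit 76) (nat_lit 2088365737) (nat_lit 0) (nat_lit 1558367474) (nat_lit 684) (nat_lit 3396168974) (nat_lit 214) (nat_lit 5) (nat_lit 213) (nat_lit 5) (nat_lit 222) (nat_lit 5) (nat_lit 274) (nat_lit 269) (nat_lit 237))))) (XT.nd (nat_lit 234) (nat_lit 0) (nat_lit 0) (XT.nd (nat_lit 78) (nat_lit 608) (nat_lit 0) (XT.lf (nat_lit 76) (nat_lit 5291939431) (nat_lit 0) (nat_lit 98969188) (nat_lit 684) (nat_lit 1709103753) (nat_lit 214) (nat_lit 5) (nat_lit 213) (nat_lit 5) (nat_lit 222) (nat_lit 5) (nat_lit 275) (nat_lit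 269) (nat_lit 236)) (XT.nd (nat_lit 78) (nat_lit 684) (nat_lit 0) (XT.lf (nat_lit 76) (nat_lit 1409071867) (nat_lit 0) (nat_lit 5743899804) (nat_lit 684) (nat_lit 7116723) (nat_lit 215) (nat_lit 5) (nat_lit 214) (nat_lit 5) (nat_lit 223) (nat_lit 5) (nat_lit 276) (nat_lit 269) (nat_lit 235)) (XT.lf (nat_lit 0) (nat_lit 1670426935) (nat_lit 684) (nat_lit 2518326535) (nat_lit 760) (nat_lit 3034159553) (nat_lit 205) (nat_lit 5) (nat_lit 214) (nat_lit 5) (nat_lit 215) (nat_lit 5) (nat_lit 277) (nat_lit 269) (nat_lit 234)))) (XT.nd (nat_lit 78) (nat_lit 0) (nat_lit 0) (XT.lf (nat_lit 76) (nat_lit 789040908) (nat_lit 0) (nat_lit 2557617838) (nat_lit 760) (nat_lit 3942707168) (nat_lit 206) (nat_lit 5) (nat_lit 205) (nat_lit 5) (nat_lit 215) (nat_lit 5) (nat_lit 278) (nat_lit 269) (nat_lit 233)) (XT.nd (nat_lit 78) (nat_lit 0) (nat_lit 76) (XT.lf (nat_lit 76) (nat_lit 4209991706) (nat_lit 0) (nat_lit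 830898705) (nat_lit 760) (nat_lit 2318085531) (nat_lit 206) (nat_lit 5) (nat_lit 205) (nat_lit 5) (nat_lit 215) (nat_lit 5) (nat_lit 279) (nat_lit 269) (nat_lit 232)) (XT.lf (nat_lit 76) (nat_lit 260636713) (nat_lit 0) (nat_lit 6481081567) (nat_lit 760) (nat_lit 690472170) (nat_lit 207) (nat_lit 5) (nat_lit 206) (nat_lit 5) (nat_lit 216) (nat_lit 5) (nat_lit 280) (nat_lit 269) (nat_lit 231)))))) (XT.nd (nat_lit 390) (nat_lit 2888) (nat_lit 0) (XT.nd (nat_lit 156) (nat_lit 684) (nat_lit 0) (XT.nd (nat_lit 78) (nat_lit 0) (nat_lit 0) (XT.lf (nat_lit 0) (nat_lit 951766658) (nat_lit 760) (nat_lit 3726710400) (nat_lit 836) (nat_lit 2829467290) (nat_lit 196) (nat_lit 5) (nat_lit 206) (nat_lit 5) (nat_lit 207) (nat_lit 5) (nat_lit 281) (nat_lit 269) (nat_lit 230)) (XT.lf (nat_lit 0) (nat_lit 2575702378) (nat_lit 760) (nat_lit 223359137) (nat_lit 836) (nat_lit 4788488228) (nat_lit 196) (nat_lit 5) (nat_lit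 206) (nat_lit 5) (nat_lit 207) (nat_lit 5) (nat_lit 282) (nat_lit 269) (nat_lit 229))) (XT.nd (nat_lit 78) (nat_lit 684) (nat_lit 0) (XT.lf (nat_lit 76) (nat_lit 3414834186) (nat_lit 0) (nat_lit 814218850) (nat_lit 836) (nat_lit 3441237511) (nat_lit 197) (nat_lit 5) (nat_lit 196) (nat_lit 5) (nat_lit 207) (nat_lit 5) (nat_lit 283) (nat_lit 269) (nat_lit 228)) (XT.nd (nat_lit 78) (nat_lit 760) (nat_lit 0) (XT.lf (nat_lit 0) (nat_lit 5895284403) (nat_lit 760) (nat_lit 638904708) (nat_lit 76) (nat_lit 1222589313) (nat_lit 197) (nat_lit 5) (nat_lit 207) (nat_lit 5) (nat_lit 198) (nat_lit 5) (nat_lit 284) (nat_lit 269) (nat_lit 227)) (XT.lf (nat_lit 0) (nat_lit 3101354614) (nat_lit 760) (nat_lit 4498679291) (nat_lit 836) (nat_lit 246329599) (nat_lit 187) (nat_lit 5) (nat_lit 197) (nat_lit 5) (nat_lit 198) (nat_lit 5) (nat_lit 285) (nat_lit 269) (nat_lit 226))))) (XT.nd (nat_lit 234) (nat_lit 1976)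 (nat_lit 0) (XT.nd (nat_lit 78) (nat_lit 836) (nat_lit 0) (XT.lf (nat_lit 0) (nat_lit 1347260333) (nat_lit 836) (nat_lit 1023214812) (nat_lit 76) (nat_lit 5569172866) (nat_lit 186) (nat_lit 5) (nat_lit 197) (nat_lit 5) (nat_lit 187) (nat_lit 5) (nat_lit 286) (nat_lit 269) (nat_lit 225)) (XT.nd (nat_lit 78) (nat_lit 0) (nat_lit 0) (XT.lf (nat_lit 0) (nat_lit 2826044241) (nat_lit 836) (nat_lit 137363788) (nat_lit 912) (nat_lit 5073003876) (nat_lit 175) (nat_lit 5) (nat_lit 186) (nat_lit 5) (nat_lit 187) (nat_lit 5) (nat_lit 287) (nat_lit 269) (nat_lit 224)) (XT.lf (nat_lit 0) (nat_lit 4612926318) (nat_lit 912) (nat_lit 1383068159) (nat_lit 76) (nat_lit 2140678480) (nat_lit 175) (nat_lit 5) (nat_lit 187) (nat_lit 5) (nat_lit 176) (nat_lit 5) (nat_lit 288) (nat_lit 269) (nat_lit 223)))) (XT.nd (nat_lit 78) (nat_lit 1064) (nat_lit 0) (XT.lf (nat_lit 0) (nat_lit 2570804003) (nat_lit 912) (nat_lit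 3722209793) (nat_lit 988) (nat_lit 1947632259) (nat_lit 163) (nat_lit 5) (nat_lit 175) (nat_lit 5) (nat_lit 176) (nat_lit 5) (nat_lit 289) (nat_lit 269) (nat_lit 222)) (XT.nd (nat_lit 78) (nat_lit 1064) (nat_lit 0) (XT.lf (nat_lit 0) (nat_lit 6634955191) (nat_lit 912) (nat_lit 1358484119) (nat_lit 988) (nat_lit 355333715) (nat_lit 163) (nat_lit 5) (nat_lit 175) (nat_lit 5) (nat_lit 176) (nat_lit 5) (nat_lit 290) (nat_lit 269) (nat_lit 221)) (XT.lf (nat_lit 0) (nat_lit 1249787614) (nat_lit 1064) (nat_lit 6113330553) (nat_lit 76) (nat_lit 1097076561) (nat_lit 149) (nat_lit 5) (nat_lit 163) (nat_lit 5) (nat_lit 150) (nat_lit 5) (nat_lit 291) (nat_lit 269) (nat_lit 220))))))) (XT.nd (nat_lit 858) (nat_lit 2508) (nat_lit 0) (XT.nd (nat_lit 390) (nat_lit 1596) (nat_lit 0) (XT.nd (nat_lit 156) (nat_lit 684) (nat_lit 0) (XT.nd (nat_lit 78) (nat_lit 1064) (nat_lit 0) (XT.lf (nat_lit 0) (nat_lit 2884522254)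 (nat_lit 1064) (nat_lit 2064781566) (nat_lit 76) (nat_lit 3626013149) (nat_lit 149) (nat_lit 5) (nat_lit 163) (nat_lit 5) (nat_lit 150) (nat_lit 5) (nat_lit 292) (nat_lit 269) (nat_lit 219)) (XT.lf (nat_lit 0) (nat_lit 2109791524) (nat_lit 1064) (nat_lit 2437694463) (nat_lit 1140) (nat_lit 4147149218) (nat_lit 135) (nat_lit 5) (nat_lit 149) (nat_lit 5) (nat_lit 150) (nat_lit 5) (nat_lit 293) (nat_lit 269) (nat_lit 218))) (XT.nd (nat_lit 78) (nat_lit 684) (nat_lit 0) (XT.lf (nat_lit 0) (nat_lit 6242623548) (nat_lit 1140) (nat_lit 2404224402) (nat_lit 76) (nat_lit 171330993) (nat_lit 135) (nat_lit 5) (nat_lit 150) (nat_lit 5) (nat_lit 136) (nat_lit 5) (nat_lit 294) (nat_lit 269) (nat_lit 217)) (XT.nd (nat_lit 78) (nat_lit 76) (nat_lit 0) (XT.lf (nat_lit 0) (nat_lit 1877812518) (nat_lit 608) (nat_lit 6113953477) (nat_lit 684) (nat_lit 953679646) (nat_lit 127) (nat_lit 5) (nat_lit 135) (nat_lit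 5) (nat_lit 136) (nat_lit 5) (nat_lit 295) (nat_lit 269) (nat_lit 216)) (XT.lf (nat_lit 0) (nat_lit 688651781) (nat_lit 684) (nat_lit 2782364320) (nat_lit 76) (nat_lit 5605838669) (nat_lit 126) (nat_lit 5) (nat_lit 135) (nat_lit 5) (nat_lit 127) (nat_lit 5) (nat_lit 296) (nat_lit 269) (nat_lit 215))))) (XT.nd (nat_lit 234) (nat_lit 532) (nat_lit 0) (XT.nd (nat_lit 78) (nat_lit 532) (nat_lit 0) (XT.lf (nat_lit 0) (nat_lit 1617638645) (nat_lit 532) (nat_lit 721393743) (nat_lit 608) (nat_lit 6873653829) (nat_lit 119) (nat_lit 5) (nat_lit 126) (nat_lit 5) (nat_lit 127) (nat_lit 5) (nat_lit 297) (nat_lit 269) (nat_lit 214)) (XT.nd (nat_lit 78) (nat_lit 532) (nat_lit 0) (XT.lf (nat_lit 0) (nat_lit 4050751163) (nat_lit 608) (nat_lit 3202451337) (nat_lit 76) (nat_lit 2099134079) (nat_lit 119) (nat_lit 5) (nat_lit 127) (nat_lit 5) (nat_lit 120) (nat_lit 5) (nat_lit 298) (nat_lit 269) (nat_lit 213)) (XT.lf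 (nat_lit 0) (nat_lit 1304496503) (nat_lit 532) (nat_lit 4493242697) (nat_lit 608) (nat_lit 3699015615) (nat_lit 112) (nat_lit 5) (nat_lit 119) (nat_lit 5) (nat_lit 120) (nat_lit 5) (nat_lit 299) (nat_lit 269) (nat_lit 212)))) (XT.nd (nat_lit 78) (nat_lit 532) (nat_lit 0) (XT.lf (nat_lit 0) (nat_lit 5976911081) (nat_lit 532) (nat_lit 1617501351) (nat_lit 608) (nat_lit 2051268003) (nat_lit 112) (nat_lit 5) (nat_lit 119) (nat_lit 5) (nat_lit 120) (nat_lit 5) (nat_lit 300) (nat_lit 269) (nat_lit 211)) (XT.nd (nat_lit 78) (nat_lit 76) (nat_lit 0) (XT.lf (nat_lit 0) (nat_lit 960781639) (nat_lit 456) (nat_lit 8472319398) (nat_lit 532) (nat_lit 366419722) (nat_lit 106) (nat_lit 5) (nat_lit 112) (nat_lit 5) (nat_lit 113) (nat_lit 5) (nat_lit 301) (nat_lit 269) (nat_lit 210)) (XT.lf (nat_lit 0) (nat_lit 1361882085) (nat_lit 532) (nat_lit 4217857610) (nat_lit 76) (nat_lit 4377338365) (nat_lit 105) (nat_lit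 5) (nat_lit 112) (nat_lit 5) (nat_lit 106) (nat_lit 5) (nat_lit 302) (nat_lit 269) (nat_lit 209)))))) (XT.nd (nat_lit 468) (nat_lit 1140) (nat_lit 0) (XT.nd (nat_lit 234) (nat_lit 912) (nat_lit 0) (XT.nd (nat_lit 78) (nat_lit 0) (nat_lit 0) (XT.lf (nat_lit 0) (nat_lit 513204872) (nat_lit 456) (nat_lit 2593573965) (nat_lit 532) (nat_lit 7013393810) (nat_lit 99) (nat_lit 5) (nat_lit 105) (nat_lit 5) (nat_lit 106) (nat_lit 5) (nat_lit 303) (nat_lit 269) (nat_lit 208)) (XT.nd (nat_lit 78) (nat_lit 0) (nat_lit 0) (XT.lf (nat_lit 0) (nat_lit 4919451010) (nat_lit 532) (nat_lit 4854792576) (nat_lit 76) (nat_lit 513533939) (nat_lit 99) (nat_lit 5) (nat_lit 106) (nat_lit 5) (nat_lit 100) (nat_lit 5) (nat_lit 304) (nat_lit 269) (nat_lit 207)) (XT.lf (nat_lit 0) (nat_lit 6780900498) (nat_lit 532) (nat_lit 20211422) (nat_lit 76) (nat_lit 3659544687) (nat_lit 99) (nat_lit 5) (nat_lit 106) (nat_lit 5) (nat_lit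 100) (nat_lit 5) (nat_lit 305) (nat_lit 269) (nat_lit 206)))) (XT.nd (nat_lit 78) (nat_lit 532) (nat_lit 0) (XT.lf (nat_lit 0) (nat_lit 5023966783) (nat_lit 380) (nat_lit 3692149449) (nat_lit 456) (nat_lit 1922143849) (nat_lit 94) (nat_lit 5) (nat_lit 99) (nat_lit 5) (nat_lit 100) (nat_lit 5) (nat_lit 306) (nat_lit 269) (nat_lit 205)) (XT.nd (nat_lit 78) (nat_lit 532) (nat_lit 0) (XT.lf (nat_lit 0) (nat_lit 10186736778) (nat_lit 380) (nat_lit 493051022) (nat_lit 456) (nat_lit 142365374) (nat_lit 94) (nat_lit 5) (nat_lit 99) (nat_lit 5) (nat_lit 100) (nat_lit 5) (nat_lit 307) (nat_lit 269) (nat_lit 204)) (XT.lf (nat_lit 0) (nat_lit 1699578659) (nat_lit 532) (nat_lit 6506031312) (nat_lit 76) (nat_lit 2804281794) (nat_lit 87) (nat_lit 5) (nat_lit 94) (nat_lit 5) (nat_lit 88) (nat_lit 5) (nat_lit 308) (nat_lit 269) (nat_lit 203))))) (XT.nd (nat_lit 234) (nat_lit 760) (nat_lit 0) (XT.nd (nat_lit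 78) (nat_lit 380) (nat_lit 0) (XT.lf (nat_lit 0) (nat_lit 3576492711) (nat_lit 532) (nat_lit 1432490225) (nat_lit 76) (nat_lit 6194827358) (nat_lit 87) (nat_lit 5) (nat_lit 94) (nat_lit 5) (nat_lit 88) (nat_lit 5) (nat_lit 309) (nat_lit 269) (nat_lit 202)) (XT.nd (nat_lit 78) (nat_lit 0) (nat_lit 0) (XT.lf (nat_lit 0) (nat_lit 3835671418) (nat_lit 380) (nat_lit 1682963506) (nat_lit 456) (nat_lit 5884709131) (nat_lit 82) (nat_lit 5) (nat_lit 87) (nat_lit 5) (nat_lit 88) (nat_lit 5) (nat_lit 310) (nat_lit 269) (nat_lit 201)) (XT.lf (nat_lit 0) (nat_lit 7522913569) (nat_lit 456) (nat_lit 2367041055) (nat_lit 76) (nat_lit 1718856441) (nat_lit 82) (nat_lit 5) (nat_lit 88) (nat_lit 5) (nat_lit 83) (nat_lit 5) (nat_lit 311) (nat_lit 269) (nat_lit 200)))) (XT.nd (nat_lit 78) (nat_lit 380) (nat_lit 0) (XT.lf (nat_lit 0) (nat_lit 2999479738) (nat_lit 380) (nat_lit 6606647730) (nat_lit 456) (nat_lit 2213811960)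 (nat_lit 77) (nat_lit 5) (nat_lit 82) (nat_lit 5) (nat_lit 83) (nat_lit 5) (nat_lit 312) (nat_lit 269) (nat_lit 199)) (XT.nd (nat_lit 78) (nat_lit 380) (nat_lit 0) (XT.lf (nat_lit 0) (nat_lit 8543834490) (nat_lit 380) (nat_lit 3205689610) (nat_lit 456) (nat_lit 288006712) (nat_lit 77) (nat_lit 5) (nat_lit 82) (nat_lit 5) (nat_lit 83) (nat_lit 5) (nat_lit 313) (nat_lit 269) (nat_lit 198)) (XT.lf (nat_lit 0) (nat_lit 1658949954) (nat_lit 380) (nat_lit 10280617202) (nat_lit 76) (nat_lit 321756224) (nat_lit 72) (nat_lit 5) (nat_lit 77) (nat_lit 5) (nat_lit 73) (nat_lit 5) (nat_lit 314) (nat_lit 269) (nat_lit 197))))))))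
noncomputable def xc138 : XT := (XT.nd (nat_lit 1716) (nat_lit 1368) (nat_lit 0) (XT.nd (nat_lit 858) (nat_lit 1368) (nat_lit 0) (XT.nd (nat_lit 390) (nat_lit 608) (nat_lit 0) (XT.nd (nat_lit 156) (nat_lit 304) (nat_lit 0) (XT.nd (nat_lit 78) (nat_lit 380) (nat_lit 0) (XT.lf (nat_lit 0) (nat_lit 3700530688) (nat_lit 380) (nat_lit 4866535375) (nat_lit 76) (nat_lit 3923472682) (nat_lit 72) (nat_lit 5) (nat_lit 77) (nat_lit 5) (nat_lit 73) (nat_lit 5) (nat_lit 315) (nat_lit 269) (nat_lit 196)) (XT.lf (nat_lit 0) (nat_lit 692628481) (nat_lit 380) (nat_lit 5092762829) (nat_lit 456) (nat_lit 6941831383) (nat_lit 67) (nat_lit 5) (nat_lit 72) (nat_lit 5) (nat_lit 73) (nat_lit 5) (nat_lit 316) (nat_lit 269) (nat_lit 195))) (XT.nd (nat_lit 78) (nat_lit 304) (nat_lit 0) (XT.lf (nat_lit 0) (nat_lit 6487772867) (nat_lit 380) (nat_lit 1469965392) (nat_lit 456) (nat_lit 5012572231) (nat_lit 67) (nat_lit 5)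 (nat_lit 72) (nat_lit 5) (nat_lit 73) (nat_lit 5) (nat_lit 317) (nat_lit 269) (nat_lit 194)) (XT.nd (nat_lit 78) (nat_lit 304) (nat_lit 0) (XT.lf (nat_lit 0) (nat_lit 10193438372) (nat_lit 456) (nat_lit 816017775) (nat_lit 76) (nat_lit 2211339341) (nat_lit 67) (nat_lit 5) (nat_lit 73) (nat_lit 5) (nat_lit 68) (nat_lit 5) (nat_lit 318) (nat_lit 269) (nat_lit 193)) (XT.lf (nat_lit 0) (nat_lit 5075509928) (nat_lit 304) (nat_lit 7461172363) (nat_lit 380) (nat_lit 940947149) (nat_lit 63) (nat_lit 5) (nat_lit 67) (nat_lit 5) (nat_lit 68) (nat_lit 5) (nat_lit 319) (nat_lit 269) (nat_lit 192))))) (XT.nd (nat_lit 234) (nat_lit 228) (nat_lit 0) (XT.nd (nat_lit 78) (nat_lit 304) (nat_lit 0) (XT.lf (nat_lit 0) (nat_lit 1170049853) (nat_lit 380) (nat_lit 2622789105) (nat_lit 76) (nat_lit 9949459829) (nat_lit 62) (nat_lit 5) (nat_lit 67) (nat_lit 5) (nat_lit 63) (nat_lit 5) (nat_lit 320) (nat_lit 269) (nat_lit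 191)) (XT.nd (nat_lit 78) (nat_lit 0) (nat_lit 0) (XT.lf (nat_lit 0) (nat_lit 3335854390) (nat_lit 380) (nat_lit 10657278166) (nat_lit 76) (nat_lit 21228944) (nat_lit 58) (nat_lit 5) (nat_lit 63) (nat_lit 5) (nat_lit 59) (nat_lit 5) (nat_lit 321) (nat_lit 269) (nat_lit 190)) (XT.lf (nat_lit 0) (nat_lit 5609145963) (nat_lit 380) (nat_lit 4790657002) (nat_lit 76) (nat_lit 3893550912) (nat_lit 58) (nat_lit 5) (nat_lit 63) (nat_lit 5) (nat_lit 59) (nat_lit 5) (nat_lit 322) (nat_lit 269) (nat_lit 189)))) (XT.nd (nat_lit 78) (nat_lit 0) (nat_lit 0) (XT.lf (nat_lit 0) (nat_lit 1247998338) (nat_lit 228) (nat_lit 6693481832) (nat_lit 304) (nat_lit 6639552453) (nat_lit 55) (nat_lit 5) (nat_lit 58) (nat_lit 5) (nat_lit 59) (nat_lit 5) (nat_lit 323) (nat_lit 269) (nat_lit 188)) (XT.nd (nat_lit 78) (nat_lit 0) (nat_lit 0) (XT.lf (nat_lit 0) (nat_lit 7537977330) (nat_lit 228) (nat_lit 2833377238) (nat_lit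 304) (nat_lit 4505200750) (nat_lit 55) (nat_lit 5) (nat_lit 58) (nat_lit 5) (nat_lit 59) (nat_lit 5) (nat_lit 324) (nat_lit 269) (nat_lit 187)) (XT.lf (nat_lit 0) (nat_lit 12864840319) (nat_lit 304) (nat_lit 1203071793) (nat_lit 76) (nat_lit 1113349638) (nat_lit 55) (nat_lit 5) (nat_lit 59) (nat_lit 5) (nat_lit 56) (nat_lit 5) (nat_lit 325) (nat_lit 269) (nat_lit 186)))))) (XT.nd (nat_lit 390) (nat_lit 760) (nat_lit 0) (XT.nd (nat_lit 156) (nat_lit 228) (nat_lit 0) (XT.nd (nat_lit 78) (nat_lit 76) (nat_lit 0) (XT.lf (nat_lit 0) (nat_lit 5162187880) (nat_lit 304) (nat_lit 10328940844) (nat_lit 380) (nat_lit 2279065) (nat_lit 51) (nat_lit 5) (nat_lit 55) (nat_lit 5) (nat_lit 56) (nat_lit 5) (nat_lit 326) (nat_lit 269) (nat_lit 185)) (XT.lf (nat_lit 0) (nat_lit 2327499762) (nat_lit 380) (nat_lit 4121650034) (nat_lit 76) (nat_lit 9365337464) (nat_lit 50) (nat_lit 5) (nat_lit 55) (nat_lit 5) (nat_lit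 51) (nat_lit 5) (nat_lit 327) (nat_lit 269) (nat_lit 184))) (XT.nd (nat_lit 78) (nat_lit 0) (nat_lit 0) (XT.lf (nat_lit 0) (nat_lit 2292558556) (nat_lit 228) (nat_lit 2437586367) (nat_lit 304) (nat_lit 11414998056) (nat_lit 47) (nat_lit 5) (nat_lit 50) (nat_lit 5) (nat_lit 51) (nat_lit 5) (nat_lit 328) (nat_lit 269) (nat_lit 183)) (XT.nd (nat_lit 78) (nat_lit 0) (nat_lit 0) (XT.lf (nat_lit 0) (nat_lit 7244402291) (nat_lit 304) (nat_lit 7544113498) (nat_lit 76) (nat_lit 1696050674) (nat_lit 47) (nat_lit 5) (nat_lit 51) (nat_lit 5) (nat_lit 48) (nat_lit 5) (nat_lit 329) (nat_lit 269) (nat_lit 182)) (XT.lf (nat_lit 0) (nat_lit 9839982388) (nat_lit 304) (nat_lit 1096375364) (nat_lit 76) (nat_lit 5897671136) (nat_lit 47) (nat_lit 5) (nat_lit 51) (nat_lit 5) (nat_lit 48) (nat_lit 5) (nat_lit 330) (nat_lit 269) (nat_lit 181))))) (XT.nd (nat_lit 234) (nat_lit 228) (nat_lit 0) (XT.nd (nat_lit 78) (nat_lit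 304) (nat_lit 0) (XT.lf (nat_lit 0) (nat_lit 5629548256) (nat_lit 228) (nat_lit 6920288030) (nat_lit 304) (nat_lit 4643078831) (nat_lit 44) (nat_lit 5) (nat_lit 47) (nat_lit 5) (nat_lit 48) (nat_lit 5) (nat_lit 331) (nat_lit 269) (nat_lit 180)) (XT.nd (nat_lit 78) (nat_lit 304) (nat_lit 0) (XT.lf (nat_lit 0) (nat_lit 12554870861) (nat_lit 228) (nat_lit 2779754789) (nat_lit 304) (nat_lit 2228164275) (nat_lit 44) (nat_lit 5) (nat_lit 47) (nat_lit 5) (nat_lit 48) (nat_lit 5) (nat_lit 332) (nat_lit 269) (nat_lit 179)) (XT.lf (nat_lit 0) (nat_lit 268249308) (nat_lit 304) (nat_lit 16206742635) (nat_lit 76) (nat_lit 1468300400) (nat_lit 40) (nat_lit 5) (nat_lit 44) (nat_lit 5) (nat_lit 41) (nat_lit 5) (nat_lit 333) (nat_lit 269) (nat_lit 178)))) (XT.nd (nat_lit 78) (nat_lit 228) (nat_lit 0) (XT.lf (nat_lit 0) (nat_lit 2856437955) (nat_lit 304) (nat_lit 9622489245) (nat_lit 76) (nat_lit 5853799349)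 (nat_lit 40) (nat_lit 5) (nat_lit 44) (nat_lit 5) (nat_lit 41) (nat_lit 5) (nat_lit 334) (nat_lit 269) (nat_lit 177)) (XT.nd (nat_lit 78) (nat_lit 228) (nat_lit 0) (XT.lf (nat_lit 0) (nat_lit 5505838638) (nat_lit 304) (nat_lit 2864710623) (nat_lit 76) (nat_lit 10363815237) (nat_lit 40) (nat_lit 5) (nat_lit 44) (nat_lit 5) (nat_lit 41) (nat_lit 5) (nat_lit 335) (nat_lit 269) (nat_lit 176)) (XT.lf (nat_lit 0) (nat_lit 4153548782) (nat_lit 228) (nat_lit 4105144036) (nat_lit 304) (nat_lit 10888666527) (nat_lit 37) (nat_lit 5) (nat_lit 40) (nat_lit 5) (nat_lit 41) (nat_lit 5) (nat_lit 336) (nat_lit 269) (nat_lit 175))))))) (XT.nd (nat_lit 858) (nat_lit 760) (nat_lit 0) (XT.nd (nat_lit 390) (nat_lit 380) (nat_lit 0) (XT.nd (nat_lit 156) (nat_lit 228) (nat_lit 0) (XT.nd (nat_lit 78) (nat_lit 0) (nat_lit 0) (XT.lf (nat_lit 0) (nat_lit 11110334729) (nat_lit 304) (nat_lit 8157354978) (nat_lit 76) (nat_lit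 304594385) (nat_lit 37) (nat_lit 5) (nat_lit 41) (nat_lit 5) (nat_lit 38) (nat_lit 5) (nat_lit 337) (nat_lit 269) (nat_lit 174)) (XT.lf (nat_lit 0) (nat_lit 14072847731) (nat_lit 304) (nat_lit 1179267721) (nat_lit 76) (nat_lit 4757106833) (nat_lit 37) (nat_lit 5) (nat_lit 41) (nat_lit 5) (nat_lit 38) (nat_lit 5) (nat_lit 338) (nat_lit 269) (nat_lit 173))) (XT.nd (nat_lit 78) (nat_lit 76) (nat_lit 0) (XT.lf (nat_lit 0) (nat_lit 6105143051) (nat_lit 152) (nat_lit 11062902592) (nat_lit 228) (nat_lit 3289933317) (nat_lit 35) (nat_lit 5) (nat_lit 37) (nat_lit 5) (nat_lit 38) (nat_lit 5) (nat_lit 339) (nat_lit 269) (nat_lit 172)) (XT.nd (nat_lit 78) (nat_lit 76) (nat_lit 0) (XT.lf (nat_lit 0) (nat_lit 13610324729) (nat_lit 152) (nat_lit 6743028656) (nat_lit 228) (nat_lit 566951235) (nat_lit 35) (nat_lit 5) (nat_lit 37) (nat_lit 5) (nat_lit 38) (nat_lit 5) (nat_lit 340) (nat_lit 269) (nat_lit 171))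 (XT.lf (nat_lit 0) (nat_lit 2179663133) (nat_lit 228) (nat_lit 98953833) (nat_lit 76) (nat_lit 19117692040) (nat_lit 34) (nat_lit 5) (nat_lit 37) (nat_lit 5) (nat_lit 35) (nat_lit 5) (nat_lit 341) (nat_lit 269) (nat_lit 170))))) (XT.nd (nat_lit 234) (nat_lit 0) (nat_lit 0) (XT.nd (nat_lit 78) (nat_lit 152) (nat_lit 0) (XT.lf (nat_lit 0) (nat_lit 5077890814) (nat_lit 304) (nat_lit 14460580217) (nat_lit 76) (nat_lit 2345557664) (nat_lit 31) (nat_lit 5) (nat_lit 35) (nat_lit 5) (nat_lit 32) (nat_lit 5) (nat_lit 342) (nat_lit 269) (nat_lit 169)) (XT.nd (nat_lit 78) (nat_lit 152) (nat_lit 0) (XT.lf (nat_lit 0) (nat_lit 8072802943) (nat_lit 304) (nat_lit 7256506351) (nat_lit 76) (nat_lit 7056799790) (nat_lit 31) (nat_lit 5) (nat_lit 35) (nat_lit 5) (nat_lit 32) (nat_lit 5) (nat_lit 343) (nat_lit 269) (nat_lit 168)) (XT.lf (nat_lit 0) (nat_lit 146017491) (nat_lit 152) (nat_lit 10999519351) (nat_lit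 228) (nat_lit 11758096429) (nat_lit 29) (nat_lit 5) (nat_lit 31) (nat_lit 5) (nat_lit 32) (nat_lit 5) (nat_lit 344) (nat_lit 269) (nat_lit 167)))) (XT.nd (nat_lit 78) (nat_lit 0) (nat_lit 0) (XT.lf (nat_lit 0) (nat_lit 7899047941) (nat_lit 152) (nat_lit 6471447910) (nat_lit 228) (nat_lit 9064406058) (nat_lit 29) (nat_lit 5) (nat_lit 31) (nat_lit 5) (nat_lit 32) (nat_lit 5) (nat_lit 345) (nat_lit 269) (nat_lit 166)) (XT.nd (nat_lit 78) (nat_lit 0) (nat_lit 0) (XT.lf (nat_lit 0) (nat_lit 15864940786) (nat_lit 152) (nat_lit 1814414889) (nat_lit 228) (nat_lit 6303157805) (nat_lit 29) (nat_lit 5) (nat_lit 31) (nat_lit 5) (nat_lit 32) (nat_lit 5) (nat_lit 346) (nat_lit 269) (nat_lit 165)) (XT.lf (nat_lit 0) (nat_lit 21103611311) (nat_lit 228) (nat_lit 524893722) (nat_lit 76) (nat_lit 2917583334) (nat_lit 29) (nat_lit 5) (nat_lit 32) (nat_lit 5) (nat_lit 30) (nat_lit 5) (nat_lit 347) (nat_lit 269)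 (nat_lit 164)))))) (XT.nd (nat_lit 468) (nat_lit 380) (nat_lit 0) (XT.nd (nat_lit 234) (nat_lit 152) (nat_lit 0) (XT.nd (nat_lit 78) (nat_lit 76) (nat_lit 0) (XT.lf (nat_lit 0) (nat_lit 7403147884) (nat_lit 152) (nat_lit 17304402047) (nat_lit 228) (nat_lit 416730229) (nat_lit 27) (nat_lit 5) (nat_lit 29) (nat_lit 5) (nat_lit 30) (nat_lit 5) (nat_lit 348) (nat_lit 269) (nat_lit 163)) (XT.nd (nat_lit 78) (nat_lit 0) (nat_lit 0) (XT.lf (nat_lit 0) (nat_lit 2640324769) (nat_lit 228) (nat_lit 10184861286) (nat_lit 76) (nat_lit 12894073808) (nat_lit 26) (nat_lit 5) (nat_lit 29) (nat_lit 5) (nat_lit 27) (nat_lit 5) (nat_lit 349) (nat_lit 269) (nat_lit 162)) (XT.lf (nat_lit 0) (nat_lit 5768934483) (nat_lit 228) (nat_lit 2445063774) (nat_lit 76) (nat_lit 18118337116) (nat_lit 26) (nat_lit 5) (nat_lit 29) (nat_lit 5) (nat_lit 27) (nat_lit 5) (nat_lit 350) (nat_lit 269) (nat_lit 161)))) (XT.nd (nat_lit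 78) (nat_lit 0) (nat_lit 0) (XT.lf (nat_lit 0) (nat_lit 5618669535) (nat_lit 152) (nat_lit 3415305109) (nat_lit 228) (nat_lit 17928567617) (nat_lit 24) (nat_lit 5) (nat_lit 26) (nat_lit 5) (nat_lit 27) (nat_lit 5) (nat_lit 351) (nat_lit 269) (nat_lit 160)) (XT.nd (nat_lit 78) (nat_lit 0) (nat_lit 0) (XT.lf (nat_lit 0) (nat_lit 12425245494) (nat_lit 228) (nat_lit 13669419868) (nat_lit 76) (nat_lit 1516157410) (nat_lit 24) (nat_lit 5) (nat_lit 27) (nat_lit 5) (nat_lit 25) (nat_lit 5) (nat_lit 352) (nat_lit 269) (nat_lit 159)) (XT.lf (nat_lit 0) (nat_lit 15941062442) (nat_lit 228) (nat_lit 5816038818) (nat_lit 76) (nat_lit 6520781541) (nat_lit 24) (nat_lit 5) (nat_lit 27) (nat_lit 5) (nat_lit 25) (nat_lit 5) (nat_lit 353) (nat_lit 269) (nat_lit 158))))) (XT.nd (nat_lit 234) (nat_lit 228) (nat_lit 0) (XT.nd (nat_lit 78) (nat_lit 0) (nat_lit 0) (XT.lf (nat_lit 0) (nat_lit 2300860680) (nat_lit 152)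 (nat_lit 17272924161) (nat_lit 228) (nat_lit 9390841759) (nat_lit 22) (nat_lit 5) (nat_lit 24) (nat_lit 5) (nat_lit 25) (nat_lit 5) (nat_lit 354) (nat_lit 269) (nat_lit 157)) (XT.nd (nat_lit 78) (nat_lit 0) (nat_lit 0) (XT.lf (nat_lit 0) (nat_lit 10763675679) (nat_lit 152) (nat_lit 12600007103) (nat_lit 228) (nat_lit 6306858575) (nat_lit 22) (nat_lit 5) (nat_lit 24) (nat_lit 5) (nat_lit 25) (nat_lit 5) (nat_lit 355) (nat_lit 269) (nat_lit 156)) (XT.lf (nat_lit 0) (nat_lit 19464050293) (nat_lit 152) (nat_lit 7792997545) (nat_lit 228) (nat_lit 3140906654) (nat_lit 22) (nat_lit 5) (nat_lit 24) (nat_lit 5) (nat_lit 25) (nat_lit 5) (nat_lit 356) (nat_lit 269) (nat_lit 155)))) (XT.nd (nat_lit 78) (nat_lit 152) (nat_lit 0) (XT.lf (nat_lit 0) (nat_lit 107638159) (nat_lit 228) (nat_lit 2738970094) (nat_lit 76) (nat_lit 28300861698) (nat_lit 21) (nat_lit 5) (nat_lit 24) (nat_lit 5) (nat_lit 22) (nat_lit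 5) (nat_lit 357) (nat_lit 269) (nat_lit 154)) (XT.nd (nat_lit 78) (nat_lit 0) (nat_lit 0) (XT.lf (nat_lit 0) (nat_lit 3458612988) (nat_lit 228) (nat_lit 26171924241) (nat_lit 76) (nat_lit 2285970467) (nat_lit 19) (nat_lit 5) (nat_lit 22) (nat_lit 5) (nat_lit 20) (nat_lit 5) (nat_lit 358) (nat_lit 269) (nat_lit 153)) (XT.lf (nat_lit 0) (nat_lit 6956561905) (nat_lit 228) (nat_lit 18213141777) (nat_lit 76) (nat_lit 7537532021) (nat_lit 19) (nat_lit 5) (nat_lit 22) (nat_lit 5) (nat_lit 20) (nat_lit 5) (nat_lit 359) (nat_lit 269) (nat_lit 152))))))))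
noncomputable def xc139 : XT := (XT.nd (nat_lit 1794) (nat_lit 152) (nat_lit 0) (XT.nd (nat_lit 858) (nat_lit 304) (nat_lit 0) (XT.nd (nat_lit 390) (nat_lit 304) (nat_lit 0) (XT.nd (nat_lit 156) (nat_lit 152) (nat_lit 0) (XT.nd (nat_lit 78) (nat_lit 0) (nat_lit 0) (XT.lf (nat_lit 0) (nat_lit 10550059517) (nat_lit 228) (nat_lit 10030825625) (nat_lit 76) (nat_lit 12941094213) (nat_lit 19) (nat_lit 5) (nat_lit 22) (nat_lit 5) (nat_lit 20) (nat_lit 5) (nat_lit 360) (nat_lit 269) (nat_lit 151)) (XT.lf (nat_lit 0) (nat_lit 14242245771) (nat_lit 228) (nat_lit 1617826189) (nat_lit 76) (nat_lit 18501378603) (nat_lit 19) (nat_lit 5) (nat_lit 22) (nat_lit 5) (nat_lit 20) (nat_lit 5) (nat_lit 361) (nat_lit 269) (nat_lit 150))) (XT.nd (nat_lit 78) (nat_lit 0) (nat_lit 0) (XT.lf (nat_lit 0) (nat_lit 7173182318) (nat_lit 152) (nat_lit 10932117548) (nat_lit 228) (nat_lit 17119014390) (nat_lit 17) (nat_lit 5)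 (nat_lit 19) (nat_lit 5) (nat_lit 20) (nat_lit 5) (nat_lit 362) (nat_lit 269) (nat_lit 149)) (XT.nd (nat_lit 78) (nat_lit 0) (nat_lit 0) (XT.lf (nat_lit 0) (nat_lit 16246870139) (nat_lit 152) (nat_lit 5844982703) (nat_lit 228) (nat_lit 14020993883) (nat_lit 17) (nat_lit 5) (nat_lit 19) (nat_lit 5) (nat_lit 20) (nat_lit 5) (nat_lit 363) (nat_lit 269) (nat_lit 148)) (XT.lf (nat_lit 0) (nat_lit 25578967824) (nat_lit 152) (nat_lit 610559230) (nat_lit 228) (nat_lit 10838773137) (nat_lit 17) (nat_lit 5) (nat_lit 19) (nat_lit 5) (nat_lit 20) (nat_lit 5) (nat_lit 364) (nat_lit 269) (nat_lit 147))))) (XT.nd (nat_lit 234) (nat_lit 228) (nat_lit 0) (XT.nd (nat_lit 78) (nat_lit 76) (nat_lit 0) (XT.lf (nat_lit 0) (nat_lit 30447810199) (nat_lit 228) (nat_lit 2839752136) (nat_lit 76) (nat_lit 4682535011) (nat_lit 17) (nat_lit 5) (nat_lit 20) (nat_lit 5) (nat_lit 18) (nat_lit 4) (nat_lit 365) (nat_lit 269)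 (nat_lit 146)) (XT.nd (nat_lit 78) (nat_lit 0) (nat_lit 0) (XT.lf (nat_lit 0) (nat_lit 6128448356) (nat_lit 76) (nat_lit 28762311930) (nat_lit 152) (nat_lit 4047690719) (nat_lit 16) (nat_lit 5) (nat_lit 17) (nat_lit 5) (nat_lit 18) (nat_lit 4) (nat_lit 366) (nat_lit 269) (nat_lit 145)) (XT.lf (nat_lit 0) (nat_lit 15410826404) (nat_lit 76) (nat_lit 24076919665) (nat_lit 152) (nat_lit 447496636) (nat_lit 16) (nat_lit 5) (nat_lit 17) (nat_lit 5) (nat_lit 18) (nat_lit 4) (nat_lit 367) (nat_lit 269) (nat_lit 144)))) (XT.nd (nat_lit 78) (nat_lit 152) (nat_lit 0) (XT.lf (nat_lit 0) (nat_lit 3189291811) (nat_lit 152) (nat_lit 16034470033) (nat_lit 76) (nat_lit 21737478782) (nat_lit 15) (nat_lit 5) (nat_lit 17) (nat_lit 5) (nat_lit 16) (nat_lit 5) (nat_lit 368) (nat_lit 269) (nat_lit 143)) (XT.nd (nat_lit 78) (nat_lit 152) (nat_lit 0) (XT.lf (nat_lit 0) (nat_lit 6918632982) (nat_lit 152) (nat_lit 7306745155)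 (nat_lit 76) (nat_lit 27792743138) (nat_lit 15) (nat_lit 5) (nat_lit 17) (nat_lit 5) (nat_lit 16) (nat_lit 5) (nat_lit 369) (nat_lit 269) (nat_lit 142)) (XT.lf (nat_lit 0) (nat_lit 1703936038) (nat_lit 152) (nat_lit 9064961033) (nat_lit 228) (nat_lit 32337548744) (nat_lit 13) (nat_lit 5) (nat_lit 15) (nat_lit 5) (nat_lit 16) (nat_lit 5) (nat_lit 370) (nat_lit 269) (nat_lit 141)))))) (XT.nd (nat_lit 468) (nat_lit 228) (nat_lit 0) (XT.nd (nat_lit 234) (nat_lit 76) (nat_lit 0) (XT.nd (nat_lit 78) (nat_lit 0) (nat_lit 0) (XT.lf (nat_lit 0) (nat_lit 11122712297) (nat_lit 152) (nat_lit 3678502265) (nat_lit 228) (nat_lit 29424217658) (nat_lit 13) (nat_lit 5) (nat_lit 15) (nat_lit 5) (nat_lit 16) (nat_lit 5) (nat_lit 371) (nat_lit 269) (nat_lit 140)) (XT.nd (nat_lit 78) (nat_lit 0) (nat_lit 0) (XT.lf (nat_lit 0) (nat_lit 18965400846) (nat_lit 228) (nat_lit 24583738987) (nat_lit 76) (nat_lit 1828529654)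 (nat_lit 13) (nat_lit 5) (nat_lit 16) (nat_lit 5) (nat_lit 14) (nat_lit 4) (nat_lit 372) (nat_lit 269) (nat_lit 139)) (XT.lf (nat_lit 0) (nat_lit 23284067518) (nat_lit 228) (nat_lit 15857096187) (nat_lit 76) (nat_lit 7422431530) (nat_lit 13) (nat_lit 5) (nat_lit 16) (nat_lit 5) (nat_lit 14) (nat_lit 4) (nat_lit 373) (nat_lit 269) (nat_lit 138)))) (XT.nd (nat_lit 78) (nat_lit 76) (nat_lit 0) (XT.lf (nat_lit 0) (nat_lit 27725628157) (nat_lit 228) (nat_lit 6879806287) (nat_lit 76) (nat_lit 13179872065) (nat_lit 13) (nat_lit 5) (nat_lit 16) (nat_lit 5) (nat_lit 14) (nat_lit 4) (nat_lit 374) (nat_lit 269) (nat_lit 137)) (XT.nd (nat_lit 78) (nat_lit 0) (nat_lit 0) (XT.lf (nat_lit 0) (nat_lit 2402863467) (nat_lit 76) (nat_lit 29914198066) (nat_lit 152) (nat_lit 16726116359) (nat_lit 12) (nat_lit 5) (nat_lit 13) (nat_lit 5) (nat_lit 14) (nat_lit 4) (nat_lit 375) (nat_lit 269) (nat_lit 136)) (XT.lf (nat_lit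 0) (nat_lit 12094321385) (nat_lit 76) (nat_lit 25015002644) (nat_lit 152) (nat_lit 13227576131) (nat_lit 12) (nat_lit 5) (nat_lit 13) (nat_lit 5) (nat_lit 14) (nat_lit 4) (nat_lit 376) (nat_lit 269) (nat_lit 135))))) (XT.nd (nat_lit 234) (nat_lit 228) (nat_lit 0) (XT.nd (nat_lit 78) (nat_lit 0) (nat_lit 0) (XT.lf (nat_lit 0) (nat_lit 22066114097) (nat_lit 76) (nat_lit 19973039882) (nat_lit 152) (nat_lit 9630473244) (nat_lit 12) (nat_lit 5) (nat_lit 13) (nat_lit 5) (nat_lit 14) (nat_lit 4) (nat_lit 377) (nat_lit 269) (nat_lit 134)) (XT.nd (nat_lit 78) (nat_lit 0) (nat_lit 0) (XT.lf (nat_lit 0) (nat_lit 32326954819) (nat_lit 76) (nat_lit 14783904183) (nat_lit 152) (nat_lit 5931664598) (nat_lit 12) (nat_lit 5) (nat_lit 13) (nat_lit 5) (nat_lit 14) (nat_lit 4) (nat_lit 378) (nat_lit 269) (nat_lit 133)) (XT.lf (nat_lit 0) (nat_lit 42885809334) (nat_lit 76) (nat_lit 9443061348) (nat_lit 152) (nat_lit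 2127918226) (nat_lit 12) (nat_lit 5) (nat_lit 13) (nat_lit 5) (nat_lit 14) (nat_lit 4) (nat_lit 379) (nat_lit 269) (nat_lit 132)))) (XT.nd (nat_lit 78) (nat_lit 152) (nat_lit 0) (XT.lf (nat_lit 0) (nat_lit 1749275521) (nat_lit 152) (nat_lit 2178904849) (nat_lit 76) (nat_lit 51984964052) (nat_lit 11) (nat_lit 5) (nat_lit 13) (nat_lit 5) (nat_lit 12) (nat_lit 5) (nat_lit 380) (nat_lit 269) (nat_lit 131)) (XT.nd (nat_lit 78) (nat_lit 0) (nat_lit 0) (XT.lf (nat_lit 0) (nat_lit 5785367045) (nat_lit 228) (nat_lit 49815219149) (nat_lit 76) (nat_lit 1809417958) (nat_lit 9) (nat_lit 5) (nat_lit 12) (nat_lit 5) (nat_lit 10) (nat_lit 4) (nat_lit 381) (nat_lit 269) (nat_lit 130)) (XT.lf (nat_lit 0) (nat_lit 9998121748) (nat_lit 228) (nat_lit 41293277287) (nat_lit 76) (nat_lit 7658709184) (nat_lit 9) (nat_lit 5) (nat_lit 12) (nat_lit 5) (nat_lit 10) (nat_lit 4) (nat_lit 382) (nat_lit 269) (nat_lit 129)))))))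 (XT.nd (nat_lit 858) (nat_lit 76) (nat_lit 0) (XT.nd (nat_lit 390) (nat_lit 0) (nat_lit 0) (XT.nd (nat_lit 156) (nat_lit 76) (nat_lit 0) (XT.nd (nat_lit 78) (nat_lit 0) (nat_lit 0) (XT.lf (nat_lit 0) (nat_lit 14331887290) (nat_lit 228) (nat_lit 32524811087) (nat_lit 76) (nat_lit 13679883970) (nat_lit 9) (nat_lit 5) (nat_lit 12) (nat_lit 5) (nat_lit 10) (nat_lit 4) (nat_lit 383) (nat_lit 269) (nat_lit 128)) (XT.lf (nat_lit 0) (nat_lit 18790450456) (nat_lit 228) (nat_lit 23502158782) (nat_lit 76) (nat_lit 19878203537) (nat_lit 9) (nat_lit 5) (nat_lit 12) (nat_lit 5) (nat_lit 10) (nat_lit 4) (nat_lit 384) (nat_lit 269) (nat_lit 127))) (XT.nd (nat_lit 78) (nat_lit 76) (nat_lit 0) (XT.lf (nat_lit 0) (nat_lit 23377707078) (nat_lit 228) (nat_lit 14217436501) (nat_lit 76) (nat_lit 26259083892) (nat_lit 9) (nat_lit 5) (nat_lit 12) (nat_lit 5) (nat_lit 10) (nat_lit 4) (nat_lit 385) (nat_lit 269) (nat_lit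 126)) (XT.nd (nat_lit 78) (nat_lit 76) (nat_lit 0) (XT.lf (nat_lit 0) (nat_lit 28097665439) (nat_lit 228) (nat_lit 4662531381) (nat_lit 76) (nat_lit 32828100561) (nat_lit 9) (nat_lit 5) (nat_lit 12) (nat_lit 5) (nat_lit 10) (nat_lit 4) (nat_lit 386) (nat_lit 269) (nat_lit 125)) (XT.lf (nat_lit 0) (nat_lit 5273816684) (nat_lit 76) (nat_lit 27731328241) (nat_lit 152) (nat_lit 34367871930) (nat_lit 8) (nat_lit 5) (nat_lit 9) (nat_lit 5) (nat_lit 10) (nat_lit 4) (nat_lit 387) (nat_lit 269) (nat_lit 124))))) (XT.nd (nat_lit 234) (nat_lit 0) (nat_lit 0) (XT.nd (nat_lit 78) (nat_lit 0) (nat_lit 0) (XT.lf (nat_lit 0) (nat_lit 15595796708) (nat_lit 76) (nat_lit 22506423504) (nat_lit 152) (nat_lit 31107791549) (nat_lit 8) (nat_lit 5) (nat_lit 9) (nat_lit 5) (nat_lit 10) (nat_lit 4) (nat_lit 388) (nat_lit 269) (nat_lit 123)) (XT.nd (nat_lit 78) (nat_lit 0) (nat_lit 0) (XT.lf (nat_lit 0) (nat_lit 26219634381)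 (nat_lit 76) (nat_lit 17127999582) (nat_lit 152) (nat_lit 27754624610) (nat_lit 8) (nat_lit 5) (nat_lit 9) (nat_lit 5) (nat_lit 10) (nat_lit 4) (nat_lit 389) (nat_lit 269) (nat_lit 122)) (XT.lf (nat_lit 0) (nat_lit 37154612666) (nat_lit 76) (nat_lit 11591356881) (nat_lit 152) (nat_lit 24305441161) (nat_lit 8) (nat_lit 5) (nat_lit 9) (nat_lit 5) (nat_lit 10) (nat_lit 4) (nat_lit 390) (nat_lit 269) (nat_lit 121)))) (XT.nd (nat_lit 78) (nat_lit 0) (nat_lit 0) (XT.lf (nat_lit 0) (nat_lit 48410286400) (nat_lit 76) (nat_lit 5891657560) (nat_lit 152) (nat_lit 20757227353) (nat_lit 8) (nat_lit 5) (nat_lit 9) (nat_lit 5) (nat_lit 10) (nat_lit 4) (nat_lit 391) (nat_lit 269) (nat_lit 120)) (XT.nd (nat_lit 78) (nat_lit 0) (nat_lit 0) (XT.lf (nat_lit 0) (nat_lit 59996490638) (nat_lit 76) (nat_lit 23921297) (nat_lit 152) (nat_lit 17106882805) (nat_lit 8) (nat_lit 5) (nat_lit 9) (nat_lit 5) (nat_lit 10) (nat_lit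 4) (nat_lit 392) (nat_lit 269) (nat_lit 119)) (XT.lf (nat_lit 0) (nat_lit 65964209074) (nat_lit 152) (nat_lit 7392077722) (nat_lit 0) (nat_lit 5899566121) (nat_lit 8) (nat_lit 5) (nat_lit 10) (nat_lit 4) (nat_lit 8) (nat_lit 4) (nat_lit 393) (nat_lit 269) (nat_lit 118)))))) (XT.nd (nat_lit 31278) (nat_lit 0) (nat_lit 14972) (XT.nd (nat_lit 31044) (nat_lit 0) (nat_lit 15580) (XT.nd (nat_lit 78) (nat_lit 0) (nat_lit 0) (XT.lf (nat_lit 0) (nat_lit 2684124913) (nat_lit 76) (nat_lit 69424261348) (nat_lit 76) (nat_lit 9339223776) (nat_lit 7) (nat_lit 4) (nat_lit 8) (nat_lit 5) (nat_lit 8) (nat_lit 4) (nat_lit 394) (nat_lit 269) (nat_lit 117)) (XT.nd (nat_lit 30888) (nat_lit 0) (nat_lit 16264) (XT.lf (nat_lit 0) (nat_lit 13207385257) (nat_lit 76) (nat_lit 65300227560) (nat_lit 76) (nat_lit 5195389388) (nat_lit 7) (nat_lit 4) (nat_lit 8) (nat_lit 5) (nat_lit 8) (nat_lit 4) (nat_lit 395) (nat_lit 269)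 (nat_lit 116)) (XT.lf (nat_lit 0) (nat_lit 1309877552) (nat_lit 0) (nat_lit 1309877552) (nat_lit 532) (nat_lit 824840974) (nat_lit 221) (nat_lit 5) (nat_lit 221) (nat_lit 3) (nat_lit 228) (nat_lit 3) (nat_lit 270) (nat_lit 270) (nat_lit 240)))) (XT.nd (nat_lit 78) (nat_lit 0) (nat_lit 0) (XT.lf (nat_lit 0) (nat_lit 76406387) (nat_lit 684) (nat_lit 1344075334) (nat_lit 684) (nat_lit 5514843357) (nat_lit 212) (nat_lit 3) (nat_lit 221) (nat_lit 3) (nat_lit 221) (nat_lit 5) (nat_lit 271) (nat_lit 270) (nat_lit 239)) (XT.nd (nat_lit 78) (nat_lit 0) (nat_lit 76) (XT.lf (nat_lit 76) (nat_lit 1650263154) (nat_lit 0) (nat_lit 119665625) (nat_lit 684) (nat_lit 5214198694) (nat_lit 213) (nat_lit 5) (nat_lit 212) (nat_lit 3) (nat_lit 221) (nat_lit 5) (nat_lit 272) (nat_lit 270) (nat_lit 238)) (XT.lf (nat_lit 0) (nat_lit 3474560204) (nat_lit 608) (nat_lit 2320674475) (nat_lit 684) (nat_lit 1240582925) (nat_lit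 213) (nat_lit 5) (nat_lit 221) (nat_lit 5) (nat_lit 222) (nat_lit 5) (nat_lit 273) (nat_lit 270) (nat_lit 237))))) (XT.nd (nat_lit 234) (nat_lit 0) (nat_lit 76) (XT.nd (nat_lit 78) (nat_lit 684) (nat_lit 0) (XT.lf (nat_lit 76) (nat_lit 760836723) (nat_lit 0) (nat_lit 4414756734) (nat_lit 684) (nat_lit 1915333078) (nat_lit 214) (nat_lit 5) (nat_lit 213) (nat_lit 5) (nat_lit 222) (nat_lit 5) (nat_lit 274) (nat_lit 270) (nat_lit 236)) (XT.nd (nat_lit 78) (nat_lit 684) (nat_lit 0) (XT.lf (nat_lit 76) (nat_lit 3946978967) (nat_lit 0) (nat_lit 2942379116) (nat_lit 684) (nat_lit 259699042) (nat_lit 214) (nat_lit 5) (nat_lit 213) (nat_lit 5) (nat_lit 222) (nat_lit 5) (nat_lit 275) (nat_lit 270) (nat_lit 235)) (XT.lf (nat_lit 0) (nat_lit 1356656981) (nat_lit 684) (nat_lit 29892986) (nat_lit 760) (nat_lit 5823993734) (nat_lit 204) (nat_lit 5) (nat_lit 213) (nat_lit 5) (nat_lit 214) (nat_lit 5) (nat_lit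 276) (nat_lit 270) (nat_lit 234)))) (XT.nd (nat_lit 78) (nat_lit 0) (nat_lit 0) (XT.lf (nat_lit 0) (nat_lit 2991334050) (nat_lit 684) (nat_lit 4013624414) (nat_lit 760) (nat_lit 269788553) (nat_lit 205) (nat_lit 5) (nat_lit 214) (nat_lit 5) (nat_lit 215) (nat_lit 5) (nat_lit 277) (nat_lit 270) (nat_lit 233)) (XT.nd (nat_lit 78) (nat_lit 0) (nat_lit 0) (XT.lf (nat_lit 0) (nat_lit 4631725410) (nat_lit 684) (nat_lit 739650946) (nat_lit 760) (nat_lit 1970994794) (nat_lit 205) (nat_lit 5) (nat_lit 214) (nat_lit 5) (nat_lit 215) (nat_lit 5) (nat_lit 278) (nat_lit 270) (nat_lit 232)) (XT.lf (nat_lit 76) (nat_lit 2648758841) (nat_lit 0) (nat_lit 3642342724) (nat_lit 760) (nat_lit 1122018508) (nat_lit 206) (nat_lit 5) (nat_lit 205) (nat_lit 5) (nat_lit 215) (nat_lit 5) (nat_lit 279) (nat_lit 270) (nat_lit 231))))))))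
noncomputable def xc140 : XT := (XT.nd (nat_lit 1716) (nat_lit 4332) (nat_lit 0) (XT.nd (nat_lit 858) (nat_lit 3800) (nat_lit 0) (XT.nd (nat_lit 390) (nat_lit 2508) (nat_lit 0) (XT.nd (nat_lit 156) (nat_lit 0) (nat_lit 76) (XT.nd (nat_lit 78) (nat_lit 0) (nat_lit 76) (XT.lf (nat_lit 0) (nat_lit 456652434) (nat_lit 760) (nat_lit 1373199171) (nat_lit 836) (nat_lit 5657597345) (nat_lit 195) (nat_lit 5) (nat_lit 205) (nat_lit 5) (nat_lit 206) (nat_lit 5) (nat_lit 280) (nat_lit 270) (nat_lit 230)) (XT.lf (nat_lit 0) (nat_lit 2027782488) (nat_lit 760) (nat_lit 5451172029) (nat_lit 836) (nat_lit 85863587) (nat_lit 196) (nat_lit 5) (nat_lit 206) (nat_lit 5) (nat_lit 207) (nat_lit 5) (nat_lit 281) (nat_lit 270) (nat_lit 229))) (XT.nd (nat_lit 78) (nat_lit 0) (nat_lit 0) (XT.lf (nat_lit 0) (nat_lit 3626039091) (nat_lit 760) (nat_lit 1965995244) (nat_lit 836) (nat_lit 2053242372) (nat_lit 196) (nat_lit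 5) (nat_lit 206) (nat_lit 5) (nat_lit 207) (nat_lit 5) (nat_lit 282) (nat_lit 270) (nat_lit 228)) (XT.nd (nat_lit 78) (nat_lit 0) (nat_lit 0) (XT.lf (nat_lit 76) (nat_lit 1619519907) (nat_lit 0) (nat_lit 3617681002) (nat_lit 836) (nat_lit 2492162689) (nat_lit 197) (nat_lit 5) (nat_lit 196) (nat_lit 5) (nat_lit 207) (nat_lit 5) (nat_lit 283) (nat_lit 270) (nat_lit 227)) (XT.lf (nat_lit 76) (nat_lit 5317433060) (nat_lit 0) (nat_lit 1549640063) (nat_lit 836) (nat_lit 949947207) (nat_lit 197) (nat_lit 5) (nat_lit 196) (nat_lit 5) (nat_lit 207) (nat_lit 5) (nat_lit 284) (nat_lit 270) (nat_lit 226))))) (XT.nd (nat_lit 234) (nat_lit 988) (nat_lit 0) (XT.nd (nat_lit 78) (nat_lit 836) (nat_lit 0) (XT.lf (nat_lit 0) (nat_lit 594834710) (nat_lit 836) (nat_lit 6713550375) (nat_lit 76) (nat_lit 599824138) (nat_lit 186) (nat_lit 5) (nat_lit 197) (nat_lit 5) (nat_lit 187) (nat_lit 5) (nat_lit 285) (nat_lit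 270) (nat_lit 225)) (XT.nd (nat_lit 78) (nat_lit 836) (nat_lit 0) (XT.lf (nat_lit 0) (nat_lit 2160236279) (nat_lit 836) (nat_lit 3012299656) (nat_lit 76) (nat_lit 2829659660) (nat_lit 186) (nat_lit 5) (nat_lit 197) (nat_lit 5) (nat_lit 187) (nat_lit 5) (nat_lit 286) (nat_lit 270) (nat_lit 224)) (XT.lf (nat_lit 0) (nat_lit 779375412) (nat_lit 836) (nat_lit 2954634162) (nat_lit 912) (nat_lit 4366290520) (nat_lit 175) (nat_lit 5) (nat_lit 186) (nat_lit 5) (nat_lit 187) (nat_lit 5) (nat_lit 287) (nat_lit 270) (nat_lit 223)))) (XT.nd (nat_lit 78) (nat_lit 988) (nat_lit 0) (XT.lf (nat_lit 0) (nat_lit 4711079520) (nat_lit 836) (nat_lit 629253949) (nat_lit 912) (nat_lit 2861590860) (nat_lit 175) (nat_lit 5) (nat_lit 186) (nat_lit 5) (nat_lit 187) (nat_lit 5) (nat_lit 288) (nat_lit 270) (nat_lit 222)) (XT.nd (nat_lit 78) (nat_lit 76) (nat_lit 0) (XT.lf (nat_lit 0) (nat_lit 409174379) (nat_lit 912) (nat_lit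 6562902538) (nat_lit 988) (nat_lit 1335336221) (nat_lit 163) (nat_lit 5) (nat_lit 175) (nat_lit 5) (nat_lit 176) (nat_lit 5) (nat_lit 289) (nat_lit 270) (nat_lit 221)) (XT.lf (nat_lit 0) (nat_lit 230618985) (nat_lit 988) (nat_lit 3962717584) (nat_lit 76) (nat_lit 4222830945) (nat_lit 162) (nat_lit 5) (nat_lit 175) (nat_lit 5) (nat_lit 163) (nat_lit 5) (nat_lit 290) (nat_lit 270) (nat_lit 220)))))) (XT.nd (nat_lit 390) (nat_lit 1748) (nat_lit 0) (XT.nd (nat_lit 156) (nat_lit 1064) (nat_lit 0) (XT.nd (nat_lit 78) (nat_lit 0) (nat_lit 0) (XT.lf (nat_lit 0) (nat_lit 42945399) (nat_lit 988) (nat_lit 1732144413) (nat_lit 1064) (nat_lit 6754068275) (nat_lit 149) (nat_lit 5) (nat_lit 162) (nat_lit 5) (nat_lit 163) (nat_lit 5) (nat_lit 291) (nat_lit 270) (nat_lit 219)) (XT.lf (nat_lit 0) (nat_lit 3372930892) (nat_lit 1064) (nat_lit 4439043810) (nat_lit 76) (nat_lit 833470531) (nat_lit 149) (nat_lit 5)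 (nat_lit 163) (nat_lit 5) (nat_lit 150) (nat_lit 5) (nat_lit 292) (nat_lit 270) (nat_lit 218))) (XT.nd (nat_lit 78) (nat_lit 1064) (nat_lit 0) (XT.lf (nat_lit 0) (nat_lit 4995960494) (nat_lit 1064) (nat_lit 323145731) (nat_lit 76) (nat_lit 3446911673) (nat_lit 149) (nat_lit 5) (nat_lit 163) (nat_lit 5) (nat_lit 150) (nat_lit 5) (nat_lit 293) (nat_lit 270) (nat_lit 217)) (XT.nd (nat_lit 78) (nat_lit 0) (nat_lit 0) (XT.lf (nat_lit 0) (nat_lit 3958982401) (nat_lit 1064) (nat_lit 2708020128) (nat_lit 1140) (nat_lit 2223336737) (nat_lit 135) (nat_lit 5) (nat_lit 149) (nat_lit 5) (nat_lit 150) (nat_lit 5) (nat_lit 294) (nat_lit 270) (nat_lit 216)) (XT.lf (nat_lit 0) (nat_lit 8342035899) (nat_lit 1064) (nat_lit 11468251) (nat_lit 1140) (nat_lit 666034207) (nat_lit 135) (nat_lit 5) (nat_lit 149) (nat_lit 5) (nat_lit 150) (nat_lit 5) (nat_lit 295) (nat_lit 270) (nat_lit 215))))) (XT.nd (nat_lit 234)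 (nat_lit 532) (nat_lit 0) (XT.nd (nat_lit 78) (nat_lit 532) (nat_lit 0) (XT.lf (nat_lit 0) (nat_lit 945342648) (nat_lit 684) (nat_lit 5445752047) (nat_lit 76) (nat_lit 2760580203) (nat_lit 126) (nat_lit 5) (nat_lit 135) (nat_lit 5) (nat_lit 127) (nat_lit 5) (nat_lit 296) (nat_lit 270) (nat_lit 214)) (XT.nd (nat_lit 78) (nat_lit 532) (nat_lit 0) (XT.lf (nat_lit 0) (nat_lit 2562189652) (nat_lit 684) (nat_lit 1094507388) (nat_lit 76) (nat_lit 5631863970) (nat_lit 126) (nat_lit 5) (nat_lit 135) (nat_lit 5) (nat_lit 127) (nat_lit 5) (nat_lit 297) (nat_lit 270) (nat_lit 213)) (XT.lf (nat_lit 0) (nat_lit 3420129707) (nat_lit 532) (nat_lit 804844796) (nat_lit 608) (nat_lit 5204752125) (nat_lit 119) (nat_lit 5) (nat_lit 126) (nat_lit 5) (nat_lit 127) (nat_lit 5) (nat_lit 298) (nat_lit 270) (nat_lit 212)))) (XT.nd (nat_lit 78) (nat_lit 532) (nat_lit 0) (XT.lf (nat_lit 0) (nat_lit 5934581460) (nat_lit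 608) (nat_lit 1537460579) (nat_lit 76) (nat_lit 2103270121) (nat_lit 119) (nat_lit 5) (nat_lit 127) (nat_lit 5) (nat_lit 120) (nat_lit 5) (nat_lit 299) (nat_lit 270) (nat_lit 211)) (XT.nd (nat_lit 78) (nat_lit 0) (nat_lit 0) (XT.lf (nat_lit 0) (nat_lit 3087430360) (nat_lit 532) (nat_lit 4611981888) (nat_lit 608) (nat_lit 2025825332) (nat_lit 112) (nat_lit 5) (nat_lit 119) (nat_lit 5) (nat_lit 120) (nat_lit 5) (nat_lit 300) (nat_lit 270) (nat_lit 210)) (XT.lf (nat_lit 0) (nat_lit 7849227114) (nat_lit 532) (nat_lit 1650436013) (nat_lit 608) (nat_lit 380611139) (nat_lit 112) (nat_lit 5) (nat_lit 119) (nat_lit 5) (nat_lit 120) (nat_lit 5) (nat_lit 301) (nat_lit 270) (nat_lit 209))))))) (XT.nd (nat_lit 858) (nat_lit 2052) (nat_lit 0) (XT.nd (nat_lit 390) (nat_lit 912) (nat_lit 0) (XT.nd (nat_lit 156) (nat_lit 836) (nat_lit 0) (XT.nd (nat_lit 78) (nat_lit 0) (nat_lit 0) (XT.lf (nat_lit 0) (nat_lit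 1295824410) (nat_lit 532) (nat_lit 7332419164) (nat_lit 76) (nat_lit 1411197130) (nat_lit 105) (nat_lit 5) (nat_lit 112) (nat_lit 5) (nat_lit 106) (nat_lit 5) (nat_lit 302) (nat_lit 270) (nat_lit 208)) (XT.lf (nat_lit 0) (nat_lit 3020090053) (nat_lit 532) (nat_lit 2628030026) (nat_lit 76) (nat_lit 4555073706) (nat_lit 105) (nat_lit 5) (nat_lit 112) (nat_lit 5) (nat_lit 106) (nat_lit 5) (nat_lit 303) (nat_lit 270) (nat_lit 207))) (XT.nd (nat_lit 78) (nat_lit 380) (nat_lit 0) (XT.lf (nat_lit 0) (nat_lit 2228137239) (nat_lit 456) (nat_lit 2558426125) (nat_lit 532) (nat_lit 5585659677) (nat_lit 99) (nat_lit 5) (nat_lit 105) (nat_lit 5) (nat_lit 106) (nat_lit 5) (nat_lit 304) (nat_lit 270) (nat_lit 206)) (XT.nd (nat_lit 78) (nat_lit 380) (nat_lit 0) (XT.lf (nat_lit 0) (nat_lit 6608458769) (nat_lit 532) (nat_lit 3301402166) (nat_lit 76) (nat_lit 636465102) (nat_lit 99) (nat_lit 5) (nat_lit 106) (nat_lit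 5) (nat_lit 100) (nat_lit 5) (nat_lit 305) (nat_lit 270) (nat_lit 205)) (XT.lf (nat_lit 0) (nat_lit 1661144909) (nat_lit 380) (nat_lit 6835678921) (nat_lit 456) (nat_lit 2228547404) (nat_lit 94) (nat_lit 5) (nat_lit 99) (nat_lit 5) (nat_lit 100) (nat_lit 5) (nat_lit 306) (nat_lit 270) (nat_lit 204))))) (XT.nd (nat_lit 234) (nat_lit 380) (nat_lit 0) (XT.nd (nat_lit 78) (nat_lit 532) (nat_lit 0) (XT.lf (nat_lit 0) (nat_lit 6808061505) (nat_lit 380) (nat_lit 3638179393) (nat_lit 456) (nat_lit 463486214) (nat_lit 94) (nat_lit 5) (nat_lit 99) (nat_lit 5) (nat_lit 100) (nat_lit 5) (nat_lit 307) (nat_lit 270) (nat_lit 203)) (XT.nd (nat_lit 78) (nat_lit 0) (nat_lit 0) (XT.lf (nat_lit 0) (nat_lit 984075939) (nat_lit 456) (nat_lit 325038810) (nat_lit 532) (nat_lit 9790744970) (nat_lit 87) (nat_lit 5) (nat_lit 93) (nat_lit 5) (nat_lit 94) (nat_lit 5) (nat_lit 308) (nat_lit 270) (nat_lit 202)) (XT.lf (nat_lit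 0) (nat_lit 3169135818) (nat_lit 532) (nat_lit 5055095286) (nat_lit 76) (nat_lit 3070086101) (nat_lit 87) (nat_lit 5) (nat_lit 94) (nat_lit 5) (nat_lit 88) (nat_lit 5) (nat_lit 309) (nat_lit 270) (nat_lit 201)))) (XT.nd (nat_lit 78) (nat_lit 0) (nat_lit 0) (XT.lf (nat_lit 0) (nat_lit 125148987) (nat_lit 380) (nat_lit 4937093746) (nat_lit 456) (nat_lit 6433110524) (nat_lit 82) (nat_lit 5) (nat_lit 87) (nat_lit 5) (nat_lit 88) (nat_lit 5) (nat_lit 310) (nat_lit 270) (nat_lit 200)) (XT.nd (nat_lit 78) (nat_lit 0) (nat_lit 0) (XT.lf (nat_lit 0) (nat_lit 5533245021) (nat_lit 380) (nat_lit 1503299032) (nat_lit 456) (nat_lit 4665205853) (nat_lit 82) (nat_lit 5) (nat_lit 87) (nat_lit 5) (nat_lit 88) (nat_lit 5) (nat_lit 311) (nat_lit 270) (nat_lit 199)) (XT.lf (nat_lit 0) (nat_lit 9063710157) (nat_lit 456) (nat_lit 861367280) (nat_lit 76) (nat_lit 1989511705) (nat_lit 82) (nat_lit 5) (nat_lit 88) (nat_lit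 5) (nat_lit 83) (nat_lit 5) (nat_lit 312) (nat_lit 270) (nat_lit 198)))))) (XT.nd (nat_lit 468) (nat_lit 912) (nat_lit 0) (XT.nd (nat_lit 234) (nat_lit 380) (nat_lit 0) (XT.nd (nat_lit 78) (nat_lit 380) (nat_lit 0) (XT.lf (nat_lit 0) (nat_lit 4650691441) (nat_lit 380) (nat_lit 6535432353) (nat_lit 456) (nat_lit 946714802) (nat_lit 77) (nat_lit 5) (nat_lit 82) (nat_lit 5) (nat_lit 83) (nat_lit 5) (nat_lit 313) (nat_lit 270) (nat_lit 197)) (XT.nd (nat_lit 78) (nat_lit 304) (nat_lit 0) (XT.lf (nat_lit 0) (nat_lit 978549409) (nat_lit 456) (nat_lit 2051861683) (nat_lit 76) (nat_lit 9327473355) (nat_lit 76) (nat_lit 5) (nat_lit 82) (nat_lit 5) (nat_lit 77) (nat_lit 5) (nat_lit 314) (nat_lit 270) (nat_lit 196)) (XT.lf (nat_lit 0) (nat_lit 2958553726) (nat_lit 380) (nat_lit 9022974577) (nat_lit 76) (nat_lit 607444957) (nat_lit 72) (nat_lit 5) (nat_lit 77) (nat_lit 5) (nat_lit 73) (nat_lit 5) (nat_lit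 315) (nat_lit 270) (nat_lit 195)))) (XT.nd (nat_lit 78) (nat_lit 380) (nat_lit 0) (XT.lf (nat_lit 0) (nat_lit 5024978914) (nat_lit 380) (nat_lit 3492083726) (nat_lit 76) (nat_lit 4309173024) (nat_lit 72) (nat_lit 5) (nat_lit 77) (nat_lit 5) (nat_lit 73) (nat_lit 5) (nat_lit 316) (nat_lit 270) (nat_lit 194)) (XT.nd (nat_lit 78) (nat_lit 0) (nat_lit 0) (XT.lf (nat_lit 0) (nat_lit 2218948695) (nat_lit 380) (nat_lit 4932566154) (nat_lit 456) (nat_lit 5919207597) (nat_lit 67) (nat_lit 5) (nat_lit 72) (nat_lit 5) (nat_lit 73) (nat_lit 5) (nat_lit 317) (nat_lit 270) (nat_lit 193)) (XT.lf (nat_lit 0) (nat_lit 8144096694) (nat_lit 380) (nat_lit 1210200704) (nat_lit 456) (nat_lit 3967921508) (nat_lit 67) (nat_lit 5) (nat_lit 72) (nat_lit 5) (nat_lit 73) (nat_lit 5) (nat_lit 318) (nat_lit 270) (nat_lit 192))))) (XT.nd (nat_lit 234) (nat_lit 532) (nat_lit 0) (XT.nd (nat_lit 78) (nat_lit 76) (nat_lit 0)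 (XT.lf (nat_lit 0) (nat_lit 624078365) (nat_lit 304) (nat_lit 11008101903) (nat_lit 380) (nat_lit 1948856660) (nat_lit 63) (nat_lit 5) (nat_lit 67) (nat_lit 5) (nat_lit 68) (nat_lit 5) (nat_lit 319) (nat_lit 270) (nat_lit 191)) (XT.nd (nat_lit 78) (nat_lit 0) (nat_lit 0) (XT.lf (nat_lit 0) (nat_lit 170926122) (nat_lit 380) (nat_lit 7182136642) (nat_lit 76) (nat_lit 6493282540) (nat_lit 62) (nat_lit 5) (nat_lit 67) (nat_lit 5) (nat_lit 63) (nat_lit 5) (nat_lit 320) (nat_lit 270) (nat_lit 190)) (XT.lf (nat_lit 0) (nat_lit 2293684922) (nat_lit 380) (nat_lit 1281346421) (nat_lit 76) (nat_lit 10544689311) (nat_lit 62) (nat_lit 5) (nat_lit 67) (nat_lit 5) (nat_lit 63) (nat_lit 5) (nat_lit 321) (nat_lit 270) (nat_lit 189)))) (XT.nd (nat_lit 78) (nat_lit 228) (nat_lit 0) (XT.lf (nat_lit 0) (nat_lit 4509504491) (nat_lit 380) (nat_lit 9539783779) (nat_lit 76) (nat_lit 351169570) (nat_lit 58) (nat_lit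 5) (nat_lit 63) (nat_lit 5) (nat_lit 59) (nat_lit 5) (nat_lit 322) (nat_lit 270) (nat_lit 188)) (XT.nd (nat_lit 78) (nat_lit 228) (nat_lit 0) (XT.lf (nat_lit 0) (nat_lit 6819725652) (nat_lit 380) (nat_lit 3539024545) (nat_lit 76) (nat_lit 4330069826) (nat_lit 58) (nat_lit 5) (nat_lit 63) (nat_lit 5) (nat_lit 59) (nat_lit 5) (nat_lit 323) (nat_lit 270) (nat_lit 187)) (XT.lf (nat_lit 0) (nat_lit 2667110532) (nat_lit 228) (nat_lit 6537842424) (nat_lit 304) (nat_lit 5780748637) (nat_lit 55) (nat_lit 5) (nat_lit 58) (nat_lit 5) (nat_lit 59) (nat_lit 5) (nat_lit 324) (nat_lit 270) (nat_lit 186))))))))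
noncomputable def xc141 : XT := (XT.nd (nat_lit 1716) (nat_lit 1064) (nat_lit 0) (XT.nd (nat_lit 858) (nat_lit 836) (nat_lit 0) (XT.nd (nat_lit 390) (nat_lit 532) (nat_lit 0) (XT.nd (nat_lit 156) (nat_lit 304) (nat_lit 0) (XT.nd (nat_lit 78) (nat_lit 304) (nat_lit 0) (XT.lf (nat_lit 0) (nat_lit 9105546013) (nat_lit 228) (nat_lit 2572316553) (nat_lit 304) (nat_lit 3613181637) (nat_lit 55) (nat_lit 5) (nat_lit 58) (nat_lit 5) (nat_lit 59) (nat_lit 5) (nat_lit 325) (nat_lit 270) (nat_lit 185)) (XT.lf (nat_lit 0) (nat_lit 92654342) (nat_lit 304) (nat_lit 14128627584) (nat_lit 380) (nat_lit 1384412732) (nat_lit 51) (nat_lit 5) (nat_lit 55) (nat_lit 5) (nat_lit 56) (nat_lit 5) (nat_lit 326) (nat_lit 270) (nat_lit 184))) (XT.nd (nat_lit 78) (nat_lit 228) (nat_lit 0) (XT.lf (nat_lit 0) (nat_lit 962967684) (nat_lit 380) (nat_lit 9303170679) (nat_lit 76) (nat_lit 5661332701) (nat_lit 50) (nat_lit 5) (nat_lit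 55) (nat_lit 5) (nat_lit 51) (nat_lit 5) (nat_lit 327) (nat_lit 270) (nat_lit 183)) (XT.nd (nat_lit 78) (nat_lit 228) (nat_lit 0) (XT.lf (nat_lit 0) (nat_lit 3334479430) (nat_lit 380) (nat_lit 2946306077) (nat_lit 76) (nat_lit 9978292066) (nat_lit 50) (nat_lit 5) (nat_lit 55) (nat_lit 5) (nat_lit 51) (nat_lit 5) (nat_lit 328) (nat_lit 270) (nat_lit 182)) (XT.lf (nat_lit 0) (nat_lit 3647593541) (nat_lit 228) (nat_lit 2146678938) (nat_lit 304) (nat_lit 10805878806) (nat_lit 47) (nat_lit 5) (nat_lit 50) (nat_lit 5) (nat_lit 51) (nat_lit 5) (nat_lit 329) (nat_lit 270) (nat_lit 181))))) (XT.nd (nat_lit 234) (nat_lit 304) (nat_lit 0) (XT.nd (nat_lit 78) (nat_lit 228) (nat_lit 0) (XT.lf (nat_lit 0) (nat_lit 8360494103) (nat_lit 304) (nat_lit 6496548665) (nat_lit 76) (nat_lit 2093467520) (nat_lit 47) (nat_lit 5) (nat_lit 51) (nat_lit 5) (nat_lit 48) (nat_lit 5) (nat_lit 330) (nat_lit 270) (nat_lit 180))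 (XT.nd (nat_lit 78) (nat_lit 0) (nat_lit 0) (XT.lf (nat_lit 0) (nat_lit 109657890) (nat_lit 228) (nat_lit 10899160342) (nat_lit 304) (nat_lit 6302439542) (nat_lit 44) (nat_lit 5) (nat_lit 47) (nat_lit 5) (nat_lit 48) (nat_lit 5) (nat_lit 331) (nat_lit 270) (nat_lit 179)) (XT.lf (nat_lit 0) (nat_lit 7023094060) (nat_lit 228) (nat_lit 6762176746) (nat_lit 304) (nat_lit 3896126795) (nat_lit 44) (nat_lit 5) (nat_lit 47) (nat_lit 5) (nat_lit 48) (nat_lit 5) (nat_lit 332) (nat_lit 270) (nat_lit 178)))) (XT.nd (nat_lit 78) (nat_lit 304) (nat_lit 0) (XT.lf (nat_lit 0) (nat_lit 14120506653) (nat_lit 228) (nat_lit 2508079545) (nat_lit 304) (nat_lit 1434577747) (nat_lit 44) (nat_lit 5) (nat_lit 47) (nat_lit 5) (nat_lit 48) (nat_lit 5) (nat_lit 333) (nat_lit 270) (nat_lit 177)) (XT.nd (nat_lit 78) (nat_lit 0) (nat_lit 0) (XT.lf (nat_lit 0) (nat_lit 1110363891) (nat_lit 304) (nat_lit 15474735950) (nat_lit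 76) (nat_lit 1870062883) (nat_lit 40) (nat_lit 5) (nat_lit 44) (nat_lit 5) (nat_lit 41) (nat_lit 5) (nat_lit 334) (nat_lit 270) (nat_lit 176)) (XT.lf (nat_lit 0) (nat_lit 3751904981) (nat_lit 304) (nat_lit 8728436773) (nat_lit 76) (nat_lit 6376707961) (nat_lit 40) (nat_lit 5) (nat_lit 44) (nat_lit 5) (nat_lit 41) (nat_lit 5) (nat_lit 335) (nat_lit 270) (nat_lit 175)))))) (XT.nd (nat_lit 390) (nat_lit 456) (nat_lit 0) (XT.nd (nat_lit 156) (nat_lit 152) (nat_lit 0) (XT.nd (nat_lit 78) (nat_lit 228) (nat_lit 0) (XT.lf (nat_lit 0) (nat_lit 6457202037) (nat_lit 304) (nat_lit 1802373156) (nat_lit 76) (nat_lit 11011908949) (nat_lit 40) (nat_lit 5) (nat_lit 44) (nat_lit 5) (nat_lit 41) (nat_lit 5) (nat_lit 336) (nat_lit 270) (nat_lit 174)) (XT.lf (nat_lit 0) (nat_lit 5415176396) (nat_lit 228) (nat_lit 3865496503) (nat_lit 304) (nat_lit 10416593613) (nat_lit 37) (nat_lit 5) (nat_lit 40) (nat_lit 5) (nat_lit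 41) (nat_lit 5) (nat_lit 337) (nat_lit 270) (nat_lit 173))) (XT.nd (nat_lit 78) (nat_lit 152) (nat_lit 0) (XT.lf (nat_lit 0) (nat_lit 12198699887) (nat_lit 304) (nat_lit 7277757870) (nat_lit 76) (nat_lit 659093657) (nat_lit 37) (nat_lit 5) (nat_lit 41) (nat_lit 5) (nat_lit 38) (nat_lit 5) (nat_lit 338) (nat_lit 270) (nat_lit 172)) (XT.nd (nat_lit 78) (nat_lit 152) (nat_lit 0) (XT.lf (nat_lit 0) (nat_lit 15228096383) (nat_lit 304) (nat_lit 123075115) (nat_lit 76) (nat_lit 5235122408) (nat_lit 37) (nat_lit 5) (nat_lit 41) (nat_lit 5) (nat_lit 38) (nat_lit 5) (nat_lit 339) (nat_lit 270) (nat_lit 171)) (XT.lf (nat_lit 0) (nat_lit 7369166308) (nat_lit 152) (nat_lit 11036022541) (nat_lit 228) (nat_lit 2643688606) (nat_lit 35) (nat_lit 5) (nat_lit 37) (nat_lit 5) (nat_lit 38) (nat_lit 5) (nat_lit 340) (nat_lit 270) (nat_lit 170))))) (XT.nd (nat_lit 234) (nat_lit 152) (nat_lit 0) (XT.nd (nat_lit 78)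 (nat_lit 228) (nat_lit 0) (XT.lf (nat_lit 0) (nat_lit 136567614) (nat_lit 228) (nat_lit 6459055236) (nat_lit 76) (nat_lit 14930075136) (nat_lit 34) (nat_lit 5) (nat_lit 37) (nat_lit 5) (nat_lit 35) (nat_lit 5) (nat_lit 341) (nat_lit 270) (nat_lit 169)) (XT.nd (nat_lit 78) (nat_lit 0) (nat_lit 0) (XT.lf (nat_lit 0) (nat_lit 950222408) (nat_lit 228) (nat_lit 1992442629) (nat_lit 304) (nat_lit 19073527007) (nat_lit 31) (nat_lit 5) (nat_lit 34) (nat_lit 5) (nat_lit 35) (nat_lit 5) (nat_lit 342) (nat_lit 270) (nat_lit 168)) (XT.lf (nat_lit 0) (nat_lit 5911809219) (nat_lit 304) (nat_lit 13852852340) (nat_lit 76) (nat_lit 2754394071) (nat_lit 31) (nat_lit 5) (nat_lit 35) (nat_lit 5) (nat_lit 32) (nat_lit 5) (nat_lit 343) (nat_lit 270) (nat_lit 167)))) (XT.nd (nat_lit 78) (nat_lit 152) (nat_lit 0) (XT.lf (nat_lit 0) (nat_lit 8976716818) (nat_lit 304) (nat_lit 6462992528) (nat_lit 76) (nat_lit 7597115120)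 (nat_lit 31) (nat_lit 5) (nat_lit 35) (nat_lit 5) (nat_lit 32) (nat_lit 5) (nat_lit 344) (nat_lit 270) (nat_lit 166)) (XT.nd (nat_lit 78) (nat_lit 0) (nat_lit 0) (XT.lf (nat_lit 0) (nat_lit 1151693215) (nat_lit 152) (nat_lit 10980290898) (nat_lit 228) (nat_lit 11438209317) (nat_lit 29) (nat_lit 5) (nat_lit 31) (nat_lit 5) (nat_lit 32) (nat_lit 5) (nat_lit 345) (nat_lit 270) (nat_lit 165)) (XT.lf (nat_lit 0) (nat_lit 9108150641) (nat_lit 152) (nat_lit 6326548596) (nat_lit 228) (nat_lit 8683299400) (nat_lit 29) (nat_lit 5) (nat_lit 31) (nat_lit 5) (nat_lit 32) (nat_lit 5) (nat_lit 346) (nat_lit 270) (nat_lit 164))))))) (XT.nd (nat_lit 858) (nat_lit 532) (nat_lit 0) (XT.nd (nat_lit 390) (nat_lit 304) (nat_lit 0) (XT.nd (nat_lit 156) (nat_lit 76) (nat_lit 0) (XT.nd (nat_lit 78) (nat_lit 152) (nat_lit 0) (XT.lf (nat_lit 0) (nat_lit 17284705769) (nat_lit 152) (nat_lit 1539679616) (nat_lit 228) (nat_lit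 5858234248) (nat_lit 29) (nat_lit 5) (nat_lit 31) (nat_lit 5) (nat_lit 32) (nat_lit 5) (nat_lit 347) (nat_lit 270) (nat_lit 163)) (XT.lf (nat_lit 0) (nat_lit 399209528) (nat_lit 152) (nat_lit 21941166209) (nat_lit 228) (nat_lit 2923082899) (nat_lit 27) (nat_lit 5) (nat_lit 29) (nat_lit 5) (nat_lit 30) (nat_lit 5) (nat_lit 348) (nat_lit 270) (nat_lit 162))) (XT.nd (nat_lit 78) (nat_lit 0) (nat_lit 0) (XT.lf (nat_lit 0) (nat_lit 177076584) (nat_lit 228) (nat_lit 17312967082) (nat_lit 76) (nat_lit 8369299813) (nat_lit 26) (nat_lit 5) (nat_lit 29) (nat_lit 5) (nat_lit 27) (nat_lit 5) (nat_lit 349) (nat_lit 270) (nat_lit 161)) (XT.nd (nat_lit 78) (nat_lit 0) (nat_lit 0) (XT.lf (nat_lit 0) (nat_lit 3300051848) (nat_lit 228) (nat_lit 9581986618) (nat_lit 76) (nat_lit 13590557574) (nat_lit 26) (nat_lit 5) (nat_lit 29) (nat_lit 5) (nat_lit 27) (nat_lit 5) (nat_lit 350) (nat_lit 270) (nat_lit 160)) (XT.lf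 (nat_lit 0) (nat_lit 6505611581) (nat_lit 228) (nat_lit 1636454030) (nat_lit 76) (nat_lit 18962529513) (nat_lit 26) (nat_lit 5) (nat_lit 29) (nat_lit 5) (nat_lit 27) (nat_lit 5) (nat_lit 351) (nat_lit 270) (nat_lit 159))))) (XT.nd (nat_lit 234) (nat_lit 152) (nat_lit 0) (XT.nd (nat_lit 78) (nat_lit 0) (nat_lit 0) (XT.lf (nat_lit 0) (nat_lit 6660544594) (nat_lit 152) (nat_lit 3200037392) (nat_lit 228) (nat_lit 17893390222) (nat_lit 24) (nat_lit 5) (nat_lit 26) (nat_lit 5) (nat_lit 27) (nat_lit 5) (nat_lit 352) (nat_lit 270) (nat_lit 158)) (XT.nd (nat_lit 78) (nat_lit 0) (nat_lit 0) (XT.lf (nat_lit 0) (nat_lit 13340374013) (nat_lit 228) (nat_lit 13217650902) (nat_lit 76) (nat_lit 1864095408) (nat_lit 24) (nat_lit 5) (nat_lit 27) (nat_lit 5) (nat_lit 25) (nat_lit 5) (nat_lit 353) (nat_lit 270) (nat_lit 157)) (XT.lf (nat_lit 0) (nat_lit 16945868252) (nat_lit 228) (nat_lit 5153770894) (nat_lit 76)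 (nat_lit 7010048945) (nat_lit 24) (nat_lit 5) (nat_lit 27) (nat_lit 5) (nat_lit 25) (nat_lit 5) (nat_lit 354) (nat_lit 270) (nat_lit 156)))) (XT.nd (nat_lit 78) (nat_lit 0) (nat_lit 0) (XT.lf (nat_lit 0) (nat_lit 3198432167) (nat_lit 152) (nat_lit 17481767538) (nat_lit 228) (nat_lit 9137077054) (nat_lit 22) (nat_lit 5) (nat_lit 24) (nat_lit 5) (nat_lit 25) (nat_lit 5) (nat_lit 355) (nat_lit 270) (nat_lit 155)) (XT.nd (nat_lit 78) (nat_lit 0) (nat_lit 0) (XT.lf (nat_lit 0) (nat_lit 11890999218) (nat_lit 152) (nat_lit 12677672999) (nat_lit 228) (nat_lit 5976171169) (nat_lit 22) (nat_lit 5) (nat_lit 24) (nat_lit 5) (nat_lit 25) (nat_lit 5) (nat_lit 356) (nat_lit 270) (nat_lit 154)) (XT.lf (nat_lit 0) (nat_lit 20828955558) (nat_lit 152) (nat_lit 7735200756) (nat_lit 228) (nat_lit 2730383210) (nat_lit 22) (nat_lit 5) (nat_lit 24) (nat_lit 5) (nat_lit 25) (nat_lit 5) (nat_lit 357) (nat_lit 270) (nat_lit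 153)))))) (XT.nd (nat_lit 468) (nat_lit 152) (nat_lit 0) (XT.nd (nat_lit 234) (nat_lit 152) (nat_lit 0) (XT.nd (nat_lit 78) (nat_lit 152) (nat_lit 0) (XT.lf (nat_lit 0) (nat_lit 591353848) (nat_lit 228) (nat_lit 2052706782) (nat_lit 76) (nat_lit 29422785689) (nat_lit 21) (nat_lit 5) (nat_lit 24) (nat_lit 5) (nat_lit 22) (nat_lit 5) (nat_lit 358) (nat_lit 270) (nat_lit 152)) (XT.nd (nat_lit 78) (nat_lit 0) (nat_lit 0) (XT.lf (nat_lit 0) (nat_lit 4038937103) (nat_lit 228) (nat_lit 26184114040) (nat_lit 76) (nat_lit 2636040117) (nat_lit 19) (nat_lit 5) (nat_lit 22) (nat_lit 5) (nat_lit 20) (nat_lit 5) (nat_lit 359) (nat_lit 270) (nat_lit 151)) (XT.lf (nat_lit 0) (nat_lit 7627943934) (nat_lit 228) (nat_lit 18009081731) (nat_lit 76) (nat_lit 8036949764) (nat_lit 19) (nat_lit 5) (nat_lit 22) (nat_lit 5) (nat_lit 20) (nat_lit 5) (nat_lit 360) (nat_lit 270) (nat_lit 150)))) (XT.nd (nat_lit 78) (nat_lit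 152) (nat_lit 0) (XT.lf (nat_lit 0) (nat_lit 11315770206) (nat_lit 228) (nat_lit 9603153987) (nat_lit 76) (nat_lit 13594658867) (nat_lit 19) (nat_lit 5) (nat_lit 22) (nat_lit 5) (nat_lit 20) (nat_lit 5) (nat_lit 361) (nat_lit 270) (nat_lit 149)) (XT.nd (nat_lit 78) (nat_lit 152) (nat_lit 0) (XT.lf (nat_lit 0) (nat_lit 15105638293) (nat_lit 228) (nat_lit 958985822) (nat_lit 76) (nat_lit 19314023677) (nat_lit 19) (nat_lit 5) (nat_lit 22) (nat_lit 5) (nat_lit 20) (nat_lit 5) (nat_lit 362) (nat_lit 270) (nat_lit 148)) (XT.lf (nat_lit 0) (nat_lit 8088817890) (nat_lit 152) (nat_lit 10989796506) (nat_lit 228) (nat_lit 17188978473) (nat_lit 17) (nat_lit 5) (nat_lit 19) (nat_lit 5) (nat_lit 20) (nat_lit 5) (nat_lit 363) (nat_lit 270) (nat_lit 147))))) (XT.nd (nat_lit 234) (nat_lit 152) (nat_lit 0) (XT.nd (nat_lit 78) (nat_lit 0) (nat_lit 0) (XT.lf (nat_lit 0) (nat_lit 17414315177) (nat_lit 152) (nat_lit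 5757919982) (nat_lit 228) (nat_lit 14010937925) (nat_lit 17) (nat_lit 5) (nat_lit 19) (nat_lit 5) (nat_lit 20) (nat_lit 5) (nat_lit 364) (nat_lit 270) (nat_lit 146)) (XT.nd (nat_lit 78) (nat_lit 0) (nat_lit 0) (XT.lf (nat_lit 0) (nat_lit 27006568833) (nat_lit 152) (nat_lit 374106879) (nat_lit 228) (nat_lit 10745794802) (nat_lit 17) (nat_lit 5) (nat_lit 19) (nat_lit 5) (nat_lit 20) (nat_lit 5) (nat_lit 365) (nat_lit 270) (nat_lit 145)) (XT.lf (nat_lit 0) (nat_lit 31757275421) (nat_lit 228) (nat_lit 2274011049) (nat_lit 76) (nat_lit 5065533066) (nat_lit 17) (nat_lit 5) (nat_lit 20) (nat_lit 5) (nat_lit 18) (nat_lit 4) (nat_lit 366) (nat_lit 270) (nat_lit 144)))) (XT.nd (nat_lit 78) (nat_lit 76) (nat_lit 0) (XT.lf (nat_lit 0) (nat_lit 6956853755) (nat_lit 76) (nat_lit 29371321202) (nat_lit 152) (nat_lit 3766223577) (nat_lit 16) (nat_lit 5) (nat_lit 17) (nat_lit 5) (nat_lit 18) (nat_lit 4) (nat_lit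 367) (nat_lit 270) (nat_lit 143)) (XT.nd (nat_lit 78) (nat_lit 76) (nat_lit 0) (XT.lf (nat_lit 0) (nat_lit 16498929787) (nat_lit 76) (nat_lit 24552761152) (nat_lit 152) (nat_lit 69758561) (nat_lit 16) (nat_lit 5) (nat_lit 17) (nat_lit 5) (nat_lit 18) (nat_lit 4) (nat_lit 368) (nat_lit 270) (nat_lit 142)) (XT.lf (nat_lit 0) (nat_lit 3657329765) (nat_lit 152) (nat_lit 15900097358) (nat_lit 76) (nat_lit 22621035877) (nat_lit 15) (nat_lit 5) (nat_lit 17) (nat_lit 5) (nat_lit 16) (nat_lit 5) (nat_lit 369) (nat_lit 270) (nat_lit 141))))))))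
noncomputable def xc142 : XT := (XT.nd (nat_lit 1716) (nat_lit 0) (nat_lit 0) (XT.nd (nat_lit 858) (nat_lit 304) (nat_lit 0) (XT.nd (nat_lit 390) (nat_lit 76) (nat_lit 0) (XT.nd (nat_lit 156) (nat_lit 0) (nat_lit 0) (XT.nd (nat_lit 78) (nat_lit 152) (nat_lit 0) (XT.lf (nat_lit 0) (nat_lit 7487705758) (nat_lit 152) (nat_lit 6928465203) (nat_lit 76) (nat_lit 28851217405) (nat_lit 15) (nat_lit 5) (nat_lit 17) (nat_lit 5) (nat_lit 16) (nat_lit 5) (nat_lit 370) (nat_lit 270) (nat_lit 140)) (XT.lf (nat_lit 0) (nat_lit 2346678757) (nat_lit 152) (nat_lit 9101956543) (nat_lit 228) (nat_lit 32939885173) (nat_lit 13) (nat_lit 5) (nat_lit 15) (nat_lit 5) (nat_lit 16) (nat_lit 5) (nat_lit 371) (nat_lit 270) (nat_lit 139))) (XT.nd (nat_lit 78) (nat_lit 0) (nat_lit 0) (XT.lf (nat_lit 0) (nat_lit 12030786518) (nat_lit 152) (nat_lit 3560747313) (nat_lit 228) (nat_lit 29949866485) (nat_lit 13) (nat_lit 5) (nat_lit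 15) (nat_lit 5) (nat_lit 16) (nat_lit 5) (nat_lit 372) (nat_lit 270) (nat_lit 138)) (XT.nd (nat_lit 78) (nat_lit 0) (nat_lit 0) (XT.lf (nat_lit 0) (nat_lit 19872688662) (nat_lit 228) (nat_lit 24755236604) (nat_lit 76) (nat_lit 2100529982) (nat_lit 13) (nat_lit 5) (nat_lit 16) (nat_lit 5) (nat_lit 14) (nat_lit 4) (nat_lit 373) (nat_lit 270) (nat_lit 137)) (XT.lf (nat_lit 0) (nat_lit 24311061185) (nat_lit 228) (nat_lit 15783280380) (nat_lit 76) (nat_lit 7855924319) (nat_lit 13) (nat_lit 5) (nat_lit 16) (nat_lit 5) (nat_lit 14) (nat_lit 4) (nat_lit 374) (nat_lit 270) (nat_lit 136))))) (XT.nd (nat_lit 234) (nat_lit 0) (nat_lit 0) (XT.nd (nat_lit 78) (nat_lit 76) (nat_lit 0) (XT.lf (nat_lit 0) (nat_lit 28876301509) (nat_lit 228) (nat_lit 6552677473) (nat_lit 76) (nat_lit 13779947687) (nat_lit 13) (nat_lit 5) (nat_lit 16) (nat_lit 5) (nat_lit 14) (nat_lit 4) (nat_lit 375) (nat_lit 270) (nat_lit 135))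 (XT.nd (nat_lit 78) (nat_lit 0) (nat_lit 0) (XT.lf (nat_lit 0) (nat_lit 3003241755) (nat_lit 76) (nat_lit 30598025919) (nat_lit 152) (nat_lit 16903403657) (nat_lit 12) (nat_lit 5) (nat_lit 13) (nat_lit 5) (nat_lit 14) (nat_lit 4) (nat_lit 376) (nat_lit 270) (nat_lit 134)) (XT.lf (nat_lit 0) (nat_lit 12970056255) (nat_lit 76) (nat_lit 25558075938) (nat_lit 152) (nat_lit 13309358568) (nat_lit 12) (nat_lit 5) (nat_lit 13) (nat_lit 5) (nat_lit 14) (nat_lit 4) (nat_lit 377) (nat_lit 270) (nat_lit 133)))) (XT.nd (nat_lit 78) (nat_lit 0) (nat_lit 0) (XT.lf (nat_lit 0) (nat_lit 23226063760) (nat_lit 76) (nat_lit 20370894394) (nat_lit 152) (nat_lit 9613518657) (nat_lit 12) (nat_lit 5) (nat_lit 13) (nat_lit 5) (nat_lit 14) (nat_lit 4) (nat_lit 378) (nat_lit 270) (nat_lit 132)) (XT.nd (nat_lit 78) (nat_lit 0) (nat_lit 0) (XT.lf (nat_lit 0) (nat_lit 33780225833) (nat_lit 76) (nat_lit 15031948799) (nat_lit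 152) (nat_lit 5812654552) (nat_lit 12) (nat_lit 5) (nat_lit 13) (nat_lit 5) (nat_lit 14) (nat_lit 4) (nat_lit 379) (nat_lit 270) (nat_lit 131)) (XT.lf (nat_lit 0) (nat_lit 44641764555) (nat_lit 76) (nat_lit 9536574053) (nat_lit 152) (nat_lit 1903445109) (nat_lit 12) (nat_lit 5) (nat_lit 13) (nat_lit 5) (nat_lit 14) (nat_lit 4) (nat_lit 380) (nat_lit 270) (nat_lit 130)))))) (XT.nd (nat_lit 390) (nat_lit 76) (nat_lit 0) (XT.nd (nat_lit 156) (nat_lit 0) (nat_lit 0) (XT.nd (nat_lit 78) (nat_lit 152) (nat_lit 0) (XT.lf (nat_lit 0) (nat_lit 2076204937) (nat_lit 152) (nat_lit 1782797838) (nat_lit 76) (nat_lit 53723000056) (nat_lit 11) (nat_lit 5) (nat_lit 13) (nat_lit 5) (nat_lit 12) (nat_lit 5) (nat_lit 381) (nat_lit 270) (nat_lit 129)) (XT.lf (nat_lit 0) (nat_lit 6231566873) (nat_lit 228) (nat_lit 50846095652) (nat_lit 76) (nat_lit 2046169006) (nat_lit 9) (nat_lit 5) (nat_lit 12) (nat_lit 5) (nat_lit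 10) (nat_lit 4) (nat_lit 382) (nat_lit 270) (nat_lit 128))) (XT.nd (nat_lit 78) (nat_lit 0) (nat_lit 0) (XT.lf (nat_lit 0) (nat_lit 10562763281) (nat_lit 228) (nat_lit 42081997866) (nat_lit 76) (nat_lit 8065624352) (nat_lit 9) (nat_lit 5) (nat_lit 12) (nat_lit 5) (nat_lit 10) (nat_lit 4) (nat_lit 383) (nat_lit 270) (nat_lit 127)) (XT.nd (nat_lit 78) (nat_lit 0) (nat_lit 0) (XT.lf (nat_lit 0) (nat_lit 15018832142) (nat_lit 228) (nat_lit 33063586740) (nat_lit 76) (nat_lit 14262274560) (nat_lit 9) (nat_lit 5) (nat_lit 12) (nat_lit 5) (nat_lit 10) (nat_lit 4) (nat_lit 384) (nat_lit 270) (nat_lit 126)) (XT.lf (nat_lit 0) (nat_lit 19603667108) (nat_lit 228) (nat_lit 23782982109) (nat_lit 76) (nat_lit 20641534178) (nat_lit 9) (nat_lit 5) (nat_lit 12) (nat_lit 5) (nat_lit 10) (nat_lit 4) (nat_lit 385) (nat_lit 270) (nat_lit 125))))) (XT.nd (nat_lit 234) (nat_lit 0) (nat_lit 0) (XT.nd (nat_lit 78) (nat_lit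 76) (nat_lit 0) (XT.lf (nat_lit 0) (nat_lit 24321274347) (nat_lit 228) (nat_lit 14232074706) (nat_lit 76) (nat_lit 27208977316) (nat_lit 9) (nat_lit 5) (nat_lit 12) (nat_lit 5) (nat_lit 10) (nat_lit 4) (nat_lit 386) (nat_lit 270) (nat_lit 124)) (XT.nd (nat_lit 78) (nat_lit 76) (nat_lit 0) (XT.lf (nat_lit 0) (nat_lit 29175776040) (nat_lit 228) (nat_lit 4402519080) (nat_lit 76) (nat_lit 33970342517) (nat_lit 9) (nat_lit 5) (nat_lit 12) (nat_lit 5) (nat_lit 10) (nat_lit 4) (nat_lit 387) (nat_lit 270) (nat_lit 123)) (XT.lf (nat_lit 0) (nat_lit 5827998954) (nat_lit 76) (nat_lit 28399437320) (nat_lit 152) (nat_lit 35159561107) (nat_lit 8) (nat_lit 5) (nat_lit 9) (nat_lit 5) (nat_lit 10) (nat_lit 4) (nat_lit 388) (nat_lit 270) (nat_lit 122)))) (XT.nd (nat_lit 78) (nat_lit 0) (nat_lit 0) (XT.lf (nat_lit 0) (nat_lit 16448105337) (nat_lit 76) (nat_lit 23022557210) (nat_lit 152) (nat_lit 31808649586) (nat_lit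 8) (nat_lit 5) (nat_lit 9) (nat_lit 5) (nat_lit 10) (nat_lit 4) (nat_lit 389) (nat_lit 270) (nat_lit 121)) (XT.nd (nat_lit 78) (nat_lit 0) (nat_lit 0) (XT.lf (nat_lit 0) (nat_lit 27379461012) (nat_lit 76) (nat_lit 17487413357) (nat_lit 152) (nat_lit 28361655863) (nat_lit 8) (nat_lit 5) (nat_lit 9) (nat_lit 5) (nat_lit 10) (nat_lit 4) (nat_lit 390) (nat_lit 270) (nat_lit 120)) (XT.lf (nat_lit 0) (nat_lit 38631617648) (nat_lit 76) (nat_lit 11789169227) (nat_lit 152) (nat_lit 24815568003) (nat_lit 8) (nat_lit 5) (nat_lit 9) (nat_lit 5) (nat_lit 10) (nat_lit 4) (nat_lit 391) (nat_lit 270) (nat_lit 119))))))) (XT.nd (nat_lit 31824) (nat_lit 0) (nat_lit 11704) (XT.nd (nat_lit 31356) (nat_lit 0) (nat_lit 14896) (XT.nd (nat_lit 156) (nat_lit 0) (nat_lit 0) (XT.nd (nat_lit 78) (nat_lit 0) (nat_lit 0) (XT.lf (nat_lit 0) (nat_lit 50214407227) (nat_lit 76) (nat_lit 5922845771) (nat_lit 152) (nat_lit 21167287481)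 (nat_lit 8) (nat_lit 5) (nat_lit 9) (nat_lit 5) (nat_lit 10) (nat_lit 4) (nat_lit 392) (nat_lit 270) (nat_lit 118)) (XT.lf (nat_lit 0) (nat_lit 62022389337) (nat_lit 152) (nat_lit 17298065184) (nat_lit 0) (nat_lit 114406019) (nat_lit 8) (nat_lit 5) (nat_lit 10) (nat_lit 4) (nat_lit 8) (nat_lit 4) (nat_lit 393) (nat_lit 270) (nat_lit 117))) (XT.nd (nat_lit 31044) (nat_lit 0) (nat_lit 15504) (XT.lf (nat_lit 0) (nat_lit 68138865335) (nat_lit 152) (nat_lit 7277503941) (nat_lit 0) (nat_lit 6211081417) (nat_lit 8) (nat_lit 5) (nat_lit 10) (nat_lit 4) (nat_lit 8) (nat_lit 4) (nat_lit 394) (nat_lit 270) (nat_lit 116)) (XT.nd (nat_lit 78) (nat_lit 0) (nat_lit 0) (XT.lf (nat_lit 0) (nat_lit 868635743) (nat_lit 684) (nat_lit 1311204959) (nat_lit 684) (nat_lit 1311204959) (nat_lit 212) (nat_lit 3) (nat_lit 221) (nat_lit 3) (nat_lit 221) (nat_lit 5) (nat_lit 271) (nat_lit 271) (nat_lit 238)) (XT.lf (nat_lit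 76) (nat_lit 329584032) (nat_lit 0) (nat_lit 3056444770) (nat_lit 684) (nat_lit 3646322533) (nat_lit 213) (nat_lit 5) (nat_lit 212) (nat_lit 3) (nat_lit 221) (nat_lit 5) (nat_lit 272) (nat_lit 271) (nat_lit 237))))) (XT.nd (nat_lit 234) (nat_lit 0) (nat_lit 0) (XT.nd (nat_lit 78) (nat_lit 608) (nat_lit 0) (XT.lf (nat_lit 76) (nat_lit 3390580615) (nat_lit 0) (nat_lit 1656623454) (nat_lit 684) (nat_lit 2038252403) (nat_lit 213) (nat_lit 5) (nat_lit 212) (nat_lit 3) (nat_lit 221) (nat_lit 5) (nat_lit 273) (nat_lit 271) (nat_lit 236)) (XT.nd (nat_lit 78) (nat_lit 608) (nat_lit 0) (XT.lf (nat_lit 76) (nat_lit 6511063388) (nat_lit 0) (nat_lit 185475513) (nat_lit 684) (nat_lit 445685535) (nat_lit 213) (nat_lit 5) (nat_lit 212) (nat_lit 3) (nat_lit 221) (nat_lit 5) (nat_lit 274) (nat_lit 271) (nat_lit 235)) (XT.lf (nat_lit 0) (nat_lit 1148385781) (nat_lit 684) (nat_lit 4685528489) (nat_lit 760) (nat_lit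 1367332276) (nat_lit 204) (nat_lit 5) (nat_lit 213) (nat_lit 5) (nat_lit 214) (nat_lit 5) (nat_lit 275) (nat_lit 271) (nat_lit 234)))) (XT.nd (nat_lit 78) (nat_lit 0) (nat_lit 0) (XT.lf (nat_lit 0) (nat_lit 2730625363) (nat_lit 684) (nat_lit 1532947551) (nat_lit 760) (nat_lit 3000055688) (nat_lit 204) (nat_lit 5) (nat_lit 213) (nat_lit 5) (nat_lit 214) (nat_lit 5) (nat_lit 276) (nat_lit 271) (nat_lit 233)) (XT.nd (nat_lit 78) (nat_lit 0) (nat_lit 0) (XT.lf (nat_lit 76) (nat_lit 1713938517) (nat_lit 0) (nat_lit 2605617564) (nat_lit 760) (nat_lit 3009744256) (nat_lit 205) (nat_lit 5) (nat_lit 204) (nat_lit 5) (nat_lit 214) (nat_lit 5) (nat_lit 277) (nat_lit 271) (nat_lit 232)) (XT.lf (nat_lit 76) (nat_lit 5056268241) (nat_lit 0) (nat_lit 859461350) (nat_lit 760) (nat_lit 1482614643) (nat_lit 205) (nat_lit 5) (nat_lit 204) (nat_lit 5) (nat_lit 214) (nat_lit 5) (nat_lit 278) (nat_lit 271) (nat_lit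 231)))))) (XT.nd (nat_lit 468) (nat_lit 2508) (nat_lit 0) (XT.nd (nat_lit 234) (nat_lit 0) (nat_lit 0) (XT.nd (nat_lit 78) (nat_lit 0) (nat_lit 0) (XT.lf (nat_lit 0) (nat_lit 52662515) (nat_lit 760) (nat_lit 6465653672) (nat_lit 836) (nat_lit 952372718) (nat_lit 195) (nat_lit 5) (nat_lit 205) (nat_lit 5) (nat_lit 206) (nat_lit 5) (nat_lit 279) (nat_lit 271) (nat_lit 230)) (XT.nd (nat_lit 78) (nat_lit 0) (nat_lit 0) (XT.lf (nat_lit 0) (nat_lit 1583075609) (nat_lit 760) (nat_lit 3102684673) (nat_lit 836) (nat_lit 2859810150) (nat_lit 195) (nat_lit 5) (nat_lit 205) (nat_lit 5) (nat_lit 206) (nat_lit 5) (nat_lit 280) (nat_lit 271) (nat_lit 229)) (XT.lf (nat_lit 76) (nat_lit 333370602) (nat_lit 0) (nat_lit 2777276464) (nat_lit 836) (nat_lit 4513682113) (nat_lit 196) (nat_lit 5) (nat_lit 195) (nat_lit 5) (nat_lit 206) (nat_lit 5) (nat_lit 281) (nat_lit 271) (nat_lit 228)))) (XT.nd (nat_lit 78) (nat_lit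 0) (nat_lit 76) (XT.lf (nat_lit 76) (nat_lit 3902137829) (nat_lit 0) (nat_lit 762467077) (nat_lit 836) (nat_lit 3041592259) (nat_lit 196) (nat_lit 5) (nat_lit 195) (nat_lit 5) (nat_lit 206) (nat_lit 5) (nat_lit 282) (nat_lit 271) (nat_lit 227)) (XT.nd (nat_lit 78) (nat_lit 0) (nat_lit 0) (XT.lf (nat_lit 0) (nat_lit 6228664579) (nat_lit 760) (nat_lit 259948740) (nat_lit 836) (nat_lit 1303161882) (nat_lit 196) (nat_lit 5) (nat_lit 206) (nat_lit 5) (nat_lit 207) (nat_lit 5) (nat_lit 283) (nat_lit 271) (nat_lit 226)) (XT.lf (nat_lit 76) (nat_lit 3415827686) (nat_lit 0) (nat_lit 4416497498) (nat_lit 836) (nat_lit 47968901) (nat_lit 197) (nat_lit 5) (nat_lit 196) (nat_lit 5) (nat_lit 207) (nat_lit 5) (nat_lit 284) (nat_lit 271) (nat_lit 225))))) (XT.nd (nat_lit 234) (nat_lit 1748) (nat_lit 0) (XT.nd (nat_lit 78) (nat_lit 0) (nat_lit 76) (XT.lf (nat_lit 0) (nat_lit 1438516026) (nat_lit 836) (nat_lit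 813267693) (nat_lit 912) (nat_lit 5720731486) (nat_lit 185) (nat_lit 5) (nat_lit 196) (nat_lit 5) (nat_lit 197) (nat_lit 5) (nat_lit 285) (nat_lit 271) (nat_lit 224)) (XT.nd (nat_lit 78) (nat_lit 0) (nat_lit 0) (XT.lf (nat_lit 0) (nat_lit 2951519349) (nat_lit 836) (nat_lit 5096878638) (nat_lit 76) (nat_lit 19744909) (nat_lit 186) (nat_lit 5) (nat_lit 197) (nat_lit 5) (nat_lit 187) (nat_lit 5) (nat_lit 286) (nat_lit 271) (nat_lit 223)) (XT.lf (nat_lit 0) (nat_lit 4495761424) (nat_lit 836) (nat_lit 1337544133) (nat_lit 76) (nat_lit 2333895127) (nat_lit 186) (nat_lit 5) (nat_lit 197) (nat_lit 5) (nat_lit 187) (nat_lit 5) (nat_lit 287) (nat_lit 271) (nat_lit 222)))) (XT.nd (nat_lit 78) (nat_lit 988) (nat_lit 0) (XT.lf (nat_lit 0) (nat_lit 2550576044) (nat_lit 836) (nat_lit 3516835563) (nat_lit 912) (nat_lit 2202518913) (nat_lit 175) (nat_lit 5) (nat_lit 186) (nat_lit 5) (nat_lit 187) (nat_lit 5)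 (nat_lit 288) (nat_lit 271) (nat_lit 221)) (XT.nd (nat_lit 78) (nat_lit 988) (nat_lit 0) (XT.lf (nat_lit 0) (nat_lit 6549323915) (nat_lit 836) (nat_lit 1107900865) (nat_lit 912) (nat_lit 719515942) (nat_lit 175) (nat_lit 5) (nat_lit 186) (nat_lit 5) (nat_lit 187) (nat_lit 5) (nat_lit 289) (nat_lit 271) (nat_lit 220)) (XT.lf (nat_lit 0) (nat_lit 784971494) (nat_lit 988) (nat_lit 6318143176) (nat_lit 76) (nat_lit 1383746206) (nat_lit 162) (nat_lit 5) (nat_lit 175) (nat_lit 5) (nat_lit 163) (nat_lit 5) (nat_lit 290) (nat_lit 271) (nat_lit 219))))))))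
noncomputable def xc143 : XT := (XT.nd (nat_lit 1794) (nat_lit 2812) (nat_lit 0) (XT.nd (nat_lit 858) (nat_lit 2660) (nat_lit 0) (XT.nd (nat_lit 390) (nat_lit 1748) (nat_lit 0) (XT.nd (nat_lit 156) (nat_lit 1064) (nat_lit 0) (XT.nd (nat_lit 78) (nat_lit 988) (nat_lit 0) (XT.lf (nat_lit 0) (nat_lit 2308924804) (nat_lit 988) (nat_lit 2330316009) (nat_lit 76) (nat_lit 3961284260) (nat_lit 162) (nat_lit 5) (nat_lit 175) (nat_lit 5) (nat_lit 163) (nat_lit 5) (nat_lit 291) (nat_lit 271) (nat_lit 218)) (XT.lf (nat_lit 0) (nat_lit 1778347421) (nat_lit 988) (nat_lit 2077720029) (nat_lit 1064) (nat_lit 4862322129) (nat_lit 149) (nat_lit 5) (nat_lit 162) (nat_lit 5) (nat_lit 163) (nat_lit 5) (nat_lit 292) (nat_lit 271) (nat_lit 217))) (XT.nd (nat_lit 78) (nat_lit 1064) (nat_lit 0) (XT.lf (nat_lit 0) (nat_lit 5440043646) (nat_lit 1064) (nat_lit 2821167278) (nat_lit 76) (nat_lit 578977686) (nat_lit 149)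 (nat_lit 5) (nat_lit 163) (nat_lit 5) (nat_lit 150) (nat_lit 5) (nat_lit 293) (nat_lit 271) (nat_lit 216)) (XT.nd (nat_lit 78) (nat_lit 0) (nat_lit 0) (XT.lf (nat_lit 0) (nat_lit 1394416436) (nat_lit 1064) (nat_lit 5673491737) (nat_lit 1140) (nat_lit 1897950298) (nat_lit 135) (nat_lit 5) (nat_lit 149) (nat_lit 5) (nat_lit 150) (nat_lit 5) (nat_lit 294) (nat_lit 271) (nat_lit 215)) (XT.lf (nat_lit 0) (nat_lit 5761131204) (nat_lit 1064) (nat_lit 2975135773) (nat_lit 1140) (nat_lit 359386488) (nat_lit 135) (nat_lit 5) (nat_lit 149) (nat_lit 5) (nat_lit 150) (nat_lit 5) (nat_lit 295) (nat_lit 271) (nat_lit 214))))) (XT.nd (nat_lit 234) (nat_lit 532) (nat_lit 0) (XT.nd (nat_lit 78) (nat_lit 532) (nat_lit 0) (XT.lf (nat_lit 0) (nat_lit 1004302995) (nat_lit 608) (nat_lit 170563547) (nat_lit 684) (nat_lit 8055017890) (nat_lit 126) (nat_lit 5) (nat_lit 134) (nat_lit 5) (nat_lit 135) (nat_lit 5) (nat_lit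 296) (nat_lit 271) (nat_lit 213)) (XT.nd (nat_lit 78) (nat_lit 532) (nat_lit 0) (XT.lf (nat_lit 0) (nat_lit 2772613915) (nat_lit 684) (nat_lit 3889388820) (nat_lit 76) (nat_lit 2705388037) (nat_lit 126) (nat_lit 5) (nat_lit 135) (nat_lit 5) (nat_lit 127) (nat_lit 5) (nat_lit 297) (nat_lit 271) (nat_lit 212)) (XT.lf (nat_lit 0) (nat_lit 553096695) (nat_lit 532) (nat_lit 3837790872) (nat_lit 608) (nat_lit 5119050023) (nat_lit 119) (nat_lit 5) (nat_lit 126) (nat_lit 5) (nat_lit 127) (nat_lit 5) (nat_lit 298) (nat_lit 271) (nat_lit 211)))) (XT.nd (nat_lit 78) (nat_lit 532) (nat_lit 0) (XT.lf (nat_lit 0) (nat_lit 5176010912) (nat_lit 532) (nat_lit 887251277) (nat_lit 608) (nat_lit 3593422431) (nat_lit 119) (nat_lit 5) (nat_lit 126) (nat_lit 5) (nat_lit 127) (nat_lit 5) (nat_lit 299) (nat_lit 271) (nat_lit 210)) (XT.nd (nat_lit 78) (nat_lit 0) (nat_lit 0) (XT.lf (nat_lit 0) (nat_lit 77907869) (nat_lit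 532) (nat_lit 7696604019) (nat_lit 608) (nat_lit 2033748814) (nat_lit 112) (nat_lit 5) (nat_lit 119) (nat_lit 5) (nat_lit 120) (nat_lit 5) (nat_lit 300) (nat_lit 271) (nat_lit 209)) (XT.lf (nat_lit 0) (nat_lit 4823751039) (nat_lit 532) (nat_lit 4735205055) (nat_lit 608) (nat_lit 404857466) (nat_lit 112) (nat_lit 5) (nat_lit 119) (nat_lit 5) (nat_lit 120) (nat_lit 5) (nat_lit 301) (nat_lit 271) (nat_lit 208)))))) (XT.nd (nat_lit 468) (nat_lit 1292) (nat_lit 0) (XT.nd (nat_lit 234) (nat_lit 836) (nat_lit 0) (XT.nd (nat_lit 78) (nat_lit 456) (nat_lit 0) (XT.lf (nat_lit 0) (nat_lit 1216519239) (nat_lit 608) (nat_lit 456449968) (nat_lit 76) (nat_lit 8451723304) (nat_lit 111) (nat_lit 5) (nat_lit 119) (nat_lit 5) (nat_lit 112) (nat_lit 5) (nat_lit 302) (nat_lit 271) (nat_lit 207)) (XT.nd (nat_lit 78) (nat_lit 0) (nat_lit 0) (XT.lf (nat_lit 0) (nat_lit 2904943322) (nat_lit 532) (nat_lit 5886019591)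 (nat_lit 76) (nat_lit 1498596336) (nat_lit 105) (nat_lit 5) (nat_lit 112) (nat_lit 5) (nat_lit 106) (nat_lit 5) (nat_lit 303) (nat_lit 271) (nat_lit 206)) (XT.lf (nat_lit 0) (nat_lit 4635201667) (nat_lit 532) (nat_lit 1089033890) (nat_lit 76) (nat_lit 4735476686) (nat_lit 105) (nat_lit 5) (nat_lit 112) (nat_lit 5) (nat_lit 106) (nat_lit 5) (nat_lit 304) (nat_lit 271) (nat_lit 205)))) (XT.nd (nat_lit 78) (nat_lit 380) (nat_lit 0) (XT.lf (nat_lit 0) (nat_lit 3896957245) (nat_lit 456) (nat_lit 2528707932) (nat_lit 532) (nat_lit 4209129225) (nat_lit 99) (nat_lit 5) (nat_lit 105) (nat_lit 5) (nat_lit 106) (nat_lit 5) (nat_lit 305) (nat_lit 271) (nat_lit 204)) (XT.nd (nat_lit 78) (nat_lit 380) (nat_lit 0) (XT.lf (nat_lit 0) (nat_lit 8259652703) (nat_lit 532) (nat_lit 1798941556) (nat_lit 76) (nat_lit 756911817) (nat_lit 99) (nat_lit 5) (nat_lit 106) (nat_lit 5) (nat_lit 100) (nat_lit 5) (nat_lit 306)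 (nat_lit 271) (nat_lit 203)) (XT.lf (nat_lit 0) (nat_lit 3296780924) (nat_lit 380) (nat_lit 6880812843) (nat_lit 456) (nat_lit 823246593) (nat_lit 94) (nat_lit 5) (nat_lit 99) (nat_lit 5) (nat_lit 100) (nat_lit 5) (nat_lit 307) (nat_lit 271) (nat_lit 202))))) (XT.nd (nat_lit 234) (nat_lit 760) (nat_lit 0) (XT.nd (nat_lit 78) (nat_lit 456) (nat_lit 0) (XT.lf (nat_lit 0) (nat_lit 933313300) (nat_lit 456) (nat_lit 2649308736) (nat_lit 76) (nat_lit 7609178685) (nat_lit 93) (nat_lit 5) (nat_lit 99) (nat_lit 5) (nat_lit 94) (nat_lit 5) (nat_lit 308) (nat_lit 271) (nat_lit 201)) (XT.nd (nat_lit 78) (nat_lit 0) (nat_lit 0) (XT.lf (nat_lit 0) (nat_lit 2569015909) (nat_lit 456) (nat_lit 154895257) (nat_lit 532) (nat_lit 8664460967) (nat_lit 87) (nat_lit 5) (nat_lit 93) (nat_lit 5) (nat_lit 94) (nat_lit 5) (nat_lit 309) (nat_lit 271) (nat_lit 200)) (XT.lf (nat_lit 0) (nat_lit 4601347982) (nat_lit 532)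 (nat_lit 3655125027) (nat_lit 76) (nat_lit 3333435601) (nat_lit 87) (nat_lit 5) (nat_lit 94) (nat_lit 5) (nat_lit 88) (nat_lit 5) (nat_lit 310) (nat_lit 271) (nat_lit 199)))) (XT.nd (nat_lit 78) (nat_lit 380) (nat_lit 0) (XT.lf (nat_lit 0) (nat_lit 1665314583) (nat_lit 380) (nat_lit 4861756676) (nat_lit 456) (nat_lit 5270720780) (nat_lit 82) (nat_lit 5) (nat_lit 87) (nat_lit 5) (nat_lit 88) (nat_lit 5) (nat_lit 311) (nat_lit 271) (nat_lit 198)) (XT.nd (nat_lit 78) (nat_lit 380) (nat_lit 0) (XT.lf (nat_lit 0) (nat_lit 7190903660) (nat_lit 380) (nat_lit 1331456369) (nat_lit 456) (nat_lit 3489256145) (nat_lit 82) (nat_lit 5) (nat_lit 87) (nat_lit 5) (nat_lit 88) (nat_lit 5) (nat_lit 312) (nat_lit 271) (nat_lit 197)) (XT.lf (nat_lit 0) (nat_lit 610889186) (nat_lit 380) (nat_lit 9970221049) (nat_lit 456) (nat_lit 1650693044) (nat_lit 77) (nat_lit 5) (nat_lit 82) (nat_lit 5) (nat_lit 83) (nat_lit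 5) (nat_lit 313) (nat_lit 271) (nat_lit 196))))))) (XT.nd (nat_lit 858) (nat_lit 1368) (nat_lit 0) (XT.nd (nat_lit 390) (nat_lit 684) (nat_lit 0) (XT.nd (nat_lit 156) (nat_lit 684) (nat_lit 0) (XT.nd (nat_lit 78) (nat_lit 0) (nat_lit 0) (XT.lf (nat_lit 0) (nat_lit 276346418) (nat_lit 456) (nat_lit 6198409052) (nat_lit 76) (nat_lit 5982681684) (nat_lit 76) (nat_lit 5) (nat_lit 82) (nat_lit 5) (nat_lit 77) (nat_lit 5) (nat_lit 314) (nat_lit 271) (nat_lit 195)) (XT.lf (nat_lit 0) (nat_lit 2204444372) (nat_lit 456) (nat_lit 658243645) (nat_lit 76) (nat_lit 9827420534) (nat_lit 76) (nat_lit 5) (nat_lit 82) (nat_lit 5) (nat_lit 77) (nat_lit 5) (nat_lit 315) (nat_lit 271) (nat_lit 194))) (XT.nd (nat_lit 78) (nat_lit 380) (nat_lit 0) (XT.lf (nat_lit 0) (nat_lit 4225399954) (nat_lit 380) (nat_lit 7817500989) (nat_lit 76) (nat_lit 885858754) (nat_lit 72) (nat_lit 5) (nat_lit 77) (nat_lit 5) (nat_lit 73)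 (nat_lit 5) (nat_lit 316) (nat_lit 271) (nat_lit 193)) (XT.nd (nat_lit 78) (nat_lit 380) (nat_lit 0) (XT.lf (nat_lit 0) (nat_lit 6319504607) (nat_lit 380) (nat_lit 2163678447) (nat_lit 76) (nat_lit 4691060300) (nat_lit 72) (nat_lit 5) (nat_lit 77) (nat_lit 5) (nat_lit 73) (nat_lit 5) (nat_lit 317) (nat_lit 271) (nat_lit 192)) (XT.lf (nat_lit 0) (nat_lit 3704634283) (nat_lit 380) (nat_lit 4785529887) (nat_lit 456) (nat_lit 4936562572) (nat_lit 67) (nat_lit 5) (nat_lit 72) (nat_lit 5) (nat_lit 73) (nat_lit 5) (nat_lit 318) (nat_lit 271) (nat_lit 191))))) (XT.nd (nat_lit 234) (nat_lit 304) (nat_lit 0) (XT.nd (nat_lit 78) (nat_lit 380) (nat_lit 0) (XT.lf (nat_lit 0) (nat_lit 9766203213) (nat_lit 380) (nat_lit 960086092) (nat_lit 456) (nat_lit 2960530752) (nat_lit 67) (nat_lit 5) (nat_lit 72) (nat_lit 5) (nat_lit 73) (nat_lit 5) (nat_lit 319) (nat_lit 271) (nat_lit 190)) (XT.nd (nat_lit 78) (nat_lit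 76) (nat_lit 0) (XT.lf (nat_lit 0) (nat_lit 2039072031) (nat_lit 304) (nat_lit 11017744232) (nat_lit 380) (nat_lit 897124834) (nat_lit 63) (nat_lit 5) (nat_lit 67) (nat_lit 5) (nat_lit 68) (nat_lit 5) (nat_lit 320) (nat_lit 271) (nat_lit 189)) (XT.lf (nat_lit 0) (nat_lit 1232882617) (nat_lit 380) (nat_lit 6018837288) (nat_lit 76) (nat_lit 6976183626) (nat_lit 62) (nat_lit 5) (nat_lit 67) (nat_lit 5) (nat_lit 63) (nat_lit 5) (nat_lit 321) (nat_lit 271) (nat_lit 188)))) (XT.nd (nat_lit 78) (nat_lit 0) (nat_lit 0) (XT.lf (nat_lit 0) (nat_lit 19193004) (nat_lit 304) (nat_lit 3369534253) (nat_lit 380) (nat_lit 11121732752) (nat_lit 58) (nat_lit 5) (nat_lit 62) (nat_lit 5) (nat_lit 63) (nat_lit 5) (nat_lit 322) (nat_lit 271) (nat_lit 187)) (XT.nd (nat_lit 78) (nat_lit 0) (nat_lit 0) (XT.lf (nat_lit 0) (nat_lit 5656736528) (nat_lit 380) (nat_lit 8471266450) (nat_lit 76) (nat_lit 672105033) (nat_lit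 58) (nat_lit 5) (nat_lit 63) (nat_lit 5) (nat_lit 59) (nat_lit 5) (nat_lit 323) (nat_lit 271) (nat_lit 186)) (XT.lf (nat_lit 0) (nat_lit 8006790142) (nat_lit 380) (nat_lit 2329942036) (nat_lit 76) (nat_lit 4761331509) (nat_lit 58) (nat_lit 5) (nat_lit 63) (nat_lit 5) (nat_lit 59) (nat_lit 5) (nat_lit 324) (nat_lit 271) (nat_lit 185)))))) (XT.nd (nat_lit 468) (nat_lit 532) (nat_lit 0) (XT.nd (nat_lit 234) (nat_lit 304) (nat_lit 0) (XT.nd (nat_lit 78) (nat_lit 304) (nat_lit 0) (XT.lf (nat_lit 0) (nat_lit 4049482453) (nat_lit 228) (nat_lit 6397995170) (nat_lit 304) (nat_lit 4956913684) (nat_lit 55) (nat_lit 5) (nat_lit 58) (nat_lit 5) (nat_lit 59) (nat_lit 5) (nat_lit 325) (nat_lit 271) (nat_lit 184)) (XT.nd (nat_lit 78) (nat_lit 304) (nat_lit 0) (XT.lf (nat_lit 0) (nat_lit 10643138224) (nat_lit 228) (nat_lit 2323289422) (nat_lit 304) (nat_lit 2753366006) (nat_lit 55) (nat_lit 5) (nat_lit 58) (nat_lit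 5) (nat_lit 59) (nat_lit 5) (nat_lit 326) (nat_lit 271) (nat_lit 183)) (XT.lf (nat_lit 0) (nat_lit 1374046549) (nat_lit 304) (nat_lit 14200111052) (nat_lit 380) (nat_lit 470139224) (nat_lit 51) (nat_lit 5) (nat_lit 55) (nat_lit 5) (nat_lit 56) (nat_lit 5) (nat_lit 327) (nat_lit 271) (nat_lit 182)))) (XT.nd (nat_lit 78) (nat_lit 228) (nat_lit 0) (XT.lf (nat_lit 0) (nat_lit 1901715621) (nat_lit 380) (nat_lit 8321107103) (nat_lit 76) (nat_lit 6153497417) (nat_lit 50) (nat_lit 5) (nat_lit 55) (nat_lit 5) (nat_lit 51) (nat_lit 5) (nat_lit 328) (nat_lit 271) (nat_lit 181)) (XT.nd (nat_lit 78) (nat_lit 228) (nat_lit 0) (XT.lf (nat_lit 0) (nat_lit 4317871975) (nat_lit 380) (nat_lit 1810269340) (nat_lit 76) (nat_lit 10590577464) (nat_lit 50) (nat_lit 5) (nat_lit 55) (nat_lit 5) (nat_lit 51) (nat_lit 5) (nat_lit 329) (nat_lit 271) (nat_lit 180)) (XT.lf (nat_lit 0) (nat_lit 4969443091) (nat_lit 228) (nat_lit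 1867941385) (nat_lit 304) (nat_lit 10233109943) (nat_lit 47) (nat_lit 5) (nat_lit 50) (nat_lit 5) (nat_lit 51) (nat_lit 5) (nat_lit 330) (nat_lit 271) (nat_lit 179))))) (XT.nd (nat_lit 234) (nat_lit 304) (nat_lit 0) (XT.nd (nat_lit 78) (nat_lit 228) (nat_lit 0) (XT.lf (nat_lit 0) (nat_lit 9458476183) (nat_lit 304) (nat_lit 5490683284) (nat_lit 76) (nat_lit 2482914326) (nat_lit 47) (nat_lit 5) (nat_lit 51) (nat_lit 5) (nat_lit 48) (nat_lit 5) (nat_lit 331) (nat_lit 271) (nat_lit 178)) (XT.nd (nat_lit 78) (nat_lit 0) (nat_lit 0) (XT.lf (nat_lit 0) (nat_lit 1301937293) (nat_lit 228) (nat_lit 10871067265) (nat_lit 304) (nat_lit 5631081271) (nat_lit 44) (nat_lit 5) (nat_lit 47) (nat_lit 5) (nat_lit 48) (nat_lit 5) (nat_lit 332) (nat_lit 271) (nat_lit 177)) (XT.lf (nat_lit 0) (nat_lit 8388145781) (nat_lit 228) (nat_lit 6620315945) (nat_lit 304) (nat_lit 3177640252) (nat_lit 44) (nat_lit 5) (nat_lit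 47) (nat_lit 5) (nat_lit 48) (nat_lit 5) (nat_lit 333) (nat_lit 271) (nat_lit 176)))) (XT.nd (nat_lit 78) (nat_lit 304) (nat_lit 0) (XT.lf (nat_lit 0) (nat_lit 15664858647) (nat_lit 228) (nat_lit 2248636394) (nat_lit 304) (nat_lit 666575908) (nat_lit 44) (nat_lit 5) (nat_lit 47) (nat_lit 5) (nat_lit 48) (nat_lit 5) (nat_lit 334) (nat_lit 271) (nat_lit 175)) (XT.nd (nat_lit 78) (nat_lit 0) (nat_lit 0) (XT.lf (nat_lit 0) (nat_lit 1929863048) (nat_lit 304) (nat_lit 14790699243) (nat_lit 76) (nat_lit 2263344023) (nat_lit 40) (nat_lit 5) (nat_lit 44) (nat_lit 5) (nat_lit 41) (nat_lit 5) (nat_lit 335) (nat_lit 271) (nat_lit 174)) (XT.lf (nat_lit 0) (nat_lit 4627751683) (nat_lit 304) (nat_lit 7875456103) (nat_lit 76) (nat_lit 6895367699) (nat_lit 40) (nat_lit 5) (nat_lit 44) (nat_lit 5) (nat_lit 41) (nat_lit 5) (nat_lit 336) (nat_lit 271) (nat_lit 173))))))))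
noncomputable def xc144 : XT := (XT.nd (nat_lit 1716) (nat_lit 760) (nat_lit 0) (XT.nd (nat_lit 858) (nat_lit 532) (nat_lit 0) (XT.nd (nat_lit 390) (nat_lit 456) (nat_lit 0) (XT.nd (nat_lit 156) (nat_lit 152) (nat_lit 0) (XT.nd (nat_lit 78) (nat_lit 228) (nat_lit 0) (XT.lf (nat_lit 0) (nat_lit 7391975916) (nat_lit 304) (nat_lit 774081464) (nat_lit 76) (nat_lit 11660090002) (nat_lit 40) (nat_lit 5) (nat_lit 44) (nat_lit 5) (nat_lit 41) (nat_lit 5) (nat_lit 337) (nat_lit 271) (nat_lit 172)) (XT.lf (nat_lit 0) (nat_lit 6649383173) (nat_lit 228) (nat_lit 3639485854) (nat_lit 304) (nat_lit 9976209049) (nat_lit 37) (nat_lit 5) (nat_lit 40) (nat_lit 5) (nat_lit 41) (nat_lit 5) (nat_lit 338) (nat_lit 271) (nat_lit 171))) (XT.nd (nat_lit 78) (nat_lit 152) (nat_lit 0) (XT.lf (nat_lit 0) (nat_lit 13276372747) (nat_lit 304) (nat_lit 6436313288) (nat_lit 76) (nat_lit 1004402748) (nat_lit 37) (nat_lit 5)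 (nat_lit 41) (nat_lit 5) (nat_lit 38) (nat_lit 5) (nat_lit 339) (nat_lit 271) (nat_lit 170)) (XT.nd (nat_lit 78) (nat_lit 0) (nat_lit 0) (XT.lf (nat_lit 0) (nat_lit 920097056) (nat_lit 152) (nat_lit 15464669145) (nat_lit 228) (nat_lit 4796978200) (nat_lit 35) (nat_lit 5) (nat_lit 37) (nat_lit 5) (nat_lit 38) (nat_lit 5) (nat_lit 340) (nat_lit 271) (nat_lit 169)) (XT.lf (nat_lit 0) (nat_lit 8609063962) (nat_lit 152) (nat_lit 11028930790) (nat_lit 228) (nat_lit 2020819312) (nat_lit 35) (nat_lit 5) (nat_lit 37) (nat_lit 5) (nat_lit 38) (nat_lit 5) (nat_lit 341) (nat_lit 271) (nat_lit 168))))) (XT.nd (nat_lit 234) (nat_lit 152) (nat_lit 0) (XT.nd (nat_lit 78) (nat_lit 228) (nat_lit 0) (XT.lf (nat_lit 0) (nat_lit 809089780) (nat_lit 228) (nat_lit 5649329227) (nat_lit 76) (nat_lit 15691950688) (nat_lit 34) (nat_lit 5) (nat_lit 37) (nat_lit 5) (nat_lit 35) (nat_lit 5) (nat_lit 342) (nat_lit 271) (nat_lit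 167)) (XT.nd (nat_lit 78) (nat_lit 0) (nat_lit 0) (XT.lf (nat_lit 0) (nat_lit 1972388534) (nat_lit 228) (nat_lit 1717064561) (nat_lit 304) (nat_lit 18966453471) (nat_lit 31) (nat_lit 5) (nat_lit 34) (nat_lit 5) (nat_lit 35) (nat_lit 5) (nat_lit 343) (nat_lit 271) (nat_lit 166)) (XT.lf (nat_lit 0) (nat_lit 6731619599) (nat_lit 304) (nat_lit 13286681586) (nat_lit 76) (nat_lit 3156066026) (nat_lit 31) (nat_lit 5) (nat_lit 35) (nat_lit 5) (nat_lit 32) (nat_lit 5) (nat_lit 344) (nat_lit 271) (nat_lit 165)))) (XT.nd (nat_lit 78) (nat_lit 152) (nat_lit 0) (XT.lf (nat_lit 0) (nat_lit 9869762112) (nat_lit 304) (nat_lit 5703720825) (nat_lit 76) (nat_lit 8134776275) (nat_lit 31) (nat_lit 5) (nat_lit 35) (nat_lit 5) (nat_lit 32) (nat_lit 5) (nat_lit 345) (nat_lit 271) (nat_lit 164)) (XT.nd (nat_lit 78) (nat_lit 0) (nat_lit 0) (XT.lf (nat_lit 0) (nat_lit 2130060770) (nat_lit 152) (nat_lit 10980531905) (nat_lit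 228) (nat_lit 11147337306) (nat_lit 29) (nat_lit 5) (nat_lit 31) (nat_lit 5) (nat_lit 32) (nat_lit 5) (nat_lit 346) (nat_lit 271) (nat_lit 163)) (XT.lf (nat_lit 0) (nat_lit 10297722110) (nat_lit 152) (nat_lit 6196764743) (nat_lit 228) (nat_lit 8328246644) (nat_lit 29) (nat_lit 5) (nat_lit 31) (nat_lit 5) (nat_lit 32) (nat_lit 5) (nat_lit 347) (nat_lit 271) (nat_lit 162)))))) (XT.nd (nat_lit 390) (nat_lit 304) (nat_lit 0) (XT.nd (nat_lit 156) (nat_lit 76) (nat_lit 0) (XT.nd (nat_lit 78) (nat_lit 152) (nat_lit 0) (XT.lf (nat_lit 0) (nat_lit 18692884757) (nat_lit 152) (nat_lit 1275597858) (nat_lit 228) (nat_lit 5436358228) (nat_lit 29) (nat_lit 5) (nat_lit 31) (nat_lit 5) (nat_lit 32) (nat_lit 5) (nat_lit 348) (nat_lit 271) (nat_lit 161)) (XT.lf (nat_lit 0) (nat_lit 1307226789) (nat_lit 152) (nat_lit 22277360112) (nat_lit 228) (nat_lit 2418704616) (nat_lit 27) (nat_lit 5) (nat_lit 29) (nat_lit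 5) (nat_lit 30) (nat_lit 5) (nat_lit 349) (nat_lit 271) (nat_lit 160))) (XT.nd (nat_lit 78) (nat_lit 0) (nat_lit 0) (XT.lf (nat_lit 0) (nat_lit 745997946) (nat_lit 228) (nat_lit 16950394438) (nat_lit 76) (nat_lit 8921021091) (nat_lit 26) (nat_lit 5) (nat_lit 29) (nat_lit 5) (nat_lit 27) (nat_lit 5) (nat_lit 350) (nat_lit 271) (nat_lit 159)) (XT.nd (nat_lit 78) (nat_lit 0) (nat_lit 0) (XT.lf (nat_lit 0) (nat_lit 3946246670) (nat_lit 228) (nat_lit 9013172764) (nat_lit 76) (nat_lit 14290160014) (nat_lit 26) (nat_lit 5) (nat_lit 29) (nat_lit 5) (nat_lit 27) (nat_lit 5) (nat_lit 351) (nat_lit 271) (nat_lit 158)) (XT.lf (nat_lit 0) (nat_lit 7232035527) (nat_lit 228) (nat_lit 854214202) (nat_lit 76) (nat_lit 19814789585) (nat_lit 26) (nat_lit 5) (nat_lit 29) (nat_lit 5) (nat_lit 27) (nat_lit 5) (nat_lit 352) (nat_lit 271) (nat_lit 157))))) (XT.nd (nat_lit 234) (nat_lit 152) (nat_lit 0) (XT.nd (nat_lit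 78) (nat_lit 0) (nat_lit 0) (XT.lf (nat_lit 0) (nat_lit 7683544053) (nat_lit 152) (nat_lit 2996550467) (nat_lit 228) (nat_lit 17890052025) (nat_lit 24) (nat_lit 5) (nat_lit 26) (nat_lit 5) (nat_lit 27) (nat_lit 5) (nat_lit 353) (nat_lit 271) (nat_lit 156)) (XT.nd (nat_lit 78) (nat_lit 0) (nat_lit 0) (XT.lf (nat_lit 0) (nat_lit 14251822064) (nat_lit 228) (nat_lit 12801802674) (nat_lit 76) (nat_lit 2205109491) (nat_lit 24) (nat_lit 5) (nat_lit 27) (nat_lit 5) (nat_lit 25) (nat_lit 5) (nat_lit 354) (nat_lit 271) (nat_lit 155)) (XT.lf (nat_lit 0) (nat_lit 17950590737) (nat_lit 228) (nat_lit 4519667753) (nat_lit 76) (nat_lit 7497138006) (nat_lit 24) (nat_lit 5) (nat_lit 27) (nat_lit 5) (nat_lit 25) (nat_lit 5) (nat_lit 355) (nat_lit 271) (nat_lit 154)))) (XT.nd (nat_lit 78) (nat_lit 0) (nat_lit 0) (XT.lf (nat_lit 0) (nat_lit 4075368887) (nat_lit 152) (nat_lit 17714633848) (nat_lit 228) (nat_lit 8906438722)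 (nat_lit 22) (nat_lit 5) (nat_lit 24) (nat_lit 5) (nat_lit 25) (nat_lit 5) (nat_lit 356) (nat_lit 271) (nat_lit 153)) (XT.nd (nat_lit 78) (nat_lit 0) (nat_lit 0) (XT.lf (nat_lit 0) (nat_lit 13005965850) (nat_lit 152) (nat_lit 12774909289) (nat_lit 228) (nat_lit 5665407136) (nat_lit 22) (nat_lit 5) (nat_lit 24) (nat_lit 5) (nat_lit 25) (nat_lit 5) (nat_lit 357) (nat_lit 271) (nat_lit 152)) (XT.lf (nat_lit 0) (nat_lit 22189976317) (nat_lit 152) (nat_lit 7692408332) (nat_lit 228) (nat_lit 2336518814) (nat_lit 22) (nat_lit 5) (nat_lit 24) (nat_lit 5) (nat_lit 25) (nat_lit 5) (nat_lit 358) (nat_lit 271) (nat_lit 151))))))) (XT.nd (nat_lit 858) (nat_lit 228) (nat_lit 0) (XT.nd (nat_lit 390) (nat_lit 304) (nat_lit 0) (XT.nd (nat_lit 156) (nat_lit 0) (nat_lit 0) (XT.nd (nat_lit 78) (nat_lit 152) (nat_lit 0) (XT.lf (nat_lit 0) (nat_lit 1061999114) (nat_lit 228) (nat_lit 1389966734) (nat_lit 76) (nat_lit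 30562701930) (nat_lit 21) (nat_lit 5) (nat_lit 24) (nat_lit 5) (nat_lit 22) (nat_lit 5) (nat_lit 359) (nat_lit 271) (nat_lit 150)) (XT.lf (nat_lit 0) (nat_lit 4609314120) (nat_lit 228) (nat_lit 26241041055) (nat_lit 76) (nat_lit 2980453148) (nat_lit 19) (nat_lit 5) (nat_lit 22) (nat_lit 5) (nat_lit 20) (nat_lit 5) (nat_lit 360) (nat_lit 271) (nat_lit 149))) (XT.nd (nat_lit 78) (nat_lit 0) (nat_lit 0) (XT.lf (nat_lit 0) (nat_lit 8292907401) (nat_lit 228) (nat_lit 17841979030) (nat_lit 76) (nat_lit 8535661973) (nat_lit 19) (nat_lit 5) (nat_lit 22) (nat_lit 5) (nat_lit 20) (nat_lit 5) (nat_lit 361) (nat_lit 271) (nat_lit 148)) (XT.nd (nat_lit 78) (nat_lit 0) (nat_lit 0) (XT.lf (nat_lit 0) (nat_lit 12078665788) (nat_lit 228) (nat_lit 9204476614) (nat_lit 76) (nat_lit 14252599328) (nat_lit 19) (nat_lit 5) (nat_lit 22) (nat_lit 5) (nat_lit 20) (nat_lit 5) (nat_lit 362) (nat_lit 271) (nat_lit 147))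 (XT.lf (nat_lit 0) (nat_lit 15969897224) (nat_lit 228) (nat_lit 320986472) (nat_lit 76) (nat_lit 20136260596) (nat_lit 19) (nat_lit 5) (nat_lit 22) (nat_lit 5) (nat_lit 20) (nat_lit 5) (nat_lit 363) (nat_lit 271) (nat_lit 146))))) (XT.nd (nat_lit 234) (nat_lit 152) (nat_lit 0) (XT.nd (nat_lit 78) (nat_lit 0) (nat_lit 0) (XT.lf (nat_lit 0) (nat_lit 8991714401) (nat_lit 152) (nat_lit 11064721273) (nat_lit 228) (nat_lit 17286506299) (nat_lit 17) (nat_lit 5) (nat_lit 19) (nat_lit 5) (nat_lit 20) (nat_lit 5) (nat_lit 364) (nat_lit 271) (nat_lit 145)) (XT.nd (nat_lit 78) (nat_lit 0) (nat_lit 0) (XT.lf (nat_lit 0) (nat_lit 18577746550) (nat_lit 152) (nat_lit 5683308914) (nat_lit 228) (nat_lit 14025303413) (nat_lit 17) (nat_lit 5) (nat_lit 19) (nat_lit 5) (nat_lit 20) (nat_lit 5) (nat_lit 365) (nat_lit 271) (nat_lit 144)) (XT.lf (nat_lit 0) (nat_lit 28439097857) (nat_lit 152) (nat_lit 145185747) (nat_lit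 228) (nat_lit 10674030151) (nat_lit 17) (nat_lit 5) (nat_lit 19) (nat_lit 5) (nat_lit 20) (nat_lit 5) (nat_lit 366) (nat_lit 271) (nat_lit 143)))) (XT.nd (nat_lit 78) (nat_lit 152) (nat_lit 0) (XT.lf (nat_lit 0) (nat_lit 33083290804) (nat_lit 228) (nat_lit 1728663984) (nat_lit 76) (nat_lit 5446099307) (nat_lit 17) (nat_lit 5) (nat_lit 20) (nat_lit 5) (nat_lit 18) (nat_lit 4) (nat_lit 367) (nat_lit 271) (nat_lit 142)) (XT.nd (nat_lit 78) (nat_lit 76) (nat_lit 0) (XT.lf (nat_lit 0) (nat_lit 7773111398) (nat_lit 76) (nat_lit 30013173359) (nat_lit 152) (nat_lit 3499440406) (nat_lit 16) (nat_lit 5) (nat_lit 17) (nat_lit 5) (nat_lit 18) (nat_lit 4) (nat_lit 368) (nat_lit 271) (nat_lit 141)) (XT.lf (nat_lit 0) (nat_lit 291064546) (nat_lit 152) (nat_lit 24763022319) (nat_lit 76) (nat_lit 17289750293) (nat_lit 15) (nat_lit 5) (nat_lit 17) (nat_lit 5) (nat_lit 16) (nat_lit 5) (nat_lit 369) (nat_lit 271)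 (nat_lit 140)))))) (XT.nd (nat_lit 468) (nat_lit 76) (nat_lit 0) (XT.nd (nat_lit 234) (nat_lit 0) (nat_lit 0) (XT.nd (nat_lit 78) (nat_lit 152) (nat_lit 0) (XT.lf (nat_lit 0) (nat_lit 4118033917) (nat_lit 152) (nat_lit 15797020368) (nat_lit 76) (nat_lit 23517814500) (nat_lit 15) (nat_lit 5) (nat_lit 17) (nat_lit 5) (nat_lit 16) (nat_lit 5) (nat_lit 370) (nat_lit 271) (nat_lit 139)) (XT.nd (nat_lit 78) (nat_lit 152) (nat_lit 0) (XT.lf (nat_lit 0) (nat_lit 8053098347) (nat_lit 152) (nat_lit 6573134780) (nat_lit 76) (nat_lit 29928547662) (nat_lit 15) (nat_lit 5) (nat_lit 17) (nat_lit 5) (nat_lit 16) (nat_lit 5) (nat_lit 371) (nat_lit 271) (nat_lit 138)) (XT.lf (nat_lit 0) (nat_lit 2974742082) (nat_lit 152) (nat_lit 9153549200) (nat_lit 228) (nat_lit 33581404347) (nat_lit 13) (nat_lit 5) (nat_lit 15) (nat_lit 5) (nat_lit 16) (nat_lit 5) (nat_lit 372) (nat_lit 271) (nat_lit 137)))) (XT.nd (nat_lit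 78) (nat_lit 0) (nat_lit 0) (XT.lf (nat_lit 0) (nat_lit 12933130466) (nat_lit 152) (nat_lit 3452554160) (nat_lit 228) (nat_lit 30511782499) (nat_lit 13) (nat_lit 5) (nat_lit 15) (nat_lit 5) (nat_lit 16) (nat_lit 5) (nat_lit 373) (nat_lit 271) (nat_lit 136)) (XT.nd (nat_lit 78) (nat_lit 0) (nat_lit 0) (XT.lf (nat_lit 0) (nat_lit 20787773828) (nat_lit 228) (nat_lit 24964370700) (nat_lit 76) (nat_lit 2368225342) (nat_lit 13) (nat_lit 5) (nat_lit 16) (nat_lit 5) (nat_lit 14) (nat_lit 4) (nat_lit 374) (nat_lit 271) (nat_lit 135)) (XT.lf (nat_lit 0) (nat_lit 25350009046) (nat_lit 228) (nat_lit 15738795295) (nat_lit 76) (nat_lit 8290319971) (nat_lit 13) (nat_lit 5) (nat_lit 16) (nat_lit 5) (nat_lit 14) (nat_lit 4) (nat_lit 375) (nat_lit 271) (nat_lit 134))))) (XT.nd (nat_lit 234) (nat_lit 0) (nat_lit 0) (XT.nd (nat_lit 78) (nat_lit 76) (nat_lit 0) (XT.lf (nat_lit 0) (nat_lit 30043188637) (nat_lit 228)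 (nat_lit 6246361199) (nat_lit 76) (nat_lit 14386276139) (nat_lit 13) (nat_lit 5) (nat_lit 16) (nat_lit 5) (nat_lit 14) (nat_lit 4) (nat_lit 376) (nat_lit 271) (nat_lit 133)) (XT.nd (nat_lit 78) (nat_lit 0) (nat_lit 0) (XT.lf (nat_lit 0) (nat_lit 3591305248) (nat_lit 76) (nat_lit 31314630012) (nat_lit 152) (nat_lit 17104636984) (nat_lit 12) (nat_lit 5) (nat_lit 13) (nat_lit 5) (nat_lit 14) (nat_lit 4) (nat_lit 377) (nat_lit 271) (nat_lit 132)) (XT.lf (nat_lit 0) (nat_lit 13842620311) (nat_lit 76) (nat_lit 26129345707) (nat_lit 152) (nat_lit 13411679341) (nat_lit 12) (nat_lit 5) (nat_lit 13) (nat_lit 5) (nat_lit 14) (nat_lit 4) (nat_lit 378) (nat_lit 271) (nat_lit 131)))) (XT.nd (nat_lit 78) (nat_lit 0) (nat_lit 0) (XT.lf (nat_lit 0) (nat_lit 24392226614) (nat_lit 76) (nat_lit 20792242090) (nat_lit 152) (nat_lit 9613613553) (nat_lit 12) (nat_lit 5) (nat_lit 13) (nat_lit 5) (nat_lit 14) (nat_lit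 4) (nat_lit 379) (nat_lit 271) (nat_lit 130)) (XT.nd (nat_lit 78) (nat_lit 0) (nat_lit 0) (XT.lf (nat_lit 0) (nat_lit 35249342259) (nat_lit 76) (nat_lit 15298655675) (nat_lit 152) (nat_lit 5707120923) (nat_lit 12) (nat_lit 5) (nat_lit 13) (nat_lit 5) (nat_lit 14) (nat_lit 4) (nat_lit 380) (nat_lit 271) (nat_lit 129)) (XT.lf (nat_lit 0) (nat_lit 46423454047) (nat_lit 76) (nat_lit 9643786238) (nat_lit 152) (nat_lit 1688788009) (nat_lit 12) (nat_lit 5) (nat_lit 13) (nat_lit 5) (nat_lit 14) (nat_lit 4) (nat_lit 381) (nat_lit 271) (nat_lit 128))))))))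
noncomputable def xc145 : XT := (XT.nd (nat_lit 32760) (nat_lit 0) (nat_lit 7372) (XT.nd (nat_lit 858) (nat_lit 0) (nat_lit 0) (XT.nd (nat_lit 390) (nat_lit 76) (nat_lit 0) (XT.nd (nat_lit 156) (nat_lit 0) (nat_lit 0) (XT.nd (nat_lit 78) (nat_lit 152) (nat_lit 0) (XT.lf (nat_lit 0) (nat_lit 2397187616) (nat_lit 152) (nat_lit 1401298122) (nat_lit 76) (nat_lit 55502931252) (nat_lit 11) (nat_lit 5) (nat_lit 13) (nat_lit 5) (nat_lit 12) (nat_lit 5) (nat_lit 382) (nat_lit 271) (nat_lit 127)) (XT.lf (nat_lit 0) (nat_lit 6675502112) (nat_lit 228) (nat_lit 51934509842) (nat_lit 76) (nat_lit 2279548147) (nat_lit 9) (nat_lit 5) (nat_lit 12) (nat_lit 5) (nat_lit 10) (nat_lit 4) (nat_lit 383) (nat_lit 271) (nat_lit 126))) (XT.nd (nat_lit 78) (nat_lit 0) (nat_lit 0) (XT.lf (nat_lit 0) (nat_lit 11129149318) (nat_lit 228) (nat_lit 42920216366) (nat_lit 76) (nat_lit 8474577618) (nat_lit 9) (nat_lit 5) (nat_lit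 12) (nat_lit 5) (nat_lit 10) (nat_lit 4) (nat_lit 384) (nat_lit 271) (nat_lit 125)) (XT.nd (nat_lit 78) (nat_lit 0) (nat_lit 0) (XT.lf (nat_lit 0) (nat_lit 15711633163) (nat_lit 228) (nat_lit 33643609453) (nat_lit 76) (nat_lit 14852263704) (nat_lit 9) (nat_lit 5) (nat_lit 12) (nat_lit 5) (nat_lit 10) (nat_lit 4) (nat_lit 385) (nat_lit 271) (nat_lit 124)) (XT.lf (nat_lit 0) (nat_lit 20426957760) (nat_lit 228) (nat_lit 24096583330) (nat_lit 76) (nat_lit 21418179142) (nat_lit 9) (nat_lit 5) (nat_lit 12) (nat_lit 5) (nat_lit 10) (nat_lit 4) (nat_lit 386) (nat_lit 271) (nat_lit 123))))) (XT.nd (nat_lit 234) (nat_lit 0) (nat_lit 0) (XT.nd (nat_lit 78) (nat_lit 76) (nat_lit 0) (XT.lf (nat_lit 0) (nat_lit 25279243294) (nat_lit 228) (nat_lit 14270795936) (nat_lit 76) (nat_lit 28178061139) (nat_lit 9) (nat_lit 5) (nat_lit 12) (nat_lit 5) (nat_lit 10) (nat_lit 4) (nat_lit 387) (nat_lit 271) (nat_lit 122))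 (XT.nd (nat_lit 78) (nat_lit 76) (nat_lit 0) (XT.lf (nat_lit 0) (nat_lit 30272729628) (nat_lit 228) (nat_lit 4157661631) (nat_lit 76) (nat_lit 35137816389) (nat_lit 9) (nat_lit 5) (nat_lit 12) (nat_lit 5) (nat_lit 10) (nat_lit 4) (nat_lit 388) (nat_lit 271) (nat_lit 121)) (XT.lf (nat_lit 0) (nat_lit 6376076522) (nat_lit 76) (nat_lit 29096994227) (nat_lit 152) (nat_lit 35988740455) (nat_lit 8) (nat_lit 5) (nat_lit 9) (nat_lit 5) (nat_lit 10) (nat_lit 4) (nat_lit 389) (nat_lit 271) (nat_lit 120)))) (XT.nd (nat_lit 78) (nat_lit 0) (nat_lit 0) (XT.lf (nat_lit 0) (nat_lit 17303915099) (nat_lit 76) (nat_lit 23563305565) (nat_lit 152) (nat_lit 32543872680) (nat_lit 8) (nat_lit 5) (nat_lit 9) (nat_lit 5) (nat_lit 10) (nat_lit 4) (nat_lit 390) (nat_lit 271) (nat_lit 119)) (XT.nd (nat_lit 78) (nat_lit 0) (nat_lit 0) (XT.lf (nat_lit 0) (nat_lit 28552657077) (nat_lit 76) (nat_lit 17866474242) (nat_lit 152)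 (nat_lit 28999848847) (nat_lit 8) (nat_lit 5) (nat_lit 9) (nat_lit 5) (nat_lit 10) (nat_lit 4) (nat_lit 391) (nat_lit 271) (nat_lit 118)) (XT.lf (nat_lit 0) (nat_lit 40132131453) (nat_lit 76) (nat_lit 12001522443) (nat_lit 152) (nat_lit 25353572235) (nat_lit 8) (nat_lit 5) (nat_lit 9) (nat_lit 5) (nat_lit 10) (nat_lit 4) (nat_lit 392) (nat_lit 271) (nat_lit 117)))))) (XT.nd (nat_lit 31434) (nat_lit 0) (nat_lit 14136) (XT.nd (nat_lit 31200) (nat_lit 0) (nat_lit 14820) (XT.nd (nat_lit 78) (nat_lit 0) (nat_lit 0) (XT.lf (nat_lit 0) (nat_lit 52052456217) (nat_lit 76) (nat_lit 5963325454) (nat_lit 152) (nat_lit 21601856778) (nat_lit 8) (nat_lit 5) (nat_lit 9) (nat_lit 5) (nat_lit 10) (nat_lit 4) (nat_lit 393) (nat_lit 271) (nat_lit 116)) (XT.lf (nat_lit 0) (nat_lit 64073090132) (nat_lit 152) (nat_lit 17490467225) (nat_lit 0) (nat_lit 248448212) (nat_lit 8) (nat_lit 5) (nat_lit 10) (nat_lit 4) (nat_lit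 8) (nat_lit 4) (nat_lit 394) (nat_lit 271) (nat_lit 115))) (XT.nd (nat_lit 78) (nat_lit 684) (nat_lit 0) (XT.lf (nat_lit 0) (nat_lit 2498656981) (nat_lit 684) (nat_lit 521633217) (nat_lit 684) (nat_lit 521633217) (nat_lit 212) (nat_lit 3) (nat_lit 221) (nat_lit 3) (nat_lit 221) (nat_lit 5) (nat_lit 272) (nat_lit 272) (nat_lit 236)) (XT.nd (nat_lit 78) (nat_lit 684) (nat_lit 0) (XT.lf (nat_lit 76) (nat_lit 1981034239) (nat_lit 0) (nat_lit 4636844773) (nat_lit 684) (nat_lit 520399343) (nat_lit 213) (nat_lit 5) (nat_lit 212) (nat_lit 3) (nat_lit 221) (nat_lit 5) (nat_lit 273) (nat_lit 272) (nat_lit 235)) (XT.lf (nat_lit 0) (nat_lit 1021353539) (nat_lit 684) (nat_lit 2120001222) (nat_lit 760) (nat_lit 4054381007) (nat_lit 203) (nat_lit 5) (nat_lit 212) (nat_lit 3) (nat_lit 213) (nat_lit 5) (nat_lit 274) (nat_lit 272) (nat_lit 234))))) (XT.nd (nat_lit 234) (nat_lit 684) (nat_lit 0) (XT.nd (nat_lit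 78) (nat_lit 0) (nat_lit 76) (XT.lf (nat_lit 76) (nat_lit 990677855) (nat_lit 0) (nat_lit 1558831018) (nat_lit 760) (nat_lit 4706935959) (nat_lit 204) (nat_lit 5) (nat_lit 203) (nat_lit 5) (nat_lit 213) (nat_lit 5) (nat_lit 275) (nat_lit 272) (nat_lit 233)) (XT.nd (nat_lit 78) (nat_lit 0) (nat_lit 0) (XT.lf (nat_lit 0) (nat_lit 4088561319) (nat_lit 684) (nat_lit 3114811164) (nat_lit 760) (nat_lit 116846045) (nat_lit 204) (nat_lit 5) (nat_lit 213) (nat_lit 5) (nat_lit 214) (nat_lit 5) (nat_lit 276) (nat_lit 272) (nat_lit 232)) (XT.lf (nat_lit 76) (nat_lit 84145993) (nat_lit 0) (nat_lit 5550298221) (nat_lit 760) (nat_lit 1752830715) (nat_lit 205) (nat_lit 5) (nat_lit 204) (nat_lit 5) (nat_lit 214) (nat_lit 5) (nat_lit 277) (nat_lit 272) (nat_lit 231)))) (XT.nd (nat_lit 78) (nat_lit 760) (nat_lit 0) (XT.lf (nat_lit 76) (nat_lit 3410508025) (nat_lit 0) (nat_lit 3793372462) (nat_lit 760) (nat_lit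 253330973) (nat_lit 205) (nat_lit 5) (nat_lit 204) (nat_lit 5) (nat_lit 214) (nat_lit 5) (nat_lit 278) (nat_lit 272) (nat_lit 230)) (XT.nd (nat_lit 78) (nat_lit 0) (nat_lit 0) (XT.lf (nat_lit 0) (nat_lit 1212566324) (nat_lit 760) (nat_lit 737702645) (nat_lit 836) (nat_lit 5580379744) (nat_lit 194) (nat_lit 5) (nat_lit 204) (nat_lit 5) (nat_lit 205) (nat_lit 5) (nat_lit 279) (nat_lit 272) (nat_lit 229)) (XT.lf (nat_lit 76) (nat_lit 2688774095) (nat_lit 0) (nat_lit 2583627) (nat_lit 836) (nat_lit 4915804003) (nat_lit 195) (nat_lit 5) (nat_lit 194) (nat_lit 5) (nat_lit 205) (nat_lit 5) (nat_lit 280) (nat_lit 272) (nat_lit 228))))))) (XT.nd (nat_lit 858) (nat_lit 4332) (nat_lit 0) (XT.nd (nat_lit 390) (nat_lit 1748) (nat_lit 0) (XT.nd (nat_lit 156) (nat_lit 760) (nat_lit 0) (XT.nd (nat_lit 78) (nat_lit 0) (nat_lit 0) (XT.lf (nat_lit 0) (nat_lit 4190849913) (nat_lit 760) (nat_lit 1505221051) (nat_lit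 836) (nat_lit 1990772307) (nat_lit 195) (nat_lit 5) (nat_lit 205) (nat_lit 5) (nat_lit 206) (nat_lit 5) (nat_lit 281) (nat_lit 272) (nat_lit 227)) (XT.lf (nat_lit 76) (nat_lit 2017341920) (nat_lit 0) (nat_lit 3688426498) (nat_lit 836) (nat_lit 2064192099) (nat_lit 196) (nat_lit 5) (nat_lit 195) (nat_lit 5) (nat_lit 206) (nat_lit 5) (nat_lit 282) (nat_lit 272) (nat_lit 226))) (XT.nd (nat_lit 78) (nat_lit 760) (nat_lit 0) (XT.lf (nat_lit 76) (nat_lit 5644415751) (nat_lit 0) (nat_lit 1589061226) (nat_lit 836) (nat_lit 623227913) (nat_lit 196) (nat_lit 5) (nat_lit 195) (nat_lit 5) (nat_lit 206) (nat_lit 5) (nat_lit 283) (nat_lit 272) (nat_lit 225)) (XT.nd (nat_lit 78) (nat_lit 0) (nat_lit 0) (XT.lf (nat_lit 0) (nat_lit 816630724) (nat_lit 836) (nat_lit 6531278993) (nat_lit 912) (nat_lit 598864661) (nat_lit 185) (nat_lit 5) (nat_lit 196) (nat_lit 5) (nat_lit 197) (nat_lit 5) (nat_lit 284) (nat_lit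 272) (nat_lit 224)) (XT.lf (nat_lit 0) (nat_lit 2279583976) (nat_lit 836) (nat_lit 2897049939) (nat_lit 912) (nat_lit 2863094991) (nat_lit 185) (nat_lit 5) (nat_lit 196) (nat_lit 5) (nat_lit 197) (nat_lit 5) (nat_lit 285) (nat_lit 272) (nat_lit 223))))) (XT.nd (nat_lit 234) (nat_lit 988) (nat_lit 0) (XT.nd (nat_lit 78) (nat_lit 760) (nat_lit 0) (XT.lf (nat_lit 76) (nat_lit 829863347) (nat_lit 0) (nat_lit 2920006496) (nat_lit 912) (nat_lit 4386835630) (nat_lit 186) (nat_lit 5) (nat_lit 185) (nat_lit 5) (nat_lit 197) (nat_lit 5) (nat_lit 286) (nat_lit 272) (nat_lit 222)) (XT.nd (nat_lit 78) (nat_lit 760) (nat_lit 0) (XT.lf (nat_lit 76) (nat_lit 4695753439) (nat_lit 0) (nat_lit 554219625) (nat_lit 912) (nat_lit 2987179751) (nat_lit 186) (nat_lit 5) (nat_lit 185) (nat_lit 5) (nat_lit 197) (nat_lit 5) (nat_lit 287) (nat_lit 272) (nat_lit 221)) (XT.lf (nat_lit 0) (nat_lit 291823208) (nat_lit 836)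 (nat_lit 6481985792) (nat_lit 912) (nat_lit 1567571565) (nat_lit 175) (nat_lit 5) (nat_lit 186) (nat_lit 5) (nat_lit 187) (nat_lit 5) (nat_lit 288) (nat_lit 272) (nat_lit 220)))) (XT.nd (nat_lit 78) (nat_lit 988) (nat_lit 0) (XT.lf (nat_lit 0) (nat_lit 4274580713) (nat_lit 836) (nat_lit 4068718589) (nat_lit 912) (nat_lit 105562787) (nat_lit 175) (nat_lit 5) (nat_lit 186) (nat_lit 5) (nat_lit 187) (nat_lit 5) (nat_lit 289) (nat_lit 272) (nat_lit 219)) (XT.nd (nat_lit 78) (nat_lit 912) (nat_lit 0) (XT.lf (nat_lit 0) (nat_lit 1332411742) (nat_lit 912) (nat_lit 228648061) (nat_lit 76) (nat_lit 6999439462) (nat_lit 174) (nat_lit 5) (nat_lit 186) (nat_lit 5) (nat_lit 175) (nat_lit 5) (nat_lit 290) (nat_lit 272) (nat_lit 218)) (XT.lf (nat_lit 0) (nat_lit 2819576221) (nat_lit 988) (nat_lit 4807412616) (nat_lit 76) (nat_lit 1048334696) (nat_lit 162) (nat_lit 5) (nat_lit 175) (nat_lit 5) (nat_lit 163)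 (nat_lit 5) (nat_lit 291) (nat_lit 272) (nat_lit 217)))))) (XT.nd (nat_lit 468) (nat_lit 1596) (nat_lit 0) (XT.nd (nat_lit 234) (nat_lit 1748) (nat_lit 0) (XT.nd (nat_lit 78) (nat_lit 988) (nat_lit 0) (XT.lf (nat_lit 0) (nat_lit 4330673696) (nat_lit 988) (nat_lit 749473202) (nat_lit 76) (nat_lit 3714177258) (nat_lit 162) (nat_lit 5) (nat_lit 175) (nat_lit 5) (nat_lit 163) (nat_lit 5) (nat_lit 292) (nat_lit 272) (nat_lit 216)) (XT.nd (nat_lit 78) (nat_lit 0) (nat_lit 0) (XT.lf (nat_lit 0) (nat_lit 3466266285) (nat_lit 988) (nat_lit 2416808425) (nat_lit 1064) (nat_lit 3034048900) (nat_lit 149) (nat_lit 5) (nat_lit 162) (nat_lit 5) (nat_lit 163) (nat_lit 5) (nat_lit 293) (nat_lit 272) (nat_lit 215)) (XT.lf (nat_lit 0) (nat_lit 7456317655) (nat_lit 1064) (nat_lit 1255271759) (nat_lit 76) (nat_lit 332894324) (nat_lit 149) (nat_lit 5) (nat_lit 163) (nat_lit 5) (nat_lit 150) (nat_lit 5) (nat_lit 294)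 (nat_lit 272) (nat_lit 214)))) (XT.nd (nat_lit 78) (nat_lit 684) (nat_lit 0) (XT.lf (nat_lit 0) (nat_lit 3070597794) (nat_lit 1064) (nat_lit 6024157694) (nat_lit 1140) (nat_lit 80470990) (nat_lit 135) (nat_lit 5) (nat_lit 149) (nat_lit 5) (nat_lit 150) (nat_lit 5) (nat_lit 295) (nat_lit 272) (nat_lit 213)) (XT.nd (nat_lit 78) (nat_lit 608) (nat_lit 0) (XT.lf (nat_lit 0) (nat_lit 1421367048) (nat_lit 1140) (nat_lit 1803874831) (nat_lit 76) (nat_lit 6084991542) (nat_lit 134) (nat_lit 5) (nat_lit 149) (nat_lit 5) (nat_lit 135) (nat_lit 5) (nat_lit 296) (nat_lit 272) (nat_lit 212)) (XT.lf (nat_lit 0) (nat_lit 2645604697) (nat_lit 608) (nat_lit 312336990) (nat_lit 684) (nat_lit 6491679120) (nat_lit 126) (nat_lit 5) (nat_lit 134) (nat_lit 5) (nat_lit 135) (nat_lit 5) (nat_lit 297) (nat_lit 272) (nat_lit 211))))) (XT.nd (nat_lit 234) (nat_lit 1064) (nat_lit 0) (XT.nd (nat_lit 78) (nat_lit 532) (nat_lit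 0) (XT.lf (nat_lit 0) (nat_lit 4551438471) (nat_lit 684) (nat_lit 2385054565) (nat_lit 76) (nat_lit 2656462421) (nat_lit 126) (nat_lit 5) (nat_lit 135) (nat_lit 5) (nat_lit 127) (nat_lit 5) (nat_lit 298) (nat_lit 272) (nat_lit 210)) (XT.nd (nat_lit 78) (nat_lit 0) (nat_lit 0) (XT.lf (nat_lit 0) (nat_lit 2174813202) (nat_lit 532) (nat_lit 4009488809) (nat_lit 608) (nat_lit 3556629039) (nat_lit 119) (nat_lit 5) (nat_lit 126) (nat_lit 5) (nat_lit 127) (nat_lit 5) (nat_lit 299) (nat_lit 272) (nat_lit 209)) (XT.lf (nat_lit 0) (nat_lit 6889663672) (nat_lit 532) (nat_lit 968785525) (nat_lit 608) (nat_lit 2035212983) (nat_lit 119) (nat_lit 5) (nat_lit 126) (nat_lit 5) (nat_lit 127) (nat_lit 5) (nat_lit 300) (nat_lit 272) (nat_lit 208)))) (XT.nd (nat_lit 78) (nat_lit 532) (nat_lit 0) (XT.lf (nat_lit 0) (nat_lit 1676068180) (nat_lit 532) (nat_lit 7912806713) (nat_lit 608) (nat_lit 462001448) (nat_lit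 112) (nat_lit 5) (nat_lit 119) (nat_lit 5) (nat_lit 120) (nat_lit 5) (nat_lit 301) (nat_lit 272) (nat_lit 207)) (XT.nd (nat_lit 78) (nat_lit 456) (nat_lit 0) (XT.lf (nat_lit 0) (nat_lit 1145404729) (nat_lit 608) (nat_lit 3706022731) (nat_lit 76) (nat_lit 5360835290) (nat_lit 111) (nat_lit 5) (nat_lit 119) (nat_lit 5) (nat_lit 112) (nat_lit 5) (nat_lit 302) (nat_lit 272) (nat_lit 206)) (XT.lf (nat_lit 0) (nat_lit 1089201234) (nat_lit 456) (nat_lit 1683284316) (nat_lit 532) (nat_lit 7606521528) (nat_lit 105) (nat_lit 5) (nat_lit 111) (nat_lit 5) (nat_lit 112) (nat_lit 5) (nat_lit 303) (nat_lit 272) (nat_lit 205))))))))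
noncomputable def xc146 : XT := (XT.nd (nat_lit 1716) (nat_lit 2204) (nat_lit 0) (XT.nd (nat_lit 858) (nat_lit 1444) (nat_lit 0) (XT.nd (nat_lit 390) (nat_lit 1216) (nat_lit 0) (XT.nd (nat_lit 156) (nat_lit 456) (nat_lit 0) (XT.nd (nat_lit 78) (nat_lit 456) (nat_lit 0) (XT.lf (nat_lit 0) (nat_lit 4472197362) (nat_lit 532) (nat_lit 4491884610) (nat_lit 76) (nat_lit 1586030701) (nat_lit 105) (nat_lit 5) (nat_lit 112) (nat_lit 5) (nat_lit 106) (nat_lit 5) (nat_lit 304) (nat_lit 272) (nat_lit 204)) (XT.lf (nat_lit 0) (nat_lit 411287362) (nat_lit 456) (nat_lit 5803919765) (nat_lit 532) (nat_lit 4511446466) (nat_lit 99) (nat_lit 5) (nat_lit 105) (nat_lit 5) (nat_lit 106) (nat_lit 5) (nat_lit 305) (nat_lit 272) (nat_lit 203))) (XT.nd (nat_lit 78) (nat_lit 456) (nat_lit 0) (XT.lf (nat_lit 0) (nat_lit 5523881883) (nat_lit 456) (nat_lit 2504210063) (nat_lit 532) (nat_lit 2879940530) (nat_lit 99) (nat_lit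 5) (nat_lit 105) (nat_lit 5) (nat_lit 106) (nat_lit 5) (nat_lit 306) (nat_lit 272) (nat_lit 202)) (XT.nd (nat_lit 78) (nat_lit 456) (nat_lit 0) (XT.lf (nat_lit 0) (nat_lit 9876977747) (nat_lit 532) (nat_lit 343339933) (nat_lit 76) (nat_lit 875153870) (nat_lit 99) (nat_lit 5) (nat_lit 106) (nat_lit 5) (nat_lit 100) (nat_lit 5) (nat_lit 307) (nat_lit 272) (nat_lit 201)) (XT.lf (nat_lit 0) (nat_lit 529173797) (nat_lit 456) (nat_lit 6401964372) (nat_lit 76) (nat_lit 4355937102) (nat_lit 93) (nat_lit 5) (nat_lit 99) (nat_lit 5) (nat_lit 94) (nat_lit 5) (nat_lit 308) (nat_lit 272) (nat_lit 200))))) (XT.nd (nat_lit 234) (nat_lit 760) (nat_lit 0) (XT.nd (nat_lit 78) (nat_lit 456) (nat_lit 0) (XT.lf (nat_lit 0) (nat_lit 2282255755) (nat_lit 456) (nat_lit 1248141502) (nat_lit 76) (nat_lit 7954405224) (nat_lit 93) (nat_lit 5) (nat_lit 99) (nat_lit 5) (nat_lit 94) (nat_lit 5) (nat_lit 309) (nat_lit 272)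 (nat_lit 199)) (XT.nd (nat_lit 78) (nat_lit 0) (nat_lit 0) (XT.lf (nat_lit 0) (nat_lit 4102287205) (nat_lit 532) (nat_lit 7575973083) (nat_lit 76) (nat_lit 9830268) (nat_lit 87) (nat_lit 5) (nat_lit 94) (nat_lit 5) (nat_lit 88) (nat_lit 5) (nat_lit 310) (nat_lit 272) (nat_lit 198)) (XT.lf (nat_lit 0) (nat_lit 5999769315) (nat_lit 532) (nat_lit 2302225174) (nat_lit 76) (nat_lit 3594855312) (nat_lit 87) (nat_lit 5) (nat_lit 94) (nat_lit 5) (nat_lit 88) (nat_lit 5) (nat_lit 311) (nat_lit 272) (nat_lit 197)))) (XT.nd (nat_lit 78) (nat_lit 380) (nat_lit 0) (XT.lf (nat_lit 0) (nat_lit 3163488863) (nat_lit 380) (nat_lit 4796986430) (nat_lit 456) (nat_lit 4151263875) (nat_lit 82) (nat_lit 5) (nat_lit 87) (nat_lit 5) (nat_lit 88) (nat_lit 5) (nat_lit 312) (nat_lit 272) (nat_lit 196)) (XT.nd (nat_lit 78) (nat_lit 380) (nat_lit 0) (XT.lf (nat_lit 0) (nat_lit 8812664597) (nat_lit 380) (nat_lit 1166911764)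 (nat_lit 456) (nat_lit 2353566326) (nat_lit 82) (nat_lit 5) (nat_lit 87) (nat_lit 5) (nat_lit 88) (nat_lit 5) (nat_lit 313) (nat_lit 272) (nat_lit 195)) (XT.lf (nat_lit 0) (nat_lit 2057960013) (nat_lit 380) (nat_lit 10022774965) (nat_lit 456) (nat_lit 479861892) (nat_lit 77) (nat_lit 5) (nat_lit 82) (nat_lit 5) (nat_lit 83) (nat_lit 5) (nat_lit 314) (nat_lit 272) (nat_lit 194)))))) (XT.nd (nat_lit 390) (nat_lit 684) (nat_lit 0) (XT.nd (nat_lit 156) (nat_lit 380) (nat_lit 0) (XT.nd (nat_lit 78) (nat_lit 304) (nat_lit 0) (XT.lf (nat_lit 0) (nat_lit 1446324656) (nat_lit 456) (nat_lit 4971571141) (nat_lit 76) (nat_lit 6375873764) (nat_lit 76) (nat_lit 5) (nat_lit 82) (nat_lit 5) (nat_lit 77) (nat_lit 5) (nat_lit 315) (nat_lit 272) (nat_lit 193)) (XT.lf (nat_lit 0) (nat_lit 707454994) (nat_lit 304) (nat_lit 2697775476) (nat_lit 380) (nat_lit 9629075665) (nat_lit 72) (nat_lit 5) (nat_lit 76) (nat_lit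 5) (nat_lit 77) (nat_lit 5) (nat_lit 316) (nat_lit 272) (nat_lit 192))) (XT.nd (nat_lit 78) (nat_lit 380) (nat_lit 0) (XT.lf (nat_lit 0) (nat_lit 5462624405) (nat_lit 380) (nat_lit 6660600978) (nat_lit 76) (nat_lit 1157688968) (nat_lit 72) (nat_lit 5) (nat_lit 77) (nat_lit 5) (nat_lit 73) (nat_lit 5) (nat_lit 317) (nat_lit 272) (nat_lit 191)) (XT.nd (nat_lit 78) (nat_lit 380) (nat_lit 0) (XT.lf (nat_lit 0) (nat_lit 7587208632) (nat_lit 380) (nat_lit 877690703) (nat_lit 76) (nat_lit 5069903227) (nat_lit 72) (nat_lit 5) (nat_lit 77) (nat_lit 5) (nat_lit 73) (nat_lit 5) (nat_lit 318) (nat_lit 272) (nat_lit 190)) (XT.lf (nat_lit 0) (nat_lit 5153427310) (nat_lit 380) (nat_lit 4651017499) (nat_lit 456) (nat_lit 3991039642) (nat_lit 67) (nat_lit 5) (nat_lit 72) (nat_lit 5) (nat_lit 73) (nat_lit 5) (nat_lit 319) (nat_lit 272) (nat_lit 189))))) (XT.nd (nat_lit 234) (nat_lit 304) (nat_lit 0) (XT.nd (nat_lit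 78) (nat_lit 380) (nat_lit 0) (XT.lf (nat_lit 0) (nat_lit 11357882512) (nat_lit 380) (nat_lit 718909758) (nat_lit 456) (nat_lit 1987579872) (nat_lit 67) (nat_lit 5) (nat_lit 72) (nat_lit 5) (nat_lit 73) (nat_lit 5) (nat_lit 320) (nat_lit 272) (nat_lit 188)) (XT.nd (nat_lit 78) (nat_lit 0) (nat_lit 0) (XT.lf (nat_lit 0) (nat_lit 120040034) (nat_lit 380) (nat_lit 10924827419) (nat_lit 76) (nat_lit 3295111619) (nat_lit 62) (nat_lit 5) (nat_lit 67) (nat_lit 5) (nat_lit 63) (nat_lit 5) (nat_lit 321) (nat_lit 272) (nat_lit 187)) (XT.lf (nat_lit 0) (nat_lit 2266031516) (nat_lit 380) (nat_lit 4899785616) (nat_lit 76) (nat_lit 7457033476) (nat_lit 62) (nat_lit 5) (nat_lit 67) (nat_lit 5) (nat_lit 63) (nat_lit 5) (nat_lit 322) (nat_lit 272) (nat_lit 186)))) (XT.nd (nat_lit 78) (nat_lit 0) (nat_lit 0) (XT.lf (nat_lit 0) (nat_lit 1306644244) (nat_lit 304) (nat_lit 3163263046) (nat_lit 380) (nat_lit 10444534219)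 (nat_lit 58) (nat_lit 5) (nat_lit 62) (nat_lit 5) (nat_lit 63) (nat_lit 5) (nat_lit 323) (nat_lit 272) (nat_lit 185)) (XT.nd (nat_lit 78) (nat_lit 0) (nat_lit 0) (XT.lf (nat_lit 0) (nat_lit 6780295634) (nat_lit 380) (nat_lit 7448459546) (nat_lit 76) (nat_lit 984850308) (nat_lit 58) (nat_lit 5) (nat_lit 63) (nat_lit 5) (nat_lit 59) (nat_lit 5) (nat_lit 324) (nat_lit 272) (nat_lit 184)) (XT.lf (nat_lit 0) (nat_lit 9173068614) (nat_lit 380) (nat_lit 1160087970) (nat_lit 76) (nat_lit 5188231769) (nat_lit 58) (nat_lit 5) (nat_lit 63) (nat_lit 5) (nat_lit 59) (nat_lit 5) (nat_lit 325) (nat_lit 272) (nat_lit 183))))))) (XT.nd (nat_lit 858) (nat_lit 836) (nat_lit 0) (XT.nd (nat_lit 390) (nat_lit 760) (nat_lit 0) (XT.nd (nat_lit 156) (nat_lit 380) (nat_lit 0) (XT.nd (nat_lit 78) (nat_lit 0) (nat_lit 0) (XT.lf (nat_lit 0) (nat_lit 5398564819) (nat_lit 228) (nat_lit 6273239270) (nat_lit 304) (nat_lit 4165610336)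 (nat_lit 55) (nat_lit 5) (nat_lit 58) (nat_lit 5) (nat_lit 59) (nat_lit 5) (nat_lit 326) (nat_lit 272) (nat_lit 182)) (XT.lf (nat_lit 0) (nat_lit 12154274985) (nat_lit 228) (nat_lit 2085516497) (nat_lit 304) (nat_lit 1923335182) (nat_lit 55) (nat_lit 5) (nat_lit 58) (nat_lit 5) (nat_lit 59) (nat_lit 5) (nat_lit 327) (nat_lit 272) (nat_lit 181))) (XT.nd (nat_lit 78) (nat_lit 0) (nat_lit 0) (XT.lf (nat_lit 0) (nat_lit 408564094) (nat_lit 380) (nat_lit 13881277022) (nat_lit 76) (nat_lit 2207793140) (nat_lit 50) (nat_lit 5) (nat_lit 55) (nat_lit 5) (nat_lit 51) (nat_lit 5) (nat_lit 328) (nat_lit 272) (nat_lit 180)) (XT.nd (nat_lit 78) (nat_lit 0) (nat_lit 0) (XT.lf (nat_lit 0) (nat_lit 2816396374) (nat_lit 380) (nat_lit 7381977287) (nat_lit 76) (nat_lit 6641924317) (nat_lit 50) (nat_lit 5) (nat_lit 55) (nat_lit 5) (nat_lit 51) (nat_lit 5) (nat_lit 329) (nat_lit 272) (nat_lit 179)) (XT.lf (nat_lit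 0) (nat_lit 5280057924) (nat_lit 380) (nat_lit 710438558) (nat_lit 76) (nat_lit 11203267581) (nat_lit 50) (nat_lit 5) (nat_lit 55) (nat_lit 5) (nat_lit 51) (nat_lit 5) (nat_lit 330) (nat_lit 272) (nat_lit 178))))) (XT.nd (nat_lit 234) (nat_lit 304) (nat_lit 0) (XT.nd (nat_lit 78) (nat_lit 228) (nat_lit 0) (XT.lf (nat_lit 0) (nat_lit 6261350160) (nat_lit 228) (nat_lit 1600539226) (nat_lit 304) (nat_lit 9694646339) (nat_lit 47) (nat_lit 5) (nat_lit 50) (nat_lit 5) (nat_lit 51) (nat_lit 5) (nat_lit 331) (nat_lit 272) (nat_lit 177)) (XT.nd (nat_lit 78) (nat_lit 228) (nat_lit 0) (XT.lf (nat_lit 0) (nat_lit 10540766859) (nat_lit 304) (nat_lit 4523570584) (nat_lit 76) (nat_lit 2865293905) (nat_lit 47) (nat_lit 5) (nat_lit 51) (nat_lit 5) (nat_lit 48) (nat_lit 5) (nat_lit 332) (nat_lit 272) (nat_lit 176)) (XT.lf (nat_lit 0) (nat_lit 2461732207) (nat_lit 228) (nat_lit 10862513745) (nat_lit 304) (nat_lit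 4988974538) (nat_lit 44) (nat_lit 5) (nat_lit 47) (nat_lit 5) (nat_lit 48) (nat_lit 5) (nat_lit 333) (nat_lit 272) (nat_lit 175)))) (XT.nd (nat_lit 78) (nat_lit 304) (nat_lit 0) (XT.lf (nat_lit 0) (nat_lit 9727884130) (nat_lit 228) (nat_lit 6493988007) (nat_lit 304) (nat_lit 2485552789) (nat_lit 44) (nat_lit 5) (nat_lit 47) (nat_lit 5) (nat_lit 48) (nat_lit 5) (nat_lit 334) (nat_lit 272) (nat_lit 174)) (XT.nd (nat_lit 78) (nat_lit 228) (nat_lit 0) (XT.lf (nat_lit 0) (nat_lit 76388734) (nat_lit 304) (nat_lit 1923462156) (nat_lit 76) (nat_lit 17114046215) (nat_lit 43) (nat_lit 5) (nat_lit 47) (nat_lit 5) (nat_lit 44) (nat_lit 5) (nat_lit 335) (nat_lit 272) (nat_lit 173)) (XT.lf (nat_lit 0) (nat_lit 2728816758) (nat_lit 304) (nat_lit 14152057334) (nat_lit 76) (nat_lit 2649068129) (nat_lit 40) (nat_lit 5) (nat_lit 44) (nat_lit 5) (nat_lit 41) (nat_lit 5) (nat_lit 336) (nat_lit 272) (nat_lit 172))))))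 (XT.nd (nat_lit 468) (nat_lit 456) (nat_lit 0) (XT.nd (nat_lit 234) (nat_lit 152) (nat_lit 0) (XT.nd (nat_lit 78) (nat_lit 228) (nat_lit 0) (XT.lf (nat_lit 0) (nat_lit 5486057844) (nat_lit 304) (nat_lit 7060882033) (nat_lit 76) (nat_lit 7410795511) (nat_lit 40) (nat_lit 5) (nat_lit 44) (nat_lit 5) (nat_lit 41) (nat_lit 5) (nat_lit 337) (nat_lit 272) (nat_lit 171)) (XT.nd (nat_lit 78) (nat_lit 0) (nat_lit 0) (XT.lf (nat_lit 0) (nat_lit 227363602) (nat_lit 228) (nat_lit 8087075218) (nat_lit 304) (nat_lit 12084294058) (nat_lit 37) (nat_lit 5) (nat_lit 40) (nat_lit 5) (nat_lit 41) (nat_lit 5) (nat_lit 338) (nat_lit 272) (nat_lit 170)) (XT.lf (nat_lit 0) (nat_lit 7859093234) (nat_lit 228) (nat_lit 3426325681) (nat_lit 304) (nat_lit 9565831477) (nat_lit 37) (nat_lit 5) (nat_lit 40) (nat_lit 5) (nat_lit 41) (nat_lit 5) (nat_lit 339) (nat_lit 272) (nat_lit 169)))) (XT.nd (nat_lit 78) (nat_lit 152) (nat_lit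 0) (XT.lf (nat_lit 0) (nat_lit 14345520620) (nat_lit 304) (nat_lit 5630460921) (nat_lit 76) (nat_lit 1341383997) (nat_lit 37) (nat_lit 5) (nat_lit 41) (nat_lit 5) (nat_lit 38) (nat_lit 5) (nat_lit 340) (nat_lit 272) (nat_lit 168)) (XT.nd (nat_lit 78) (nat_lit 0) (nat_lit 0) (XT.lf (nat_lit 0) (nat_lit 1936848187) (nat_lit 152) (nat_lit 15600286474) (nat_lit 228) (nat_lit 4259159438) (nat_lit 35) (nat_lit 5) (nat_lit 37) (nat_lit 5) (nat_lit 38) (nat_lit 5) (nat_lit 341) (nat_lit 272) (nat_lit 167)) (XT.lf (nat_lit 0) (nat_lit 9827673957) (nat_lit 152) (nat_lit 11041038768) (nat_lit 228) (nat_lit 1419571942) (nat_lit 35) (nat_lit 5) (nat_lit 37) (nat_lit 5) (nat_lit 38) (nat_lit 5) (nat_lit 342) (nat_lit 272) (nat_lit 166))))) (XT.nd (nat_lit 234) (nat_lit 152) (nat_lit 0) (XT.nd (nat_lit 78) (nat_lit 228) (nat_lit 0) (XT.lf (nat_lit 0) (nat_lit 1463417274) (nat_lit 228) (nat_lit 4872916309)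 (nat_lit 76) (nat_lit 16458659155) (nat_lit 34) (nat_lit 5) (nat_lit 37) (nat_lit 5) (nat_lit 35) (nat_lit 5) (nat_lit 343) (nat_lit 272) (nat_lit 165)) (XT.nd (nat_lit 78) (nat_lit 0) (nat_lit 0) (XT.lf (nat_lit 0) (nat_lit 2968179526) (nat_lit 228) (nat_lit 1452664210) (nat_lit 304) (nat_lit 18895161142) (nat_lit 31) (nat_lit 5) (nat_lit 34) (nat_lit 5) (nat_lit 35) (nat_lit 5) (nat_lit 344) (nat_lit 272) (nat_lit 164)) (XT.lf (nat_lit 0) (nat_lit 7539144681) (nat_lit 304) (nat_lit 12759882540) (nat_lit 76) (nat_lit 3551473930) (nat_lit 31) (nat_lit 5) (nat_lit 35) (nat_lit 5) (nat_lit 32) (nat_lit 5) (nat_lit 345) (nat_lit 272) (nat_lit 163)))) (XT.nd (nat_lit 78) (nat_lit 152) (nat_lit 0) (XT.lf (nat_lit 0) (nat_lit 10753793320) (nat_lit 304) (nat_lit 4976386339) (nat_lit 76) (nat_lit 8670786480) (nat_lit 31) (nat_lit 5) (nat_lit 35) (nat_lit 5) (nat_lit 32) (nat_lit 5) (nat_lit 346) (nat_lit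 272) (nat_lit 162)) (XT.nd (nat_lit 78) (nat_lit 0) (nat_lit 0) (XT.lf (nat_lit 0) (nat_lit 3083600409) (nat_lit 152) (nat_lit 10999675716) (nat_lit 228) (nat_lit 10884134378) (nat_lit 29) (nat_lit 5) (nat_lit 31) (nat_lit 5) (nat_lit 32) (nat_lit 5) (nat_lit 347) (nat_lit 272) (nat_lit 161)) (XT.lf (nat_lit 0) (nat_lit 11470379808) (nat_lit 152) (nat_lit 6081432592) (nat_lit 228) (nat_lit 7997877493) (nat_lit 29) (nat_lit 5) (nat_lit 31) (nat_lit 5) (nat_lit 32) (nat_lit 5) (nat_lit 348) (nat_lit 272) (nat_lit 160))))))))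
noncomputable def xc147 : XT := (XT.nd (nat_lit 1794) (nat_lit 532) (nat_lit 0) (XT.nd (nat_lit 858) (nat_lit 532) (nat_lit 0) (XT.nd (nat_lit 390) (nat_lit 304) (nat_lit 0) (XT.nd (nat_lit 156) (nat_lit 76) (nat_lit 0) (XT.nd (nat_lit 78) (nat_lit 152) (nat_lit 0) (XT.lf (nat_lit 0) (nat_lit 20092240266) (nat_lit 152) (nat_lit 1021404538) (nat_lit 228) (nat_lit 5036131936) (nat_lit 29) (nat_lit 5) (nat_lit 31) (nat_lit 5) (nat_lit 32) (nat_lit 5) (nat_lit 349) (nat_lit 272) (nat_lit 159)) (XT.lf (nat_lit 0) (nat_lit 2191048150) (nat_lit 152) (nat_lit 22642126307) (nat_lit 228) (nat_lit 1933182270) (nat_lit 27) (nat_lit 5) (nat_lit 29) (nat_lit 5) (nat_lit 30) (nat_lit 5) (nat_lit 350) (nat_lit 272) (nat_lit 158))) (XT.nd (nat_lit 78) (nat_lit 0) (nat_lit 0) (XT.lf (nat_lit 0) (nat_lit 1299633482) (nat_lit 228) (nat_lit 16627572822) (nat_lit 76) (nat_lit 9472035910) (nat_lit 26) (nat_lit 5)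 (nat_lit 29) (nat_lit 5) (nat_lit 27) (nat_lit 5) (nat_lit 351) (nat_lit 272) (nat_lit 157)) (XT.nd (nat_lit 78) (nat_lit 0) (nat_lit 0) (XT.lf (nat_lit 0) (nat_lit 4580416204) (nat_lit 228) (nat_lit 8476448093) (nat_lit 76) (nat_lit 14993995092) (nat_lit 26) (nat_lit 5) (nat_lit 29) (nat_lit 5) (nat_lit 27) (nat_lit 5) (nat_lit 352) (nat_lit 272) (nat_lit 156)) (XT.lf (nat_lit 0) (nat_lit 7949755946) (nat_lit 228) (nat_lit 96229120) (nat_lit 76) (nat_lit 20676350048) (nat_lit 26) (nat_lit 5) (nat_lit 29) (nat_lit 5) (nat_lit 27) (nat_lit 5) (nat_lit 353) (nat_lit 272) (nat_lit 155))))) (XT.nd (nat_lit 234) (nat_lit 152) (nat_lit 0) (XT.nd (nat_lit 78) (nat_lit 0) (nat_lit 0) (XT.lf (nat_lit 0) (nat_lit 8689979417) (nat_lit 152) (nat_lit 2804150772) (nat_lit 228) (nat_lit 17917619922) (nat_lit 24) (nat_lit 5) (nat_lit 26) (nat_lit 5) (nat_lit 27) (nat_lit 5) (nat_lit 354) (nat_lit 272) (nat_lit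 154)) (XT.nd (nat_lit 78) (nat_lit 0) (nat_lit 0) (XT.lf (nat_lit 0) (nat_lit 15161266472) (nat_lit 228) (nat_lit 12420112804) (nat_lit 76) (nat_lit 2539988594) (nat_lit 24) (nat_lit 5) (nat_lit 27) (nat_lit 5) (nat_lit 25) (nat_lit 5) (nat_lit 355) (nat_lit 272) (nat_lit 153)) (XT.lf (nat_lit 0) (nat_lit 18956962581) (nat_lit 228) (nat_lit 3911817058) (nat_lit 76) (nat_lit 7982950998) (nat_lit 24) (nat_lit 5) (nat_lit 27) (nat_lit 5) (nat_lit 25) (nat_lit 5) (nat_lit 356) (nat_lit 272) (nat_lit 152)))) (XT.nd (nat_lit 78) (nat_lit 0) (nat_lit 0) (XT.lf (nat_lit 0) (nat_lit 4933782047) (nat_lit 152) (nat_lit 17971224418) (nat_lit 228) (nat_lit 8697855991) (nat_lit 22) (nat_lit 5) (nat_lit 24) (nat_lit 5) (nat_lit 25) (nat_lit 5) (nat_lit 357) (nat_lit 272) (nat_lit 151)) (XT.nd (nat_lit 78) (nat_lit 0) (nat_lit 0) (XT.lf (nat_lit 0) (nat_lit 14110855595) (nat_lit 152) (nat_lit 12891313417) (nat_lit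 228) (nat_lit 5373451008) (nat_lit 22) (nat_lit 5) (nat_lit 24) (nat_lit 5) (nat_lit 25) (nat_lit 5) (nat_lit 358) (nat_lit 272) (nat_lit 150)) (XT.lf (nat_lit 0) (nat_lit 23549569558) (nat_lit 152) (nat_lit 7664109562) (nat_lit 228) (nat_lit 1958149969) (nat_lit 22) (nat_lit 5) (nat_lit 24) (nat_lit 5) (nat_lit 25) (nat_lit 5) (nat_lit 359) (nat_lit 272) (nat_lit 149)))))) (XT.nd (nat_lit 468) (nat_lit 152) (nat_lit 0) (XT.nd (nat_lit 234) (nat_lit 152) (nat_lit 0) (XT.nd (nat_lit 78) (nat_lit 152) (nat_lit 0) (XT.lf (nat_lit 0) (nat_lit 1520765159) (nat_lit 228) (nat_lit 748923487) (nat_lit 76) (nat_lit 31722049450) (nat_lit 21) (nat_lit 5) (nat_lit 24) (nat_lit 5) (nat_lit 22) (nat_lit 5) (nat_lit 360) (nat_lit 272) (nat_lit 148)) (XT.nd (nat_lit 78) (nat_lit 0) (nat_lit 0) (XT.lf (nat_lit 0) (nat_lit 5171016019) (nat_lit 228) (nat_lit 26341500293) (nat_lit 76) (nat_lit 3319967438) (nat_lit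 19) (nat_lit 5) (nat_lit 22) (nat_lit 5) (nat_lit 20) (nat_lit 5) (nat_lit 361) (nat_lit 272) (nat_lit 147)) (XT.lf (nat_lit 0) (nat_lit 8952784405) (nat_lit 228) (nat_lit 17710469476) (nat_lit 76) (nat_lit 9034548041) (nat_lit 19) (nat_lit 5) (nat_lit 22) (nat_lit 5) (nat_lit 20) (nat_lit 5) (nat_lit 362) (nat_lit 272) (nat_lit 146)))) (XT.nd (nat_lit 78) (nat_lit 152) (nat_lit 0) (XT.lf (nat_lit 0) (nat_lit 12840142054) (nat_lit 228) (nat_lit 8833262441) (nat_lit 76) (nat_lit 14915921200) (nat_lit 19) (nat_lit 5) (nat_lit 22) (nat_lit 5) (nat_lit 20) (nat_lit 5) (nat_lit 363) (nat_lit 272) (nat_lit 145)) (XT.nd (nat_lit 78) (nat_lit 0) (nat_lit 0) (XT.lf (nat_lit 0) (nat_lit 303805942) (nat_lit 152) (nat_lit 16535600113) (nat_lit 228) (nat_lit 20668340405) (nat_lit 17) (nat_lit 5) (nat_lit 19) (nat_lit 5) (nat_lit 20) (nat_lit 5) (nat_lit 364) (nat_lit 272) (nat_lit 144)) (XT.lf (nat_lit 0)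 (nat_lit 9883797792) (nat_lit 152) (nat_lit 11156518573) (nat_lit 228) (nat_lit 17410962993) (nat_lit 17) (nat_lit 5) (nat_lit 19) (nat_lit 5) (nat_lit 20) (nat_lit 5) (nat_lit 365) (nat_lit 272) (nat_lit 143))))) (XT.nd (nat_lit 234) (nat_lit 152) (nat_lit 0) (XT.nd (nat_lit 78) (nat_lit 0) (nat_lit 0) (XT.lf (nat_lit 0) (nat_lit 19739284731) (nat_lit 152) (nat_lit 5620658338) (nat_lit 228) (nat_lit 14063403783) (nat_lit 17) (nat_lit 5) (nat_lit 19) (nat_lit 5) (nat_lit 20) (nat_lit 5) (nat_lit 366) (nat_lit 272) (nat_lit 142)) (XT.nd (nat_lit 78) (nat_lit 0) (nat_lit 0) (XT.lf (nat_lit 0) (nat_lit 29802799019) (nat_lit 228) (nat_lit 10546658392) (nat_lit 76) (nat_lit 75318759) (nat_lit 17) (nat_lit 5) (nat_lit 20) (nat_lit 5) (nat_lit 18) (nat_lit 4) (nat_lit 367) (nat_lit 272) (nat_lit 141)) (XT.lf (nat_lit 0) (nat_lit 34427657868) (nat_lit 228) (nat_lit 1202177786) (nat_lit 76) (nat_lit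 5824959947) (nat_lit 17) (nat_lit 5) (nat_lit 20) (nat_lit 5) (nat_lit 18) (nat_lit 4) (nat_lit 368) (nat_lit 272) (nat_lit 140)))) (XT.nd (nat_lit 78) (nat_lit 76) (nat_lit 0) (XT.lf (nat_lit 0) (nat_lit 8578980798) (nat_lit 76) (nat_lit 30688017162) (nat_lit 152) (nat_lit 3246454084) (nat_lit 16) (nat_lit 5) (nat_lit 17) (nat_lit 5) (nat_lit 18) (nat_lit 4) (nat_lit 369) (nat_lit 272) (nat_lit 139)) (XT.nd (nat_lit 78) (nat_lit 0) (nat_lit 0) (XT.lf (nat_lit 0) (nat_lit 640557898) (nat_lit 152) (nat_lit 24942728610) (nat_lit 76) (nat_lit 18020236536) (nat_lit 15) (nat_lit 5) (nat_lit 17) (nat_lit 5) (nat_lit 16) (nat_lit 5) (nat_lit 370) (nat_lit 272) (nat_lit 138)) (XT.lf (nat_lit 0) (nat_lit 4572411261) (nat_lit 152) (nat_lit 15724150029) (nat_lit 76) (nat_lit 24428973920) (nat_lit 15) (nat_lit 5) (nat_lit 17) (nat_lit 5) (nat_lit 16) (nat_lit 5) (nat_lit 371) (nat_lit 272) (nat_lit 137)))))))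 (XT.nd (nat_lit 858) (nat_lit 304) (nat_lit 0) (XT.nd (nat_lit 390) (nat_lit 76) (nat_lit 0) (XT.nd (nat_lit 156) (nat_lit 0) (nat_lit 0) (XT.nd (nat_lit 78) (nat_lit 152) (nat_lit 0) (XT.lf (nat_lit 0) (nat_lit 8615891614) (nat_lit 152) (nat_lit 6239473532) (nat_lit 76) (nat_lit 31026039999) (nat_lit 15) (nat_lit 5) (nat_lit 17) (nat_lit 5) (nat_lit 16) (nat_lit 5) (nat_lit 372) (nat_lit 272) (nat_lit 136)) (XT.lf (nat_lit 0) (nat_lit 3589635172) (nat_lit 152) (nat_lit 9219402694) (nat_lit 228) (nat_lit 34262069797) (nat_lit 13) (nat_lit 5) (nat_lit 15) (nat_lit 5) (nat_lit 16) (nat_lit 5) (nat_lit 373) (nat_lit 272) (nat_lit 135))) (XT.nd (nat_lit 78) (nat_lit 0) (nat_lit 0) (XT.lf (nat_lit 0) (nat_lit 13831464989) (nat_lit 152) (nat_lit 3353457987) (nat_lit 228) (nat_lit 31109877060) (nat_lit 13) (nat_lit 5) (nat_lit 15) (nat_lit 5) (nat_lit 16) (nat_lit 5) (nat_lit 374) (nat_lit 272) (nat_lit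 134)) (XT.nd (nat_lit 78) (nat_lit 0) (nat_lit 0) (XT.lf (nat_lit 0) (nat_lit 21712005127) (nat_lit 228) (nat_lit 25210405222) (nat_lit 76) (nat_lit 2632202124) (nat_lit 13) (nat_lit 5) (nat_lit 16) (nat_lit 5) (nat_lit 14) (nat_lit 4) (nat_lit 375) (nat_lit 272) (nat_lit 133)) (XT.lf (nat_lit 0) (nat_lit 26402352117) (nat_lit 228) (nat_lit 15722710028) (nat_lit 76) (nat_lit 8726340271) (nat_lit 13) (nat_lit 5) (nat_lit 16) (nat_lit 5) (nat_lit 14) (nat_lit 4) (nat_lit 376) (nat_lit 272) (nat_lit 132))))) (XT.nd (nat_lit 234) (nat_lit 0) (nat_lit 0) (XT.nd (nat_lit 78) (nat_lit 76) (nat_lit 0) (XT.lf (nat_lit 0) (nat_lit 31227826820) (nat_lit 228) (nat_lit 5959723758) (nat_lit 76) (nat_lit 14999719472) (nat_lit 13) (nat_lit 5) (nat_lit 16) (nat_lit 5) (nat_lit 14) (nat_lit 4) (nat_lit 377) (nat_lit 272) (nat_lit 131)) (XT.nd (nat_lit 78) (nat_lit 0) (nat_lit 0) (XT.lf (nat_lit 0) (nat_lit 4168425347)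 (nat_lit 76) (nat_lit 32064289776) (nat_lit 152) (nat_lit 17329465429) (nat_lit 12) (nat_lit 5) (nat_lit 13) (nat_lit 5) (nat_lit 14) (nat_lit 4) (nat_lit 378) (nat_lit 272) (nat_lit 130)) (XT.lf (nat_lit 0) (nat_lit 14713608572) (nat_lit 76) (nat_lit 26728974490) (nat_lit 152) (nat_lit 13534116455) (nat_lit 12) (nat_lit 5) (nat_lit 13) (nat_lit 5) (nat_lit 14) (nat_lit 4) (nat_lit 379) (nat_lit 272) (nat_lit 129)))) (XT.nd (nat_lit 78) (nat_lit 0) (nat_lit 0) (XT.lf (nat_lit 0) (nat_lit 25566429967) (nat_lit 76) (nat_lit 21237124316) (nat_lit 152) (nat_lit 9630261507) (nat_lit 12) (nat_lit 5) (nat_lit 13) (nat_lit 5) (nat_lit 14) (nat_lit 4) (nat_lit 380) (nat_lit 272) (nat_lit 128)) (XT.nd (nat_lit 78) (nat_lit 0) (nat_lit 0) (XT.lf (nat_lit 0) (nat_lit 36736372580) (nat_lit 76) (nat_lit 15583940552) (nat_lit 152) (nat_lit 5614489451) (nat_lit 12) (nat_lit 5) (nat_lit 13) (nat_lit 5) (nat_lit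 14) (nat_lit 4) (nat_lit 381) (nat_lit 272) (nat_lit 127)) (XT.lf (nat_lit 0) (nat_lit 48233196555) (nat_lit 76) (nat_lit 9764483522) (nat_lit 152) (nat_lit 1483291359) (nat_lit 12) (nat_lit 5) (nat_lit 13) (nat_lit 5) (nat_lit 14) (nat_lit 4) (nat_lit 382) (nat_lit 272) (nat_lit 126)))))) (XT.nd (nat_lit 468) (nat_lit 76) (nat_lit 0) (XT.nd (nat_lit 234) (nat_lit 0) (nat_lit 0) (XT.nd (nat_lit 78) (nat_lit 152) (nat_lit 0) (XT.lf (nat_lit 0) (nat_lit 2712949537) (nat_lit 152) (nat_lit 1033323254) (nat_lit 76) (nat_lit 57326602651) (nat_lit 11) (nat_lit 5) (nat_lit 13) (nat_lit 5) (nat_lit 12) (nat_lit 5) (nat_lit 383) (nat_lit 272) (nat_lit 125)) (XT.nd (nat_lit 78) (nat_lit 0) (nat_lit 0) (XT.lf (nat_lit 0) (nat_lit 7118003232) (nat_lit 228) (nat_lit 53080660248) (nat_lit 76) (nat_lit 2510055499) (nat_lit 9) (nat_lit 5) (nat_lit 12) (nat_lit 5) (nat_lit 10) (nat_lit 4) (nat_lit 384) (nat_lit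 272) (nat_lit 124)) (XT.lf (nat_lit 0) (nat_lit 11698204435) (nat_lit 228) (nat_lit 43807934614) (nat_lit 76) (nat_lit 8886213885) (nat_lit 9) (nat_lit 5) (nat_lit 12) (nat_lit 5) (nat_lit 10) (nat_lit 4) (nat_lit 385) (nat_lit 272) (nat_lit 123)))) (XT.nd (nat_lit 78) (nat_lit 0) (nat_lit 0) (XT.lf (nat_lit 0) (nat_lit 16411312874) (nat_lit 228) (nat_lit 34264676724) (nat_lit 76) (nat_lit 15450646120) (nat_lit 9) (nat_lit 5) (nat_lit 12) (nat_lit 5) (nat_lit 10) (nat_lit 4) (nat_lit 386) (nat_lit 272) (nat_lit 122)) (XT.nd (nat_lit 78) (nat_lit 0) (nat_lit 0) (XT.lf (nat_lit 0) (nat_lit 21261446799) (nat_lit 228) (nat_lit 24442547809) (nat_lit 76) (nat_lit 22209088113) (nat_lit 9) (nat_lit 5) (nat_lit 12) (nat_lit 5) (nat_lit 10) (nat_lit 4) (nat_lit 387) (nat_lit 272) (nat_lit 121)) (XT.lf (nat_lit 0) (nat_lit 26252844192) (nat_lit 228) (nat_lit 14332965424) (nat_lit 76) (nat_lit 29167445300)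 (nat_lit 9) (nat_lit 5) (nat_lit 12) (nat_lit 5) (nat_lit 10) (nat_lit 4) (nat_lit 388) (nat_lit 272) (nat_lit 120))))) (XT.nd (nat_lit 234) (nat_lit 0) (nat_lit 0) (XT.nd (nat_lit 78) (nat_lit 76) (nat_lit 0) (XT.lf (nat_lit 0) (nat_lit 31389866467) (nat_lit 228) (nat_lit 3927095956) (nat_lit 76) (nat_lit 36331797799) (nat_lit 9) (nat_lit 5) (nat_lit 12) (nat_lit 5) (nat_lit 10) (nat_lit 4) (nat_lit 389) (nat_lit 272) (nat_lit 119)) (XT.nd (nat_lit 78) (nat_lit 0) (nat_lit 0) (XT.lf (nat_lit 0) (nat_lit 6919171052) (nat_lit 76) (nat_lit 29824342538) (nat_lit 152) (nat_lit 36855745977) (nat_lit 8) (nat_lit 5) (nat_lit 9) (nat_lit 5) (nat_lit 10) (nat_lit 4) (nat_lit 390) (nat_lit 272) (nat_lit 118)) (XT.lf (nat_lit 0) (nat_lit 18164597828) (nat_lit 76) (nat_lit 24128882872) (nat_lit 152) (nat_lit 33313726053) (nat_lit 8) (nat_lit 5) (nat_lit 9) (nat_lit 5) (nat_lit 10) (nat_lit 4) (nat_lit 391)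 (nat_lit 272) (nat_lit 117)))) (XT.nd (nat_lit 78) (nat_lit 0) (nat_lit 0) (XT.lf (nat_lit 0) (nat_lit 29740853562) (nat_lit 76) (nat_lit 18265262780) (nat_lit 152) (nat_lit 29669394984) (nat_lit 8) (nat_lit 5) (nat_lit 9) (nat_lit 5) (nat_lit 10) (nat_lit 4) (nat_lit 392) (nat_lit 272) (nat_lit 116)) (XT.nd (nat_lit 78) (nat_lit 0) (nat_lit 0) (XT.lf (nat_lit 0) (nat_lit 41658053429) (nat_lit 76) (nat_lit 12228358709) (nat_lit 152) (nat_lit 25919568404) (nat_lit 8) (nat_lit 5) (nat_lit 9) (nat_lit 5) (nat_lit 10) (nat_lit 4) (nat_lit 393) (nat_lit 272) (nat_lit 115)) (XT.lf (nat_lit 0) (nat_lit 53926610517) (nat_lit 76) (nat_lit 6012895697) (nat_lit 152) (nat_lit 22060969764) (nat_lit 8) (nat_lit 5) (nat_lit 9) (nat_lit 5) (nat_lit 10) (nat_lit 4) (nat_lit 394) (nat_lit 272) (nat_lit 114))))))))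
noncomputable def xc148 : XT := (XT.nd (nat_lit 1716) (nat_lit 5852) (nat_lit 0) (XT.nd (nat_lit 858) (nat_lit 2660) (nat_lit 0) (XT.nd (nat_lit 390) (nat_lit 1444) (nat_lit 0) (XT.nd (nat_lit 156) (nat_lit 0) (nat_lit 0) (XT.nd (nat_lit 78) (nat_lit 0) (nat_lit 0) (XT.lf (nat_lit 0) (nat_lit 241650394) (nat_lit 0) (nat_lit 241650394) (nat_lit 684) (nat_lit 3113835202) (nat_lit 203) (nat_lit 5) (nat_lit 203) (nat_lit 3) (nat_lit 212) (nat_lit 3) (nat_lit 273) (nat_lit 273) (nat_lit 234)) (XT.lf (nat_lit 0) (nat_lit 2464532323) (nat_lit 684) (nat_lit 3689779657) (nat_lit 760) (nat_lit 1098376271) (nat_lit 203) (nat_lit 5) (nat_lit 212) (nat_lit 3) (nat_lit 213) (nat_lit 5) (nat_lit 274) (nat_lit 273) (nat_lit 233))) (XT.nd (nat_lit 78) (nat_lit 0) (nat_lit 0) (XT.lf (nat_lit 0) (nat_lit 3954988451) (nat_lit 684) (nat_lit 613669886) (nat_lit 760) (nat_lit 2745965981) (nat_lit 203) (nat_lit 5)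 (nat_lit 212) (nat_lit 3) (nat_lit 213) (nat_lit 5) (nat_lit 275) (nat_lit 273) (nat_lit 232)) (XT.nd (nat_lit 78) (nat_lit 0) (nat_lit 0) (XT.lf (nat_lit 76) (nat_lit 2574938080) (nat_lit 0) (nat_lit 2884440321) (nat_lit 760) (nat_lit 1920152719) (nat_lit 204) (nat_lit 5) (nat_lit 203) (nat_lit 5) (nat_lit 213) (nat_lit 5) (nat_lit 276) (nat_lit 273) (nat_lit 231)) (XT.lf (nat_lit 76) (nat_lit 5842046928) (nat_lit 0) (nat_lit 1118849822) (nat_lit 760) (nat_lit 487112222) (nat_lit 204) (nat_lit 5) (nat_lit 203) (nat_lit 5) (nat_lit 213) (nat_lit 5) (nat_lit 277) (nat_lit 273) (nat_lit 230))))) (XT.nd (nat_lit 234) (nat_lit 760) (nat_lit 0) (XT.nd (nat_lit 78) (nat_lit 0) (nat_lit 0) (XT.lf (nat_lit 0) (nat_lit 939674846) (nat_lit 760) (nat_lit 5844911769) (nat_lit 836) (nat_lit 734740975) (nat_lit 194) (nat_lit 5) (nat_lit 204) (nat_lit 5) (nat_lit 205) (nat_lit 5) (nat_lit 278) (nat_lit 273)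 (nat_lit 229)) (XT.nd (nat_lit 78) (nat_lit 0) (nat_lit 0) (XT.lf (nat_lit 0) (nat_lit 2375093149) (nat_lit 760) (nat_lit 2553988276) (nat_lit 836) (nat_lit 2664459266) (nat_lit 194) (nat_lit 5) (nat_lit 204) (nat_lit 5) (nat_lit 205) (nat_lit 5) (nat_lit 279) (nat_lit 273) (nat_lit 228)) (XT.lf (nat_lit 76) (nat_lit 820852049) (nat_lit 0) (nat_lit 2990285049) (nat_lit 836) (nat_lit 3860279450) (nat_lit 195) (nat_lit 5) (nat_lit 194) (nat_lit 5) (nat_lit 205) (nat_lit 5) (nat_lit 280) (nat_lit 273) (nat_lit 227)))) (XT.nd (nat_lit 78) (nat_lit 760) (nat_lit 0) (XT.lf (nat_lit 76) (nat_lit 4318765431) (nat_lit 0) (nat_lit 948132184) (nat_lit 836) (nat_lit 2485590508) (nat_lit 195) (nat_lit 5) (nat_lit 194) (nat_lit 5) (nat_lit 205) (nat_lit 5) (nat_lit 281) (nat_lit 273) (nat_lit 226)) (XT.nd (nat_lit 78) (nat_lit 836) (nat_lit 0) (XT.lf (nat_lit 76) (nat_lit 43980547) (nat_lit 0) (nat_lit 6686329005)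 (nat_lit 836) (nat_lit 1106916820) (nat_lit 196) (nat_lit 5) (nat_lit 195) (nat_lit 5) (nat_lit 206) (nat_lit 5) (nat_lit 282) (nat_lit 273) (nat_lit 225)) (XT.lf (nat_lit 0) (nat_lit 304341754) (nat_lit 836) (nat_lit 4271975095) (nat_lit 912) (nat_lit 3348324630) (nat_lit 184) (nat_lit 5) (nat_lit 195) (nat_lit 5) (nat_lit 196) (nat_lit 5) (nat_lit 283) (nat_lit 273) (nat_lit 224)))))) (XT.nd (nat_lit 390) (nat_lit 2660) (nat_lit 0) (XT.nd (nat_lit 156) (nat_lit 0) (nat_lit 76) (XT.nd (nat_lit 78) (nat_lit 0) (nat_lit 0) (XT.lf (nat_lit 0) (nat_lit 1689991221) (nat_lit 836) (nat_lit 687259556) (nat_lit 912) (nat_lit 5638611271) (nat_lit 184) (nat_lit 5) (nat_lit 195) (nat_lit 5) (nat_lit 196) (nat_lit 5) (nat_lit 284) (nat_lit 273) (nat_lit 223)) (XT.lf (nat_lit 76) (nat_lit 3033875264) (nat_lit 0) (nat_lit 68130476) (nat_lit 912) (nat_lit 5008406349) (nat_lit 185) (nat_lit 5) (nat_lit 184)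 (nat_lit 5) (nat_lit 196) (nat_lit 5) (nat_lit 285) (nat_lit 273) (nat_lit 222))) (XT.nd (nat_lit 78) (nat_lit 0) (nat_lit 0) (XT.lf (nat_lit 0) (nat_lit 4542360993) (nat_lit 836) (nat_lit 1380723137) (nat_lit 912) (nat_lit 2285267834) (nat_lit 185) (nat_lit 5) (nat_lit 196) (nat_lit 5) (nat_lit 197) (nat_lit 5) (nat_lit 286) (nat_lit 273) (nat_lit 221)) (XT.nd (nat_lit 78) (nat_lit 0) (nat_lit 0) (XT.lf (nat_lit 76) (nat_lit 2442279525) (nat_lit 0) (nat_lit 3565821870) (nat_lit 912) (nat_lit 2301792281) (nat_lit 186) (nat_lit 5) (nat_lit 185) (nat_lit 5) (nat_lit 197) (nat_lit 5) (nat_lit 287) (nat_lit 273) (nat_lit 220)) (XT.lf (nat_lit 76) (nat_lit 6377907865) (nat_lit 0) (nat_lit 1112802698) (nat_lit 912) (nat_lit 924709302) (nat_lit 186) (nat_lit 5) (nat_lit 185) (nat_lit 5) (nat_lit 197) (nat_lit 5) (nat_lit 288) (nat_lit 273) (nat_lit 219))))) (XT.nd (nat_lit 234) (nat_lit 988) (nat_lit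 0) (XT.nd (nat_lit 78) (nat_lit 912) (nat_lit 0) (XT.lf (nat_lit 0) (nat_lit 475959529) (nat_lit 912) (nat_lit 6629056237) (nat_lit 76) (nat_lit 1419314436) (nat_lit 174) (nat_lit 5) (nat_lit 186) (nat_lit 5) (nat_lit 175) (nat_lit 5) (nat_lit 289) (nat_lit 273) (nat_lit 218)) (XT.nd (nat_lit 78) (nat_lit 912) (nat_lit 0) (XT.lf (nat_lit 0) (nat_lit 1892471264) (nat_lit 912) (nat_lit 2699952670) (nat_lit 76) (nat_lit 4044151493) (nat_lit 174) (nat_lit 5) (nat_lit 186) (nat_lit 5) (nat_lit 175) (nat_lit 5) (nat_lit 290) (nat_lit 273) (nat_lit 217)) (XT.lf (nat_lit 0) (nat_lit 1342645720) (nat_lit 912) (nat_lit 1983498326) (nat_lit 988) (nat_lit 5426915164) (nat_lit 162) (nat_lit 5) (nat_lit 174) (nat_lit 5) (nat_lit 175) (nat_lit 5) (nat_lit 291) (nat_lit 273) (nat_lit 216)))) (XT.nd (nat_lit 78) (nat_lit 988) (nat_lit 0) (XT.lf (nat_lit 0) (nat_lit 4799776273) (nat_lit 988) (nat_lit 3348962870)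 (nat_lit 76) (nat_lit 724497815) (nat_lit 162) (nat_lit 5) (nat_lit 175) (nat_lit 5) (nat_lit 163) (nat_lit 5) (nat_lit 292) (nat_lit 273) (nat_lit 215)) (XT.nd (nat_lit 78) (nat_lit 0) (nat_lit 0) (XT.lf (nat_lit 0) (nat_lit 799638787) (nat_lit 988) (nat_lit 5509042479) (nat_lit 1064) (nat_lit 2688711646) (nat_lit 149) (nat_lit 5) (nat_lit 162) (nat_lit 5) (nat_lit 163) (nat_lit 5) (nat_lit 293) (nat_lit 273) (nat_lit 214)) (XT.lf (nat_lit 0) (nat_lit 5110991800) (nat_lit 988) (nat_lit 2750182500) (nat_lit 1064) (nat_lit 1264251353) (nat_lit 149) (nat_lit 5) (nat_lit 162) (nat_lit 5) (nat_lit 163) (nat_lit 5) (nat_lit 294) (nat_lit 273) (nat_lit 213))))))) (XT.nd (nat_lit 858) (nat_lit 2508) (nat_lit 0) (XT.nd (nat_lit 390) (nat_lit 1596) (nat_lit 0) (XT.nd (nat_lit 156) (nat_lit 608) (nat_lit 0) (XT.nd (nat_lit 78) (nat_lit 0) (nat_lit 0) (XT.lf (nat_lit 0) (nat_lit 167620031) (nat_lit 1140)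 (nat_lit 8991885543) (nat_lit 76) (nat_lit 98772052) (nat_lit 134) (nat_lit 5) (nat_lit 149) (nat_lit 5) (nat_lit 135) (nat_lit 5) (nat_lit 295) (nat_lit 273) (nat_lit 212)) (XT.lf (nat_lit 0) (nat_lit 1651073838) (nat_lit 1140) (nat_lit 4707237971) (nat_lit 76) (nat_lit 3035499834) (nat_lit 134) (nat_lit 5) (nat_lit 149) (nat_lit 5) (nat_lit 135) (nat_lit 5) (nat_lit 296) (nat_lit 273) (nat_lit 211))) (XT.nd (nat_lit 78) (nat_lit 608) (nat_lit 0) (XT.lf (nat_lit 0) (nat_lit 3145893081) (nat_lit 1140) (nat_lit 324269880) (nat_lit 76) (nat_lit 6064333258) (nat_lit 134) (nat_lit 5) (nat_lit 149) (nat_lit 5) (nat_lit 135) (nat_lit 5) (nat_lit 297) (nat_lit 273) (nat_lit 210)) (XT.nd (nat_lit 78) (nat_lit 0) (nat_lit 0) (XT.lf (nat_lit 0) (nat_lit 4243657551) (nat_lit 608) (nat_lit 450518992) (nat_lit 684) (nat_lit 4985053957) (nat_lit 126) (nat_lit 5) (nat_lit 134) (nat_lit 5) (nat_lit 135) (nat_lit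 5) (nat_lit 298) (nat_lit 273) (nat_lit 209)) (XT.lf (nat_lit 0) (nat_lit 6286290739) (nat_lit 684) (nat_lit 928643229) (nat_lit 76) (nat_lit 2613536577) (nat_lit 126) (nat_lit 5) (nat_lit 135) (nat_lit 5) (nat_lit 127) (nat_lit 5) (nat_lit 299) (nat_lit 273) (nat_lit 208))))) (XT.nd (nat_lit 234) (nat_lit 456) (nat_lit 0) (XT.nd (nat_lit 78) (nat_lit 608) (nat_lit 0) (XT.lf (nat_lit 0) (nat_lit 3753040542) (nat_lit 532) (nat_lit 4183090667) (nat_lit 608) (nat_lit 2045840415) (nat_lit 119) (nat_lit 5) (nat_lit 126) (nat_lit 5) (nat_lit 127) (nat_lit 5) (nat_lit 300) (nat_lit 273) (nat_lit 207)) (XT.nd (nat_lit 78) (nat_lit 608) (nat_lit 0) (XT.lf (nat_lit 0) (nat_lit 8565269063) (nat_lit 532) (nat_lit 1049613356) (nat_lit 608) (nat_lit 525893163) (nat_lit 119) (nat_lit 5) (nat_lit 126) (nat_lit 5) (nat_lit 127) (nat_lit 5) (nat_lit 301) (nat_lit 273) (nat_lit 206)) (XT.lf (nat_lit 0) (nat_lit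 1042424945) (nat_lit 608) (nat_lit 7083387672) (nat_lit 76) (nat_lit 2177615135) (nat_lit 111) (nat_lit 5) (nat_lit 119) (nat_lit 5) (nat_lit 112) (nat_lit 5) (nat_lit 302) (nat_lit 273) (nat_lit 205)))) (XT.nd (nat_lit 78) (nat_lit 456) (nat_lit 0) (XT.lf (nat_lit 0) (nat_lit 2644816060) (nat_lit 608) (nat_lit 2323911702) (nat_lit 76) (nat_lit 5502221213) (nat_lit 111) (nat_lit 5) (nat_lit 119) (nat_lit 5) (nat_lit 112) (nat_lit 5) (nat_lit 303) (nat_lit 273) (nat_lit 204)) (XT.nd (nat_lit 78) (nat_lit 0) (nat_lit 0) (XT.lf (nat_lit 0) (nat_lit 2600528867) (nat_lit 456) (nat_lit 1691722807) (nat_lit 532) (nat_lit 6351406333) (nat_lit 105) (nat_lit 5) (nat_lit 111) (nat_lit 5) (nat_lit 112) (nat_lit 5) (nat_lit 304) (nat_lit 273) (nat_lit 203)) (XT.lf (nat_lit 0) (nat_lit 6001504899) (nat_lit 532) (nat_lit 3146091078) (nat_lit 76) (nat_lit 1673649773) (nat_lit 105) (nat_lit 5) (nat_lit 112)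 (nat_lit 5) (nat_lit 106) (nat_lit 5) (nat_lit 305) (nat_lit 273) (nat_lit 202)))))) (XT.nd (nat_lit 468) (nat_lit 1140) (nat_lit 0) (XT.nd (nat_lit 234) (nat_lit 456) (nat_lit 0) (XT.nd (nat_lit 78) (nat_lit 456) (nat_lit 0) (XT.lf (nat_lit 0) (nat_lit 1889660857) (nat_lit 456) (nat_lit 5880601331) (nat_lit 532) (nat_lit 3233719402) (nat_lit 99) (nat_lit 5) (nat_lit 105) (nat_lit 5) (nat_lit 106) (nat_lit 5) (nat_lit 306) (nat_lit 273) (nat_lit 201)) (XT.nd (nat_lit 78) (nat_lit 456) (nat_lit 0) (XT.lf (nat_lit 0) (nat_lit 7112933168) (nat_lit 456) (nat_lit 2484738281) (nat_lit 532) (nat_lit 1594425680) (nat_lit 99) (nat_lit 5) (nat_lit 105) (nat_lit 5) (nat_lit 106) (nat_lit 5) (nat_lit 307) (nat_lit 273) (nat_lit 200)) (XT.lf (nat_lit 0) (nat_lit 86883569) (nat_lit 456) (nat_lit 10296372854) (nat_lit 76) (nat_lit 1002793982) (nat_lit 93) (nat_lit 5) (nat_lit 99) (nat_lit 5) (nat_lit 94) (nat_lit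 5) (nat_lit 308) (nat_lit 273) (nat_lit 199)))) (XT.nd (nat_lit 78) (nat_lit 456) (nat_lit 0) (XT.lf (nat_lit 0) (nat_lit 1827517998) (nat_lit 456) (nat_lit 5156502434) (nat_lit 76) (nat_lit 4600160049) (nat_lit 93) (nat_lit 5) (nat_lit 99) (nat_lit 5) (nat_lit 94) (nat_lit 5) (nat_lit 309) (nat_lit 273) (nat_lit 198)) (XT.nd (nat_lit 78) (nat_lit 0) (nat_lit 0) (XT.lf (nat_lit 0) (nat_lit 112256102) (nat_lit 456) (nat_lit 3484661920) (nat_lit 532) (nat_lit 8192098056) (nat_lit 87) (nat_lit 5) (nat_lit 93) (nat_lit 5) (nat_lit 94) (nat_lit 5) (nat_lit 310) (nat_lit 273) (nat_lit 197)) (XT.lf (nat_lit 0) (nat_lit 5449026591) (nat_lit 532) (nat_lit 6383297321) (nat_lit 76) (nat_lit 166840364) (nat_lit 87) (nat_lit 5) (nat_lit 94) (nat_lit 5) (nat_lit 88) (nat_lit 5) (nat_lit 311) (nat_lit 273) (nat_lit 196))))) (XT.nd (nat_lit 234) (nat_lit 760) (nat_lit 0) (XT.nd (nat_lit 78) (nat_lit 380) (nat_lit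 0) (XT.lf (nat_lit 0) (nat_lit 7367792268) (nat_lit 532) (nat_lit 992694886) (nat_lit 76) (nat_lit 3854851639) (nat_lit 87) (nat_lit 5) (nat_lit 94) (nat_lit 5) (nat_lit 88) (nat_lit 5) (nat_lit 312) (nat_lit 273) (nat_lit 195)) (XT.nd (nat_lit 78) (nat_lit 0) (nat_lit 0) (XT.lf (nat_lit 0) (nat_lit 4623474915) (nat_lit 380) (nat_lit 4742363696) (nat_lit 456) (nat_lit 3071561497) (nat_lit 82) (nat_lit 5) (nat_lit 87) (nat_lit 5) (nat_lit 88) (nat_lit 5) (nat_lit 313) (nat_lit 273) (nat_lit 194)) (XT.lf (nat_lit 0) (nat_lit 10402366269) (nat_lit 380) (nat_lit 1009169285) (nat_lit 456) (nat_lit 1255007982) (nat_lit 82) (nat_lit 5) (nat_lit 87) (nat_lit 5) (nat_lit 88) (nat_lit 5) (nat_lit 314) (nat_lit 273) (nat_lit 193)))) (XT.nd (nat_lit 78) (nat_lit 304) (nat_lit 0) (XT.lf (nat_lit 0) (nat_lit 643239276) (nat_lit 456) (nat_lit 9441323902) (nat_lit 76) (nat_lit 2816692474) (nat_lit 76) (nat_lit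 5) (nat_lit 82) (nat_lit 5) (nat_lit 77) (nat_lit 5) (nat_lit 315) (nat_lit 273) (nat_lit 192)) (XT.nd (nat_lit 78) (nat_lit 304) (nat_lit 0) (XT.lf (nat_lit 0) (nat_lit 2584716606) (nat_lit 456) (nat_lit 3789028028) (nat_lit 76) (nat_lit 6768593685) (nat_lit 76) (nat_lit 5) (nat_lit 82) (nat_lit 5) (nat_lit 77) (nat_lit 5) (nat_lit 316) (nat_lit 273) (nat_lit 191)) (XT.lf (nat_lit 0) (nat_lit 2047313104) (nat_lit 304) (nat_lit 2535858744) (nat_lit 380) (nat_lit 8807565412) (nat_lit 72) (nat_lit 5) (nat_lit 76) (nat_lit 5) (nat_lit 77) (nat_lit 5) (nat_lit 317) (nat_lit 273) (nat_lit 190))))))))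
noncomputable def xc149 : XT := (XT.nd (nat_lit 1716) (nat_lit 1368) (nat_lit 0) (XT.nd (nat_lit 858) (nat_lit 1368) (nat_lit 0) (XT.nd (nat_lit 390) (nat_lit 532) (nat_lit 0) (XT.nd (nat_lit 156) (nat_lit 380) (nat_lit 0) (XT.nd (nat_lit 78) (nat_lit 380) (nat_lit 0) (XT.lf (nat_lit 0) (nat_lit 6673220503) (nat_lit 380) (nat_lit 5548867457) (nat_lit 76) (nat_lit 1423595480) (nat_lit 72) (nat_lit 5) (nat_lit 77) (nat_lit 5) (nat_lit 73) (nat_lit 5) (nat_lit 318) (nat_lit 273) (nat_lit 189)) (XT.lf (nat_lit 0) (nat_lit 376679979) (nat_lit 380) (nat_lit 8457996241) (nat_lit 456) (nat_lit 5073383789) (nat_lit 67) (nat_lit 5) (nat_lit 72) (nat_lit 5) (nat_lit 73) (nat_lit 5) (nat_lit 319) (nat_lit 273) (nat_lit 188))) (XT.nd (nat_lit 78) (nat_lit 380) (nat_lit 0) (XT.lf (nat_lit 0) (nat_lit 6568897316) (nat_lit 380) (nat_lit 4528432570) (nat_lit 456) (nat_lit 3079929275) (nat_lit 67) (nat_lit 5)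 (nat_lit 72) (nat_lit 5) (nat_lit 73) (nat_lit 5) (nat_lit 320) (nat_lit 273) (nat_lit 187)) (XT.nd (nat_lit 78) (nat_lit 380) (nat_lit 0) (XT.lf (nat_lit 0) (nat_lit 12922761887) (nat_lit 380) (nat_lit 485996028) (nat_lit 456) (nat_lit 1046390223) (nat_lit 67) (nat_lit 5) (nat_lit 72) (nat_lit 5) (nat_lit 73) (nat_lit 5) (nat_lit 321) (nat_lit 273) (nat_lit 186)) (XT.lf (nat_lit 0) (nat_lit 1090789216) (nat_lit 380) (nat_lit 9990808368) (nat_lit 76) (nat_lit 3657619668) (nat_lit 62) (nat_lit 5) (nat_lit 67) (nat_lit 5) (nat_lit 63) (nat_lit 5) (nat_lit 322) (nat_lit 273) (nat_lit 185))))) (XT.nd (nat_lit 234) (nat_lit 228) (nat_lit 0) (XT.nd (nat_lit 78) (nat_lit 304) (nat_lit 0) (XT.lf (nat_lit 0) (nat_lit 3272991084) (nat_lit 380) (nat_lit 3821765714) (nat_lit 76) (nat_lit 7936719917) (nat_lit 62) (nat_lit 5) (nat_lit 67) (nat_lit 5) (nat_lit 63) (nat_lit 5) (nat_lit 323) (nat_lit 273) (nat_lit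 184)) (XT.nd (nat_lit 78) (nat_lit 0) (nat_lit 0) (XT.lf (nat_lit 0) (nat_lit 2558847105) (nat_lit 304) (nat_lit 2968447266) (nat_lit 380) (nat_lit 9805046685) (nat_lit 58) (nat_lit 5) (nat_lit 62) (nat_lit 5) (nat_lit 63) (nat_lit 5) (nat_lit 324) (nat_lit 273) (nat_lit 183)) (XT.lf (nat_lit 0) (nat_lit 7882806219) (nat_lit 380) (nat_lit 6468270296) (nat_lit 76) (nat_lit 1290182531) (nat_lit 58) (nat_lit 5) (nat_lit 63) (nat_lit 5) (nat_lit 59) (nat_lit 5) (nat_lit 325) (nat_lit 273) (nat_lit 182)))) (XT.nd (nat_lit 78) (nat_lit 228) (nat_lit 0) (XT.lf (nat_lit 0) (nat_lit 10321174959) (nat_lit 380) (nat_lit 26305136) (nat_lit 76) (nat_lit 5611632813) (nat_lit 58) (nat_lit 5) (nat_lit 63) (nat_lit 5) (nat_lit 59) (nat_lit 5) (nat_lit 326) (nat_lit 273) (nat_lit 181)) (XT.nd (nat_lit 78) (nat_lit 0) (nat_lit 0) (XT.lf (nat_lit 0) (nat_lit 6717650516) (nat_lit 228) (nat_lit 6162920325) (nat_lit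 304) (nat_lit 3404528351) (nat_lit 55) (nat_lit 5) (nat_lit 58) (nat_lit 5) (nat_lit 59) (nat_lit 5) (nat_lit 327) (nat_lit 273) (nat_lit 180)) (XT.lf (nat_lit 0) (nat_lit 13642329208) (nat_lit 228) (nat_lit 1858260513) (nat_lit 304) (nat_lit 1120792233) (nat_lit 55) (nat_lit 5) (nat_lit 58) (nat_lit 5) (nat_lit 59) (nat_lit 5) (nat_lit 328) (nat_lit 273) (nat_lit 179)))))) (XT.nd (nat_lit 390) (nat_lit 760) (nat_lit 0) (XT.nd (nat_lit 156) (nat_lit 228) (nat_lit 0) (XT.nd (nat_lit 78) (nat_lit 0) (nat_lit 0) (XT.lf (nat_lit 0) (nat_lit 1253470806) (nat_lit 380) (nat_lit 13143576470) (nat_lit 76) (nat_lit 2568999727) (nat_lit 50) (nat_lit 5) (nat_lit 55) (nat_lit 5) (nat_lit 51) (nat_lit 5) (nat_lit 329) (nat_lit 273) (nat_lit 178)) (XT.lf (nat_lit 0) (nat_lit 3709286119) (nat_lit 380) (nat_lit 6482913438) (nat_lit 76) (nat_lit 7127563399) (nat_lit 50) (nat_lit 5) (nat_lit 55) (nat_lit 5) (nat_lit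 51) (nat_lit 5) (nat_lit 330) (nat_lit 273) (nat_lit 177))) (XT.nd (nat_lit 78) (nat_lit 0) (nat_lit 0) (XT.lf (nat_lit 0) (nat_lit 363222637) (nat_lit 228) (nat_lit 5863580828) (nat_lit 304) (nat_lit 11457674638) (nat_lit 47) (nat_lit 5) (nat_lit 50) (nat_lit 5) (nat_lit 51) (nat_lit 5) (nat_lit 331) (nat_lit 273) (nat_lit 176)) (XT.nd (nat_lit 78) (nat_lit 0) (nat_lit 0) (XT.lf (nat_lit 0) (nat_lit 7526411681) (nat_lit 228) (nat_lit 1343681805) (nat_lit 304) (nat_lit 9188561513) (nat_lit 47) (nat_lit 5) (nat_lit 50) (nat_lit 5) (nat_lit 51) (nat_lit 5) (nat_lit 332) (nat_lit 273) (nat_lit 175)) (XT.lf (nat_lit 0) (nat_lit 11609687000) (nat_lit 304) (nat_lit 3592416358) (nat_lit 76) (nat_lit 3241470602) (nat_lit 47) (nat_lit 5) (nat_lit 51) (nat_lit 5) (nat_lit 48) (nat_lit 5) (nat_lit 333) (nat_lit 273) (nat_lit 174))))) (XT.nd (nat_lit 234) (nat_lit 456) (nat_lit 0) (XT.nd (nat_lit 78) (nat_lit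 76) (nat_lit 0) (XT.lf (nat_lit 0) (nat_lit 3591986092) (nat_lit 228) (nat_lit 10872915938) (nat_lit 304) (nat_lit 4374161569) (nat_lit 44) (nat_lit 5) (nat_lit 47) (nat_lit 5) (nat_lit 48) (nat_lit 5) (nat_lit 334) (nat_lit 273) (nat_lit 173)) (XT.nd (nat_lit 78) (nat_lit 76) (nat_lit 0) (XT.lf (nat_lit 0) (nat_lit 11045353585) (nat_lit 228) (nat_lit 6382522969) (nat_lit 304) (nat_lit 1817903639) (nat_lit 44) (nat_lit 5) (nat_lit 47) (nat_lit 5) (nat_lit 48) (nat_lit 5) (nat_lit 335) (nat_lit 273) (nat_lit 172)) (XT.lf (nat_lit 0) (nat_lit 785216736) (nat_lit 304) (nat_lit 970131282) (nat_lit 76) (nat_lit 17909556755) (nat_lit 43) (nat_lit 5) (nat_lit 47) (nat_lit 5) (nat_lit 44) (nat_lit 5) (nat_lit 336) (nat_lit 273) (nat_lit 171)))) (XT.nd (nat_lit 78) (nat_lit 228) (nat_lit 0) (XT.lf (nat_lit 0) (nat_lit 3509199329) (nat_lit 304) (nat_lit 13556388225) (nat_lit 76) (nat_lit 3028119573) (nat_lit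 40) (nat_lit 5) (nat_lit 44) (nat_lit 5) (nat_lit 41) (nat_lit 5) (nat_lit 337) (nat_lit 273) (nat_lit 170)) (XT.nd (nat_lit 78) (nat_lit 228) (nat_lit 0) (XT.lf (nat_lit 0) (nat_lit 6328812462) (nat_lit 304) (nat_lit 6282193126) (nat_lit 76) (nat_lit 7923973163) (nat_lit 40) (nat_lit 5) (nat_lit 44) (nat_lit 5) (nat_lit 41) (nat_lit 5) (nat_lit 338) (nat_lit 273) (nat_lit 169)) (XT.lf (nat_lit 0) (nat_lit 1214988943) (nat_lit 228) (nat_lit 8016731407) (nat_lit 304) (nat_lit 11757828856) (nat_lit 37) (nat_lit 5) (nat_lit 40) (nat_lit 5) (nat_lit 41) (nat_lit 5) (nat_lit 339) (nat_lit 273) (nat_lit 168))))))) (XT.nd (nat_lit 858) (nat_lit 760) (nat_lit 0) (XT.nd (nat_lit 390) (nat_lit 380) (nat_lit 0) (XT.nd (nat_lit 156) (nat_lit 228) (nat_lit 0) (XT.nd (nat_lit 78) (nat_lit 0) (nat_lit 0) (XT.lf (nat_lit 0) (nat_lit 9047103344) (nat_lit 228) (nat_lit 3225274610) (nat_lit 304) (nat_lit 9183880184)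 (nat_lit 37) (nat_lit 5) (nat_lit 40) (nat_lit 5) (nat_lit 41) (nat_lit 5) (nat_lit 340) (nat_lit 273) (nat_lit 167)) (XT.lf (nat_lit 0) (nat_lit 15408233012) (nat_lit 304) (nat_lit 4857776328) (nat_lit 76) (nat_lit 1670860286) (nat_lit 37) (nat_lit 5) (nat_lit 41) (nat_lit 5) (nat_lit 38) (nat_lit 5) (nat_lit 341) (nat_lit 273) (nat_lit 166))) (XT.nd (nat_lit 78) (nat_lit 76) (nat_lit 0) (XT.lf (nat_lit 0) (nat_lit 2927320696) (nat_lit 152) (nat_lit 15758819392) (nat_lit 228) (nat_lit 3744340095) (nat_lit 35) (nat_lit 5) (nat_lit 37) (nat_lit 5) (nat_lit 38) (nat_lit 5) (nat_lit 342) (nat_lit 273) (nat_lit 165)) (XT.nd (nat_lit 78) (nat_lit 76) (nat_lit 0) (XT.lf (nat_lit 0) (nat_lit 11027714918) (nat_lit 152) (nat_lit 11071808109) (nat_lit 228) (nat_lit 838281308) (nat_lit 35) (nat_lit 5) (nat_lit 37) (nat_lit 5) (nat_lit 38) (nat_lit 5) (nat_lit 343) (nat_lit 273) (nat_lit 164)) (XT.lf (nat_lit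 0) (nat_lit 2101206869) (nat_lit 228) (nat_lit 4127509120) (nat_lit 76) (nat_lit 17231380138) (nat_lit 34) (nat_lit 5) (nat_lit 37) (nat_lit 5) (nat_lit 35) (nat_lit 5) (nat_lit 344) (nat_lit 273) (nat_lit 163))))) (XT.nd (nat_lit 234) (nat_lit 152) (nat_lit 0) (XT.nd (nat_lit 78) (nat_lit 0) (nat_lit 0) (XT.lf (nat_lit 0) (nat_lit 3940078466) (nat_lit 228) (nat_lit 1198466506) (nat_lit 304) (nat_lit 18858485076) (nat_lit 31) (nat_lit 5) (nat_lit 34) (nat_lit 5) (nat_lit 35) (nat_lit 5) (nat_lit 345) (nat_lit 273) (nat_lit 162)) (XT.nd (nat_lit 78) (nat_lit 0) (nat_lit 0) (XT.lf (nat_lit 0) (nat_lit 8336132949) (nat_lit 304) (nat_lit 12270401238) (nat_lit 76) (nat_lit 3941481174) (nat_lit 31) (nat_lit 5) (nat_lit 35) (nat_lit 5) (nat_lit 32) (nat_lit 5) (nat_lit 346) (nat_lit 273) (nat_lit 161)) (XT.lf (nat_lit 0) (nat_lit 11630595398) (nat_lit 304) (nat_lit 4278806301) (nat_lit 76) (nat_lit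 9206116895) (nat_lit 31) (nat_lit 5) (nat_lit 35) (nat_lit 5) (nat_lit 32) (nat_lit 5) (nat_lit 347) (nat_lit 273) (nat_lit 160)))) (XT.nd (nat_lit 78) (nat_lit 0) (nat_lit 0) (XT.lf (nat_lit 0) (nat_lit 4014677387) (nat_lit 152) (nat_lit 11037204732) (nat_lit 228) (nat_lit 10647341370) (nat_lit 29) (nat_lit 5) (nat_lit 31) (nat_lit 5) (nat_lit 32) (nat_lit 5) (nat_lit 348) (nat_lit 273) (nat_lit 159)) (XT.nd (nat_lit 78) (nat_lit 0) (nat_lit 0) (XT.lf (nat_lit 0) (nat_lit 12628635829) (nat_lit 152) (nat_lit 5979932604) (nat_lit 228) (nat_lit 7690904070) (nat_lit 29) (nat_lit 5) (nat_lit 31) (nat_lit 5) (nat_lit 32) (nat_lit 5) (nat_lit 349) (nat_lit 273) (nat_lit 158)) (XT.lf (nat_lit 0) (nat_lit 21485439150) (nat_lit 152) (nat_lit 776373892) (nat_lit 228) (nat_lit 4656235557) (nat_lit 29) (nat_lit 5) (nat_lit 31) (nat_lit 5) (nat_lit 32) (nat_lit 5) (nat_lit 350) (nat_lit 273) (nat_lit 157))))))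 (XT.nd (nat_lit 468) (nat_lit 380) (nat_lit 0) (XT.nd (nat_lit 234) (nat_lit 152) (nat_lit 0) (XT.nd (nat_lit 78) (nat_lit 76) (nat_lit 0) (XT.lf (nat_lit 0) (nat_lit 3052900394) (nat_lit 152) (nat_lit 23035260765) (nat_lit 228) (nat_lit 1465130528) (nat_lit 27) (nat_lit 5) (nat_lit 29) (nat_lit 5) (nat_lit 30) (nat_lit 5) (nat_lit 351) (nat_lit 273) (nat_lit 156)) (XT.nd (nat_lit 78) (nat_lit 0) (nat_lit 0) (XT.lf (nat_lit 0) (nat_lit 1839381840) (nat_lit 228) (nat_lit 16342788498) (nat_lit 76) (nat_lit 10023313763) (nat_lit 26) (nat_lit 5) (nat_lit 29) (nat_lit 5) (nat_lit 27) (nat_lit 5) (nat_lit 352) (nat_lit 273) (nat_lit 155)) (XT.lf (nat_lit 0) (nat_lit 5204002820) (nat_lit 228) (nat_lit 7969953664) (nat_lit 76) (nat_lit 15703151620) (nat_lit 26) (nat_lit 5) (nat_lit 29) (nat_lit 5) (nat_lit 27) (nat_lit 5) (nat_lit 353) (nat_lit 273) (nat_lit 154)))) (XT.nd (nat_lit 78) (nat_lit 0) (nat_lit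 0) (XT.lf (nat_lit 0) (nat_lit 652240571) (nat_lit 152) (nat_lit 8014291507) (nat_lit 228) (nat_lit 20902452893) (nat_lit 24) (nat_lit 5) (nat_lit 26) (nat_lit 5) (nat_lit 27) (nat_lit 5) (nat_lit 354) (nat_lit 273) (nat_lit 153)) (XT.nd (nat_lit 78) (nat_lit 0) (nat_lit 0) (XT.lf (nat_lit 0) (nat_lit 9682066341) (nat_lit 152) (nat_lit 2622184044) (nat_lit 228) (nat_lit 17975241212) (nat_lit 24) (nat_lit 5) (nat_lit 26) (nat_lit 5) (nat_lit 27) (nat_lit 5) (nat_lit 355) (nat_lit 273) (nat_lit 152)) (XT.lf (nat_lit 0) (nat_lit 16070331769) (nat_lit 228) (nat_lit 12070929074) (nat_lit 76) (nat_lit 2869488109) (nat_lit 24) (nat_lit 5) (nat_lit 27) (nat_lit 5) (nat_lit 25) (nat_lit 5) (nat_lit 356) (nat_lit 273) (nat_lit 151))))) (XT.nd (nat_lit 234) (nat_lit 228) (nat_lit 0) (XT.nd (nat_lit 78) (nat_lit 152) (nat_lit 0) (XT.lf (nat_lit 0) (nat_lit 19966668840) (nat_lit 228) (nat_lit 3328407381)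 (nat_lit 76) (nat_lit 8468361719) (nat_lit 24) (nat_lit 5) (nat_lit 27) (nat_lit 5) (nat_lit 25) (nat_lit 5) (nat_lit 357) (nat_lit 273) (nat_lit 150)) (XT.nd (nat_lit 78) (nat_lit 0) (nat_lit 0) (XT.lf (nat_lit 0) (nat_lit 5775689460) (nat_lit 152) (nat_lit 18251290130) (nat_lit 228) (nat_lit 8510327262) (nat_lit 22) (nat_lit 5) (nat_lit 24) (nat_lit 5) (nat_lit 25) (nat_lit 5) (nat_lit 358) (nat_lit 273) (nat_lit 149)) (XT.lf (nat_lit 0) (nat_lit 15207864711) (nat_lit 152) (nat_lit 13026527556) (nat_lit 228) (nat_lit 5099252199) (nat_lit 22) (nat_lit 5) (nat_lit 24) (nat_lit 5) (nat_lit 25) (nat_lit 5) (nat_lit 359) (nat_lit 273) (nat_lit 148)))) (XT.nd (nat_lit 78) (nat_lit 228) (nat_lit 0) (XT.lf (nat_lit 0) (nat_lit 24910118245) (nat_lit 152) (nat_lit 7649833564) (nat_lit 228) (nat_lit 1594173751) (nat_lit 22) (nat_lit 5) (nat_lit 24) (nat_lit 5) (nat_lit 25) (nat_lit 5) (nat_lit 360) (nat_lit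 273) (nat_lit 147)) (XT.nd (nat_lit 78) (nat_lit 152) (nat_lit 0) (XT.lf (nat_lit 0) (nat_lit 1968788030) (nat_lit 228) (nat_lit 127841142) (nat_lit 76) (nat_lit 32902258829) (nat_lit 21) (nat_lit 5) (nat_lit 24) (nat_lit 5) (nat_lit 22) (nat_lit 5) (nat_lit 361) (nat_lit 273) (nat_lit 146)) (XT.lf (nat_lit 0) (nat_lit 5725262793) (nat_lit 228) (nat_lit 26484396831) (nat_lit 76) (nat_lit 3655310353) (nat_lit 19) (nat_lit 5) (nat_lit 22) (nat_lit 5) (nat_lit 20) (nat_lit 5) (nat_lit 362) (nat_lit 273) (nat_lit 145))))))))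
noncomputable def xc150 : XT := (XT.nd (nat_lit 1716) (nat_lit 228) (nat_lit 0) (XT.nd (nat_lit 858) (nat_lit 304) (nat_lit 0) (XT.nd (nat_lit 390) (nat_lit 152) (nat_lit 0) (XT.nd (nat_lit 156) (nat_lit 152) (nat_lit 0) (XT.nd (nat_lit 78) (nat_lit 0) (nat_lit 0) (XT.lf (nat_lit 0) (nat_lit 9608859484) (nat_lit 228) (nat_lit 17613289900) (nat_lit 76) (nat_lit 9534462047) (nat_lit 19) (nat_lit 5) (nat_lit 22) (nat_lit 5) (nat_lit 20) (nat_lit 5) (nat_lit 363) (nat_lit 273) (nat_lit 144)) (XT.lf (nat_lit 0) (nat_lit 13601551701) (nat_lit 228) (nat_lit 8488072294) (nat_lit 76) (nat_lit 15585610064) (nat_lit 19) (nat_lit 5) (nat_lit 22) (nat_lit 5) (nat_lit 20) (nat_lit 5) (nat_lit 364) (nat_lit 273) (nat_lit 143))) (XT.nd (nat_lit 78) (nat_lit 0) (nat_lit 0) (XT.lf (nat_lit 0) (nat_lit 917125905) (nat_lit 152) (nat_lit 16798518274) (nat_lit 228) (nat_lit 20905731885) (nat_lit 17) (nat_lit 5) (nat_lit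 19) (nat_lit 5) (nat_lit 20) (nat_lit 5) (nat_lit 365) (nat_lit 273) (nat_lit 142)) (XT.nd (nat_lit 78) (nat_lit 0) (nat_lit 0) (XT.lf (nat_lit 0) (nat_lit 10766919284) (nat_lit 152) (nat_lit 11264855060) (nat_lit 228) (nat_lit 17561778550) (nat_lit 17) (nat_lit 5) (nat_lit 19) (nat_lit 5) (nat_lit 20) (nat_lit 5) (nat_lit 366) (nat_lit 273) (nat_lit 141)) (XT.lf (nat_lit 0) (nat_lit 20900985174) (nat_lit 152) (nat_lit 5569512001) (nat_lit 228) (nat_lit 14124613340) (nat_lit 17) (nat_lit 5) (nat_lit 19) (nat_lit 5) (nat_lit 20) (nat_lit 5) (nat_lit 367) (nat_lit 273) (nat_lit 140))))) (XT.nd (nat_lit 234) (nat_lit 76) (nat_lit 0) (XT.nd (nat_lit 78) (nat_lit 76) (nat_lit 0) (XT.lf (nat_lit 0) (nat_lit 31038502737) (nat_lit 228) (nat_lit 10301557058) (nat_lit 76) (nat_lit 286779933) (nat_lit 17) (nat_lit 5) (nat_lit 20) (nat_lit 5) (nat_lit 18) (nat_lit 4) (nat_lit 368) (nat_lit 273) (nat_lit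 139)) (XT.nd (nat_lit 78) (nat_lit 76) (nat_lit 0) (XT.lf (nat_lit 0) (nat_lit 35792157261) (nat_lit 228) (nat_lit 693096435) (nat_lit 76) (nat_lit 6202817106) (nat_lit 17) (nat_lit 5) (nat_lit 20) (nat_lit 5) (nat_lit 18) (nat_lit 4) (nat_lit 369) (nat_lit 273) (nat_lit 138)) (XT.lf (nat_lit 0) (nat_lit 9376152331) (nat_lit 76) (nat_lit 31396053851) (nat_lit 152) (nat_lit 3006427089) (nat_lit 16) (nat_lit 5) (nat_lit 17) (nat_lit 5) (nat_lit 18) (nat_lit 4) (nat_lit 370) (nat_lit 273) (nat_lit 137)))) (XT.nd (nat_lit 78) (nat_lit 0) (nat_lit 0) (XT.lf (nat_lit 0) (nat_lit 980974952) (nat_lit 152) (nat_lit 25160155177) (nat_lit 76) (nat_lit 18760479540) (nat_lit 15) (nat_lit 5) (nat_lit 17) (nat_lit 5) (nat_lit 16) (nat_lit 5) (nat_lit 371) (nat_lit 273) (nat_lit 136)) (XT.nd (nat_lit 78) (nat_lit 0) (nat_lit 0) (XT.lf (nat_lit 0) (nat_lit 5021428566) (nat_lit 152) (nat_lit 15680481044) (nat_lit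 76) (nat_lit 25355664407) (nat_lit 15) (nat_lit 5) (nat_lit 17) (nat_lit 5) (nat_lit 16) (nat_lit 5) (nat_lit 372) (nat_lit 273) (nat_lit 135)) (XT.lf (nat_lit 0) (nat_lit 9177130468) (nat_lit 152) (nat_lit 5926275713) (nat_lit 76) (nat_lit 32144997189) (nat_lit 15) (nat_lit 5) (nat_lit 17) (nat_lit 5) (nat_lit 16) (nat_lit 5) (nat_lit 373) (nat_lit 273) (nat_lit 134)))))) (XT.nd (nat_lit 390) (nat_lit 152) (nat_lit 0) (XT.nd (nat_lit 156) (nat_lit 0) (nat_lit 0) (XT.nd (nat_lit 78) (nat_lit 0) (nat_lit 0) (XT.lf (nat_lit 0) (nat_lit 4192800547) (nat_lit 152) (nat_lit 9299215067) (nat_lit 228) (nat_lit 34981913528) (nat_lit 13) (nat_lit 5) (nat_lit 15) (nat_lit 5) (nat_lit 16) (nat_lit 5) (nat_lit 374) (nat_lit 273) (nat_lit 133)) (XT.lf (nat_lit 0) (nat_lit 14727453910) (nat_lit 152) (nat_lit 3263023176) (nat_lit 228) (nat_lit 31744126418) (nat_lit 13) (nat_lit 5) (nat_lit 15) (nat_lit 5) (nat_lit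 16) (nat_lit 5) (nat_lit 375) (nat_lit 273) (nat_lit 132))) (XT.nd (nat_lit 78) (nat_lit 0) (nat_lit 0) (XT.lf (nat_lit 0) (nat_lit 22646707804) (nat_lit 228) (nat_lit 25492689102) (nat_lit 76) (nat_lit 2893023237) (nat_lit 13) (nat_lit 5) (nat_lit 16) (nat_lit 5) (nat_lit 14) (nat_lit 4) (nat_lit 376) (nat_lit 273) (nat_lit 131)) (XT.nd (nat_lit 78) (nat_lit 0) (nat_lit 0) (XT.lf (nat_lit 0) (nat_lit 27469512509) (nat_lit 228) (nat_lit 15734169701) (nat_lit 76) (nat_lit 9164688779) (nat_lit 13) (nat_lit 5) (nat_lit 16) (nat_lit 5) (nat_lit 14) (nat_lit 4) (nat_lit 377) (nat_lit 273) (nat_lit 130)) (XT.lf (nat_lit 0) (nat_lit 32431739128) (nat_lit 228) (nat_lit 5691698356) (nat_lit 76) (nat_lit 15621126882) (nat_lit 13) (nat_lit 5) (nat_lit 16) (nat_lit 5) (nat_lit 14) (nat_lit 4) (nat_lit 378) (nat_lit 273) (nat_lit 129))))) (XT.nd (nat_lit 234) (nat_lit 76) (nat_lit 0) (XT.nd (nat_lit 78)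 (nat_lit 0) (nat_lit 0) (XT.lf (nat_lit 0) (nat_lit 4735914662) (nat_lit 76) (nat_lit 32847333433) (nat_lit 152) (nat_lit 17577588939) (nat_lit 12) (nat_lit 5) (nat_lit 13) (nat_lit 5) (nat_lit 14) (nat_lit 4) (nat_lit 379) (nat_lit 273) (nat_lit 128)) (XT.nd (nat_lit 78) (nat_lit 0) (nat_lit 0) (XT.lf (nat_lit 0) (nat_lit 15584566883) (nat_lit 76) (nat_lit 27357168932) (nat_lit 152) (nat_lit 13676294849) (nat_lit 12) (nat_lit 5) (nat_lit 13) (nat_lit 5) (nat_lit 14) (nat_lit 4) (nat_lit 380) (nat_lit 273) (nat_lit 127)) (XT.lf (nat_lit 0) (nat_lit 26750461753) (nat_lit 76) (nat_lit 21705621742) (nat_lit 152) (nat_lit 9663009061) (nat_lit 12) (nat_lit 5) (nat_lit 13) (nat_lit 5) (nat_lit 14) (nat_lit 4) (nat_lit 381) (nat_lit 273) (nat_lit 126)))) (XT.nd (nat_lit 78) (nat_lit 76) (nat_lit 0) (XT.lf (nat_lit 0) (nat_lit 38243355881) (nat_lit 76) (nat_lit 15887753619) (nat_lit 152) (nat_lit 5534224823)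 (nat_lit 12) (nat_lit 5) (nat_lit 13) (nat_lit 5) (nat_lit 14) (nat_lit 4) (nat_lit 382) (nat_lit 273) (nat_lit 125)) (XT.nd (nat_lit 78) (nat_lit 76) (nat_lit 0) (XT.lf (nat_lit 0) (nat_lit 50073291600) (nat_lit 76) (nat_lit 9898480989) (nat_lit 152) (nat_lit 1286334457) (nat_lit 12) (nat_lit 5) (nat_lit 13) (nat_lit 5) (nat_lit 14) (nat_lit 4) (nat_lit 383) (nat_lit 273) (nat_lit 124)) (XT.lf (nat_lit 0) (nat_lit 3024186541) (nat_lit 152) (nat_lit 677845611) (nat_lit 76) (nat_lit 59195880852) (nat_lit 11) (nat_lit 5) (nat_lit 13) (nat_lit 5) (nat_lit 12) (nat_lit 5) (nat_lit 384) (nat_lit 273) (nat_lit 123))))))) (XT.nd (nat_lit 32136) (nat_lit 0) (nat_lit 13376) (XT.nd (nat_lit 390) (nat_lit 76) (nat_lit 0) (XT.nd (nat_lit 156) (nat_lit 0) (nat_lit 0) (XT.nd (nat_lit 78) (nat_lit 0) (nat_lit 0) (XT.lf (nat_lit 0) (nat_lit 7559874046) (nat_lit 228) (nat_lit 54284839043) (nat_lit 76) (nat_lit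 2738171668) (nat_lit 9) (nat_lit 5) (nat_lit 12) (nat_lit 5) (nat_lit 10) (nat_lit 4) (nat_lit 385) (nat_lit 273) (nat_lit 122)) (XT.lf (nat_lit 0) (nat_lit 12270830875) (nat_lit 228) (nat_lit 44745239632) (nat_lit 76) (nat_lit 9301163898) (nat_lit 9) (nat_lit 5) (nat_lit 12) (nat_lit 5) (nat_lit 10) (nat_lit 4) (nat_lit 386) (nat_lit 273) (nat_lit 121))) (XT.nd (nat_lit 78) (nat_lit 0) (nat_lit 0) (XT.lf (nat_lit 0) (nat_lit 17118875860) (nat_lit 228) (nat_lit 34926662637) (nat_lit 76) (nat_lit 16058207830) (nat_lit 9) (nat_lit 5) (nat_lit 12) (nat_lit 5) (nat_lit 10) (nat_lit 4) (nat_lit 387) (nat_lit 273) (nat_lit 120)) (XT.nd (nat_lit 78) (nat_lit 0) (nat_lit 0) (XT.lf (nat_lit 0) (nat_lit 22108245154) (nat_lit 228) (nat_lit 24820528719) (nat_lit 76) (nat_lit 23015207675) (nat_lit 9) (nat_lit 5) (nat_lit 12) (nat_lit 5) (nat_lit 10) (nat_lit 4) (nat_lit 388) (nat_lit 273) (nat_lit 119))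 (XT.lf (nat_lit 0) (nat_lit 27243298402) (nat_lit 228) (nat_lit 14418007277) (nat_lit 76) (nat_lit 30178242367) (nat_lit 9) (nat_lit 5) (nat_lit 12) (nat_lit 5) (nat_lit 10) (nat_lit 4) (nat_lit 389) (nat_lit 273) (nat_lit 118))))) (XT.nd (nat_lit 234) (nat_lit 0) (nat_lit 0) (XT.nd (nat_lit 78) (nat_lit 76) (nat_lit 0) (XT.lf (nat_lit 0) (nat_lit 32528522543) (nat_lit 228) (nat_lit 3710008727) (nat_lit 76) (nat_lit 37553570867) (nat_lit 9) (nat_lit 5) (nat_lit 12) (nat_lit 5) (nat_lit 10) (nat_lit 4) (nat_lit 390) (nat_lit 273) (nat_lit 117)) (XT.nd (nat_lit 78) (nat_lit 0) (nat_lit 0) (XT.lf (nat_lit 0) (nat_lit 7458362956) (nat_lit 76) (nat_lit 30581867125) (nat_lit 152) (nat_lit 37760969028) (nat_lit 8) (nat_lit 5) (nat_lit 9) (nat_lit 5) (nat_lit 10) (nat_lit 4) (nat_lit 391) (nat_lit 273) (nat_lit 116)) (XT.lf (nat_lit 0) (nat_lit 19031493794) (nat_lit 76) (nat_lit 24719539951) (nat_lit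 152) (nat_lit 34118526836) (nat_lit 8) (nat_lit 5) (nat_lit 9) (nat_lit 5) (nat_lit 10) (nat_lit 4) (nat_lit 392) (nat_lit 273) (nat_lit 115)))) (XT.nd (nat_lit 31356) (nat_lit 0) (nat_lit 14820) (XT.lf (nat_lit 0) (nat_lit 30945659782) (nat_lit 76) (nat_lit 18683891142) (nat_lit 152) (nat_lit 30370534117) (nat_lit 8) (nat_lit 5) (nat_lit 9) (nat_lit 5) (nat_lit 10) (nat_lit 4) (nat_lit 393) (nat_lit 273) (nat_lit 114)) (XT.nd (nat_lit 78) (nat_lit 0) (nat_lit 0) (XT.lf (nat_lit 0) (nat_lit 978153499) (nat_lit 0) (nat_lit 978153499) (nat_lit 684) (nat_lit 1700041011) (nat_lit 203) (nat_lit 5) (nat_lit 203) (nat_lit 3) (nat_lit 212) (nat_lit 3) (nat_lit 274) (nat_lit 274) (nat_lit 232)) (XT.lf (nat_lit 0) (nat_lit 5097246435) (nat_lit 0) (nat_lit 262183196) (nat_lit 684) (nat_lit 2016604899) (nat_lit 203) (nat_lit 5) (nat_lit 203) (nat_lit 3) (nat_lit 212) (nat_lit 3) (nat_lit 275) (nat_lit 274)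 (nat_lit 231)))))) (XT.nd (nat_lit 468) (nat_lit 684) (nat_lit 0) (XT.nd (nat_lit 234) (nat_lit 0) (nat_lit 0) (XT.nd (nat_lit 78) (nat_lit 760) (nat_lit 0) (XT.lf (nat_lit 76) (nat_lit 864602414) (nat_lit 0) (nat_lit 5953697335) (nat_lit 760) (nat_lit 624097694) (nat_lit 204) (nat_lit 5) (nat_lit 203) (nat_lit 5) (nat_lit 213) (nat_lit 5) (nat_lit 276) (nat_lit 274) (nat_lit 230)) (XT.nd (nat_lit 78) (nat_lit 0) (nat_lit 0) (XT.lf (nat_lit 0) (nat_lit 766892669) (nat_lit 760) (nat_lit 3401770224) (nat_lit 836) (nat_lit 3342852381) (nat_lit 193) (nat_lit 5) (nat_lit 203) (nat_lit 5) (nat_lit 204) (nat_lit 5) (nat_lit 277) (nat_lit 274) (nat_lit 229)) (XT.lf (nat_lit 0) (nat_lit 2135304498) (nat_lit 760) (nat_lit 165872191) (nat_lit 836) (nat_lit 5283065663) (nat_lit 193) (nat_lit 5) (nat_lit 203) (nat_lit 5) (nat_lit 204) (nat_lit 5) (nat_lit 278) (nat_lit 274) (nat_lit 228)))) (XT.nd (nat_lit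 78) (nat_lit 0) (nat_lit 76) (XT.lf (nat_lit 76) (nat_lit 3201192557) (nat_lit 0) (nat_lit 324091149) (nat_lit 836) (nat_lit 4134615341) (nat_lit 194) (nat_lit 5) (nat_lit 193) (nat_lit 5) (nat_lit 204) (nat_lit 5) (nat_lit 279) (nat_lit 274) (nat_lit 227)) (XT.nd (nat_lit 78) (nat_lit 0) (nat_lit 0) (XT.lf (nat_lit 0) (nat_lit 4926252015) (nat_lit 760) (nat_lit 1111512784) (nat_lit 836) (nat_lit 1701140453) (nat_lit 194) (nat_lit 5) (nat_lit 204) (nat_lit 5) (nat_lit 205) (nat_lit 5) (nat_lit 280) (nat_lit 274) (nat_lit 226)) (XT.lf (nat_lit 76) (nat_lit 2349679662) (nat_lit 0) (nat_lit 3997926657) (nat_lit 836) (nat_lit 1473478499) (nat_lit 195) (nat_lit 5) (nat_lit 194) (nat_lit 5) (nat_lit 205) (nat_lit 5) (nat_lit 281) (nat_lit 274) (nat_lit 225))))) (XT.nd (nat_lit 234) (nat_lit 0) (nat_lit 0) (XT.nd (nat_lit 78) (nat_lit 760) (nat_lit 0) (XT.lf (nat_lit 76) (nat_lit 5908718734) (nat_lit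 0) (nat_lit 1867773292) (nat_lit 836) (nat_lit 130440424) (nat_lit 195) (nat_lit 5) (nat_lit 194) (nat_lit 5) (nat_lit 205) (nat_lit 5) (nat_lit 282) (nat_lit 274) (nat_lit 224)) (XT.nd (nat_lit 78) (nat_lit 0) (nat_lit 0) (XT.lf (nat_lit 0) (nat_lit 1201513315) (nat_lit 836) (nat_lit 6430855943) (nat_lit 912) (nat_lit 363573586) (nat_lit 184) (nat_lit 5) (nat_lit 195) (nat_lit 5) (nat_lit 196) (nat_lit 5) (nat_lit 283) (nat_lit 274) (nat_lit 223)) (XT.lf (nat_lit 0) (nat_lit 2565306676) (nat_lit 836) (nat_lit 2861078343) (nat_lit 912) (nat_lit 2661501427) (nat_lit 184) (nat_lit 5) (nat_lit 195) (nat_lit 5) (nat_lit 196) (nat_lit 5) (nat_lit 284) (nat_lit 274) (nat_lit 222)))) (XT.nd (nat_lit 78) (nat_lit 0) (nat_lit 0) (XT.lf (nat_lit 76) (nat_lit 802001730) (nat_lit 0) (nat_lit 3132645810) (nat_lit 912) (nat_lit 4249134547) (nat_lit 185) (nat_lit 5) (nat_lit 184) (nat_lit 5) (nat_lit 196)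 (nat_lit 5) (nat_lit 285) (nat_lit 274) (nat_lit 221)) (XT.nd (nat_lit 78) (nat_lit 0) (nat_lit 76) (XT.lf (nat_lit 76) (nat_lit 4604471348) (nat_lit 0) (nat_lit 727387338) (nat_lit 912) (nat_lit 2951221086) (nat_lit 185) (nat_lit 5) (nat_lit 184) (nat_lit 5) (nat_lit 196) (nat_lit 5) (nat_lit 286) (nat_lit 274) (nat_lit 220)) (XT.lf (nat_lit 76) (nat_lit 90833520) (nat_lit 0) (nat_lit 6657094013) (nat_lit 912) (nat_lit 1638245733) (nat_lit 186) (nat_lit 5) (nat_lit 185) (nat_lit 5) (nat_lit 197) (nat_lit 5) (nat_lit 287) (nat_lit 274) (nat_lit 219))))))))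
noncomputable def xc151 : XT := (XT.nd (nat_lit 1794) (nat_lit 3496) (nat_lit 0) (XT.nd (nat_lit 858) (nat_lit 2508) (nat_lit 0) (XT.nd (nat_lit 390) (nat_lit 2736) (nat_lit 0) (XT.nd (nat_lit 156) (nat_lit 836) (nat_lit 0) (XT.nd (nat_lit 78) (nat_lit 912) (nat_lit 0) (XT.lf (nat_lit 76) (nat_lit 4011938030) (nat_lit 0) (nat_lit 4198967870) (nat_lit 912) (nat_lit 281442320) (nat_lit 186) (nat_lit 5) (nat_lit 185) (nat_lit 5) (nat_lit 197) (nat_lit 5) (nat_lit 288) (nat_lit 274) (nat_lit 218)) (XT.lf (nat_lit 0) (nat_lit 1055098206) (nat_lit 912) (nat_lit 591280115) (nat_lit 988) (nat_lit 6956298412) (nat_lit 173) (nat_lit 5) (nat_lit 185) (nat_lit 5) (nat_lit 186) (nat_lit 5) (nat_lit 289) (nat_lit 274) (nat_lit 217))) (XT.nd (nat_lit 78) (nat_lit 912) (nat_lit 0) (XT.lf (nat_lit 0) (nat_lit 2431091935) (nat_lit 912) (nat_lit 5275974554) (nat_lit 76) (nat_lit 1009125775) (nat_lit 174) (nat_lit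 5) (nat_lit 186) (nat_lit 5) (nat_lit 175) (nat_lit 5) (nat_lit 290) (nat_lit 274) (nat_lit 216)) (XT.nd (nat_lit 78) (nat_lit 912) (nat_lit 0) (XT.lf (nat_lit 0) (nat_lit 3833569305) (nat_lit 912) (nat_lit 1274200406) (nat_lit 76) (nat_lit 3725895365) (nat_lit 174) (nat_lit 5) (nat_lit 186) (nat_lit 5) (nat_lit 175) (nat_lit 5) (nat_lit 291) (nat_lit 274) (nat_lit 215)) (XT.lf (nat_lit 0) (nat_lit 2874903869) (nat_lit 912) (nat_lit 2394806993) (nat_lit 988) (nat_lit 3685308301) (nat_lit 162) (nat_lit 5) (nat_lit 174) (nat_lit 5) (nat_lit 175) (nat_lit 5) (nat_lit 292) (nat_lit 274) (nat_lit 214))))) (XT.nd (nat_lit 234) (nat_lit 1672) (nat_lit 0) (XT.nd (nat_lit 78) (nat_lit 1064) (nat_lit 0) (XT.lf (nat_lit 0) (nat_lit 6730566398) (nat_lit 988) (nat_lit 1938759569) (nat_lit 76) (nat_lit 411340750) (nat_lit 162) (nat_lit 5) (nat_lit 175) (nat_lit 5) (nat_lit 163) (nat_lit 5) (nat_lit 293) (nat_lit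 274) (nat_lit 213)) (XT.nd (nat_lit 78) (nat_lit 76) (nat_lit 0) (XT.lf (nat_lit 0) (nat_lit 2319489626) (nat_lit 988) (nat_lit 5927585426) (nat_lit 1064) (nat_lit 962752593) (nat_lit 149) (nat_lit 5) (nat_lit 162) (nat_lit 5) (nat_lit 163) (nat_lit 5) (nat_lit 294) (nat_lit 274) (nat_lit 212)) (XT.lf (nat_lit 0) (nat_lit 443004831) (nat_lit 1064) (nat_lit 2631104492) (nat_lit 76) (nat_lit 6269136132) (nat_lit 148) (nat_lit 5) (nat_lit 162) (nat_lit 5) (nat_lit 149) (nat_lit 5) (nat_lit 295) (nat_lit 274) (nat_lit 211)))) (XT.nd (nat_lit 78) (nat_lit 608) (nat_lit 0) (XT.lf (nat_lit 0) (nat_lit 1752036161) (nat_lit 1064) (nat_lit 103492324) (nat_lit 1140) (nat_lit 7625423421) (nat_lit 134) (nat_lit 5) (nat_lit 148) (nat_lit 5) (nat_lit 149) (nat_lit 5) (nat_lit 296) (nat_lit 274) (nat_lit 210)) (XT.nd (nat_lit 78) (nat_lit 608) (nat_lit 0) (XT.lf (nat_lit 0) (nat_lit 3333504132) (nat_lit 1140)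 (nat_lit 3359405406) (nat_lit 76) (nat_lit 2929275480) (nat_lit 134) (nat_lit 5) (nat_lit 149) (nat_lit 5) (nat_lit 135) (nat_lit 5) (nat_lit 297) (nat_lit 274) (nat_lit 209)) (XT.lf (nat_lit 0) (nat_lit 1133805985) (nat_lit 608) (nat_lit 3702700665) (nat_lit 684) (nat_lit 4931813049) (nat_lit 126) (nat_lit 5) (nat_lit 134) (nat_lit 5) (nat_lit 135) (nat_lit 5) (nat_lit 298) (nat_lit 274) (nat_lit 208)))))) (XT.nd (nat_lit 468) (nat_lit 1368) (nat_lit 0) (XT.nd (nat_lit 234) (nat_lit 608) (nat_lit 0) (XT.nd (nat_lit 78) (nat_lit 532) (nat_lit 0) (XT.lf (nat_lit 0) (nat_lit 5802473276) (nat_lit 608) (nat_lit 585452124) (nat_lit 684) (nat_lit 3530895955) (nat_lit 126) (nat_lit 5) (nat_lit 134) (nat_lit 5) (nat_lit 135) (nat_lit 5) (nat_lit 299) (nat_lit 274) (nat_lit 207)) (XT.nd (nat_lit 78) (nat_lit 0) (nat_lit 0) (XT.lf (nat_lit 0) (nat_lit 493376678) (nat_lit 532) (nat_lit 7492805053) (nat_lit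 608) (nat_lit 2087727791) (nat_lit 119) (nat_lit 5) (nat_lit 126) (nat_lit 5) (nat_lit 127) (nat_lit 5) (nat_lit 300) (nat_lit 274) (nat_lit 206)) (XT.lf (nat_lit 0) (nat_lit 5291763293) (nat_lit 532) (nat_lit 4358839956) (nat_lit 608) (nat_lit 582578531) (nat_lit 119) (nat_lit 5) (nat_lit 126) (nat_lit 5) (nat_lit 127) (nat_lit 5) (nat_lit 301) (nat_lit 274) (nat_lit 205)))) (XT.nd (nat_lit 78) (nat_lit 532) (nat_lit 0) (XT.lf (nat_lit 0) (nat_lit 920245541) (nat_lit 608) (nat_lit 200356325) (nat_lit 76) (nat_lit 9277282640) (nat_lit 118) (nat_lit 5) (nat_lit 126) (nat_lit 5) (nat_lit 119) (nat_lit 5) (nat_lit 302) (nat_lit 274) (nat_lit 204)) (XT.nd (nat_lit 78) (nat_lit 0) (nat_lit 0) (XT.lf (nat_lit 0) (nat_lit 2496075547) (nat_lit 608) (nat_lit 5846091524) (nat_lit 76) (nat_lit 2224070641) (nat_lit 111) (nat_lit 5) (nat_lit 119) (nat_lit 5) (nat_lit 112) (nat_lit 5) (nat_lit 303) (nat_lit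 274) (nat_lit 203)) (XT.lf (nat_lit 0) (nat_lit 4105109915) (nat_lit 608) (nat_lit 986058395) (nat_lit 76) (nat_lit 5648964598) (nat_lit 111) (nat_lit 5) (nat_lit 119) (nat_lit 5) (nat_lit 112) (nat_lit 5) (nat_lit 304) (nat_lit 274) (nat_lit 202))))) (XT.nd (nat_lit 234) (nat_lit 456) (nat_lit 0) (XT.nd (nat_lit 78) (nat_lit 456) (nat_lit 0) (XT.lf (nat_lit 0) (nat_lit 4072315679) (nat_lit 456) (nat_lit 1702828871) (nat_lit 532) (nat_lit 5143785792) (nat_lit 105) (nat_lit 5) (nat_lit 111) (nat_lit 5) (nat_lit 112) (nat_lit 5) (nat_lit 305) (nat_lit 274) (nat_lit 201)) (XT.nd (nat_lit 78) (nat_lit 456) (nat_lit 0) (XT.lf (nat_lit 0) (nat_lit 7496604826) (nat_lit 532) (nat_lit 1844913370) (nat_lit 76) (nat_lit 1761599064) (nat_lit 105) (nat_lit 5) (nat_lit 112) (nat_lit 5) (nat_lit 106) (nat_lit 5) (nat_lit 306) (nat_lit 274) (nat_lit 200)) (XT.lf (nat_lit 0) (nat_lit 3328229157) (nat_lit 456)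 (nat_lit 5965176572) (nat_lit 532) (nat_lit 1998776551) (nat_lit 99) (nat_lit 5) (nat_lit 105) (nat_lit 5) (nat_lit 106) (nat_lit 5) (nat_lit 307) (nat_lit 274) (nat_lit 199)))) (XT.nd (nat_lit 78) (nat_lit 456) (nat_lit 0) (XT.lf (nat_lit 0) (nat_lit 8667950750) (nat_lit 456) (nat_lit 2470112662) (nat_lit 532) (nat_lit 349098806) (nat_lit 99) (nat_lit 5) (nat_lit 105) (nat_lit 5) (nat_lit 106) (nat_lit 5) (nat_lit 308) (nat_lit 274) (nat_lit 198)) (XT.nd (nat_lit 78) (nat_lit 0) (nat_lit 0) (XT.lf (nat_lit 0) (nat_lit 1334605597) (nat_lit 456) (nat_lit 9209612710) (nat_lit 76) (nat_lit 1143115505) (nat_lit 93) (nat_lit 5) (nat_lit 99) (nat_lit 5) (nat_lit 94) (nat_lit 5) (nat_lit 309) (nat_lit 274) (nat_lit 197)) (XT.lf (nat_lit 0) (nat_lit 3091193558) (nat_lit 456) (nat_lit 3956196216) (nat_lit 76) (nat_lit 4845191746) (nat_lit 93) (nat_lit 5) (nat_lit 99) (nat_lit 5) (nat_lit 94) (nat_lit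 5) (nat_lit 310) (nat_lit 274) (nat_lit 196))))))) (XT.nd (nat_lit 858) (nat_lit 1520) (nat_lit 0) (XT.nd (nat_lit 390) (nat_lit 1140) (nat_lit 0) (XT.nd (nat_lit 156) (nat_lit 380) (nat_lit 0) (XT.nd (nat_lit 78) (nat_lit 0) (nat_lit 0) (XT.lf (nat_lit 0) (nat_lit 1457340750) (nat_lit 456) (nat_lit 3434023014) (nat_lit 532) (nat_lit 7212951045) (nat_lit 87) (nat_lit 5) (nat_lit 93) (nat_lit 5) (nat_lit 94) (nat_lit 5) (nat_lit 311) (nat_lit 274) (nat_lit 195)) (XT.lf (nat_lit 0) (nat_lit 6765924451) (nat_lit 532) (nat_lit 5236352509) (nat_lit 76) (nat_lit 319564670) (nat_lit 87) (nat_lit 5) (nat_lit 94) (nat_lit 5) (nat_lit 88) (nat_lit 5) (nat_lit 312) (nat_lit 274) (nat_lit 194))) (XT.nd (nat_lit 78) (nat_lit 0) (nat_lit 0) (XT.lf (nat_lit 0) (nat_lit 282496729) (nat_lit 380) (nat_lit 8428876937) (nat_lit 456) (nat_lit 3834132587) (nat_lit 82) (nat_lit 5) (nat_lit 87) (nat_lit 5) (nat_lit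 88) (nat_lit 5) (nat_lit 313) (nat_lit 274) (nat_lit 193)) (XT.nd (nat_lit 78) (nat_lit 0) (nat_lit 0) (XT.lf (nat_lit 0) (nat_lit 6048899293) (nat_lit 380) (nat_lit 4697498848) (nat_lit 456) (nat_lit 2028596367) (nat_lit 82) (nat_lit 5) (nat_lit 87) (nat_lit 5) (nat_lit 88) (nat_lit 5) (nat_lit 314) (nat_lit 274) (nat_lit 192)) (XT.lf (nat_lit 0) (nat_lit 11963680102) (nat_lit 380) (nat_lit 857759160) (nat_lit 456) (nat_lit 190607760) (nat_lit 82) (nat_lit 5) (nat_lit 87) (nat_lit 5) (nat_lit 88) (nat_lit 5) (nat_lit 315) (nat_lit 274) (nat_lit 191))))) (XT.nd (nat_lit 234) (nat_lit 380) (nat_lit 0) (XT.nd (nat_lit 78) (nat_lit 304) (nat_lit 0) (XT.lf (nat_lit 0) (nat_lit 1725645396) (nat_lit 456) (nat_lit 8431660467) (nat_lit 76) (nat_lit 3096769664) (nat_lit 76) (nat_lit 5) (nat_lit 82) (nat_lit 5) (nat_lit 77) (nat_lit 5) (nat_lit 316) (nat_lit 274) (nat_lit 190)) (XT.nd (nat_lit 78) (nat_lit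 304) (nat_lit 0) (XT.lf (nat_lit 0) (nat_lit 3694402708) (nat_lit 456) (nat_lit 2647453091) (nat_lit 76) (nat_lit 7161531510) (nat_lit 76) (nat_lit 5) (nat_lit 82) (nat_lit 5) (nat_lit 77) (nat_lit 5) (nat_lit 317) (nat_lit 274) (nat_lit 189)) (XT.lf (nat_lit 0) (nat_lit 3351671944) (nat_lit 304) (nat_lit 2383025093) (nat_lit 380) (nat_lit 8025150350) (nat_lit 72) (nat_lit 5) (nat_lit 76) (nat_lit 5) (nat_lit 77) (nat_lit 5) (nat_lit 318) (nat_lit 274) (nat_lit 188)))) (XT.nd (nat_lit 78) (nat_lit 380) (nat_lit 0) (XT.lf (nat_lit 0) (nat_lit 7860048624) (nat_lit 380) (nat_lit 4479070354) (nat_lit 76) (nat_lit 1684208749) (nat_lit 72) (nat_lit 5) (nat_lit 77) (nat_lit 5) (nat_lit 73) (nat_lit 5) (nat_lit 319) (nat_lit 274) (nat_lit 187)) (XT.nd (nat_lit 78) (nat_lit 0) (nat_lit 0) (XT.lf (nat_lit 0) (nat_lit 1612123278) (nat_lit 380) (nat_lit 8457255106) (nat_lit 456) (nat_lit 4224768258) (nat_lit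 67) (nat_lit 5) (nat_lit 72) (nat_lit 5) (nat_lit 73) (nat_lit 5) (nat_lit 320) (nat_lit 274) (nat_lit 186)) (XT.lf (nat_lit 0) (nat_lit 7954452488) (nat_lit 380) (nat_lit 4417216593) (nat_lit 456) (nat_lit 2200660120) (nat_lit 67) (nat_lit 5) (nat_lit 72) (nat_lit 5) (nat_lit 73) (nat_lit 5) (nat_lit 321) (nat_lit 274) (nat_lit 185)))))) (XT.nd (nat_lit 468) (nat_lit 608) (nat_lit 0) (XT.nd (nat_lit 234) (nat_lit 532) (nat_lit 0) (XT.nd (nat_lit 78) (nat_lit 380) (nat_lit 0) (XT.lf (nat_lit 0) (nat_lit 14464316833) (nat_lit 380) (nat_lit 260703138) (nat_lit 456) (nat_lit 134415878) (nat_lit 67) (nat_lit 5) (nat_lit 72) (nat_lit 5) (nat_lit 73) (nat_lit 5) (nat_lit 322) (nat_lit 274) (nat_lit 184)) (XT.nd (nat_lit 78) (nat_lit 0) (nat_lit 0) (XT.lf (nat_lit 0) (nat_lit 2035142623) (nat_lit 380) (nat_lit 9101199152) (nat_lit 76) (nat_lit 4015868099) (nat_lit 62) (nat_lit 5) (nat_lit 67) (nat_lit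 5) (nat_lit 63) (nat_lit 5) (nat_lit 323) (nat_lit 274) (nat_lit 183)) (XT.lf (nat_lit 0) (nat_lit 4256258224) (nat_lit 380) (nat_lit 2781726000) (nat_lit 76) (nat_lit 8416102914) (nat_lit 62) (nat_lit 5) (nat_lit 67) (nat_lit 5) (nat_lit 63) (nat_lit 5) (nat_lit 324) (nat_lit 274) (nat_lit 182)))) (XT.nd (nat_lit 78) (nat_lit 228) (nat_lit 0) (XT.lf (nat_lit 0) (nat_lit 3778984688) (nat_lit 304) (nat_lit 2784417761) (nat_lit 380) (nat_lit 9201070495) (nat_lit 58) (nat_lit 5) (nat_lit 62) (nat_lit 5) (nat_lit 63) (nat_lit 5) (nat_lit 325) (nat_lit 274) (nat_lit 181)) (XT.nd (nat_lit 78) (nat_lit 228) (nat_lit 0) (XT.lf (nat_lit 0) (nat_lit 8966780005) (nat_lit 380) (nat_lit 5527769402) (nat_lit 76) (nat_lit 1588843435) (nat_lit 58) (nat_lit 5) (nat_lit 63) (nat_lit 5) (nat_lit 59) (nat_lit 5) (nat_lit 326) (nat_lit 274) (nat_lit 180)) (XT.lf (nat_lit 0) (nat_lit 1095792452) (nat_lit 228) (nat_lit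 10368356619) (nat_lit 304) (nat_lit 4947106683) (nat_lit 55) (nat_lit 5) (nat_lit 58) (nat_lit 5) (nat_lit 59) (nat_lit 5) (nat_lit 327) (nat_lit 274) (nat_lit 179))))) (XT.nd (nat_lit 234) (nat_lit 228) (nat_lit 0) (XT.nd (nat_lit 78) (nat_lit 380) (nat_lit 0) (XT.lf (nat_lit 0) (nat_lit 8009884860) (nat_lit 228) (nat_lit 6066427858) (nat_lit 304) (nat_lit 2671476819) (nat_lit 55) (nat_lit 5) (nat_lit 58) (nat_lit 5) (nat_lit 59) (nat_lit 5) (nat_lit 328) (nat_lit 274) (nat_lit 178)) (XT.nd (nat_lit 78) (nat_lit 380) (nat_lit 0) (XT.lf (nat_lit 0) (nat_lit 15110535810) (nat_lit 228) (nat_lit 1640823788) (nat_lit 304) (nat_lit 343554463) (nat_lit 55) (nat_lit 5) (nat_lit 58) (nat_lit 5) (nat_lit 59) (nat_lit 5) (nat_lit 329) (nat_lit 274) (nat_lit 177)) (XT.lf (nat_lit 0) (nat_lit 2075927216) (nat_lit 380) (nat_lit 12449997193) (nat_lit 76) (nat_lit 2924109867) (nat_lit 50) (nat_lit 5) (nat_lit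 55) (nat_lit 5) (nat_lit 51) (nat_lit 5) (nat_lit 330) (nat_lit 274) (nat_lit 176)))) (XT.nd (nat_lit 78) (nat_lit 228) (nat_lit 0) (XT.lf (nat_lit 0) (nat_lit 4582557213) (nat_lit 380) (nat_lit 5621200287) (nat_lit 76) (nat_lit 7611332193) (nat_lit 50) (nat_lit 5) (nat_lit 55) (nat_lit 5) (nat_lit 51) (nat_lit 5) (nat_lit 331) (nat_lit 274) (nat_lit 175)) (XT.nd (nat_lit 78) (nat_lit 0) (nat_lit 0) (XT.lf (nat_lit 0) (nat_lit 1419964963) (nat_lit 228) (nat_lit 5743494468) (nat_lit 304) (nat_lit 11027692045) (nat_lit 47) (nat_lit 5) (nat_lit 50) (nat_lit 5) (nat_lit 51) (nat_lit 5) (nat_lit 332) (nat_lit 274) (nat_lit 174)) (XT.lf (nat_lit 0) (nat_lit 8767588154) (nat_lit 228) (nat_lit 1096619653) (nat_lit 304) (nat_lit 8713040851) (nat_lit 47) (nat_lit 5) (nat_lit 50) (nat_lit 5) (nat_lit 51) (nat_lit 5) (nat_lit 333) (nat_lit 274) (nat_lit 173))))))))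
noncomputable def xc152 : XT := (XT.nd (nat_lit 1716) (nat_lit 836) (nat_lit 0) (XT.nd (nat_lit 858) (nat_lit 836) (nat_lit 0) (XT.nd (nat_lit 390) (nat_lit 380) (nat_lit 0) (XT.nd (nat_lit 156) (nat_lit 304) (nat_lit 0) (XT.nd (nat_lit 78) (nat_lit 228) (nat_lit 0) (XT.lf (nat_lit 0) (nat_lit 12667466851) (nat_lit 304) (nat_lit 2694569711) (nat_lit 76) (nat_lit 3612272906) (nat_lit 47) (nat_lit 5) (nat_lit 51) (nat_lit 5) (nat_lit 48) (nat_lit 5) (nat_lit 334) (nat_lit 274) (nat_lit 172)) (XT.lf (nat_lit 0) (nat_lit 4695505801) (nat_lit 228) (nat_lit 10901739650) (nat_lit 304) (nat_lit 3784788616) (nat_lit 44) (nat_lit 5) (nat_lit 47) (nat_lit 5) (nat_lit 48) (nat_lit 5) (nat_lit 335) (nat_lit 274) (nat_lit 171))) (XT.nd (nat_lit 78) (nat_lit 304) (nat_lit 0) (XT.lf (nat_lit 0) (nat_lit 12343471597) (nat_lit 228) (nat_lit 6285295972) (nat_lit 304) (nat_lit 1172831235) (nat_lit 44) (nat_lit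 5) (nat_lit 47) (nat_lit 5) (nat_lit 48) (nat_lit 5) (nat_lit 336) (nat_lit 274) (nat_lit 170)) (XT.nd (nat_lit 78) (nat_lit 228) (nat_lit 0) (XT.lf (nat_lit 0) (nat_lit 1474751503) (nat_lit 304) (nat_lit 46238012) (nat_lit 76) (nat_lit 18712739541) (nat_lit 43) (nat_lit 5) (nat_lit 47) (nat_lit 5) (nat_lit 44) (nat_lit 5) (nat_lit 337) (nat_lit 274) (nat_lit 169)) (XT.lf (nat_lit 0) (nat_lit 4272895583) (nat_lit 304) (nat_lit 13001414466) (nat_lit 76) (nat_lit 3401345477) (nat_lit 40) (nat_lit 5) (nat_lit 44) (nat_lit 5) (nat_lit 41) (nat_lit 5) (nat_lit 338) (nat_lit 274) (nat_lit 168))))) (XT.nd (nat_lit 234) (nat_lit 152) (nat_lit 0) (XT.nd (nat_lit 78) (nat_lit 228) (nat_lit 0) (XT.lf (nat_lit 0) (nat_lit 7157919820) (nat_lit 304) (nat_lit 5537003186) (nat_lit 76) (nat_lit 8435849947) (nat_lit 40) (nat_lit 5) (nat_lit 44) (nat_lit 5) (nat_lit 41) (nat_lit 5) (nat_lit 339) (nat_lit 274)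 (nat_lit 167)) (XT.nd (nat_lit 78) (nat_lit 0) (nat_lit 0) (XT.lf (nat_lit 0) (nat_lit 2175940857) (nat_lit 228) (nat_lit 7962242241) (nat_lit 304) (nat_lit 11461120773) (nat_lit 37) (nat_lit 5) (nat_lit 40) (nat_lit 5) (nat_lit 41) (nat_lit 5) (nat_lit 340) (nat_lit 274) (nat_lit 166)) (XT.lf (nat_lit 0) (nat_lit 10216091441) (nat_lit 228) (nat_lit 3035633714) (nat_lit 304) (nat_lit 8828869456) (nat_lit 37) (nat_lit 5) (nat_lit 40) (nat_lit 5) (nat_lit 41) (nat_lit 5) (nat_lit 341) (nat_lit 274) (nat_lit 165)))) (XT.nd (nat_lit 78) (nat_lit 152) (nat_lit 0) (XT.lf (nat_lit 0) (nat_lit 16466527483) (nat_lit 304) (nat_lit 4115962797) (nat_lit 76) (nat_lit 1993617605) (nat_lit 37) (nat_lit 5) (nat_lit 41) (nat_lit 5) (nat_lit 38) (nat_lit 5) (nat_lit 342) (nat_lit 274) (nat_lit 164)) (XT.nd (nat_lit 78) (nat_lit 0) (nat_lit 0) (XT.lf (nat_lit 0) (nat_lit 3893985698) (nat_lit 152) (nat_lit 15939873468)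 (nat_lit 228) (nat_lit 3250963703) (nat_lit 35) (nat_lit 5) (nat_lit 37) (nat_lit 5) (nat_lit 38) (nat_lit 5) (nat_lit 343) (nat_lit 274) (nat_lit 163)) (XT.lf (nat_lit 0) (nat_lit 12211794308) (nat_lit 152) (nat_lit 11120748269) (nat_lit 228) (nat_lit 275365092) (nat_lit 35) (nat_lit 5) (nat_lit 37) (nat_lit 5) (nat_lit 38) (nat_lit 5) (nat_lit 344) (nat_lit 274) (nat_lit 162)))))) (XT.nd (nat_lit 390) (nat_lit 380) (nat_lit 0) (XT.nd (nat_lit 156) (nat_lit 152) (nat_lit 0) (XT.nd (nat_lit 78) (nat_lit 228) (nat_lit 0) (XT.lf (nat_lit 0) (nat_lit 2724038605) (nat_lit 228) (nat_lit 3410920897) (nat_lit 76) (nat_lit 18011269236) (nat_lit 34) (nat_lit 5) (nat_lit 37) (nat_lit 5) (nat_lit 35) (nat_lit 5) (nat_lit 345) (nat_lit 274) (nat_lit 161)) (XT.lf (nat_lit 0) (nat_lit 4890454968) (nat_lit 228) (nat_lit 953736525) (nat_lit 304) (nat_lit 18855353869) (nat_lit 31) (nat_lit 5) (nat_lit 34) (nat_lit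 5) (nat_lit 35) (nat_lit 5) (nat_lit 346) (nat_lit 274) (nat_lit 160))) (XT.nd (nat_lit 78) (nat_lit 152) (nat_lit 0) (XT.lf (nat_lit 0) (nat_lit 9124263809) (nat_lit 304) (nat_lit 11816307811) (nat_lit 76) (nat_lit 4326916697) (nat_lit 31) (nat_lit 5) (nat_lit 35) (nat_lit 5) (nat_lit 32) (nat_lit 5) (nat_lit 347) (nat_lit 274) (nat_lit 159)) (XT.nd (nat_lit 78) (nat_lit 152) (nat_lit 0) (XT.lf (nat_lit 0) (nat_lit 12501888864) (nat_lit 304) (nat_lit 3608912757) (nat_lit 76) (nat_lit 9741709225) (nat_lit 31) (nat_lit 5) (nat_lit 35) (nat_lit 5) (nat_lit 32) (nat_lit 5) (nat_lit 348) (nat_lit 274) (nat_lit 158)) (XT.lf (nat_lit 0) (nat_lit 4925549385) (nat_lit 152) (nat_lit 11092648091) (nat_lit 228) (nat_lit 10435781274) (nat_lit 29) (nat_lit 5) (nat_lit 31) (nat_lit 5) (nat_lit 32) (nat_lit 5) (nat_lit 349) (nat_lit 274) (nat_lit 157))))) (XT.nd (nat_lit 234) (nat_lit 228) (nat_lit 0) (XT.nd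 (nat_lit 78) (nat_lit 152) (nat_lit 0) (XT.lf (nat_lit 0) (nat_lit 13774904299) (nat_lit 152) (nat_lit 5891687103) (nat_lit 228) (nat_lit 7406116302) (nat_lit 29) (nat_lit 5) (nat_lit 31) (nat_lit 5) (nat_lit 32) (nat_lit 5) (nat_lit 350) (nat_lit 274) (nat_lit 156)) (XT.nd (nat_lit 78) (nat_lit 152) (nat_lit 0) (XT.lf (nat_lit 0) (nat_lit 22875059990) (nat_lit 152) (nat_lit 539817071) (nat_lit 228) (nat_lit 4295422730) (nat_lit 29) (nat_lit 5) (nat_lit 31) (nat_lit 5) (nat_lit 32) (nat_lit 5) (nat_lit 351) (nat_lit 274) (nat_lit 155)) (XT.lf (nat_lit 0) (nat_lit 3894907616) (nat_lit 152) (nat_lit 23456614251) (nat_lit 228) (nat_lit 1013234496) (nat_lit 27) (nat_lit 5) (nat_lit 29) (nat_lit 5) (nat_lit 30) (nat_lit 5) (nat_lit 352) (nat_lit 274) (nat_lit 154)))) (XT.nd (nat_lit 78) (nat_lit 152) (nat_lit 0) (XT.lf (nat_lit 0) (nat_lit 2366577014) (nat_lit 228) (nat_lit 16094443151) (nat_lit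 76) (nat_lit 10575796355) (nat_lit 26) (nat_lit 5) (nat_lit 29) (nat_lit 5) (nat_lit 27) (nat_lit 5) (nat_lit 353) (nat_lit 274) (nat_lit 153)) (XT.nd (nat_lit 78) (nat_lit 152) (nat_lit 0) (XT.lf (nat_lit 0) (nat_lit 5818388650) (nat_lit 228) (nat_lit 7491936738) (nat_lit 76) (nat_lit 16418695857) (nat_lit 26) (nat_lit 5) (nat_lit 29) (nat_lit 5) (nat_lit 27) (nat_lit 5) (nat_lit 354) (nat_lit 274) (nat_lit 152)) (XT.lf (nat_lit 0) (nat_lit 1381892779) (nat_lit 152) (nat_lit 7996379231) (nat_lit 228) (nat_lit 21063597054) (nat_lit 24) (nat_lit 5) (nat_lit 26) (nat_lit 5) (nat_lit 27) (nat_lit 5) (nat_lit 355) (nat_lit 274) (nat_lit 151))))))) (XT.nd (nat_lit 858) (nat_lit 304) (nat_lit 0) (XT.nd (nat_lit 390) (nat_lit 380) (nat_lit 0) (XT.nd (nat_lit 156) (nat_lit 152) (nat_lit 0) (XT.nd (nat_lit 78) (nat_lit 0) (nat_lit 0) (XT.lf (nat_lit 0) (nat_lit 10661931236) (nat_lit 152) (nat_lit 2450033041)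 (nat_lit 228) (nat_lit 18062139782) (nat_lit 24) (nat_lit 5) (nat_lit 26) (nat_lit 5) (nat_lit 27) (nat_lit 5) (nat_lit 356) (nat_lit 274) (nat_lit 150)) (XT.lf (nat_lit 0) (nat_lit 16980594519) (nat_lit 228) (nat_lit 11752703365) (nat_lit 76) (nat_lit 3194332161) (nat_lit 24) (nat_lit 5) (nat_lit 27) (nat_lit 5) (nat_lit 25) (nat_lit 5) (nat_lit 357) (nat_lit 274) (nat_lit 149))) (XT.nd (nat_lit 78) (nat_lit 152) (nat_lit 0) (XT.lf (nat_lit 0) (nat_lit 20981351233) (nat_lit 228) (nat_lit 2767722145) (nat_lit 76) (nat_lit 8954217822) (nat_lit 24) (nat_lit 5) (nat_lit 27) (nat_lit 5) (nat_lit 25) (nat_lit 5) (nat_lit 358) (nat_lit 274) (nat_lit 148)) (XT.nd (nat_lit 78) (nat_lit 0) (nat_lit 0) (XT.lf (nat_lit 0) (nat_lit 6603021744) (nat_lit 152) (nat_lit 18554629549) (nat_lit 228) (nat_lit 8342916362) (nat_lit 22) (nat_lit 5) (nat_lit 24) (nat_lit 5) (nat_lit 25) (nat_lit 5) (nat_lit 359) (nat_lit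 274) (nat_lit 147)) (XT.lf (nat_lit 0) (nat_lit 16299111915) (nat_lit 152) (nat_lit 13180236699) (nat_lit 228) (nat_lit 4841821301) (nat_lit 22) (nat_lit 5) (nat_lit 24) (nat_lit 5) (nat_lit 25) (nat_lit 5) (nat_lit 360) (nat_lit 274) (nat_lit 146))))) (XT.nd (nat_lit 234) (nat_lit 152) (nat_lit 0) (XT.nd (nat_lit 78) (nat_lit 228) (nat_lit 0) (XT.lf (nat_lit 0) (nat_lit 26273937581) (nat_lit 152) (nat_lit 7649147325) (nat_lit 228) (nat_lit 1243544144) (nat_lit 22) (nat_lit 5) (nat_lit 24) (nat_lit 5) (nat_lit 25) (nat_lit 5) (nat_lit 361) (nat_lit 274) (nat_lit 145)) (XT.nd (nat_lit 78) (nat_lit 0) (nat_lit 0) (XT.lf (nat_lit 0) (nat_lit 484383331) (nat_lit 152) (nat_lit 1927425043) (nat_lit 228) (nat_lit 33625027762) (nat_lit 19) (nat_lit 5) (nat_lit 21) (nat_lit 5) (nat_lit 22) (nat_lit 5) (nat_lit 362) (nat_lit 274) (nat_lit 144)) (XT.lf (nat_lit 0) (nat_lit 6273226062) (nat_lit 228) (nat_lit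 26668740716) (nat_lit 76) (nat_lit 3987180892) (nat_lit 19) (nat_lit 5) (nat_lit 22) (nat_lit 5) (nat_lit 20) (nat_lit 5) (nat_lit 363) (nat_lit 274) (nat_lit 143)))) (XT.nd (nat_lit 78) (nat_lit 152) (nat_lit 0) (XT.lf (nat_lit 0) (nat_lit 10262373215) (nat_lit 228) (nat_lit 17549273043) (nat_lit 76) (nat_lit 10036234965) (nat_lit 19) (nat_lit 5) (nat_lit 22) (nat_lit 5) (nat_lit 20) (nat_lit 5) (nat_lit 364) (nat_lit 274) (nat_lit 142)) (XT.nd (nat_lit 78) (nat_lit 152) (nat_lit 0) (XT.lf (nat_lit 0) (nat_lit 14364207909) (nat_lit 228) (nat_lit 8167553731) (nat_lit 76) (nat_lit 16262633761) (nat_lit 19) (nat_lit 5) (nat_lit 22) (nat_lit 5) (nat_lit 20) (nat_lit 5) (nat_lit 365) (nat_lit 274) (nat_lit 141)) (XT.lf (nat_lit 0) (nat_lit 1514161584) (nat_lit 152) (nat_lit 17082707734) (nat_lit 228) (nat_lit 21172211285) (nat_lit 17) (nat_lit 5) (nat_lit 19) (nat_lit 5) (nat_lit 20) (nat_lit 5)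 (nat_lit 366) (nat_lit 274) (nat_lit 140)))))) (XT.nd (nat_lit 468) (nat_lit 152) (nat_lit 0) (XT.nd (nat_lit 234) (nat_lit 152) (nat_lit 0) (XT.nd (nat_lit 78) (nat_lit 0) (nat_lit 0) (XT.lf (nat_lit 0) (nat_lit 11642860747) (nat_lit 152) (nat_lit 11389435578) (nat_lit 228) (nat_lit 17738444959) (nat_lit 17) (nat_lit 5) (nat_lit 19) (nat_lit 5) (nat_lit 20) (nat_lit 5) (nat_lit 367) (nat_lit 274) (nat_lit 139)) (XT.nd (nat_lit 78) (nat_lit 0) (nat_lit 0) (XT.lf (nat_lit 0) (nat_lit 22064843744) (nat_lit 152) (nat_lit 5529446745) (nat_lit 228) (nat_lit 14208364413) (nat_lit 17) (nat_lit 5) (nat_lit 19) (nat_lit 5) (nat_lit 20) (nat_lit 5) (nat_lit 368) (nat_lit 274) (nat_lit 138)) (XT.lf (nat_lit 0) (nat_lit 32291667195) (nat_lit 228) (nat_lit 10081335144) (nat_lit 76) (nat_lit 492575915) (nat_lit 17) (nat_lit 5) (nat_lit 20) (nat_lit 5) (nat_lit 18) (nat_lit 4) (nat_lit 369) (nat_lit 274) (nat_lit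 137)))) (XT.nd (nat_lit 78) (nat_lit 152) (nat_lit 0) (XT.lf (nat_lit 0) (nat_lit 37178552441) (nat_lit 228) (nat_lit 200036293) (nat_lit 76) (nat_lit 6580350729) (nat_lit 17) (nat_lit 5) (nat_lit 20) (nat_lit 5) (nat_lit 18) (nat_lit 4) (nat_lit 370) (nat_lit 274) (nat_lit 136)) (XT.nd (nat_lit 78) (nat_lit 76) (nat_lit 0) (XT.lf (nat_lit 0) (nat_lit 10166252161) (nat_lit 76) (nat_lit 32137535970) (nat_lit 152) (nat_lit 2778568607) (nat_lit 16) (nat_lit 5) (nat_lit 17) (nat_lit 5) (nat_lit 18) (nat_lit 4) (nat_lit 371) (nat_lit 274) (nat_lit 135)) (XT.lf (nat_lit 0) (nat_lit 1313166306) (nat_lit 152) (nat_lit 25414577807) (nat_lit 76) (nat_lit 19511469916) (nat_lit 15) (nat_lit 5) (nat_lit 17) (nat_lit 5) (nat_lit 16) (nat_lit 5) (nat_lit 372) (nat_lit 274) (nat_lit 134))))) (XT.nd (nat_lit 234) (nat_lit 0) (nat_lit 0) (XT.nd (nat_lit 78) (nat_lit 152) (nat_lit 0) (XT.lf (nat_lit 0) (nat_lit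 5466015214) (nat_lit 152) (nat_lit 15665087683) (nat_lit 76) (nat_lit 26299029475) (nat_lit 15) (nat_lit 5) (nat_lit 17) (nat_lit 5) (nat_lit 16) (nat_lit 5) (nat_lit 373) (nat_lit 274) (nat_lit 133)) (XT.nd (nat_lit 78) (nat_lit 152) (nat_lit 0) (XT.lf (nat_lit 0) (nat_lit 9737826703) (nat_lit 152) (nat_lit 5632405933) (nat_lit 76) (nat_lit 33286721023) (nat_lit 15) (nat_lit 5) (nat_lit 17) (nat_lit 5) (nat_lit 16) (nat_lit 5) (nat_lit 374) (nat_lit 274) (nat_lit 132)) (XT.lf (nat_lit 0) (nat_lit 4785618516) (nat_lit 152) (nat_lit 9392717198) (nat_lit 228) (nat_lit 35741034086) (nat_lit 13) (nat_lit 5) (nat_lit 15) (nat_lit 5) (nat_lit 16) (nat_lit 5) (nat_lit 375) (nat_lit 274) (nat_lit 131)))) (XT.nd (nat_lit 78) (nat_lit 0) (nat_lit 0) (XT.lf (nat_lit 0) (nat_lit 15622708548) (nat_lit 152) (nat_lit 3180841714) (nat_lit 228) (nat_lit 32414569775) (nat_lit 13) (nat_lit 5) (nat_lit 15) (nat_lit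 5) (nat_lit 16) (nat_lit 5) (nat_lit 376) (nat_lit 274) (nat_lit 130)) (XT.nd (nat_lit 78) (nat_lit 0) (nat_lit 0) (XT.lf (nat_lit 0) (nat_lit 23593186542) (nat_lit 228) (nat_lit 25810652660) (nat_lit 76) (nat_lit 3151229759) (nat_lit 13) (nat_lit 5) (nat_lit 16) (nat_lit 5) (nat_lit 14) (nat_lit 4) (nat_lit 377) (nat_lit 274) (nat_lit 129)) (XT.lf (nat_lit 0) (nat_lit 28552896432) (nat_lit 228) (nat_lit 15772391768) (nat_lit 76) (nat_lit 9606052574) (nat_lit 13) (nat_lit 5) (nat_lit 16) (nat_lit 5) (nat_lit 14) (nat_lit 4) (nat_lit 378) (nat_lit 274) (nat_lit 128))))))))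
noncomputable def xc153 : XT := (XT.nd (nat_lit 33072) (nat_lit 0) (nat_lit 7828) (XT.nd (nat_lit 858) (nat_lit 76) (nat_lit 0) (XT.nd (nat_lit 390) (nat_lit 228) (nat_lit 0) (XT.nd (nat_lit 156) (nat_lit 0) (nat_lit 0) (XT.nd (nat_lit 78) (nat_lit 76) (nat_lit 0) (XT.lf (nat_lit 0) (nat_lit 33656437464) (nat_lit 228) (nat_lit 5441281322) (nat_lit 76) (nat_lit 16251336544) (nat_lit 13) (nat_lit 5) (nat_lit 16) (nat_lit 5) (nat_lit 14) (nat_lit 4) (nat_lit 379) (nat_lit 274) (nat_lit 127)) (XT.lf (nat_lit 0) (nat_lit 5295030988) (nat_lit 76) (nat_lit 33664137132) (nat_lit 152) (nat_lit 17848756317) (nat_lit 12) (nat_lit 5) (nat_lit 13) (nat_lit 5) (nat_lit 14) (nat_lit 4) (nat_lit 380) (nat_lit 274) (nat_lit 126))) (XT.nd (nat_lit 78) (nat_lit 0) (nat_lit 0) (XT.lf (nat_lit 0) (nat_lit 16456996012) (nat_lit 76) (nat_lit 28014178850) (nat_lit 152) (nat_lit 13837884383) (nat_lit 12) (nat_lit 5)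 (nat_lit 13) (nat_lit 5) (nat_lit 14) (nat_lit 4) (nat_lit 381) (nat_lit 274) (nat_lit 125)) (XT.nd (nat_lit 78) (nat_lit 0) (nat_lit 0) (XT.lf (nat_lit 0) (nat_lit 27946074754) (nat_lit 76) (nat_lit 22197853356) (nat_lit 152) (nat_lit 9711443691) (nat_lit 12) (nat_lit 5) (nat_lit 13) (nat_lit 5) (nat_lit 14) (nat_lit 4) (nat_lit 382) (nat_lit 274) (nat_lit 124)) (XT.lf (nat_lit 0) (nat_lit 39772306216) (nat_lit 76) (nat_lit 16210078424) (nat_lit 152) (nat_lit 5465828614) (nat_lit 12) (nat_lit 5) (nat_lit 13) (nat_lit 5) (nat_lit 14) (nat_lit 4) (nat_lit 383) (nat_lit 274) (nat_lit 123))))) (XT.nd (nat_lit 234) (nat_lit 0) (nat_lit 0) (XT.nd (nat_lit 78) (nat_lit 228) (nat_lit 0) (XT.lf (nat_lit 0) (nat_lit 51946023997) (nat_lit 76) (nat_lit 10045622017) (nat_lit 152) (nat_lit 1097329391) (nat_lit 12) (nat_lit 5) (nat_lit 13) (nat_lit 5) (nat_lit 14) (nat_lit 4) (nat_lit 384) (nat_lit 274) (nat_lit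 122)) (XT.nd (nat_lit 78) (nat_lit 152) (nat_lit 0) (XT.lf (nat_lit 0) (nat_lit 3331566409) (nat_lit 152) (nat_lit 333889019) (nat_lit 76) (nat_lit 61112656629) (nat_lit 11) (nat_lit 5) (nat_lit 13) (nat_lit 5) (nat_lit 12) (nat_lit 5) (nat_lit 385) (nat_lit 274) (nat_lit 121)) (XT.lf (nat_lit 0) (nat_lit 8001893866) (nat_lit 228) (nat_lit 55547429825) (nat_lit 76) (nat_lit 2964359145) (nat_lit 9) (nat_lit 5) (nat_lit 12) (nat_lit 5) (nat_lit 10) (nat_lit 4) (nat_lit 386) (nat_lit 274) (nat_lit 120)))) (XT.nd (nat_lit 78) (nat_lit 0) (nat_lit 0) (XT.lf (nat_lit 0) (nat_lit 12847910752) (nat_lit 228) (nat_lit 45732301297) (nat_lit 76) (nat_lit 9720045734) (nat_lit 9) (nat_lit 5) (nat_lit 12) (nat_lit 5) (nat_lit 10) (nat_lit 4) (nat_lit 387) (nat_lit 274) (nat_lit 119)) (XT.nd (nat_lit 78) (nat_lit 0) (nat_lit 0) (XT.lf (nat_lit 0) (nat_lit 17835311019) (nat_lit 228) (nat_lit 35629515405) (nat_lit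 76) (nat_lit 16675727772) (nat_lit 9) (nat_lit 5) (nat_lit 12) (nat_lit 5) (nat_lit 10) (nat_lit 4) (nat_lit 388) (nat_lit 274) (nat_lit 118)) (XT.lf (nat_lit 0) (nat_lit 22968452590) (nat_lit 228) (nat_lit 25230244473) (nat_lit 76) (nat_lit 23837483039) (nat_lit 9) (nat_lit 5) (nat_lit 12) (nat_lit 5) (nat_lit 10) (nat_lit 4) (nat_lit 389) (nat_lit 274) (nat_lit 117)))))) (XT.nd (nat_lit 31746) (nat_lit 0) (nat_lit 13984) (XT.nd (nat_lit 156) (nat_lit 76) (nat_lit 0) (XT.nd (nat_lit 78) (nat_lit 0) (nat_lit 0) (XT.lf (nat_lit 0) (nat_lit 28251820734) (nat_lit 228) (nat_lit 14525401760) (nat_lit 76) (nat_lit 31211569379) (nat_lit 9) (nat_lit 5) (nat_lit 12) (nat_lit 5) (nat_lit 10) (nat_lit 4) (nat_lit 390) (nat_lit 274) (nat_lit 116)) (XT.lf (nat_lit 0) (nat_lit 33690031987) (nat_lit 228) (nat_lit 3505633518) (nat_lit 76) (nat_lit 38804430169) (nat_lit 9) (nat_lit 5) (nat_lit 12) (nat_lit 5)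 (nat_lit 10) (nat_lit 4) (nat_lit 391) (nat_lit 274) (nat_lit 115))) (XT.nd (nat_lit 78) (nat_lit 0) (nat_lit 0) (XT.lf (nat_lit 0) (nat_lit 7994694459) (nat_lit 76) (nat_lit 31369993617) (nat_lit 152) (nat_lit 38704855382) (nat_lit 8) (nat_lit 5) (nat_lit 9) (nat_lit 5) (nat_lit 10) (nat_lit 4) (nat_lit 392) (nat_lit 274) (nat_lit 114)) (XT.nd (nat_lit 31434) (nat_lit 0) (nat_lit 14820) (XT.lf (nat_lit 0) (nat_lit 19905914932) (nat_lit 76) (nat_lit 25335563507) (nat_lit 152) (nat_lit 34958643110) (nat_lit 8) (nat_lit 5) (nat_lit 9) (nat_lit 5) (nat_lit 10) (nat_lit 4) (nat_lit 393) (nat_lit 274) (nat_lit 113)) (XT.lf (nat_lit 0) (nat_lit 1694889556) (nat_lit 0) (nat_lit 1694889556) (nat_lit 684) (nat_lit 330352971) (nat_lit 203) (nat_lit 5) (nat_lit 203) (nat_lit 3) (nat_lit 212) (nat_lit 3) (nat_lit 275) (nat_lit 275) (nat_lit 230))))) (XT.nd (nat_lit 234) (nat_lit 0) (nat_lit 76) (XT.nd (nat_lit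 78) (nat_lit 0) (nat_lit 76) (XT.lf (nat_lit 0) (nat_lit 668218047) (nat_lit 836) (nat_lit 929823637) (nat_lit 836) (nat_lit 5909938774) (nat_lit 192) (nat_lit 3) (nat_lit 203) (nat_lit 3) (nat_lit 203) (nat_lit 5) (nat_lit 276) (nat_lit 275) (nat_lit 229)) (XT.nd (nat_lit 78) (nat_lit 0) (nat_lit 0) (XT.lf (nat_lit 0) (nat_lit 1996962734) (nat_lit 760) (nat_lit 5285503874) (nat_lit 836) (nat_lit 296036557) (nat_lit 193) (nat_lit 5) (nat_lit 203) (nat_lit 5) (nat_lit 204) (nat_lit 5) (nat_lit 277) (nat_lit 275) (nat_lit 228)) (XT.lf (nat_lit 0) (nat_lit 3340617521) (nat_lit 760) (nat_lit 2063584669) (nat_lit 836) (nat_lit 2247851186) (nat_lit 193) (nat_lit 5) (nat_lit 203) (nat_lit 5) (nat_lit 204) (nat_lit 5) (nat_lit 278) (nat_lit 275) (nat_lit 227)))) (XT.nd (nat_lit 78) (nat_lit 0) (nat_lit 0) (XT.lf (nat_lit 76) (nat_lit 1251870099) (nat_lit 0) (nat_lit 3435952587) (nat_lit 836) (nat_lit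 3041248686) (nat_lit 194) (nat_lit 5) (nat_lit 193) (nat_lit 5) (nat_lit 204) (nat_lit 5) (nat_lit 279) (nat_lit 275) (nat_lit 226)) (XT.nd (nat_lit 78) (nat_lit 0) (nat_lit 76) (XT.lf (nat_lit 76) (nat_lit 4681809571) (nat_lit 0) (nat_lit 1366838508) (nat_lit 836) (nat_lit 1760709590) (nat_lit 194) (nat_lit 5) (nat_lit 193) (nat_lit 5) (nat_lit 204) (nat_lit 5) (nat_lit 280) (nat_lit 275) (nat_lit 225)) (XT.lf (nat_lit 76) (nat_lit 292747250) (nat_lit 0) (nat_lit 7121655708) (nat_lit 836) (nat_lit 478875857) (nat_lit 195) (nat_lit 5) (nat_lit 194) (nat_lit 5) (nat_lit 205) (nat_lit 5) (nat_lit 281) (nat_lit 275) (nat_lit 224))))))) (XT.nd (nat_lit 858) (nat_lit 3876) (nat_lit 0) (XT.nd (nat_lit 390) (nat_lit 1596) (nat_lit 0) (XT.nd (nat_lit 156) (nat_lit 0) (nat_lit 0) (XT.nd (nat_lit 78) (nat_lit 0) (nat_lit 0) (XT.lf (nat_lit 0) (nat_lit 824850327) (nat_lit 836) (nat_lit 4149924703) (nat_lit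 912) (nat_lit 3004845053) (nat_lit 183) (nat_lit 5) (nat_lit 194) (nat_lit 5) (nat_lit 195) (nat_lit 5) (nat_lit 282) (nat_lit 275) (nat_lit 223)) (XT.lf (nat_lit 0) (nat_lit 2113819273) (nat_lit 836) (nat_lit 628680568) (nat_lit 912) (nat_lit 5327373554) (nat_lit 183) (nat_lit 5) (nat_lit 194) (nat_lit 5) (nat_lit 195) (nat_lit 5) (nat_lit 283) (nat_lit 275) (nat_lit 222))) (XT.nd (nat_lit 78) (nat_lit 0) (nat_lit 76) (XT.lf (nat_lit 76) (nat_lit 3030007257) (nat_lit 0) (nat_lit 397620884) (nat_lit 912) (nat_lit 4735753781) (nat_lit 184) (nat_lit 5) (nat_lit 183) (nat_lit 5) (nat_lit 195) (nat_lit 5) (nat_lit 284) (nat_lit 275) (nat_lit 221)) (XT.nd (nat_lit 78) (nat_lit 0) (nat_lit 0) (XT.lf (nat_lit 0) (nat_lit 4764836023) (nat_lit 836) (nat_lit 1496202800) (nat_lit 912) (nat_lit 1999266215) (nat_lit 184) (nat_lit 5) (nat_lit 195) (nat_lit 5) (nat_lit 196) (nat_lit 5) (nat_lit 285) (nat_lit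 275) (nat_lit 220)) (XT.lf (nat_lit 76) (nat_lit 2262547049) (nat_lit 0) (nat_lit 3864696007) (nat_lit 912) (nat_lit 2233465425) (nat_lit 185) (nat_lit 5) (nat_lit 184) (nat_lit 5) (nat_lit 196) (nat_lit 5) (nat_lit 286) (nat_lit 275) (nat_lit 219))))) (XT.nd (nat_lit 234) (nat_lit 836) (nat_lit 0) (XT.nd (nat_lit 78) (nat_lit 836) (nat_lit 0) (XT.lf (nat_lit 76) (nat_lit 6137251379) (nat_lit 0) (nat_lit 1368695194) (nat_lit 912) (nat_lit 959036205) (nat_lit 185) (nat_lit 5) (nat_lit 184) (nat_lit 5) (nat_lit 196) (nat_lit 5) (nat_lit 287) (nat_lit 275) (nat_lit 218)) (XT.nd (nat_lit 78) (nat_lit 0) (nat_lit 0) (XT.lf (nat_lit 0) (nat_lit 334497058) (nat_lit 912) (nat_lit 7029777976) (nat_lit 988) (nat_lit 1208489644) (nat_lit 173) (nat_lit 5) (nat_lit 185) (nat_lit 5) (nat_lit 186) (nat_lit 5) (nat_lit 288) (nat_lit 275) (nat_lit 217)) (XT.lf (nat_lit 0) (nat_lit 1646803206) (nat_lit 912) (nat_lit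 3157471173) (nat_lit 988) (nat_lit 3879354687) (nat_lit 173) (nat_lit 5) (nat_lit 185) (nat_lit 5) (nat_lit 186) (nat_lit 5) (nat_lit 289) (nat_lit 275) (nat_lit 216)))) (XT.nd (nat_lit 78) (nat_lit 836) (nat_lit 0) (XT.lf (nat_lit 76) (nat_lit 819165144) (nat_lit 0) (nat_lit 2150248755) (nat_lit 988) (nat_lit 5829385355) (nat_lit 174) (nat_lit 5) (nat_lit 173) (nat_lit 5) (nat_lit 186) (nat_lit 5) (nat_lit 290) (nat_lit 275) (nat_lit 215)) (XT.nd (nat_lit 78) (nat_lit 912) (nat_lit 0) (XT.lf (nat_lit 0) (nat_lit 4333465375) (nat_lit 912) (nat_lit 3971388892) (nat_lit 76) (nat_lit 612622195) (nat_lit 174) (nat_lit 5) (nat_lit 186) (nat_lit 5) (nat_lit 175) (nat_lit 5) (nat_lit 291) (nat_lit 275) (nat_lit 214)) (XT.lf (nat_lit 0) (nat_lit 109976807) (nat_lit 912) (nat_lit 5615812743) (nat_lit 988) (nat_lit 3314405638) (nat_lit 162) (nat_lit 5) (nat_lit 174) (nat_lit 5) (nat_lit 175) (nat_lit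 5) (nat_lit 292) (nat_lit 275) (nat_lit 213)))))) (XT.nd (nat_lit 468) (nat_lit 1748) (nat_lit 0) (XT.nd (nat_lit 234) (nat_lit 1064) (nat_lit 0) (XT.nd (nat_lit 78) (nat_lit 1064) (nat_lit 0) (XT.lf (nat_lit 0) (nat_lit 4367484078) (nat_lit 912) (nat_lit 2798259947) (nat_lit 988) (nat_lit 2000774405) (nat_lit 162) (nat_lit 5) (nat_lit 174) (nat_lit 5) (nat_lit 175) (nat_lit 5) (nat_lit 293) (nat_lit 275) (nat_lit 212)) (XT.nd (nat_lit 78) (nat_lit 1064) (nat_lit 0) (XT.lf (nat_lit 0) (nat_lit 8616710780) (nat_lit 988) (nat_lit 572968932) (nat_lit 76) (nat_lit 108013143) (nat_lit 162) (nat_lit 5) (nat_lit 175) (nat_lit 5) (nat_lit 163) (nat_lit 5) (nat_lit 294) (nat_lit 275) (nat_lit 211)) (XT.lf (nat_lit 0) (nat_lit 697398236) (nat_lit 1064) (nat_lit 5639705240) (nat_lit 76) (nat_lit 3094626820) (nat_lit 148) (nat_lit 5) (nat_lit 162) (nat_lit 5) (nat_lit 149) (nat_lit 5) (nat_lit 295) (nat_lit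 275) (nat_lit 210)))) (XT.nd (nat_lit 78) (nat_lit 1064) (nat_lit 0) (XT.lf (nat_lit 0) (nat_lit 2077346465) (nat_lit 1064) (nat_lit 1304396154) (nat_lit 76) (nat_lit 6188714621) (nat_lit 148) (nat_lit 5) (nat_lit 162) (nat_lit 5) (nat_lit 149) (nat_lit 5) (nat_lit 296) (nat_lit 275) (nat_lit 209)) (XT.nd (nat_lit 78) (nat_lit 0) (nat_lit 0) (XT.lf (nat_lit 0) (nat_lit 3196457919) (nat_lit 1064) (nat_lit 301952234) (nat_lit 1140) (nat_lit 6215029532) (nat_lit 134) (nat_lit 5) (nat_lit 148) (nat_lit 5) (nat_lit 149) (nat_lit 5) (nat_lit 297) (nat_lit 275) (nat_lit 208)) (XT.lf (nat_lit 0) (nat_lit 4972672306) (nat_lit 1140) (nat_lit 2056615408) (nat_lit 76) (nat_lit 2831189610) (nat_lit 134) (nat_lit 5) (nat_lit 149) (nat_lit 5) (nat_lit 135) (nat_lit 5) (nat_lit 298) (nat_lit 275) (nat_lit 207))))) (XT.nd (nat_lit 234) (nat_lit 608) (nat_lit 0) (XT.nd (nat_lit 78) (nat_lit 532) (nat_lit 0) (XT.lf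 (nat_lit 0) (nat_lit 2557631814) (nat_lit 608) (nat_lit 3931662813) (nat_lit 684) (nat_lit 3522767809) (nat_lit 126) (nat_lit 5) (nat_lit 134) (nat_lit 5) (nat_lit 135) (nat_lit 5) (nat_lit 299) (nat_lit 275) (nat_lit 206)) (XT.nd (nat_lit 78) (nat_lit 532) (nat_lit 0) (XT.lf (nat_lit 0) (nat_lit 7325879172) (nat_lit 608) (nat_lit 717463386) (nat_lit 684) (nat_lit 2125172706) (nat_lit 126) (nat_lit 5) (nat_lit 134) (nat_lit 5) (nat_lit 135) (nat_lit 5) (nat_lit 300) (nat_lit 275) (nat_lit 205)) (XT.lf (nat_lit 0) (nat_lit 1892771701) (nat_lit 532) (nat_lit 7766381990) (nat_lit 608) (nat_lit 670129434) (nat_lit 119) (nat_lit 5) (nat_lit 126) (nat_lit 5) (nat_lit 127) (nat_lit 5) (nat_lit 301) (nat_lit 275) (nat_lit 204)))) (XT.nd (nat_lit 78) (nat_lit 532) (nat_lit 0) (XT.lf (nat_lit 0) (nat_lit 820726731) (nat_lit 608) (nat_lit 3707962329) (nat_lit 76) (nat_lit 5965767479) (nat_lit 118) (nat_lit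 5) (nat_lit 126) (nat_lit 5) (nat_lit 119) (nat_lit 5) (nat_lit 302) (nat_lit 275) (nat_lit 203)) (XT.nd (nat_lit 78) (nat_lit 0) (nat_lit 0) (XT.lf (nat_lit 0) (nat_lit 1151966969) (nat_lit 532) (nat_lit 1174991744) (nat_lit 608) (nat_lit 8337973100) (nat_lit 111) (nat_lit 5) (nat_lit 118) (nat_lit 5) (nat_lit 119) (nat_lit 5) (nat_lit 303) (nat_lit 275) (nat_lit 202)) (XT.lf (nat_lit 0) (nat_lit 3911685360) (nat_lit 608) (nat_lit 4654900816) (nat_lit 76) (nat_lit 2273003197) (nat_lit 111) (nat_lit 5) (nat_lit 119) (nat_lit 5) (nat_lit 112) (nat_lit 5) (nat_lit 304) (nat_lit 275) (nat_lit 201))))))))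
noncomputable def xc154 : XT := (XT.nd (nat_lit 1716) (nat_lit 2052) (nat_lit 0) (XT.nd (nat_lit 858) (nat_lit 1824) (nat_lit 0) (XT.nd (nat_lit 390) (nat_lit 1216) (nat_lit 0) (XT.nd (nat_lit 156) (nat_lit 532) (nat_lit 0) (XT.nd (nat_lit 78) (nat_lit 0) (nat_lit 0) (XT.lf (nat_lit 0) (nat_lit 317322297) (nat_lit 456) (nat_lit 5215668440) (nat_lit 532) (nat_lit 5486890114) (nat_lit 105) (nat_lit 5) (nat_lit 111) (nat_lit 5) (nat_lit 112) (nat_lit 5) (nat_lit 305) (nat_lit 275) (nat_lit 200)) (XT.lf (nat_lit 0) (nat_lit 5508247941) (nat_lit 456) (nat_lit 1716543937) (nat_lit 532) (nat_lit 3980196896) (nat_lit 105) (nat_lit 5) (nat_lit 111) (nat_lit 5) (nat_lit 112) (nat_lit 5) (nat_lit 306) (nat_lit 275) (nat_lit 199))) (XT.nd (nat_lit 78) (nat_lit 532) (nat_lit 0) (XT.lf (nat_lit 0) (nat_lit 8961068226) (nat_lit 532) (nat_lit 584811210) (nat_lit 76) (nat_lit 1850020415) (nat_lit 105) (nat_lit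 5) (nat_lit 112) (nat_lit 5) (nat_lit 106) (nat_lit 5) (nat_lit 307) (nat_lit 275) (nat_lit 198)) (XT.nd (nat_lit 78) (nat_lit 76) (nat_lit 0) (XT.lf (nat_lit 0) (nat_lit 4730629029) (nat_lit 456) (nat_lit 6057561221) (nat_lit 532) (nat_lit 803245048) (nat_lit 99) (nat_lit 5) (nat_lit 105) (nat_lit 5) (nat_lit 106) (nat_lit 5) (nat_lit 308) (nat_lit 275) (nat_lit 197)) (XT.lf (nat_lit 0) (nat_lit 842586103) (nat_lit 532) (nat_lit 1609072299) (nat_lit 76) (nat_lit 9341509261) (nat_lit 98) (nat_lit 5) (nat_lit 105) (nat_lit 5) (nat_lit 99) (nat_lit 5) (nat_lit 309) (nat_lit 275) (nat_lit 196))))) (XT.nd (nat_lit 234) (nat_lit 380) (nat_lit 0) (XT.nd (nat_lit 78) (nat_lit 456) (nat_lit 0) (XT.lf (nat_lit 0) (nat_lit 2548284561) (nat_lit 456) (nat_lit 8170365857) (nat_lit 76) (nat_lit 1281318578) (nat_lit 93) (nat_lit 5) (nat_lit 99) (nat_lit 5) (nat_lit 94) (nat_lit 5) (nat_lit 310) (nat_lit 275)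 (nat_lit 195)) (XT.nd (nat_lit 78) (nat_lit 456) (nat_lit 0) (XT.lf (nat_lit 0) (nat_lit 4323386448) (nat_lit 456) (nat_lit 2797663429) (nat_lit 76) (nat_lit 5091430613) (nat_lit 93) (nat_lit 5) (nat_lit 99) (nat_lit 5) (nat_lit 94) (nat_lit 5) (nat_lit 311) (nat_lit 275) (nat_lit 194)) (XT.lf (nat_lit 0) (nat_lit 2765757895) (nat_lit 456) (nat_lit 3390772836) (nat_lit 532) (nat_lit 6274744466) (nat_lit 87) (nat_lit 5) (nat_lit 93) (nat_lit 5) (nat_lit 94) (nat_lit 5) (nat_lit 312) (nat_lit 275) (nat_lit 193)))) (XT.nd (nat_lit 78) (nat_lit 380) (nat_lit 0) (XT.lf (nat_lit 0) (nat_lit 8056117814) (nat_lit 532) (nat_lit 4131831499) (nat_lit 76) (nat_lit 468391024) (nat_lit 87) (nat_lit 5) (nat_lit 94) (nat_lit 5) (nat_lit 88) (nat_lit 5) (nat_lit 313) (nat_lit 275) (nat_lit 192)) (XT.nd (nat_lit 78) (nat_lit 0) (nat_lit 0) (XT.lf (nat_lit 0) (nat_lit 1540214476) (nat_lit 380) (nat_lit 8500058042)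 (nat_lit 456) (nat_lit 2847106104) (nat_lit 82) (nat_lit 5) (nat_lit 87) (nat_lit 5) (nat_lit 88) (nat_lit 5) (nat_lit 314) (nat_lit 275) (nat_lit 191)) (XT.lf (nat_lit 0) (nat_lit 7443223402) (nat_lit 380) (nat_lit 4662030413) (nat_lit 456) (nat_lit 1019502354) (nat_lit 82) (nat_lit 5) (nat_lit 87) (nat_lit 5) (nat_lit 88) (nat_lit 5) (nat_lit 315) (nat_lit 275) (nat_lit 190)))))) (XT.nd (nat_lit 390) (nat_lit 1064) (nat_lit 0) (XT.nd (nat_lit 156) (nat_lit 304) (nat_lit 0) (XT.nd (nat_lit 78) (nat_lit 0) (nat_lit 0) (XT.lf (nat_lit 0) (nat_lit 124558376) (nat_lit 380) (nat_lit 702661744) (nat_lit 456) (nat_lit 12542396655) (nat_lit 76) (nat_lit 5) (nat_lit 81) (nat_lit 5) (nat_lit 82) (nat_lit 5) (nat_lit 316) (nat_lit 275) (nat_lit 189)) (XT.lf (nat_lit 0) (nat_lit 2779496898) (nat_lit 456) (nat_lit 7465925059) (nat_lit 76) (nat_lit 3374022283) (nat_lit 76) (nat_lit 5) (nat_lit 82) (nat_lit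 5) (nat_lit 77) (nat_lit 5) (nat_lit 317) (nat_lit 275) (nat_lit 188))) (XT.nd (nat_lit 78) (nat_lit 304) (nat_lit 0) (XT.lf (nat_lit 0) (nat_lit 4778130071) (nat_lit 456) (nat_lit 1543687147) (nat_lit 76) (nat_lit 7555357581) (nat_lit 76) (nat_lit 5) (nat_lit 82) (nat_lit 5) (nat_lit 77) (nat_lit 5) (nat_lit 318) (nat_lit 275) (nat_lit 187)) (XT.nd (nat_lit 78) (nat_lit 0) (nat_lit 0) (XT.lf (nat_lit 0) (nat_lit 4623811741) (nat_lit 304) (nat_lit 2238746769) (nat_lit 380) (nat_lit 7279344370) (nat_lit 72) (nat_lit 5) (nat_lit 76) (nat_lit 5) (nat_lit 77) (nat_lit 5) (nat_lit 319) (nat_lit 275) (nat_lit 186)) (XT.lf (nat_lit 0) (nat_lit 9025844905) (nat_lit 380) (nat_lit 3448145899) (nat_lit 76) (nat_lit 1940131753) (nat_lit 72) (nat_lit 5) (nat_lit 77) (nat_lit 5) (nat_lit 73) (nat_lit 5) (nat_lit 320) (nat_lit 275) (nat_lit 185))))) (XT.nd (nat_lit 234) (nat_lit 304) (nat_lit 0) (XT.nd (nat_lit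 78) (nat_lit 380) (nat_lit 0) (XT.lf (nat_lit 0) (nat_lit 2814359066) (nat_lit 380) (nat_lit 8471099988) (nat_lit 456) (nat_lit 3408145254) (nat_lit 67) (nat_lit 5) (nat_lit 72) (nat_lit 5) (nat_lit 73) (nat_lit 5) (nat_lit 321) (nat_lit 275) (nat_lit 184)) (XT.nd (nat_lit 78) (nat_lit 380) (nat_lit 0) (XT.lf (nat_lit 0) (nat_lit 9313350227) (nat_lit 380) (nat_lit 4316846905) (nat_lit 456) (nat_lit 1350790552) (nat_lit 67) (nat_lit 5) (nat_lit 72) (nat_lit 5) (nat_lit 73) (nat_lit 5) (nat_lit 322) (nat_lit 275) (nat_lit 183)) (XT.lf (nat_lit 0) (nat_lit 715080474) (nat_lit 304) (nat_lit 27907821) (nat_lit 380) (nat_lit 14534126948) (nat_lit 62) (nat_lit 5) (nat_lit 66) (nat_lit 5) (nat_lit 67) (nat_lit 5) (nat_lit 323) (nat_lit 275) (nat_lit 182)))) (XT.nd (nat_lit 78) (nat_lit 304) (nat_lit 0) (XT.lf (nat_lit 0) (nat_lit 2955495356) (nat_lit 380) (nat_lit 8253174267) (nat_lit 76) (nat_lit 4370597928)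 (nat_lit 62) (nat_lit 5) (nat_lit 67) (nat_lit 5) (nat_lit 63) (nat_lit 5) (nat_lit 324) (nat_lit 275) (nat_lit 181)) (XT.nd (nat_lit 78) (nat_lit 304) (nat_lit 0) (XT.lf (nat_lit 0) (nat_lit 5218216315) (nat_lit 380) (nat_lit 1776769178) (nat_lit 76) (nat_lit 8896016861) (nat_lit 62) (nat_lit 5) (nat_lit 67) (nat_lit 5) (nat_lit 63) (nat_lit 5) (nat_lit 325) (nat_lit 275) (nat_lit 180)) (XT.lf (nat_lit 0) (nat_lit 4970092158) (nat_lit 304) (nat_lit 2610543449) (nat_lit 380) (nat_lit 8630531217) (nat_lit 58) (nat_lit 5) (nat_lit 62) (nat_lit 5) (nat_lit 63) (nat_lit 5) (nat_lit 326) (nat_lit 275) (nat_lit 179))))))) (XT.nd (nat_lit 858) (nat_lit 988) (nat_lit 0) (XT.nd (nat_lit 390) (nat_lit 456) (nat_lit 0) (XT.nd (nat_lit 156) (nat_lit 380) (nat_lit 0) (XT.nd (nat_lit 78) (nat_lit 228) (nat_lit 0) (XT.lf (nat_lit 0) (nat_lit 10034623634) (nat_lit 380) (nat_lit 4624181236) (nat_lit 76) (nat_lit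 1881541661) (nat_lit 58) (nat_lit 5) (nat_lit 63) (nat_lit 5) (nat_lit 59) (nat_lit 5) (nat_lit 327) (nat_lit 275) (nat_lit 178)) (XT.lf (nat_lit 0) (nat_lit 2187602952) (nat_lit 228) (nat_lit 10406222777) (nat_lit 304) (nat_lit 4284658346) (nat_lit 55) (nat_lit 5) (nat_lit 58) (nat_lit 5) (nat_lit 59) (nat_lit 5) (nat_lit 328) (nat_lit 275) (nat_lit 177))) (XT.nd (nat_lit 78) (nat_lit 380) (nat_lit 0) (XT.lf (nat_lit 0) (nat_lit 9278275315) (nat_lit 228) (nat_lit 5983192984) (nat_lit 304) (nat_lit 1964376912) (nat_lit 55) (nat_lit 5) (nat_lit 58) (nat_lit 5) (nat_lit 59) (nat_lit 5) (nat_lit 329) (nat_lit 275) (nat_lit 176)) (XT.nd (nat_lit 78) (nat_lit 304) (nat_lit 0) (XT.lf (nat_lit 0) (nat_lit 402444241) (nat_lit 304) (nat_lit 1026037733) (nat_lit 76) (nat_lit 16155493172) (nat_lit 54) (nat_lit 5) (nat_lit 58) (nat_lit 5) (nat_lit 55) (nat_lit 5) (nat_lit 330) (nat_lit 275) (nat_lit 175))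 (XT.lf (nat_lit 0) (nat_lit 2878003587) (nat_lit 380) (nat_lit 11798059678) (nat_lit 76) (nat_lit 3273912670) (nat_lit 50) (nat_lit 5) (nat_lit 55) (nat_lit 5) (nat_lit 51) (nat_lit 5) (nat_lit 331) (nat_lit 275) (nat_lit 174))))) (XT.nd (nat_lit 234) (nat_lit 228) (nat_lit 0) (XT.nd (nat_lit 78) (nat_lit 228) (nat_lit 0) (XT.lf (nat_lit 0) (nat_lit 5438284953) (nat_lit 380) (nat_lit 4794265974) (nat_lit 76) (nat_lit 8094118282) (nat_lit 50) (nat_lit 5) (nat_lit 55) (nat_lit 5) (nat_lit 51) (nat_lit 5) (nat_lit 332) (nat_lit 275) (nat_lit 173)) (XT.nd (nat_lit 78) (nat_lit 0) (nat_lit 0) (XT.lf (nat_lit 0) (nat_lit 2448373740) (nat_lit 228) (nat_lit 5636796772) (nat_lit 304) (nat_lit 10629224256) (nat_lit 47) (nat_lit 5) (nat_lit 50) (nat_lit 5) (nat_lit 51) (nat_lit 5) (nat_lit 333) (nat_lit 275) (nat_lit 172)) (XT.lf (nat_lit 0) (nat_lit 9987712719) (nat_lit 228) (nat_lit 858641999) (nat_lit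 304) (nat_lit 8266375232) (nat_lit 47) (nat_lit 5) (nat_lit 50) (nat_lit 5) (nat_lit 51) (nat_lit 5) (nat_lit 334) (nat_lit 275) (nat_lit 171)))) (XT.nd (nat_lit 78) (nat_lit 228) (nat_lit 0) (XT.lf (nat_lit 0) (nat_lit 13716252512) (nat_lit 304) (nat_lit 1827514317) (nat_lit 76) (nat_lit 3978495920) (nat_lit 47) (nat_lit 5) (nat_lit 51) (nat_lit 5) (nat_lit 48) (nat_lit 5) (nat_lit 335) (nat_lit 275) (nat_lit 170)) (XT.nd (nat_lit 78) (nat_lit 0) (nat_lit 0) (XT.lf (nat_lit 0) (nat_lit 5774970397) (nat_lit 228) (nat_lit 10948497970) (nat_lit 304) (nat_lit 3219099737) (nat_lit 44) (nat_lit 5) (nat_lit 47) (nat_lit 5) (nat_lit 48) (nat_lit 5) (nat_lit 336) (nat_lit 275) (nat_lit 169)) (XT.lf (nat_lit 0) (nat_lit 13625037320) (nat_lit 228) (nat_lit 6201724882) (nat_lit 304) (nat_lit 548567106) (nat_lit 44) (nat_lit 5) (nat_lit 47) (nat_lit 5) (nat_lit 48) (nat_lit 5) (nat_lit 337) (nat_lit 275)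 (nat_lit 168)))))) (XT.nd (nat_lit 468) (nat_lit 456) (nat_lit 0) (XT.nd (nat_lit 234) (nat_lit 228) (nat_lit 0) (XT.nd (nat_lit 78) (nat_lit 0) (nat_lit 0) (XT.lf (nat_lit 0) (nat_lit 867596040) (nat_lit 228) (nat_lit 1287486259) (nat_lit 304) (nat_lit 18665498111) (nat_lit 40) (nat_lit 5) (nat_lit 43) (nat_lit 5) (nat_lit 44) (nat_lit 5) (nat_lit 338) (nat_lit 275) (nat_lit 167)) (XT.nd (nat_lit 78) (nat_lit 0) (nat_lit 0) (XT.lf (nat_lit 0) (nat_lit 5021706707) (nat_lit 304) (nat_lit 12484995023) (nat_lit 76) (nat_lit 3769558258) (nat_lit 40) (nat_lit 5) (nat_lit 44) (nat_lit 5) (nat_lit 41) (nat_lit 5) (nat_lit 339) (nat_lit 275) (nat_lit 166)) (XT.lf (nat_lit 0) (nat_lit 7975205236) (nat_lit 304) (nat_lit 4823053207) (nat_lit 76) (nat_lit 8947345268) (nat_lit 40) (nat_lit 5) (nat_lit 44) (nat_lit 5) (nat_lit 41) (nat_lit 5) (nat_lit 340) (nat_lit 275) (nat_lit 165)))) (XT.nd (nat_lit 78)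 (nat_lit 0) (nat_lit 0) (XT.lf (nat_lit 0) (nat_lit 3112651118) (nat_lit 228) (nat_lit 7923052097) (nat_lit 304) (nat_lit 11192792130) (nat_lit 37) (nat_lit 5) (nat_lit 40) (nat_lit 5) (nat_lit 41) (nat_lit 5) (nat_lit 341) (nat_lit 275) (nat_lit 164)) (XT.nd (nat_lit 78) (nat_lit 0) (nat_lit 0) (XT.lf (nat_lit 0) (nat_lit 11368624703) (nat_lit 228) (nat_lit 2856744073) (nat_lit 304) (nat_lit 8499403242) (nat_lit 37) (nat_lit 5) (nat_lit 40) (nat_lit 5) (nat_lit 41) (nat_lit 5) (nat_lit 342) (nat_lit 275) (nat_lit 163)) (XT.lf (nat_lit 0) (nat_lit 17522355225) (nat_lit 304) (nat_lit 3402843680) (nat_lit 76) (nat_lit 2310407479) (nat_lit 37) (nat_lit 5) (nat_lit 41) (nat_lit 5) (nat_lit 38) (nat_lit 5) (nat_lit 343) (nat_lit 275) (nat_lit 162))))) (XT.nd (nat_lit 234) (nat_lit 228) (nat_lit 0) (XT.nd (nat_lit 78) (nat_lit 76) (nat_lit 0) (XT.lf (nat_lit 0) (nat_lit 4839201329) (nat_lit 152) (nat_lit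 16143104542) (nat_lit 228) (nat_lit 2777556056) (nat_lit 35) (nat_lit 5) (nat_lit 37) (nat_lit 5) (nat_lit 38) (nat_lit 5) (nat_lit 344) (nat_lit 275) (nat_lit 161)) (XT.nd (nat_lit 78) (nat_lit 0) (nat_lit 0) (XT.lf (nat_lit 0) (nat_lit 265399325) (nat_lit 228) (nat_lit 10919334941) (nat_lit 76) (nat_lit 13114336818) (nat_lit 34) (nat_lit 5) (nat_lit 37) (nat_lit 5) (nat_lit 35) (nat_lit 5) (nat_lit 345) (nat_lit 275) (nat_lit 160)) (XT.lf (nat_lit 0) (nat_lit 3333420739) (nat_lit 228) (nat_lit 2721078200) (nat_lit 76) (nat_lit 18799460733) (nat_lit 34) (nat_lit 5) (nat_lit 37) (nat_lit 5) (nat_lit 35) (nat_lit 5) (nat_lit 346) (nat_lit 275) (nat_lit 159)))) (XT.nd (nat_lit 78) (nat_lit 0) (nat_lit 0) (XT.lf (nat_lit 0) (nat_lit 5821572566) (nat_lit 228) (nat_lit 717777053) (nat_lit 304) (nat_lit 18884785097) (nat_lit 31) (nat_lit 5) (nat_lit 34) (nat_lit 5) (nat_lit 35) (nat_lit 5) (nat_lit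 347) (nat_lit 275) (nat_lit 158)) (XT.nd (nat_lit 78) (nat_lit 0) (nat_lit 0) (XT.lf (nat_lit 0) (nat_lit 9905152504) (nat_lit 304) (nat_lit 11395789538) (nat_lit 76) (nat_lit 4708577425) (nat_lit 31) (nat_lit 5) (nat_lit 35) (nat_lit 5) (nat_lit 32) (nat_lit 5) (nat_lit 348) (nat_lit 275) (nat_lit 157)) (XT.lf (nat_lit 0) (nat_lit 13369334638) (nat_lit 304) (nat_lit 2964745666) (nat_lit 76) (nat_lit 10278478198) (nat_lit 31) (nat_lit 5) (nat_lit 35) (nat_lit 5) (nat_lit 32) (nat_lit 5) (nat_lit 349) (nat_lit 275) (nat_lit 156))))))))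
noncomputable def xc155 : XT := (XT.nd (nat_lit 1794) (nat_lit 608) (nat_lit 0) (XT.nd (nat_lit 858) (nat_lit 456) (nat_lit 0) (XT.nd (nat_lit 390) (nat_lit 304) (nat_lit 0) (XT.nd (nat_lit 156) (nat_lit 228) (nat_lit 0) (XT.nd (nat_lit 78) (nat_lit 0) (nat_lit 0) (XT.lf (nat_lit 0) (nat_lit 5818373531) (nat_lit 152) (nat_lit 11165579496) (nat_lit 228) (nat_lit 10248354819) (nat_lit 29) (nat_lit 5) (nat_lit 31) (nat_lit 5) (nat_lit 32) (nat_lit 5) (nat_lit 350) (nat_lit 275) (nat_lit 155)) (XT.lf (nat_lit 0) (nat_lit 14911508384) (nat_lit 152) (nat_lit 5816158068) (nat_lit 228) (nat_lit 7142377565) (nat_lit 29) (nat_lit 5) (nat_lit 31) (nat_lit 5) (nat_lit 32) (nat_lit 5) (nat_lit 351) (nat_lit 275) (nat_lit 154))) (XT.nd (nat_lit 78) (nat_lit 228) (nat_lit 0) (XT.lf (nat_lit 0) (nat_lit 24263600096) (nat_lit 152) (nat_lit 311079886) (nat_lit 228) (nat_lit 3952516260) (nat_lit 29) (nat_lit 5)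 (nat_lit 31) (nat_lit 5) (nat_lit 32) (nat_lit 5) (nat_lit 352) (nat_lit 275) (nat_lit 153)) (XT.nd (nat_lit 78) (nat_lit 76) (nat_lit 0) (XT.lf (nat_lit 0) (nat_lit 4719097864) (nat_lit 152) (nat_lit 23906090474) (nat_lit 228) (nat_lit 576245398) (nat_lit 27) (nat_lit 5) (nat_lit 29) (nat_lit 5) (nat_lit 30) (nat_lit 5) (nat_lit 353) (nat_lit 275) (nat_lit 152)) (XT.lf (nat_lit 0) (nat_lit 2882492524) (nat_lit 228) (nat_lit 15881047770) (nat_lit 76) (nat_lit 11130400040) (nat_lit 26) (nat_lit 5) (nat_lit 29) (nat_lit 5) (nat_lit 27) (nat_lit 5) (nat_lit 354) (nat_lit 275) (nat_lit 151))))) (XT.nd (nat_lit 234) (nat_lit 152) (nat_lit 0) (XT.nd (nat_lit 78) (nat_lit 152) (nat_lit 0) (XT.lf (nat_lit 0) (nat_lit 6424899727) (nat_lit 228) (nat_lit 7040744669) (nat_lit 76) (nat_lit 17141674009) (nat_lit 26) (nat_lit 5) (nat_lit 29) (nat_lit 5) (nat_lit 27) (nat_lit 5) (nat_lit 355) (nat_lit 275)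 (nat_lit 150)) (XT.nd (nat_lit 78) (nat_lit 0) (nat_lit 0) (XT.lf (nat_lit 0) (nat_lit 2092672771) (nat_lit 152) (nat_lit 7992759419) (nat_lit 228) (nat_lit 21256321796) (nat_lit 24) (nat_lit 5) (nat_lit 26) (nat_lit 5) (nat_lit 27) (nat_lit 5) (nat_lit 356) (nat_lit 275) (nat_lit 149)) (XT.lf (nat_lit 0) (nat_lit 11631617531) (nat_lit 152) (nat_lit 2287115402) (nat_lit 228) (nat_lit 18177612548) (nat_lit 24) (nat_lit 5) (nat_lit 26) (nat_lit 5) (nat_lit 27) (nat_lit 5) (nat_lit 357) (nat_lit 275) (nat_lit 148)))) (XT.nd (nat_lit 78) (nat_lit 152) (nat_lit 0) (XT.lf (nat_lit 0) (nat_lit 17893587430) (nat_lit 228) (nat_lit 11463985964) (nat_lit 76) (nat_lit 3515215768) (nat_lit 24) (nat_lit 5) (nat_lit 27) (nat_lit 5) (nat_lit 25) (nat_lit 5) (nat_lit 358) (nat_lit 275) (nat_lit 147)) (XT.nd (nat_lit 78) (nat_lit 152) (nat_lit 0) (XT.lf (nat_lit 0) (nat_lit 22002612232) (nat_lit 228) (nat_lit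 2228133905) (nat_lit 76) (nat_lit 9441343038) (nat_lit 24) (nat_lit 5) (nat_lit 27) (nat_lit 5) (nat_lit 25) (nat_lit 5) (nat_lit 359) (nat_lit 275) (nat_lit 146)) (XT.lf (nat_lit 0) (nat_lit 7417628184) (nat_lit 152) (nat_lit 18881087189) (nat_lit 228) (nat_lit 8194749034) (nat_lit 22) (nat_lit 5) (nat_lit 24) (nat_lit 5) (nat_lit 25) (nat_lit 5) (nat_lit 360) (nat_lit 275) (nat_lit 145)))))) (XT.nd (nat_lit 468) (nat_lit 228) (nat_lit 0) (XT.nd (nat_lit 234) (nat_lit 0) (nat_lit 0) (XT.nd (nat_lit 78) (nat_lit 228) (nat_lit 0) (XT.lf (nat_lit 0) (nat_lit 17386644290) (nat_lit 152) (nat_lit 13352166862) (nat_lit 228) (nat_lit 4600226601) (nat_lit 22) (nat_lit 5) (nat_lit 24) (nat_lit 5) (nat_lit 25) (nat_lit 5) (nat_lit 361) (nat_lit 275) (nat_lit 144)) (XT.nd (nat_lit 78) (nat_lit 228) (nat_lit 0) (XT.lf (nat_lit 0) (nat_lit 27643280968) (nat_lit 152) (nat_lit 7661653843) (nat_lit 228) (nat_lit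 905268586) (nat_lit 22) (nat_lit 5) (nat_lit 24) (nat_lit 5) (nat_lit 25) (nat_lit 5) (nat_lit 362) (nat_lit 275) (nat_lit 143)) (XT.lf (nat_lit 0) (nat_lit 1082080376) (nat_lit 152) (nat_lit 1765215108) (nat_lit 228) (nat_lit 34259280639) (nat_lit 19) (nat_lit 5) (nat_lit 21) (nat_lit 5) (nat_lit 22) (nat_lit 5) (nat_lit 363) (nat_lit 275) (nat_lit 142)))) (XT.nd (nat_lit 78) (nat_lit 0) (nat_lit 0) (XT.lf (nat_lit 0) (nat_lit 6816032500) (nat_lit 228) (nat_lit 26893642206) (nat_lit 76) (nat_lit 4316251714) (nat_lit 19) (nat_lit 5) (nat_lit 22) (nat_lit 5) (nat_lit 20) (nat_lit 5) (nat_lit 364) (nat_lit 275) (nat_lit 141)) (XT.nd (nat_lit 78) (nat_lit 0) (nat_lit 0) (XT.lf (nat_lit 0) (nat_lit 10914525631) (nat_lit 228) (nat_lit 17517342757) (nat_lit 76) (nat_lit 10540676766) (nat_lit 19) (nat_lit 5) (nat_lit 22) (nat_lit 5) (nat_lit 20) (nat_lit 5) (nat_lit 365) (nat_lit 275) (nat_lit 140))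 (XT.lf (nat_lit 0) (nat_lit 15129387758) (nat_lit 228) (nat_lit 7870436190) (nat_lit 76) (nat_lit 16947944572) (nat_lit 19) (nat_lit 5) (nat_lit 22) (nat_lit 5) (nat_lit 20) (nat_lit 5) (nat_lit 366) (nat_lit 275) (nat_lit 139))))) (XT.nd (nat_lit 234) (nat_lit 76) (nat_lit 0) (XT.nd (nat_lit 78) (nat_lit 0) (nat_lit 0) (XT.lf (nat_lit 0) (nat_lit 2096415445) (nat_lit 152) (nat_lit 17388038351) (nat_lit 228) (nat_lit 21467390296) (nat_lit 17) (nat_lit 5) (nat_lit 19) (nat_lit 5) (nat_lit 20) (nat_lit 5) (nat_lit 367) (nat_lit 275) (nat_lit 138)) (XT.nd (nat_lit 78) (nat_lit 0) (nat_lit 0) (XT.lf (nat_lit 0) (nat_lit 12513339787) (nat_lit 152) (nat_lit 11530001543) (nat_lit 228) (nat_lit 17940513523) (nat_lit 17) (nat_lit 5) (nat_lit 19) (nat_lit 5) (nat_lit 20) (nat_lit 5) (nat_lit 368) (nat_lit 275) (nat_lit 137)) (XT.lf (nat_lit 0) (nat_lit 23232801889) (nat_lit 152) (nat_lit 5500070825) (nat_lit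 228) (nat_lit 14314144681) (nat_lit 17) (nat_lit 5) (nat_lit 19) (nat_lit 5) (nat_lit 20) (nat_lit 5) (nat_lit 369) (nat_lit 275) (nat_lit 136)))) (XT.nd (nat_lit 78) (nat_lit 76) (nat_lit 0) (XT.lf (nat_lit 0) (nat_lit 33563941931) (nat_lit 228) (nat_lit 9884888757) (nat_lit 76) (nat_lit 693226115) (nat_lit 17) (nat_lit 5) (nat_lit 20) (nat_lit 5) (nat_lit 18) (nat_lit 4) (nat_lit 370) (nat_lit 275) (nat_lit 135)) (XT.nd (nat_lit 78) (nat_lit 0) (nat_lit 0) (XT.lf (nat_lit 0) (nat_lit 283857468) (nat_lit 76) (nat_lit 38307464352) (nat_lit 152) (nat_lit 6677091542) (nat_lit 16) (nat_lit 5) (nat_lit 17) (nat_lit 5) (nat_lit 18) (nat_lit 4) (nat_lit 371) (nat_lit 275) (nat_lit 134)) (XT.lf (nat_lit 0) (nat_lit 10950846909) (nat_lit 76) (nat_lit 32912766304) (nat_lit 152) (nat_lit 2562131817) (nat_lit 16) (nat_lit 5) (nat_lit 17) (nat_lit 5) (nat_lit 18) (nat_lit 4) (nat_lit 372) (nat_lit 275)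 (nat_lit 133))))))) (XT.nd (nat_lit 858) (nat_lit 304) (nat_lit 0) (XT.nd (nat_lit 390) (nat_lit 76) (nat_lit 0) (XT.nd (nat_lit 156) (nat_lit 152) (nat_lit 0) (XT.nd (nat_lit 78) (nat_lit 0) (nat_lit 0) (XT.lf (nat_lit 0) (nat_lit 1637943616) (nat_lit 152) (nat_lit 25705357090) (nat_lit 76) (nat_lit 20274187931) (nat_lit 15) (nat_lit 5) (nat_lit 17) (nat_lit 5) (nat_lit 16) (nat_lit 5) (nat_lit 373) (nat_lit 275) (nat_lit 132)) (XT.lf (nat_lit 0) (nat_lit 5907065886) (nat_lit 152) (nat_lit 15677119876) (nat_lit 76) (nat_lit 27260208047) (nat_lit 15) (nat_lit 5) (nat_lit 17) (nat_lit 5) (nat_lit 16) (nat_lit 5) (nat_lit 374) (nat_lit 275) (nat_lit 131))) (XT.nd (nat_lit 78) (nat_lit 152) (nat_lit 0) (XT.lf (nat_lit 0) (nat_lit 10298961713) (nat_lit 152) (nat_lit 5356795162) (nat_lit 76) (nat_lit 34452514583) (nat_lit 15) (nat_lit 5) (nat_lit 17) (nat_lit 5) (nat_lit 16) (nat_lit 5) (nat_lit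 375) (nat_lit 275) (nat_lit 130)) (XT.nd (nat_lit 78) (nat_lit 0) (nat_lit 0) (XT.lf (nat_lit 0) (nat_lit 5369411364) (nat_lit 152) (nat_lit 9499671378) (nat_lit 228) (nat_lit 36539594783) (nat_lit 13) (nat_lit 5) (nat_lit 15) (nat_lit 5) (nat_lit 16) (nat_lit 5) (nat_lit 376) (nat_lit 275) (nat_lit 129)) (XT.lf (nat_lit 0) (nat_lit 16518792031) (nat_lit 152) (nat_lit 3106531688) (nat_lit 228) (nat_lit 33121307523) (nat_lit 13) (nat_lit 5) (nat_lit 15) (nat_lit 5) (nat_lit 16) (nat_lit 5) (nat_lit 377) (nat_lit 275) (nat_lit 128))))) (XT.nd (nat_lit 234) (nat_lit 76) (nat_lit 0) (XT.nd (nat_lit 78) (nat_lit 0) (nat_lit 0) (XT.lf (nat_lit 0) (nat_lit 24552728300) (nat_lit 228) (nat_lit 26163804255) (nat_lit 76) (nat_lit 3407342507) (nat_lit 13) (nat_lit 5) (nat_lit 16) (nat_lit 5) (nat_lit 14) (nat_lit 4) (nat_lit 378) (nat_lit 275) (nat_lit 127)) (XT.nd (nat_lit 78) (nat_lit 0) (nat_lit 0) (XT.lf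 (nat_lit 0) (nat_lit 29653897075) (nat_lit 228) (nat_lit 15836662565) (nat_lit 76) (nat_lit 10051103914) (nat_lit 13) (nat_lit 5) (nat_lit 16) (nat_lit 5) (nat_lit 14) (nat_lit 4) (nat_lit 379) (nat_lit 275) (nat_lit 126)) (XT.lf (nat_lit 0) (nat_lit 34903425491) (nat_lit 228) (nat_lit 5207528542) (nat_lit 76) (nat_lit 16891177381) (nat_lit 13) (nat_lit 5) (nat_lit 16) (nat_lit 5) (nat_lit 14) (nat_lit 4) (nat_lit 380) (nat_lit 275) (nat_lit 125)))) (XT.nd (nat_lit 78) (nat_lit 0) (nat_lit 0) (XT.lf (nat_lit 0) (nat_lit 5846981066) (nat_lit 76) (nat_lit 34515124208) (nat_lit 152) (nat_lit 18142763364) (nat_lit 12) (nat_lit 5) (nat_lit 13) (nat_lit 5) (nat_lit 14) (nat_lit 4) (nat_lit 381) (nat_lit 275) (nat_lit 124)) (XT.nd (nat_lit 78) (nat_lit 0) (nat_lit 0) (XT.lf (nat_lit 0) (nat_lit 17332355551) (nat_lit 76) (nat_lit 28700296412) (nat_lit 152) (nat_lit 14018597961) (nat_lit 12) (nat_lit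 5) (nat_lit 13) (nat_lit 5) (nat_lit 14) (nat_lit 4) (nat_lit 382) (nat_lit 275) (nat_lit 123)) (XT.lf (nat_lit 0) (nat_lit 29154990646) (nat_lit 76) (nat_lit 22713975555) (nat_lit 152) (nat_lit 9775191901) (nat_lit 12) (nat_lit 5) (nat_lit 13) (nat_lit 5) (nat_lit 14) (nat_lit 4) (nat_lit 383) (nat_lit 275) (nat_lit 122)))))) (XT.nd (nat_lit 468) (nat_lit 76) (nat_lit 0) (XT.nd (nat_lit 234) (nat_lit 152) (nat_lit 0) (XT.nd (nat_lit 78) (nat_lit 76) (nat_lit 0) (XT.lf (nat_lit 0) (nat_lit 41325216809) (nat_lit 76) (nat_lit 16550930872) (nat_lit 152) (nat_lit 5408837355) (nat_lit 12) (nat_lit 5) (nat_lit 13) (nat_lit 5) (nat_lit 14) (nat_lit 4) (nat_lit 384) (nat_lit 275) (nat_lit 121)) (XT.nd (nat_lit 78) (nat_lit 76) (nat_lit 0) (XT.lf (nat_lit 0) (nat_lit 53853668219) (nat_lit 76) (nat_lit 10205777177) (nat_lit 152) (nat_lit 915719062) (nat_lit 12) (nat_lit 5) (nat_lit 13) (nat_lit 5) (nat_lit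 14) (nat_lit 4) (nat_lit 385) (nat_lit 275) (nat_lit 120)) (XT.lf (nat_lit 0) (nat_lit 3635730832) (nat_lit 152) (nat_lit 525578) (nat_lit 76) (nat_lit 63078847480) (nat_lit 11) (nat_lit 5) (nat_lit 13) (nat_lit 5) (nat_lit 12) (nat_lit 5) (nat_lit 386) (nat_lit 275) (nat_lit 119)))) (XT.nd (nat_lit 78) (nat_lit 0) (nat_lit 0) (XT.lf (nat_lit 0) (nat_lit 8444819566) (nat_lit 228) (nat_lit 56868905609) (nat_lit 76) (nat_lit 3189063627) (nat_lit 9) (nat_lit 5) (nat_lit 12) (nat_lit 5) (nat_lit 10) (nat_lit 4) (nat_lit 387) (nat_lit 275) (nat_lit 118)) (XT.nd (nat_lit 78) (nat_lit 0) (nat_lit 0) (XT.lf (nat_lit 0) (nat_lit 13430308156) (nat_lit 228) (nat_lit 46769370228) (nat_lit 76) (nat_lit 10143466240) (nat_lit 9) (nat_lit 5) (nat_lit 12) (nat_lit 5) (nat_lit 10) (nat_lit 4) (nat_lit 388) (nat_lit 275) (nat_lit 117)) (XT.lf (nat_lit 0) (nat_lit 18561593730) (nat_lit 228) (nat_lit 36373255132)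 (nat_lit 76) (nat_lit 17303979347) (nat_lit 9) (nat_lit 5) (nat_lit 12) (nat_lit 5) (nat_lit 10) (nat_lit 4) (nat_lit 389) (nat_lit 275) (nat_lit 116))))) (XT.nd (nat_lit 234) (nat_lit 76) (nat_lit 0) (XT.nd (nat_lit 78) (nat_lit 0) (nat_lit 0) (XT.lf (nat_lit 0) (nat_lit 23843159935) (nat_lit 228) (nat_lit 25671476336) (nat_lit 76) (nat_lit 24676859706) (nat_lit 9) (nat_lit 5) (nat_lit 12) (nat_lit 5) (nat_lit 10) (nat_lit 4) (nat_lit 390) (nat_lit 275) (nat_lit 115)) (XT.nd (nat_lit 78) (nat_lit 0) (nat_lit 0) (XT.lf (nat_lit 0) (nat_lit 29279621732) (nat_lit 228) (nat_lit 14654682772) (nat_lit 76) (nat_lit 32268549641) (nat_lit 9) (nat_lit 5) (nat_lit 12) (nat_lit 5) (nat_lit 10) (nat_lit 4) (nat_lit 391) (nat_lit 275) (nat_lit 114)) (XT.lf (nat_lit 0) (nat_lit 34875729428) (nat_lit 228) (nat_lit 3313248116) (nat_lit 76) (nat_lit 40085682667) (nat_lit 9) (nat_lit 5) (nat_lit 12) (nat_lit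 5) (nat_lit 10) (nat_lit 4) (nat_lit 392) (nat_lit 275) (nat_lit 113)))) (XT.nd (nat_lit 31512) (nat_lit 0) (nat_lit 13984) (XT.lf (nat_lit 0) (nat_lit 8529172500) (nat_lit 76) (nat_lit 32189187948) (nat_lit 152) (nat_lit 39687904411) (nat_lit 8) (nat_lit 5) (nat_lit 9) (nat_lit 5) (nat_lit 10) (nat_lit 4) (nat_lit 393) (nat_lit 275) (nat_lit 112)) (XT.nd (nat_lit 78) (nat_lit 0) (nat_lit 0) (XT.lf (nat_lit 0) (nat_lit 979380737) (nat_lit 836) (nat_lit 1404398052) (nat_lit 836) (nat_lit 1404398052) (nat_lit 192) (nat_lit 3) (nat_lit 203) (nat_lit 3) (nat_lit 203) (nat_lit 5) (nat_lit 276) (nat_lit 276) (nat_lit 228)) (XT.lf (nat_lit 76) (nat_lit 366582433) (nat_lit 0) (nat_lit 2874729330) (nat_lit 836) (nat_lit 4407030882) (nat_lit 193) (nat_lit 5) (nat_lit 192) (nat_lit 3) (nat_lit 203) (nat_lit 5) (nat_lit 277) (nat_lit 276) (nat_lit 227))))))))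
noncomputable def xc156 : XT := (XT.nd (nat_lit 1716) (nat_lit 5092) (nat_lit 0) (XT.nd (nat_lit 858) (nat_lit 2888) (nat_lit 0) (XT.nd (nat_lit 390) (nat_lit 760) (nat_lit 0) (XT.nd (nat_lit 156) (nat_lit 760) (nat_lit 0) (XT.nd (nat_lit 78) (nat_lit 0) (nat_lit 76) (XT.lf (nat_lit 76) (nat_lit 3669102568) (nat_lit 0) (nat_lit 872582154) (nat_lit 836) (nat_lit 3181584667) (nat_lit 193) (nat_lit 5) (nat_lit 192) (nat_lit 3) (nat_lit 203) (nat_lit 5) (nat_lit 278) (nat_lit 276) (nat_lit 226)) (XT.lf (nat_lit 0) (nat_lit 5845132467) (nat_lit 760) (nat_lit 767929139) (nat_lit 836) (nat_lit 1188614306) (nat_lit 193) (nat_lit 5) (nat_lit 203) (nat_lit 5) (nat_lit 204) (nat_lit 5) (nat_lit 279) (nat_lit 276) (nat_lit 225))) (XT.nd (nat_lit 78) (nat_lit 836) (nat_lit 0) (XT.lf (nat_lit 76) (nat_lit 2633679830) (nat_lit 0) (nat_lit 4541967694) (nat_lit 836) (nat_lit 707297592) (nat_lit 194) (nat_lit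 5) (nat_lit 193) (nat_lit 5) (nat_lit 204) (nat_lit 5) (nat_lit 280) (nat_lit 276) (nat_lit 224)) (XT.nd (nat_lit 78) (nat_lit 0) (nat_lit 0) (XT.lf (nat_lit 0) (nat_lit 530463846) (nat_lit 836) (nat_lit 1845747958) (nat_lit 912) (nat_lit 5591543977) (nat_lit 182) (nat_lit 5) (nat_lit 193) (nat_lit 5) (nat_lit 194) (nat_lit 5) (nat_lit 281) (nat_lit 276) (nat_lit 223)) (XT.lf (nat_lit 76) (nat_lit 1659269201) (nat_lit 0) (nat_lit 103661237) (nat_lit 912) (nat_lit 6292953314) (nat_lit 183) (nat_lit 5) (nat_lit 182) (nat_lit 5) (nat_lit 194) (nat_lit 5) (nat_lit 282) (nat_lit 276) (nat_lit 222))))) (XT.nd (nat_lit 234) (nat_lit 836) (nat_lit 0) (XT.nd (nat_lit 78) (nat_lit 0) (nat_lit 0) (XT.lf (nat_lit 0) (nat_lit 3029742620) (nat_lit 836) (nat_lit 2887832084) (nat_lit 912) (nat_lit 2229292453) (nat_lit 183) (nat_lit 5) (nat_lit 194) (nat_lit 5) (nat_lit 195) (nat_lit 5) (nat_lit 283) (nat_lit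 276) (nat_lit 221)) (XT.nd (nat_lit 78) (nat_lit 0) (nat_lit 0) (XT.lf (nat_lit 76) (nat_lit 712568016) (nat_lit 0) (nat_lit 3588162838) (nat_lit 912) (nat_lit 3940992936) (nat_lit 184) (nat_lit 5) (nat_lit 183) (nat_lit 5) (nat_lit 195) (nat_lit 5) (nat_lit 284) (nat_lit 276) (nat_lit 220)) (XT.lf (nat_lit 76) (nat_lit 4453913627) (nat_lit 0) (nat_lit 1144354468) (nat_lit 912) (nat_lit 2741630565) (nat_lit 184) (nat_lit 5) (nat_lit 183) (nat_lit 5) (nat_lit 195) (nat_lit 5) (nat_lit 285) (nat_lit 276) (nat_lit 219)))) (XT.nd (nat_lit 78) (nat_lit 912) (nat_lit 0) (XT.lf (nat_lit 0) (nat_lit 6908507041) (nat_lit 836) (nat_lit 173657558) (nat_lit 912) (nat_lit 1359762389) (nat_lit 184) (nat_lit 5) (nat_lit 195) (nat_lit 5) (nat_lit 196) (nat_lit 5) (nat_lit 286) (nat_lit 276) (nat_lit 218)) (XT.nd (nat_lit 78) (nat_lit 912) (nat_lit 0) (XT.lf (nat_lit 76) (nat_lit 3684448597) (nat_lit 0) (nat_lit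 4582079835) (nat_lit 912) (nat_lit 280351413) (nat_lit 185) (nat_lit 5) (nat_lit 184) (nat_lit 5) (nat_lit 196) (nat_lit 5) (nat_lit 287) (nat_lit 276) (nat_lit 217)) (XT.lf (nat_lit 0) (nat_lit 954476344) (nat_lit 912) (nat_lit 1029566557) (nat_lit 988) (nat_lit 6671841747) (nat_lit 172) (nat_lit 5) (nat_lit 184) (nat_lit 5) (nat_lit 185) (nat_lit 5) (nat_lit 288) (nat_lit 276) (nat_lit 216)))))) (XT.nd (nat_lit 390) (nat_lit 2128) (nat_lit 0) (XT.nd (nat_lit 156) (nat_lit 836) (nat_lit 0) (XT.nd (nat_lit 78) (nat_lit 0) (nat_lit 0) (XT.lf (nat_lit 0) (nat_lit 2219320400) (nat_lit 912) (nat_lit 5828472514) (nat_lit 988) (nat_lit 720433152) (nat_lit 173) (nat_lit 5) (nat_lit 185) (nat_lit 5) (nat_lit 186) (nat_lit 5) (nat_lit 289) (nat_lit 276) (nat_lit 215)) (XT.lf (nat_lit 0) (nat_lit 3516390244) (nat_lit 912) (nat_lit 1881128511) (nat_lit 988) (nat_lit 3486695346) (nat_lit 173) (nat_lit 5)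 (nat_lit 185) (nat_lit 5) (nat_lit 186) (nat_lit 5) (nat_lit 290) (nat_lit 276) (nat_lit 214))) (XT.nd (nat_lit 78) (nat_lit 836) (nat_lit 0) (XT.lf (nat_lit 76) (nat_lit 2201365065) (nat_lit 0) (nat_lit 2637349479) (nat_lit 988) (nat_lit 4165478697) (nat_lit 174) (nat_lit 5) (nat_lit 173) (nat_lit 5) (nat_lit 186) (nat_lit 5) (nat_lit 291) (nat_lit 276) (nat_lit 213)) (XT.nd (nat_lit 78) (nat_lit 912) (nat_lit 0) (XT.lf (nat_lit 0) (nat_lit 6187892639) (nat_lit 912) (nat_lit 2711640091) (nat_lit 76) (nat_lit 228722274) (nat_lit 174) (nat_lit 5) (nat_lit 186) (nat_lit 5) (nat_lit 175) (nat_lit 5) (nat_lit 292) (nat_lit 276) (nat_lit 212)) (XT.lf (nat_lit 0) (nat_lit 1478648046) (nat_lit 912) (nat_lit 6106237363) (nat_lit 988) (nat_lit 1671028928) (nat_lit 162) (nat_lit 5) (nat_lit 174) (nat_lit 5) (nat_lit 175) (nat_lit 5) (nat_lit 293) (nat_lit 276) (nat_lit 211))))) (XT.nd (nat_lit 234) (nat_lit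 1064) (nat_lit 0) (XT.nd (nat_lit 78) (nat_lit 1064) (nat_lit 0) (XT.lf (nat_lit 0) (nat_lit 5824112420) (nat_lit 912) (nat_lit 3194780792) (nat_lit 988) (nat_lit 368750182) (nat_lit 162) (nat_lit 5) (nat_lit 174) (nat_lit 5) (nat_lit 175) (nat_lit 5) (nat_lit 294) (nat_lit 276) (nat_lit 210)) (XT.nd (nat_lit 78) (nat_lit 0) (nat_lit 0) (XT.lf (nat_lit 0) (nat_lit 755941340) (nat_lit 988) (nat_lit 173207504) (nat_lit 1064) (nat_lit 8594716837) (nat_lit 148) (nat_lit 5) (nat_lit 161) (nat_lit 5) (nat_lit 162) (nat_lit 5) (nat_lit 295) (nat_lit 276) (nat_lit 209)) (XT.lf (nat_lit 0) (nat_lit 2292156581) (nat_lit 1064) (nat_lit 4444195939) (nat_lit 76) (nat_lit 2926790290) (nat_lit 148) (nat_lit 5) (nat_lit 162) (nat_lit 5) (nat_lit 149) (nat_lit 5) (nat_lit 296) (nat_lit 276) (nat_lit 208)))) (XT.nd (nat_lit 78) (nat_lit 1064) (nat_lit 0) (XT.lf (nat_lit 0) (nat_lit 3667663362) (nat_lit 1064)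 (nat_lit 18576137) (nat_lit 76) (nat_lit 6121293211) (nat_lit 148) (nat_lit 5) (nat_lit 162) (nat_lit 5) (nat_lit 149) (nat_lit 5) (nat_lit 297) (nat_lit 276) (nat_lit 207)) (XT.nd (nat_lit 78) (nat_lit 0) (nat_lit 0) (XT.lf (nat_lit 0) (nat_lit 4604313833) (nat_lit 1064) (nat_lit 495151757) (nat_lit 1140) (nat_lit 4856418120) (nat_lit 134) (nat_lit 5) (nat_lit 148) (nat_lit 5) (nat_lit 149) (nat_lit 5) (nat_lit 298) (nat_lit 276) (nat_lit 206)) (XT.lf (nat_lit 0) (nat_lit 6572661268) (nat_lit 1140) (nat_lit 795312495) (nat_lit 76) (nat_lit 2740836267) (nat_lit 134) (nat_lit 5) (nat_lit 149) (nat_lit 5) (nat_lit 135) (nat_lit 5) (nat_lit 299) (nat_lit 276) (nat_lit 205))))))) (XT.nd (nat_lit 858) (nat_lit 2356) (nat_lit 0) (XT.nd (nat_lit 390) (nat_lit 988) (nat_lit 0) (XT.nd (nat_lit 156) (nat_lit 1140) (nat_lit 0) (XT.nd (nat_lit 78) (nat_lit 0) (nat_lit 0) (XT.lf (nat_lit 0) (nat_lit 3944391542)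 (nat_lit 608) (nat_lit 4160726967) (nat_lit 684) (nat_lit 2160829360) (nat_lit 126) (nat_lit 5) (nat_lit 134) (nat_lit 5) (nat_lit 135) (nat_lit 5) (nat_lit 300) (nat_lit 276) (nat_lit 204)) (XT.lf (nat_lit 0) (nat_lit 8817530085) (nat_lit 608) (nat_lit 846865219) (nat_lit 684) (nat_lit 764052661) (nat_lit 126) (nat_lit 5) (nat_lit 134) (nat_lit 5) (nat_lit 135) (nat_lit 5) (nat_lit 301) (nat_lit 276) (nat_lit 203))) (XT.nd (nat_lit 78) (nat_lit 532) (nat_lit 0) (XT.lf (nat_lit 0) (nat_lit 691268015) (nat_lit 608) (nat_lit 7347116862) (nat_lit 76) (nat_lit 2556418763) (nat_lit 118) (nat_lit 5) (nat_lit 126) (nat_lit 5) (nat_lit 119) (nat_lit 5) (nat_lit 302) (nat_lit 276) (nat_lit 202)) (XT.nd (nat_lit 78) (nat_lit 532) (nat_lit 0) (XT.lf (nat_lit 0) (nat_lit 2173535324) (nat_lit 608) (nat_lit 2522254636) (nat_lit 76) (nat_lit 6070241027) (nat_lit 118) (nat_lit 5) (nat_lit 126) (nat_lit 5) (nat_lit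 119) (nat_lit 5) (nat_lit 303) (nat_lit 276) (nat_lit 201)) (XT.lf (nat_lit 0) (nat_lit 2470757379) (nat_lit 532) (nat_lit 1227856653) (nat_lit 608) (nat_lit 7243896120) (nat_lit 111) (nat_lit 5) (nat_lit 118) (nat_lit 5) (nat_lit 119) (nat_lit 5) (nat_lit 304) (nat_lit 276) (nat_lit 200))))) (XT.nd (nat_lit 234) (nat_lit 532) (nat_lit 0) (XT.nd (nat_lit 78) (nat_lit 456) (nat_lit 0) (XT.lf (nat_lit 0) (nat_lit 5292800221) (nat_lit 608) (nat_lit 3506421293) (nat_lit 76) (nat_lit 2324424923) (nat_lit 111) (nat_lit 5) (nat_lit 119) (nat_lit 5) (nat_lit 112) (nat_lit 5) (nat_lit 305) (nat_lit 276) (nat_lit 199)) (XT.nd (nat_lit 78) (nat_lit 0) (nat_lit 0) (XT.lf (nat_lit 0) (nat_lit 1602339822) (nat_lit 456) (nat_lit 5335857134) (nat_lit 532) (nat_lit 4371979856) (nat_lit 105) (nat_lit 5) (nat_lit 111) (nat_lit 5) (nat_lit 112) (nat_lit 5) (nat_lit 306) (nat_lit 276) (nat_lit 198)) (XT.lf (nat_lit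 0) (nat_lit 6911842812) (nat_lit 456) (nat_lit 1732815635) (nat_lit 532) (nat_lit 2857353326) (nat_lit 105) (nat_lit 5) (nat_lit 111) (nat_lit 5) (nat_lit 112) (nat_lit 5) (nat_lit 307) (nat_lit 276) (nat_lit 197)))) (XT.nd (nat_lit 78) (nat_lit 76) (nat_lit 0) (XT.lf (nat_lit 0) (nat_lit 650270956) (nat_lit 456) (nat_lit 9754289258) (nat_lit 532) (nat_lit 1295032194) (nat_lit 99) (nat_lit 5) (nat_lit 105) (nat_lit 5) (nat_lit 106) (nat_lit 5) (nat_lit 308) (nat_lit 276) (nat_lit 196)) (XT.nd (nat_lit 78) (nat_lit 0) (nat_lit 0) (XT.lf (nat_lit 0) (nat_lit 349133422) (nat_lit 532) (nat_lit 5805027934) (nat_lit 76) (nat_lit 5747670040) (nat_lit 98) (nat_lit 5) (nat_lit 105) (nat_lit 5) (nat_lit 99) (nat_lit 5) (nat_lit 309) (nat_lit 276) (nat_lit 195)) (XT.lf (nat_lit 0) (nat_lit 1994399018) (nat_lit 532) (nat_lit 440208932) (nat_lit 76) (nat_lit 9675863920) (nat_lit 98) (nat_lit 5) (nat_lit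 105) (nat_lit 5) (nat_lit 99) (nat_lit 5) (nat_lit 310) (nat_lit 276) (nat_lit 194)))))) (XT.nd (nat_lit 468) (nat_lit 1140) (nat_lit 0) (XT.nd (nat_lit 234) (nat_lit 380) (nat_lit 0) (XT.nd (nat_lit 78) (nat_lit 456) (nat_lit 0) (XT.lf (nat_lit 0) (nat_lit 3731002112) (nat_lit 456) (nat_lit 7175458703) (nat_lit 76) (nat_lit 1417702906) (nat_lit 93) (nat_lit 5) (nat_lit 99) (nat_lit 5) (nat_lit 94) (nat_lit 5) (nat_lit 311) (nat_lit 276) (nat_lit 193)) (XT.nd (nat_lit 78) (nat_lit 456) (nat_lit 0) (XT.lf (nat_lit 0) (nat_lit 5527135628) (nat_lit 456) (nat_lit 1677692234) (nat_lit 76) (nat_lit 5339265542) (nat_lit 93) (nat_lit 5) (nat_lit 99) (nat_lit 5) (nat_lit 94) (nat_lit 5) (nat_lit 312) (nat_lit 276) (nat_lit 192)) (XT.lf (nat_lit 0) (nat_lit 4040828776) (nat_lit 456) (nat_lit 3354621699) (nat_lit 532) (nat_lit 5374670172) (nat_lit 87) (nat_lit 5) (nat_lit 93) (nat_lit 5) (nat_lit 94) (nat_lit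 5) (nat_lit 313) (nat_lit 276) (nat_lit 191)))) (XT.nd (nat_lit 78) (nat_lit 380) (nat_lit 0) (XT.lf (nat_lit 0) (nat_lit 9322606354) (nat_lit 532) (nat_lit 3066596524) (nat_lit 76) (nat_lit 613689257) (nat_lit 87) (nat_lit 5) (nat_lit 94) (nat_lit 5) (nat_lit 88) (nat_lit 5) (nat_lit 314) (nat_lit 276) (nat_lit 190)) (XT.nd (nat_lit 78) (nat_lit 0) (nat_lit 0) (XT.lf (nat_lit 0) (nat_lit 2763952105) (nat_lit 380) (nat_lit 8583804054) (nat_lit 456) (nat_lit 1893731030) (nat_lit 82) (nat_lit 5) (nat_lit 87) (nat_lit 5) (nat_lit 88) (nat_lit 5) (nat_lit 315) (nat_lit 276) (nat_lit 189)) (XT.lf (nat_lit 0) (nat_lit 8809754274) (nat_lit 380) (nat_lit 4635623627) (nat_lit 456) (nat_lit 41555137) (nat_lit 82) (nat_lit 5) (nat_lit 87) (nat_lit 5) (nat_lit 88) (nat_lit 5) (nat_lit 316) (nat_lit 276) (nat_lit 188))))) (XT.nd (nat_lit 234) (nat_lit 684) (nat_lit 0) (XT.nd (nat_lit 78) (nat_lit 0) (nat_lit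 0) (XT.lf (nat_lit 0) (nat_lit 1281977882) (nat_lit 380) (nat_lit 541199416) (nat_lit 456) (nat_lit 11916266493) (nat_lit 76) (nat_lit 5) (nat_lit 81) (nat_lit 5) (nat_lit 82) (nat_lit 5) (nat_lit 317) (nat_lit 276) (nat_lit 187)) (XT.nd (nat_lit 78) (nat_lit 0) (nat_lit 0) (XT.lf (nat_lit 0) (nat_lit 3807440331) (nat_lit 456) (nat_lit 6541175106) (nat_lit 76) (nat_lit 3649010063) (nat_lit 76) (nat_lit 5) (nat_lit 82) (nat_lit 5) (nat_lit 77) (nat_lit 5) (nat_lit 318) (nat_lit 276) (nat_lit 186)) (XT.lf (nat_lit 0) (nat_lit 5838521086) (nat_lit 456) (nat_lit 474728146) (nat_lit 76) (nat_lit 7950724242) (nat_lit 76) (nat_lit 5) (nat_lit 82) (nat_lit 5) (nat_lit 77) (nat_lit 5) (nat_lit 319) (nat_lit 276) (nat_lit 185)))) (XT.nd (nat_lit 78) (nat_lit 380) (nat_lit 0) (XT.lf (nat_lit 0) (nat_lit 5866861694) (nat_lit 304) (nat_lit 2102526123) (nat_lit 380) (nat_lit 6567796818) (nat_lit 72) (nat_lit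 5) (nat_lit 76) (nat_lit 5) (nat_lit 77) (nat_lit 5) (nat_lit 320) (nat_lit 276) (nat_lit 184)) (XT.nd (nat_lit 78) (nat_lit 380) (nat_lit 0) (XT.lf (nat_lit 0) (nat_lit 10173229567) (nat_lit 380) (nat_lit 2453186500) (nat_lit 76) (nat_lit 2191941835) (nat_lit 72) (nat_lit 5) (nat_lit 77) (nat_lit 5) (nat_lit 73) (nat_lit 5) (nat_lit 321) (nat_lit 276) (nat_lit 183)) (XT.lf (nat_lit 0) (nat_lit 3986424949) (nat_lit 380) (nat_lit 8499129895) (nat_lit 456) (nat_lit 2621176630) (nat_lit 67) (nat_lit 5) (nat_lit 72) (nat_lit 5) (nat_lit 73) (nat_lit 5) (nat_lit 322) (nat_lit 276) (nat_lit 182))))))))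
noncomputable def xc157 : XT := (XT.nd (nat_lit 1716) (nat_lit 1368) (nat_lit 0) (XT.nd (nat_lit 858) (nat_lit 988) (nat_lit 0) (XT.nd (nat_lit 390) (nat_lit 608) (nat_lit 0) (XT.nd (nat_lit 156) (nat_lit 304) (nat_lit 0) (XT.nd (nat_lit 78) (nat_lit 380) (nat_lit 0) (XT.lf (nat_lit 0) (nat_lit 10648707152) (nat_lit 380) (nat_lit 4226834746) (nat_lit 456) (nat_lit 528000695) (nat_lit 67) (nat_lit 5) (nat_lit 72) (nat_lit 5) (nat_lit 73) (nat_lit 5) (nat_lit 323) (nat_lit 276) (nat_lit 181)) (XT.lf (nat_lit 0) (nat_lit 1599271973) (nat_lit 380) (nat_lit 13910210896) (nat_lit 76) (nat_lit 199246723) (nat_lit 62) (nat_lit 5) (nat_lit 67) (nat_lit 5) (nat_lit 63) (nat_lit 5) (nat_lit 324) (nat_lit 276) (nat_lit 180))) (XT.nd (nat_lit 78) (nat_lit 304) (nat_lit 0) (XT.lf (nat_lit 0) (nat_lit 3854131424) (nat_lit 380) (nat_lit 7444062114) (nat_lit 76) (nat_lit 4722522526) (nat_lit 62) (nat_lit 5)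 (nat_lit 67) (nat_lit 5) (nat_lit 63) (nat_lit 5) (nat_lit 325) (nat_lit 276) (nat_lit 179)) (XT.nd (nat_lit 78) (nat_lit 304) (nat_lit 0) (XT.lf (nat_lit 0) (nat_lit 6161142618) (nat_lit 380) (nat_lit 804142757) (nat_lit 76) (nat_lit 9377272766) (nat_lit 62) (nat_lit 5) (nat_lit 67) (nat_lit 5) (nat_lit 63) (nat_lit 5) (nat_lit 326) (nat_lit 276) (nat_lit 178)) (XT.lf (nat_lit 0) (nat_lit 6135066286) (nat_lit 304) (nat_lit 2446229113) (nat_lit 380) (nat_lit 8091472422) (nat_lit 58) (nat_lit 5) (nat_lit 62) (nat_lit 5) (nat_lit 63) (nat_lit 5) (nat_lit 327) (nat_lit 276) (nat_lit 177))))) (XT.nd (nat_lit 234) (nat_lit 380) (nat_lit 0) (XT.nd (nat_lit 78) (nat_lit 228) (nat_lit 0) (XT.lf (nat_lit 0) (nat_lit 11088645876) (nat_lit 380) (nat_lit 3754874579) (nat_lit 76) (nat_lit 2168954941) (nat_lit 58) (nat_lit 5) (nat_lit 63) (nat_lit 5) (nat_lit 59) (nat_lit 5) (nat_lit 328) (nat_lit 276) (nat_lit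 176)) (XT.nd (nat_lit 78) (nat_lit 0) (nat_lit 0) (XT.lf (nat_lit 0) (nat_lit 3251380467) (nat_lit 228) (nat_lit 10460906830) (nat_lit 304) (nat_lit 3648883329) (nat_lit 55) (nat_lit 5) (nat_lit 58) (nat_lit 5) (nat_lit 59) (nat_lit 5) (nat_lit 329) (nat_lit 276) (nat_lit 175)) (XT.lf (nat_lit 0) (nat_lit 10525700687) (nat_lit 228) (nat_lit 5912686220) (nat_lit 304) (nat_lit 1281255047) (nat_lit 55) (nat_lit 5) (nat_lit 58) (nat_lit 5) (nat_lit 59) (nat_lit 5) (nat_lit 330) (nat_lit 276) (nat_lit 174)))) (XT.nd (nat_lit 78) (nat_lit 304) (nat_lit 0) (XT.lf (nat_lit 0) (nat_lit 1120899163) (nat_lit 304) (nat_lit 100583275) (nat_lit 76) (nat_lit 16867494870) (nat_lit 54) (nat_lit 5) (nat_lit 58) (nat_lit 5) (nat_lit 55) (nat_lit 5) (nat_lit 331) (nat_lit 276) (nat_lit 173)) (XT.nd (nat_lit 78) (nat_lit 0) (nat_lit 0) (XT.lf (nat_lit 0) (nat_lit 3661674785) (nat_lit 380) (nat_lit 11185428341) (nat_lit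 76) (nat_lit 3619165120) (nat_lit 50) (nat_lit 5) (nat_lit 55) (nat_lit 5) (nat_lit 51) (nat_lit 5) (nat_lit 332) (nat_lit 276) (nat_lit 172)) (XT.lf (nat_lit 0) (nat_lit 6278453978) (nat_lit 380) (nat_lit 3999673441) (nat_lit 76) (nat_lit 8576781704) (nat_lit 50) (nat_lit 5) (nat_lit 55) (nat_lit 5) (nat_lit 51) (nat_lit 5) (nat_lit 333) (nat_lit 276) (nat_lit 171)))))) (XT.nd (nat_lit 390) (nat_lit 456) (nat_lit 0) (XT.nd (nat_lit 156) (nat_lit 304) (nat_lit 0) (XT.nd (nat_lit 78) (nat_lit 0) (nat_lit 0) (XT.lf (nat_lit 0) (nat_lit 3451045263) (nat_lit 228) (nat_lit 5542914031) (nat_lit 304) (nat_lit 10260667153) (nat_lit 47) (nat_lit 5) (nat_lit 50) (nat_lit 5) (nat_lit 51) (nat_lit 5) (nat_lit 334) (nat_lit 276) (nat_lit 170)) (XT.lf (nat_lit 0) (nat_lit 11189499743) (nat_lit 228) (nat_lit 629074420) (nat_lit 304) (nat_lit 7846955003) (nat_lit 47) (nat_lit 5) (nat_lit 50) (nat_lit 5) (nat_lit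 51) (nat_lit 5) (nat_lit 335) (nat_lit 276) (nat_lit 169))) (XT.nd (nat_lit 78) (nat_lit 304) (nat_lit 0) (XT.lf (nat_lit 0) (nat_lit 14758112089) (nat_lit 304) (nat_lit 988860167) (nat_lit 76) (nat_lit 4340903703) (nat_lit 47) (nat_lit 5) (nat_lit 51) (nat_lit 5) (nat_lit 48) (nat_lit 5) (nat_lit 336) (nat_lit 276) (nat_lit 168)) (XT.nd (nat_lit 78) (nat_lit 76) (nat_lit 0) (XT.lf (nat_lit 0) (nat_lit 6832939485) (nat_lit 228) (nat_lit 11012749055) (nat_lit 304) (nat_lit 2675430918) (nat_lit 44) (nat_lit 5) (nat_lit 47) (nat_lit 5) (nat_lit 48) (nat_lit 5) (nat_lit 337) (nat_lit 276) (nat_lit 167)) (XT.lf (nat_lit 0) (nat_lit 55465989) (nat_lit 304) (nat_lit 6075241944) (nat_lit 76) (nat_lit 14836713784) (nat_lit 43) (nat_lit 5) (nat_lit 47) (nat_lit 5) (nat_lit 44) (nat_lit 5) (nat_lit 338) (nat_lit 276) (nat_lit 166))))) (XT.nd (nat_lit 234) (nat_lit 228) (nat_lit 0) (XT.nd (nat_lit 78) (nat_lit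 0) (nat_lit 0) (XT.lf (nat_lit 0) (nat_lit 1757201098) (nat_lit 228) (nat_lit 1062547964) (nat_lit 304) (nat_lit 18606432335) (nat_lit 40) (nat_lit 5) (nat_lit 43) (nat_lit 5) (nat_lit 44) (nat_lit 5) (nat_lit 339) (nat_lit 276) (nat_lit 165)) (XT.nd (nat_lit 78) (nat_lit 0) (nat_lit 0) (XT.lf (nat_lit 0) (nat_lit 5757355794) (nat_lit 304) (nat_lit 12005117617) (nat_lit 76) (nat_lit 4133538037) (nat_lit 40) (nat_lit 5) (nat_lit 44) (nat_lit 5) (nat_lit 41) (nat_lit 5) (nat_lit 340) (nat_lit 276) (nat_lit 164)) (XT.lf (nat_lit 0) (nat_lit 8782420505) (nat_lit 304) (nat_lit 4138203777) (nat_lit 76) (nat_lit 9459351093) (nat_lit 40) (nat_lit 5) (nat_lit 44) (nat_lit 5) (nat_lit 41) (nat_lit 5) (nat_lit 341) (nat_lit 276) (nat_lit 163)))) (XT.nd (nat_lit 78) (nat_lit 0) (nat_lit 0) (XT.lf (nat_lit 0) (nat_lit 4027438923) (nat_lit 228) (nat_lit 7898647881) (nat_lit 304) (nat_lit 10951554247) (nat_lit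 37) (nat_lit 5) (nat_lit 40) (nat_lit 5) (nat_lit 41) (nat_lit 5) (nat_lit 342) (nat_lit 276) (nat_lit 162)) (XT.nd (nat_lit 78) (nat_lit 0) (nat_lit 0) (XT.lf (nat_lit 0) (nat_lit 12507167203) (nat_lit 228) (nat_lit 2687984474) (nat_lit 304) (nat_lit 8194170148) (nat_lit 37) (nat_lit 5) (nat_lit 40) (nat_lit 5) (nat_lit 41) (nat_lit 5) (nat_lit 343) (nat_lit 276) (nat_lit 161)) (XT.lf (nat_lit 0) (nat_lit 18577606349) (nat_lit 304) (nat_lit 2716355136) (nat_lit 76) (nat_lit 2621949269) (nat_lit 37) (nat_lit 5) (nat_lit 41) (nat_lit 5) (nat_lit 38) (nat_lit 5) (nat_lit 344) (nat_lit 276) (nat_lit 160))))))) (XT.nd (nat_lit 858) (nat_lit 532) (nat_lit 0) (XT.nd (nat_lit 390) (nat_lit 380) (nat_lit 0) (XT.nd (nat_lit 156) (nat_lit 228) (nat_lit 0) (XT.nd (nat_lit 78) (nat_lit 76) (nat_lit 0) (XT.lf (nat_lit 0) (nat_lit 5765220107) (nat_lit 152) (nat_lit 16368216672) (nat_lit 228) (nat_lit 2322720274)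 (nat_lit 35) (nat_lit 5) (nat_lit 37) (nat_lit 5) (nat_lit 38) (nat_lit 5) (nat_lit 345) (nat_lit 276) (nat_lit 159)) (XT.lf (nat_lit 0) (nat_lit 785653515) (nat_lit 228) (nat_lit 10477817588) (nat_lit 76) (nat_lit 13748401312) (nat_lit 34) (nat_lit 5) (nat_lit 37) (nat_lit 5) (nat_lit 35) (nat_lit 5) (nat_lit 346) (nat_lit 276) (nat_lit 158))) (XT.nd (nat_lit 78) (nat_lit 228) (nat_lit 0) (XT.lf (nat_lit 0) (nat_lit 3930794438) (nat_lit 228) (nat_lit 2056014040) (nat_lit 76) (nat_lit 19597070175) (nat_lit 34) (nat_lit 5) (nat_lit 37) (nat_lit 5) (nat_lit 35) (nat_lit 5) (nat_lit 347) (nat_lit 276) (nat_lit 157)) (XT.nd (nat_lit 78) (nat_lit 0) (nat_lit 0) (XT.lf (nat_lit 0) (nat_lit 6735595695) (nat_lit 228) (nat_lit 489926287) (nat_lit 304) (nat_lit 18945881022) (nat_lit 31) (nat_lit 5) (nat_lit 34) (nat_lit 5) (nat_lit 35) (nat_lit 5) (nat_lit 348) (nat_lit 276) (nat_lit 156)) (XT.lf (nat_lit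 0) (nat_lit 10680354757) (nat_lit 304) (nat_lit 11007144318) (nat_lit 76) (nat_lit 5087230569) (nat_lit 31) (nat_lit 5) (nat_lit 35) (nat_lit 5) (nat_lit 32) (nat_lit 5) (nat_lit 349) (nat_lit 276) (nat_lit 155))))) (XT.nd (nat_lit 234) (nat_lit 228) (nat_lit 0) (XT.nd (nat_lit 78) (nat_lit 152) (nat_lit 0) (XT.lf (nat_lit 0) (nat_lit 14234538635) (nat_lit 304) (nat_lit 2344446380) (nat_lit 76) (nat_lit 10817313924) (nat_lit 31) (nat_lit 5) (nat_lit 35) (nat_lit 5) (nat_lit 32) (nat_lit 5) (nat_lit 350) (nat_lit 276) (nat_lit 154)) (XT.nd (nat_lit 78) (nat_lit 0) (nat_lit 0) (XT.lf (nat_lit 0) (nat_lit 6695213044) (nat_lit 152) (nat_lit 11255615184) (nat_lit 228) (nat_lit 10084036311) (nat_lit 29) (nat_lit 5) (nat_lit 31) (nat_lit 5) (nat_lit 32) (nat_lit 5) (nat_lit 351) (nat_lit 276) (nat_lit 153)) (XT.lf (nat_lit 0) (nat_lit 16040686943) (nat_lit 152) (nat_lit 5752845046) (nat_lit 228) (nat_lit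 6898620589) (nat_lit 29) (nat_lit 5) (nat_lit 31) (nat_lit 5) (nat_lit 32) (nat_lit 5) (nat_lit 352) (nat_lit 276) (nat_lit 152)))) (XT.nd (nat_lit 78) (nat_lit 228) (nat_lit 0) (XT.lf (nat_lit 0) (nat_lit 25653482184) (nat_lit 152) (nat_lit 89540667) (nat_lit 228) (nat_lit 3626404075) (nat_lit 29) (nat_lit 5) (nat_lit 31) (nat_lit 5) (nat_lit 32) (nat_lit 5) (nat_lit 353) (nat_lit 276) (nat_lit 151)) (XT.nd (nat_lit 78) (nat_lit 76) (nat_lit 0) (XT.lf (nat_lit 0) (nat_lit 5527409437) (nat_lit 152) (nat_lit 24383644377) (nat_lit 228) (nat_lit 152976504) (nat_lit 27) (nat_lit 5) (nat_lit 29) (nat_lit 5) (nat_lit 30) (nat_lit 5) (nat_lit 354) (nat_lit 276) (nat_lit 150)) (XT.lf (nat_lit 0) (nat_lit 3388345374) (nat_lit 228) (nat_lit 15701216901) (nat_lit 76) (nat_lit 11688018135) (nat_lit 26) (nat_lit 5) (nat_lit 29) (nat_lit 5) (nat_lit 27) (nat_lit 5) (nat_lit 355) (nat_lit 276) (nat_lit 149))))))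 (XT.nd (nat_lit 468) (nat_lit 228) (nat_lit 0) (XT.nd (nat_lit 234) (nat_lit 152) (nat_lit 0) (XT.nd (nat_lit 78) (nat_lit 152) (nat_lit 0) (XT.lf (nat_lit 0) (nat_lit 7024809898) (nat_lit 228) (nat_lit 6614819144) (nat_lit 76) (nat_lit 17873114612) (nat_lit 26) (nat_lit 5) (nat_lit 29) (nat_lit 5) (nat_lit 27) (nat_lit 5) (nat_lit 356) (nat_lit 276) (nat_lit 148)) (XT.nd (nat_lit 78) (nat_lit 0) (nat_lit 0) (XT.lf (nat_lit 0) (nat_lit 2786354272) (nat_lit 152) (nat_lit 8003009551) (nat_lit 228) (nat_lit 21480039190) (nat_lit 24) (nat_lit 5) (nat_lit 26) (nat_lit 5) (nat_lit 27) (nat_lit 5) (nat_lit 357) (nat_lit 276) (nat_lit 147)) (XT.lf (nat_lit 0) (nat_lit 12593091608) (nat_lit 152) (nat_lit 2132881630) (nat_lit 228) (nat_lit 18321026110) (nat_lit 24) (nat_lit 5) (nat_lit 26) (nat_lit 5) (nat_lit 27) (nat_lit 5) (nat_lit 358) (nat_lit 276) (nat_lit 146)))) (XT.nd (nat_lit 78) (nat_lit 152)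 (nat_lit 0) (XT.lf (nat_lit 0) (nat_lit 18810803268) (nat_lit 228) (nat_lit 11203420198) (nat_lit 76) (nat_lit 3832806883) (nat_lit 24) (nat_lit 5) (nat_lit 27) (nat_lit 5) (nat_lit 25) (nat_lit 5) (nat_lit 359) (nat_lit 276) (nat_lit 145)) (XT.nd (nat_lit 78) (nat_lit 152) (nat_lit 0) (XT.lf (nat_lit 0) (nat_lit 23032018963) (nat_lit 228) (nat_lit 1708098946) (nat_lit 76) (nat_lit 9930539293) (nat_lit 24) (nat_lit 5) (nat_lit 27) (nat_lit 5) (nat_lit 25) (nat_lit 5) (nat_lit 360) (nat_lit 276) (nat_lit 144)) (XT.lf (nat_lit 0) (nat_lit 8221282290) (nat_lit 152) (nat_lit 19230551904) (nat_lit 228) (nat_lit 8065009622) (nat_lit 22) (nat_lit 5) (nat_lit 24) (nat_lit 5) (nat_lit 25) (nat_lit 5) (nat_lit 361) (nat_lit 276) (nat_lit 143))))) (XT.nd (nat_lit 234) (nat_lit 0) (nat_lit 0) (XT.nd (nat_lit 78) (nat_lit 228) (nat_lit 0) (XT.lf (nat_lit 0) (nat_lit 18472442900) (nat_lit 152) (nat_lit 13542083420)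 (nat_lit 228) (nat_lit 4373590795) (nat_lit 22) (nat_lit 5) (nat_lit 24) (nat_lit 5) (nat_lit 25) (nat_lit 5) (nat_lit 362) (nat_lit 276) (nat_lit 142)) (XT.nd (nat_lit 78) (nat_lit 228) (nat_lit 0) (XT.lf (nat_lit 0) (nat_lit 29020345690) (nat_lit 152) (nat_lit 7686990403) (nat_lit 228) (nat_lit 578404697) (nat_lit 22) (nat_lit 5) (nat_lit 24) (nat_lit 5) (nat_lit 25) (nat_lit 5) (nat_lit 363) (nat_lit 276) (nat_lit 141)) (XT.lf (nat_lit 0) (nat_lit 1664232244) (nat_lit 152) (nat_lit 1610769650) (nat_lit 228) (nat_lit 34934058817) (nat_lit 19) (nat_lit 5) (nat_lit 21) (nat_lit 5) (nat_lit 22) (nat_lit 5) (nat_lit 364) (nat_lit 276) (nat_lit 140)))) (XT.nd (nat_lit 78) (nat_lit 0) (nat_lit 0) (XT.lf (nat_lit 0) (nat_lit 7354767087) (nat_lit 228) (nat_lit 27158307319) (nat_lit 76) (nat_lit 4643171063) (nat_lit 19) (nat_lit 5) (nat_lit 22) (nat_lit 5) (nat_lit 20) (nat_lit 5) (nat_lit 365) (nat_lit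 276) (nat_lit 139)) (XT.nd (nat_lit 78) (nat_lit 0) (nat_lit 0) (XT.lf (nat_lit 0) (nat_lit 11566479470) (nat_lit 228) (nat_lit 17516509493) (nat_lit 76) (nat_lit 11048578427) (nat_lit 19) (nat_lit 5) (nat_lit 22) (nat_lit 5) (nat_lit 20) (nat_lit 5) (nat_lit 366) (nat_lit 276) (nat_lit 138)) (XT.lf (nat_lit 0) (nat_lit 15898335478) (nat_lit 228) (nat_lit 7595526415) (nat_lit 76) (nat_lit 17642481315) (nat_lit 19) (nat_lit 5) (nat_lit 22) (nat_lit 5) (nat_lit 20) (nat_lit 5) (nat_lit 367) (nat_lit 276) (nat_lit 137))))))))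
noncomputable def xc158 : XT := (XT.nd (nat_lit 1716) (nat_lit 0) (nat_lit 0) (XT.nd (nat_lit 858) (nat_lit 304) (nat_lit 0) (XT.nd (nat_lit 390) (nat_lit 228) (nat_lit 0) (XT.nd (nat_lit 156) (nat_lit 76) (nat_lit 0) (XT.nd (nat_lit 78) (nat_lit 0) (nat_lit 0) (XT.lf (nat_lit 0) (nat_lit 2665320741) (nat_lit 152) (nat_lit 17714420179) (nat_lit 228) (nat_lit 21790941341) (nat_lit 17) (nat_lit 5) (nat_lit 19) (nat_lit 5) (nat_lit 20) (nat_lit 5) (nat_lit 368) (nat_lit 276) (nat_lit 136)) (XT.lf (nat_lit 0) (nat_lit 13380014576) (nat_lit 152) (nat_lit 11686329431) (nat_lit 228) (nat_lit 18167592362) (nat_lit 17) (nat_lit 5) (nat_lit 19) (nat_lit 5) (nat_lit 20) (nat_lit 5) (nat_lit 369) (nat_lit 276) (nat_lit 135))) (XT.nd (nat_lit 78) (nat_lit 76) (nat_lit 0) (XT.lf (nat_lit 0) (nat_lit 24406751571) (nat_lit 152) (nat_lit 5481022311) (nat_lit 228) (nat_lit 14441494684) (nat_lit 17) (nat_lit 5)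 (nat_lit 19) (nat_lit 5) (nat_lit 20) (nat_lit 5) (nat_lit 370) (nat_lit 276) (nat_lit 134)) (XT.nd (nat_lit 78) (nat_lit 76) (nat_lit 0) (XT.lf (nat_lit 0) (nat_lit 34856961349) (nat_lit 228) (nat_lit 9711187100) (nat_lit 76) (nat_lit 889225954) (nat_lit 17) (nat_lit 5) (nat_lit 20) (nat_lit 5) (nat_lit 18) (nat_lit 4) (nat_lit 371) (nat_lit 276) (nat_lit 133)) (XT.lf (nat_lit 0) (nat_lit 758011233) (nat_lit 76) (nat_lit 39273294355) (nat_lit 152) (nat_lit 6586342299) (nat_lit 16) (nat_lit 5) (nat_lit 17) (nat_lit 5) (nat_lit 18) (nat_lit 4) (nat_lit 372) (nat_lit 276) (nat_lit 132))))) (XT.nd (nat_lit 234) (nat_lit 152) (nat_lit 0) (XT.nd (nat_lit 78) (nat_lit 76) (nat_lit 0) (XT.lf (nat_lit 0) (nat_lit 11731448084) (nat_lit 76) (nat_lit 33722096937) (nat_lit 152) (nat_lit 2356411316) (nat_lit 16) (nat_lit 5) (nat_lit 17) (nat_lit 5) (nat_lit 18) (nat_lit 4) (nat_lit 373) (nat_lit 276) (nat_lit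 131)) (XT.nd (nat_lit 78) (nat_lit 0) (nat_lit 0) (XT.lf (nat_lit 0) (nat_lit 1956082133) (nat_lit 152) (nat_lit 26031934854) (nat_lit 76) (nat_lit 21049605499) (nat_lit 15) (nat_lit 5) (nat_lit 17) (nat_lit 5) (nat_lit 16) (nat_lit 5) (nat_lit 374) (nat_lit 276) (nat_lit 130)) (XT.lf (nat_lit 0) (nat_lit 6345443113) (nat_lit 152) (nat_lit 15715799541) (nat_lit 76) (nat_lit 28240336550) (nat_lit 15) (nat_lit 5) (nat_lit 17) (nat_lit 5) (nat_lit 16) (nat_lit 5) (nat_lit 375) (nat_lit 276) (nat_lit 129)))) (XT.nd (nat_lit 78) (nat_lit 152) (nat_lit 0) (XT.lf (nat_lit 0) (nat_lit 10861489060) (nat_lit 152) (nat_lit 5098436948) (nat_lit 76) (nat_lit 35643684450) (nat_lit 15) (nat_lit 5) (nat_lit 17) (nat_lit 5) (nat_lit 16) (nat_lit 5) (nat_lit 376) (nat_lit 276) (nat_lit 128)) (XT.nd (nat_lit 78) (nat_lit 0) (nat_lit 0) (XT.lf (nat_lit 0) (nat_lit 5945447323) (nat_lit 152) (nat_lit 9619869987)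 (nat_lit 228) (nat_lit 37377822097) (nat_lit 13) (nat_lit 5) (nat_lit 15) (nat_lit 5) (nat_lit 16) (nat_lit 5) (nat_lit 377) (nat_lit 276) (nat_lit 127)) (XT.lf (nat_lit 0) (nat_lit 17417223381) (nat_lit 152) (nat_lit 3039735860) (nat_lit 228) (nat_lit 33864499633) (nat_lit 13) (nat_lit 5) (nat_lit 15) (nat_lit 5) (nat_lit 16) (nat_lit 5) (nat_lit 378) (nat_lit 276) (nat_lit 126)))))) (XT.nd (nat_lit 390) (nat_lit 228) (nat_lit 0) (XT.nd (nat_lit 156) (nat_lit 76) (nat_lit 0) (XT.nd (nat_lit 78) (nat_lit 0) (nat_lit 0) (XT.lf (nat_lit 0) (nat_lit 25526605052) (nat_lit 228) (nat_lit 26551727164) (nat_lit 76) (nat_lit 3661863523) (nat_lit 13) (nat_lit 5) (nat_lit 16) (nat_lit 5) (nat_lit 14) (nat_lit 4) (nat_lit 379) (nat_lit 276) (nat_lit 125)) (XT.lf (nat_lit 0) (nat_lit 30773897388) (nat_lit 228) (nat_lit 15926334074) (nat_lit 76) (nat_lit 10500501828) (nat_lit 13) (nat_lit 5) (nat_lit 16)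 (nat_lit 5) (nat_lit 14) (nat_lit 4) (nat_lit 380) (nat_lit 276) (nat_lit 124))) (XT.nd (nat_lit 78) (nat_lit 76) (nat_lit 0) (XT.lf (nat_lit 0) (nat_lit 36174201460) (nat_lit 228) (nat_lit 4989552099) (nat_lit 76) (nat_lit 17541470757) (nat_lit 13) (nat_lit 5) (nat_lit 16) (nat_lit 5) (nat_lit 14) (nat_lit 4) (nat_lit 381) (nat_lit 276) (nat_lit 123)) (XT.nd (nat_lit 78) (nat_lit 0) (nat_lit 0) (XT.lf (nat_lit 0) (nat_lit 6392924148) (nat_lit 76) (nat_lit 35400764532) (nat_lit 152) (nat_lit 18459451164) (nat_lit 12) (nat_lit 5) (nat_lit 13) (nat_lit 5) (nat_lit 14) (nat_lit 4) (nat_lit 382) (nat_lit 276) (nat_lit 122)) (XT.lf (nat_lit 0) (nat_lit 18212067624) (nat_lit 76) (nat_lit 29415855399) (nat_lit 152) (nat_lit 14218189782) (nat_lit 12) (nat_lit 5) (nat_lit 13) (nat_lit 5) (nat_lit 14) (nat_lit 4) (nat_lit 383) (nat_lit 276) (nat_lit 121))))) (XT.nd (nat_lit 234) (nat_lit 228) (nat_lit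 0) (XT.nd (nat_lit 78) (nat_lit 0) (nat_lit 0) (XT.lf (nat_lit 0) (nat_lit 30378903867) (nat_lit 76) (nat_lit 23254181322) (nat_lit 152) (nat_lit 9853917448) (nat_lit 12) (nat_lit 5) (nat_lit 13) (nat_lit 5) (nat_lit 14) (nat_lit 4) (nat_lit 384) (nat_lit 276) (nat_lit 120)) (XT.nd (nat_lit 78) (nat_lit 0) (nat_lit 0) (XT.lf (nat_lit 0) (nat_lit 42904064092) (nat_lit 76) (nat_lit 16910358312) (nat_lit 152) (nat_lit 5362820718) (nat_lit 12) (nat_lit 5) (nat_lit 13) (nat_lit 5) (nat_lit 14) (nat_lit 4) (nat_lit 385) (nat_lit 276) (nat_lit 119)) (XT.lf (nat_lit 0) (nat_lit 55798492613) (nat_lit 76) (nat_lit 10378843225) (nat_lit 152) (nat_lit 740975334) (nat_lit 12) (nat_lit 5) (nat_lit 13) (nat_lit 5) (nat_lit 14) (nat_lit 4) (nat_lit 386) (nat_lit 276) (nat_lit 118)))) (XT.nd (nat_lit 78) (nat_lit 0) (nat_lit 0) (XT.lf (nat_lit 0) (nat_lit 329558210) (nat_lit 152) (nat_lit 3610906977) (nat_lit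 228) (nat_lit 64770009858) (nat_lit 9) (nat_lit 5) (nat_lit 11) (nat_lit 5) (nat_lit 12) (nat_lit 5) (nat_lit 387) (nat_lit 276) (nat_lit 117)) (XT.nd (nat_lit 78) (nat_lit 0) (nat_lit 0) (XT.lf (nat_lit 0) (nat_lit 8889387533) (nat_lit 228) (nat_lit 58249827042) (nat_lit 76) (nat_lit 3412715277) (nat_lit 9) (nat_lit 5) (nat_lit 12) (nat_lit 5) (nat_lit 10) (nat_lit 4) (nat_lit 388) (nat_lit 276) (nat_lit 116)) (XT.lf (nat_lit 0) (nat_lit 14018871168) (nat_lit 228) (nat_lit 47856775864) (nat_lit 76) (nat_lit 10572022403) (nat_lit 9) (nat_lit 5) (nat_lit 12) (nat_lit 5) (nat_lit 10) (nat_lit 4) (nat_lit 389) (nat_lit 276) (nat_lit 115))))))) (XT.nd (nat_lit 32448) (nat_lit 0) (nat_lit 10564) (XT.nd (nat_lit 31980) (nat_lit 0) (nat_lit 13148) (XT.nd (nat_lit 156) (nat_lit 0) (nat_lit 0) (XT.nd (nat_lit 78) (nat_lit 0) (nat_lit 0) (XT.lf (nat_lit 0) (nat_lit 19298687918) (nat_lit 228) (nat_lit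 37157971746) (nat_lit 76) (nat_lit 17943731908) (nat_lit 9) (nat_lit 5) (nat_lit 12) (nat_lit 5) (nat_lit 10) (nat_lit 4) (nat_lit 390) (nat_lit 276) (nat_lit 114)) (XT.lf (nat_lit 0) (nat_lit 24733451215) (nat_lit 228) (nat_lit 26144066219) (nat_lit 76) (nat_lit 25534285091) (nat_lit 9) (nat_lit 5) (nat_lit 12) (nat_lit 5) (nat_lit 10) (nat_lit 4) (nat_lit 391) (nat_lit 276) (nat_lit 113))) (XT.nd (nat_lit 31668) (nat_lit 0) (nat_lit 13908) (XT.lf (nat_lit 0) (nat_lit 30327909881) (nat_lit 228) (nat_lit 14805435481) (nat_lit 76) (nat_lit 33350314473) (nat_lit 9) (nat_lit 5) (nat_lit 12) (nat_lit 5) (nat_lit 10) (nat_lit 4) (nat_lit 392) (nat_lit 276) (nat_lit 112)) (XT.nd (nat_lit 78) (nat_lit 0) (nat_lit 0) (XT.lf (nat_lit 0) (nat_lit 2246394858) (nat_lit 836) (nat_lit 807138034) (nat_lit 836) (nat_lit 807138034) (nat_lit 192) (nat_lit 3) (nat_lit 203) (nat_lit 3) (nat_lit 203) (nat_lit 5)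 (nat_lit 277) (nat_lit 277) (nat_lit 226)) (XT.lf (nat_lit 76) (nat_lit 1643826728) (nat_lit 0) (nat_lit 4110066616) (nat_lit 836) (nat_lit 2043629140) (nat_lit 193) (nat_lit 5) (nat_lit 192) (nat_lit 3) (nat_lit 203) (nat_lit 5) (nat_lit 278) (nat_lit 277) (nat_lit 225))))) (XT.nd (nat_lit 234) (nat_lit 0) (nat_lit 0) (XT.nd (nat_lit 78) (nat_lit 760) (nat_lit 0) (XT.lf (nat_lit 76) (nat_lit 5008541491) (nat_lit 0) (nat_lit 2014386227) (nat_lit 836) (nat_lit 854107286) (nat_lit 193) (nat_lit 5) (nat_lit 192) (nat_lit 3) (nat_lit 203) (nat_lit 5) (nat_lit 279) (nat_lit 277) (nat_lit 224)) (XT.nd (nat_lit 78) (nat_lit 0) (nat_lit 0) (XT.lf (nat_lit 0) (nat_lit 324859684) (nat_lit 836) (nat_lit 7465025326) (nat_lit 912) (nat_lit 170251670) (nat_lit 182) (nat_lit 5) (nat_lit 193) (nat_lit 5) (nat_lit 194) (nat_lit 5) (nat_lit 280) (nat_lit 277) (nat_lit 223)) (XT.lf (nat_lit 0) (nat_lit 1527064708)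 (nat_lit 836) (nat_lit 4081105526) (nat_lit 912) (nat_lit 2437293129) (nat_lit 182) (nat_lit 5) (nat_lit 193) (nat_lit 5) (nat_lit 194) (nat_lit 5) (nat_lit 281) (nat_lit 277) (nat_lit 222)))) (XT.nd (nat_lit 78) (nat_lit 0) (nat_lit 0) (XT.lf (nat_lit 0) (nat_lit 2722460525) (nat_lit 836) (nat_lit 620892463) (nat_lit 912) (nat_lit 4791415859) (nat_lit 182) (nat_lit 5) (nat_lit 193) (nat_lit 5) (nat_lit 194) (nat_lit 5) (nat_lit 282) (nat_lit 277) (nat_lit 221)) (XT.nd (nat_lit 78) (nat_lit 0) (nat_lit 76) (XT.lf (nat_lit 76) (nat_lit 2976723957) (nat_lit 0) (nat_lit 963981791) (nat_lit 912) (nat_lit 4286566998) (nat_lit 183) (nat_lit 5) (nat_lit 182) (nat_lit 5) (nat_lit 194) (nat_lit 5) (nat_lit 283) (nat_lit 277) (nat_lit 220)) (XT.lf (nat_lit 0) (nat_lit 5175632338) (nat_lit 836) (nat_lit 1667472646) (nat_lit 912) (nat_lit 1480167879) (nat_lit 183) (nat_lit 5) (nat_lit 194) (nat_lit 5) (nat_lit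 195) (nat_lit 5) (nat_lit 284) (nat_lit 277) (nat_lit 219)))))) (XT.nd (nat_lit 468) (nat_lit 1824) (nat_lit 0) (XT.nd (nat_lit 234) (nat_lit 0) (nat_lit 0) (XT.nd (nat_lit 78) (nat_lit 836) (nat_lit 0) (XT.lf (nat_lit 76) (nat_lit 2028125786) (nat_lit 0) (nat_lit 4409210595) (nat_lit 912) (nat_lit 1985246191) (nat_lit 184) (nat_lit 5) (nat_lit 183) (nat_lit 5) (nat_lit 195) (nat_lit 5) (nat_lit 285) (nat_lit 277) (nat_lit 218)) (XT.nd (nat_lit 78) (nat_lit 836) (nat_lit 0) (XT.lf (nat_lit 76) (nat_lit 5844017181) (nat_lit 0) (nat_lit 1871309250) (nat_lit 912) (nat_lit 810310033) (nat_lit 184) (nat_lit 5) (nat_lit 183) (nat_lit 5) (nat_lit 195) (nat_lit 5) (nat_lit 286) (nat_lit 277) (nat_lit 217)) (XT.lf (nat_lit 0) (nat_lit 372634670) (nat_lit 912) (nat_lit 7503963387) (nat_lit 988) (nat_lit 755762866) (nat_lit 172) (nat_lit 5) (nat_lit 184) (nat_lit 5) (nat_lit 185) (nat_lit 5) (nat_lit 287)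 (nat_lit 277) (nat_lit 216)))) (XT.nd (nat_lit 78) (nat_lit 0) (nat_lit 0) (XT.lf (nat_lit 0) (nat_lit 1583870846) (nat_lit 912) (nat_lit 3686595055) (nat_lit 988) (nat_lit 3471415773) (nat_lit 172) (nat_lit 5) (nat_lit 184) (nat_lit 5) (nat_lit 185) (nat_lit 5) (nat_lit 288) (nat_lit 277) (nat_lit 215)) (XT.nd (nat_lit 78) (nat_lit 0) (nat_lit 76) (XT.lf (nat_lit 76) (nat_lit 224443995) (nat_lit 0) (nat_lit 2573443566) (nat_lit 988) (nat_lit 6057911971) (nat_lit 173) (nat_lit 5) (nat_lit 172) (nat_lit 5) (nat_lit 185) (nat_lit 5) (nat_lit 289) (nat_lit 277) (nat_lit 214)) (XT.lf (nat_lit 0) (nat_lit 4053067918) (nat_lit 912) (nat_lit 4672193877) (nat_lit 988) (nat_lit 247832572) (nat_lit 173) (nat_lit 5) (nat_lit 185) (nat_lit 5) (nat_lit 186) (nat_lit 5) (nat_lit 290) (nat_lit 277) (nat_lit 213))))) (XT.nd (nat_lit 234) (nat_lit 1900) (nat_lit 0) (XT.nd (nat_lit 78) (nat_lit 0) (nat_lit 0)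 (XT.lf (nat_lit 0) (nat_lit 5337578947) (nat_lit 912) (nat_lit 645200412) (nat_lit 988) (nat_lit 3111477202) (nat_lit 173) (nat_lit 5) (nat_lit 185) (nat_lit 5) (nat_lit 186) (nat_lit 5) (nat_lit 291) (nat_lit 277) (nat_lit 212)) (XT.nd (nat_lit 78) (nat_lit 0) (nat_lit 0) (XT.lf (nat_lit 76) (nat_lit 3547097755) (nat_lit 0) (nat_lit 3114804642) (nat_lit 988) (nat_lit 2557208805) (nat_lit 174) (nat_lit 5) (nat_lit 173) (nat_lit 5) (nat_lit 186) (nat_lit 5) (nat_lit 292) (nat_lit 277) (nat_lit 211)) (XT.lf (nat_lit 76) (nat_lit 7853911461) (nat_lit 0) (nat_lit 146460173) (nat_lit 988) (nat_lit 1348200471) (nat_lit 174) (nat_lit 5) (nat_lit 173) (nat_lit 5) (nat_lit 186) (nat_lit 5) (nat_lit 293) (nat_lit 277) (nat_lit 210)))) (XT.nd (nat_lit 78) (nat_lit 1064) (nat_lit 0) (XT.lf (nat_lit 0) (nat_lit 2810001487) (nat_lit 912) (nat_lit 6592893461) (nat_lit 988) (nat_lit 78395276) (nat_lit 162)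 (nat_lit 5) (nat_lit 174) (nat_lit 5) (nat_lit 175) (nat_lit 5) (nat_lit 294) (nat_lit 277) (nat_lit 209)) (XT.nd (nat_lit 78) (nat_lit 988) (nat_lit 0) (XT.lf (nat_lit 0) (nat_lit 1191393259) (nat_lit 988) (nat_lit 2381830295) (nat_lit 76) (nat_lit 6044920534) (nat_lit 161) (nat_lit 5) (nat_lit 174) (nat_lit 5) (nat_lit 162) (nat_lit 5) (nat_lit 295) (nat_lit 277) (nat_lit 208)) (XT.lf (nat_lit 0) (nat_lit 2050977593) (nat_lit 988) (nat_lit 436523423) (nat_lit 1064) (nat_lit 7271967951) (nat_lit 148) (nat_lit 5) (nat_lit 161) (nat_lit 5) (nat_lit 162) (nat_lit 5) (nat_lit 296) (nat_lit 277) (nat_lit 207))))))))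
noncomputable def xc159 : XT := (XT.nd (nat_lit 1794) (nat_lit 2736) (nat_lit 0) (XT.nd (nat_lit 858) (nat_lit 2204) (nat_lit 0) (XT.nd (nat_lit 390) (nat_lit 1596) (nat_lit 0) (XT.nd (nat_lit 156) (nat_lit 608) (nat_lit 0) (XT.nd (nat_lit 78) (nat_lit 1064) (nat_lit 0) (XT.lf (nat_lit 0) (nat_lit 3844413028) (nat_lit 1064) (nat_lit 3291160748) (nat_lit 76) (nat_lit 2768882495) (nat_lit 148) (nat_lit 5) (nat_lit 162) (nat_lit 5) (nat_lit 149) (nat_lit 5) (nat_lit 297) (nat_lit 277) (nat_lit 206)) (XT.lf (nat_lit 0) (nat_lit 1254235471) (nat_lit 1064) (nat_lit 3975797522) (nat_lit 1140) (nat_lit 4824198156) (nat_lit 134) (nat_lit 5) (nat_lit 148) (nat_lit 5) (nat_lit 149) (nat_lit 5) (nat_lit 298) (nat_lit 277) (nat_lit 205))) (XT.nd (nat_lit 78) (nat_lit 608) (nat_lit 0) (XT.lf (nat_lit 0) (nat_lit 5979093429) (nat_lit 1064) (nat_lit 683576821) (nat_lit 1140) (nat_lit 3545741262) (nat_lit 134)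 (nat_lit 5) (nat_lit 148) (nat_lit 5) (nat_lit 149) (nat_lit 5) (nat_lit 299) (nat_lit 277) (nat_lit 204)) (XT.nd (nat_lit 78) (nat_lit 0) (nat_lit 0) (XT.lf (nat_lit 0) (nat_lit 436399541) (nat_lit 608) (nat_lit 7705162938) (nat_lit 684) (nat_lit 2225630028) (nat_lit 126) (nat_lit 5) (nat_lit 134) (nat_lit 5) (nat_lit 135) (nat_lit 5) (nat_lit 300) (nat_lit 277) (nat_lit 203)) (XT.lf (nat_lit 0) (nat_lit 5297552937) (nat_lit 608) (nat_lit 4390284633) (nat_lit 684) (nat_lit 842280234) (nat_lit 126) (nat_lit 5) (nat_lit 134) (nat_lit 5) (nat_lit 135) (nat_lit 5) (nat_lit 301) (nat_lit 277) (nat_lit 202))))) (XT.nd (nat_lit 234) (nat_lit 988) (nat_lit 0) (XT.nd (nat_lit 78) (nat_lit 532) (nat_lit 0) (XT.lf (nat_lit 0) (nat_lit 545255661) (nat_lit 684) (nat_lit 423194799) (nat_lit 76) (nat_lit 9730158050) (nat_lit 125) (nat_lit 5) (nat_lit 134) (nat_lit 5) (nat_lit 126) (nat_lit 5) (nat_lit 302)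 (nat_lit 277) (nat_lit 201)) (XT.nd (nat_lit 78) (nat_lit 0) (nat_lit 0) (XT.lf (nat_lit 0) (nat_lit 2001507795) (nat_lit 608) (nat_lit 6308358947) (nat_lit 76) (nat_lit 2560781737) (nat_lit 118) (nat_lit 5) (nat_lit 126) (nat_lit 5) (nat_lit 119) (nat_lit 5) (nat_lit 303) (nat_lit 277) (nat_lit 200)) (XT.lf (nat_lit 0) (nat_lit 3490684820) (nat_lit 608) (nat_lit 1375425750) (nat_lit 76) (nat_lit 6182125355) (nat_lit 118) (nat_lit 5) (nat_lit 126) (nat_lit 5) (nat_lit 119) (nat_lit 5) (nat_lit 304) (nat_lit 277) (nat_lit 199)))) (XT.nd (nat_lit 78) (nat_lit 456) (nat_lit 0) (XT.lf (nat_lit 0) (nat_lit 3755391365) (nat_lit 532) (nat_lit 1281296326) (nat_lit 608) (nat_lit 6194160339) (nat_lit 111) (nat_lit 5) (nat_lit 118) (nat_lit 5) (nat_lit 119) (nat_lit 5) (nat_lit 305) (nat_lit 277) (nat_lit 198)) (XT.nd (nat_lit 78) (nat_lit 456) (nat_lit 0) (XT.lf (nat_lit 0) (nat_lit 6642803287) (nat_lit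 608) (nat_lit 2397431117) (nat_lit 76) (nat_lit 2378351874) (nat_lit 111) (nat_lit 5) (nat_lit 119) (nat_lit 5) (nat_lit 112) (nat_lit 5) (nat_lit 306) (nat_lit 277) (nat_lit 197)) (XT.lf (nat_lit 0) (nat_lit 2852689078) (nat_lit 456) (nat_lit 5461734188) (nat_lit 532) (nat_lit 3297071799) (nat_lit 105) (nat_lit 5) (nat_lit 111) (nat_lit 5) (nat_lit 112) (nat_lit 5) (nat_lit 307) (nat_lit 277) (nat_lit 196)))))) (XT.nd (nat_lit 468) (nat_lit 1292) (nat_lit 0) (XT.nd (nat_lit 234) (nat_lit 380) (nat_lit 0) (XT.nd (nat_lit 78) (nat_lit 532) (nat_lit 0) (XT.lf (nat_lit 0) (nat_lit 8286459321) (nat_lit 456) (nat_lit 1751597521) (nat_lit 532) (nat_lit 1772134651) (nat_lit 105) (nat_lit 5) (nat_lit 111) (nat_lit 5) (nat_lit 112) (nat_lit 5) (nat_lit 308) (nat_lit 277) (nat_lit 195)) (XT.nd (nat_lit 78) (nat_lit 76) (nat_lit 0) (XT.lf (nat_lit 0) (nat_lit 1861799596) (nat_lit 456) (nat_lit 9967693530)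 (nat_lit 532) (nat_lit 184927565) (nat_lit 99) (nat_lit 5) (nat_lit 105) (nat_lit 5) (nat_lit 106) (nat_lit 5) (nat_lit 309) (nat_lit 277) (nat_lit 194)) (XT.lf (nat_lit 0) (nat_lit 1453331049) (nat_lit 532) (nat_lit 4797493786) (nat_lit 76) (nat_lit 5972633521) (nat_lit 98) (nat_lit 5) (nat_lit 105) (nat_lit 5) (nat_lit 99) (nat_lit 5) (nat_lit 310) (nat_lit 277) (nat_lit 193)))) (XT.nd (nat_lit 78) (nat_lit 0) (nat_lit 0) (XT.lf (nat_lit 0) (nat_lit 707660787) (nat_lit 380) (nat_lit 2415240266) (nat_lit 456) (nat_lit 9316284799) (nat_lit 93) (nat_lit 5) (nat_lit 98) (nat_lit 5) (nat_lit 99) (nat_lit 5) (nat_lit 311) (nat_lit 277) (nat_lit 192)) (XT.nd (nat_lit 78) (nat_lit 0) (nat_lit 0) (XT.lf (nat_lit 0) (nat_lit 4885696821) (nat_lit 456) (nat_lit 6221886448) (nat_lit 76) (nat_lit 1552556334) (nat_lit 93) (nat_lit 5) (nat_lit 99) (nat_lit 5) (nat_lit 94) (nat_lit 5) (nat_lit 312) (nat_lit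 277) (nat_lit 191)) (XT.lf (nat_lit 0) (nat_lit 6705342557) (nat_lit 456) (nat_lit 593230752) (nat_lit 76) (nat_lit 5589076849) (nat_lit 93) (nat_lit 5) (nat_lit 99) (nat_lit 5) (nat_lit 94) (nat_lit 5) (nat_lit 313) (nat_lit 277) (nat_lit 190))))) (XT.nd (nat_lit 234) (nat_lit 456) (nat_lit 0) (XT.nd (nat_lit 78) (nat_lit 380) (nat_lit 0) (XT.lf (nat_lit 0) (nat_lit 5285720475) (nat_lit 456) (nat_lit 3325300578) (nat_lit 532) (nat_lit 4510067476) (nat_lit 87) (nat_lit 5) (nat_lit 93) (nat_lit 5) (nat_lit 94) (nat_lit 5) (nat_lit 314) (nat_lit 277) (nat_lit 189)) (XT.nd (nat_lit 78) (nat_lit 380) (nat_lit 0) (XT.lf (nat_lit 0) (nat_lit 10568261550) (nat_lit 532) (nat_lit 2037668866) (nat_lit 76) (nat_lit 755812351) (nat_lit 87) (nat_lit 5) (nat_lit 94) (nat_lit 5) (nat_lit 88) (nat_lit 5) (nat_lit 315) (nat_lit 277) (nat_lit 188)) (XT.lf (nat_lit 0) (nat_lit 3956806756) (nat_lit 380) (nat_lit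 8679893226) (nat_lit 456) (nat_lit 971385401) (nat_lit 82) (nat_lit 5) (nat_lit 87) (nat_lit 5) (nat_lit 88) (nat_lit 5) (nat_lit 316) (nat_lit 277) (nat_lit 187)))) (XT.nd (nat_lit 78) (nat_lit 380) (nat_lit 0) (XT.lf (nat_lit 0) (nat_lit 890121454) (nat_lit 456) (nat_lit 3718859148) (nat_lit 76) (nat_lit 9252544819) (nat_lit 81) (nat_lit 5) (nat_lit 87) (nat_lit 5) (nat_lit 82) (nat_lit 5) (nat_lit 317) (nat_lit 277) (nat_lit 186)) (XT.nd (nat_lit 78) (nat_lit 0) (nat_lit 0) (XT.lf (nat_lit 0) (nat_lit 2407893864) (nat_lit 380) (nat_lit 385371886) (nat_lit 456) (nat_lit 11328894404) (nat_lit 76) (nat_lit 5) (nat_lit 81) (nat_lit 5) (nat_lit 82) (nat_lit 5) (nat_lit 318) (nat_lit 277) (nat_lit 185)) (XT.lf (nat_lit 0) (nat_lit 4812000543) (nat_lit 456) (nat_lit 5654624324) (nat_lit 76) (nat_lit 3922272533) (nat_lit 76) (nat_lit 5) (nat_lit 82) (nat_lit 5) (nat_lit 77) (nat_lit 5) (nat_lit 319)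 (nat_lit 277) (nat_lit 184))))))) (XT.nd (nat_lit 858) (nat_lit 1140) (nat_lit 0) (XT.nd (nat_lit 390) (nat_lit 836) (nat_lit 0) (XT.nd (nat_lit 156) (nat_lit 456) (nat_lit 0) (XT.nd (nat_lit 78) (nat_lit 0) (nat_lit 0) (XT.lf (nat_lit 0) (nat_lit 573469033) (nat_lit 304) (nat_lit 6310125076) (nat_lit 380) (nat_lit 7780310993) (nat_lit 72) (nat_lit 5) (nat_lit 76) (nat_lit 5) (nat_lit 77) (nat_lit 5) (nat_lit 320) (nat_lit 277) (nat_lit 183)) (XT.lf (nat_lit 0) (nat_lit 7083809764) (nat_lit 304) (nat_lit 1973893877) (nat_lit 380) (nat_lit 5888284505) (nat_lit 72) (nat_lit 5) (nat_lit 76) (nat_lit 5) (nat_lit 77) (nat_lit 5) (nat_lit 321) (nat_lit 277) (nat_lit 182))) (XT.nd (nat_lit 78) (nat_lit 456) (nat_lit 0) (XT.lf (nat_lit 0) (nat_lit 11304714807) (nat_lit 380) (nat_lit 1491431190) (nat_lit 76) (nat_lit 2440192436) (nat_lit 72) (nat_lit 5) (nat_lit 77) (nat_lit 5) (nat_lit 73) (nat_lit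 5) (nat_lit 322) (nat_lit 277) (nat_lit 181)) (XT.nd (nat_lit 78) (nat_lit 76) (nat_lit 0) (XT.lf (nat_lit 0) (nat_lit 5131218104) (nat_lit 380) (nat_lit 8540979941) (nat_lit 456) (nat_lit 1861643410) (nat_lit 67) (nat_lit 5) (nat_lit 72) (nat_lit 5) (nat_lit 73) (nat_lit 5) (nat_lit 323) (nat_lit 277) (nat_lit 180)) (XT.lf (nat_lit 0) (nat_lit 264648110) (nat_lit 456) (nat_lit 3879402891) (nat_lit 76) (nat_lit 11696188029) (nat_lit 66) (nat_lit 5) (nat_lit 72) (nat_lit 5) (nat_lit 67) (nat_lit 5) (nat_lit 324) (nat_lit 277) (nat_lit 179))))) (XT.nd (nat_lit 234) (nat_lit 228) (nat_lit 0) (XT.nd (nat_lit 78) (nat_lit 304) (nat_lit 0) (XT.lf (nat_lit 0) (nat_lit 2433629946) (nat_lit 380) (nat_lit 13301587727) (nat_lit 76) (nat_lit 419599523) (nat_lit 62) (nat_lit 5) (nat_lit 67) (nat_lit 5) (nat_lit 63) (nat_lit 5) (nat_lit 325) (nat_lit 277) (nat_lit 178)) (XT.nd (nat_lit 78) (nat_lit 304) (nat_lit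 0) (XT.lf (nat_lit 0) (nat_lit 4733230914) (nat_lit 380) (nat_lit 6671335924) (nat_lit 76) (nat_lit 5072329657) (nat_lit 62) (nat_lit 5) (nat_lit 67) (nat_lit 5) (nat_lit 63) (nat_lit 5) (nat_lit 326) (nat_lit 277) (nat_lit 177)) (XT.lf (nat_lit 0) (nat_lit 141531698) (nat_lit 304) (nat_lit 6947044083) (nat_lit 380) (nat_lit 9720489113) (nat_lit 58) (nat_lit 5) (nat_lit 62) (nat_lit 5) (nat_lit 63) (nat_lit 5) (nat_lit 327) (nat_lit 277) (nat_lit 176)))) (XT.nd (nat_lit 78) (nat_lit 228) (nat_lit 0) (XT.lf (nat_lit 0) (nat_lit 7276674466) (nat_lit 304) (nat_lit 2290913339) (nat_lit 380) (nat_lit 7582048877) (nat_lit 58) (nat_lit 5) (nat_lit 62) (nat_lit 5) (nat_lit 63) (nat_lit 5) (nat_lit 328) (nat_lit 277) (nat_lit 175)) (XT.nd (nat_lit 78) (nat_lit 228) (nat_lit 0) (XT.lf (nat_lit 0) (nat_lit 12131064449) (nat_lit 380) (nat_lit 2917353889) (nat_lit 76) (nat_lit 2451732168) (nat_lit 58) (nat_lit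 5) (nat_lit 63) (nat_lit 5) (nat_lit 59) (nat_lit 5) (nat_lit 329) (nat_lit 277) (nat_lit 174)) (XT.lf (nat_lit 0) (nat_lit 4289773447) (nat_lit 228) (nat_lit 10532013110) (nat_lit 304) (nat_lit 3037909855) (nat_lit 55) (nat_lit 5) (nat_lit 58) (nat_lit 5) (nat_lit 59) (nat_lit 5) (nat_lit 330) (nat_lit 277) (nat_lit 173)))))) (XT.nd (nat_lit 468) (nat_lit 532) (nat_lit 0) (XT.nd (nat_lit 234) (nat_lit 228) (nat_lit 0) (XT.nd (nat_lit 78) (nat_lit 380) (nat_lit 0) (XT.lf (nat_lit 0) (nat_lit 11754919830) (nat_lit 228) (nat_lit 5854415422) (nat_lit 304) (nat_lit 620236414) (nat_lit 55) (nat_lit 5) (nat_lit 58) (nat_lit 5) (nat_lit 59) (nat_lit 5) (nat_lit 331) (nat_lit 277) (nat_lit 172)) (XT.nd (nat_lit 78) (nat_lit 0) (nat_lit 0) (XT.lf (nat_lit 0) (nat_lit 813619630) (nat_lit 304) (nat_lit 1014559918) (nat_lit 380) (nat_lit 16782007929) (nat_lit 50) (nat_lit 5) (nat_lit 54) (nat_lit 5) (nat_lit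 55) (nat_lit 5) (nat_lit 332) (nat_lit 277) (nat_lit 171)) (XT.lf (nat_lit 0) (nat_lit 4428826462) (nat_lit 380) (nat_lit 10609903315) (nat_lit 76) (nat_lit 3960594321) (nat_lit 50) (nat_lit 5) (nat_lit 55) (nat_lit 5) (nat_lit 51) (nat_lit 5) (nat_lit 333) (nat_lit 277) (nat_lit 170)))) (XT.nd (nat_lit 78) (nat_lit 228) (nat_lit 0) (XT.lf (nat_lit 0) (nat_lit 7104964328) (nat_lit 380) (nat_lit 3235112309) (nat_lit 76) (nat_lit 9060157240) (nat_lit 50) (nat_lit 5) (nat_lit 55) (nat_lit 5) (nat_lit 51) (nat_lit 5) (nat_lit 334) (nat_lit 277) (nat_lit 169)) (XT.nd (nat_lit 78) (nat_lit 0) (nat_lit 0) (XT.lf (nat_lit 0) (nat_lit 4430455885) (nat_lit 228) (nat_lit 5461311317) (nat_lit 304) (nat_lit 9920514852) (nat_lit 47) (nat_lit 5) (nat_lit 50) (nat_lit 5) (nat_lit 51) (nat_lit 5) (nat_lit 335) (nat_lit 277) (nat_lit 168)) (XT.lf (nat_lit 0) (nat_lit 12375552953) (nat_lit 228) (nat_lit 407276619)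 (nat_lit 304) (nat_lit 7453264317) (nat_lit 47) (nat_lit 5) (nat_lit 50) (nat_lit 5) (nat_lit 51) (nat_lit 5) (nat_lit 336) (nat_lit 277) (nat_lit 167))))) (XT.nd (nat_lit 234) (nat_lit 228) (nat_lit 0) (XT.nd (nat_lit 78) (nat_lit 304) (nat_lit 0) (XT.lf (nat_lit 0) (nat_lit 15795041521) (nat_lit 304) (nat_lit 176335776) (nat_lit 76) (nat_lit 4700231489) (nat_lit 47) (nat_lit 5) (nat_lit 51) (nat_lit 5) (nat_lit 48) (nat_lit 5) (nat_lit 337) (nat_lit 277) (nat_lit 166)) (XT.nd (nat_lit 78) (nat_lit 76) (nat_lit 0) (XT.lf (nat_lit 0) (nat_lit 7871861099) (nat_lit 228) (nat_lit 11094094054) (nat_lit 304) (nat_lit 2152204533) (nat_lit 44) (nat_lit 5) (nat_lit 47) (nat_lit 5) (nat_lit 48) (nat_lit 5) (nat_lit 338) (nat_lit 277) (nat_lit 165)) (XT.lf (nat_lit 0) (nat_lit 631608670) (nat_lit 304) (nat_lit 5435435439) (nat_lit 76) (nat_lit 15511179494) (nat_lit 43) (nat_lit 5) (nat_lit 47) (nat_lit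 5) (nat_lit 44) (nat_lit 5) (nat_lit 339) (nat_lit 277) (nat_lit 164)))) (XT.nd (nat_lit 78) (nat_lit 0) (nat_lit 0) (XT.lf (nat_lit 0) (nat_lit 2623921446) (nat_lit 228) (nat_lit 845991107) (nat_lit 304) (nat_lit 18581129481) (nat_lit 40) (nat_lit 5) (nat_lit 43) (nat_lit 5) (nat_lit 44) (nat_lit 5) (nat_lit 340) (nat_lit 277) (nat_lit 163)) (XT.nd (nat_lit 78) (nat_lit 0) (nat_lit 0) (XT.lf (nat_lit 0) (nat_lit 6481493081) (nat_lit 304) (nat_lit 11559891508) (nat_lit 76) (nat_lit 4494034923) (nat_lit 40) (nat_lit 5) (nat_lit 44) (nat_lit 5) (nat_lit 41) (nat_lit 5) (nat_lit 341) (nat_lit 277) (nat_lit 162)) (XT.lf (nat_lit 0) (nat_lit 9581249056) (nat_lit 304) (nat_lit 3480427912) (nat_lit 76) (nat_lit 9972734290) (nat_lit 40) (nat_lit 5) (nat_lit 44) (nat_lit 5) (nat_lit 41) (nat_lit 5) (nat_lit 342) (nat_lit 277) (nat_lit 161))))))))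
noncomputable def xc160 : XT := (XT.nd (nat_lit 1716) (nat_lit 760) (nat_lit 0) (XT.nd (nat_lit 858) (nat_lit 532) (nat_lit 0) (XT.nd (nat_lit 390) (nat_lit 380) (nat_lit 0) (XT.nd (nat_lit 156) (nat_lit 228) (nat_lit 0) (XT.nd (nat_lit 78) (nat_lit 0) (nat_lit 0) (XT.lf (nat_lit 0) (nat_lit 4922518167) (nat_lit 228) (nat_lit 7888556908) (nat_lit 304) (nat_lit 10736202629) (nat_lit 37) (nat_lit 5) (nat_lit 40) (nat_lit 5) (nat_lit 41) (nat_lit 5) (nat_lit 343) (nat_lit 277) (nat_lit 160)) (XT.lf (nat_lit 0) (nat_lit 13634087147) (nat_lit 228) (nat_lit 2528769242) (nat_lit 304) (nat_lit 7911938704) (nat_lit 37) (nat_lit 5) (nat_lit 40) (nat_lit 5) (nat_lit 41) (nat_lit 5) (nat_lit 344) (nat_lit 277) (nat_lit 159))) (XT.nd (nat_lit 78) (nat_lit 228) (nat_lit 0) (XT.lf (nat_lit 0) (nat_lit 19634114921) (nat_lit 304) (nat_lit 2054539301) (nat_lit 76) (nat_lit 2928932345) (nat_lit 37) (nat_lit 5)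 (nat_lit 41) (nat_lit 5) (nat_lit 38) (nat_lit 5) (nat_lit 345) (nat_lit 277) (nat_lit 158)) (XT.nd (nat_lit 78) (nat_lit 76) (nat_lit 0) (XT.lf (nat_lit 0) (nat_lit 6674195881) (nat_lit 152) (nat_lit 16614960215) (nat_lit 228) (nat_lit 1885132145) (nat_lit 35) (nat_lit 5) (nat_lit 37) (nat_lit 5) (nat_lit 38) (nat_lit 5) (nat_lit 346) (nat_lit 277) (nat_lit 157)) (XT.lf (nat_lit 0) (nat_lit 1292107661) (nat_lit 228) (nat_lit 10067204051) (nat_lit 76) (nat_lit 14387674342) (nat_lit 34) (nat_lit 5) (nat_lit 37) (nat_lit 5) (nat_lit 35) (nat_lit 5) (nat_lit 347) (nat_lit 277) (nat_lit 156))))) (XT.nd (nat_lit 234) (nat_lit 152) (nat_lit 0) (XT.nd (nat_lit 78) (nat_lit 228) (nat_lit 0) (XT.lf (nat_lit 0) (nat_lit 4517538214) (nat_lit 228) (nat_lit 1413861388) (nat_lit 76) (nat_lit 20405196835) (nat_lit 34) (nat_lit 5) (nat_lit 37) (nat_lit 5) (nat_lit 35) (nat_lit 5) (nat_lit 348) (nat_lit 277)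 (nat_lit 155)) (XT.nd (nat_lit 78) (nat_lit 0) (nat_lit 0) (XT.lf (nat_lit 0) (nat_lit 7634596314) (nat_lit 228) (nat_lit 269555664) (nat_lit 304) (nat_lit 19037824586) (nat_lit 31) (nat_lit 5) (nat_lit 34) (nat_lit 5) (nat_lit 35) (nat_lit 5) (nat_lit 349) (nat_lit 277) (nat_lit 154)) (XT.lf (nat_lit 0) (nat_lit 11451371184) (nat_lit 304) (nat_lit 10648774515) (nat_lit 76) (nat_lit 5463615816) (nat_lit 31) (nat_lit 5) (nat_lit 35) (nat_lit 5) (nat_lit 32) (nat_lit 5) (nat_lit 350) (nat_lit 277) (nat_lit 153)))) (XT.nd (nat_lit 78) (nat_lit 152) (nat_lit 0) (XT.lf (nat_lit 0) (nat_lit 15099056139) (nat_lit 304) (nat_lit 1746251487) (nat_lit 76) (nat_lit 11359084147) (nat_lit 31) (nat_lit 5) (nat_lit 35) (nat_lit 5) (nat_lit 32) (nat_lit 5) (nat_lit 351) (nat_lit 277) (nat_lit 152)) (XT.nd (nat_lit 78) (nat_lit 0) (nat_lit 0) (XT.lf (nat_lit 0) (nat_lit 7558043521) (nat_lit 152) (nat_lit 11362412024)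 (nat_lit 228) (nat_lit 9941869728) (nat_lit 29) (nat_lit 5) (nat_lit 31) (nat_lit 5) (nat_lit 32) (nat_lit 5) (nat_lit 352) (nat_lit 277) (nat_lit 151)) (XT.lf (nat_lit 0) (nat_lit 17164600838) (nat_lit 152) (nat_lit 5701283197) (nat_lit 228) (nat_lit 6673843602) (nat_lit 29) (nat_lit 5) (nat_lit 31) (nat_lit 5) (nat_lit 32) (nat_lit 5) (nat_lit 353) (nat_lit 277) (nat_lit 150)))))) (XT.nd (nat_lit 390) (nat_lit 152) (nat_lit 0) (XT.nd (nat_lit 156) (nat_lit 152) (nat_lit 0) (XT.nd (nat_lit 78) (nat_lit 228) (nat_lit 0) (XT.lf (nat_lit 0) (nat_lit 26922874303) (nat_lit 228) (nat_lit 3191849005) (nat_lit 76) (nat_lit 122944908) (nat_lit 29) (nat_lit 5) (nat_lit 32) (nat_lit 5) (nat_lit 30) (nat_lit 5) (nat_lit 354) (nat_lit 277) (nat_lit 149)) (XT.lf (nat_lit 0) (nat_lit 252672056) (nat_lit 228) (nat_lit 24634057024) (nat_lit 76) (nat_lit 6066473283) (nat_lit 26) (nat_lit 5) (nat_lit 29) (nat_lit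 5) (nat_lit 27) (nat_lit 5) (nat_lit 355) (nat_lit 277) (nat_lit 148))) (XT.nd (nat_lit 78) (nat_lit 152) (nat_lit 0) (XT.lf (nat_lit 0) (nat_lit 3885299793) (nat_lit 228) (nat_lit 15553663247) (nat_lit 76) (nat_lit 12249523128) (nat_lit 26) (nat_lit 5) (nat_lit 29) (nat_lit 5) (nat_lit 27) (nat_lit 5) (nat_lit 356) (nat_lit 277) (nat_lit 147)) (XT.nd (nat_lit 78) (nat_lit 152) (nat_lit 0) (XT.lf (nat_lit 0) (nat_lit 7619344542) (nat_lit 228) (nat_lit 6212690746) (nat_lit 76) (nat_lit 18614030816) (nat_lit 26) (nat_lit 5) (nat_lit 29) (nat_lit 5) (nat_lit 27) (nat_lit 5) (nat_lit 357) (nat_lit 277) (nat_lit 146)) (XT.lf (nat_lit 0) (nat_lit 3464629902) (nat_lit 152) (nat_lit 8026743300) (nat_lit 228) (nat_lit 21734231807) (nat_lit 24) (nat_lit 5) (nat_lit 26) (nat_lit 5) (nat_lit 27) (nat_lit 5) (nat_lit 358) (nat_lit 277) (nat_lit 145))))) (XT.nd (nat_lit 234) (nat_lit 152) (nat_lit 0) (XT.nd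 (nat_lit 78) (nat_lit 0) (nat_lit 0) (XT.lf (nat_lit 0) (nat_lit 13548248435) (nat_lit 152) (nat_lit 1986813188) (nat_lit 228) (nat_lit 18491813632) (nat_lit 24) (nat_lit 5) (nat_lit 26) (nat_lit 5) (nat_lit 27) (nat_lit 5) (nat_lit 359) (nat_lit 277) (nat_lit 144)) (XT.nd (nat_lit 78) (nat_lit 0) (nat_lit 0) (XT.lf (nat_lit 0) (nat_lit 19733698594) (nat_lit 228) (nat_lit 10969737391) (nat_lit 76) (nat_lit 4147748335) (nat_lit 24) (nat_lit 5) (nat_lit 27) (nat_lit 5) (nat_lit 25) (nat_lit 5) (nat_lit 360) (nat_lit 277) (nat_lit 143)) (XT.lf (nat_lit 0) (nat_lit 24071106937) (nat_lit 228) (nat_lit 1206152193) (nat_lit 76) (nat_lit 10422588720) (nat_lit 24) (nat_lit 5) (nat_lit 27) (nat_lit 5) (nat_lit 25) (nat_lit 5) (nat_lit 361) (nat_lit 277) (nat_lit 142)))) (XT.nd (nat_lit 78) (nat_lit 0) (nat_lit 0) (XT.lf (nat_lit 0) (nat_lit 9015687052) (nat_lit 152) (nat_lit 19602955405) (nat_lit 228)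 (nat_lit 7952937965) (nat_lit 22) (nat_lit 5) (nat_lit 24) (nat_lit 5) (nat_lit 25) (nat_lit 5) (nat_lit 362) (nat_lit 277) (nat_lit 141)) (XT.nd (nat_lit 78) (nat_lit 0) (nat_lit 0) (XT.lf (nat_lit 0) (nat_lit 19558428122) (nat_lit 152) (nat_lit 13749789558) (nat_lit 228) (nat_lit 4161087892) (nat_lit 22) (nat_lit 5) (nat_lit 24) (nat_lit 5) (nat_lit 25) (nat_lit 5) (nat_lit 363) (nat_lit 277) (nat_lit 140)) (XT.lf (nat_lit 0) (nat_lit 30407278328) (nat_lit 152) (nat_lit 7724826945) (nat_lit 228) (nat_lit 262057200) (nat_lit 22) (nat_lit 5) (nat_lit 24) (nat_lit 5) (nat_lit 25) (nat_lit 5) (nat_lit 364) (nat_lit 277) (nat_lit 139))))))) (XT.nd (nat_lit 858) (nat_lit 228) (nat_lit 0) (XT.nd (nat_lit 390) (nat_lit 152) (nat_lit 0) (XT.nd (nat_lit 156) (nat_lit 152) (nat_lit 0) (XT.nd (nat_lit 78) (nat_lit 0) (nat_lit 0) (XT.lf (nat_lit 0) (nat_lit 2232294245) (nat_lit 152) (nat_lit 1463596548)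 (nat_lit 228) (nat_lit 35649343999) (nat_lit 19) (nat_lit 5) (nat_lit 21) (nat_lit 5) (nat_lit 22) (nat_lit 5) (nat_lit 365) (nat_lit 277) (nat_lit 138)) (XT.lf (nat_lit 0) (nat_lit 7890476187) (nat_lit 228) (nat_lit 27462033678) (nat_lit 76) (nat_lit 4968564601) (nat_lit 19) (nat_lit 5) (nat_lit 22) (nat_lit 5) (nat_lit 20) (nat_lit 5) (nat_lit 366) (nat_lit 277) (nat_lit 137))) (XT.nd (nat_lit 78) (nat_lit 152) (nat_lit 0) (XT.lf (nat_lit 0) (nat_lit 12219363259) (nat_lit 228) (nat_lit 17545866078) (nat_lit 76) (nat_lit 11560713843) (nat_lit 19) (nat_lit 5) (nat_lit 22) (nat_lit 5) (nat_lit 20) (nat_lit 5) (nat_lit 367) (nat_lit 277) (nat_lit 136)) (XT.nd (nat_lit 78) (nat_lit 152) (nat_lit 0) (XT.lf (nat_lit 0) (nat_lit 16672265547) (nat_lit 228) (nat_lit 7341704150) (nat_lit 76) (nat_lit 18347171350) (nat_lit 19) (nat_lit 5) (nat_lit 22) (nat_lit 5) (nat_lit 20) (nat_lit 5) (nat_lit 368)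 (nat_lit 277) (nat_lit 135)) (XT.lf (nat_lit 0) (nat_lit 3222245990) (nat_lit 152) (nat_lit 18061802145) (nat_lit 228) (nat_lit 22142595244) (nat_lit 17) (nat_lit 5) (nat_lit 19) (nat_lit 5) (nat_lit 20) (nat_lit 5) (nat_lit 369) (nat_lit 277) (nat_lit 134))))) (XT.nd (nat_lit 234) (nat_lit 152) (nat_lit 0) (XT.nd (nat_lit 78) (nat_lit 0) (nat_lit 0) (XT.lf (nat_lit 0) (nat_lit 14244488436) (nat_lit 152) (nat_lit 11858229374) (nat_lit 228) (nat_lit 18419344077) (nat_lit 17) (nat_lit 5) (nat_lit 19) (nat_lit 5) (nat_lit 20) (nat_lit 5) (nat_lit 370) (nat_lit 277) (nat_lit 133)) (XT.nd (nat_lit 78) (nat_lit 0) (nat_lit 0) (XT.lf (nat_lit 0) (nat_lit 25588539967) (nat_lit 152) (nat_lit 5471967601) (nat_lit 228) (nat_lit 14590005490) (nat_lit 17) (nat_lit 5) (nat_lit 19) (nat_lit 5) (nat_lit 20) (nat_lit 5) (nat_lit 371) (nat_lit 277) (nat_lit 132)) (XT.lf (nat_lit 0) (nat_lit 36172347972) (nat_lit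 228) (nat_lit 9559268572) (nat_lit 76) (nat_lit 1081048417) (nat_lit 17) (nat_lit 5) (nat_lit 20) (nat_lit 5) (nat_lit 18) (nat_lit 4) (nat_lit 372) (nat_lit 277) (nat_lit 131)))) (XT.nd (nat_lit 78) (nat_lit 76) (nat_lit 0) (XT.lf (nat_lit 0) (nat_lit 1219660083) (nat_lit 76) (nat_lit 40278626820) (nat_lit 152) (nat_lit 6509578728) (nat_lit 16) (nat_lit 5) (nat_lit 17) (nat_lit 5) (nat_lit 18) (nat_lit 4) (nat_lit 373) (nat_lit 277) (nat_lit 130)) (XT.nd (nat_lit 78) (nat_lit 76) (nat_lit 0) (XT.lf (nat_lit 0) (nat_lit 12509516297) (nat_lit 76) (nat_lit 34565928422) (nat_lit 152) (nat_lit 2160740703) (nat_lit 16) (nat_lit 5) (nat_lit 17) (nat_lit 5) (nat_lit 18) (nat_lit 4) (nat_lit 374) (nat_lit 277) (nat_lit 129)) (XT.lf (nat_lit 0) (nat_lit 2268323093) (nat_lit 152) (nat_lit 26393830830) (nat_lit 76) (nat_lit 21838688093) (nat_lit 15) (nat_lit 5) (nat_lit 17) (nat_lit 5) (nat_lit 16) (nat_lit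 5) (nat_lit 375) (nat_lit 277) (nat_lit 128)))))) (XT.nd (nat_lit 468) (nat_lit 76) (nat_lit 0) (XT.nd (nat_lit 234) (nat_lit 0) (nat_lit 0) (XT.nd (nat_lit 78) (nat_lit 152) (nat_lit 0) (XT.lf (nat_lit 0) (nat_lit 6781979704) (nat_lit 152) (nat_lit 15780417149) (nat_lit 76) (nat_lit 29240550947) (nat_lit 15) (nat_lit 5) (nat_lit 17) (nat_lit 5) (nat_lit 16) (nat_lit 5) (nat_lit 376) (nat_lit 277) (nat_lit 127)) (XT.nd (nat_lit 78) (nat_lit 152) (nat_lit 0) (XT.lf (nat_lit 0) (nat_lit 11426336933) (nat_lit 152) (nat_lit 4856383865) (nat_lit 76) (nat_lit 36861542847) (nat_lit 15) (nat_lit 5) (nat_lit 17) (nat_lit 5) (nat_lit 16) (nat_lit 5) (nat_lit 377) (nat_lit 277) (nat_lit 126)) (XT.lf (nat_lit 0) (nat_lit 6514944324) (nat_lit 152) (nat_lit 9753134263) (nat_lit 228) (nat_lit 38256004220) (nat_lit 13) (nat_lit 5) (nat_lit 15) (nat_lit 5) (nat_lit 16) (nat_lit 5) (nat_lit 378) (nat_lit 277)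 (nat_lit 125)))) (XT.nd (nat_lit 78) (nat_lit 0) (nat_lit 0) (XT.lf (nat_lit 0) (nat_lit 18319481425) (nat_lit 152) (nat_lit 2980120339) (nat_lit 228) (nat_lit 34644364195) (nat_lit 13) (nat_lit 5) (nat_lit 15) (nat_lit 5) (nat_lit 16) (nat_lit 5) (nat_lit 379) (nat_lit 277) (nat_lit 124)) (XT.nd (nat_lit 78) (nat_lit 0) (nat_lit 0) (XT.lf (nat_lit 0) (nat_lit 26516076408) (nat_lit 228) (nat_lit 26974076679) (nat_lit 76) (nat_lit 3915277484) (nat_lit 13) (nat_lit 5) (nat_lit 16) (nat_lit 5) (nat_lit 14) (nat_lit 4) (nat_lit 380) (nat_lit 277) (nat_lit 123)) (XT.lf (nat_lit 0) (nat_lit 31914272760) (nat_lit 228) (nat_lit 16040820893) (nat_lit 76) (nat_lit 10954893635) (nat_lit 13) (nat_lit 5) (nat_lit 16) (nat_lit 5) (nat_lit 14) (nat_lit 4) (nat_lit 381) (nat_lit 277) (nat_lit 122))))) (XT.nd (nat_lit 234) (nat_lit 0) (nat_lit 0) (XT.nd (nat_lit 78) (nat_lit 76) (nat_lit 0) (XT.lf (nat_lit 0)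 (nat_lit 37470260952) (nat_lit 228) (nat_lit 4786517106) (nat_lit 76) (nat_lit 18203032115) (nat_lit 13) (nat_lit 5) (nat_lit 16) (nat_lit 5) (nat_lit 14) (nat_lit 4) (nat_lit 382) (nat_lit 277) (nat_lit 121)) (XT.nd (nat_lit 78) (nat_lit 0) (nat_lit 0) (XT.lf (nat_lit 0) (nat_lit 6933975374) (nat_lit 76) (nat_lit 36321573968) (nat_lit 152) (nat_lit 18798704488) (nat_lit 12) (nat_lit 5) (nat_lit 13) (nat_lit 5) (nat_lit 14) (nat_lit 4) (nat_lit 383) (nat_lit 277) (nat_lit 120)) (XT.lf (nat_lit 0) (nat_lit 19097520432) (nat_lit 76) (nat_lit 30161230576) (nat_lit 152) (nat_lit 14436453718) (nat_lit 12) (nat_lit 5) (nat_lit 13) (nat_lit 5) (nat_lit 14) (nat_lit 4) (nat_lit 384) (nat_lit 277) (nat_lit 119)))) (XT.nd (nat_lit 78) (nat_lit 0) (nat_lit 0) (XT.lf (nat_lit 0) (nat_lit 31619485331) (nat_lit 76) (nat_lit 23818699494) (nat_lit 152) (nat_lit 9947319672) (nat_lit 12) (nat_lit 5) (nat_lit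 13) (nat_lit 5) (nat_lit 14) (nat_lit 4) (nat_lit 385) (nat_lit 277) (nat_lit 118)) (XT.nd (nat_lit 78) (nat_lit 0) (nat_lit 0) (XT.lf (nat_lit 0) (nat_lit 44510811596) (nat_lit 76) (nat_lit 17288438705) (nat_lit 152) (nat_lit 5327379806) (nat_lit 12) (nat_lit 5) (nat_lit 13) (nat_lit 5) (nat_lit 14) (nat_lit 4) (nat_lit 386) (nat_lit 277) (nat_lit 117)) (XT.lf (nat_lit 0) (nat_lit 57782763490) (nat_lit 76) (nat_lit 10564742157) (nat_lit 152) (nat_lit 572597281) (nat_lit 12) (nat_lit 5) (nat_lit 13) (nat_lit 5) (nat_lit 14) (nat_lit 4) (nat_lit 387) (nat_lit 277) (nat_lit 116))))))))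
noncomputable def xc161 : XT := (XT.nd (nat_lit 33384) (nat_lit 0) (nat_lit 5548) (XT.nd (nat_lit 32526) (nat_lit 0) (nat_lit 11476) (XT.nd (nat_lit 32058) (nat_lit 0) (nat_lit 13072) (XT.nd (nat_lit 156) (nat_lit 0) (nat_lit 0) (XT.nd (nat_lit 78) (nat_lit 0) (nat_lit 0) (XT.lf (nat_lit 0) (nat_lit 650605603) (nat_lit 152) (nat_lit 3592509148) (nat_lit 228) (nat_lit 66522941562) (nat_lit 9) (nat_lit 5) (nat_lit 11) (nat_lit 5) (nat_lit 12) (nat_lit 5) (nat_lit 388) (nat_lit 277) (nat_lit 115)) (XT.lf (nat_lit 0) (nat_lit 9336315535) (nat_lit 228) (nat_lit 59690840814) (nat_lit 76) (nat_lit 3635729916) (nat_lit 9) (nat_lit 5) (nat_lit 12) (nat_lit 5) (nat_lit 10) (nat_lit 4) (nat_lit 389) (nat_lit 277) (nat_lit 114))) (XT.nd (nat_lit 78) (nat_lit 0) (nat_lit 0) (XT.lf (nat_lit 0) (nat_lit 14614433785) (nat_lit 228) (nat_lit 48994924732) (nat_lit 76) (nat_lit 11006302668) (nat_lit 9) (nat_lit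 5) (nat_lit 12) (nat_lit 5) (nat_lit 10) (nat_lit 4) (nat_lit 390) (nat_lit 277) (nat_lit 113)) (XT.nd (nat_lit 78) (nat_lit 0) (nat_lit 0) (XT.lf (nat_lit 0) (nat_lit 20047548052) (nat_lit 228) (nat_lit 37983823124) (nat_lit 76) (nat_lit 18595752208) (nat_lit 9) (nat_lit 5) (nat_lit 12) (nat_lit 5) (nat_lit 10) (nat_lit 4) (nat_lit 391) (nat_lit 277) (nat_lit 112)) (XT.lf (nat_lit 0) (nat_lit 25640405719) (nat_lit 228) (nat_lit 26647914638) (nat_lit 76) (nat_lit 26410710092) (nat_lit 9) (nat_lit 5) (nat_lit 12) (nat_lit 5) (nat_lit 10) (nat_lit 4) (nat_lit 392) (nat_lit 277) (nat_lit 111))))) (XT.nd (nat_lit 234) (nat_lit 0) (nat_lit 0) (XT.nd (nat_lit 78) (nat_lit 836) (nat_lit 0) (XT.lf (nat_lit 0) (nat_lit 3480374223) (nat_lit 836) (nat_lit 228663930) (nat_lit 836) (nat_lit 228663930) (nat_lit 192) (nat_lit 3) (nat_lit 203) (nat_lit 3) (nat_lit 203) (nat_lit 5) (nat_lit 278) (nat_lit 278)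 (nat_lit 224)) (XT.nd (nat_lit 78) (nat_lit 0) (nat_lit 0) (XT.lf (nat_lit 0) (nat_lit 242588294) (nat_lit 836) (nat_lit 5071463282) (nat_lit 912) (nat_lit 2641662643) (nat_lit 181) (nat_lit 5) (nat_lit 192) (nat_lit 3) (nat_lit 193) (nat_lit 5) (nat_lit 279) (nat_lit 278) (nat_lit 223)) (XT.lf (nat_lit 0) (nat_lit 1376709396) (nat_lit 836) (nat_lit 1735791428) (nat_lit 912) (nat_lit 4926981491) (nat_lit 181) (nat_lit 5) (nat_lit 192) (nat_lit 3) (nat_lit 193) (nat_lit 5) (nat_lit 280) (nat_lit 278) (nat_lit 222)))) (XT.nd (nat_lit 78) (nat_lit 0) (nat_lit 76) (XT.lf (nat_lit 76) (nat_lit 1710170173) (nat_lit 0) (nat_lit 808287822) (nat_lit 912) (nat_lit 5608230085) (nat_lit 182) (nat_lit 5) (nat_lit 181) (nat_lit 5) (nat_lit 193) (nat_lit 5) (nat_lit 281) (nat_lit 278) (nat_lit 221)) (XT.nd (nat_lit 78) (nat_lit 0) (nat_lit 0) (XT.lf (nat_lit 0) (nat_lit 3685578362) (nat_lit 836) (nat_lit 2960598950)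 (nat_lit 912) (nat_lit 1570728003) (nat_lit 182) (nat_lit 5) (nat_lit 193) (nat_lit 5) (nat_lit 194) (nat_lit 5) (nat_lit 282) (nat_lit 278) (nat_lit 220)) (XT.lf (nat_lit 76) (nat_lit 578507134) (nat_lit 0) (nat_lit 4282354883) (nat_lit 912) (nat_lit 3449897680) (nat_lit 183) (nat_lit 5) (nat_lit 182) (nat_lit 5) (nat_lit 194) (nat_lit 5) (nat_lit 283) (nat_lit 278) (nat_lit 219)))))) (XT.nd (nat_lit 390) (nat_lit 836) (nat_lit 0) (XT.nd (nat_lit 156) (nat_lit 836) (nat_lit 0) (XT.nd (nat_lit 78) (nat_lit 0) (nat_lit 76) (XT.lf (nat_lit 76) (nat_lit 4260932528) (nat_lit 0) (nat_lit 1800904560) (nat_lit 912) (nat_lit 2346001112) (nat_lit 183) (nat_lit 5) (nat_lit 182) (nat_lit 5) (nat_lit 194) (nat_lit 5) (nat_lit 284) (nat_lit 278) (nat_lit 218)) (XT.lf (nat_lit 0) (nat_lit 7267933488) (nat_lit 836) (nat_lit 485529250) (nat_lit 912) (nat_lit 755411498) (nat_lit 183) (nat_lit 5) (nat_lit 194)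 (nat_lit 5) (nat_lit 195) (nat_lit 5) (nat_lit 285) (nat_lit 278) (nat_lit 217))) (XT.nd (nat_lit 78) (nat_lit 912) (nat_lit 0) (XT.lf (nat_lit 76) (nat_lit 3308859022) (nat_lit 0) (nat_lit 5213937541) (nat_lit 912) (nat_lit 89881781) (nat_lit 184) (nat_lit 5) (nat_lit 183) (nat_lit 5) (nat_lit 195) (nat_lit 5) (nat_lit 286) (nat_lit 278) (nat_lit 216)) (XT.nd (nat_lit 78) (nat_lit 0) (nat_lit 76) (XT.lf (nat_lit 0) (nat_lit 1042612949) (nat_lit 912) (nat_lit 1527171919) (nat_lit 988) (nat_lit 6150555102) (nat_lit 171) (nat_lit 5) (nat_lit 183) (nat_lit 5) (nat_lit 184) (nat_lit 5) (nat_lit 287) (nat_lit 278) (nat_lit 215)) (XT.lf (nat_lit 0) (nat_lit 2196433144) (nat_lit 912) (nat_lit 6448564450) (nat_lit 988) (nat_lit 186637226) (nat_lit 172) (nat_lit 5) (nat_lit 184) (nat_lit 5) (nat_lit 185) (nat_lit 5) (nat_lit 288) (nat_lit 278) (nat_lit 214))))) (XT.nd (nat_lit 234) (nat_lit 912) (nat_lit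 0) (XT.nd (nat_lit 78) (nat_lit 0) (nat_lit 0) (XT.lf (nat_lit 0) (nat_lit 3391211665) (nat_lit 912) (nat_lit 2553971704) (nat_lit 988) (nat_lit 3000996571) (nat_lit 172) (nat_lit 5) (nat_lit 184) (nat_lit 5) (nat_lit 185) (nat_lit 5) (nat_lit 289) (nat_lit 278) (nat_lit 213)) (XT.nd (nat_lit 78) (nat_lit 0) (nat_lit 0) (XT.lf (nat_lit 76) (nat_lit 1462210075) (nat_lit 0) (nat_lit 3140015217) (nat_lit 988) (nat_lit 4462623141) (nat_lit 173) (nat_lit 5) (nat_lit 172) (nat_lit 5) (nat_lit 185) (nat_lit 5) (nat_lit 290) (nat_lit 278) (nat_lit 212)) (XT.lf (nat_lit 76) (nat_lit 5627682644) (nat_lit 0) (nat_lit 214767021) (nat_lit 988) (nat_lit 3344936800) (nat_lit 173) (nat_lit 5) (nat_lit 172) (nat_lit 5) (nat_lit 185) (nat_lit 5) (nat_lit 291) (nat_lit 278) (nat_lit 211)))) (XT.nd (nat_lit 78) (nat_lit 988) (nat_lit 0) (XT.lf (nat_lit 76) (nat_lit 564636763) (nat_lit 0) (nat_lit 6555706156) (nat_lit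 988) (nat_lit 2193336958) (nat_lit 174) (nat_lit 5) (nat_lit 173) (nat_lit 5) (nat_lit 186) (nat_lit 5) (nat_lit 292) (nat_lit 278) (nat_lit 210)) (XT.nd (nat_lit 78) (nat_lit 988) (nat_lit 0) (XT.lf (nat_lit 76) (nat_lit 4859742886) (nat_lit 0) (nat_lit 3583717421) (nat_lit 988) (nat_lit 1000185553) (nat_lit 174) (nat_lit 5) (nat_lit 173) (nat_lit 5) (nat_lit 186) (nat_lit 5) (nat_lit 293) (nat_lit 278) (nat_lit 209)) (XT.lf (nat_lit 0) (nat_lit 193654284) (nat_lit 988) (nat_lit 319776824) (nat_lit 1064) (nat_lit 9065018213) (nat_lit 160) (nat_lit 5) (nat_lit 173) (nat_lit 5) (nat_lit 174) (nat_lit 5) (nat_lit 294) (nat_lit 278) (nat_lit 208))))))) (XT.nd (nat_lit 858) (nat_lit 2736) (nat_lit 0) (XT.nd (nat_lit 390) (nat_lit 1216) (nat_lit 0) (XT.nd (nat_lit 156) (nat_lit 2052) (nat_lit 0) (XT.nd (nat_lit 78) (nat_lit 0) (nat_lit 0) (XT.lf (nat_lit 0) (nat_lit 1439075555) (nat_lit 988) (nat_lit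 5623121483) (nat_lit 76) (nat_lit 2653809413) (nat_lit 161) (nat_lit 5) (nat_lit 174) (nat_lit 5) (nat_lit 162) (nat_lit 5) (nat_lit 295) (nat_lit 278) (nat_lit 207)) (XT.lf (nat_lit 0) (nat_lit 2701161293) (nat_lit 988) (nat_lit 1242091296) (nat_lit 76) (nat_lit 5915138964) (nat_lit 161) (nat_lit 5) (nat_lit 174) (nat_lit 5) (nat_lit 162) (nat_lit 5) (nat_lit 296) (nat_lit 278) (nat_lit 206))) (XT.nd (nat_lit 78) (nat_lit 1064) (nat_lit 0) (XT.lf (nat_lit 0) (nat_lit 3311826378) (nat_lit 988) (nat_lit 692921693) (nat_lit 1064) (nat_lit 6000268952) (nat_lit 148) (nat_lit 5) (nat_lit 161) (nat_lit 5) (nat_lit 162) (nat_lit 5) (nat_lit 297) (nat_lit 278) (nat_lit 205)) (XT.nd (nat_lit 78) (nat_lit 1064) (nat_lit 0) (XT.lf (nat_lit 0) (nat_lit 5358078674) (nat_lit 1064) (nat_lit 2177376889) (nat_lit 76) (nat_lit 2620342311) (nat_lit 148) (nat_lit 5) (nat_lit 162) (nat_lit 5) (nat_lit 149) (nat_lit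 5) (nat_lit 298) (nat_lit 278) (nat_lit 204)) (XT.lf (nat_lit 0) (nat_lit 2492493779) (nat_lit 1064) (nat_lit 4263586508) (nat_lit 1140) (nat_lit 3554973225) (nat_lit 134) (nat_lit 5) (nat_lit 148) (nat_lit 5) (nat_lit 149) (nat_lit 5) (nat_lit 299) (nat_lit 278) (nat_lit 203))))) (XT.nd (nat_lit 234) (nat_lit 532) (nat_lit 0) (XT.nd (nat_lit 78) (nat_lit 684) (nat_lit 0) (XT.lf (nat_lit 0) (nat_lit 7324127634) (nat_lit 1064) (nat_lit 867690980) (nat_lit 1140) (nat_lit 2279345660) (nat_lit 134) (nat_lit 5) (nat_lit 148) (nat_lit 5) (nat_lit 149) (nat_lit 5) (nat_lit 300) (nat_lit 278) (nat_lit 202)) (XT.nd (nat_lit 78) (nat_lit 76) (nat_lit 0) (XT.lf (nat_lit 0) (nat_lit 1648355264) (nat_lit 608) (nat_lit 8038003123) (nat_lit 684) (nat_lit 949317370) (nat_lit 126) (nat_lit 5) (nat_lit 134) (nat_lit 5) (nat_lit 135) (nat_lit 5) (nat_lit 301) (nat_lit 278) (nat_lit 201)) (XT.lf (nat_lit 0) (nat_lit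 427898027) (nat_lit 684) (nat_lit 4188497803) (nat_lit 76) (nat_lit 6188205942) (nat_lit 125) (nat_lit 5) (nat_lit 134) (nat_lit 5) (nat_lit 126) (nat_lit 5) (nat_lit 302) (nat_lit 278) (nat_lit 200)))) (XT.nd (nat_lit 78) (nat_lit 0) (nat_lit 0) (XT.lf (nat_lit 0) (nat_lit 736445698) (nat_lit 532) (nat_lit 1073526090) (nat_lit 608) (nat_lit 9168926534) (nat_lit 118) (nat_lit 5) (nat_lit 125) (nat_lit 5) (nat_lit 126) (nat_lit 5) (nat_lit 303) (nat_lit 278) (nat_lit 199)) (XT.nd (nat_lit 78) (nat_lit 0) (nat_lit 0) (XT.lf (nat_lit 0) (nat_lit 3277032093) (nat_lit 608) (nat_lit 5310719885) (nat_lit 76) (nat_lit 2569427614) (nat_lit 118) (nat_lit 5) (nat_lit 126) (nat_lit 5) (nat_lit 119) (nat_lit 5) (nat_lit 304) (nat_lit 278) (nat_lit 198)) (XT.lf (nat_lit 0) (nat_lit 4775482126) (nat_lit 608) (nat_lit 264368299) (nat_lit 76) (nat_lit 6301397296) (nat_lit 118) (nat_lit 5) (nat_lit 126) (nat_lit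 5) (nat_lit 119) (nat_lit 5) (nat_lit 305) (nat_lit 278) (nat_lit 197)))))) (XT.nd (nat_lit 468) (nat_lit 1216) (nat_lit 0) (XT.nd (nat_lit 234) (nat_lit 532) (nat_lit 0) (XT.nd (nat_lit 78) (nat_lit 456) (nat_lit 0) (XT.lf (nat_lit 0) (nat_lit 5009076073) (nat_lit 532) (nat_lit 1335386054) (nat_lit 608) (nat_lit 5185666490) (nat_lit 111) (nat_lit 5) (nat_lit 118) (nat_lit 5) (nat_lit 119) (nat_lit 5) (nat_lit 306) (nat_lit 278) (nat_lit 196)) (XT.nd (nat_lit 78) (nat_lit 456) (nat_lit 0) (XT.lf (nat_lit 0) (nat_lit 7964925599) (nat_lit 608) (nat_lit 1324870297) (nat_lit 76) (nat_lit 2434803951) (nat_lit 111) (nat_lit 5) (nat_lit 119) (nat_lit 5) (nat_lit 112) (nat_lit 5) (nat_lit 307) (nat_lit 278) (nat_lit 195)) (XT.lf (nat_lit 0) (nat_lit 4071533075) (nat_lit 456) (nat_lit 5593350696) (nat_lit 532) (nat_lit 2259149705) (nat_lit 105) (nat_lit 5) (nat_lit 111) (nat_lit 5) (nat_lit 112) (nat_lit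 5) (nat_lit 308) (nat_lit 278) (nat_lit 194)))) (XT.nd (nat_lit 78) (nat_lit 532) (nat_lit 0) (XT.lf (nat_lit 0) (nat_lit 9635308755) (nat_lit 456) (nat_lit 1772848828) (nat_lit 532) (nat_lit 721576120) (nat_lit 105) (nat_lit 5) (nat_lit 111) (nat_lit 5) (nat_lit 112) (nat_lit 5) (nat_lit 309) (nat_lit 278) (nat_lit 193)) (XT.nd (nat_lit 78) (nat_lit 0) (nat_lit 0) (XT.lf (nat_lit 0) (nat_lit 875109063) (nat_lit 532) (nat_lit 9308101786) (nat_lit 76) (nat_lit 2157301292) (nat_lit 98) (nat_lit 5) (nat_lit 105) (nat_lit 5) (nat_lit 99) (nat_lit 5) (nat_lit 310) (nat_lit 278) (nat_lit 192)) (XT.lf (nat_lit 0) (nat_lit 2527870393) (nat_lit 532) (nat_lit 3827567165) (nat_lit 76) (nat_lit 6201330275) (nat_lit 98) (nat_lit 5) (nat_lit 105) (nat_lit 5) (nat_lit 99) (nat_lit 5) (nat_lit 311) (nat_lit 278) (nat_lit 191))))) (XT.nd (nat_lit 234) (nat_lit 380) (nat_lit 0) (XT.nd (nat_lit 78) (nat_lit 456)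 (nat_lit 0) (XT.lf (nat_lit 0) (nat_lit 1831821933) (nat_lit 380) (nat_lit 2396280254) (nat_lit 456) (nat_lit 8551519556) (nat_lit 93) (nat_lit 5) (nat_lit 98) (nat_lit 5) (nat_lit 99) (nat_lit 5) (nat_lit 312) (nat_lit 278) (nat_lit 190)) (XT.nd (nat_lit 78) (nat_lit 456) (nat_lit 0) (XT.lf (nat_lit 0) (nat_lit 6015173416) (nat_lit 456) (nat_lit 5306802994) (nat_lit 76) (nat_lit 1686155685) (nat_lit 93) (nat_lit 5) (nat_lit 99) (nat_lit 5) (nat_lit 94) (nat_lit 5) (nat_lit 313) (nat_lit 278) (nat_lit 189)) (XT.lf (nat_lit 0) (nat_lit 467750350) (nat_lit 456) (nat_lit 7397526155) (nat_lit 532) (nat_lit 5377983127) (nat_lit 87) (nat_lit 5) (nat_lit 93) (nat_lit 5) (nat_lit 94) (nat_lit 5) (nat_lit 314) (nat_lit 278) (nat_lit 188)))) (XT.nd (nat_lit 78) (nat_lit 380) (nat_lit 0) (XT.lf (nat_lit 0) (nat_lit 6503455851) (nat_lit 456) (nat_lit 3302560046) (nat_lit 532) (nat_lit 3678414272) (nat_lit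 87) (nat_lit 5) (nat_lit 93) (nat_lit 5) (nat_lit 94) (nat_lit 5) (nat_lit 315) (nat_lit 278) (nat_lit 187)) (XT.nd (nat_lit 78) (nat_lit 380) (nat_lit 0) (XT.lf (nat_lit 0) (nat_lit 11795835371) (nat_lit 532) (nat_lit 1042219091) (nat_lit 76) (nat_lit 895097539) (nat_lit 87) (nat_lit 5) (nat_lit 94) (nat_lit 5) (nat_lit 88) (nat_lit 5) (nat_lit 316) (nat_lit 278) (nat_lit 186)) (XT.lf (nat_lit 0) (nat_lit 5121732174) (nat_lit 380) (nat_lit 8788131526) (nat_lit 456) (nat_lit 77577051) (nat_lit 82) (nat_lit 5) (nat_lit 87) (nat_lit 5) (nat_lit 88) (nat_lit 5) (nat_lit 317) (nat_lit 278) (nat_lit 185))))))))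
noncomputable def xc162 : XT := (XT.nd (nat_lit 1716) (nat_lit 1520) (nat_lit 0) (XT.nd (nat_lit 858) (nat_lit 1064) (nat_lit 0) (XT.nd (nat_lit 390) (nat_lit 1064) (nat_lit 0) (XT.nd (nat_lit 156) (nat_lit 304) (nat_lit 0) (XT.nd (nat_lit 78) (nat_lit 380) (nat_lit 0) (XT.lf (nat_lit 0) (nat_lit 1795407461) (nat_lit 456) (nat_lit 2795243904) (nat_lit 76) (nat_lit 9658415594) (nat_lit 81) (nat_lit 5) (nat_lit 87) (nat_lit 5) (nat_lit 82) (nat_lit 5) (nat_lit 318) (nat_lit 278) (nat_lit 184)) (XT.lf (nat_lit 0) (nat_lit 3505162865) (nat_lit 380) (nat_lit 234746679) (nat_lit 456) (nat_lit 10778139987) (nat_lit 76) (nat_lit 5) (nat_lit 81) (nat_lit 5) (nat_lit 82) (nat_lit 5) (nat_lit 319) (nat_lit 278) (nat_lit 183))) (XT.nd (nat_lit 78) (nat_lit 304) (nat_lit 0) (XT.lf (nat_lit 0) (nat_lit 5795588575) (nat_lit 456) (nat_lit 4803633367) (nat_lit 76) (nat_lit 4194330538) (nat_lit 76) (nat_lit 5)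 (nat_lit 82) (nat_lit 5) (nat_lit 77) (nat_lit 5) (nat_lit 320) (nat_lit 278) (nat_lit 182)) (XT.nd (nat_lit 78) (nat_lit 0) (nat_lit 0) (XT.lf (nat_lit 0) (nat_lit 1601296618) (nat_lit 304) (nat_lit 6313304528) (nat_lit 380) (nat_lit 7162704578) (nat_lit 72) (nat_lit 5) (nat_lit 76) (nat_lit 5) (nat_lit 77) (nat_lit 5) (nat_lit 321) (nat_lit 278) (nat_lit 181)) (XT.lf (nat_lit 0) (nat_lit 8277511935) (nat_lit 304) (nat_lit 1852407489) (nat_lit 380) (nat_lit 5238704161) (nat_lit 72) (nat_lit 5) (nat_lit 76) (nat_lit 5) (nat_lit 77) (nat_lit 5) (nat_lit 322) (nat_lit 278) (nat_lit 180))))) (XT.nd (nat_lit 234) (nat_lit 608) (nat_lit 0) (XT.nd (nat_lit 78) (nat_lit 456) (nat_lit 0) (XT.lf (nat_lit 0) (nat_lit 12422712274) (nat_lit 380) (nat_lit 560256598) (nat_lit 76) (nat_lit 2685414747) (nat_lit 72) (nat_lit 5) (nat_lit 77) (nat_lit 5) (nat_lit 73) (nat_lit 5) (nat_lit 323) (nat_lit 278) (nat_lit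 179)) (XT.nd (nat_lit 78) (nat_lit 76) (nat_lit 0) (XT.lf (nat_lit 0) (nat_lit 6251504356) (nat_lit 380) (nat_lit 8596319670) (nat_lit 456) (nat_lit 1127438496) (nat_lit 67) (nat_lit 5) (nat_lit 72) (nat_lit 5) (nat_lit 73) (nat_lit 5) (nat_lit 324) (nat_lit 278) (nat_lit 178)) (XT.lf (nat_lit 0) (nat_lit 1024662713) (nat_lit 456) (nat_lit 3041076821) (nat_lit 76) (nat_lit 12225607628) (nat_lit 66) (nat_lit 5) (nat_lit 72) (nat_lit 5) (nat_lit 67) (nat_lit 5) (nat_lit 325) (nat_lit 278) (nat_lit 177)))) (XT.nd (nat_lit 78) (nat_lit 304) (nat_lit 0) (XT.lf (nat_lit 0) (nat_lit 3247877240) (nat_lit 380) (nat_lit 12733598413) (nat_lit 76) (nat_lit 634256882) (nat_lit 62) (nat_lit 5) (nat_lit 67) (nat_lit 5) (nat_lit 63) (nat_lit 5) (nat_lit 326) (nat_lit 278) (nat_lit 176)) (XT.nd (nat_lit 78) (nat_lit 304) (nat_lit 0) (XT.lf (nat_lit 0) (nat_lit 5594876769) (nat_lit 380) (nat_lit 5932605180) (nat_lit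 76) (nat_lit 5420683405) (nat_lit 62) (nat_lit 5) (nat_lit 67) (nat_lit 5) (nat_lit 63) (nat_lit 5) (nat_lit 327) (nat_lit 278) (nat_lit 175)) (XT.lf (nat_lit 0) (nat_lit 1075443854) (nat_lit 304) (nat_lit 6933414000) (nat_lit 380) (nat_lit 9281843867) (nat_lit 58) (nat_lit 5) (nat_lit 62) (nat_lit 5) (nat_lit 63) (nat_lit 5) (nat_lit 328) (nat_lit 278) (nat_lit 174)))))) (XT.nd (nat_lit 390) (nat_lit 456) (nat_lit 0) (XT.nd (nat_lit 156) (nat_lit 608) (nat_lit 0) (XT.nd (nat_lit 78) (nat_lit 0) (nat_lit 0) (XT.lf (nat_lit 0) (nat_lit 8397563249) (nat_lit 304) (nat_lit 2144066559) (nat_lit 380) (nat_lit 7100520130) (nat_lit 58) (nat_lit 5) (nat_lit 62) (nat_lit 5) (nat_lit 63) (nat_lit 5) (nat_lit 329) (nat_lit 278) (nat_lit 173)) (XT.lf (nat_lit 0) (nat_lit 13164012498) (nat_lit 380) (nat_lit 2109251046) (nat_lit 76) (nat_lit 2730495348) (nat_lit 58) (nat_lit 5) (nat_lit 63) (nat_lit 5) (nat_lit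 59) (nat_lit 5) (nat_lit 330) (nat_lit 278) (nat_lit 172))) (XT.nd (nat_lit 78) (nat_lit 380) (nat_lit 0) (XT.lf (nat_lit 0) (nat_lit 5305309487) (nat_lit 228) (nat_lit 10619185751) (nat_lit 304) (nat_lit 2449963379) (nat_lit 55) (nat_lit 5) (nat_lit 58) (nat_lit 5) (nat_lit 59) (nat_lit 5) (nat_lit 331) (nat_lit 278) (nat_lit 171)) (XT.nd (nat_lit 78) (nat_lit 304) (nat_lit 0) (XT.lf (nat_lit 0) (nat_lit 20061855) (nat_lit 304) (nat_lit 5787659413) (nat_lit 76) (nat_lit 12948315447) (nat_lit 54) (nat_lit 5) (nat_lit 58) (nat_lit 5) (nat_lit 55) (nat_lit 5) (nat_lit 332) (nat_lit 278) (nat_lit 170)) (XT.lf (nat_lit 0) (nat_lit 1704539920) (nat_lit 304) (nat_lit 814425353) (nat_lit 380) (nat_lit 16629271800) (nat_lit 50) (nat_lit 5) (nat_lit 54) (nat_lit 5) (nat_lit 55) (nat_lit 5) (nat_lit 333) (nat_lit 278) (nat_lit 169))))) (XT.nd (nat_lit 234) (nat_lit 228) (nat_lit 0) (XT.nd (nat_lit 78)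 (nat_lit 228) (nat_lit 0) (XT.lf (nat_lit 0) (nat_lit 5181260897) (nat_lit 380) (nat_lit 10069412710) (nat_lit 76) (nat_lit 4298899611) (nat_lit 50) (nat_lit 5) (nat_lit 55) (nat_lit 5) (nat_lit 51) (nat_lit 5) (nat_lit 334) (nat_lit 278) (nat_lit 168)) (XT.nd (nat_lit 78) (nat_lit 228) (nat_lit 0) (XT.lf (nat_lit 0) (nat_lit 7919637182) (nat_lit 380) (nat_lit 2498391207) (nat_lit 76) (nat_lit 9545056579) (nat_lit 50) (nat_lit 5) (nat_lit 55) (nat_lit 5) (nat_lit 51) (nat_lit 5) (nat_lit 335) (nat_lit 278) (nat_lit 167)) (XT.lf (nat_lit 0) (nat_lit 5388969773) (nat_lit 228) (nat_lit 5391490430) (nat_lit 304) (nat_lit 9607354243) (nat_lit 47) (nat_lit 5) (nat_lit 50) (nat_lit 5) (nat_lit 51) (nat_lit 5) (nat_lit 336) (nat_lit 278) (nat_lit 166)))) (XT.nd (nat_lit 78) (nat_lit 228) (nat_lit 0) (XT.lf (nat_lit 0) (nat_lit 13548373144) (nat_lit 228) (nat_lit 192640329) (nat_lit 304) (nat_lit 7083875786)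 (nat_lit 47) (nat_lit 5) (nat_lit 50) (nat_lit 5) (nat_lit 51) (nat_lit 5) (nat_lit 337) (nat_lit 278) (nat_lit 165)) (XT.nd (nat_lit 78) (nat_lit 0) (nat_lit 0) (XT.lf (nat_lit 0) (nat_lit 624403546) (nat_lit 228) (nat_lit 16210568727) (nat_lit 304) (nat_lit 4438786394) (nat_lit 44) (nat_lit 5) (nat_lit 47) (nat_lit 5) (nat_lit 48) (nat_lit 5) (nat_lit 338) (nat_lit 278) (nat_lit 164)) (XT.lf (nat_lit 0) (nat_lit 8894079171) (nat_lit 228) (nat_lit 11192175173) (nat_lit 304) (nat_lit 1647924113) (nat_lit 44) (nat_lit 5) (nat_lit 47) (nat_lit 5) (nat_lit 48) (nat_lit 5) (nat_lit 339) (nat_lit 278) (nat_lit 163))))))) (XT.nd (nat_lit 858) (nat_lit 532) (nat_lit 0) (XT.nd (nat_lit 390) (nat_lit 456) (nat_lit 0) (XT.nd (nat_lit 156) (nat_lit 228) (nat_lit 0) (XT.nd (nat_lit 78) (nat_lit 228) (nat_lit 0) (XT.lf (nat_lit 0) (nat_lit 1192058204) (nat_lit 304) (nat_lit 4823624562) (nat_lit 76) (nat_lit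 16192712727) (nat_lit 43) (nat_lit 5) (nat_lit 47) (nat_lit 5) (nat_lit 44) (nat_lit 5) (nat_lit 340) (nat_lit 278) (nat_lit 162)) (XT.lf (nat_lit 0) (nat_lit 3469916226) (nat_lit 228) (nat_lit 637198633) (nat_lit 304) (nat_lit 18588562589) (nat_lit 40) (nat_lit 5) (nat_lit 43) (nat_lit 5) (nat_lit 44) (nat_lit 5) (nat_lit 341) (nat_lit 278) (nat_lit 161))) (XT.nd (nat_lit 78) (nat_lit 228) (nat_lit 0) (XT.lf (nat_lit 0) (nat_lit 7195700917) (nat_lit 304) (nat_lit 11147540702) (nat_lit 76) (nat_lit 4851771179) (nat_lit 40) (nat_lit 5) (nat_lit 44) (nat_lit 5) (nat_lit 41) (nat_lit 5) (nat_lit 342) (nat_lit 278) (nat_lit 160)) (XT.nd (nat_lit 78) (nat_lit 228) (nat_lit 0) (XT.lf (nat_lit 0) (nat_lit 10373310842) (nat_lit 304) (nat_lit 2847804292) (nat_lit 76) (nat_lit 10488338852) (nat_lit 40) (nat_lit 5) (nat_lit 44) (nat_lit 5) (nat_lit 41) (nat_lit 5) (nat_lit 343) (nat_lit 278) (nat_lit 159))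 (XT.lf (nat_lit 0) (nat_lit 5800004322) (nat_lit 228) (nat_lit 7892344911) (nat_lit 304) (nat_lit 10545612448) (nat_lit 37) (nat_lit 5) (nat_lit 40) (nat_lit 5) (nat_lit 41) (nat_lit 5) (nat_lit 344) (nat_lit 278) (nat_lit 158))))) (XT.nd (nat_lit 234) (nat_lit 304) (nat_lit 0) (XT.nd (nat_lit 78) (nat_lit 152) (nat_lit 0) (XT.lf (nat_lit 0) (nat_lit 14751663752) (nat_lit 228) (nat_lit 2378546198) (nat_lit 304) (nat_lit 7651552923) (nat_lit 37) (nat_lit 5) (nat_lit 40) (nat_lit 5) (nat_lit 41) (nat_lit 5) (nat_lit 345) (nat_lit 278) (nat_lit 157)) (XT.nd (nat_lit 78) (nat_lit 152) (nat_lit 0) (XT.lf (nat_lit 0) (nat_lit 20693663754) (nat_lit 304) (nat_lit 1415537825) (nat_lit 76) (nat_lit 3232018147) (nat_lit 37) (nat_lit 5) (nat_lit 41) (nat_lit 5) (nat_lit 38) (nat_lit 5) (nat_lit 346) (nat_lit 278) (nat_lit 156)) (XT.lf (nat_lit 0) (nat_lit 7568190416) (nat_lit 152) (nat_lit 16883130054)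 (nat_lit 228) (nat_lit 1463535730) (nat_lit 35) (nat_lit 5) (nat_lit 37) (nat_lit 5) (nat_lit 38) (nat_lit 5) (nat_lit 347) (nat_lit 278) (nat_lit 155)))) (XT.nd (nat_lit 78) (nat_lit 228) (nat_lit 0) (XT.lf (nat_lit 0) (nat_lit 1786035884) (nat_lit 228) (nat_lit 9685887092) (nat_lit 76) (nat_lit 15033105110) (nat_lit 34) (nat_lit 5) (nat_lit 37) (nat_lit 5) (nat_lit 35) (nat_lit 5) (nat_lit 348) (nat_lit 278) (nat_lit 154)) (XT.nd (nat_lit 78) (nat_lit 228) (nat_lit 0) (XT.lf (nat_lit 0) (nat_lit 5094972121) (nat_lit 228) (nat_lit 792847055) (nat_lit 76) (nat_lit 21224926077) (nat_lit 34) (nat_lit 5) (nat_lit 37) (nat_lit 5) (nat_lit 35) (nat_lit 5) (nat_lit 349) (nat_lit 278) (nat_lit 153)) (XT.lf (nat_lit 0) (nat_lit 8520560161) (nat_lit 228) (nat_lit 56067811) (nat_lit 304) (nat_lit 19159875652) (nat_lit 31) (nat_lit 5) (nat_lit 34) (nat_lit 5) (nat_lit 35) (nat_lit 5) (nat_lit 350) (nat_lit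 278) (nat_lit 152)))))) (XT.nd (nat_lit 468) (nat_lit 152) (nat_lit 0) (XT.nd (nat_lit 234) (nat_lit 228) (nat_lit 0) (XT.nd (nat_lit 78) (nat_lit 152) (nat_lit 0) (XT.lf (nat_lit 0) (nat_lit 12219651489) (nat_lit 304) (nat_lit 10319181164) (nat_lit 76) (nat_lit 5838447403) (nat_lit 31) (nat_lit 5) (nat_lit 35) (nat_lit 5) (nat_lit 32) (nat_lit 5) (nat_lit 351) (nat_lit 278) (nat_lit 151)) (XT.nd (nat_lit 78) (nat_lit 152) (nat_lit 0) (XT.lf (nat_lit 0) (nat_lit 15964395949) (nat_lit 304) (nat_lit 1168487006) (nat_lit 76) (nat_lit 11904636393) (nat_lit 31) (nat_lit 5) (nat_lit 35) (nat_lit 5) (nat_lit 32) (nat_lit 5) (nat_lit 352) (nat_lit 278) (nat_lit 150)) (XT.lf (nat_lit 0) (nat_lit 8408758891) (nat_lit 152) (nat_lit 11485665744) (nat_lit 228) (nat_lit 9820965038) (nat_lit 29) (nat_lit 5) (nat_lit 31) (nat_lit 5) (nat_lit 32) (nat_lit 5) (nat_lit 353) (nat_lit 278) (nat_lit 149)))) (XT.nd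 (nat_lit 78) (nat_lit 228) (nat_lit 0) (XT.lf (nat_lit 0) (nat_lit 18285338926) (nat_lit 152) (nat_lit 5661041460) (nat_lit 228) (nat_lit 6467106695) (nat_lit 29) (nat_lit 5) (nat_lit 31) (nat_lit 5) (nat_lit 32) (nat_lit 5) (nat_lit 354) (nat_lit 278) (nat_lit 148)) (XT.nd (nat_lit 78) (nat_lit 228) (nat_lit 0) (XT.lf (nat_lit 0) (nat_lit 28115561293) (nat_lit 228) (nat_lit 2689350598) (nat_lit 76) (nat_lit 327756940) (nat_lit 29) (nat_lit 5) (nat_lit 32) (nat_lit 5) (nat_lit 30) (nat_lit 5) (nat_lit 355) (nat_lit 278) (nat_lit 147)) (XT.lf (nat_lit 0) (nat_lit 644042565) (nat_lit 228) (nat_lit 24772505763) (nat_lit 76) (nat_lit 6453190247) (nat_lit 26) (nat_lit 5) (nat_lit 29) (nat_lit 5) (nat_lit 27) (nat_lit 5) (nat_lit 356) (nat_lit 278) (nat_lit 146))))) (XT.nd (nat_lit 234) (nat_lit 0) (nat_lit 0) (XT.nd (nat_lit 78) (nat_lit 152) (nat_lit 0) (XT.lf (nat_lit 0) (nat_lit 4374470775) (nat_lit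 228) (nat_lit 15437192590) (nat_lit 76) (nat_lit 12815768789) (nat_lit 26) (nat_lit 5) (nat_lit 29) (nat_lit 5) (nat_lit 27) (nat_lit 5) (nat_lit 357) (nat_lit 278) (nat_lit 145)) (XT.nd (nat_lit 78) (nat_lit 152) (nat_lit 0) (XT.lf (nat_lit 0) (nat_lit 8209684090) (nat_lit 228) (nat_lit 5832973842) (nat_lit 76) (nat_lit 19365422582) (nat_lit 26) (nat_lit 5) (nat_lit 29) (nat_lit 5) (nat_lit 27) (nat_lit 5) (nat_lit 358) (nat_lit 278) (nat_lit 144)) (XT.lf (nat_lit 0) (nat_lit 4129116448) (nat_lit 152) (nat_lit 8063608812) (nat_lit 228) (nat_lit 22018449770) (nat_lit 24) (nat_lit 5) (nat_lit 26) (nat_lit 5) (nat_lit 27) (nat_lit 5) (nat_lit 359) (nat_lit 278) (nat_lit 143)))) (XT.nd (nat_lit 78) (nat_lit 0) (nat_lit 0) (XT.lf (nat_lit 0) (nat_lit 14498916907) (nat_lit 152) (nat_lit 1848420703) (nat_lit 228) (nat_lit 18689471933) (nat_lit 24) (nat_lit 5) (nat_lit 26) (nat_lit 5) (nat_lit 27)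 (nat_lit 5) (nat_lit 360) (nat_lit 278) (nat_lit 142)) (XT.nd (nat_lit 78) (nat_lit 0) (nat_lit 0) (XT.lf (nat_lit 0) (nat_lit 20663697324) (nat_lit 228) (nat_lit 10761752113) (nat_lit 76) (nat_lit 4460659668) (nat_lit 24) (nat_lit 5) (nat_lit 27) (nat_lit 5) (nat_lit 25) (nat_lit 5) (nat_lit 361) (nat_lit 278) (nat_lit 141)) (XT.lf (nat_lit 0) (nat_lit 25121383613) (nat_lit 228) (nat_lit 720902391) (nat_lit 76) (nat_lit 10918255588) (nat_lit 24) (nat_lit 5) (nat_lit 27) (nat_lit 5) (nat_lit 25) (nat_lit 5) (nat_lit 362) (nat_lit 278) (nat_lit 140))))))))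
noncomputable def xc163 : XT := (XT.nd (nat_lit 1794) (nat_lit 228) (nat_lit 0) (XT.nd (nat_lit 858) (nat_lit 380) (nat_lit 0) (XT.nd (nat_lit 390) (nat_lit 152) (nat_lit 0) (XT.nd (nat_lit 156) (nat_lit 228) (nat_lit 0) (XT.nd (nat_lit 78) (nat_lit 0) (nat_lit 0) (XT.lf (nat_lit 0) (nat_lit 9802479930) (nat_lit 152) (nat_lit 19998270897) (nat_lit 228) (nat_lit 7857826466) (nat_lit 22) (nat_lit 5) (nat_lit 24) (nat_lit 5) (nat_lit 25) (nat_lit 5) (nat_lit 363) (nat_lit 278) (nat_lit 139)) (XT.lf (nat_lit 0) (nat_lit 20646464720) (nat_lit 152) (nat_lit 13975124827) (nat_lit 228) (nat_lit 3961940297) (nat_lit 22) (nat_lit 5) (nat_lit 24) (nat_lit 5) (nat_lit 25) (nat_lit 5) (nat_lit 364) (nat_lit 278) (nat_lit 138))) (XT.nd (nat_lit 78) (nat_lit 152) (nat_lit 0) (XT.lf (nat_lit 0) (nat_lit 43754202) (nat_lit 228) (nat_lit 7730668517) (nat_lit 76) (nat_lit 31761983900) (nat_lit 21) (nat_lit 5)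 (nat_lit 24) (nat_lit 5) (nat_lit 22) (nat_lit 5) (nat_lit 365) (nat_lit 278) (nat_lit 137)) (XT.nd (nat_lit 78) (nat_lit 0) (nat_lit 0) (XT.lf (nat_lit 0) (nat_lit 2787655035) (nat_lit 152) (nat_lit 1323230533) (nat_lit 228) (nat_lit 36405188177) (nat_lit 19) (nat_lit 5) (nat_lit 21) (nat_lit 5) (nat_lit 22) (nat_lit 5) (nat_lit 366) (nat_lit 278) (nat_lit 136)) (XT.lf (nat_lit 0) (nat_lit 8424170478) (nat_lit 228) (nat_lit 27804206630) (nat_lit 76) (nat_lit 5293037134) (nat_lit 19) (nat_lit 5) (nat_lit 22) (nat_lit 5) (nat_lit 20) (nat_lit 5) (nat_lit 367) (nat_lit 278) (nat_lit 135))))) (XT.nd (nat_lit 234) (nat_lit 0) (nat_lit 0) (XT.nd (nat_lit 78) (nat_lit 152) (nat_lit 0) (XT.lf (nat_lit 0) (nat_lit 12874274259) (nat_lit 228) (nat_lit 17604583752) (nat_lit 76) (nat_lit 12077841662) (nat_lit 19) (nat_lit 5) (nat_lit 22) (nat_lit 5) (nat_lit 20) (nat_lit 5) (nat_lit 368) (nat_lit 278) (nat_lit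 134)) (XT.nd (nat_lit 78) (nat_lit 152) (nat_lit 0) (XT.lf (nat_lit 0) (nat_lit 17452365651) (nat_lit 228) (nat_lit 7107918081) (nat_lit 76) (nat_lit 19062932513) (nat_lit 19) (nat_lit 5) (nat_lit 22) (nat_lit 5) (nat_lit 20) (nat_lit 5) (nat_lit 369) (nat_lit 278) (nat_lit 133)) (XT.lf (nat_lit 0) (nat_lit 3768499217) (nat_lit 152) (nat_lit 18430170830) (nat_lit 228) (nat_lit 22522139067) (nat_lit 17) (nat_lit 5) (nat_lit 19) (nat_lit 5) (nat_lit 20) (nat_lit 5) (nat_lit 370) (nat_lit 278) (nat_lit 132)))) (XT.nd (nat_lit 78) (nat_lit 0) (nat_lit 0) (XT.lf (nat_lit 0) (nat_lit 15108314204) (nat_lit 152) (nat_lit 12045543848) (nat_lit 228) (nat_lit 18695483589) (nat_lit 17) (nat_lit 5) (nat_lit 19) (nat_lit 5) (nat_lit 20) (nat_lit 5) (nat_lit 371) (nat_lit 278) (nat_lit 131)) (XT.nd (nat_lit 78) (nat_lit 0) (nat_lit 0) (XT.lf (nat_lit 0) (nat_lit 26779973947) (nat_lit 152) (nat_lit 5472600020)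 (nat_lit 228) (nat_lit 14759316519) (nat_lit 17) (nat_lit 5) (nat_lit 19) (nat_lit 5) (nat_lit 20) (nat_lit 5) (nat_lit 372) (nat_lit 278) (nat_lit 130)) (XT.lf (nat_lit 0) (nat_lit 37511715586) (nat_lit 228) (nat_lit 9428237088) (nat_lit 76) (nat_lit 1269145516) (nat_lit 17) (nat_lit 5) (nat_lit 20) (nat_lit 5) (nat_lit 18) (nat_lit 4) (nat_lit 373) (nat_lit 278) (nat_lit 129)))))) (XT.nd (nat_lit 468) (nat_lit 76) (nat_lit 0) (XT.nd (nat_lit 234) (nat_lit 152) (nat_lit 0) (XT.nd (nat_lit 78) (nat_lit 76) (nat_lit 0) (XT.lf (nat_lit 0) (nat_lit 1669963255) (nat_lit 76) (nat_lit 41324042496) (nat_lit 152) (nat_lit 6446261283) (nat_lit 16) (nat_lit 5) (nat_lit 17) (nat_lit 5) (nat_lit 18) (nat_lit 4) (nat_lit 374) (nat_lit 278) (nat_lit 128)) (XT.nd (nat_lit 78) (nat_lit 76) (nat_lit 0) (XT.lf (nat_lit 0) (nat_lit 13286465250) (nat_lit 76) (nat_lit 35444709062) (nat_lit 152) (nat_lit 1974490296)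 (nat_lit 16) (nat_lit 5) (nat_lit 17) (nat_lit 5) (nat_lit 18) (nat_lit 4) (nat_lit 375) (nat_lit 278) (nat_lit 127)) (XT.lf (nat_lit 0) (nat_lit 2575375988) (nat_lit 152) (nat_lit 26790639563) (nat_lit 76) (nat_lit 22642396600) (nat_lit 15) (nat_lit 5) (nat_lit 17) (nat_lit 5) (nat_lit 16) (nat_lit 5) (nat_lit 376) (nat_lit 278) (nat_lit 126)))) (XT.nd (nat_lit 78) (nat_lit 152) (nat_lit 0) (XT.lf (nat_lit 0) (nat_lit 7217481038) (nat_lit 152) (nat_lit 15870328507) (nat_lit 76) (nat_lit 30261988702) (nat_lit 15) (nat_lit 5) (nat_lit 17) (nat_lit 5) (nat_lit 16) (nat_lit 5) (nat_lit 377) (nat_lit 278) (nat_lit 125)) (XT.nd (nat_lit 78) (nat_lit 152) (nat_lit 0) (XT.lf (nat_lit 0) (nat_lit 11994410481) (nat_lit 152) (nat_lit 4629744160) (nat_lit 76) (nat_lit 38107409742) (nat_lit 15) (nat_lit 5) (nat_lit 17) (nat_lit 5) (nat_lit 16) (nat_lit 5) (nat_lit 378) (nat_lit 278) (nat_lit 124)) (XT.lf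 (nat_lit 0) (nat_lit 7079073569) (nat_lit 152) (nat_lit 9899313149) (nat_lit 228) (nat_lit 39174489757) (nat_lit 13) (nat_lit 5) (nat_lit 15) (nat_lit 5) (nat_lit 16) (nat_lit 5) (nat_lit 379) (nat_lit 278) (nat_lit 123))))) (XT.nd (nat_lit 234) (nat_lit 76) (nat_lit 0) (XT.nd (nat_lit 78) (nat_lit 0) (nat_lit 0) (XT.lf (nat_lit 0) (nat_lit 19227008503) (nat_lit 152) (nat_lit 2927373326) (nat_lit 228) (nat_lit 35461176102) (nat_lit 13) (nat_lit 5) (nat_lit 15) (nat_lit 5) (nat_lit 16) (nat_lit 5) (nat_lit 380) (nat_lit 278) (nat_lit 122)) (XT.nd (nat_lit 78) (nat_lit 0) (nat_lit 0) (XT.lf (nat_lit 0) (nat_lit 27522392148) (nat_lit 228) (nat_lit 27430577423) (nat_lit 76) (nat_lit 4168053044) (nat_lit 13) (nat_lit 5) (nat_lit 16) (nat_lit 5) (nat_lit 14) (nat_lit 4) (nat_lit 381) (nat_lit 278) (nat_lit 121)) (XT.lf (nat_lit 0) (nat_lit 33076393611) (nat_lit 228) (nat_lit 16179597407) (nat_lit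 76) (nat_lit 11414916401) (nat_lit 13) (nat_lit 5) (nat_lit 16) (nat_lit 5) (nat_lit 14) (nat_lit 4) (nat_lit 382) (nat_lit 278) (nat_lit 120)))) (XT.nd (nat_lit 78) (nat_lit 76) (nat_lit 0) (XT.lf (nat_lit 0) (nat_lit 38793099526) (nat_lit 228) (nat_lit 4597638723) (nat_lit 76) (nat_lit 18876672551) (nat_lit 13) (nat_lit 5) (nat_lit 16) (nat_lit 5) (nat_lit 14) (nat_lit 4) (nat_lit 383) (nat_lit 278) (nat_lit 119)) (XT.nd (nat_lit 78) (nat_lit 0) (nat_lit 0) (XT.lf (nat_lit 0) (nat_lit 7471208983) (nat_lit 76) (nat_lit 37278113920) (nat_lit 152) (nat_lit 19160450324) (nat_lit 12) (nat_lit 5) (nat_lit 13) (nat_lit 5) (nat_lit 14) (nat_lit 4) (nat_lit 384) (nat_lit 278) (nat_lit 118)) (XT.lf (nat_lit 0) (nat_lit 19990071626) (nat_lit 76) (nat_lit 30936837137) (nat_lit 152) (nat_lit 14673221796) (nat_lit 12) (nat_lit 5) (nat_lit 13) (nat_lit 5) (nat_lit 14) (nat_lit 4) (nat_lit 385) (nat_lit 278)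 (nat_lit 117))))))) (XT.nd (nat_lit 32604) (nat_lit 0) (nat_lit 11476) (XT.nd (nat_lit 390) (nat_lit 0) (nat_lit 0) (XT.nd (nat_lit 156) (nat_lit 228) (nat_lit 0) (XT.nd (nat_lit 78) (nat_lit 0) (nat_lit 0) (XT.lf (nat_lit 0) (nat_lit 32878385989) (nat_lit 76) (nat_lit 24407794113) (nat_lit 152) (nat_lit 10055131948) (nat_lit 12) (nat_lit 5) (nat_lit 13) (nat_lit 5) (nat_lit 14) (nat_lit 4) (nat_lit 386) (nat_lit 278) (nat_lit 116)) (XT.lf (nat_lit 0) (nat_lit 46147413708) (nat_lit 76) (nat_lit 17685279861) (nat_lit 152) (nat_lit 5302145556) (nat_lit 12) (nat_lit 5) (nat_lit 13) (nat_lit 5) (nat_lit 14) (nat_lit 4) (nat_lit 387) (nat_lit 278) (nat_lit 115))) (XT.nd (nat_lit 78) (nat_lit 228) (nat_lit 0) (XT.lf (nat_lit 0) (nat_lit 59808749079) (nat_lit 76) (nat_lit 10763420338) (nat_lit 152) (nat_lit 410109525) (nat_lit 12) (nat_lit 5) (nat_lit 13) (nat_lit 5) (nat_lit 14) (nat_lit 4) (nat_lit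 388) (nat_lit 278) (nat_lit 114)) (XT.nd (nat_lit 78) (nat_lit 0) (nat_lit 0) (XT.lf (nat_lit 0) (nat_lit 963422524) (nat_lit 152) (nat_lit 3580833920) (nat_lit 228) (nat_lit 68339377672) (nat_lit 9) (nat_lit 5) (nat_lit 11) (nat_lit 5) (nat_lit 12) (nat_lit 5) (nat_lit 389) (nat_lit 278) (nat_lit 113)) (XT.lf (nat_lit 0) (nat_lit 9786304498) (nat_lit 228) (nat_lit 61192678264) (nat_lit 76) (nat_lit 3858510156) (nat_lit 9) (nat_lit 5) (nat_lit 12) (nat_lit 5) (nat_lit 10) (nat_lit 4) (nat_lit 390) (nat_lit 278) (nat_lit 112))))) (XT.nd (nat_lit 31980) (nat_lit 0) (nat_lit 13072) (XT.nd (nat_lit 78) (nat_lit 0) (nat_lit 0) (XT.lf (nat_lit 0) (nat_lit 15217817766) (nat_lit 228) (nat_lit 50184298907) (nat_lit 76) (nat_lit 11446888197) (nat_lit 9) (nat_lit 5) (nat_lit 12) (nat_lit 5) (nat_lit 10) (nat_lit 4) (nat_lit 391) (nat_lit 278) (nat_lit 111)) (XT.nd (nat_lit 31824) (nat_lit 0) (nat_lit 13072)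 (XT.lf (nat_lit 0) (nat_lit 20809121064) (nat_lit 228) (nat_lit 38851033383) (nat_lit 76) (nat_lit 19260805793) (nat_lit 9) (nat_lit 5) (nat_lit 12) (nat_lit 5) (nat_lit 10) (nat_lit 4) (nat_lit 392) (nat_lit 278) (nat_lit 110)) (XT.lf (nat_lit 0) (nat_lit 329307159) (nat_lit 0) (nat_lit 329307159) (nat_lit 836) (nat_lit 3360270942) (nat_lit 181) (nat_lit 5) (nat_lit 181) (nat_lit 3) (nat_lit 192) (nat_lit 3) (nat_lit 279) (nat_lit 279) (nat_lit 222)))) (XT.nd (nat_lit 78) (nat_lit 0) (nat_lit 0) (XT.lf (nat_lit 0) (nat_lit 2423917585) (nat_lit 836) (nat_lit 4048558265) (nat_lit 912) (nat_lit 1649951122) (nat_lit 181) (nat_lit 5) (nat_lit 192) (nat_lit 3) (nat_lit 193) (nat_lit 5) (nat_lit 280) (nat_lit 279) (nat_lit 221)) (XT.nd (nat_lit 78) (nat_lit 0) (nat_lit 0) (XT.lf (nat_lit 0) (nat_lit 3528740427) (nat_lit 836) (nat_lit 647040981) (nat_lit 912) (nat_lit 4035022587) (nat_lit 181) (nat_lit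 5) (nat_lit 192) (nat_lit 3) (nat_lit 193) (nat_lit 5) (nat_lit 281) (nat_lit 279) (nat_lit 220)) (XT.lf (nat_lit 76) (nat_lit 2891114917) (nat_lit 0) (nat_lit 1763007789) (nat_lit 912) (nat_lit 3648212302) (nat_lit 182) (nat_lit 5) (nat_lit 181) (nat_lit 5) (nat_lit 193) (nat_lit 5) (nat_lit 282) (nat_lit 279) (nat_lit 219)))))) (XT.nd (nat_lit 468) (nat_lit 836) (nat_lit 0) (XT.nd (nat_lit 234) (nat_lit 836) (nat_lit 0) (XT.nd (nat_lit 78) (nat_lit 0) (nat_lit 0) (XT.lf (nat_lit 0) (nat_lit 5787569704) (nat_lit 836) (nat_lit 1877827003) (nat_lit 912) (nat_lit 732107624) (nat_lit 182) (nat_lit 5) (nat_lit 193) (nat_lit 5) (nat_lit 194) (nat_lit 5) (nat_lit 283) (nat_lit 279) (nat_lit 218)) (XT.nd (nat_lit 78) (nat_lit 0) (nat_lit 0) (XT.lf (nat_lit 76) (nat_lit 1755966088) (nat_lit 0) (nat_lit 5195294767) (nat_lit 912) (nat_lit 1544498596) (nat_lit 183) (nat_lit 5) (nat_lit 182) (nat_lit 5)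 (nat_lit 194) (nat_lit 5) (nat_lit 284) (nat_lit 279) (nat_lit 217)) (XT.lf (nat_lit 76) (nat_lit 5515074815) (nat_lit 0) (nat_lit 2616552316) (nat_lit 912) (nat_lit 465996665) (nat_lit 183) (nat_lit 5) (nat_lit 182) (nat_lit 5) (nat_lit 194) (nat_lit 5) (nat_lit 285) (nat_lit 279) (nat_lit 216)))) (XT.nd (nat_lit 78) (nat_lit 0) (nat_lit 0) (XT.lf (nat_lit 0) (nat_lit 602767126) (nat_lit 912) (nat_lit 8035127396) (nat_lit 988) (nat_lit 65456806) (nat_lit 171) (nat_lit 5) (nat_lit 183) (nat_lit 5) (nat_lit 184) (nat_lit 5) (nat_lit 286) (nat_lit 279) (nat_lit 215)) (XT.nd (nat_lit 78) (nat_lit 0) (nat_lit 0) (XT.lf (nat_lit 0) (nat_lit 1715971848) (nat_lit 912) (nat_lit 4270905080) (nat_lit 988) (nat_lit 2824687810) (nat_lit 171) (nat_lit 5) (nat_lit 183) (nat_lit 5) (nat_lit 184) (nat_lit 5) (nat_lit 287) (nat_lit 279) (nat_lit 214)) (XT.lf (nat_lit 0) (nat_lit 2828011287) (nat_lit 912) (nat_lit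 416541539) (nat_lit 988) (nat_lit 5679610299) (nat_lit 171) (nat_lit 5) (nat_lit 183) (nat_lit 5) (nat_lit 184) (nat_lit 5) (nat_lit 288) (nat_lit 279) (nat_lit 213))))) (XT.nd (nat_lit 234) (nat_lit 836) (nat_lit 0) (XT.nd (nat_lit 78) (nat_lit 0) (nat_lit 76) (XT.lf (nat_lit 76) (nat_lit 3601611528) (nat_lit 0) (nat_lit 372866494) (nat_lit 988) (nat_lit 5065728232) (nat_lit 172) (nat_lit 5) (nat_lit 171) (nat_lit 5) (nat_lit 184) (nat_lit 5) (nat_lit 289) (nat_lit 279) (nat_lit 212)) (XT.nd (nat_lit 78) (nat_lit 0) (nat_lit 0) (XT.lf (nat_lit 0) (nat_lit 5151751572) (nat_lit 912) (nat_lit 1458735634) (nat_lit 988) (nat_lit 2549446983) (nat_lit 172) (nat_lit 5) (nat_lit 184) (nat_lit 5) (nat_lit 185) (nat_lit 5) (nat_lit 290) (nat_lit 279) (nat_lit 211)) (XT.lf (nat_lit 76) (nat_lit 2666442821) (nat_lit 0) (nat_lit 3695492272) (nat_lit 988) (nat_lit 2921484218) (nat_lit 173) (nat_lit 5) (nat_lit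 172) (nat_lit 5) (nat_lit 185) (nat_lit 5) (nat_lit 291) (nat_lit 279) (nat_lit 210)))) (XT.nd (nat_lit 78) (nat_lit 912) (nat_lit 0) (XT.lf (nat_lit 76) (nat_lit 6923082486) (nat_lit 0) (nat_lit 669051390) (nat_lit 988) (nat_lit 1819054208) (nat_lit 173) (nat_lit 5) (nat_lit 172) (nat_lit 5) (nat_lit 185) (nat_lit 5) (nat_lit 292) (nat_lit 279) (nat_lit 209)) (XT.nd (nat_lit 78) (nat_lit 988) (nat_lit 0) (XT.lf (nat_lit 76) (nat_lit 1752675087) (nat_lit 0) (nat_lit 7116910000) (nat_lit 988) (nat_lit 672982196) (nat_lit 174) (nat_lit 5) (nat_lit 173) (nat_lit 5) (nat_lit 186) (nat_lit 5) (nat_lit 293) (nat_lit 279) (nat_lit 208)) (XT.lf (nat_lit 0) (nat_lit 499817711) (nat_lit 988) (nat_lit 3540279256) (nat_lit 1064) (nat_lit 5637659818) (nat_lit 160) (nat_lit 5) (nat_lit 173) (nat_lit 5) (nat_lit 174) (nat_lit 5) (nat_lit 294) (nat_lit 279) (nat_lit 207))))))))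
noncomputable def xc164 : XT := (XT.nd (nat_lit 1716) (nat_lit 3268) (nat_lit 0) (XT.nd (nat_lit 858) (nat_lit 2356) (nat_lit 0) (XT.nd (nat_lit 390) (nat_lit 2280) (nat_lit 0) (XT.nd (nat_lit 156) (nat_lit 912) (nat_lit 0) (XT.nd (nat_lit 78) (nat_lit 0) (nat_lit 76) (XT.lf (nat_lit 76) (nat_lit 823830014) (nat_lit 0) (nat_lit 849481302) (nat_lit 1064) (nat_lit 8144199992) (nat_lit 161) (nat_lit 5) (nat_lit 160) (nat_lit 5) (nat_lit 174) (nat_lit 5) (nat_lit 295) (nat_lit 279) (nat_lit 206)) (XT.lf (nat_lit 0) (nat_lit 2913341255) (nat_lit 988) (nat_lit 4615898712) (nat_lit 76) (nat_lit 2431356525) (nat_lit 161) (nat_lit 5) (nat_lit 174) (nat_lit 5) (nat_lit 162) (nat_lit 5) (nat_lit 296) (nat_lit 279) (nat_lit 205))) (XT.nd (nat_lit 78) (nat_lit 988) (nat_lit 0) (XT.lf (nat_lit 0) (nat_lit 4171607232) (nat_lit 988) (nat_lit 137687612) (nat_lit 76) (nat_lit 5799324034) (nat_lit 161) (nat_lit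 5) (nat_lit 174) (nat_lit 5) (nat_lit 162) (nat_lit 5) (nat_lit 297) (nat_lit 279) (nat_lit 204)) (XT.nd (nat_lit 78) (nat_lit 0) (nat_lit 0) (XT.lf (nat_lit 0) (nat_lit 4541654784) (nat_lit 988) (nat_lit 943045349) (nat_lit 1064) (nat_lit 4775942930) (nat_lit 148) (nat_lit 5) (nat_lit 161) (nat_lit 5) (nat_lit 162) (nat_lit 5) (nat_lit 298) (nat_lit 279) (nat_lit 203)) (XT.lf (nat_lit 0) (nat_lit 6836884239) (nat_lit 1064) (nat_lit 1099783047) (nat_lit 76) (nat_lit 2480641091) (nat_lit 148) (nat_lit 5) (nat_lit 162) (nat_lit 5) (nat_lit 149) (nat_lit 5) (nat_lit 299) (nat_lit 279) (nat_lit 202))))) (XT.nd (nat_lit 234) (nat_lit 532) (nat_lit 0) (XT.nd (nat_lit 78) (nat_lit 684) (nat_lit 0) (XT.lf (nat_lit 0) (nat_lit 3698978691) (nat_lit 1064) (nat_lit 4550335709) (nat_lit 1140) (nat_lit 2328838111) (nat_lit 134) (nat_lit 5) (nat_lit 148) (nat_lit 5) (nat_lit 149) (nat_lit 5) (nat_lit 300)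 (nat_lit 279) (nat_lit 201)) (XT.nd (nat_lit 78) (nat_lit 684) (nat_lit 0) (XT.lf (nat_lit 0) (nat_lit 8642599131) (nat_lit 1064) (nat_lit 1047936862) (nat_lit 1140) (nat_lit 1053760679) (nat_lit 134) (nat_lit 5) (nat_lit 148) (nat_lit 5) (nat_lit 149) (nat_lit 5) (nat_lit 301) (nat_lit 279) (nat_lit 200)) (XT.lf (nat_lit 0) (nat_lit 282562739) (nat_lit 684) (nat_lit 8089575292) (nat_lit 76) (nat_lit 2542433907) (nat_lit 125) (nat_lit 5) (nat_lit 134) (nat_lit 5) (nat_lit 126) (nat_lit 5) (nat_lit 302) (nat_lit 279) (nat_lit 199)))) (XT.nd (nat_lit 78) (nat_lit 532) (nat_lit 0) (XT.lf (nat_lit 0) (nat_lit 1645860494) (nat_lit 684) (nat_lit 3189914257) (nat_lit 76) (nat_lit 6253687339) (nat_lit 125) (nat_lit 5) (nat_lit 134) (nat_lit 5) (nat_lit 126) (nat_lit 5) (nat_lit 303) (nat_lit 279) (nat_lit 198)) (XT.nd (nat_lit 78) (nat_lit 0) (nat_lit 0) (XT.lf (nat_lit 0) (nat_lit 1871755602) (nat_lit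 532) (nat_lit 1173241040) (nat_lit 608) (nat_lit 8224813879) (nat_lit 118) (nat_lit 5) (nat_lit 125) (nat_lit 5) (nat_lit 126) (nat_lit 5) (nat_lit 304) (nat_lit 279) (nat_lit 197)) (XT.lf (nat_lit 0) (nat_lit 4521048649) (nat_lit 608) (nat_lit 4351283983) (nat_lit 76) (nat_lit 2582246539) (nat_lit 118) (nat_lit 5) (nat_lit 126) (nat_lit 5) (nat_lit 119) (nat_lit 5) (nat_lit 305) (nat_lit 279) (nat_lit 196)))))) (XT.nd (nat_lit 390) (nat_lit 1292) (nat_lit 0) (XT.nd (nat_lit 156) (nat_lit 532) (nat_lit 0) (XT.nd (nat_lit 78) (nat_lit 0) (nat_lit 0) (XT.lf (nat_lit 0) (nat_lit 830070648) (nat_lit 532) (nat_lit 5208990616) (nat_lit 608) (nat_lit 5605955574) (nat_lit 111) (nat_lit 5) (nat_lit 118) (nat_lit 5) (nat_lit 119) (nat_lit 5) (nat_lit 306) (nat_lit 279) (nat_lit 195)) (XT.lf (nat_lit 0) (nat_lit 6234871935) (nat_lit 532) (nat_lit 1390200052) (nat_lit 608) (nat_lit 4215476603) (nat_lit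 111) (nat_lit 5) (nat_lit 118) (nat_lit 5) (nat_lit 119) (nat_lit 5) (nat_lit 307) (nat_lit 279) (nat_lit 194))) (XT.nd (nat_lit 78) (nat_lit 532) (nat_lit 0) (XT.lf (nat_lit 0) (nat_lit 9262256072) (nat_lit 608) (nat_lit 285830702) (nat_lit 76) (nat_lit 2493804823) (nat_lit 111) (nat_lit 5) (nat_lit 119) (nat_lit 5) (nat_lit 112) (nat_lit 5) (nat_lit 308) (nat_lit 279) (nat_lit 193)) (XT.nd (nat_lit 78) (nat_lit 76) (nat_lit 0) (XT.lf (nat_lit 0) (nat_lit 5261888441) (nat_lit 456) (nat_lit 5730766150) (nat_lit 532) (nat_lit 1255348885) (nat_lit 105) (nat_lit 5) (nat_lit 111) (nat_lit 5) (nat_lit 112) (nat_lit 5) (nat_lit 309) (nat_lit 279) (nat_lit 192)) (XT.lf (nat_lit 0) (nat_lit 291342684) (nat_lit 532) (nat_lit 1502249554) (nat_lit 76) (nat_lit 10667179823) (nat_lit 104) (nat_lit 5) (nat_lit 111) (nat_lit 5) (nat_lit 105) (nat_lit 5) (nat_lit 310) (nat_lit 279) (nat_lit 191))))) (XT.nd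 (nat_lit 234) (nat_lit 456) (nat_lit 0) (XT.nd (nat_lit 78) (nat_lit 380) (nat_lit 0) (XT.lf (nat_lit 0) (nat_lit 1902274387) (nat_lit 532) (nat_lit 8505935680) (nat_lit 76) (nat_lit 2270095814) (nat_lit 98) (nat_lit 5) (nat_lit 105) (nat_lit 5) (nat_lit 99) (nat_lit 5) (nat_lit 311) (nat_lit 279) (nat_lit 190)) (XT.nd (nat_lit 78) (nat_lit 380) (nat_lit 0) (XT.lf (nat_lit 0) (nat_lit 3575465779) (nat_lit 532) (nat_lit 2892482375) (nat_lit 76) (nat_lit 6434045410) (nat_lit 98) (nat_lit 5) (nat_lit 105) (nat_lit 5) (nat_lit 99) (nat_lit 5) (nat_lit 312) (nat_lit 279) (nat_lit 189)) (XT.lf (nat_lit 0) (nat_lit 2926395143) (nat_lit 380) (nat_lit 2381999164) (nat_lit 456) (nat_lit 7823755794) (nat_lit 93) (nat_lit 5) (nat_lit 98) (nat_lit 5) (nat_lit 99) (nat_lit 5) (nat_lit 313) (nat_lit 279) (nat_lit 188)))) (XT.nd (nat_lit 78) (nat_lit 456) (nat_lit 0) (XT.lf (nat_lit 0) (nat_lit 7122111501)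 (nat_lit 456) (nat_lit 4427511422) (nat_lit 76) (nat_lit 1818767559) (nat_lit 93) (nat_lit 5) (nat_lit 99) (nat_lit 5) (nat_lit 94) (nat_lit 5) (nat_lit 314) (nat_lit 279) (nat_lit 187)) (XT.nd (nat_lit 78) (nat_lit 0) (nat_lit 0) (XT.lf (nat_lit 0) (nat_lit 1510097192) (nat_lit 456) (nat_lit 7500520338) (nat_lit 532) (nat_lit 4600531138) (nat_lit 87) (nat_lit 5) (nat_lit 93) (nat_lit 5) (nat_lit 94) (nat_lit 5) (nat_lit 315) (nat_lit 279) (nat_lit 186)) (XT.lf (nat_lit 0) (nat_lit 7696922955) (nat_lit 456) (nat_lit 3286169274) (nat_lit 532) (nat_lit 2877318659) (nat_lit 87) (nat_lit 5) (nat_lit 93) (nat_lit 5) (nat_lit 94) (nat_lit 5) (nat_lit 316) (nat_lit 279) (nat_lit 185))))))) (XT.nd (nat_lit 858) (nat_lit 1368) (nat_lit 0) (XT.nd (nat_lit 390) (nat_lit 1064) (nat_lit 0) (XT.nd (nat_lit 156) (nat_lit 380) (nat_lit 0) (XT.nd (nat_lit 78) (nat_lit 456) (nat_lit 0) (XT.lf (nat_lit 0) (nat_lit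 13007968490) (nat_lit 532) (nat_lit 77557827) (nat_lit 76) (nat_lit 1031867344) (nat_lit 87) (nat_lit 5) (nat_lit 94) (nat_lit 5) (nat_lit 88) (nat_lit 5) (nat_lit 317) (nat_lit 279) (nat_lit 184)) (XT.lf (nat_lit 0) (nat_lit 774647444) (nat_lit 456) (nat_lit 8125881630) (nat_lit 76) (nat_lit 5479078112) (nat_lit 81) (nat_lit 5) (nat_lit 87) (nat_lit 5) (nat_lit 82) (nat_lit 5) (nat_lit 318) (nat_lit 279) (nat_lit 183))) (XT.nd (nat_lit 78) (nat_lit 380) (nat_lit 0) (XT.lf (nat_lit 0) (nat_lit 2677417826) (nat_lit 456) (nat_lit 1903343827) (nat_lit 76) (nat_lit 10069097867) (nat_lit 81) (nat_lit 5) (nat_lit 87) (nat_lit 5) (nat_lit 82) (nat_lit 5) (nat_lit 319) (nat_lit 279) (nat_lit 182)) (XT.nd (nat_lit 78) (nat_lit 0) (nat_lit 0) (XT.lf (nat_lit 0) (nat_lit 4576508895) (nat_lit 380) (nat_lit 88912877) (nat_lit 456) (nat_lit 10261988240) (nat_lit 76) (nat_lit 5) (nat_lit 81) (nat_lit 5) (nat_lit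 82) (nat_lit 5) (nat_lit 320) (nat_lit 279) (nat_lit 181)) (XT.lf (nat_lit 0) (nat_lit 6760509128) (nat_lit 456) (nat_lit 3985701000) (nat_lit 76) (nat_lit 4465687674) (nat_lit 76) (nat_lit 5) (nat_lit 82) (nat_lit 5) (nat_lit 77) (nat_lit 5) (nat_lit 321) (nat_lit 279) (nat_lit 180))))) (XT.nd (nat_lit 234) (nat_lit 380) (nat_lit 0) (XT.nd (nat_lit 78) (nat_lit 380) (nat_lit 0) (XT.lf (nat_lit 0) (nat_lit 2601945107) (nat_lit 304) (nat_lit 6327263659) (nat_lit 380) (nat_lit 6575421755) (nat_lit 72) (nat_lit 5) (nat_lit 76) (nat_lit 5) (nat_lit 77) (nat_lit 5) (nat_lit 322) (nat_lit 279) (nat_lit 179)) (XT.nd (nat_lit 78) (nat_lit 380) (nat_lit 0) (XT.lf (nat_lit 0) (nat_lit 9450700972) (nat_lit 304) (nat_lit 1737649612) (nat_lit 380) (nat_lit 4617065325) (nat_lit 72) (nat_lit 5) (nat_lit 76) (nat_lit 5) (nat_lit 77) (nat_lit 5) (nat_lit 323) (nat_lit 279) (nat_lit 178)) (XT.lf (nat_lit 0) (nat_lit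 349654594) (nat_lit 380) (nat_lit 13183246642) (nat_lit 456) (nat_lit 2581825774) (nat_lit 67) (nat_lit 5) (nat_lit 72) (nat_lit 5) (nat_lit 73) (nat_lit 5) (nat_lit 324) (nat_lit 279) (nat_lit 177)))) (XT.nd (nat_lit 78) (nat_lit 380) (nat_lit 0) (XT.lf (nat_lit 0) (nat_lit 7349926769) (nat_lit 380) (nat_lit 8664851480) (nat_lit 456) (nat_lit 416559778) (nat_lit 67) (nat_lit 5) (nat_lit 72) (nat_lit 5) (nat_lit 73) (nat_lit 5) (nat_lit 325) (nat_lit 279) (nat_lit 176)) (XT.nd (nat_lit 78) (nat_lit 304) (nat_lit 0) (XT.lf (nat_lit 0) (nat_lit 1764305562) (nat_lit 456) (nat_lit 2232405122) (nat_lit 76) (nat_lit 12760661236) (nat_lit 66) (nat_lit 5) (nat_lit 72) (nat_lit 5) (nat_lit 67) (nat_lit 5) (nat_lit 326) (nat_lit 279) (nat_lit 175)) (XT.lf (nat_lit 0) (nat_lit 4044001836) (nat_lit 380) (nat_lit 12204081297) (nat_lit 76) (nat_lit 843754354) (nat_lit 62) (nat_lit 5) (nat_lit 67) (nat_lit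 5) (nat_lit 63) (nat_lit 5) (nat_lit 327) (nat_lit 279) (nat_lit 174)))))) (XT.nd (nat_lit 468) (nat_lit 760) (nat_lit 0) (XT.nd (nat_lit 234) (nat_lit 304) (nat_lit 0) (XT.nd (nat_lit 78) (nat_lit 304) (nat_lit 0) (XT.lf (nat_lit 0) (nat_lit 6441061207) (nat_lit 380) (nat_lit 5225607541) (nat_lit 76) (nat_lit 5768226009) (nat_lit 62) (nat_lit 5) (nat_lit 67) (nat_lit 5) (nat_lit 63) (nat_lit 5) (nat_lit 328) (nat_lit 279) (nat_lit 173)) (XT.nd (nat_lit 78) (nat_lit 0) (nat_lit 0) (XT.lf (nat_lit 0) (nat_lit 1984006731) (nat_lit 304) (nat_lit 6932121099) (nat_lit 380) (nat_lit 8871959170) (nat_lit 58) (nat_lit 5) (nat_lit 62) (nat_lit 5) (nat_lit 63) (nat_lit 5) (nat_lit 329) (nat_lit 279) (nat_lit 172)) (XT.lf (nat_lit 0) (nat_lit 9500266420) (nat_lit 304) (nat_lit 2005189215) (nat_lit 380) (nat_lit 6645244459) (nat_lit 58) (nat_lit 5) (nat_lit 62) (nat_lit 5) (nat_lit 63) (nat_lit 5) (nat_lit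 330) (nat_lit 279) (nat_lit 171)))) (XT.nd (nat_lit 78) (nat_lit 304) (nat_lit 0) (XT.lf (nat_lit 0) (nat_lit 14189544727) (nat_lit 380) (nat_lit 1328317568) (nat_lit 76) (nat_lit 3005841460) (nat_lit 58) (nat_lit 5) (nat_lit 63) (nat_lit 5) (nat_lit 59) (nat_lit 5) (nat_lit 331) (nat_lit 279) (nat_lit 170)) (XT.nd (nat_lit 78) (nat_lit 76) (nat_lit 0) (XT.lf (nat_lit 0) (nat_lit 6300403202) (nat_lit 228) (nat_lit 10722106925) (nat_lit 304) (nat_lit 1883360695) (nat_lit 55) (nat_lit 5) (nat_lit 58) (nat_lit 5) (nat_lit 59) (nat_lit 5) (nat_lit 332) (nat_lit 279) (nat_lit 169)) (XT.lf (nat_lit 0) (nat_lit 629994680) (nat_lit 304) (nat_lit 5136431976) (nat_lit 76) (nat_lit 13532867719) (nat_lit 54) (nat_lit 5) (nat_lit 58) (nat_lit 5) (nat_lit 55) (nat_lit 5) (nat_lit 333) (nat_lit 279) (nat_lit 168))))) (XT.nd (nat_lit 234) (nat_lit 456) (nat_lit 0) (XT.nd (nat_lit 78) (nat_lit 0) (nat_lit 0)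 (XT.lf (nat_lit 0) (nat_lit 2572446501) (nat_lit 304) (nat_lit 621522491) (nat_lit 380) (nat_lit 16509621943) (nat_lit 50) (nat_lit 5) (nat_lit 54) (nat_lit 5) (nat_lit 55) (nat_lit 5) (nat_lit 334) (nat_lit 279) (nat_lit 167)) (XT.nd (nat_lit 78) (nat_lit 0) (nat_lit 0) (XT.lf (nat_lit 0) (nat_lit 5920702534) (nat_lit 380) (nat_lit 9562005314) (nat_lit 76) (nat_lit 4634754582) (nat_lit 50) (nat_lit 5) (nat_lit 55) (nat_lit 5) (nat_lit 51) (nat_lit 5) (nat_lit 335) (nat_lit 279) (nat_lit 166)) (XT.lf (nat_lit 0) (nat_lit 8724220288) (nat_lit 380) (nat_lit 1787430538) (nat_lit 76) (nat_lit 10032270395) (nat_lit 50) (nat_lit 5) (nat_lit 55) (nat_lit 5) (nat_lit 51) (nat_lit 5) (nat_lit 336) (nat_lit 279) (nat_lit 165)))) (XT.nd (nat_lit 78) (nat_lit 228) (nat_lit 0) (XT.lf (nat_lit 0) (nat_lit 6328846248) (nat_lit 228) (nat_lit 5332987969) (nat_lit 304) (nat_lit 9319859860) (nat_lit 47) (nat_lit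 5) (nat_lit 50) (nat_lit 5) (nat_lit 51) (nat_lit 5) (nat_lit 337) (nat_lit 279) (nat_lit 164)) (XT.nd (nat_lit 78) (nat_lit 228) (nat_lit 0) (XT.lf (nat_lit 0) (nat_lit 14695100973) (nat_lit 304) (nat_lit 6722180935) (nat_lit 76) (nat_lit 15111911) (nat_lit 47) (nat_lit 5) (nat_lit 51) (nat_lit 5) (nat_lit 48) (nat_lit 5) (nat_lit 338) (nat_lit 279) (nat_lit 163)) (XT.lf (nat_lit 0) (nat_lit 1406302875) (nat_lit 228) (nat_lit 16468981223) (nat_lit 304) (nat_lit 4019671775) (nat_lit 44) (nat_lit 5) (nat_lit 47) (nat_lit 5) (nat_lit 48) (nat_lit 5) (nat_lit 339) (nat_lit 279) (nat_lit 162))))))))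
noncomputable def xc165 : XT := (XT.nd (nat_lit 1716) (nat_lit 836) (nat_lit 0) (XT.nd (nat_lit 858) (nat_lit 760) (nat_lit 0) (XT.nd (nat_lit 390) (nat_lit 456) (nat_lit 0) (XT.nd (nat_lit 156) (nat_lit 228) (nat_lit 0) (XT.nd (nat_lit 78) (nat_lit 76) (nat_lit 0) (XT.lf (nat_lit 0) (nat_lit 9901840597) (nat_lit 228) (nat_lit 11306673860) (nat_lit 304) (nat_lit 1161169398) (nat_lit 44) (nat_lit 5) (nat_lit 47) (nat_lit 5) (nat_lit 48) (nat_lit 5) (nat_lit 340) (nat_lit 279) (nat_lit 161)) (XT.lf (nat_lit 0) (nat_lit 1738236835) (nat_lit 304) (nat_lit 4237940293) (nat_lit 76) (nat_lit 16882281316) (nat_lit 43) (nat_lit 5) (nat_lit 47) (nat_lit 5) (nat_lit 44) (nat_lit 5) (nat_lit 341) (nat_lit 279) (nat_lit 160))) (XT.nd (nat_lit 78) (nat_lit 0) (nat_lit 0) (XT.lf (nat_lit 0) (nat_lit 4297246003) (nat_lit 228) (nat_lit 435584826) (nat_lit 304) (nat_lit 18627790985) (nat_lit 40) (nat_lit 5) (nat_lit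 43) (nat_lit 5) (nat_lit 44) (nat_lit 5) (nat_lit 342) (nat_lit 279) (nat_lit 159)) (XT.nd (nat_lit 78) (nat_lit 0) (nat_lit 0) (XT.lf (nat_lit 0) (nat_lit 7901498464) (nat_lit 304) (nat_lit 10766397547) (nat_lit 76) (nat_lit 5207443278) (nat_lit 40) (nat_lit 5) (nat_lit 44) (nat_lit 5) (nat_lit 41) (nat_lit 5) (nat_lit 343) (nat_lit 279) (nat_lit 158)) (XT.lf (nat_lit 0) (nat_lit 11160166982) (nat_lit 304) (nat_lit 2238510871) (nat_lit 76) (nat_lit 11006988011) (nat_lit 40) (nat_lit 5) (nat_lit 44) (nat_lit 5) (nat_lit 41) (nat_lit 5) (nat_lit 344) (nat_lit 279) (nat_lit 157))))) (XT.nd (nat_lit 234) (nat_lit 228) (nat_lit 0) (XT.nd (nat_lit 78) (nat_lit 0) (nat_lit 0) (XT.lf (nat_lit 0) (nat_lit 6661920947) (nat_lit 228) (nat_lit 7909614169) (nat_lit 304) (nat_lit 10378734276) (nat_lit 37) (nat_lit 5) (nat_lit 40) (nat_lit 5) (nat_lit 41) (nat_lit 5) (nat_lit 345) (nat_lit 279) (nat_lit 156))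 (XT.nd (nat_lit 78) (nat_lit 0) (nat_lit 0) (XT.lf (nat_lit 0) (nat_lit 15862093757) (nat_lit 228) (nat_lit 2236794731) (nat_lit 304) (nat_lit 7411928107) (nat_lit 37) (nat_lit 5) (nat_lit 40) (nat_lit 5) (nat_lit 41) (nat_lit 5) (nat_lit 346) (nat_lit 279) (nat_lit 155)) (XT.lf (nat_lit 0) (nat_lit 21757988970) (nat_lit 304) (nat_lit 797585772) (nat_lit 76) (nat_lit 3531842139) (nat_lit 37) (nat_lit 5) (nat_lit 41) (nat_lit 5) (nat_lit 38) (nat_lit 5) (nat_lit 347) (nat_lit 279) (nat_lit 154)))) (XT.nd (nat_lit 78) (nat_lit 76) (nat_lit 0) (XT.lf (nat_lit 0) (nat_lit 8449179628) (nat_lit 152) (nat_lit 17172563943) (nat_lit 228) (nat_lit 1056739211) (nat_lit 35) (nat_lit 5) (nat_lit 37) (nat_lit 5) (nat_lit 38) (nat_lit 5) (nat_lit 348) (nat_lit 279) (nat_lit 153)) (XT.nd (nat_lit 78) (nat_lit 0) (nat_lit 0) (XT.lf (nat_lit 0) (nat_lit 2268653621) (nat_lit 228) (nat_lit 9332356739) (nat_lit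 76) (nat_lit 15685625775) (nat_lit 34) (nat_lit 5) (nat_lit 37) (nat_lit 5) (nat_lit 35) (nat_lit 5) (nat_lit 349) (nat_lit 279) (nat_lit 152)) (XT.lf (nat_lit 0) (nat_lit 5664361732) (nat_lit 228) (nat_lit 191285898) (nat_lit 76) (nat_lit 22057331638) (nat_lit 34) (nat_lit 5) (nat_lit 37) (nat_lit 5) (nat_lit 35) (nat_lit 5) (nat_lit 350) (nat_lit 279) (nat_lit 151)))))) (XT.nd (nat_lit 390) (nat_lit 380) (nat_lit 0) (XT.nd (nat_lit 156) (nat_lit 152) (nat_lit 0) (XT.nd (nat_lit 78) (nat_lit 0) (nat_lit 0) (XT.lf (nat_lit 0) (nat_lit 9245739811) (nat_lit 304) (nat_lit 19161714615) (nat_lit 76) (nat_lit 148156782) (nat_lit 31) (nat_lit 5) (nat_lit 35) (nat_lit 5) (nat_lit 32) (nat_lit 5) (nat_lit 351) (nat_lit 279) (nat_lit 150)) (XT.lf (nat_lit 0) (nat_lit 12986598437) (nat_lit 304) (nat_lit 10016958516) (nat_lit 76) (nat_lit 6212416088) (nat_lit 31) (nat_lit 5) (nat_lit 35) (nat_lit 5) (nat_lit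 32) (nat_lit 5) (nat_lit 352) (nat_lit 279) (nat_lit 149))) (XT.nd (nat_lit 78) (nat_lit 152) (nat_lit 0) (XT.lf (nat_lit 0) (nat_lit 16832024336) (nat_lit 304) (nat_lit 609562895) (nat_lit 76) (nat_lit 12454800012) (nat_lit 31) (nat_lit 5) (nat_lit 35) (nat_lit 5) (nat_lit 32) (nat_lit 5) (nat_lit 353) (nat_lit 279) (nat_lit 148)) (XT.nd (nat_lit 78) (nat_lit 0) (nat_lit 0) (XT.lf (nat_lit 0) (nat_lit 9249177058) (nat_lit 152) (nat_lit 11625109276) (nat_lit 228) (nat_lit 9720494752) (nat_lit 29) (nat_lit 5) (nat_lit 31) (nat_lit 5) (nat_lit 32) (nat_lit 5) (nat_lit 354) (nat_lit 279) (nat_lit 147)) (XT.lf (nat_lit 0) (nat_lit 19404923754) (nat_lit 152) (nat_lit 5631720820) (nat_lit 228) (nat_lit 6277528403) (nat_lit 29) (nat_lit 5) (nat_lit 31) (nat_lit 5) (nat_lit 32) (nat_lit 5) (nat_lit 355) (nat_lit 279) (nat_lit 146))))) (XT.nd (nat_lit 234) (nat_lit 152) (nat_lit 0) (XT.nd (nat_lit 78)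 (nat_lit 228) (nat_lit 0) (XT.lf (nat_lit 0) (nat_lit 29321928275) (nat_lit 228) (nat_lit 2206119458) (nat_lit 76) (nat_lit 527168011) (nat_lit 29) (nat_lit 5) (nat_lit 32) (nat_lit 5) (nat_lit 30) (nat_lit 5) (nat_lit 356) (nat_lit 279) (nat_lit 145)) (XT.nd (nat_lit 78) (nat_lit 0) (nat_lit 0) (XT.lf (nat_lit 0) (nat_lit 1025123053) (nat_lit 228) (nat_lit 24949583309) (nat_lit 76) (nat_lit 6839756796) (nat_lit 26) (nat_lit 5) (nat_lit 29) (nat_lit 5) (nat_lit 27) (nat_lit 5) (nat_lit 357) (nat_lit 279) (nat_lit 144)) (XT.lf (nat_lit 0) (nat_lit 4856927433) (nat_lit 228) (nat_lit 15350699022) (nat_lit 76) (nat_lit 13387592184) (nat_lit 26) (nat_lit 5) (nat_lit 29) (nat_lit 5) (nat_lit 27) (nat_lit 5) (nat_lit 358) (nat_lit 279) (nat_lit 143)))) (XT.nd (nat_lit 78) (nat_lit 152) (nat_lit 0) (XT.lf (nat_lit 0) (nat_lit 8796967365) (nat_lit 228) (nat_lit 5474361751) (nat_lit 76) (nat_lit 20128278785)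 (nat_lit 26) (nat_lit 5) (nat_lit 29) (nat_lit 5) (nat_lit 27) (nat_lit 5) (nat_lit 359) (nat_lit 279) (nat_lit 142)) (XT.nd (nat_lit 78) (nat_lit 0) (nat_lit 0) (XT.lf (nat_lit 0) (nat_lit 4781359863) (nat_lit 152) (nat_lit 8113287095) (nat_lit 228) (nat_lit 22332308013) (nat_lit 24) (nat_lit 5) (nat_lit 26) (nat_lit 5) (nat_lit 27) (nat_lit 5) (nat_lit 360) (nat_lit 279) (nat_lit 141)) (XT.lf (nat_lit 0) (nat_lit 15446864921) (nat_lit 152) (nat_lit 1717242274) (nat_lit 228) (nat_lit 18913558761) (nat_lit 24) (nat_lit 5) (nat_lit 26) (nat_lit 5) (nat_lit 27) (nat_lit 5) (nat_lit 361) (nat_lit 279) (nat_lit 140))))))) (XT.nd (nat_lit 858) (nat_lit 304) (nat_lit 0) (XT.nd (nat_lit 390) (nat_lit 304) (nat_lit 0) (XT.nd (nat_lit 156) (nat_lit 228) (nat_lit 0) (XT.nd (nat_lit 78) (nat_lit 0) (nat_lit 0) (XT.lf (nat_lit 0) (nat_lit 21602194135) (nat_lit 228) (nat_lit 10578357717) (nat_lit 76) (nat_lit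 4772138881) (nat_lit 24) (nat_lit 5) (nat_lit 27) (nat_lit 5) (nat_lit 25) (nat_lit 5) (nat_lit 362) (nat_lit 279) (nat_lit 139)) (XT.lf (nat_lit 0) (nat_lit 26184331812) (nat_lit 228) (nat_lit 251027560) (nat_lit 76) (nat_lit 11418288133) (nat_lit 24) (nat_lit 5) (nat_lit 27) (nat_lit 5) (nat_lit 25) (nat_lit 5) (nat_lit 363) (nat_lit 279) (nat_lit 138))) (XT.nd (nat_lit 78) (nat_lit 76) (nat_lit 0) (XT.lf (nat_lit 0) (nat_lit 10583237584) (nat_lit 152) (nat_lit 20416511822) (nat_lit 228) (nat_lit 7779017346) (nat_lit 22) (nat_lit 5) (nat_lit 24) (nat_lit 5) (nat_lit 25) (nat_lit 5) (nat_lit 364) (nat_lit 279) (nat_lit 137)) (XT.nd (nat_lit 78) (nat_lit 76) (nat_lit 0) (XT.lf (nat_lit 0) (nat_lit 21738366678) (nat_lit 152) (nat_lit 14217963813) (nat_lit 228) (nat_lit 3775416066) (nat_lit 22) (nat_lit 5) (nat_lit 24) (nat_lit 5) (nat_lit 25) (nat_lit 5) (nat_lit 365) (nat_lit 279) (nat_lit 136))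 (XT.lf (nat_lit 0) (nat_lit 335769089) (nat_lit 228) (nat_lit 7497674324) (nat_lit 76) (nat_lit 32879951279) (nat_lit 21) (nat_lit 5) (nat_lit 24) (nat_lit 5) (nat_lit 22) (nat_lit 5) (nat_lit 366) (nat_lit 279) (nat_lit 135))))) (XT.nd (nat_lit 234) (nat_lit 152) (nat_lit 0) (XT.nd (nat_lit 78) (nat_lit 0) (nat_lit 0) (XT.lf (nat_lit 0) (nat_lit 3331640952) (nat_lit 152) (nat_lit 1189231614) (nat_lit 228) (nat_lit 37201711677) (nat_lit 19) (nat_lit 5) (nat_lit 21) (nat_lit 5) (nat_lit 22) (nat_lit 5) (nat_lit 367) (nat_lit 279) (nat_lit 134)) (XT.nd (nat_lit 78) (nat_lit 0) (nat_lit 0) (XT.lf (nat_lit 0) (nat_lit 8956827730) (nat_lit 228) (nat_lit 28184295636) (nat_lit 76) (nat_lit 5617174271) (nat_lit 19) (nat_lit 5) (nat_lit 22) (nat_lit 5) (nat_lit 20) (nat_lit 5) (nat_lit 368) (nat_lit 279) (nat_lit 133)) (XT.lf (nat_lit 0) (nat_lit 13532281261) (nat_lit 228) (nat_lit 17691908456) (nat_lit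 76) (nat_lit 12600707031) (nat_lit 19) (nat_lit 5) (nat_lit 22) (nat_lit 5) (nat_lit 20) (nat_lit 5) (nat_lit 369) (nat_lit 279) (nat_lit 132)))) (XT.nd (nat_lit 78) (nat_lit 152) (nat_lit 0) (XT.lf (nat_lit 0) (nat_lit 18239799509) (nat_lit 228) (nat_lit 6893182023) (nat_lit 76) (nat_lit 19790674973) (nat_lit 19) (nat_lit 5) (nat_lit 22) (nat_lit 5) (nat_lit 20) (nat_lit 5) (nat_lit 370) (nat_lit 279) (nat_lit 131)) (XT.nd (nat_lit 78) (nat_lit 0) (nat_lit 0) (XT.lf (nat_lit 0) (nat_lit 4305331975) (nat_lit 152) (nat_lit 18819549347) (nat_lit 228) (nat_lit 22929414103) (nat_lit 17) (nat_lit 5) (nat_lit 19) (nat_lit 5) (nat_lit 20) (nat_lit 5) (nat_lit 371) (nat_lit 279) (nat_lit 130)) (XT.lf (nat_lit 0) (nat_lit 15972998369) (nat_lit 152) (nat_lit 12248146465) (nat_lit 228) (nat_lit 18995776120) (nat_lit 17) (nat_lit 5) (nat_lit 19) (nat_lit 5) (nat_lit 20) (nat_lit 5) (nat_lit 372) (nat_lit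 279) (nat_lit 129)))))) (XT.nd (nat_lit 468) (nat_lit 152) (nat_lit 0) (XT.nd (nat_lit 234) (nat_lit 76) (nat_lit 0) (XT.nd (nat_lit 78) (nat_lit 76) (nat_lit 0) (XT.lf (nat_lit 0) (nat_lit 27982824368) (nat_lit 152) (nat_lit 5482638509) (nat_lit 228) (nat_lit 14949113513) (nat_lit 17) (nat_lit 5) (nat_lit 19) (nat_lit 5) (nat_lit 20) (nat_lit 5) (nat_lit 373) (nat_lit 279) (nat_lit 128)) (XT.nd (nat_lit 78) (nat_lit 76) (nat_lit 0) (XT.lf (nat_lit 0) (nat_lit 38876672271) (nat_lit 228) (nat_lit 9317258637) (nat_lit 76) (nat_lit 1453949683) (nat_lit 17) (nat_lit 5) (nat_lit 20) (nat_lit 5) (nat_lit 18) (nat_lit 4) (nat_lit 374) (nat_lit 279) (nat_lit 127)) (XT.lf (nat_lit 0) (nat_lit 2110026681) (nat_lit 76) (nat_lit 42410174243) (nat_lit 152) (nat_lit 6395889287) (nat_lit 16) (nat_lit 5) (nat_lit 17) (nat_lit 5) (nat_lit 18) (nat_lit 4) (nat_lit 375) (nat_lit 279) (nat_lit 126)))) (XT.nd (nat_lit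 78) (nat_lit 76) (nat_lit 0) (XT.lf (nat_lit 0) (nat_lit 14063665547) (nat_lit 76) (nat_lit 36358934288) (nat_lit 152) (nat_lit 1797064972) (nat_lit 16) (nat_lit 5) (nat_lit 17) (nat_lit 5) (nat_lit 18) (nat_lit 4) (nat_lit 376) (nat_lit 279) (nat_lit 125)) (XT.nd (nat_lit 78) (nat_lit 0) (nat_lit 0) (XT.lf (nat_lit 0) (nat_lit 2877920707) (nat_lit 152) (nat_lit 27222027530) (nat_lit 76) (nat_lit 23461689107) (nat_lit 15) (nat_lit 5) (nat_lit 17) (nat_lit 5) (nat_lit 16) (nat_lit 5) (nat_lit 377) (nat_lit 279) (nat_lit 124)) (XT.lf (nat_lit 0) (nat_lit 7652727256) (nat_lit 152) (nat_lit 15984951740) (nat_lit 76) (nat_lit 31305790702) (nat_lit 15) (nat_lit 5) (nat_lit 17) (nat_lit 5) (nat_lit 16) (nat_lit 5) (nat_lit 378) (nat_lit 279) (nat_lit 123))))) (XT.nd (nat_lit 234) (nat_lit 0) (nat_lit 0) (XT.nd (nat_lit 78) (nat_lit 152) (nat_lit 0) (XT.lf (nat_lit 0) (nat_lit 12566594044) (nat_lit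 152) (nat_lit 4417678599) (nat_lit 76) (nat_lit 39382614887) (nat_lit 15) (nat_lit 5) (nat_lit 17) (nat_lit 5) (nat_lit 16) (nat_lit 5) (nat_lit 379) (nat_lit 279) (nat_lit 122)) (XT.nd (nat_lit 78) (nat_lit 0) (nat_lit 0) (XT.lf (nat_lit 0) (nat_lit 7638962898) (nat_lit 152) (nat_lit 10058282229) (nat_lit 228) (nat_lit 40133686568) (nat_lit 13) (nat_lit 5) (nat_lit 15) (nat_lit 5) (nat_lit 16) (nat_lit 5) (nat_lit 380) (nat_lit 279) (nat_lit 121)) (XT.lf (nat_lit 0) (nat_lit 20141214022) (nat_lit 152) (nat_lit 2881203930) (nat_lit 228) (nat_lit 36315265868) (nat_lit 13) (nat_lit 5) (nat_lit 15) (nat_lit 5) (nat_lit 16) (nat_lit 5) (nat_lit 381) (nat_lit 279) (nat_lit 120)))) (XT.nd (nat_lit 78) (nat_lit 0) (nat_lit 0) (XT.lf (nat_lit 0) (nat_lit 28546794658) (nat_lit 228) (nat_lit 27921020850) (nat_lit 76) (nat_lit 4420644108) (nat_lit 13) (nat_lit 5) (nat_lit 16) (nat_lit 5) (nat_lit 14) (nat_lit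 4) (nat_lit 382) (nat_lit 279) (nat_lit 119)) (XT.nd (nat_lit 78) (nat_lit 0) (nat_lit 0) (XT.lf (nat_lit 0) (nat_lit 34261627890) (nat_lit 228) (nat_lit 16342195139) (nat_lit 76) (nat_lit 11881198332) (nat_lit 13) (nat_lit 5) (nat_lit 16) (nat_lit 5) (nat_lit 14) (nat_lit 4) (nat_lit 383) (nat_lit 279) (nat_lit 118)) (XT.lf (nat_lit 0) (nat_lit 40144215299) (nat_lit 228) (nat_lit 4422179350) (nat_lit 76) (nat_lit 19563200339) (nat_lit 13) (nat_lit 5) (nat_lit 16) (nat_lit 5) (nat_lit 14) (nat_lit 4) (nat_lit 384) (nat_lit 279) (nat_lit 117))))))))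
noncomputable def xc166 : XT := (XT.nd (nat_lit 33618) (nat_lit 0) (nat_lit 5928) (XT.nd (nat_lit 32760) (nat_lit 0) (nat_lit 11476) (XT.nd (nat_lit 390) (nat_lit 228) (nat_lit 0) (XT.nd (nat_lit 156) (nat_lit 0) (nat_lit 0) (XT.nd (nat_lit 78) (nat_lit 0) (nat_lit 0) (XT.lf (nat_lit 0) (nat_lit 8005661351) (nat_lit 76) (nat_lit 38270990972) (nat_lit 152) (nat_lit 19544656520) (nat_lit 12) (nat_lit 5) (nat_lit 13) (nat_lit 5) (nat_lit 14) (nat_lit 4) (nat_lit 385) (nat_lit 279) (nat_lit 116)) (XT.lf (nat_lit 0) (nat_lit 20891051539) (nat_lit 76) (nat_lit 31743130245) (nat_lit 152) (nat_lit 14928362806) (nat_lit 12) (nat_lit 5) (nat_lit 13) (nat_lit 5) (nat_lit 14) (nat_lit 4) (nat_lit 386) (nat_lit 279) (nat_lit 115))) (XT.nd (nat_lit 78) (nat_lit 0) (nat_lit 0) (XT.lf (nat_lit 0) (nat_lit 34157240253) (nat_lit 76) (nat_lit 25021763854) (nat_lit 152) (nat_lit 10177120233) (nat_lit 12) (nat_lit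 5) (nat_lit 13) (nat_lit 5) (nat_lit 14) (nat_lit 4) (nat_lit 387) (nat_lit 279) (nat_lit 114)) (XT.nd (nat_lit 78) (nat_lit 0) (nat_lit 0) (XT.lf (nat_lit 0) (nat_lit 47815819308) (nat_lit 76) (nat_lit 18101018759) (nat_lit 152) (nat_lit 5286777230) (nat_lit 12) (nat_lit 5) (nat_lit 13) (nat_lit 5) (nat_lit 14) (nat_lit 4) (nat_lit 388) (nat_lit 279) (nat_lit 113)) (XT.lf (nat_lit 0) (nat_lit 61878723385) (nat_lit 76) (nat_lit 10974847708) (nat_lit 152) (nat_lit 253060681) (nat_lit 12) (nat_lit 5) (nat_lit 13) (nat_lit 5) (nat_lit 14) (nat_lit 4) (nat_lit 389) (nat_lit 279) (nat_lit 112))))) (XT.nd (nat_lit 32136) (nat_lit 0) (nat_lit 13072) (XT.nd (nat_lit 78) (nat_lit 0) (nat_lit 0) (XT.lf (nat_lit 0) (nat_lit 1268787404) (nat_lit 152) (nat_lit 3575665382) (nat_lit 228) (nat_lit 70220596672) (nat_lit 9) (nat_lit 5) (nat_lit 11) (nat_lit 5) (nat_lit 12) (nat_lit 5) (nat_lit 390) (nat_lit 279)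 (nat_lit 111)) (XT.nd (nat_lit 31980) (nat_lit 0) (nat_lit 13072) (XT.lf (nat_lit 0) (nat_lit 10240040204) (nat_lit 228) (nat_lit 62756154177) (nat_lit 76) (nat_lit 4081446479) (nat_lit 9) (nat_lit 5) (nat_lit 12) (nat_lit 5) (nat_lit 10) (nat_lit 4) (nat_lit 391) (nat_lit 279) (nat_lit 110)) (XT.lf (nat_lit 0) (nat_lit 869417263) (nat_lit 0) (nat_lit 869417263) (nat_lit 836) (nat_lit 2365532990) (nat_lit 181) (nat_lit 5) (nat_lit 181) (nat_lit 3) (nat_lit 192) (nat_lit 3) (nat_lit 280) (nat_lit 280) (nat_lit 220)))) (XT.nd (nat_lit 78) (nat_lit 0) (nat_lit 0) (XT.lf (nat_lit 0) (nat_lit 4545887296) (nat_lit 836) (nat_lit 3062418713) (nat_lit 912) (nat_lit 689965822) (nat_lit 181) (nat_lit 5) (nat_lit 192) (nat_lit 3) (nat_lit 193) (nat_lit 5) (nat_lit 281) (nat_lit 280) (nat_lit 219)) (XT.nd (nat_lit 78) (nat_lit 0) (nat_lit 0) (XT.lf (nat_lit 76) (nat_lit 417021596) (nat_lit 0) (nat_lit 5211154938)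 (nat_lit 912) (nat_lit 2762978942) (nat_lit 182) (nat_lit 5) (nat_lit 181) (nat_lit 5) (nat_lit 193) (nat_lit 5) (nat_lit 282) (nat_lit 280) (nat_lit 218)) (XT.lf (nat_lit 76) (nat_lit 4042642067) (nat_lit 0) (nat_lit 2692956494) (nat_lit 912) (nat_lit 1751565085) (nat_lit 182) (nat_lit 5) (nat_lit 181) (nat_lit 5) (nat_lit 193) (nat_lit 5) (nat_lit 283) (nat_lit 280) (nat_lit 217)))))) (XT.nd (nat_lit 390) (nat_lit 760) (nat_lit 0) (XT.nd (nat_lit 156) (nat_lit 0) (nat_lit 0) (XT.nd (nat_lit 78) (nat_lit 836) (nat_lit 0) (XT.lf (nat_lit 76) (nat_lit 7756662579) (nat_lit 0) (nat_lit 82434736) (nat_lit 912) (nat_lit 748183627) (nat_lit 182) (nat_lit 5) (nat_lit 181) (nat_lit 5) (nat_lit 193) (nat_lit 5) (nat_lit 284) (nat_lit 280) (nat_lit 216)) (XT.lf (nat_lit 0) (nat_lit 296835992) (nat_lit 912) (nat_lit 5790757650) (nat_lit 988) (nat_lit 2602320656) (nat_lit 170) (nat_lit 5) (nat_lit 182)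 (nat_lit 5) (nat_lit 183) (nat_lit 5) (nat_lit 285) (nat_lit 280) (nat_lit 215))) (XT.nd (nat_lit 78) (nat_lit 0) (nat_lit 0) (XT.lf (nat_lit 0) (nat_lit 1331939656) (nat_lit 912) (nat_lit 2067559730) (nat_lit 988) (nat_lit 5396796687) (nat_lit 170) (nat_lit 5) (nat_lit 182) (nat_lit 5) (nat_lit 183) (nat_lit 5) (nat_lit 286) (nat_lit 280) (nat_lit 214)) (XT.nd (nat_lit 78) (nat_lit 0) (nat_lit 76) (XT.lf (nat_lit 76) (nat_lit 1780991085) (nat_lit 0) (nat_lit 599744111) (nat_lit 988) (nat_lit 6525756676) (nat_lit 171) (nat_lit 5) (nat_lit 170) (nat_lit 5) (nat_lit 183) (nat_lit 5) (nat_lit 287) (nat_lit 280) (nat_lit 213)) (XT.lf (nat_lit 0) (nat_lit 3470480080) (nat_lit 912) (nat_lit 3276269574) (nat_lit 988) (nat_lit 2273058099) (nat_lit 171) (nat_lit 5) (nat_lit 183) (nat_lit 5) (nat_lit 184) (nat_lit 5) (nat_lit 288) (nat_lit 280) (nat_lit 212))))) (XT.nd (nat_lit 234) (nat_lit 836) (nat_lit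 0) (XT.nd (nat_lit 78) (nat_lit 0) (nat_lit 0) (XT.lf (nat_lit 76) (nat_lit 674178701) (nat_lit 0) (nat_lit 3898579831) (nat_lit 988) (nat_lit 4564465238) (nat_lit 172) (nat_lit 5) (nat_lit 171) (nat_lit 5) (nat_lit 184) (nat_lit 5) (nat_lit 289) (nat_lit 280) (nat_lit 211)) (XT.nd (nat_lit 78) (nat_lit 0) (nat_lit 76) (XT.lf (nat_lit 76) (nat_lit 4789033836) (nat_lit 0) (nat_lit 920322371) (nat_lit 988) (nat_lit 3548861636) (nat_lit 172) (nat_lit 5) (nat_lit 171) (nat_lit 5) (nat_lit 184) (nat_lit 5) (nat_lit 290) (nat_lit 280) (nat_lit 210)) (XT.lf (nat_lit 0) (nat_lit 6869885566) (nat_lit 912) (nat_lit 397911767) (nat_lit 988) (nat_lit 2115439785) (nat_lit 172) (nat_lit 5) (nat_lit 184) (nat_lit 5) (nat_lit 185) (nat_lit 5) (nat_lit 291) (nat_lit 280) (nat_lit 209)))) (XT.nd (nat_lit 78) (nat_lit 912) (nat_lit 0) (XT.lf (nat_lit 76) (nat_lit 3840192768) (nat_lit 0) (nat_lit 4241154475) (nat_lit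 988) (nat_lit 1430263991) (nat_lit 173) (nat_lit 5) (nat_lit 172) (nat_lit 5) (nat_lit 185) (nat_lit 5) (nat_lit 292) (nat_lit 280) (nat_lit 208)) (XT.nd (nat_lit 78) (nat_lit 912) (nat_lit 0) (XT.lf (nat_lit 76) (nat_lit 8192674633) (nat_lit 0) (nat_lit 1111256363) (nat_lit 988) (nat_lit 340747433) (nat_lit 173) (nat_lit 5) (nat_lit 172) (nat_lit 5) (nat_lit 185) (nat_lit 5) (nat_lit 293) (nat_lit 280) (nat_lit 207)) (XT.lf (nat_lit 0) (nat_lit 786282858) (nat_lit 988) (nat_lit 6879801520) (nat_lit 1064) (nat_lit 2114905902) (nat_lit 160) (nat_lit 5) (nat_lit 173) (nat_lit 5) (nat_lit 174) (nat_lit 5) (nat_lit 294) (nat_lit 280) (nat_lit 206))))))) (XT.nd (nat_lit 858) (nat_lit 2356) (nat_lit 0) (XT.nd (nat_lit 390) (nat_lit 2280) (nat_lit 0) (XT.nd (nat_lit 156) (nat_lit 912) (nat_lit 0) (XT.nd (nat_lit 78) (nat_lit 0) (nat_lit 0) (XT.lf (nat_lit 0) (nat_lit 1938043549) (nat_lit 988) (nat_lit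 2542483505) (nat_lit 1064) (nat_lit 5440908145) (nat_lit 160) (nat_lit 5) (nat_lit 173) (nat_lit 5) (nat_lit 174) (nat_lit 5) (nat_lit 295) (nat_lit 280) (nat_lit 205)) (XT.lf (nat_lit 76) (nat_lit 1941725474) (nat_lit 0) (nat_lit 1174071469) (nat_lit 1064) (nat_lit 6950629028) (nat_lit 161) (nat_lit 5) (nat_lit 160) (nat_lit 5) (nat_lit 174) (nat_lit 5) (nat_lit 296) (nat_lit 280) (nat_lit 204))) (XT.nd (nat_lit 78) (nat_lit 988) (nat_lit 0) (XT.lf (nat_lit 0) (nat_lit 4349684309) (nat_lit 988) (nat_lit 3645961671) (nat_lit 76) (nat_lit 2219569940) (nat_lit 161) (nat_lit 5) (nat_lit 174) (nat_lit 5) (nat_lit 162) (nat_lit 5) (nat_lit 297) (nat_lit 280) (nat_lit 203)) (XT.nd (nat_lit 78) (nat_lit 0) (nat_lit 0) (XT.lf (nat_lit 0) (nat_lit 952906496) (nat_lit 988) (nat_lit 4662662092) (nat_lit 1064) (nat_lit 4753122926) (nat_lit 148) (nat_lit 5) (nat_lit 161) (nat_lit 5) (nat_lit 162) (nat_lit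 5) (nat_lit 298) (nat_lit 280) (nat_lit 202)) (XT.lf (nat_lit 0) (nat_lit 5743484232) (nat_lit 988) (nat_lit 1187507890) (nat_lit 1064) (nat_lit 3595501650) (nat_lit 148) (nat_lit 5) (nat_lit 161) (nat_lit 5) (nat_lit 162) (nat_lit 5) (nat_lit 299) (nat_lit 280) (nat_lit 201))))) (XT.nd (nat_lit 234) (nat_lit 1140) (nat_lit 0) (XT.nd (nat_lit 78) (nat_lit 1140) (nat_lit 0) (XT.lf (nat_lit 0) (nat_lit 8284391752) (nat_lit 1064) (nat_lit 55469394) (nat_lit 76) (nat_lit 2349280808) (nat_lit 148) (nat_lit 5) (nat_lit 162) (nat_lit 5) (nat_lit 149) (nat_lit 5) (nat_lit 300) (nat_lit 280) (nat_lit 200)) (XT.nd (nat_lit 78) (nat_lit 76) (nat_lit 0) (XT.lf (nat_lit 0) (nat_lit 4876693361) (nat_lit 1064) (nat_lit 4836569229) (nat_lit 1140) (nat_lit 1142426216) (nat_lit 134) (nat_lit 5) (nat_lit 148) (nat_lit 5) (nat_lit 149) (nat_lit 5) (nat_lit 301) (nat_lit 280) (nat_lit 199)) (XT.lf (nat_lit 0) (nat_lit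 131692015) (nat_lit 1140) (nat_lit 1091715692) (nat_lit 76) (nat_lit 9804530316) (nat_lit 133) (nat_lit 5) (nat_lit 148) (nat_lit 5) (nat_lit 134) (nat_lit 5) (nat_lit 302) (nat_lit 280) (nat_lit 198)))) (XT.nd (nat_lit 78) (nat_lit 532) (nat_lit 0) (XT.lf (nat_lit 0) (nat_lit 1461064404) (nat_lit 684) (nat_lit 7240768882) (nat_lit 76) (nat_lit 2502042087) (nat_lit 125) (nat_lit 5) (nat_lit 134) (nat_lit 5) (nat_lit 126) (nat_lit 5) (nat_lit 303) (nat_lit 280) (nat_lit 197)) (XT.nd (nat_lit 78) (nat_lit 532) (nat_lit 0) (XT.lf (nat_lit 0) (nat_lit 2831182699) (nat_lit 684) (nat_lit 2225909094) (nat_lit 76) (nat_lit 6328031128) (nat_lit 125) (nat_lit 5) (nat_lit 134) (nat_lit 5) (nat_lit 126) (nat_lit 5) (nat_lit 304) (nat_lit 280) (nat_lit 196)) (XT.lf (nat_lit 0) (nat_lit 2977221621) (nat_lit 532) (nat_lit 1272072137) (nat_lit 608) (nat_lit 7322363789) (nat_lit 118) (nat_lit 5) (nat_lit 125)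 (nat_lit 5) (nat_lit 126) (nat_lit 5) (nat_lit 305) (nat_lit 280) (nat_lit 195)))))) (XT.nd (nat_lit 468) (nat_lit 1292) (nat_lit 0) (XT.nd (nat_lit 234) (nat_lit 532) (nat_lit 0) (XT.nd (nat_lit 78) (nat_lit 532) (nat_lit 0) (XT.lf (nat_lit 0) (nat_lit 5736617514) (nat_lit 608) (nat_lit 3427286262) (nat_lit 76) (nat_lit 2599139042) (nat_lit 118) (nat_lit 5) (nat_lit 126) (nat_lit 5) (nat_lit 119) (nat_lit 5) (nat_lit 306) (nat_lit 280) (nat_lit 194)) (XT.nd (nat_lit 78) (nat_lit 0) (nat_lit 0) (XT.lf (nat_lit 0) (nat_lit 1899170418) (nat_lit 532) (nat_lit 5379583068) (nat_lit 608) (nat_lit 4681163481) (nat_lit 111) (nat_lit 5) (nat_lit 118) (nat_lit 5) (nat_lit 119) (nat_lit 5) (nat_lit 307) (nat_lit 280) (nat_lit 193)) (XT.lf (nat_lit 0) (nat_lit 7435702220) (nat_lit 532) (nat_lit 1445811620) (nat_lit 608) (nat_lit 3280804241) (nat_lit 111) (nat_lit 5) (nat_lit 118) (nat_lit 5) (nat_lit 119)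 (nat_lit 5) (nat_lit 308) (nat_lit 280) (nat_lit 192)))) (XT.nd (nat_lit 78) (nat_lit 76) (nat_lit 0) (XT.lf (nat_lit 0) (nat_lit 736831607) (nat_lit 456) (nat_lit 9808002232) (nat_lit 532) (nat_lit 1825633131) (nat_lit 105) (nat_lit 5) (nat_lit 111) (nat_lit 5) (nat_lit 112) (nat_lit 5) (nat_lit 309) (nat_lit 280) (nat_lit 191)) (XT.nd (nat_lit 78) (nat_lit 76) (nat_lit 0) (XT.lf (nat_lit 0) (nat_lit 6426634880) (nat_lit 456) (nat_lit 5874048295) (nat_lit 532) (nat_lit 282946847) (nat_lit 105) (nat_lit 5) (nat_lit 111) (nat_lit 5) (nat_lit 112) (nat_lit 5) (nat_lit 310) (nat_lit 280) (nat_lit 190)) (XT.lf (nat_lit 0) (nat_lit 1261590292) (nat_lit 532) (nat_lit 548293734) (nat_lit 76) (nat_lit 10993541451) (nat_lit 104) (nat_lit 5) (nat_lit 111) (nat_lit 5) (nat_lit 105) (nat_lit 5) (nat_lit 311) (nat_lit 280) (nat_lit 189))))) (XT.nd (nat_lit 234) (nat_lit 456) (nat_lit 0) (XT.nd (nat_lit 78)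 (nat_lit 380) (nat_lit 0) (XT.lf (nat_lit 0) (nat_lit 2902798224) (nat_lit 532) (nat_lit 7741781900) (nat_lit 76) (nat_lit 2383514443) (nat_lit 98) (nat_lit 5) (nat_lit 105) (nat_lit 5) (nat_lit 99) (nat_lit 5) (nat_lit 312) (nat_lit 280) (nat_lit 188)) (XT.nd (nat_lit 78) (nat_lit 380) (nat_lit 0) (XT.lf (nat_lit 0) (nat_lit 4598706068) (nat_lit 532) (nat_lit 1989614274) (nat_lit 76) (nat_lit 6671062651) (nat_lit 98) (nat_lit 5) (nat_lit 105) (nat_lit 5) (nat_lit 99) (nat_lit 5) (nat_lit 313) (nat_lit 280) (nat_lit 187)) (XT.lf (nat_lit 0) (nat_lit 3994127192) (nat_lit 380) (nat_lit 2372236123) (nat_lit 456) (nat_lit 7130662503) (nat_lit 93) (nat_lit 5) (nat_lit 98) (nat_lit 5) (nat_lit 99) (nat_lit 5) (nat_lit 314) (nat_lit 280) (nat_lit 186)))) (XT.nd (nat_lit 78) (nat_lit 456) (nat_lit 0) (XT.lf (nat_lit 0) (nat_lit 8209073821) (nat_lit 456) (nat_lit 3581455002) (nat_lit 76) (nat_lit 1950649093)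 (nat_lit 93) (nat_lit 5) (nat_lit 99) (nat_lit 5) (nat_lit 94) (nat_lit 5) (nat_lit 315) (nat_lit 280) (nat_lit 185)) (XT.nd (nat_lit 78) (nat_lit 0) (nat_lit 0) (XT.lf (nat_lit 0) (nat_lit 2524684990) (nat_lit 456) (nat_lit 7613431508) (nat_lit 532) (nat_lit 3853646060) (nat_lit 87) (nat_lit 5) (nat_lit 93) (nat_lit 5) (nat_lit 94) (nat_lit 5) (nat_lit 316) (nat_lit 280) (nat_lit 184)) (XT.lf (nat_lit 0) (nat_lit 8868883928) (nat_lit 456) (nat_lit 3275915089) (nat_lit 532) (nat_lit 2104511023) (nat_lit 87) (nat_lit 5) (nat_lit 93) (nat_lit 5) (nat_lit 94) (nat_lit 5) (nat_lit 317) (nat_lit 280) (nat_lit 183))))))))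
noncomputable def xc167 : XT := (XT.nd (nat_lit 1794) (nat_lit 1520) (nat_lit 0) (XT.nd (nat_lit 858) (nat_lit 1368) (nat_lit 0) (XT.nd (nat_lit 390) (nat_lit 1064) (nat_lit 0) (XT.nd (nat_lit 156) (nat_lit 380) (nat_lit 0) (XT.nd (nat_lit 78) (nat_lit 76) (nat_lit 0) (XT.lf (nat_lit 0) (nat_lit 875966196) (nat_lit 380) (nat_lit 13339652205) (nat_lit 456) (nat_lit 298884692) (nat_lit 82) (nat_lit 5) (nat_lit 87) (nat_lit 5) (nat_lit 88) (nat_lit 5) (nat_lit 318) (nat_lit 280) (nat_lit 182)) (XT.lf (nat_lit 0) (nat_lit 1601914189) (nat_lit 456) (nat_lit 7422320804) (nat_lit 76) (nat_lit 5760858033) (nat_lit 81) (nat_lit 5) (nat_lit 87) (nat_lit 5) (nat_lit 82) (nat_lit 5) (nat_lit 319) (nat_lit 280) (nat_lit 181))) (XT.nd (nat_lit 78) (nat_lit 380) (nat_lit 0) (XT.lf (nat_lit 0) (nat_lit 3538349411) (nat_lit 456) (nat_lit 1040699215) (nat_lit 76) (nat_lit 10485158743) (nat_lit 81) (nat_lit 5)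 (nat_lit 87) (nat_lit 5) (nat_lit 82) (nat_lit 5) (nat_lit 320) (nat_lit 280) (nat_lit 180)) (XT.nd (nat_lit 78) (nat_lit 0) (nat_lit 0) (XT.lf (nat_lit 0) (nat_lit 5572516620) (nat_lit 456) (nat_lit 9726527080) (nat_lit 76) (nat_lit 51495360) (nat_lit 76) (nat_lit 5) (nat_lit 82) (nat_lit 5) (nat_lit 77) (nat_lit 5) (nat_lit 321) (nat_lit 280) (nat_lit 179)) (XT.lf (nat_lit 0) (nat_lit 7708967624) (nat_lit 456) (nat_lit 3198455772) (nat_lit 76) (nat_lit 4736831667) (nat_lit 76) (nat_lit 5) (nat_lit 82) (nat_lit 5) (nat_lit 77) (nat_lit 5) (nat_lit 322) (nat_lit 280) (nat_lit 178))))) (XT.nd (nat_lit 234) (nat_lit 380) (nat_lit 0) (XT.nd (nat_lit 78) (nat_lit 380) (nat_lit 0) (XT.lf (nat_lit 0) (nat_lit 3577929362) (nat_lit 304) (nat_lit 6351712538) (nat_lit 380) (nat_lit 6016567940) (nat_lit 72) (nat_lit 5) (nat_lit 76) (nat_lit 5) (nat_lit 77) (nat_lit 5) (nat_lit 323) (nat_lit 280) (nat_lit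 177)) (XT.nd (nat_lit 78) (nat_lit 380) (nat_lit 0) (XT.lf (nat_lit 0) (nat_lit 10605994722) (nat_lit 304) (nat_lit 1629226644) (nat_lit 380) (nat_lit 4021483627) (nat_lit 72) (nat_lit 5) (nat_lit 76) (nat_lit 5) (nat_lit 77) (nat_lit 5) (nat_lit 324) (nat_lit 280) (nat_lit 176)) (XT.lf (nat_lit 0) (nat_lit 1244491108) (nat_lit 380) (nat_lit 13394901536) (nat_lit 456) (nat_lit 1936269020) (nat_lit 67) (nat_lit 5) (nat_lit 72) (nat_lit 5) (nat_lit 73) (nat_lit 5) (nat_lit 325) (nat_lit 280) (nat_lit 175)))) (XT.nd (nat_lit 78) (nat_lit 304) (nat_lit 0) (XT.lf (nat_lit 0) (nat_lit 267571176) (nat_lit 456) (nat_lit 8476036034) (nat_lit 76) (nat_lit 8158740652) (nat_lit 66) (nat_lit 5) (nat_lit 72) (nat_lit 5) (nat_lit 67) (nat_lit 5) (nat_lit 326) (nat_lit 280) (nat_lit 174)) (XT.nd (nat_lit 78) (nat_lit 304) (nat_lit 0) (XT.lf (nat_lit 0) (nat_lit 2485443766) (nat_lit 456) (nat_lit 1451131444)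 (nat_lit 76) (nat_lit 13302106182) (nat_lit 66) (nat_lit 5) (nat_lit 72) (nat_lit 5) (nat_lit 67) (nat_lit 5) (nat_lit 327) (nat_lit 280) (nat_lit 173)) (XT.lf (nat_lit 0) (nat_lit 4823902605) (nat_lit 380) (nat_lit 11711003934) (nat_lit 76) (nat_lit 1048603006) (nat_lit 62) (nat_lit 5) (nat_lit 67) (nat_lit 5) (nat_lit 63) (nat_lit 5) (nat_lit 328) (nat_lit 280) (nat_lit 172)))))) (XT.nd (nat_lit 468) (nat_lit 760) (nat_lit 0) (XT.nd (nat_lit 234) (nat_lit 304) (nat_lit 0) (XT.nd (nat_lit 78) (nat_lit 304) (nat_lit 0) (XT.lf (nat_lit 0) (nat_lit 7273691795) (nat_lit 380) (nat_lit 4548201203) (nat_lit 76) (nat_lit 6115579606) (nat_lit 62) (nat_lit 5) (nat_lit 67) (nat_lit 5) (nat_lit 63) (nat_lit 5) (nat_lit 329) (nat_lit 280) (nat_lit 171)) (XT.nd (nat_lit 78) (nat_lit 0) (nat_lit 0) (XT.lf (nat_lit 0) (nat_lit 2869523315) (nat_lit 304) (nat_lit 6942803819) (nat_lit 380) (nat_lit 8489291464)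 (nat_lit 58) (nat_lit 5) (nat_lit 62) (nat_lit 5) (nat_lit 63) (nat_lit 5) (nat_lit 330) (nat_lit 280) (nat_lit 170)) (XT.lf (nat_lit 0) (nat_lit 10587212648) (nat_lit 304) (nat_lit 1873810024) (nat_lit 380) (nat_lit 6214673171) (nat_lit 58) (nat_lit 5) (nat_lit 62) (nat_lit 5) (nat_lit 63) (nat_lit 5) (nat_lit 331) (nat_lit 280) (nat_lit 169)))) (XT.nd (nat_lit 78) (nat_lit 304) (nat_lit 0) (XT.lf (nat_lit 0) (nat_lit 15209643223) (nat_lit 380) (nat_lit 572417252) (nat_lit 76) (nat_lit 3278344211) (nat_lit 58) (nat_lit 5) (nat_lit 63) (nat_lit 5) (nat_lit 59) (nat_lit 5) (nat_lit 332) (nat_lit 280) (nat_lit 168)) (XT.nd (nat_lit 78) (nat_lit 76) (nat_lit 0) (XT.lf (nat_lit 0) (nat_lit 7277363673) (nat_lit 228) (nat_lit 10840495178) (nat_lit 304) (nat_lit 1336504381) (nat_lit 55) (nat_lit 5) (nat_lit 58) (nat_lit 5) (nat_lit 59) (nat_lit 5) (nat_lit 333) (nat_lit 280) (nat_lit 167)) (XT.lf (nat_lit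 0) (nat_lit 1223247398) (nat_lit 304) (nat_lit 4513017894) (nat_lit 76) (nat_lit 14123699456) (nat_lit 54) (nat_lit 5) (nat_lit 58) (nat_lit 5) (nat_lit 55) (nat_lit 5) (nat_lit 334) (nat_lit 280) (nat_lit 166))))) (XT.nd (nat_lit 234) (nat_lit 456) (nat_lit 0) (XT.nd (nat_lit 78) (nat_lit 0) (nat_lit 0) (XT.lf (nat_lit 0) (nat_lit 3419504319) (nat_lit 304) (nat_lit 435308497) (nat_lit 380) (nat_lit 16421888629) (nat_lit 50) (nat_lit 5) (nat_lit 54) (nat_lit 5) (nat_lit 55) (nat_lit 5) (nat_lit 335) (nat_lit 280) (nat_lit 165)) (XT.nd (nat_lit 78) (nat_lit 0) (nat_lit 0) (XT.lf (nat_lit 0) (nat_lit 6648803212) (nat_lit 380) (nat_lit 9085843720) (nat_lit 76) (nat_lit 4968808985) (nat_lit 50) (nat_lit 5) (nat_lit 55) (nat_lit 5) (nat_lit 51) (nat_lit 5) (nat_lit 336) (nat_lit 280) (nat_lit 164)) (XT.lf (nat_lit 0) (nat_lit 9520393112) (nat_lit 380) (nat_lit 1100255637) (nat_lit 76) (nat_lit 10522570319)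 (nat_lit 50) (nat_lit 5) (nat_lit 55) (nat_lit 5) (nat_lit 51) (nat_lit 5) (nat_lit 337) (nat_lit 280) (nat_lit 163)))) (XT.nd (nat_lit 78) (nat_lit 228) (nat_lit 0) (XT.lf (nat_lit 0) (nat_lit 7252246730) (nat_lit 228) (nat_lit 5285373523) (nat_lit 304) (nat_lit 9056789042) (nat_lit 47) (nat_lit 5) (nat_lit 50) (nat_lit 5) (nat_lit 51) (nat_lit 5) (nat_lit 338) (nat_lit 280) (nat_lit 162)) (XT.nd (nat_lit 78) (nat_lit 228) (nat_lit 0) (XT.lf (nat_lit 0) (nat_lit 15648504125) (nat_lit 304) (nat_lit 6197365702) (nat_lit 76) (nat_lit 213189523) (nat_lit 47) (nat_lit 5) (nat_lit 51) (nat_lit 5) (nat_lit 48) (nat_lit 5) (nat_lit 339) (nat_lit 280) (nat_lit 161)) (XT.lf (nat_lit 0) (nat_lit 2167850263) (nat_lit 228) (nat_lit 16748228749) (nat_lit 304) (nat_lit 3619686747) (nat_lit 44) (nat_lit 5) (nat_lit 47) (nat_lit 5) (nat_lit 48) (nat_lit 5) (nat_lit 340) (nat_lit 280) (nat_lit 160))))))) (XT.nd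 (nat_lit 858) (nat_lit 532) (nat_lit 0) (XT.nd (nat_lit 390) (nat_lit 684) (nat_lit 0) (XT.nd (nat_lit 156) (nat_lit 228) (nat_lit 0) (XT.nd (nat_lit 78) (nat_lit 76) (nat_lit 0) (XT.lf (nat_lit 0) (nat_lit 10897301933) (nat_lit 228) (nat_lit 11437309113) (nat_lit 304) (nat_lit 690591682) (nat_lit 44) (nat_lit 5) (nat_lit 47) (nat_lit 5) (nat_lit 48) (nat_lit 5) (nat_lit 341) (nat_lit 280) (nat_lit 159)) (XT.lf (nat_lit 0) (nat_lit 2271500808) (nat_lit 304) (nat_lit 3676613042) (nat_lit 76) (nat_lit 17580838743) (nat_lit 43) (nat_lit 5) (nat_lit 47) (nat_lit 5) (nat_lit 44) (nat_lit 5) (nat_lit 342) (nat_lit 280) (nat_lit 158))) (XT.nd (nat_lit 78) (nat_lit 0) (nat_lit 0) (XT.lf (nat_lit 0) (nat_lit 5107879182) (nat_lit 228) (nat_lit 240593397) (nat_lit 304) (nat_lit 18697956148) (nat_lit 40) (nat_lit 5) (nat_lit 43) (nat_lit 5) (nat_lit 44) (nat_lit 5) (nat_lit 343) (nat_lit 280) (nat_lit 157))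 (XT.nd (nat_lit 78) (nat_lit 0) (nat_lit 0) (XT.lf (nat_lit 0) (nat_lit 8600346151) (nat_lit 304) (nat_lit 10414896706) (nat_lit 76) (nat_lit 5561723852) (nat_lit 40) (nat_lit 5) (nat_lit 44) (nat_lit 5) (nat_lit 41) (nat_lit 5) (nat_lit 344) (nat_lit 280) (nat_lit 156)) (XT.lf (nat_lit 0) (nat_lit 11943324159) (nat_lit 304) (nat_lit 1650818850) (nat_lit 76) (nat_lit 11529486268) (nat_lit 40) (nat_lit 5) (nat_lit 44) (nat_lit 5) (nat_lit 41) (nat_lit 5) (nat_lit 345) (nat_lit 280) (nat_lit 155))))) (XT.nd (nat_lit 234) (nat_lit 456) (nat_lit 0) (XT.nd (nat_lit 78) (nat_lit 0) (nat_lit 0) (XT.lf (nat_lit 0) (nat_lit 7510205850) (nat_lit 228) (nat_lit 7940001766) (nat_lit 304) (nat_lit 10234590087) (nat_lit 37) (nat_lit 5) (nat_lit 40) (nat_lit 5) (nat_lit 41) (nat_lit 5) (nat_lit 346) (nat_lit 280) (nat_lit 154)) (XT.nd (nat_lit 78) (nat_lit 0) (nat_lit 0) (XT.lf (nat_lit 0) (nat_lit 16967497613)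 (nat_lit 228) (nat_lit 2103023982) (nat_lit 304) (nat_lit 7192046904) (nat_lit 37) (nat_lit 5) (nat_lit 40) (nat_lit 5) (nat_lit 41) (nat_lit 5) (nat_lit 347) (nat_lit 280) (nat_lit 153)) (XT.lf (nat_lit 0) (nat_lit 22828784350) (nat_lit 304) (nat_lit 199005863) (nat_lit 76) (nat_lit 3829015659) (nat_lit 37) (nat_lit 5) (nat_lit 41) (nat_lit 5) (nat_lit 38) (nat_lit 5) (nat_lit 348) (nat_lit 280) (nat_lit 152)))) (XT.nd (nat_lit 78) (nat_lit 304) (nat_lit 0) (XT.lf (nat_lit 0) (nat_lit 9319059485) (nat_lit 152) (nat_lit 17483140981) (nat_lit 228) (nat_lit 663610969) (nat_lit 35) (nat_lit 5) (nat_lit 37) (nat_lit 5) (nat_lit 38) (nat_lit 5) (nat_lit 349) (nat_lit 280) (nat_lit 151)) (XT.nd (nat_lit 78) (nat_lit 228) (nat_lit 0) (XT.lf (nat_lit 0) (nat_lit 2741121431) (nat_lit 228) (nat_lit 9005194850) (nat_lit 76) (nat_lit 16346153557) (nat_lit 34) (nat_lit 5) (nat_lit 37) (nat_lit 5) (nat_lit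 35) (nat_lit 5) (nat_lit 350) (nat_lit 280) (nat_lit 150)) (XT.lf (nat_lit 0) (nat_lit 400234661) (nat_lit 228) (nat_lit 5830534544) (nat_lit 304) (nat_lit 22507090448) (nat_lit 31) (nat_lit 5) (nat_lit 34) (nat_lit 5) (nat_lit 35) (nat_lit 5) (nat_lit 351) (nat_lit 280) (nat_lit 149)))))) (XT.nd (nat_lit 468) (nat_lit 380) (nat_lit 0) (XT.nd (nat_lit 234) (nat_lit 152) (nat_lit 0) (XT.nd (nat_lit 78) (nat_lit 0) (nat_lit 0) (XT.lf (nat_lit 0) (nat_lit 9911808514) (nat_lit 304) (nat_lit 19142587332) (nat_lit 76) (nat_lit 345626012) (nat_lit 31) (nat_lit 5) (nat_lit 35) (nat_lit 5) (nat_lit 32) (nat_lit 5) (nat_lit 352) (nat_lit 280) (nat_lit 148)) (XT.nd (nat_lit 78) (nat_lit 0) (nat_lit 0) (XT.lf (nat_lit 0) (nat_lit 13753571641) (nat_lit 304) (nat_lit 9740788901) (nat_lit 76) (nat_lit 6586191024) (nat_lit 31) (nat_lit 5) (nat_lit 35) (nat_lit 5) (nat_lit 32) (nat_lit 5) (nat_lit 353) (nat_lit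 280) (nat_lit 147)) (XT.lf (nat_lit 0) (nat_lit 17703368804) (nat_lit 304) (nat_lit 67967869) (nat_lit 76) (nat_lit 13010388142) (nat_lit 31) (nat_lit 5) (nat_lit 35) (nat_lit 5) (nat_lit 32) (nat_lit 5) (nat_lit 354) (nat_lit 280) (nat_lit 146)))) (XT.nd (nat_lit 78) (nat_lit 0) (nat_lit 0) (XT.lf (nat_lit 0) (nat_lit 10081045245) (nat_lit 152) (nat_lit 11780511211) (nat_lit 228) (nat_lit 9639690669) (nat_lit 29) (nat_lit 5) (nat_lit 31) (nat_lit 5) (nat_lit 32) (nat_lit 5) (nat_lit 355) (nat_lit 280) (nat_lit 145)) (XT.nd (nat_lit 78) (nat_lit 0) (nat_lit 0) (XT.lf (nat_lit 0) (nat_lit 20525316976) (nat_lit 152) (nat_lit 5612952693) (nat_lit 228) (nat_lit 6104282483) (nat_lit 29) (nat_lit 5) (nat_lit 31) (nat_lit 5) (nat_lit 32) (nat_lit 5) (nat_lit 356) (nat_lit 280) (nat_lit 144)) (XT.lf (nat_lit 0) (nat_lit 30543654312) (nat_lit 228) (nat_lit 1740762221) (nat_lit 76) (nat_lit 721678840)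 (nat_lit 29) (nat_lit 5) (nat_lit 32) (nat_lit 5) (nat_lit 30) (nat_lit 5) (nat_lit 357) (nat_lit 280) (nat_lit 143))))) (XT.nd (nat_lit 234) (nat_lit 152) (nat_lit 0) (XT.nd (nat_lit 78) (nat_lit 0) (nat_lit 0) (XT.lf (nat_lit 0) (nat_lit 1396869497) (nat_lit 228) (nat_lit 25164469502) (nat_lit 76) (nat_lit 7226843026) (nat_lit 26) (nat_lit 5) (nat_lit 29) (nat_lit 5) (nat_lit 27) (nat_lit 5) (nat_lit 358) (nat_lit 280) (nat_lit 142)) (XT.nd (nat_lit 78) (nat_lit 0) (nat_lit 0) (XT.lf (nat_lit 0) (nat_lit 5333696181) (nat_lit 228) (nat_lit 15293160471) (nat_lit 76) (nat_lit 13965815605) (nat_lit 26) (nat_lit 5) (nat_lit 29) (nat_lit 5) (nat_lit 27) (nat_lit 5) (nat_lit 359) (nat_lit 280) (nat_lit 141)) (XT.lf (nat_lit 0) (nat_lit 9382294760) (nat_lit 228) (nat_lit 5135622195) (nat_lit 76) (nat_lit 20903579242) (nat_lit 26) (nat_lit 5) (nat_lit 29) (nat_lit 5) (nat_lit 27) (nat_lit 5) (nat_lit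 360) (nat_lit 280) (nat_lit 140)))) (XT.nd (nat_lit 78) (nat_lit 0) (nat_lit 0) (XT.lf (nat_lit 0) (nat_lit 5422839985) (nat_lit 152) (nat_lit 8175490513) (nat_lit 228) (nat_lit 22675483729) (nat_lit 24) (nat_lit 5) (nat_lit 26) (nat_lit 5) (nat_lit 27) (nat_lit 5) (nat_lit 361) (nat_lit 280) (nat_lit 139)) (XT.nd (nat_lit 78) (nat_lit 0) (nat_lit 0) (XT.lf (nat_lit 0) (nat_lit 16393804195) (nat_lit 152) (nat_lit 1592841878) (nat_lit 228) (nat_lit 19163690257) (nat_lit 24) (nat_lit 5) (nat_lit 26) (nat_lit 5) (nat_lit 27) (nat_lit 5) (nat_lit 362) (nat_lit 280) (nat_lit 138)) (XT.lf (nat_lit 0) (nat_lit 22550557717) (nat_lit 228) (nat_lit 10418522135) (nat_lit 76) (nat_lit 5082764093) (nat_lit 24) (nat_lit 5) (nat_lit 27) (nat_lit 5) (nat_lit 25) (nat_lit 5) (nat_lit 363) (nat_lit 280) (nat_lit 137))))))))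
noncomputable def xc168 : XT := (XT.nd (nat_lit 1716) (nat_lit 304) (nat_lit 0) (XT.nd (nat_lit 858) (nat_lit 304) (nat_lit 0) (XT.nd (nat_lit 390) (nat_lit 152) (nat_lit 0) (XT.nd (nat_lit 156) (nat_lit 228) (nat_lit 0) (XT.nd (nat_lit 78) (nat_lit 0) (nat_lit 0) (XT.lf (nat_lit 0) (nat_lit 208803810) (nat_lit 152) (nat_lit 27054616328) (nat_lit 228) (nat_lit 11716623656) (nat_lit 22) (nat_lit 5) (nat_lit 24) (nat_lit 5) (nat_lit 25) (nat_lit 5) (nat_lit 364) (nat_lit 280) (nat_lit 136)) (XT.lf (nat_lit 0) (nat_lit 11359480359) (nat_lit 152) (nat_lit 20857730712) (nat_lit 228) (nat_lit 7715900060) (nat_lit 22) (nat_lit 5) (nat_lit 24) (nat_lit 5) (nat_lit 25) (nat_lit 5) (nat_lit 365) (nat_lit 280) (nat_lit 135))) (XT.nd (nat_lit 78) (nat_lit 228) (nat_lit 0) (XT.lf (nat_lit 0) (nat_lit 22835901801) (nat_lit 152) (nat_lit 14478214898) (nat_lit 228) (nat_lit 3600826309) (nat_lit 22) (nat_lit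 5) (nat_lit 24) (nat_lit 5) (nat_lit 25) (nat_lit 5) (nat_lit 366) (nat_lit 280) (nat_lit 134)) (XT.nd (nat_lit 78) (nat_lit 152) (nat_lit 0) (XT.lf (nat_lit 0) (nat_lit 619856924) (nat_lit 228) (nat_lit 7284378285) (nat_lit 76) (nat_lit 34021979813) (nat_lit 21) (nat_lit 5) (nat_lit 24) (nat_lit 5) (nat_lit 22) (nat_lit 5) (nat_lit 367) (nat_lit 280) (nat_lit 133)) (XT.lf (nat_lit 0) (nat_lit 3865520114) (nat_lit 152) (nat_lit 1061183579) (nat_lit 228) (nat_lit 38039101378) (nat_lit 19) (nat_lit 5) (nat_lit 21) (nat_lit 5) (nat_lit 22) (nat_lit 5) (nat_lit 368) (nat_lit 280) (nat_lit 132))))) (XT.nd (nat_lit 234) (nat_lit 152) (nat_lit 0) (XT.nd (nat_lit 78) (nat_lit 0) (nat_lit 0) (XT.lf (nat_lit 0) (nat_lit 9489395449) (nat_lit 228) (nat_lit 28601850905) (nat_lit 76) (nat_lit 5941543984) (nat_lit 19) (nat_lit 5) (nat_lit 22) (nat_lit 5) (nat_lit 20) (nat_lit 5) (nat_lit 369) (nat_lit 280)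 (nat_lit 131)) (XT.nd (nat_lit 78) (nat_lit 0) (nat_lit 0) (XT.lf (nat_lit 0) (nat_lit 14194427260) (nat_lit 228) (nat_lit 17807157359) (nat_lit 76) (nat_lit 13130043276) (nat_lit 19) (nat_lit 5) (nat_lit 22) (nat_lit 5) (nat_lit 20) (nat_lit 5) (nat_lit 370) (nat_lit 280) (nat_lit 130)) (XT.lf (nat_lit 0) (nat_lit 19035709573) (nat_lit 228) (nat_lit 6696571319) (nat_lit 76) (nat_lit 20531303022) (nat_lit 19) (nat_lit 5) (nat_lit 22) (nat_lit 5) (nat_lit 20) (nat_lit 5) (nat_lit 371) (nat_lit 280) (nat_lit 129)))) (XT.nd (nat_lit 78) (nat_lit 0) (nat_lit 0) (XT.lf (nat_lit 0) (nat_lit 4833943137) (nat_lit 152) (nat_lit 19229996315) (nat_lit 228) (nat_lit 23364314024) (nat_lit 17) (nat_lit 5) (nat_lit 19) (nat_lit 5) (nat_lit 20) (nat_lit 5) (nat_lit 372) (nat_lit 280) (nat_lit 128)) (XT.nd (nat_lit 78) (nat_lit 0) (nat_lit 0) (XT.lf (nat_lit 0) (nat_lit 16840005022) (nat_lit 152) (nat_lit 12465940847)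 (nat_lit 228) (nat_lit 19320035325) (nat_lit 17) (nat_lit 5) (nat_lit 19) (nat_lit 5) (nat_lit 20) (nat_lit 5) (nat_lit 373) (nat_lit 280) (nat_lit 127)) (XT.lf (nat_lit 0) (nat_lit 29198830168) (nat_lit 152) (nat_lit 5501826390) (nat_lit 228) (nat_lit 15159126647) (nat_lit 17) (nat_lit 5) (nat_lit 19) (nat_lit 5) (nat_lit 20) (nat_lit 5) (nat_lit 374) (nat_lit 280) (nat_lit 126)))))) (XT.nd (nat_lit 390) (nat_lit 152) (nat_lit 0) (XT.nd (nat_lit 156) (nat_lit 76) (nat_lit 0) (XT.nd (nat_lit 78) (nat_lit 76) (nat_lit 0) (XT.lf (nat_lit 0) (nat_lit 40268823336) (nat_lit 228) (nat_lit 9225558030) (nat_lit 76) (nat_lit 1635875083) (nat_lit 17) (nat_lit 5) (nat_lit 20) (nat_lit 5) (nat_lit 18) (nat_lit 4) (nat_lit 375) (nat_lit 280) (nat_lit 125)) (XT.lf (nat_lit 0) (nat_lit 2540906451) (nat_lit 76) (nat_lit 43537706611) (nat_lit 152) (nat_lit 6357998944) (nat_lit 16) (nat_lit 5) (nat_lit 17) (nat_lit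 5) (nat_lit 18) (nat_lit 4) (nat_lit 376) (nat_lit 280) (nat_lit 124))) (XT.nd (nat_lit 78) (nat_lit 76) (nat_lit 0) (XT.lf (nat_lit 0) (nat_lit 14842448299) (nat_lit 76) (nat_lit 37309146142) (nat_lit 152) (nat_lit 1627902143) (nat_lit 16) (nat_lit 5) (nat_lit 17) (nat_lit 5) (nat_lit 18) (nat_lit 4) (nat_lit 377) (nat_lit 280) (nat_lit 123)) (XT.nd (nat_lit 78) (nat_lit 0) (nat_lit 0) (XT.lf (nat_lit 0) (nat_lit 3176609577) (nat_lit 152) (nat_lit 27687730470) (nat_lit 76) (nat_lit 24297522633) (nat_lit 15) (nat_lit 5) (nat_lit 17) (nat_lit 5) (nat_lit 16) (nat_lit 5) (nat_lit 378) (nat_lit 280) (nat_lit 122)) (XT.lf (nat_lit 0) (nat_lit 8088475334) (nat_lit 152) (nat_lit 16123764481) (nat_lit 76) (nat_lit 32373103115) (nat_lit 15) (nat_lit 5) (nat_lit 17) (nat_lit 5) (nat_lit 16) (nat_lit 5) (nat_lit 379) (nat_lit 280) (nat_lit 121))))) (XT.nd (nat_lit 234) (nat_lit 0) (nat_lit 0) (XT.nd (nat_lit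 78) (nat_lit 152) (nat_lit 0) (XT.lf (nat_lit 0) (nat_lit 13143753284) (nat_lit 152) (nat_lit 4219397490) (nat_lit 76) (nat_lit 40688499831) (nat_lit 15) (nat_lit 5) (nat_lit 17) (nat_lit 5) (nat_lit 16) (nat_lit 5) (nat_lit 380) (nat_lit 280) (nat_lit 120)) (XT.nd (nat_lit 78) (nat_lit 0) (nat_lit 0) (XT.lf (nat_lit 0) (nat_lit 8195700002) (nat_lit 152) (nat_lit 10229942739) (nat_lit 228) (nat_lit 41134060741) (nat_lit 13) (nat_lit 5) (nat_lit 15) (nat_lit 5) (nat_lit 16) (nat_lit 5) (nat_lit 381) (nat_lit 280) (nat_lit 119)) (XT.lf (nat_lit 0) (nat_lit 21063477838) (nat_lit 152) (nat_lit 2841341061) (nat_lit 228) (nat_lit 37207018578) (nat_lit 13) (nat_lit 5) (nat_lit 15) (nat_lit 5) (nat_lit 16) (nat_lit 5) (nat_lit 382) (nat_lit 280) (nat_lit 118)))) (XT.nd (nat_lit 78) (nat_lit 0) (nat_lit 0) (XT.lf (nat_lit 0) (nat_lit 29590521285) (nat_lit 228) (nat_lit 28445262941) (nat_lit 76) (nat_lit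 4673491042) (nat_lit 13) (nat_lit 5) (nat_lit 16) (nat_lit 5) (nat_lit 14) (nat_lit 4) (nat_lit 383) (nat_lit 280) (nat_lit 117)) (XT.nd (nat_lit 78) (nat_lit 0) (nat_lit 0) (XT.lf (nat_lit 0) (nat_lit 35471343511) (nat_lit 228) (nat_lit 16528200280) (nat_lit 76) (nat_lit 12354360118) (nat_lit 13) (nat_lit 5) (nat_lit 16) (nat_lit 5) (nat_lit 14) (nat_lit 4) (nat_lit 384) (nat_lit 280) (nat_lit 116)) (XT.lf (nat_lit 0) (nat_lit 41525111451) (nat_lit 228) (nat_lit 4259445980) (nat_lit 76) (nat_lit 20263422404) (nat_lit 13) (nat_lit 5) (nat_lit 16) (nat_lit 5) (nat_lit 14) (nat_lit 4) (nat_lit 385) (nat_lit 280) (nat_lit 115))))))) (XT.nd (nat_lit 32838) (nat_lit 0) (nat_lit 11400) (XT.nd (nat_lit 390) (nat_lit 228) (nat_lit 0) (XT.nd (nat_lit 156) (nat_lit 0) (nat_lit 0) (XT.nd (nat_lit 78) (nat_lit 0) (nat_lit 0) (XT.lf (nat_lit 0) (nat_lit 8538333875) (nat_lit 76) (nat_lit 39300856618) (nat_lit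 152) (nat_lit 19951330542) (nat_lit 12) (nat_lit 5) (nat_lit 13) (nat_lit 5) (nat_lit 14) (nat_lit 4) (nat_lit 386) (nat_lit 280) (nat_lit 114)) (XT.lf (nat_lit 0) (nat_lit 21801766274) (nat_lit 76) (nat_lit 32580604654) (nat_lit 152) (nat_lit 15201780997) (nat_lit 12) (nat_lit 5) (nat_lit 13) (nat_lit 5) (nat_lit 14) (nat_lit 4) (nat_lit 387) (nat_lit 280) (nat_lit 113))) (XT.nd (nat_lit 78) (nat_lit 0) (nat_lit 0) (XT.lf (nat_lit 0) (nat_lit 35457669294) (nat_lit 76) (nat_lit 25660941528) (nat_lit 152) (nat_lit 10313081710) (nat_lit 12) (nat_lit 5) (nat_lit 13) (nat_lit 5) (nat_lit 14) (nat_lit 4) (nat_lit 388) (nat_lit 280) (nat_lit 112)) (XT.nd (nat_lit 78) (nat_lit 0) (nat_lit 0) (XT.lf (nat_lit 0) (nat_lit 49517975279) (nat_lit 76) (nat_lit 18535820932) (nat_lit 152) (nat_lit 5280961004) (nat_lit 12) (nat_lit 5) (nat_lit 13) (nat_lit 5) (nat_lit 14) (nat_lit 4) (nat_lit 389) (nat_lit 280)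 (nat_lit 111)) (XT.lf (nat_lit 0) (nat_lit 63994969933) (nat_lit 76) (nat_lit 11199017033) (nat_lit 152) (nat_lit 101021878) (nat_lit 12) (nat_lit 5) (nat_lit 13) (nat_lit 5) (nat_lit 14) (nat_lit 4) (nat_lit 390) (nat_lit 280) (nat_lit 110))))) (XT.nd (nat_lit 32214) (nat_lit 0) (nat_lit 12160) (XT.nd (nat_lit 32058) (nat_lit 0) (nat_lit 13072) (XT.lf (nat_lit 0) (nat_lit 1567443169) (nat_lit 152) (nat_lit 3576805120) (nat_lit 228) (nat_lit 72167951370) (nat_lit 9) (nat_lit 5) (nat_lit 11) (nat_lit 5) (nat_lit 12) (nat_lit 5) (nat_lit 391) (nat_lit 280) (nat_lit 109)) (XT.nd (nat_lit 78) (nat_lit 0) (nat_lit 0) (XT.lf (nat_lit 0) (nat_lit 1395293248) (nat_lit 0) (nat_lit 1395293248) (nat_lit 836) (nat_lit 1403841726) (nat_lit 181) (nat_lit 5) (nat_lit 181) (nat_lit 3) (nat_lit 192) (nat_lit 3) (nat_lit 281) (nat_lit 281) (nat_lit 218)) (XT.lf (nat_lit 0) (nat_lit 6370577784) (nat_lit 0) (nat_lit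 245664331) (nat_lit 836) (nat_lit 1866972676) (nat_lit 181) (nat_lit 5) (nat_lit 181) (nat_lit 3) (nat_lit 192) (nat_lit 3) (nat_lit 282) (nat_lit 281) (nat_lit 217)))) (XT.nd (nat_lit 78) (nat_lit 912) (nat_lit 0) (XT.lf (nat_lit 76) (nat_lit 1463312537) (nat_lit 0) (nat_lit 6219002665) (nat_lit 912) (nat_lit 898204634) (nat_lit 182) (nat_lit 5) (nat_lit 181) (nat_lit 5) (nat_lit 193) (nat_lit 5) (nat_lit 283) (nat_lit 281) (nat_lit 216)) (XT.nd (nat_lit 78) (nat_lit 0) (nat_lit 0) (XT.lf (nat_lit 0) (nat_lit 85129329) (nat_lit 912) (nat_lit 3514467947) (nat_lit 988) (nat_lit 5081602548) (nat_lit 169) (nat_lit 5) (nat_lit 181) (nat_lit 5) (nat_lit 182) (nat_lit 5) (nat_lit 284) (nat_lit 281) (nat_lit 215)) (XT.lf (nat_lit 76) (nat_lit 170783097) (nat_lit 0) (nat_lit 875302763) (nat_lit 988) (nat_lit 7739667078) (nat_lit 170) (nat_lit 5) (nat_lit 169) (nat_lit 5) (nat_lit 182) (nat_lit 5) (nat_lit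 285) (nat_lit 281) (nat_lit 214)))))) (XT.nd (nat_lit 468) (nat_lit 836) (nat_lit 0) (XT.nd (nat_lit 234) (nat_lit 0) (nat_lit 76) (XT.nd (nat_lit 78) (nat_lit 0) (nat_lit 0) (XT.lf (nat_lit 0) (nat_lit 2055789762) (nat_lit 912) (nat_lit 4893750387) (nat_lit 988) (nat_lit 1943406673) (nat_lit 170) (nat_lit 5) (nat_lit 182) (nat_lit 5) (nat_lit 183) (nat_lit 5) (nat_lit 286) (nat_lit 281) (nat_lit 213)) (XT.nd (nat_lit 78) (nat_lit 0) (nat_lit 0) (XT.lf (nat_lit 0) (nat_lit 3070974243) (nat_lit 912) (nat_lit 1090042840) (nat_lit 988) (nat_lit 4843182527) (nat_lit 170) (nat_lit 5) (nat_lit 182) (nat_lit 5) (nat_lit 183) (nat_lit 5) (nat_lit 287) (nat_lit 281) (nat_lit 212)) (XT.lf (nat_lit 76) (nat_lit 2863772895) (nat_lit 0) (nat_lit 1247867855) (nat_lit 988) (nat_lit 5007394332) (nat_lit 171) (nat_lit 5) (nat_lit 170) (nat_lit 5) (nat_lit 183) (nat_lit 5) (nat_lit 288) (nat_lit 281) (nat_lit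 211)))) (XT.nd (nat_lit 78) (nat_lit 0) (nat_lit 0) (XT.lf (nat_lit 0) (nat_lit 5179862724) (nat_lit 912) (nat_lit 2316246173) (nat_lit 988) (nat_lit 1741409758) (nat_lit 171) (nat_lit 5) (nat_lit 183) (nat_lit 5) (nat_lit 184) (nat_lit 5) (nat_lit 289) (nat_lit 281) (nat_lit 210)) (XT.nd (nat_lit 78) (nat_lit 0) (nat_lit 0) (XT.lf (nat_lit 76) (nat_lit 1742339948) (nat_lit 0) (nat_lit 4536187597) (nat_lit 988) (nat_lit 3081167697) (nat_lit 172) (nat_lit 5) (nat_lit 171) (nat_lit 5) (nat_lit 184) (nat_lit 5) (nat_lit 290) (nat_lit 281) (nat_lit 209)) (XT.lf (nat_lit 76) (nat_lit 5950118332) (nat_lit 0) (nat_lit 1453417840) (nat_lit 988) (nat_lit 2082287196) (nat_lit 172) (nat_lit 5) (nat_lit 171) (nat_lit 5) (nat_lit 184) (nat_lit 5) (nat_lit 291) (nat_lit 281) (nat_lit 208))))) (XT.nd (nat_lit 234) (nat_lit 0) (nat_lit 76) (XT.nd (nat_lit 78) (nat_lit 988) (nat_lit 0) (XT.lf (nat_lit 76) (nat_lit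 643893751) (nat_lit 0) (nat_lit 7912103357) (nat_lit 988) (nat_lit 1060012370) (nat_lit 173) (nat_lit 5) (nat_lit 172) (nat_lit 5) (nat_lit 185) (nat_lit 5) (nat_lit 292) (nat_lit 281) (nat_lit 207)) (XT.nd (nat_lit 78) (nat_lit 0) (nat_lit 0) (XT.lf (nat_lit 0) (nat_lit 14765680) (nat_lit 988) (nat_lit 4763312608) (nat_lit 1064) (nat_lit 4971454323) (nat_lit 159) (nat_lit 5) (nat_lit 172) (nat_lit 5) (nat_lit 173) (nat_lit 5) (nat_lit 293) (nat_lit 281) (nat_lit 206)) (XT.lf (nat_lit 0) (nat_lit 1072568831) (nat_lit 988) (nat_lit 459095627) (nat_lit 1064) (nat_lit 8355997486) (nat_lit 159) (nat_lit 5) (nat_lit 172) (nat_lit 5) (nat_lit 173) (nat_lit 5) (nat_lit 294) (nat_lit 281) (nat_lit 205)))) (XT.nd (nat_lit 78) (nat_lit 0) (nat_lit 0) (XT.lf (nat_lit 0) (nat_lit 2191649311) (nat_lit 988) (nat_lit 6014346896) (nat_lit 1064) (nat_lit 1823128353) (nat_lit 160) (nat_lit 5) (nat_lit 173) (nat_lit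 5) (nat_lit 174) (nat_lit 5) (nat_lit 295) (nat_lit 281) (nat_lit 204)) (XT.nd (nat_lit 78) (nat_lit 0) (nat_lit 0) (XT.lf (nat_lit 0) (nat_lit 3337716862) (nat_lit 988) (nat_lit 1578128235) (nat_lit 1064) (nat_lit 5259257016) (nat_lit 160) (nat_lit 5) (nat_lit 173) (nat_lit 5) (nat_lit 174) (nat_lit 5) (nat_lit 296) (nat_lit 281) (nat_lit 203)) (XT.lf (nat_lit 76) (nat_lit 3030404761) (nat_lit 0) (nat_lit 1491229449) (nat_lit 1064) (nat_lit 5803792103) (nat_lit 161) (nat_lit 5) (nat_lit 160) (nat_lit 5) (nat_lit 174) (nat_lit 5) (nat_lit 297) (nat_lit 281) (nat_lit 202))))))))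
noncomputable def xc169 : XT := (XT.nd (nat_lit 1716) (nat_lit 2812) (nat_lit 0) (XT.nd (nat_lit 858) (nat_lit 2280) (nat_lit 0) (XT.nd (nat_lit 390) (nat_lit 1672) (nat_lit 0) (XT.nd (nat_lit 156) (nat_lit 1140) (nat_lit 0) (XT.nd (nat_lit 78) (nat_lit 988) (nat_lit 0) (XT.lf (nat_lit 0) (nat_lit 5751682818) (nat_lit 988) (nat_lit 2710554017) (nat_lit 76) (nat_lit 2017774269) (nat_lit 161) (nat_lit 5) (nat_lit 174) (nat_lit 5) (nat_lit 162) (nat_lit 5) (nat_lit 298) (nat_lit 281) (nat_lit 201)) (XT.lf (nat_lit 0) (nat_lit 2016037191) (nat_lit 988) (nat_lit 5012416887) (nat_lit 1064) (nat_lit 3610551984) (nat_lit 148) (nat_lit 5) (nat_lit 161) (nat_lit 5) (nat_lit 162) (nat_lit 5) (nat_lit 299) (nat_lit 281) (nat_lit 200))) (XT.nd (nat_lit 78) (nat_lit 1140) (nat_lit 0) (XT.lf (nat_lit 0) (nat_lit 6920199924) (nat_lit 988) (nat_lit 1426895197) (nat_lit 1064) (nat_lit 2455634049) (nat_lit 148)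 (nat_lit 5) (nat_lit 161) (nat_lit 5) (nat_lit 162) (nat_lit 5) (nat_lit 300) (nat_lit 281) (nat_lit 199)) (XT.nd (nat_lit 78) (nat_lit 76) (nat_lit 0) (XT.lf (nat_lit 0) (nat_lit 977404513) (nat_lit 1064) (nat_lit 8735996488) (nat_lit 1140) (nat_lit 1257783199) (nat_lit 134) (nat_lit 5) (nat_lit 148) (nat_lit 5) (nat_lit 149) (nat_lit 5) (nat_lit 301) (nat_lit 281) (nat_lit 198)) (XT.lf (nat_lit 0) (nat_lit 7316972) (nat_lit 1140) (nat_lit 5115404155) (nat_lit 76) (nat_lit 6021113066) (nat_lit 133) (nat_lit 5) (nat_lit 148) (nat_lit 5) (nat_lit 134) (nat_lit 5) (nat_lit 302) (nat_lit 281) (nat_lit 197))))) (XT.nd (nat_lit 234) (nat_lit 1064) (nat_lit 0) (XT.nd (nat_lit 78) (nat_lit 608) (nat_lit 0) (XT.lf (nat_lit 0) (nat_lit 1262879999) (nat_lit 1140) (nat_lit 122865219) (nat_lit 76) (nat_lit 9936269189) (nat_lit 133) (nat_lit 5) (nat_lit 148) (nat_lit 5) (nat_lit 134) (nat_lit 5) (nat_lit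 303) (nat_lit 281) (nat_lit 196)) (XT.nd (nat_lit 78) (nat_lit 0) (nat_lit 0) (XT.lf (nat_lit 0) (nat_lit 2607756910) (nat_lit 684) (nat_lit 6429154481) (nat_lit 76) (nat_lit 2467135552) (nat_lit 125) (nat_lit 5) (nat_lit 134) (nat_lit 5) (nat_lit 126) (nat_lit 5) (nat_lit 304) (nat_lit 281) (nat_lit 195)) (XT.lf (nat_lit 0) (nat_lit 3986856601) (nat_lit 684) (nat_lit 1293815039) (nat_lit 76) (nat_lit 6411107210) (nat_lit 125) (nat_lit 5) (nat_lit 134) (nat_lit 5) (nat_lit 126) (nat_lit 5) (nat_lit 305) (nat_lit 281) (nat_lit 194)))) (XT.nd (nat_lit 78) (nat_lit 532) (nat_lit 0) (XT.lf (nat_lit 0) (nat_lit 4055616741) (nat_lit 532) (nat_lit 1370215322) (nat_lit 608) (nat_lit 6458808663) (nat_lit 118) (nat_lit 5) (nat_lit 125) (nat_lit 5) (nat_lit 126) (nat_lit 5) (nat_lit 306) (nat_lit 281) (nat_lit 193)) (XT.nd (nat_lit 78) (nat_lit 532) (nat_lit 0) (XT.lf (nat_lit 0) (nat_lit 6926660621) (nat_lit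 608) (nat_lit 2536103302) (nat_lit 76) (nat_lit 2620015568) (nat_lit 118) (nat_lit 5) (nat_lit 126) (nat_lit 5) (nat_lit 119) (nat_lit 5) (nat_lit 307) (nat_lit 281) (nat_lit 192)) (XT.lf (nat_lit 0) (nat_lit 2940401965) (nat_lit 532) (nat_lit 5554471111) (nat_lit 608) (nat_lit 3791368619) (nat_lit 111) (nat_lit 5) (nat_lit 118) (nat_lit 5) (nat_lit 119) (nat_lit 5) (nat_lit 308) (nat_lit 281) (nat_lit 191)))))) (XT.nd (nat_lit 390) (nat_lit 1292) (nat_lit 0) (XT.nd (nat_lit 156) (nat_lit 532) (nat_lit 0) (XT.nd (nat_lit 78) (nat_lit 456) (nat_lit 0) (XT.lf (nat_lit 0) (nat_lit 8614362057) (nat_lit 532) (nat_lit 1502293299) (nat_lit 608) (nat_lit 2379005294) (nat_lit 111) (nat_lit 5) (nat_lit 118) (nat_lit 5) (nat_lit 119) (nat_lit 5) (nat_lit 309) (nat_lit 281) (nat_lit 190)) (XT.lf (nat_lit 0) (nat_lit 1736499454) (nat_lit 456) (nat_lit 10074435659) (nat_lit 532) (nat_lit 899758917) (nat_lit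 105) (nat_lit 5) (nat_lit 111) (nat_lit 5) (nat_lit 112) (nat_lit 5) (nat_lit 310) (nat_lit 281) (nat_lit 189))) (XT.nd (nat_lit 78) (nat_lit 456) (nat_lit 0) (XT.lf (nat_lit 0) (nat_lit 647753957) (nat_lit 532) (nat_lit 5368978003) (nat_lit 76) (nat_lit 6914229117) (nat_lit 104) (nat_lit 5) (nat_lit 111) (nat_lit 5) (nat_lit 105) (nat_lit 5) (nat_lit 311) (nat_lit 281) (nat_lit 188)) (XT.nd (nat_lit 78) (nat_lit 0) (nat_lit 0) (XT.lf (nat_lit 0) (nat_lit 384434435) (nat_lit 456) (nat_lit 1825011857) (nat_lit 532) (nat_lit 10948590611) (nat_lit 98) (nat_lit 5) (nat_lit 104) (nat_lit 5) (nat_lit 105) (nat_lit 5) (nat_lit 312) (nat_lit 281) (nat_lit 187)) (XT.lf (nat_lit 0) (nat_lit 3879179565) (nat_lit 532) (nat_lit 7013217326) (nat_lit 76) (nat_lit 2497734321) (nat_lit 98) (nat_lit 5) (nat_lit 105) (nat_lit 5) (nat_lit 99) (nat_lit 5) (nat_lit 313) (nat_lit 281) (nat_lit 186))))) (XT.nd (nat_lit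 234) (nat_lit 912) (nat_lit 0) (XT.nd (nat_lit 78) (nat_lit 380) (nat_lit 0) (XT.lf (nat_lit 0) (nat_lit 5600062778) (nat_lit 532) (nat_lit 1116469661) (nat_lit 76) (nat_lit 6912664865) (nat_lit 98) (nat_lit 5) (nat_lit 105) (nat_lit 5) (nat_lit 99) (nat_lit 5) (nat_lit 314) (nat_lit 281) (nat_lit 185)) (XT.nd (nat_lit 78) (nat_lit 0) (nat_lit 0) (XT.lf (nat_lit 0) (nat_lit 5037638626) (nat_lit 380) (nat_lit 2366842725) (nat_lit 456) (nat_lit 6470036271) (nat_lit 93) (nat_lit 5) (nat_lit 98) (nat_lit 5) (nat_lit 99) (nat_lit 5) (nat_lit 315) (nat_lit 281) (nat_lit 184)) (XT.lf (nat_lit 0) (nat_lit 9278514076) (nat_lit 456) (nat_lit 2766208707) (nat_lit 76) (nat_lit 2082048674) (nat_lit 93) (nat_lit 5) (nat_lit 99) (nat_lit 5) (nat_lit 94) (nat_lit 5) (nat_lit 316) (nat_lit 281) (nat_lit 183)))) (XT.nd (nat_lit 78) (nat_lit 456) (nat_lit 0) (XT.lf (nat_lit 0) (nat_lit 3514069505) (nat_lit 456)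 (nat_lit 7736165265) (nat_lit 532) (nat_lit 3135151368) (nat_lit 87) (nat_lit 5) (nat_lit 93) (nat_lit 5) (nat_lit 94) (nat_lit 5) (nat_lit 317) (nat_lit 281) (nat_lit 182)) (XT.nd (nat_lit 78) (nat_lit 456) (nat_lit 0) (XT.lf (nat_lit 0) (nat_lit 10021983421) (nat_lit 456) (nat_lit 3271601098) (nat_lit 532) (nat_lit 1357836573) (nat_lit 87) (nat_lit 5) (nat_lit 93) (nat_lit 5) (nat_lit 94) (nat_lit 5) (nat_lit 318) (nat_lit 281) (nat_lit 181)) (XT.lf (nat_lit 0) (nat_lit 478765103) (nat_lit 456) (nat_lit 13124988823) (nat_lit 76) (nat_lit 1321125101) (nat_lit 81) (nat_lit 5) (nat_lit 87) (nat_lit 5) (nat_lit 82) (nat_lit 5) (nat_lit 319) (nat_lit 281) (nat_lit 180))))))) (XT.nd (nat_lit 858) (nat_lit 1368) (nat_lit 0) (XT.nd (nat_lit 390) (nat_lit 760) (nat_lit 0) (XT.nd (nat_lit 156) (nat_lit 684) (nat_lit 0) (XT.nd (nat_lit 78) (nat_lit 0) (nat_lit 0) (XT.lf (nat_lit 0) (nat_lit 2407844479)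 (nat_lit 456) (nat_lit 6752034187) (nat_lit 76) (nat_lit 6044351677) (nat_lit 81) (nat_lit 5) (nat_lit 87) (nat_lit 5) (nat_lit 82) (nat_lit 5) (nat_lit 320) (nat_lit 281) (nat_lit 179)) (XT.lf (nat_lit 0) (nat_lit 4380298791) (nat_lit 456) (nat_lit 204972385) (nat_lit 76) (nat_lit 10907158071) (nat_lit 81) (nat_lit 5) (nat_lit 87) (nat_lit 5) (nat_lit 82) (nat_lit 5) (nat_lit 321) (nat_lit 281) (nat_lit 178))) (XT.nd (nat_lit 78) (nat_lit 304) (nat_lit 0) (XT.lf (nat_lit 0) (nat_lit 6463617577) (nat_lit 456) (nat_lit 9137918759) (nat_lit 76) (nat_lit 186218243) (nat_lit 76) (nat_lit 5) (nat_lit 82) (nat_lit 5) (nat_lit 77) (nat_lit 5) (nat_lit 322) (nat_lit 281) (nat_lit 177)) (XT.nd (nat_lit 78) (nat_lit 304) (nat_lit 0) (XT.lf (nat_lit 0) (nat_lit 8643076904) (nat_lit 456) (nat_lit 2439648150) (nat_lit 76) (nat_lit 5008235668) (nat_lit 76) (nat_lit 5) (nat_lit 82) (nat_lit 5) (nat_lit 77)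 (nat_lit 5) (nat_lit 323) (nat_lit 281) (nat_lit 176)) (XT.lf (nat_lit 0) (nat_lit 4531648526) (nat_lit 304) (nat_lit 6386387743) (nat_lit 380) (nat_lit 5484352689) (nat_lit 72) (nat_lit 5) (nat_lit 76) (nat_lit 5) (nat_lit 77) (nat_lit 5) (nat_lit 324) (nat_lit 281) (nat_lit 175))))) (XT.nd (nat_lit 234) (nat_lit 304) (nat_lit 0) (XT.nd (nat_lit 78) (nat_lit 456) (nat_lit 0) (XT.lf (nat_lit 0) (nat_lit 11745903964) (nat_lit 304) (nat_lit 1526767354) (nat_lit 380) (nat_lit 3450174457) (nat_lit 72) (nat_lit 5) (nat_lit 76) (nat_lit 5) (nat_lit 77) (nat_lit 5) (nat_lit 325) (nat_lit 281) (nat_lit 174)) (XT.nd (nat_lit 78) (nat_lit 76) (nat_lit 0) (XT.lf (nat_lit 0) (nat_lit 2115407589) (nat_lit 380) (nat_lit 13623459388) (nat_lit 456) (nat_lit 1312849383) (nat_lit 67) (nat_lit 5) (nat_lit 72) (nat_lit 5) (nat_lit 73) (nat_lit 5) (nat_lit 326) (nat_lit 281) (nat_lit 173)) (XT.lf (nat_lit 0) (nat_lit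 924344950) (nat_lit 456) (nat_lit 7906777472) (nat_lit 76) (nat_lit 8557507832) (nat_lit 66) (nat_lit 5) (nat_lit 72) (nat_lit 5) (nat_lit 67) (nat_lit 5) (nat_lit 327) (nat_lit 281) (nat_lit 172)))) (XT.nd (nat_lit 78) (nat_lit 304) (nat_lit 0) (XT.lf (nat_lit 0) (nat_lit 3189858185) (nat_lit 456) (nat_lit 695112336) (nat_lit 76) (nat_lit 13850688746) (nat_lit 66) (nat_lit 5) (nat_lit 72) (nat_lit 5) (nat_lit 67) (nat_lit 5) (nat_lit 328) (nat_lit 281) (nat_lit 171)) (XT.nd (nat_lit 78) (nat_lit 0) (nat_lit 0) (XT.lf (nat_lit 0) (nat_lit 5589395169) (nat_lit 380) (nat_lit 11252455835) (nat_lit 76) (nat_lit 1249291015) (nat_lit 62) (nat_lit 5) (nat_lit 67) (nat_lit 5) (nat_lit 63) (nat_lit 5) (nat_lit 329) (nat_lit 281) (nat_lit 170)) (XT.lf (nat_lit 0) (nat_lit 8094597195) (nat_lit 380) (nat_lit 3898357707) (nat_lit 76) (nat_lit 6463347886) (nat_lit 62) (nat_lit 5) (nat_lit 67) (nat_lit 5)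 (nat_lit 63) (nat_lit 5) (nat_lit 330) (nat_lit 281) (nat_lit 169)))))) (XT.nd (nat_lit 468) (nat_lit 456) (nat_lit 0) (XT.nd (nat_lit 234) (nat_lit 380) (nat_lit 0) (XT.nd (nat_lit 78) (nat_lit 228) (nat_lit 0) (XT.lf (nat_lit 0) (nat_lit 3734189826) (nat_lit 304) (nat_lit 6965131752) (nat_lit 380) (nat_lit 8132389022) (nat_lit 58) (nat_lit 5) (nat_lit 62) (nat_lit 5) (nat_lit 63) (nat_lit 5) (nat_lit 331) (nat_lit 281) (nat_lit 168)) (XT.nd (nat_lit 78) (nat_lit 228) (nat_lit 0) (XT.lf (nat_lit 0) (nat_lit 11660732727) (nat_lit 304) (nat_lit 1749484343) (nat_lit 380) (nat_lit 5807345224) (nat_lit 58) (nat_lit 5) (nat_lit 62) (nat_lit 5) (nat_lit 63) (nat_lit 5) (nat_lit 332) (nat_lit 281) (nat_lit 167)) (XT.lf (nat_lit 0) (nat_lit 163674658) (nat_lit 228) (nat_lit 16064121666) (nat_lit 304) (nat_lit 3386454381) (nat_lit 55) (nat_lit 5) (nat_lit 58) (nat_lit 5) (nat_lit 59) (nat_lit 5) (nat_lit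 333) (nat_lit 281) (nat_lit 166)))) (XT.nd (nat_lit 78) (nat_lit 380) (nat_lit 0) (XT.lf (nat_lit 0) (nat_lit 8238401497) (nat_lit 228) (nat_lit 10974103893) (nat_lit 304) (nat_lit 807877544) (nat_lit 55) (nat_lit 5) (nat_lit 58) (nat_lit 5) (nat_lit 59) (nat_lit 5) (nat_lit 334) (nat_lit 281) (nat_lit 165)) (XT.nd (nat_lit 78) (nat_lit 304) (nat_lit 0) (XT.lf (nat_lit 0) (nat_lit 1801327494) (nat_lit 304) (nat_lit 3915533475) (nat_lit 76) (nat_lit 14721645246) (nat_lit 54) (nat_lit 5) (nat_lit 58) (nat_lit 5) (nat_lit 55) (nat_lit 5) (nat_lit 335) (nat_lit 281) (nat_lit 164)) (XT.lf (nat_lit 0) (nat_lit 4247779356) (nat_lit 304) (nat_lit 255267866) (nat_lit 380) (nat_lit 16364991161) (nat_lit 50) (nat_lit 5) (nat_lit 54) (nat_lit 5) (nat_lit 55) (nat_lit 5) (nat_lit 336) (nat_lit 281) (nat_lit 163))))) (XT.nd (nat_lit 234) (nat_lit 228) (nat_lit 0) (XT.nd (nat_lit 78) (nat_lit 228) (nat_lit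 0) (XT.lf (nat_lit 0) (nat_lit 7367147130) (nat_lit 380) (nat_lit 8639197849) (nat_lit 76) (nat_lit 5301690548) (nat_lit 50) (nat_lit 5) (nat_lit 55) (nat_lit 5) (nat_lit 51) (nat_lit 5) (nat_lit 337) (nat_lit 281) (nat_lit 162)) (XT.nd (nat_lit 78) (nat_lit 228) (nat_lit 0) (XT.lf (nat_lit 0) (nat_lit 10309771722) (nat_lit 380) (nat_lit 434990313) (nat_lit 76) (nat_lit 11016710819) (nat_lit 50) (nat_lit 5) (nat_lit 55) (nat_lit 5) (nat_lit 51) (nat_lit 5) (nat_lit 338) (nat_lit 281) (nat_lit 161)) (XT.lf (nat_lit 0) (nat_lit 8161241311) (nat_lit 228) (nat_lit 5248247967) (nat_lit 304) (nat_lit 8816977384) (nat_lit 47) (nat_lit 5) (nat_lit 50) (nat_lit 5) (nat_lit 51) (nat_lit 5) (nat_lit 339) (nat_lit 281) (nat_lit 160)))) (XT.nd (nat_lit 78) (nat_lit 228) (nat_lit 0) (XT.lf (nat_lit 0) (nat_lit 16601086898) (nat_lit 304) (nat_lit 5698508974) (nat_lit 76) (nat_lit 405865022) (nat_lit 47) (nat_lit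 5) (nat_lit 51) (nat_lit 5) (nat_lit 48) (nat_lit 5) (nat_lit 340) (nat_lit 281) (nat_lit 159)) (XT.nd (nat_lit 78) (nat_lit 0) (nat_lit 0) (XT.lf (nat_lit 0) (nat_lit 2910949963) (nat_lit 228) (nat_lit 17048185356) (nat_lit 304) (nat_lit 3237585312) (nat_lit 44) (nat_lit 5) (nat_lit 47) (nat_lit 5) (nat_lit 48) (nat_lit 5) (nat_lit 341) (nat_lit 281) (nat_lit 158)) (XT.lf (nat_lit 0) (nat_lit 11882535742) (nat_lit 228) (nat_lit 11583835906) (nat_lit 304) (nat_lit 234909397) (nat_lit 44) (nat_lit 5) (nat_lit 47) (nat_lit 5) (nat_lit 48) (nat_lit 5) (nat_lit 342) (nat_lit 281) (nat_lit 157))))))))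
noncomputable def xc170 : XT := (XT.nd (nat_lit 1716) (nat_lit 912) (nat_lit 0) (XT.nd (nat_lit 858) (nat_lit 532) (nat_lit 0) (XT.nd (nat_lit 390) (nat_lit 456) (nat_lit 0) (XT.nd (nat_lit 156) (nat_lit 228) (nat_lit 0) (XT.nd (nat_lit 78) (nat_lit 228) (nat_lit 0) (XT.lf (nat_lit 0) (nat_lit 2793144624) (nat_lit 304) (nat_lit 3137966707) (nat_lit 76) (nat_lit 18289326200) (nat_lit 43) (nat_lit 5) (nat_lit 47) (nat_lit 5) (nat_lit 44) (nat_lit 5) (nat_lit 343) (nat_lit 281) (nat_lit 156)) (XT.lf (nat_lit 0) (nat_lit 5903698080) (nat_lit 228) (nat_lit 51695662) (nat_lit 304) (nat_lit 18798277841) (nat_lit 40) (nat_lit 5) (nat_lit 43) (nat_lit 5) (nat_lit 44) (nat_lit 5) (nat_lit 344) (nat_lit 281) (nat_lit 155))) (XT.nd (nat_lit 78) (nat_lit 228) (nat_lit 0) (XT.lf (nat_lit 0) (nat_lit 9293649902) (nat_lit 304) (nat_lit 10091569485) (nat_lit 76) (nat_lit 5915263545) (nat_lit 40) (nat_lit 5)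 (nat_lit 44) (nat_lit 5) (nat_lit 41) (nat_lit 5) (nat_lit 345) (nat_lit 281) (nat_lit 154)) (XT.nd (nat_lit 78) (nat_lit 228) (nat_lit 0) (XT.lf (nat_lit 0) (nat_lit 12724238803) (nat_lit 304) (nat_lit 1083086986) (nat_lit 76) (nat_lit 12056621320) (nat_lit 40) (nat_lit 5) (nat_lit 44) (nat_lit 5) (nat_lit 41) (nat_lit 5) (nat_lit 346) (nat_lit 281) (nat_lit 153)) (XT.lf (nat_lit 0) (nat_lit 8346716922) (nat_lit 228) (nat_lit 7983177945) (nat_lit 304) (nat_lit 10112269493) (nat_lit 37) (nat_lit 5) (nat_lit 40) (nat_lit 5) (nat_lit 41) (nat_lit 5) (nat_lit 347) (nat_lit 281) (nat_lit 152))))) (XT.nd (nat_lit 234) (nat_lit 304) (nat_lit 0) (XT.nd (nat_lit 78) (nat_lit 152) (nat_lit 0) (XT.lf (nat_lit 0) (nat_lit 18069925354) (nat_lit 228) (nat_lit 1976771135) (nat_lit 304) (nat_lit 6990955596) (nat_lit 37) (nat_lit 5) (nat_lit 40) (nat_lit 5) (nat_lit 41) (nat_lit 5) (nat_lit 348) (nat_lit 281)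 (nat_lit 151)) (XT.nd (nat_lit 78) (nat_lit 0) (nat_lit 0) (XT.lf (nat_lit 0) (nat_lit 389395475) (nat_lit 152) (nat_lit 23522053116) (nat_lit 228) (nat_lit 3738475307) (nat_lit 35) (nat_lit 5) (nat_lit 37) (nat_lit 5) (nat_lit 38) (nat_lit 5) (nat_lit 349) (nat_lit 281) (nat_lit 150)) (XT.lf (nat_lit 0) (nat_lit 10179651599) (nat_lit 152) (nat_lit 17814780201) (nat_lit 228) (nat_lit 283075883) (nat_lit 35) (nat_lit 5) (nat_lit 37) (nat_lit 5) (nat_lit 38) (nat_lit 5) (nat_lit 350) (nat_lit 281) (nat_lit 149)))) (XT.nd (nat_lit 78) (nat_lit 228) (nat_lit 0) (XT.lf (nat_lit 0) (nat_lit 3204548590) (nat_lit 228) (nat_lit 8703069999) (nat_lit 76) (nat_lit 17015592749) (nat_lit 34) (nat_lit 5) (nat_lit 37) (nat_lit 5) (nat_lit 35) (nat_lit 5) (nat_lit 351) (nat_lit 281) (nat_lit 148)) (XT.nd (nat_lit 78) (nat_lit 0) (nat_lit 0) (XT.lf (nat_lit 0) (nat_lit 978911803) (nat_lit 228) (nat_lit 5814318450)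 (nat_lit 304) (nat_lit 22794919642) (nat_lit 31) (nat_lit 5) (nat_lit 34) (nat_lit 5) (nat_lit 35) (nat_lit 5) (nat_lit 352) (nat_lit 281) (nat_lit 147)) (XT.lf (nat_lit 0) (nat_lit 10575546508) (nat_lit 304) (nat_lit 19156983039) (nat_lit 76) (nat_lit 537938922) (nat_lit 31) (nat_lit 5) (nat_lit 35) (nat_lit 5) (nat_lit 32) (nat_lit 5) (nat_lit 353) (nat_lit 281) (nat_lit 146)))))) (XT.nd (nat_lit 390) (nat_lit 380) (nat_lit 0) (XT.nd (nat_lit 156) (nat_lit 0) (nat_lit 0) (XT.nd (nat_lit 78) (nat_lit 152) (nat_lit 0) (XT.lf (nat_lit 0) (nat_lit 14521891158) (nat_lit 304) (nat_lit 9489437895) (nat_lit 76) (nat_lit 6960421541) (nat_lit 31) (nat_lit 5) (nat_lit 35) (nat_lit 5) (nat_lit 32) (nat_lit 5) (nat_lit 354) (nat_lit 281) (nat_lit 145)) (XT.lf (nat_lit 0) (nat_lit 466845329) (nat_lit 152) (nat_lit 18117463955) (nat_lit 228) (nat_lit 13109841852) (nat_lit 29) (nat_lit 5) (nat_lit 31) (nat_lit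 5) (nat_lit 32) (nat_lit 5) (nat_lit 355) (nat_lit 281) (nat_lit 144))) (XT.nd (nat_lit 78) (nat_lit 0) (nat_lit 0) (XT.lf (nat_lit 0) (nat_lit 10906045058) (nat_lit 152) (nat_lit 11951674361) (nat_lit 228) (nat_lit 9577840834) (nat_lit 29) (nat_lit 5) (nat_lit 31) (nat_lit 5) (nat_lit 32) (nat_lit 5) (nat_lit 356) (nat_lit 281) (nat_lit 143)) (XT.nd (nat_lit 78) (nat_lit 0) (nat_lit 0) (XT.lf (nat_lit 0) (nat_lit 21648424501) (nat_lit 152) (nat_lit 5604397405) (nat_lit 228) (nat_lit 5946594884) (nat_lit 29) (nat_lit 5) (nat_lit 31) (nat_lit 5) (nat_lit 32) (nat_lit 5) (nat_lit 357) (nat_lit 281) (nat_lit 142)) (XT.lf (nat_lit 0) (nat_lit 31782396018) (nat_lit 228) (nat_lit 1291956884) (nat_lit 76) (nat_lit 911767125) (nat_lit 29) (nat_lit 5) (nat_lit 32) (nat_lit 5) (nat_lit 30) (nat_lit 5) (nat_lit 358) (nat_lit 281) (nat_lit 141))))) (XT.nd (nat_lit 234) (nat_lit 152) (nat_lit 0) (XT.nd (nat_lit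 78) (nat_lit 0) (nat_lit 0) (XT.lf (nat_lit 0) (nat_lit 1760193956) (nat_lit 228) (nat_lit 25416433178) (nat_lit 76) (nat_lit 7615100410) (nat_lit 26) (nat_lit 5) (nat_lit 29) (nat_lit 5) (nat_lit 27) (nat_lit 5) (nat_lit 359) (nat_lit 281) (nat_lit 140)) (XT.nd (nat_lit 78) (nat_lit 0) (nat_lit 0) (XT.lf (nat_lit 0) (nat_lit 5805763740) (nat_lit 228) (nat_lit 15263634500) (nat_lit 76) (nat_lit 14551248417) (nat_lit 26) (nat_lit 5) (nat_lit 29) (nat_lit 5) (nat_lit 27) (nat_lit 5) (nat_lit 360) (nat_lit 281) (nat_lit 139)) (XT.lf (nat_lit 0) (nat_lit 9966731247) (nat_lit 228) (nat_lit 4815593011) (nat_lit 76) (nat_lit 21692296661) (nat_lit 26) (nat_lit 5) (nat_lit 29) (nat_lit 5) (nat_lit 27) (nat_lit 5) (nat_lit 361) (nat_lit 281) (nat_lit 138)))) (XT.nd (nat_lit 78) (nat_lit 0) (nat_lit 0) (XT.lf (nat_lit 0) (nat_lit 6054975016) (nat_lit 152) (nat_lit 8249961380) (nat_lit 228) (nat_lit 23047714001)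 (nat_lit 24) (nat_lit 5) (nat_lit 26) (nat_lit 5) (nat_lit 27) (nat_lit 5) (nat_lit 362) (nat_lit 281) (nat_lit 137)) (XT.nd (nat_lit 78) (nat_lit 0) (nat_lit 0) (XT.lf (nat_lit 0) (nat_lit 17341394856) (nat_lit 152) (nat_lit 1474807864) (nat_lit 228) (nat_lit 19439538596) (nat_lit 24) (nat_lit 5) (nat_lit 26) (nat_lit 5) (nat_lit 27) (nat_lit 5) (nat_lit 363) (nat_lit 281) (nat_lit 136)) (XT.lf (nat_lit 0) (nat_lit 23510133886) (nat_lit 228) (nat_lit 10281283933) (nat_lit 76) (nat_lit 5393095112) (nat_lit 24) (nat_lit 5) (nat_lit 27) (nat_lit 5) (nat_lit 25) (nat_lit 5) (nat_lit 364) (nat_lit 281) (nat_lit 135))))))) (XT.nd (nat_lit 858) (nat_lit 380) (nat_lit 0) (XT.nd (nat_lit 390) (nat_lit 152) (nat_lit 0) (XT.nd (nat_lit 156) (nat_lit 228) (nat_lit 0) (XT.nd (nat_lit 78) (nat_lit 0) (nat_lit 0) (XT.lf (nat_lit 0) (nat_lit 660452047) (nat_lit 152) (nat_lit 27699966988) (nat_lit 228) (nat_lit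 11780270126) (nat_lit 22) (nat_lit 5) (nat_lit 24) (nat_lit 5) (nat_lit 25) (nat_lit 5) (nat_lit 365) (nat_lit 281) (nat_lit 134)) (XT.lf (nat_lit 0) (nat_lit 12132676539) (nat_lit 152) (nat_lit 21322018139) (nat_lit 228) (nat_lit 7667908868) (nat_lit 22) (nat_lit 5) (nat_lit 24) (nat_lit 5) (nat_lit 25) (nat_lit 5) (nat_lit 366) (nat_lit 281) (nat_lit 133))) (XT.nd (nat_lit 78) (nat_lit 228) (nat_lit 0) (XT.lf (nat_lit 0) (nat_lit 23940796107) (nat_lit 152) (nat_lit 14755819116) (nat_lit 228) (nat_lit 3437522755) (nat_lit 22) (nat_lit 5) (nat_lit 24) (nat_lit 5) (nat_lit 25) (nat_lit 5) (nat_lit 367) (nat_lit 281) (nat_lit 132)) (XT.nd (nat_lit 78) (nat_lit 152) (nat_lit 0) (XT.lf (nat_lit 0) (nat_lit 896737826) (nat_lit 228) (nat_lit 7089839345) (nat_lit 76) (nat_lit 35189335405) (nat_lit 21) (nat_lit 5) (nat_lit 24) (nat_lit 5) (nat_lit 22) (nat_lit 5) (nat_lit 368) (nat_lit 281) (nat_lit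 131)) (XT.lf (nat_lit 0) (nat_lit 4390506297) (nat_lit 152) (nat_lit 938692587) (nat_lit 228) (nat_lit 38917609088) (nat_lit 19) (nat_lit 5) (nat_lit 21) (nat_lit 5) (nat_lit 22) (nat_lit 5) (nat_lit 369) (nat_lit 281) (nat_lit 130))))) (XT.nd (nat_lit 234) (nat_lit 152) (nat_lit 0) (XT.nd (nat_lit 78) (nat_lit 0) (nat_lit 0) (XT.lf (nat_lit 0) (nat_lit 10022793392) (nat_lit 228) (nat_lit 29056500266) (nat_lit 76) (nat_lit 6266698103) (nat_lit 19) (nat_lit 5) (nat_lit 22) (nat_lit 5) (nat_lit 20) (nat_lit 5) (nat_lit 370) (nat_lit 281) (nat_lit 129)) (XT.nd (nat_lit 78) (nat_lit 0) (nat_lit 0) (XT.lf (nat_lit 0) (nat_lit 14861731999) (nat_lit 228) (nat_lit 17949715609) (nat_lit 76) (nat_lit 13666573506) (nat_lit 19) (nat_lit 5) (nat_lit 22) (nat_lit 5) (nat_lit 20) (nat_lit 5) (nat_lit 371) (nat_lit 281) (nat_lit 128)) (XT.lf (nat_lit 0) (nat_lit 19841219618) (nat_lit 228) (nat_lit 6517219457)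 (nat_lit 76) (nat_lit 21285716804) (nat_lit 19) (nat_lit 5) (nat_lit 22) (nat_lit 5) (nat_lit 20) (nat_lit 5) (nat_lit 372) (nat_lit 281) (nat_lit 127)))) (XT.nd (nat_lit 78) (nat_lit 0) (nat_lit 0) (XT.lf (nat_lit 0) (nat_lit 5355482501) (nat_lit 152) (nat_lit 19661604930) (nat_lit 228) (nat_lit 23826783174) (nat_lit 17) (nat_lit 5) (nat_lit 19) (nat_lit 5) (nat_lit 20) (nat_lit 5) (nat_lit 373) (nat_lit 281) (nat_lit 126)) (XT.nd (nat_lit 78) (nat_lit 0) (nat_lit 0) (XT.lf (nat_lit 0) (nat_lit 17710759609) (nat_lit 152) (nat_lit 12698859584) (nat_lit 228) (nat_lit 19668121558) (nat_lit 17) (nat_lit 5) (nat_lit 19) (nat_lit 5) (nat_lit 20) (nat_lit 5) (nat_lit 374) (nat_lit 281) (nat_lit 125)) (XT.lf (nat_lit 0) (nat_lit 30429702294) (nat_lit 152) (nat_lit 5529930221) (nat_lit 228) (nat_lit 15389128770) (nat_lit 17) (nat_lit 5) (nat_lit 19) (nat_lit 5) (nat_lit 20) (nat_lit 5) (nat_lit 375)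 (nat_lit 281) (nat_lit 124)))))) (XT.nd (nat_lit 468) (nat_lit 228) (nat_lit 0) (XT.nd (nat_lit 234) (nat_lit 76) (nat_lit 0) (XT.nd (nat_lit 78) (nat_lit 76) (nat_lit 0) (XT.lf (nat_lit 0) (nat_lit 41689774169) (nat_lit 228) (nat_lit 9152415859) (nat_lit 76) (nat_lit 1815318864) (nat_lit 17) (nat_lit 5) (nat_lit 20) (nat_lit 5) (nat_lit 18) (nat_lit 4) (nat_lit 376) (nat_lit 281) (nat_lit 123)) (XT.nd (nat_lit 78) (nat_lit 0) (nat_lit 0) (XT.lf (nat_lit 0) (nat_lit 2963612078) (nat_lit 76) (nat_lit 44707375504) (nat_lit 152) (nat_lit 6332161457) (nat_lit 16) (nat_lit 5) (nat_lit 17) (nat_lit 5) (nat_lit 18) (nat_lit 4) (nat_lit 377) (nat_lit 281) (nat_lit 122)) (XT.lf (nat_lit 0) (nat_lit 15624108577) (nat_lit 76) (nat_lit 38295932851) (nat_lit 152) (nat_lit 1466469833) (nat_lit 16) (nat_lit 5) (nat_lit 17) (nat_lit 5) (nat_lit 18) (nat_lit 4) (nat_lit 378) (nat_lit 281) (nat_lit 121)))) (XT.nd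 (nat_lit 78) (nat_lit 0) (nat_lit 0) (XT.lf (nat_lit 0) (nat_lit 3472069283) (nat_lit 152) (nat_lit 28187550917) (nat_lit 76) (nat_lit 25150854809) (nat_lit 15) (nat_lit 5) (nat_lit 17) (nat_lit 5) (nat_lit 16) (nat_lit 5) (nat_lit 379) (nat_lit 281) (nat_lit 120)) (XT.nd (nat_lit 78) (nat_lit 0) (nat_lit 0) (XT.lf (nat_lit 0) (nat_lit 8525461068) (nat_lit 152) (nat_lit 16286301234) (nat_lit 76) (nat_lit 33465079216) (nat_lit 15) (nat_lit 5) (nat_lit 17) (nat_lit 5) (nat_lit 16) (nat_lit 5) (nat_lit 380) (nat_lit 281) (nat_lit 119)) (XT.lf (nat_lit 0) (nat_lit 13726737217) (nat_lit 152) (nat_lit 4034157879) (nat_lit 76) (nat_lit 42026419882) (nat_lit 15) (nat_lit 5) (nat_lit 17) (nat_lit 5) (nat_lit 16) (nat_lit 5) (nat_lit 381) (nat_lit 281) (nat_lit 118))))) (XT.nd (nat_lit 234) (nat_lit 76) (nat_lit 0) (XT.nd (nat_lit 78) (nat_lit 0) (nat_lit 0) (XT.lf (nat_lit 0) (nat_lit 8750335464) (nat_lit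 152) (nat_lit 10414220645) (nat_lit 228) (nat_lit 42176135703) (nat_lit 13) (nat_lit 5) (nat_lit 15) (nat_lit 5) (nat_lit 16) (nat_lit 5) (nat_lit 382) (nat_lit 281) (nat_lit 117)) (XT.nd (nat_lit 78) (nat_lit 0) (nat_lit 0) (XT.lf (nat_lit 0) (nat_lit 21995153496) (nat_lit 152) (nat_lit 2807532384) (nat_lit 228) (nat_lit 38136872961) (nat_lit 13) (nat_lit 5) (nat_lit 15) (nat_lit 5) (nat_lit 16) (nat_lit 5) (nat_lit 383) (nat_lit 281) (nat_lit 116)) (XT.lf (nat_lit 0) (nat_lit 30654806617) (nat_lit 228) (nat_lit 29003222079) (nat_lit 76) (nat_lit 4927021828) (nat_lit 13) (nat_lit 5) (nat_lit 16) (nat_lit 5) (nat_lit 14) (nat_lit 4) (nat_lit 384) (nat_lit 281) (nat_lit 115)))) (XT.nd (nat_lit 78) (nat_lit 76) (nat_lit 0) (XT.lf (nat_lit 0) (nat_lit 36706910703) (nat_lit 228) (nat_lit 16737251385) (nat_lit 76) (nat_lit 12835016217) (nat_lit 13) (nat_lit 5) (nat_lit 16) (nat_lit 5) (nat_lit 14)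 (nat_lit 4) (nat_lit 385) (nat_lit 281) (nat_lit 114)) (XT.nd (nat_lit 78) (nat_lit 76) (nat_lit 0) (XT.lf (nat_lit 0) (nat_lit 42937298665) (nat_lit 228) (nat_lit 4108787706) (nat_lit 76) (nat_lit 20978145751) (nat_lit 13) (nat_lit 5) (nat_lit 16) (nat_lit 5) (nat_lit 14) (nat_lit 4) (nat_lit 386) (nat_lit 281) (nat_lit 113)) (XT.lf (nat_lit 0) (nat_lit 9070195725) (nat_lit 76) (nat_lit 40368407076) (nat_lit 152) (nat_lit 20380518328) (nat_lit 12) (nat_lit 5) (nat_lit 13) (nat_lit 5) (nat_lit 14) (nat_lit 4) (nat_lit 387) (nat_lit 281) (nat_lit 112))))))))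
noncomputable def xc171 : XT := (XT.nd (nat_lit 33852) (nat_lit 0) (nat_lit 4940) (XT.nd (nat_lit 32916) (nat_lit 0) (nat_lit 10412) (XT.nd (nat_lit 32448) (nat_lit 0) (nat_lit 12008) (XT.nd (nat_lit 156) (nat_lit 76) (nat_lit 0) (XT.nd (nat_lit 78) (nat_lit 0) (nat_lit 0) (XT.lf (nat_lit 0) (nat_lit 22723500654) (nat_lit 76) (nat_lit 33449794405) (nat_lit 152) (nat_lit 15493414884) (nat_lit 12) (nat_lit 5) (nat_lit 13) (nat_lit 5) (nat_lit 14) (nat_lit 4) (nat_lit 388) (nat_lit 281) (nat_lit 111)) (XT.lf (nat_lit 0) (nat_lit 36781284220) (nat_lit 76) (nat_lit 26325693668) (nat_lit 152) (nat_lit 10462843537) (nat_lit 12) (nat_lit 5) (nat_lit 13) (nat_lit 5) (nat_lit 14) (nat_lit 4) (nat_lit 389) (nat_lit 281) (nat_lit 110))) (XT.nd (nat_lit 78) (nat_lit 76) (nat_lit 0) (XT.lf (nat_lit 0) (nat_lit 51255829923) (nat_lit 76) (nat_lit 18989879923) (nat_lit 152) (nat_lit 5284408645) (nat_lit 12)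 (nat_lit 5) (nat_lit 13) (nat_lit 5) (nat_lit 14) (nat_lit 4) (nat_lit 390) (nat_lit 281) (nat_lit 109)) (XT.nd (nat_lit 32136) (nat_lit 0) (nat_lit 12920) (XT.lf (nat_lit 0) (nat_lit 45508922) (nat_lit 152) (nat_lit 11389974763) (nat_lit 76) (nat_lit 66113816951) (nat_lit 11) (nat_lit 5) (nat_lit 13) (nat_lit 5) (nat_lit 12) (nat_lit 5) (nat_lit 391) (nat_lit 281) (nat_lit 108)) (XT.lf (nat_lit 0) (nat_lit 1908255323) (nat_lit 0) (nat_lit 1908255323) (nat_lit 836) (nat_lit 472578475) (nat_lit 181) (nat_lit 5) (nat_lit 181) (nat_lit 3) (nat_lit 192) (nat_lit 3) (nat_lit 282) (nat_lit 282) (nat_lit 216))))) (XT.nd (nat_lit 234) (nat_lit 0) (nat_lit 0) (XT.nd (nat_lit 78) (nat_lit 912) (nat_lit 0) (XT.lf (nat_lit 0) (nat_lit 7476458763) (nat_lit 0) (nat_lit 1167797907) (nat_lit 836) (nat_lit 32926511) (nat_lit 181) (nat_lit 5) (nat_lit 181) (nat_lit 3) (nat_lit 192) (nat_lit 3) (nat_lit 283) (nat_lit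 282) (nat_lit 215)) (XT.nd (nat_lit 78) (nat_lit 0) (nat_lit 0) (XT.lf (nat_lit 0) (nat_lit 892937826) (nat_lit 912) (nat_lit 6306250742) (nat_lit 988) (nat_lit 1579694241) (nat_lit 169) (nat_lit 5) (nat_lit 181) (nat_lit 5) (nat_lit 182) (nat_lit 5) (nat_lit 284) (nat_lit 282) (nat_lit 214)) (XT.lf (nat_lit 0) (nat_lit 1835290565) (nat_lit 912) (nat_lit 2633902315) (nat_lit 988) (nat_lit 4414851274) (nat_lit 169) (nat_lit 5) (nat_lit 181) (nat_lit 5) (nat_lit 182) (nat_lit 5) (nat_lit 285) (nat_lit 282) (nat_lit 213)))) (XT.nd (nat_lit 78) (nat_lit 0) (nat_lit 76) (XT.lf (nat_lit 76) (nat_lit 1152239598) (nat_lit 0) (nat_lit 1631320119) (nat_lit 988) (nat_lit 6209570019) (nat_lit 170) (nat_lit 5) (nat_lit 169) (nat_lit 5) (nat_lit 182) (nat_lit 5) (nat_lit 286) (nat_lit 282) (nat_lit 212)) (XT.nd (nat_lit 78) (nat_lit 0) (nat_lit 0) (XT.lf (nat_lit 0) (nat_lit 3767052190) (nat_lit 912) (nat_lit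 4031297188) (nat_lit 988) (nat_lit 1307031145) (nat_lit 170) (nat_lit 5) (nat_lit 182) (nat_lit 5) (nat_lit 183) (nat_lit 5) (nat_lit 287) (nat_lit 282) (nat_lit 211)) (XT.lf (nat_lit 0) (nat_lit 4764645932) (nat_lit 912) (nat_lit 142874503) (nat_lit 988) (nat_lit 4314033606) (nat_lit 170) (nat_lit 5) (nat_lit 182) (nat_lit 5) (nat_lit 183) (nat_lit 5) (nat_lit 288) (nat_lit 282) (nat_lit 210)))))) (XT.nd (nat_lit 468) (nat_lit 836) (nat_lit 0) (XT.nd (nat_lit 234) (nat_lit 836) (nat_lit 0) (XT.nd (nat_lit 78) (nat_lit 0) (nat_lit 76) (XT.lf (nat_lit 76) (nat_lit 3919949139) (nat_lit 0) (nat_lit 1879263189) (nat_lit 988) (nat_lit 3541879482) (nat_lit 171) (nat_lit 5) (nat_lit 170) (nat_lit 5) (nat_lit 183) (nat_lit 5) (nat_lit 289) (nat_lit 282) (nat_lit 209)) (XT.nd (nat_lit 78) (nat_lit 0) (nat_lit 0) (XT.lf (nat_lit 0) (nat_lit 6848377884) (nat_lit 912) (nat_lit 1388173479) (nat_lit 988)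 (nat_lit 1228245242) (nat_lit 171) (nat_lit 5) (nat_lit 183) (nat_lit 5) (nat_lit 184) (nat_lit 5) (nat_lit 290) (nat_lit 282) (nat_lit 208)) (XT.lf (nat_lit 76) (nat_lit 2782390225) (nat_lit 0) (nat_lit 5163036135) (nat_lit 988) (nat_lit 1646379146) (nat_lit 172) (nat_lit 5) (nat_lit 171) (nat_lit 5) (nat_lit 184) (nat_lit 5) (nat_lit 291) (nat_lit 282) (nat_lit 207)))) (XT.nd (nat_lit 78) (nat_lit 912) (nat_lit 0) (XT.lf (nat_lit 76) (nat_lit 7087631667) (nat_lit 0) (nat_lit 1973489219) (nat_lit 988) (nat_lit 662014470) (nat_lit 172) (nat_lit 5) (nat_lit 171) (nat_lit 5) (nat_lit 184) (nat_lit 5) (nat_lit 292) (nat_lit 282) (nat_lit 206)) (XT.nd (nat_lit 78) (nat_lit 0) (nat_lit 0) (XT.lf (nat_lit 0) (nat_lit 346182458) (nat_lit 988) (nat_lit 8197689481) (nat_lit 1064) (nat_lit 1314474628) (nat_lit 159) (nat_lit 5) (nat_lit 172) (nat_lit 5) (nat_lit 173) (nat_lit 5) (nat_lit 293) (nat_lit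 282) (nat_lit 205)) (XT.lf (nat_lit 0) (nat_lit 1390635836) (nat_lit 988) (nat_lit 3903207572) (nat_lit 1064) (nat_lit 4703070278) (nat_lit 159) (nat_lit 5) (nat_lit 172) (nat_lit 5) (nat_lit 173) (nat_lit 5) (nat_lit 294) (nat_lit 282) (nat_lit 204))))) (XT.nd (nat_lit 234) (nat_lit 836) (nat_lit 0) (XT.nd (nat_lit 78) (nat_lit 0) (nat_lit 76) (XT.lf (nat_lit 76) (nat_lit 510891531) (nat_lit 0) (nat_lit 1934131566) (nat_lit 1064) (nat_lit 7695330206) (nat_lit 160) (nat_lit 5) (nat_lit 159) (nat_lit 5) (nat_lit 173) (nat_lit 5) (nat_lit 295) (nat_lit 282) (nat_lit 203)) (XT.nd (nat_lit 78) (nat_lit 0) (nat_lit 0) (XT.lf (nat_lit 0) (nat_lit 3559857049) (nat_lit 988) (nat_lit 5184457133) (nat_lit 1064) (nat_lit 1542988831) (nat_lit 160) (nat_lit 5) (nat_lit 173) (nat_lit 5) (nat_lit 174) (nat_lit 5) (nat_lit 296) (nat_lit 282) (nat_lit 202)) (XT.lf (nat_lit 0) (nat_lit 4702370950) (nat_lit 988)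 (nat_lit 644578712) (nat_lit 1064) (nat_lit 5091953782) (nat_lit 160) (nat_lit 5) (nat_lit 173) (nat_lit 5) (nat_lit 174) (nat_lit 5) (nat_lit 297) (nat_lit 282) (nat_lit 201)))) (XT.nd (nat_lit 78) (nat_lit 912) (nat_lit 0) (XT.lf (nat_lit 76) (nat_lit 4092593671) (nat_lit 0) (nat_lit 1801717899) (nat_lit 1064) (nat_lit 4700353037) (nat_lit 161) (nat_lit 5) (nat_lit 160) (nat_lit 5) (nat_lit 174) (nat_lit 5) (nat_lit 298) (nat_lit 282) (nat_lit 200)) (XT.nd (nat_lit 78) (nat_lit 988) (nat_lit 0) (XT.lf (nat_lit 0) (nat_lit 7122751522) (nat_lit 988) (nat_lit 1807059152) (nat_lit 76) (nat_lit 1825330997) (nat_lit 161) (nat_lit 5) (nat_lit 174) (nat_lit 5) (nat_lit 162) (nat_lit 5) (nat_lit 299) (nat_lit 282) (nat_lit 199)) (XT.lf (nat_lit 0) (nat_lit 3051674777) (nat_lit 988) (nat_lit 5360616646) (nat_lit 1064) (nat_lit 2507477621) (nat_lit 148) (nat_lit 5) (nat_lit 161) (nat_lit 5) (nat_lit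 162) (nat_lit 5) (nat_lit 300) (nat_lit 282) (nat_lit 198))))))) (XT.nd (nat_lit 858) (nat_lit 2204) (nat_lit 0) (XT.nd (nat_lit 390) (nat_lit 1520) (nat_lit 0) (XT.nd (nat_lit 156) (nat_lit 684) (nat_lit 0) (XT.nd (nat_lit 78) (nat_lit 1064) (nat_lit 0) (XT.lf (nat_lit 0) (nat_lit 8074559776) (nat_lit 988) (nat_lit 1661767346) (nat_lit 1064) (nat_lit 1353195378) (nat_lit 148) (nat_lit 5) (nat_lit 161) (nat_lit 5) (nat_lit 162) (nat_lit 5) (nat_lit 301) (nat_lit 282) (nat_lit 197)) (XT.lf (nat_lit 0) (nat_lit 1982949720) (nat_lit 1064) (nat_lit 9135094548) (nat_lit 1140) (nat_lit 145845241) (nat_lit 134) (nat_lit 5) (nat_lit 148) (nat_lit 5) (nat_lit 149) (nat_lit 5) (nat_lit 302) (nat_lit 282) (nat_lit 196))) (XT.nd (nat_lit 78) (nat_lit 608) (nat_lit 0) (XT.lf (nat_lit 0) (nat_lit 1101941553) (nat_lit 1140) (nat_lit 4296437208) (nat_lit 76) (nat_lit 6044079433) (nat_lit 133) (nat_lit 5) (nat_lit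 148) (nat_lit 5) (nat_lit 134) (nat_lit 5) (nat_lit 303) (nat_lit 282) (nat_lit 195)) (XT.nd (nat_lit 78) (nat_lit 0) (nat_lit 0) (XT.lf (nat_lit 0) (nat_lit 833825661) (nat_lit 608) (nat_lit 1537485175) (nat_lit 684) (nat_lit 9255472063) (nat_lit 125) (nat_lit 5) (nat_lit 133) (nat_lit 5) (nat_lit 134) (nat_lit 5) (nat_lit 304) (nat_lit 282) (nat_lit 194)) (XT.lf (nat_lit 0) (nat_lit 3725541482) (nat_lit 684) (nat_lit 5652251128) (nat_lit 76) (nat_lit 2437494423) (nat_lit 125) (nat_lit 5) (nat_lit 134) (nat_lit 5) (nat_lit 126) (nat_lit 5) (nat_lit 305) (nat_lit 282) (nat_lit 193))))) (XT.nd (nat_lit 234) (nat_lit 988) (nat_lit 0) (XT.nd (nat_lit 78) (nat_lit 532) (nat_lit 0) (XT.lf (nat_lit 0) (nat_lit 5115735955) (nat_lit 684) (nat_lit 391097463) (nat_lit 76) (nat_lit 6502804313) (nat_lit 125) (nat_lit 5) (nat_lit 134) (nat_lit 5) (nat_lit 126) (nat_lit 5) (nat_lit 306) (nat_lit 282) (nat_lit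 192)) (XT.nd (nat_lit 78) (nat_lit 0) (nat_lit 0) (XT.lf (nat_lit 0) (nat_lit 5109586564) (nat_lit 532) (nat_lit 1467859646) (nat_lit 608) (nat_lit 5631528489) (nat_lit 118) (nat_lit 5) (nat_lit 125) (nat_lit 5) (nat_lit 126) (nat_lit 5) (nat_lit 307) (nat_lit 282) (nat_lit 191)) (XT.lf (nat_lit 0) (nat_lit 8093970837) (nat_lit 608) (nat_lit 1675244609) (nat_lit 76) (nat_lit 2644796028) (nat_lit 118) (nat_lit 5) (nat_lit 126) (nat_lit 5) (nat_lit 119) (nat_lit 5) (nat_lit 308) (nat_lit 282) (nat_lit 190)))) (XT.nd (nat_lit 78) (nat_lit 456) (nat_lit 0) (XT.lf (nat_lit 0) (nat_lit 3956370112) (nat_lit 532) (nat_lit 5733830808) (nat_lit 608) (nat_lit 2934019315) (nat_lit 111) (nat_lit 5) (nat_lit 118) (nat_lit 5) (nat_lit 119) (nat_lit 5) (nat_lit 309) (nat_lit 282) (nat_lit 189)) (XT.nd (nat_lit 78) (nat_lit 456) (nat_lit 0) (XT.lf (nat_lit 0) (nat_lit 9773526985) (nat_lit 532) (nat_lit 1559717014)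 (nat_lit 608) (nat_lit 1507569275) (nat_lit 111) (nat_lit 5) (nat_lit 118) (nat_lit 5) (nat_lit 119) (nat_lit 5) (nat_lit 310) (nat_lit 282) (nat_lit 188)) (XT.lf (nat_lit 0) (nat_lit 2710041227) (nat_lit 456) (nat_lit 10350458303) (nat_lit 532) (nat_lit 2401408) (nat_lit 105) (nat_lit 5) (nat_lit 111) (nat_lit 5) (nat_lit 112) (nat_lit 5) (nat_lit 311) (nat_lit 282) (nat_lit 187)))))) (XT.nd (nat_lit 468) (nat_lit 1292) (nat_lit 0) (XT.nd (nat_lit 234) (nat_lit 380) (nat_lit 0) (XT.nd (nat_lit 78) (nat_lit 456) (nat_lit 0) (XT.lf (nat_lit 0) (nat_lit 1547101987) (nat_lit 532) (nat_lit 4615799497) (nat_lit 76) (nat_lit 7127463693) (nat_lit 104) (nat_lit 5) (nat_lit 111) (nat_lit 5) (nat_lit 105) (nat_lit 5) (nat_lit 312) (nat_lit 282) (nat_lit 186)) (XT.nd (nat_lit 78) (nat_lit 0) (nat_lit 0) (XT.lf (nat_lit 0) (nat_lit 1301252100) (nat_lit 456) (nat_lit 1837466537) (nat_lit 532) (nat_lit 10386104393)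 (nat_lit 98) (nat_lit 5) (nat_lit 104) (nat_lit 5) (nat_lit 105) (nat_lit 5) (nat_lit 313) (nat_lit 282) (nat_lit 185)) (XT.lf (nat_lit 0) (nat_lit 4833803038) (nat_lit 532) (nat_lit 6317950699) (nat_lit 76) (nat_lit 2612928812) (nat_lit 98) (nat_lit 5) (nat_lit 105) (nat_lit 5) (nat_lit 99) (nat_lit 5) (nat_lit 314) (nat_lit 282) (nat_lit 184)))) (XT.nd (nat_lit 78) (nat_lit 380) (nat_lit 0) (XT.lf (nat_lit 0) (nat_lit 6581897755) (nat_lit 532) (nat_lit 270679144) (nat_lit 76) (nat_lit 7159134579) (nat_lit 98) (nat_lit 5) (nat_lit 105) (nat_lit 5) (nat_lit 99) (nat_lit 5) (nat_lit 315) (nat_lit 282) (nat_lit 183)) (XT.nd (nat_lit 78) (nat_lit 0) (nat_lit 0) (XT.lf (nat_lit 0) (nat_lit 6059431955) (nat_lit 380) (nat_lit 2365682409) (nat_lit 456) (nat_lit 5839793777) (nat_lit 93) (nat_lit 5) (nat_lit 98) (nat_lit 5) (nat_lit 99) (nat_lit 5) (nat_lit 316) (nat_lit 282) (nat_lit 182)) (XT.lf (nat_lit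 0) (nat_lit 10332784327) (nat_lit 456) (nat_lit 1979471201) (nat_lit 76) (nat_lit 2213206626) (nat_lit 93) (nat_lit 5) (nat_lit 99) (nat_lit 5) (nat_lit 94) (nat_lit 5) (nat_lit 317) (nat_lit 282) (nat_lit 181))))) (XT.nd (nat_lit 234) (nat_lit 380) (nat_lit 0) (XT.nd (nat_lit 78) (nat_lit 456) (nat_lit 0) (XT.lf (nat_lit 0) (nat_lit 4480688654) (nat_lit 456) (nat_lit 7868646880) (nat_lit 532) (nat_lit 2442982822) (nat_lit 87) (nat_lit 5) (nat_lit 93) (nat_lit 5) (nat_lit 94) (nat_lit 5) (nat_lit 318) (nat_lit 282) (nat_lit 180)) (XT.nd (nat_lit 78) (nat_lit 456) (nat_lit 0) (XT.lf (nat_lit 0) (nat_lit 11158756578) (nat_lit 456) (nat_lit 3273046855) (nat_lit 532) (nat_lit 635248284) (nat_lit 87) (nat_lit 5) (nat_lit 93) (nat_lit 5) (nat_lit 94) (nat_lit 5) (nat_lit 319) (nat_lit 282) (nat_lit 179)) (XT.lf (nat_lit 0) (nat_lit 1228926954) (nat_lit 456) (nat_lit 12651790681) (nat_lit 76) (nat_lit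 1468203419) (nat_lit 81) (nat_lit 5) (nat_lit 87) (nat_lit 5) (nat_lit 82) (nat_lit 5) (nat_lit 320) (nat_lit 282) (nat_lit 178)))) (XT.nd (nat_lit 78) (nat_lit 380) (nat_lit 0) (XT.lf (nat_lit 0) (nat_lit 3194447675) (nat_lit 456) (nat_lit 6112898314) (nat_lit 76) (nat_lit 6329997340) (nat_lit 81) (nat_lit 5) (nat_lit 87) (nat_lit 5) (nat_lit 82) (nat_lit 5) (nat_lit 321) (nat_lit 282) (nat_lit 177)) (XT.nd (nat_lit 78) (nat_lit 0) (nat_lit 0) (XT.lf (nat_lit 0) (nat_lit 618121678) (nat_lit 380) (nat_lit 4593088870) (nat_lit 456) (nat_lit 10723469706) (nat_lit 76) (nat_lit 5) (nat_lit 81) (nat_lit 5) (nat_lit 82) (nat_lit 5) (nat_lit 322) (nat_lit 282) (nat_lit 176)) (XT.lf (nat_lit 0) (nat_lit 7339895281) (nat_lit 456) (nat_lit 8582190987) (nat_lit 76) (nat_lit 317337849) (nat_lit 76) (nat_lit 5) (nat_lit 82) (nat_lit 5) (nat_lit 77) (nat_lit 5) (nat_lit 323) (nat_lit 282) (nat_lit 175))))))))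
noncomputable def xc172 : XT := (XT.nd (nat_lit 1716) (nat_lit 1368) (nat_lit 0) (XT.nd (nat_lit 858) (nat_lit 1140) (nat_lit 0) (XT.nd (nat_lit 390) (nat_lit 836) (nat_lit 0) (XT.nd (nat_lit 156) (nat_lit 456) (nat_lit 0) (XT.nd (nat_lit 78) (nat_lit 304) (nat_lit 0) (XT.lf (nat_lit 0) (nat_lit 9564863557) (nat_lit 456) (nat_lit 1707143094) (nat_lit 76) (nat_lit 5280359494) (nat_lit 76) (nat_lit 5) (nat_lit 82) (nat_lit 5) (nat_lit 77) (nat_lit 5) (nat_lit 324) (nat_lit 282) (nat_lit 174)) (XT.lf (nat_lit 0) (nat_lit 5465393516) (nat_lit 304) (nat_lit 6431051133) (nat_lit 380) (nat_lit 4977083582) (nat_lit 72) (nat_lit 5) (nat_lit 76) (nat_lit 5) (nat_lit 77) (nat_lit 5) (nat_lit 325) (nat_lit 282) (nat_lit 173))) (XT.nd (nat_lit 78) (nat_lit 456) (nat_lit 0) (XT.lf (nat_lit 0) (nat_lit 12872839854) (nat_lit 304) (nat_lit 1429921596) (nat_lit 380) (nat_lit 2901446984) (nat_lit 72) (nat_lit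 5) (nat_lit 76) (nat_lit 5) (nat_lit 77) (nat_lit 5) (nat_lit 326) (nat_lit 282) (nat_lit 172)) (XT.nd (nat_lit 78) (nat_lit 76) (nat_lit 0) (XT.lf (nat_lit 0) (nat_lit 2964600562) (nat_lit 380) (nat_lit 13868821485) (nat_lit 456) (nat_lit 709848487) (nat_lit 67) (nat_lit 5) (nat_lit 72) (nat_lit 5) (nat_lit 73) (nat_lit 5) (nat_lit 327) (nat_lit 282) (nat_lit 171)) (XT.lf (nat_lit 0) (nat_lit 1563581226) (nat_lit 456) (nat_lit 7367715698) (nat_lit 76) (nat_lit 8959397513) (nat_lit 66) (nat_lit 5) (nat_lit 72) (nat_lit 5) (nat_lit 67) (nat_lit 5) (nat_lit 328) (nat_lit 282) (nat_lit 170))))) (XT.nd (nat_lit 234) (nat_lit 532) (nat_lit 0) (XT.nd (nat_lit 78) (nat_lit 0) (nat_lit 0) (XT.lf (nat_lit 0) (nat_lit 38439828) (nat_lit 304) (nat_lit 3841178684) (nat_lit 380) (nat_lit 14369075442) (nat_lit 62) (nat_lit 5) (nat_lit 66) (nat_lit 5) (nat_lit 67) (nat_lit 5) (nat_lit 329) (nat_lit 282) (nat_lit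 169)) (XT.nd (nat_lit 78) (nat_lit 0) (nat_lit 0) (XT.lf (nat_lit 0) (nat_lit 6342217458) (nat_lit 380) (nat_lit 10826641615) (nat_lit 76) (nat_lit 1446285175) (nat_lit 62) (nat_lit 5) (nat_lit 67) (nat_lit 5) (nat_lit 63) (nat_lit 5) (nat_lit 330) (nat_lit 282) (nat_lit 168)) (XT.lf (nat_lit 0) (nat_lit 8905532620) (nat_lit 380) (nat_lit 3274155142) (nat_lit 76) (nat_lit 6812117672) (nat_lit 62) (nat_lit 5) (nat_lit 67) (nat_lit 5) (nat_lit 63) (nat_lit 5) (nat_lit 331) (nat_lit 282) (nat_lit 167)))) (XT.nd (nat_lit 78) (nat_lit 228) (nat_lit 0) (XT.lf (nat_lit 0) (nat_lit 4580102608) (nat_lit 304) (nat_lit 6998804168) (nat_lit 380) (nat_lit 7799886768) (nat_lit 58) (nat_lit 5) (nat_lit 62) (nat_lit 5) (nat_lit 63) (nat_lit 5) (nat_lit 332) (nat_lit 282) (nat_lit 166)) (XT.nd (nat_lit 78) (nat_lit 228) (nat_lit 0) (XT.lf (nat_lit 0) (nat_lit 12723066444) (nat_lit 304) (nat_lit 1631792624) (nat_lit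 380) (nat_lit 5421882159) (nat_lit 58) (nat_lit 5) (nat_lit 62) (nat_lit 5) (nat_lit 63) (nat_lit 5) (nat_lit 333) (nat_lit 282) (nat_lit 165)) (XT.lf (nat_lit 0) (nat_lit 889669281) (nat_lit 228) (nat_lit 16360019937) (nat_lit 304) (nat_lit 2935890762) (nat_lit 55) (nat_lit 5) (nat_lit 58) (nat_lit 5) (nat_lit 59) (nat_lit 5) (nat_lit 334) (nat_lit 282) (nat_lit 164)))))) (XT.nd (nat_lit 390) (nat_lit 532) (nat_lit 0) (XT.nd (nat_lit 156) (nat_lit 532) (nat_lit 0) (XT.nd (nat_lit 78) (nat_lit 76) (nat_lit 0) (XT.lf (nat_lit 0) (nat_lit 9185635467) (nat_lit 228) (nat_lit 11122719846) (nat_lit 304) (nat_lit 296038870) (nat_lit 55) (nat_lit 5) (nat_lit 58) (nat_lit 5) (nat_lit 59) (nat_lit 5) (nat_lit 335) (nat_lit 282) (nat_lit 163)) (XT.lf (nat_lit 0) (nat_lit 2365672412) (nat_lit 304) (nat_lit 3342194544) (nat_lit 76) (nat_lit 15327527618) (nat_lit 54) (nat_lit 5) (nat_lit 58) (nat_lit 5) (nat_lit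 55) (nat_lit 5) (nat_lit 336) (nat_lit 282) (nat_lit 162))) (XT.nd (nat_lit 78) (nat_lit 228) (nat_lit 0) (XT.lf (nat_lit 0) (nat_lit 5059245075) (nat_lit 304) (nat_lit 80910739) (nat_lit 380) (nat_lit 16337933424) (nat_lit 50) (nat_lit 5) (nat_lit 54) (nat_lit 5) (nat_lit 55) (nat_lit 5) (nat_lit 337) (nat_lit 282) (nat_lit 161)) (XT.nd (nat_lit 78) (nat_lit 228) (nat_lit 0) (XT.lf (nat_lit 0) (nat_lit 8077255541) (nat_lit 380) (nat_lit 8220438840) (nat_lit 76) (nat_lit 5634006692) (nat_lit 50) (nat_lit 5) (nat_lit 55) (nat_lit 5) (nat_lit 51) (nat_lit 5) (nat_lit 338) (nat_lit 282) (nat_lit 160)) (XT.lf (nat_lit 0) (nat_lit 214331625) (nat_lit 228) (nat_lit 10881642076) (nat_lit 304) (nat_lit 11303159667) (nat_lit 47) (nat_lit 5) (nat_lit 50) (nat_lit 5) (nat_lit 51) (nat_lit 5) (nat_lit 339) (nat_lit 282) (nat_lit 159))))) (XT.nd (nat_lit 234) (nat_lit 304) (nat_lit 0) (XT.nd (nat_lit 78)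 (nat_lit 228) (nat_lit 0) (XT.lf (nat_lit 0) (nat_lit 9057814980) (nat_lit 228) (nat_lit 5221241865) (nat_lit 304) (nat_lit 8599334448) (nat_lit 47) (nat_lit 5) (nat_lit 50) (nat_lit 5) (nat_lit 51) (nat_lit 5) (nat_lit 340) (nat_lit 282) (nat_lit 158)) (XT.nd (nat_lit 78) (nat_lit 228) (nat_lit 0) (XT.lf (nat_lit 0) (nat_lit 17554513651) (nat_lit 304) (nat_lit 5223995585) (nat_lit 76) (nat_lit 593627563) (nat_lit 47) (nat_lit 5) (nat_lit 51) (nat_lit 5) (nat_lit 48) (nat_lit 5) (nat_lit 341) (nat_lit 282) (nat_lit 157)) (XT.lf (nat_lit 0) (nat_lit 3637418996) (nat_lit 228) (nat_lit 17368764431) (nat_lit 304) (nat_lit 2872188565) (nat_lit 44) (nat_lit 5) (nat_lit 47) (nat_lit 5) (nat_lit 48) (nat_lit 5) (nat_lit 342) (nat_lit 282) (nat_lit 156)))) (XT.nd (nat_lit 78) (nat_lit 228) (nat_lit 0) (XT.lf (nat_lit 0) (nat_lit 203054855) (nat_lit 304) (nat_lit 11540938404) (nat_lit 76) (nat_lit 12654431293)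 (nat_lit 43) (nat_lit 5) (nat_lit 47) (nat_lit 5) (nat_lit 44) (nat_lit 5) (nat_lit 343) (nat_lit 282) (nat_lit 155)) (XT.nd (nat_lit 78) (nat_lit 228) (nat_lit 0) (XT.lf (nat_lit 0) (nat_lit 3304405068) (nat_lit 304) (nat_lit 2620413064) (nat_lit 76) (nat_lit 19008674563) (nat_lit 43) (nat_lit 5) (nat_lit 47) (nat_lit 5) (nat_lit 44) (nat_lit 5) (nat_lit 344) (nat_lit 282) (nat_lit 154)) (XT.lf (nat_lit 0) (nat_lit 6556158635) (nat_lit 304) (nat_lit 18797704441) (nat_lit 76) (nat_lit 129042963) (nat_lit 40) (nat_lit 5) (nat_lit 44) (nat_lit 5) (nat_lit 41) (nat_lit 5) (nat_lit 345) (nat_lit 282) (nat_lit 153))))))) (XT.nd (nat_lit 858) (nat_lit 532) (nat_lit 0) (XT.nd (nat_lit 390) (nat_lit 456) (nat_lit 0) (XT.nd (nat_lit 156) (nat_lit 380) (nat_lit 0) (XT.nd (nat_lit 78) (nat_lit 0) (nat_lit 0) (XT.lf (nat_lit 0) (nat_lit 9982765146) (nat_lit 304) (nat_lit 9795038482) (nat_lit 76) (nat_lit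 6268692776) (nat_lit 40) (nat_lit 5) (nat_lit 44) (nat_lit 5) (nat_lit 41) (nat_lit 5) (nat_lit 346) (nat_lit 282) (nat_lit 152)) (XT.lf (nat_lit 0) (nat_lit 13504321061) (nat_lit 304) (nat_lit 533756210) (nat_lit 76) (nat_lit 12589165905) (nat_lit 40) (nat_lit 5) (nat_lit 44) (nat_lit 5) (nat_lit 41) (nat_lit 5) (nat_lit 347) (nat_lit 282) (nat_lit 151))) (XT.nd (nat_lit 78) (nat_lit 152) (nat_lit 0) (XT.lf (nat_lit 0) (nat_lit 9173237664) (nat_lit 228) (nat_lit 8038844578) (nat_lit 304) (nat_lit 10010926203) (nat_lit 37) (nat_lit 5) (nat_lit 40) (nat_lit 5) (nat_lit 41) (nat_lit 5) (nat_lit 348) (nat_lit 282) (nat_lit 150)) (XT.nd (nat_lit 78) (nat_lit 152) (nat_lit 0) (XT.lf (nat_lit 0) (nat_lit 19171362177) (nat_lit 228) (nat_lit 1857599797) (nat_lit 304) (nat_lit 6807760600) (nat_lit 37) (nat_lit 5) (nat_lit 40) (nat_lit 5) (nat_lit 41) (nat_lit 5) (nat_lit 349) (nat_lit 282) (nat_lit 149))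 (XT.lf (nat_lit 0) (nat_lit 965174747) (nat_lit 152) (nat_lit 24040476835) (nat_lit 228) (nat_lit 3461849552) (nat_lit 35) (nat_lit 5) (nat_lit 37) (nat_lit 5) (nat_lit 38) (nat_lit 5) (nat_lit 350) (nat_lit 282) (nat_lit 148))))) (XT.nd (nat_lit 234) (nat_lit 152) (nat_lit 0) (XT.nd (nat_lit 78) (nat_lit 228) (nat_lit 0) (XT.lf (nat_lit 0) (nat_lit 84212177) (nat_lit 228) (nat_lit 18082376709) (nat_lit 76) (nat_lit 10947645978) (nat_lit 34) (nat_lit 5) (nat_lit 37) (nat_lit 5) (nat_lit 35) (nat_lit 5) (nat_lit 351) (nat_lit 282) (nat_lit 147)) (XT.nd (nat_lit 78) (nat_lit 228) (nat_lit 0) (XT.lf (nat_lit 0) (nat_lit 3659996496) (nat_lit 228) (nat_lit 8424732655) (nat_lit 76) (nat_lit 17694836650) (nat_lit 34) (nat_lit 5) (nat_lit 37) (nat_lit 5) (nat_lit 35) (nat_lit 5) (nat_lit 352) (nat_lit 282) (nat_lit 146)) (XT.lf (nat_lit 0) (nat_lit 1542420077) (nat_lit 228) (nat_lit 5808587640) (nat_lit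 304) (nat_lit 23113621111) (nat_lit 31) (nat_lit 5) (nat_lit 34) (nat_lit 5) (nat_lit 35) (nat_lit 5) (nat_lit 353) (nat_lit 282) (nat_lit 145)))) (XT.nd (nat_lit 78) (nat_lit 152) (nat_lit 0) (XT.lf (nat_lit 0) (nat_lit 11238164716) (nat_lit 304) (nat_lit 19203950130) (nat_lit 76) (nat_lit 725576882) (nat_lit 31) (nat_lit 5) (nat_lit 35) (nat_lit 5) (nat_lit 32) (nat_lit 5) (nat_lit 354) (nat_lit 282) (nat_lit 144)) (XT.nd (nat_lit 78) (nat_lit 152) (nat_lit 0) (XT.lf (nat_lit 0) (nat_lit 15292840915) (nat_lit 304) (nat_lit 9261749769) (nat_lit 76) (nat_lit 7335738840) (nat_lit 31) (nat_lit 5) (nat_lit 35) (nat_lit 5) (nat_lit 32) (nat_lit 5) (nat_lit 355) (nat_lit 282) (nat_lit 143)) (XT.lf (nat_lit 0) (nat_lit 988198704) (nat_lit 152) (nat_lit 18484044005) (nat_lit 228) (nat_lit 13162321034) (nat_lit 29) (nat_lit 5) (nat_lit 31) (nat_lit 5) (nat_lit 32) (nat_lit 5) (nat_lit 356) (nat_lit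 282) (nat_lit 142)))))) (XT.nd (nat_lit 468) (nat_lit 304) (nat_lit 0) (XT.nd (nat_lit 234) (nat_lit 228) (nat_lit 0) (XT.nd (nat_lit 78) (nat_lit 0) (nat_lit 0) (XT.lf (nat_lit 0) (nat_lit 11725797298) (nat_lit 152) (nat_lit 12138434428) (nat_lit 228) (nat_lit 9534286668) (nat_lit 29) (nat_lit 5) (nat_lit 31) (nat_lit 5) (nat_lit 32) (nat_lit 5) (nat_lit 357) (nat_lit 282) (nat_lit 141)) (XT.nd (nat_lit 78) (nat_lit 0) (nat_lit 0) (XT.lf (nat_lit 0) (nat_lit 22776101400) (nat_lit 152) (nat_lit 5605742759) (nat_lit 228) (nat_lit 5803740895) (nat_lit 29) (nat_lit 5) (nat_lit 31) (nat_lit 5) (nat_lit 32) (nat_lit 5) (nat_lit 358) (nat_lit 282) (nat_lit 140)) (XT.lf (nat_lit 0) (nat_lit 33039791055) (nat_lit 228) (nat_lit 858448455) (nat_lit 76) (nat_lit 1097889033) (nat_lit 29) (nat_lit 5) (nat_lit 32) (nat_lit 5) (nat_lit 30) (nat_lit 5) (nat_lit 359) (nat_lit 282) (nat_lit 139)))) (XT.nd (nat_lit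 78) (nat_lit 0) (nat_lit 0) (XT.lf (nat_lit 0) (nat_lit 2115967419) (nat_lit 228) (nat_lit 25704828324) (nat_lit 76) (nat_lit 8005163464) (nat_lit 26) (nat_lit 5) (nat_lit 29) (nat_lit 5) (nat_lit 27) (nat_lit 5) (nat_lit 360) (nat_lit 282) (nat_lit 138)) (XT.nd (nat_lit 78) (nat_lit 0) (nat_lit 0) (XT.lf (nat_lit 0) (nat_lit 6274079997) (nat_lit 228) (nat_lit 15261254361) (nat_lit 76) (nat_lit 15144688822) (nat_lit 26) (nat_lit 5) (nat_lit 29) (nat_lit 5) (nat_lit 27) (nat_lit 5) (nat_lit 361) (nat_lit 282) (nat_lit 137)) (XT.lf (nat_lit 0) (nat_lit 10551309247) (nat_lit 228) (nat_lit 4513178108) (nat_lit 76) (nat_lit 22495398525) (nat_lit 26) (nat_lit 5) (nat_lit 29) (nat_lit 5) (nat_lit 27) (nat_lit 5) (nat_lit 362) (nat_lit 282) (nat_lit 136))))) (XT.nd (nat_lit 234) (nat_lit 152) (nat_lit 0) (XT.nd (nat_lit 78) (nat_lit 0) (nat_lit 0) (XT.lf (nat_lit 0) (nat_lit 6679125758) (nat_lit 152)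 (nat_lit 8336470638) (nat_lit 228) (nat_lit 23448793607) (nat_lit 24) (nat_lit 5) (nat_lit 26) (nat_lit 5) (nat_lit 27) (nat_lit 5) (nat_lit 363) (nat_lit 282) (nat_lit 135)) (XT.nd (nat_lit 78) (nat_lit 0) (nat_lit 0) (XT.lf (nat_lit 0) (nat_lit 18291249800) (nat_lit 152) (nat_lit 1362751533) (nat_lit 228) (nat_lit 19740829789) (nat_lit 24) (nat_lit 5) (nat_lit 26) (nat_lit 5) (nat_lit 27) (nat_lit 5) (nat_lit 364) (nat_lit 282) (nat_lit 134)) (XT.lf (nat_lit 0) (nat_lit 24482248571) (nat_lit 228) (nat_lit 10165748592) (nat_lit 76) (nat_lit 5703674936) (nat_lit 24) (nat_lit 5) (nat_lit 27) (nat_lit 5) (nat_lit 25) (nat_lit 5) (nat_lit 365) (nat_lit 282) (nat_lit 133)))) (XT.nd (nat_lit 78) (nat_lit 0) (nat_lit 0) (XT.lf (nat_lit 0) (nat_lit 1100082861) (nat_lit 152) (nat_lit 28374223769) (nat_lit 228) (nat_lit 11862349887) (nat_lit 22) (nat_lit 5) (nat_lit 24) (nat_lit 5) (nat_lit 25) (nat_lit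 5) (nat_lit 366) (nat_lit 282) (nat_lit 132)) (XT.nd (nat_lit 78) (nat_lit 0) (nat_lit 0) (XT.lf (nat_lit 0) (nat_lit 12904246401) (nat_lit 152) (nat_lit 21809501762) (nat_lit 228) (nat_lit 7634520559) (nat_lit 22) (nat_lit 5) (nat_lit 24) (nat_lit 5) (nat_lit 25) (nat_lit 5) (nat_lit 367) (nat_lit 282) (nat_lit 131)) (XT.lf (nat_lit 0) (nat_lit 25054738015) (nat_lit 152) (nat_lit 15050749107) (nat_lit 228) (nat_lit 3284895451) (nat_lit 22) (nat_lit 5) (nat_lit 24) (nat_lit 5) (nat_lit 25) (nat_lit 5) (nat_lit 368) (nat_lit 282) (nat_lit 130))))))))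
noncomputable def xc173 : XT := (XT.nd (nat_lit 33930) (nat_lit 0) (nat_lit 8588) (XT.nd (nat_lit 858) (nat_lit 304) (nat_lit 0) (XT.nd (nat_lit 390) (nat_lit 228) (nat_lit 0) (XT.nd (nat_lit 156) (nat_lit 0) (nat_lit 0) (XT.nd (nat_lit 78) (nat_lit 152) (nat_lit 0) (XT.lf (nat_lit 0) (nat_lit 1167098528) (nat_lit 228) (nat_lit 6913176161) (nat_lit 76) (nat_lit 36383290703) (nat_lit 21) (nat_lit 5) (nat_lit 24) (nat_lit 5) (nat_lit 22) (nat_lit 5) (nat_lit 369) (nat_lit 282) (nat_lit 129)) (XT.lf (nat_lit 0) (nat_lit 4907762611) (nat_lit 152) (nat_lit 821385837) (nat_lit 228) (nat_lit 39837550094) (nat_lit 19) (nat_lit 5) (nat_lit 21) (nat_lit 5) (nat_lit 22) (nat_lit 5) (nat_lit 370) (nat_lit 282) (nat_lit 128))) (XT.nd (nat_lit 78) (nat_lit 0) (nat_lit 0) (XT.lf (nat_lit 0) (nat_lit 10557915952) (nat_lit 228) (nat_lit 29547946273) (nat_lit 76) (nat_lit 6593173737) (nat_lit 19) (nat_lit 5)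 (nat_lit 22) (nat_lit 5) (nat_lit 20) (nat_lit 5) (nat_lit 371) (nat_lit 282) (nat_lit 127)) (XT.nd (nat_lit 78) (nat_lit 0) (nat_lit 0) (XT.lf (nat_lit 0) (nat_lit 15535194404) (nat_lit 228) (nat_lit 18119033290) (nat_lit 76) (nat_lit 14211012159) (nat_lit 19) (nat_lit 5) (nat_lit 22) (nat_lit 5) (nat_lit 20) (nat_lit 5) (nat_lit 372) (nat_lit 282) (nat_lit 126)) (XT.lf (nat_lit 0) (nat_lit 20657437221) (nat_lit 228) (nat_lit 6354314888) (nat_lit 76) (nat_lit 22054813985) (nat_lit 19) (nat_lit 5) (nat_lit 22) (nat_lit 5) (nat_lit 20) (nat_lit 5) (nat_lit 373) (nat_lit 282) (nat_lit 125))))) (XT.nd (nat_lit 234) (nat_lit 76) (nat_lit 0) (XT.nd (nat_lit 78) (nat_lit 0) (nat_lit 0) (XT.lf (nat_lit 0) (nat_lit 5871054196) (nat_lit 152) (nat_lit 20114502118) (nat_lit 228) (nat_lit 24316814993) (nat_lit 17) (nat_lit 5) (nat_lit 19) (nat_lit 5) (nat_lit 20) (nat_lit 5) (nat_lit 374) (nat_lit 282)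 (nat_lit 124)) (XT.nd (nat_lit 78) (nat_lit 0) (nat_lit 0) (XT.lf (nat_lit 0) (nat_lit 18586652514) (nat_lit 152) (nat_lit 12946863274) (nat_lit 228) (nat_lit 20039940276) (nat_lit 17) (nat_lit 5) (nat_lit 19) (nat_lit 5) (nat_lit 20) (nat_lit 5) (nat_lit 375) (nat_lit 282) (nat_lit 123)) (XT.lf (nat_lit 0) (nat_lit 31677127456) (nat_lit 152) (nat_lit 5566738713) (nat_lit 228) (nat_lit 15638933771) (nat_lit 17) (nat_lit 5) (nat_lit 19) (nat_lit 5) (nat_lit 20) (nat_lit 5) (nat_lit 376) (nat_lit 282) (nat_lit 122)))) (XT.nd (nat_lit 78) (nat_lit 76) (nat_lit 0) (XT.lf (nat_lit 0) (nat_lit 43141132991) (nat_lit 228) (nat_lit 9097165625) (nat_lit 76) (nat_lit 1992662329) (nat_lit 17) (nat_lit 5) (nat_lit 20) (nat_lit 5) (nat_lit 18) (nat_lit 4) (nat_lit 377) (nat_lit 282) (nat_lit 121)) (XT.nd (nat_lit 78) (nat_lit 0) (nat_lit 0) (XT.lf (nat_lit 0) (nat_lit 3379109594) (nat_lit 76) (nat_lit 45919967958)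 (nat_lit 152) (nat_lit 6317981278) (nat_lit 16) (nat_lit 5) (nat_lit 17) (nat_lit 5) (nat_lit 18) (nat_lit 4) (nat_lit 378) (nat_lit 282) (nat_lit 120)) (XT.lf (nat_lit 0) (nat_lit 16409908682) (nat_lit 76) (nat_lit 39319928496) (nat_lit 152) (nat_lit 1312264877) (nat_lit 16) (nat_lit 5) (nat_lit 17) (nat_lit 5) (nat_lit 18) (nat_lit 4) (nat_lit 379) (nat_lit 282) (nat_lit 119)))))) (XT.nd (nat_lit 390) (nat_lit 76) (nat_lit 0) (XT.nd (nat_lit 156) (nat_lit 152) (nat_lit 0) (XT.nd (nat_lit 78) (nat_lit 0) (nat_lit 0) (XT.lf (nat_lit 0) (nat_lit 3764902695) (nat_lit 152) (nat_lit 28721355909) (nat_lit 76) (nat_lit 26022645509) (nat_lit 15) (nat_lit 5) (nat_lit 17) (nat_lit 5) (nat_lit 16) (nat_lit 5) (nat_lit 380) (nat_lit 282) (nat_lit 118)) (XT.lf (nat_lit 0) (nat_lit 8964400953) (nat_lit 152) (nat_lit 16472150916) (nat_lit 76) (nat_lit 34582881161) (nat_lit 15) (nat_lit 5) (nat_lit 17) (nat_lit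 5) (nat_lit 16) (nat_lit 5) (nat_lit 381) (nat_lit 282) (nat_lit 117))) (XT.nd (nat_lit 78) (nat_lit 152) (nat_lit 0) (XT.lf (nat_lit 0) (nat_lit 14316380161) (nat_lit 152) (nat_lit 3861260912) (nat_lit 76) (nat_lit 43397746040) (nat_lit 15) (nat_lit 5) (nat_lit 17) (nat_lit 5) (nat_lit 16) (nat_lit 5) (nat_lit 382) (nat_lit 282) (nat_lit 116)) (XT.nd (nat_lit 78) (nat_lit 0) (nat_lit 0) (XT.lf (nat_lit 0) (nat_lit 9303885646) (nat_lit 152) (nat_lit 10611065800) (nat_lit 228) (nat_lit 43260491449) (nat_lit 13) (nat_lit 5) (nat_lit 15) (nat_lit 5) (nat_lit 16) (nat_lit 5) (nat_lit 383) (nat_lit 282) (nat_lit 115)) (XT.lf (nat_lit 0) (nat_lit 22937571322) (nat_lit 152) (nat_lit 2779543341) (nat_lit 228) (nat_lit 39105320581) (nat_lit 13) (nat_lit 5) (nat_lit 15) (nat_lit 5) (nat_lit 16) (nat_lit 5) (nat_lit 384) (nat_lit 282) (nat_lit 114))))) (XT.nd (nat_lit 234) (nat_lit 76) (nat_lit 0) (XT.nd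 (nat_lit 78) (nat_lit 0) (nat_lit 0) (XT.lf (nat_lit 0) (nat_lit 31740884686) (nat_lit 228) (nat_lit 29594877088) (nat_lit 76) (nat_lit 5181653158) (nat_lit 13) (nat_lit 5) (nat_lit 16) (nat_lit 5) (nat_lit 14) (nat_lit 4) (nat_lit 385) (nat_lit 282) (nat_lit 113)) (XT.nd (nat_lit 78) (nat_lit 0) (nat_lit 0) (XT.lf (nat_lit 0) (nat_lit 37969704306) (nat_lit 228) (nat_lit 16969037224) (nat_lit 76) (nat_lit 13323776097) (nat_lit 13) (nat_lit 5) (nat_lit 16) (nat_lit 5) (nat_lit 14) (nat_lit 4) (nat_lit 386) (nat_lit 282) (nat_lit 112)) (XT.lf (nat_lit 0) (nat_lit 44382297511) (nat_lit 228) (nat_lit 3969593373) (nat_lit 76) (nat_lit 21708178855) (nat_lit 13) (nat_lit 5) (nat_lit 16) (nat_lit 5) (nat_lit 14) (nat_lit 4) (nat_lit 387) (nat_lit 282) (nat_lit 111)))) (XT.nd (nat_lit 78) (nat_lit 0) (nat_lit 0) (XT.lf (nat_lit 0) (nat_lit 9602186444) (nat_lit 76) (nat_lit 41474383182) (nat_lit 152)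 (nat_lit 20832303254) (nat_lit 12) (nat_lit 5) (nat_lit 13) (nat_lit 5) (nat_lit 14) (nat_lit 4) (nat_lit 388) (nat_lit 282) (nat_lit 110)) (XT.nd (nat_lit 78) (nat_lit 0) (nat_lit 0) (XT.lf (nat_lit 0) (nat_lit 23657521059) (nat_lit 76) (nat_lit 34351272600) (nat_lit 152) (nat_lit 15803236141) (nat_lit 12) (nat_lit 5) (nat_lit 13) (nat_lit 5) (nat_lit 14) (nat_lit 4) (nat_lit 389) (nat_lit 282) (nat_lit 109)) (XT.lf (nat_lit 0) (nat_lit 38129689140) (nat_lit 76) (nat_lit 27016420171) (nat_lit 152) (nat_lit 10626261670) (nat_lit 12) (nat_lit 5) (nat_lit 13) (nat_lit 5) (nat_lit 14) (nat_lit 4) (nat_lit 390) (nat_lit 282) (nat_lit 108))))))) (XT.nd (nat_lit 858) (nat_lit 2508) (nat_lit 0) (XT.nd (nat_lit 390) (nat_lit 760) (nat_lit 0) (XT.nd (nat_lit 156) (nat_lit 0) (nat_lit 76) (XT.nd (nat_lit 78) (nat_lit 0) (nat_lit 0) (XT.lf (nat_lit 0) (nat_lit 422341344) (nat_lit 988) (nat_lit 1982956841)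 (nat_lit 988) (nat_lit 1982956841) (nat_lit 168) (nat_lit 3) (nat_lit 181) (nat_lit 3) (nat_lit 181) (nat_lit 5) (nat_lit 283) (nat_lit 283) (nat_lit 214)) (XT.lf (nat_lit 0) (nat_lit 1713541297) (nat_lit 988) (nat_lit 334239609) (nat_lit 988) (nat_lit 6832160291) (nat_lit 168) (nat_lit 3) (nat_lit 181) (nat_lit 3) (nat_lit 181) (nat_lit 5) (nat_lit 284) (nat_lit 283) (nat_lit 213))) (XT.nd (nat_lit 78) (nat_lit 0) (nat_lit 0) (XT.lf (nat_lit 0) (nat_lit 2616432131) (nat_lit 912) (nat_lit 5538157030) (nat_lit 988) (nat_lit 831745894) (nat_lit 169) (nat_lit 5) (nat_lit 181) (nat_lit 5) (nat_lit 182) (nat_lit 5) (nat_lit 285) (nat_lit 283) (nat_lit 212)) (XT.nd (nat_lit 78) (nat_lit 0) (nat_lit 0) (XT.lf (nat_lit 0) (nat_lit 3537636826) (nat_lit 912) (nat_lit 1783520128) (nat_lit 988) (nat_lit 3775122856) (nat_lit 169) (nat_lit 5) (nat_lit 181) (nat_lit 5) (nat_lit 182) (nat_lit 5) (nat_lit 286)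 (nat_lit 283) (nat_lit 211)) (XT.lf (nat_lit 76) (nat_lit 2107094284) (nat_lit 0) (nat_lit 2368126885) (nat_lit 988) (nat_lit 4734732534) (nat_lit 170) (nat_lit 5) (nat_lit 169) (nat_lit 5) (nat_lit 182) (nat_lit 5) (nat_lit 287) (nat_lit 283) (nat_lit 210))))) (XT.nd (nat_lit 234) (nat_lit 912) (nat_lit 0) (XT.nd (nat_lit 78) (nat_lit 0) (nat_lit 0) (XT.lf (nat_lit 0) (nat_lit 5434959350) (nat_lit 912) (nat_lit 3200906373) (nat_lit 988) (nat_lit 691441694) (nat_lit 170) (nat_lit 5) (nat_lit 182) (nat_lit 5) (nat_lit 183) (nat_lit 5) (nat_lit 288) (nat_lit 283) (nat_lit 209)) (XT.nd (nat_lit 78) (nat_lit 0) (nat_lit 0) (XT.lf (nat_lit 76) (nat_lit 791913442) (nat_lit 0) (nat_lit 5632891597) (nat_lit 988) (nat_lit 3023424999) (nat_lit 171) (nat_lit 5) (nat_lit 170) (nat_lit 5) (nat_lit 183) (nat_lit 5) (nat_lit 289) (nat_lit 283) (nat_lit 208)) (XT.lf (nat_lit 76) (nat_lit 4952113601) (nat_lit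 0) (nat_lit 2495504690) (nat_lit 988) (nat_lit 2125149081) (nat_lit 171) (nat_lit 5) (nat_lit 170) (nat_lit 5) (nat_lit 183) (nat_lit 5) (nat_lit 290) (nat_lit 283) (nat_lit 207)))) (XT.nd (nat_lit 78) (nat_lit 988) (nat_lit 0) (XT.lf (nat_lit 0) (nat_lit 8480089261) (nat_lit 912) (nat_lit 489522634) (nat_lit 988) (nat_lit 732142454) (nat_lit 171) (nat_lit 5) (nat_lit 183) (nat_lit 5) (nat_lit 184) (nat_lit 5) (nat_lit 291) (nat_lit 283) (nat_lit 206)) (XT.nd (nat_lit 78) (nat_lit 988) (nat_lit 0) (XT.lf (nat_lit 76) (nat_lit 3796939393) (nat_lit 0) (nat_lit 5780518330) (nat_lit 988) (nat_lit 256215820) (nat_lit 172) (nat_lit 5) (nat_lit 171) (nat_lit 5) (nat_lit 184) (nat_lit 5) (nat_lit 292) (nat_lit 283) (nat_lit 205)) (XT.lf (nat_lit 0) (nat_lit 701784137) (nat_lit 988) (nat_lit 1772940699) (nat_lit 1064) (nat_lit 7495348536) (nat_lit 158) (nat_lit 5) (nat_lit 171) (nat_lit 5) (nat_lit 172)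 (nat_lit 5) (nat_lit 293) (nat_lit 283) (nat_lit 204)))))) (XT.nd (nat_lit 468) (nat_lit 2584) (nat_lit 0) (XT.nd (nat_lit 234) (nat_lit 0) (nat_lit 76) (XT.nd (nat_lit 78) (nat_lit 0) (nat_lit 0) (XT.lf (nat_lit 0) (nat_lit 1691934132) (nat_lit 988) (nat_lit 7469829472) (nat_lit 1064) (nat_lit 948542192) (nat_lit 159) (nat_lit 5) (nat_lit 172) (nat_lit 5) (nat_lit 173) (nat_lit 5) (nat_lit 294) (nat_lit 283) (nat_lit 203)) (XT.nd (nat_lit 78) (nat_lit 0) (nat_lit 0) (XT.lf (nat_lit 0) (nat_lit 2728826950) (nat_lit 988) (nat_lit 3074875941) (nat_lit 1064) (nat_lit 4450602508) (nat_lit 159) (nat_lit 5) (nat_lit 172) (nat_lit 5) (nat_lit 173) (nat_lit 5) (nat_lit 295) (nat_lit 283) (nat_lit 202)) (XT.lf (nat_lit 76) (nat_lit 1462377234) (nat_lit 0) (nat_lit 2323706206) (nat_lit 1064) (nat_lit 6616933119) (nat_lit 160) (nat_lit 5) (nat_lit 159) (nat_lit 5) (nat_lit 173) (nat_lit 5) (nat_lit 296)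 (nat_lit 283) (nat_lit 201)))) (XT.nd (nat_lit 78) (nat_lit 0) (nat_lit 0) (XT.lf (nat_lit 0) (nat_lit 4894344588) (nat_lit 988) (nat_lit 4387667187) (nat_lit 1064) (nat_lit 1273665929) (nat_lit 160) (nat_lit 5) (nat_lit 173) (nat_lit 5) (nat_lit 174) (nat_lit 5) (nat_lit 297) (nat_lit 283) (nat_lit 200)) (XT.nd (nat_lit 78) (nat_lit 0) (nat_lit 0) (XT.lf (nat_lit 76) (nat_lit 265857847) (nat_lit 0) (nat_lit 5772073632) (nat_lit 1064) (nat_lit 4674990168) (nat_lit 161) (nat_lit 5) (nat_lit 160) (nat_lit 5) (nat_lit 174) (nat_lit 5) (nat_lit 298) (nat_lit 283) (nat_lit 199)) (XT.lf (nat_lit 76) (nat_lit 5130892989) (nat_lit 0) (nat_lit 2106265774) (nat_lit 1064) (nat_lit 3637147558) (nat_lit 161) (nat_lit 5) (nat_lit 160) (nat_lit 5) (nat_lit 174) (nat_lit 5) (nat_lit 299) (nat_lit 283) (nat_lit 198))))) (XT.nd (nat_lit 234) (nat_lit 1748) (nat_lit 0) (XT.nd (nat_lit 78) (nat_lit 988) (nat_lit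 0) (XT.lf (nat_lit 0) (nat_lit 8466152439) (nat_lit 988) (nat_lit 932991650) (nat_lit 76) (nat_lit 1641636313) (nat_lit 161) (nat_lit 5) (nat_lit 174) (nat_lit 5) (nat_lit 162) (nat_lit 5) (nat_lit 300) (nat_lit 283) (nat_lit 197)) (XT.nd (nat_lit 78) (nat_lit 0) (nat_lit 0) (XT.lf (nat_lit 0) (nat_lit 4062403520) (nat_lit 988) (nat_lit 5707906304) (nat_lit 1064) (nat_lit 1440849821) (nat_lit 148) (nat_lit 5) (nat_lit 161) (nat_lit 5) (nat_lit 162) (nat_lit 5) (nat_lit 301) (nat_lit 283) (nat_lit 196)) (XT.lf (nat_lit 0) (nat_lit 9209202880) (nat_lit 988) (nat_lit 1892660327) (nat_lit 1064) (nat_lit 285196940) (nat_lit 148) (nat_lit 5) (nat_lit 161) (nat_lit 5) (nat_lit 162) (nat_lit 5) (nat_lit 302) (nat_lit 283) (nat_lit 195)))) (XT.nd (nat_lit 78) (nat_lit 608) (nat_lit 0) (XT.lf (nat_lit 0) (nat_lit 915239941) (nat_lit 1140) (nat_lit 8613818076) (nat_lit 76) (nat_lit 2038140016) (nat_lit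 133) (nat_lit 5) (nat_lit 148) (nat_lit 5) (nat_lit 134) (nat_lit 5) (nat_lit 303) (nat_lit 283) (nat_lit 194)) (XT.nd (nat_lit 78) (nat_lit 608) (nat_lit 0) (XT.lf (nat_lit 0) (nat_lit 2166581542) (nat_lit 1140) (nat_lit 3508722660) (nat_lit 76) (nat_lit 6076785522) (nat_lit 133) (nat_lit 5) (nat_lit 148) (nat_lit 5) (nat_lit 134) (nat_lit 5) (nat_lit 304) (nat_lit 283) (nat_lit 193)) (XT.lf (nat_lit 0) (nat_lit 1766461746) (nat_lit 608) (nat_lit 1686248699) (nat_lit 684) (nat_lit 8489951858) (nat_lit 125) (nat_lit 5) (nat_lit 133) (nat_lit 5) (nat_lit 134) (nat_lit 5) (nat_lit 305) (nat_lit 283) (nat_lit 192))))))))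
noncomputable def xc174 : XT := (XT.nd (nat_lit 1716) (nat_lit 2660) (nat_lit 0) (XT.nd (nat_lit 858) (nat_lit 1596) (nat_lit 0) (XT.nd (nat_lit 390) (nat_lit 1368) (nat_lit 0) (XT.nd (nat_lit 156) (nat_lit 532) (nat_lit 0) (XT.nd (nat_lit 78) (nat_lit 532) (nat_lit 0) (XT.lf (nat_lit 0) (nat_lit 4817185062) (nat_lit 684) (nat_lit 4907709897) (nat_lit 76) (nat_lit 2412914292) (nat_lit 125) (nat_lit 5) (nat_lit 134) (nat_lit 5) (nat_lit 126) (nat_lit 5) (nat_lit 306) (nat_lit 283) (nat_lit 191)) (XT.lf (nat_lit 0) (nat_lit 494299411) (nat_lit 532) (nat_lit 5730997349) (nat_lit 608) (nat_lit 6113481351) (nat_lit 118) (nat_lit 5) (nat_lit 125) (nat_lit 5) (nat_lit 126) (nat_lit 5) (nat_lit 307) (nat_lit 283) (nat_lit 190))) (XT.nd (nat_lit 78) (nat_lit 532) (nat_lit 0) (XT.lf (nat_lit 0) (nat_lit 6141657572) (nat_lit 532) (nat_lit 1565187796) (nat_lit 608) (nat_lit 4838042037) (nat_lit 118) (nat_lit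 5) (nat_lit 125) (nat_lit 5) (nat_lit 126) (nat_lit 5) (nat_lit 308) (nat_lit 283) (nat_lit 189)) (XT.nd (nat_lit 78) (nat_lit 532) (nat_lit 0) (XT.lf (nat_lit 0) (nat_lit 9241220537) (nat_lit 608) (nat_lit 842344447) (nat_lit 76) (nat_lit 2673409390) (nat_lit 118) (nat_lit 5) (nat_lit 126) (nat_lit 5) (nat_lit 119) (nat_lit 5) (nat_lit 309) (nat_lit 283) (nat_lit 188)) (XT.lf (nat_lit 0) (nat_lit 4949560309) (nat_lit 532) (nat_lit 5917840796) (nat_lit 608) (nat_lit 2106694090) (nat_lit 111) (nat_lit 5) (nat_lit 118) (nat_lit 5) (nat_lit 119) (nat_lit 5) (nat_lit 310) (nat_lit 283) (nat_lit 187))))) (XT.nd (nat_lit 234) (nat_lit 836) (nat_lit 0) (XT.nd (nat_lit 78) (nat_lit 532) (nat_lit 0) (XT.lf (nat_lit 0) (nat_lit 10915761041) (nat_lit 532) (nat_lit 1618154218) (nat_lit 608) (nat_lit 664111107) (nat_lit 111) (nat_lit 5) (nat_lit 118) (nat_lit 5) (nat_lit 119) (nat_lit 5) (nat_lit 311) (nat_lit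 283) (nat_lit 186)) (XT.nd (nat_lit 78) (nat_lit 0) (nat_lit 0) (XT.lf (nat_lit 0) (nat_lit 851861622) (nat_lit 532) (nat_lit 9775802458) (nat_lit 76) (nat_lit 2799430684) (nat_lit 104) (nat_lit 5) (nat_lit 111) (nat_lit 5) (nat_lit 105) (nat_lit 5) (nat_lit 312) (nat_lit 283) (nat_lit 185)) (XT.lf (nat_lit 0) (nat_lit 2422919713) (nat_lit 532) (nat_lit 3892507202) (nat_lit 76) (nat_lit 7346761920) (nat_lit 104) (nat_lit 5) (nat_lit 111) (nat_lit 5) (nat_lit 105) (nat_lit 5) (nat_lit 313) (nat_lit 283) (nat_lit 184)))) (XT.nd (nat_lit 78) (nat_lit 380) (nat_lit 0) (XT.lf (nat_lit 0) (nat_lit 2193607254) (nat_lit 456) (nat_lit 1852722802) (nat_lit 532) (nat_lit 9857887415) (nat_lit 98) (nat_lit 5) (nat_lit 104) (nat_lit 5) (nat_lit 105) (nat_lit 5) (nat_lit 314) (nat_lit 283) (nat_lit 183)) (XT.nd (nat_lit 78) (nat_lit 380) (nat_lit 0) (XT.lf (nat_lit 0) (nat_lit 5768946345) (nat_lit 532) (nat_lit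 5653814844) (nat_lit 76) (nat_lit 2729267907) (nat_lit 98) (nat_lit 5) (nat_lit 105) (nat_lit 5) (nat_lit 99) (nat_lit 5) (nat_lit 315) (nat_lit 283) (nat_lit 182)) (XT.lf (nat_lit 0) (nat_lit 560956844) (nat_lit 380) (nat_lit 6990905847) (nat_lit 456) (nat_lit 6855189887) (nat_lit 93) (nat_lit 5) (nat_lit 98) (nat_lit 5) (nat_lit 99) (nat_lit 5) (nat_lit 316) (nat_lit 283) (nat_lit 181)))))) (XT.nd (nat_lit 390) (nat_lit 684) (nat_lit 0) (XT.nd (nat_lit 156) (nat_lit 912) (nat_lit 0) (XT.nd (nat_lit 78) (nat_lit 0) (nat_lit 0) (XT.lf (nat_lit 0) (nat_lit 7061899399) (nat_lit 380) (nat_lit 2368629885) (nat_lit 456) (nat_lit 5237964701) (nat_lit 93) (nat_lit 5) (nat_lit 98) (nat_lit 5) (nat_lit 99) (nat_lit 5) (nat_lit 317) (nat_lit 283) (nat_lit 180)) (XT.lf (nat_lit 0) (nat_lit 11374141999) (nat_lit 456) (nat_lit 1219057272) (nat_lit 76) (nat_lit 2344355857) (nat_lit 93) (nat_lit 5) (nat_lit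 99) (nat_lit 5) (nat_lit 94) (nat_lit 5) (nat_lit 318) (nat_lit 283) (nat_lit 179))) (XT.nd (nat_lit 78) (nat_lit 456) (nat_lit 0) (XT.lf (nat_lit 0) (nat_lit 5426870143) (nat_lit 456) (nat_lit 8010820582) (nat_lit 532) (nat_lit 1775181640) (nat_lit 87) (nat_lit 5) (nat_lit 93) (nat_lit 5) (nat_lit 94) (nat_lit 5) (nat_lit 319) (nat_lit 283) (nat_lit 178)) (XT.nd (nat_lit 78) (nat_lit 380) (nat_lit 0) (XT.lf (nat_lit 0) (nat_lit 63927485) (nat_lit 532) (nat_lit 3215514064) (nat_lit 76) (nat_lit 12217063558) (nat_lit 86) (nat_lit 5) (nat_lit 93) (nat_lit 5) (nat_lit 87) (nat_lit 5) (nat_lit 320) (nat_lit 283) (nat_lit 177)) (XT.lf (nat_lit 0) (nat_lit 1959355793) (nat_lit 456) (nat_lit 12214162946) (nat_lit 76) (nat_lit 1613526330) (nat_lit 81) (nat_lit 5) (nat_lit 87) (nat_lit 5) (nat_lit 82) (nat_lit 5) (nat_lit 321) (nat_lit 283) (nat_lit 176))))) (XT.nd (nat_lit 234) (nat_lit 304) (nat_lit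 0) (XT.nd (nat_lit 78) (nat_lit 380) (nat_lit 0) (XT.lf (nat_lit 0) (nat_lit 3963641329) (nat_lit 456) (nat_lit 5502905210) (nat_lit 76) (nat_lit 6618224258) (nat_lit 81) (nat_lit 5) (nat_lit 87) (nat_lit 5) (nat_lit 82) (nat_lit 5) (nat_lit 322) (nat_lit 283) (nat_lit 175)) (XT.nd (nat_lit 78) (nat_lit 0) (nat_lit 0) (XT.lf (nat_lit 0) (nat_lit 1422267146) (nat_lit 380) (nat_lit 4606579194) (nat_lit 456) (nat_lit 10362586770) (nat_lit 76) (nat_lit 5) (nat_lit 81) (nat_lit 5) (nat_lit 82) (nat_lit 5) (nat_lit 323) (nat_lit 283) (nat_lit 174)) (XT.lf (nat_lit 0) (nat_lit 8203290533) (nat_lit 456) (nat_lit 8057429046) (nat_lit 76) (nat_lit 445184932) (nat_lit 76) (nat_lit 5) (nat_lit 82) (nat_lit 5) (nat_lit 77) (nat_lit 5) (nat_lit 324) (nat_lit 283) (nat_lit 173)))) (XT.nd (nat_lit 78) (nat_lit 304) (nat_lit 0) (XT.lf (nat_lit 0) (nat_lit 10476273923) (nat_lit 456) (nat_lit 998913047) (nat_lit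 76) (nat_lit 5553650810) (nat_lit 76) (nat_lit 5) (nat_lit 82) (nat_lit 5) (nat_lit 77) (nat_lit 5) (nat_lit 325) (nat_lit 283) (nat_lit 172)) (XT.nd (nat_lit 78) (nat_lit 0) (nat_lit 0) (XT.lf (nat_lit 0) (nat_lit 6381354128) (nat_lit 304) (nat_lit 6485488708) (nat_lit 380) (nat_lit 4493160452) (nat_lit 72) (nat_lit 5) (nat_lit 76) (nat_lit 5) (nat_lit 77) (nat_lit 5) (nat_lit 326) (nat_lit 283) (nat_lit 171)) (XT.lf (nat_lit 0) (nat_lit 13989120979) (nat_lit 304) (nat_lit 1338359089) (nat_lit 380) (nat_lit 2373698512) (nat_lit 72) (nat_lit 5) (nat_lit 76) (nat_lit 5) (nat_lit 77) (nat_lit 5) (nat_lit 327) (nat_lit 283) (nat_lit 170))))))) (XT.nd (nat_lit 858) (nat_lit 988) (nat_lit 0) (XT.nd (nat_lit 390) (nat_lit 912) (nat_lit 0) (XT.nd (nat_lit 156) (nat_lit 304) (nat_lit 0) (XT.nd (nat_lit 78) (nat_lit 76) (nat_lit 0) (XT.lf (nat_lit 0) (nat_lit 3794165165) (nat_lit 380) (nat_lit 14130920926)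 (nat_lit 456) (nat_lit 125633171) (nat_lit 67) (nat_lit 5) (nat_lit 72) (nat_lit 5) (nat_lit 73) (nat_lit 5) (nat_lit 328) (nat_lit 283) (nat_lit 169)) (XT.lf (nat_lit 0) (nat_lit 2186891648) (nat_lit 456) (nat_lit 6857042863) (nat_lit 76) (nat_lit 9365010851) (nat_lit 66) (nat_lit 5) (nat_lit 72) (nat_lit 5) (nat_lit 67) (nat_lit 5) (nat_lit 329) (nat_lit 283) (nat_lit 168))) (XT.nd (nat_lit 78) (nat_lit 0) (nat_lit 0) (XT.lf (nat_lit 0) (nat_lit 764123757) (nat_lit 304) (nat_lit 3798462492) (nat_lit 380) (nat_lit 14215427636) (nat_lit 62) (nat_lit 5) (nat_lit 66) (nat_lit 5) (nat_lit 67) (nat_lit 5) (nat_lit 330) (nat_lit 283) (nat_lit 167)) (XT.nd (nat_lit 78) (nat_lit 0) (nat_lit 0) (XT.lf (nat_lit 0) (nat_lit 7084034962) (nat_lit 380) (nat_lit 10431874557) (nat_lit 76) (nat_lit 1640032322) (nat_lit 62) (nat_lit 5) (nat_lit 67) (nat_lit 5) (nat_lit 63) (nat_lit 5) (nat_lit 331) (nat_lit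 283) (nat_lit 166)) (XT.lf (nat_lit 0) (nat_lit 9708184986) (nat_lit 380) (nat_lit 2673771732) (nat_lit 76) (nat_lit 7162460417) (nat_lit 62) (nat_lit 5) (nat_lit 67) (nat_lit 5) (nat_lit 63) (nat_lit 5) (nat_lit 332) (nat_lit 283) (nat_lit 165))))) (XT.nd (nat_lit 234) (nat_lit 380) (nat_lit 0) (XT.nd (nat_lit 78) (nat_lit 228) (nat_lit 0) (XT.lf (nat_lit 0) (nat_lit 5409264652) (nat_lit 304) (nat_lit 7043548634) (nat_lit 380) (nat_lit 7490501409) (nat_lit 58) (nat_lit 5) (nat_lit 62) (nat_lit 5) (nat_lit 63) (nat_lit 5) (nat_lit 333) (nat_lit 283) (nat_lit 164)) (XT.nd (nat_lit 78) (nat_lit 228) (nat_lit 0) (XT.lf (nat_lit 0) (nat_lit 13776369084) (nat_lit 304) (nat_lit 1520338967) (nat_lit 380) (nat_lit 5056983320) (nat_lit 58) (nat_lit 5) (nat_lit 62) (nat_lit 5) (nat_lit 63) (nat_lit 5) (nat_lit 334) (nat_lit 283) (nat_lit 163)) (XT.lf (nat_lit 0) (nat_lit 1596050549) (nat_lit 228) (nat_lit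 16675473774) (nat_lit 304) (nat_lit 2503506320) (nat_lit 55) (nat_lit 5) (nat_lit 58) (nat_lit 5) (nat_lit 59) (nat_lit 5) (nat_lit 335) (nat_lit 283) (nat_lit 162)))) (XT.nd (nat_lit 78) (nat_lit 304) (nat_lit 0) (XT.lf (nat_lit 0) (nat_lit 196471889) (nat_lit 304) (nat_lit 11087705997) (nat_lit 76) (nat_lit 9922643019) (nat_lit 54) (nat_lit 5) (nat_lit 58) (nat_lit 5) (nat_lit 55) (nat_lit 5) (nat_lit 336) (nat_lit 283) (nat_lit 161)) (XT.nd (nat_lit 78) (nat_lit 304) (nat_lit 0) (XT.lf (nat_lit 0) (nat_lit 2917654078) (nat_lit 304) (nat_lit 2791310474) (nat_lit 76) (nat_lit 15942158815) (nat_lit 54) (nat_lit 5) (nat_lit 58) (nat_lit 5) (nat_lit 55) (nat_lit 5) (nat_lit 337) (nat_lit 283) (nat_lit 160)) (XT.lf (nat_lit 0) (nat_lit 5768407933) (nat_lit 380) (nat_lit 16252419126) (nat_lit 76) (nat_lit 86507026) (nat_lit 50) (nat_lit 5) (nat_lit 55) (nat_lit 5) (nat_lit 51) (nat_lit 5) (nat_lit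 338) (nat_lit 283) (nat_lit 159)))))) (XT.nd (nat_lit 468) (nat_lit 456) (nat_lit 0) (XT.nd (nat_lit 234) (nat_lit 304) (nat_lit 0) (XT.nd (nat_lit 78) (nat_lit 228) (nat_lit 0) (XT.lf (nat_lit 0) (nat_lit 8780591207) (nat_lit 380) (nat_lit 7828033300) (nat_lit 76) (nat_lit 5966346177) (nat_lit 50) (nat_lit 5) (nat_lit 55) (nat_lit 5) (nat_lit 51) (nat_lit 5) (nat_lit 339) (nat_lit 283) (nat_lit 158)) (XT.nd (nat_lit 78) (nat_lit 0) (nat_lit 0) (XT.lf (nat_lit 0) (nat_lit 853515390) (nat_lit 228) (nat_lit 11029010230) (nat_lit 304) (nat_lit 11174145470) (nat_lit 47) (nat_lit 5) (nat_lit 50) (nat_lit 5) (nat_lit 51) (nat_lit 5) (nat_lit 340) (nat_lit 283) (nat_lit 157)) (XT.lf (nat_lit 0) (nat_lit 9943873523) (nat_lit 228) (nat_lit 5204013968) (nat_lit 304) (nat_lit 8402839736) (nat_lit 47) (nat_lit 5) (nat_lit 50) (nat_lit 5) (nat_lit 51) (nat_lit 5) (nat_lit 341) (nat_lit 283) (nat_lit 156))))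 (XT.nd (nat_lit 78) (nat_lit 304) (nat_lit 0) (XT.lf (nat_lit 0) (nat_lit 18510401719) (nat_lit 304) (nat_lit 4772299335) (nat_lit 76) (nat_lit 776943591) (nat_lit 47) (nat_lit 5) (nat_lit 51) (nat_lit 5) (nat_lit 48) (nat_lit 5) (nat_lit 342) (nat_lit 283) (nat_lit 155)) (XT.nd (nat_lit 78) (nat_lit 76) (nat_lit 0) (XT.lf (nat_lit 0) (nat_lit 4348992819) (nat_lit 228) (nat_lit 17709917395) (nat_lit 304) (nat_lit 2522380702) (nat_lit 44) (nat_lit 5) (nat_lit 47) (nat_lit 5) (nat_lit 48) (nat_lit 5) (nat_lit 343) (nat_lit 283) (nat_lit 154)) (XT.lf (nat_lit 0) (nat_lit 624162137) (nat_lit 304) (nat_lit 11293290203) (nat_lit 76) (nat_lit 13199761880) (nat_lit 43) (nat_lit 5) (nat_lit 47) (nat_lit 5) (nat_lit 44) (nat_lit 5) (nat_lit 344) (nat_lit 283) (nat_lit 153))))) (XT.nd (nat_lit 234) (nat_lit 228) (nat_lit 0) (XT.nd (nat_lit 78) (nat_lit 228) (nat_lit 0) (XT.lf (nat_lit 0) (nat_lit 3806465023)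 (nat_lit 304) (nat_lit 2122446473) (nat_lit 76) (nat_lit 19739806303) (nat_lit 43) (nat_lit 5) (nat_lit 47) (nat_lit 5) (nat_lit 44) (nat_lit 5) (nat_lit 345) (nat_lit 283) (nat_lit 152)) (XT.nd (nat_lit 78) (nat_lit 0) (nat_lit 0) (XT.lf (nat_lit 0) (nat_lit 7151198488) (nat_lit 304) (nat_lit 18779812188) (nat_lit 76) (nat_lit 303760197) (nat_lit 40) (nat_lit 5) (nat_lit 44) (nat_lit 5) (nat_lit 41) (nat_lit 5) (nat_lit 346) (nat_lit 283) (nat_lit 151)) (XT.lf (nat_lit 0) (nat_lit 10669000618) (nat_lit 304) (nat_lit 9524012563) (nat_lit 76) (nat_lit 6622623409) (nat_lit 40) (nat_lit 5) (nat_lit 44) (nat_lit 5) (nat_lit 41) (nat_lit 5) (nat_lit 347) (nat_lit 283) (nat_lit 150)))) (XT.nd (nat_lit 78) (nat_lit 228) (nat_lit 0) (XT.lf (nat_lit 0) (nat_lit 14284938575) (nat_lit 304) (nat_lit 1344553) (nat_lit 76) (nat_lit 13127879572) (nat_lit 40) (nat_lit 5) (nat_lit 44) (nat_lit 5) (nat_lit 41)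 (nat_lit 5) (nat_lit 348) (nat_lit 283) (nat_lit 149)) (XT.nd (nat_lit 78) (nat_lit 0) (nat_lit 0) (XT.lf (nat_lit 0) (nat_lit 9991482428) (nat_lit 228) (nat_lit 8106733729) (nat_lit 304) (nat_lit 9929774704) (nat_lit 37) (nat_lit 5) (nat_lit 40) (nat_lit 5) (nat_lit 41) (nat_lit 5) (nat_lit 349) (nat_lit 283) (nat_lit 148)) (XT.lf (nat_lit 0) (nat_lit 20273733755) (nat_lit 228) (nat_lit 1745098484) (nat_lit 304) (nat_lit 6641625179) (nat_lit 37) (nat_lit 5) (nat_lit 40) (nat_lit 5) (nat_lit 41) (nat_lit 5) (nat_lit 350) (nat_lit 283) (nat_lit 147))))))))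
noncomputable def xc175 : XT := (XT.nd (nat_lit 1794) (nat_lit 532) (nat_lit 0) (XT.nd (nat_lit 858) (nat_lit 532) (nat_lit 0) (XT.nd (nat_lit 390) (nat_lit 380) (nat_lit 0) (XT.nd (nat_lit 156) (nat_lit 228) (nat_lit 0) (XT.nd (nat_lit 78) (nat_lit 76) (nat_lit 0) (XT.lf (nat_lit 0) (nat_lit 1525845898) (nat_lit 152) (nat_lit 24585201487) (nat_lit 228) (nat_lit 3199242587) (nat_lit 35) (nat_lit 5) (nat_lit 37) (nat_lit 5) (nat_lit 38) (nat_lit 5) (nat_lit 351) (nat_lit 283) (nat_lit 146)) (XT.lf (nat_lit 0) (nat_lit 435584609) (nat_lit 228) (nat_lit 18101130104) (nat_lit 76) (nat_lit 11439935667) (nat_lit 34) (nat_lit 5) (nat_lit 37) (nat_lit 5) (nat_lit 35) (nat_lit 5) (nat_lit 352) (nat_lit 283) (nat_lit 145))) (XT.nd (nat_lit 78) (nat_lit 228) (nat_lit 0) (XT.lf (nat_lit 0) (nat_lit 4108481893) (nat_lit 228) (nat_lit 8169010648) (nat_lit 76) (nat_lit 18384769429) (nat_lit 34) (nat_lit 5)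 (nat_lit 37) (nat_lit 5) (nat_lit 35) (nat_lit 5) (nat_lit 353) (nat_lit 283) (nat_lit 144)) (XT.nd (nat_lit 78) (nat_lit 0) (nat_lit 0) (XT.lf (nat_lit 0) (nat_lit 2092171725) (nat_lit 228) (nat_lit 5813026848) (nat_lit 304) (nat_lit 23462844504) (nat_lit 31) (nat_lit 5) (nat_lit 34) (nat_lit 5) (nat_lit 35) (nat_lit 5) (nat_lit 354) (nat_lit 283) (nat_lit 143)) (XT.lf (nat_lit 0) (nat_lit 11900836864) (nat_lit 304) (nat_lit 19282620806) (nat_lit 76) (nat_lit 908999191) (nat_lit 31) (nat_lit 5) (nat_lit 35) (nat_lit 5) (nat_lit 32) (nat_lit 5) (nat_lit 355) (nat_lit 283) (nat_lit 142))))) (XT.nd (nat_lit 234) (nat_lit 228) (nat_lit 0) (XT.nd (nat_lit 78) (nat_lit 152) (nat_lit 0) (XT.lf (nat_lit 0) (nat_lit 16067671974) (nat_lit 304) (nat_lit 9056643206) (nat_lit 76) (nat_lit 7712757610) (nat_lit 31) (nat_lit 5) (nat_lit 35) (nat_lit 5) (nat_lit 32) (nat_lit 5) (nat_lit 356) (nat_lit 283) (nat_lit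 141)) (XT.nd (nat_lit 78) (nat_lit 0) (nat_lit 0) (XT.lf (nat_lit 0) (nat_lit 1496068828) (nat_lit 152) (nat_lit 18871778757) (nat_lit 228) (nat_lit 13235938829) (nat_lit 29) (nat_lit 5) (nat_lit 31) (nat_lit 5) (nat_lit 32) (nat_lit 5) (nat_lit 357) (nat_lit 283) (nat_lit 140)) (XT.lf (nat_lit 0) (nat_lit 12541866521) (nat_lit 152) (nat_lit 12340658754) (nat_lit 228) (nat_lit 9508420281) (nat_lit 29) (nat_lit 5) (nat_lit 31) (nat_lit 5) (nat_lit 32) (nat_lit 5) (nat_lit 358) (nat_lit 283) (nat_lit 139)))) (XT.nd (nat_lit 78) (nat_lit 228) (nat_lit 0) (XT.lf (nat_lit 0) (nat_lit 23910156582) (nat_lit 152) (nat_lit 5616702706) (nat_lit 228) (nat_lit 5675042455) (nat_lit 29) (nat_lit 5) (nat_lit 31) (nat_lit 5) (nat_lit 32) (nat_lit 5) (nat_lit 359) (nat_lit 283) (nat_lit 138)) (XT.nd (nat_lit 78) (nat_lit 228) (nat_lit 0) (XT.lf (nat_lit 0) (nat_lit 34317461510) (nat_lit 228) (nat_lit 439044839)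 (nat_lit 76) (nat_lit 1280480614) (nat_lit 29) (nat_lit 5) (nat_lit 32) (nat_lit 5) (nat_lit 30) (nat_lit 5) (nat_lit 360) (nat_lit 283) (nat_lit 137)) (XT.lf (nat_lit 0) (nat_lit 2465022504) (nat_lit 228) (nat_lit 26029090480) (nat_lit 76) (nat_lit 8397651332) (nat_lit 26) (nat_lit 5) (nat_lit 29) (nat_lit 5) (nat_lit 27) (nat_lit 5) (nat_lit 361) (nat_lit 283) (nat_lit 136)))))) (XT.nd (nat_lit 468) (nat_lit 228) (nat_lit 0) (XT.nd (nat_lit 234) (nat_lit 152) (nat_lit 0) (XT.nd (nat_lit 78) (nat_lit 152) (nat_lit 0) (XT.lf (nat_lit 0) (nat_lit 6739560709) (nat_lit 228) (nat_lit 15285225299) (nat_lit 76) (nat_lit 15746925569) (nat_lit 26) (nat_lit 5) (nat_lit 29) (nat_lit 5) (nat_lit 27) (nat_lit 5) (nat_lit 362) (nat_lit 283) (nat_lit 135)) (XT.nd (nat_lit 78) (nat_lit 152) (nat_lit 0) (XT.lf (nat_lit 0) (nat_lit 11137031352) (nat_lit 228) (nat_lit 4227343652) (nat_lit 76) (nat_lit 23313848910)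 (nat_lit 26) (nat_lit 5) (nat_lit 29) (nat_lit 5) (nat_lit 27) (nat_lit 5) (nat_lit 363) (nat_lit 283) (nat_lit 134)) (XT.lf (nat_lit 0) (nat_lit 7296599625) (nat_lit 152) (nat_lit 8434816635) (nat_lit 228) (nat_lit 23878572983) (nat_lit 24) (nat_lit 5) (nat_lit 26) (nat_lit 5) (nat_lit 27) (nat_lit 5) (nat_lit 364) (nat_lit 283) (nat_lit 133)))) (XT.nd (nat_lit 78) (nat_lit 152) (nat_lit 0) (XT.lf (nat_lit 0) (nat_lit 19244938842) (nat_lit 152) (nat_lit 1256305805) (nat_lit 228) (nat_lit 20067341642) (nat_lit 24) (nat_lit 5) (nat_lit 26) (nat_lit 5) (nat_lit 27) (nat_lit 5) (nat_lit 365) (nat_lit 283) (nat_lit 132)) (XT.nd (nat_lit 78) (nat_lit 152) (nat_lit 0) (XT.lf (nat_lit 0) (nat_lit 25468210673) (nat_lit 228) (nat_lit 10071085025) (nat_lit 76) (nat_lit 6015031173) (nat_lit 24) (nat_lit 5) (nat_lit 27) (nat_lit 5) (nat_lit 25) (nat_lit 5) (nat_lit 366) (nat_lit 283) (nat_lit 131)) (XT.lf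 (nat_lit 0) (nat_lit 1528803371) (nat_lit 152) (nat_lit 29077705899) (nat_lit 228) (nat_lit 11962467397) (nat_lit 22) (nat_lit 5) (nat_lit 24) (nat_lit 5) (nat_lit 25) (nat_lit 5) (nat_lit 367) (nat_lit 283) (nat_lit 130))))) (XT.nd (nat_lit 234) (nat_lit 152) (nat_lit 0) (XT.nd (nat_lit 78) (nat_lit 76) (nat_lit 0) (XT.lf (nat_lit 0) (nat_lit 13675566050) (nat_lit 152) (nat_lit 22320345472) (nat_lit 228) (nat_lit 7615252305) (nat_lit 22) (nat_lit 5) (nat_lit 24) (nat_lit 5) (nat_lit 25) (nat_lit 5) (nat_lit 368) (nat_lit 283) (nat_lit 129)) (XT.nd (nat_lit 78) (nat_lit 76) (nat_lit 0) (XT.lf (nat_lit 0) (nat_lit 26179382347) (nat_lit 152) (nat_lit 15363008140) (nat_lit 228) (nat_lit 3142370596) (nat_lit 22) (nat_lit 5) (nat_lit 24) (nat_lit 5) (nat_lit 25) (nat_lit 5) (nat_lit 369) (nat_lit 283) (nat_lit 128)) (XT.lf (nat_lit 0) (nat_lit 1431594534) (nat_lit 228) (nat_lit 6753563844) (nat_lit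 76) (nat_lit 37605127095) (nat_lit 21) (nat_lit 5) (nat_lit 24) (nat_lit 5) (nat_lit 22) (nat_lit 5) (nat_lit 370) (nat_lit 283) (nat_lit 127)))) (XT.nd (nat_lit 78) (nat_lit 0) (nat_lit 0) (XT.lf (nat_lit 0) (nat_lit 5418404977) (nat_lit 152) (nat_lit 708910316) (nat_lit 228) (nat_lit 40799301852) (nat_lit 19) (nat_lit 5) (nat_lit 21) (nat_lit 5) (nat_lit 22) (nat_lit 5) (nat_lit 371) (nat_lit 283) (nat_lit 126)) (XT.nd (nat_lit 78) (nat_lit 0) (nat_lit 0) (XT.lf (nat_lit 0) (nat_lit 11095634445) (nat_lit 228) (nat_lit 30075963509) (nat_lit 76) (nat_lit 6921494627) (nat_lit 19) (nat_lit 5) (nat_lit 22) (nat_lit 5) (nat_lit 20) (nat_lit 5) (nat_lit 372) (nat_lit 283) (nat_lit 125)) (XT.lf (nat_lit 0) (nat_lit 16215794910) (nat_lit 228) (nat_lit 18314622587) (nat_lit 76) (nat_lit 14764066482) (nat_lit 19) (nat_lit 5) (nat_lit 22) (nat_lit 5) (nat_lit 20) (nat_lit 5) (nat_lit 373) (nat_lit 283)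 (nat_lit 124))))))) (XT.nd (nat_lit 858) (nat_lit 76) (nat_lit 0) (XT.nd (nat_lit 390) (nat_lit 304) (nat_lit 0) (XT.nd (nat_lit 156) (nat_lit 0) (nat_lit 0) (XT.nd (nat_lit 78) (nat_lit 152) (nat_lit 0) (XT.lf (nat_lit 0) (nat_lit 21485456138) (nat_lit 228) (nat_lit 6207098022) (nat_lit 76) (nat_lit 22839491374) (nat_lit 19) (nat_lit 5) (nat_lit 22) (nat_lit 5) (nat_lit 20) (nat_lit 5) (nat_lit 374) (nat_lit 283) (nat_lit 123)) (XT.lf (nat_lit 0) (nat_lit 6381719915) (nat_lit 152) (nat_lit 20588847766) (nat_lit 228) (nat_lit 24834450580) (nat_lit 17) (nat_lit 5) (nat_lit 19) (nat_lit 5) (nat_lit 20) (nat_lit 5) (nat_lit 375) (nat_lit 283) (nat_lit 122))) (XT.nd (nat_lit 78) (nat_lit 0) (nat_lit 0) (XT.lf (nat_lit 0) (nat_lit 19469042471) (nat_lit 152) (nat_lit 13209939643) (nat_lit 228) (nat_lit 20435440560) (nat_lit 17) (nat_lit 5) (nat_lit 19) (nat_lit 5) (nat_lit 20) (nat_lit 5) (nat_lit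 376) (nat_lit 283) (nat_lit 121)) (XT.nd (nat_lit 78) (nat_lit 0) (nat_lit 0) (XT.lf (nat_lit 0) (nat_lit 32942771748) (nat_lit 152) (nat_lit 5612061720) (nat_lit 228) (nat_lit 15908395061) (nat_lit 17) (nat_lit 5) (nat_lit 19) (nat_lit 5) (nat_lit 20) (nat_lit 5) (nat_lit 377) (nat_lit 283) (nat_lit 120)) (XT.lf (nat_lit 0) (nat_lit 44624513551) (nat_lit 228) (nat_lit 9059191056) (nat_lit 76) (nat_lit 2168272058) (nat_lit 17) (nat_lit 5) (nat_lit 20) (nat_lit 5) (nat_lit 18) (nat_lit 4) (nat_lit 378) (nat_lit 283) (nat_lit 119))))) (XT.nd (nat_lit 234) (nat_lit 152) (nat_lit 0) (XT.nd (nat_lit 78) (nat_lit 76) (nat_lit 0) (XT.lf (nat_lit 0) (nat_lit 3788324482) (nat_lit 76) (nat_lit 47176322006) (nat_lit 152) (nat_lit 6315094453) (nat_lit 16) (nat_lit 5) (nat_lit 17) (nat_lit 5) (nat_lit 18) (nat_lit 4) (nat_lit 379) (nat_lit 283) (nat_lit 118)) (XT.nd (nat_lit 78) (nat_lit 76) (nat_lit 0)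 (XT.lf (nat_lit 0) (nat_lit 17201081283) (nat_lit 76) (nat_lit 40381812768) (nat_lit 152) (nat_lit 1164811208) (nat_lit 16) (nat_lit 5) (nat_lit 17) (nat_lit 5) (nat_lit 18) (nat_lit 4) (nat_lit 380) (nat_lit 283) (nat_lit 117)) (XT.lf (nat_lit 0) (nat_lit 4055690604) (nat_lit 152) (nat_lit 29289074883) (nat_lit 76) (nat_lit 26913858436) (nat_lit 15) (nat_lit 5) (nat_lit 17) (nat_lit 5) (nat_lit 16) (nat_lit 5) (nat_lit 381) (nat_lit 283) (nat_lit 116)))) (XT.nd (nat_lit 78) (nat_lit 152) (nat_lit 0) (XT.lf (nat_lit 0) (nat_lit 9405993979) (nat_lit 152) (nat_lit 16680954566) (nat_lit 76) (nat_lit 35727681734) (nat_lit 15) (nat_lit 5) (nat_lit 17) (nat_lit 5) (nat_lit 16) (nat_lit 5) (nat_lit 382) (nat_lit 283) (nat_lit 115)) (XT.nd (nat_lit 78) (nat_lit 152) (nat_lit 0) (XT.lf (nat_lit 0) (nat_lit 14913503603) (nat_lit 152) (nat_lit 3700049344) (nat_lit 76) (nat_lit 44803866904) (nat_lit 15)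 (nat_lit 5) (nat_lit 17) (nat_lit 5) (nat_lit 16) (nat_lit 5) (nat_lit 383) (nat_lit 283) (nat_lit 114)) (XT.lf (nat_lit 0) (nat_lit 9857335441) (nat_lit 152) (nat_lit 10820451157) (nat_lit 228) (nat_lit 44387763893) (nat_lit 13) (nat_lit 5) (nat_lit 15) (nat_lit 5) (nat_lit 16) (nat_lit 5) (nat_lit 384) (nat_lit 283) (nat_lit 113)))))) (XT.nd (nat_lit 32760) (nat_lit 0) (nat_lit 11856) (XT.nd (nat_lit 234) (nat_lit 76) (nat_lit 0) (XT.nd (nat_lit 78) (nat_lit 0) (nat_lit 0) (XT.lf (nat_lit 0) (nat_lit 23892041399) (nat_lit 152) (nat_lit 2757156227) (nat_lit 228) (nat_lit 40112905151) (nat_lit 13) (nat_lit 5) (nat_lit 15) (nat_lit 5) (nat_lit 16) (nat_lit 5) (nat_lit 385) (nat_lit 283) (nat_lit 112)) (XT.nd (nat_lit 78) (nat_lit 0) (nat_lit 0) (XT.lf (nat_lit 0) (nat_lit 32849991112) (nat_lit 228) (nat_lit 30220265436) (nat_lit 76) (nat_lit 5437791484) (nat_lit 13) (nat_lit 5) (nat_lit 16) (nat_lit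 5) (nat_lit 14) (nat_lit 4) (nat_lit 386) (nat_lit 283) (nat_lit 111)) (XT.lf (nat_lit 0) (nat_lit 39261106004) (nat_lit 228) (nat_lit 17223294784) (nat_lit 76) (nat_lit 13821245430) (nat_lit 13) (nat_lit 5) (nat_lit 16) (nat_lit 5) (nat_lit 14) (nat_lit 4) (nat_lit 387) (nat_lit 283) (nat_lit 110)))) (XT.nd (nat_lit 78) (nat_lit 76) (nat_lit 0) (XT.lf (nat_lit 0) (nat_lit 45861640774) (nat_lit 228) (nat_lit 3841289372) (nat_lit 76) (nat_lit 22454333007) (nat_lit 13) (nat_lit 5) (nat_lit 16) (nat_lit 5) (nat_lit 14) (nat_lit 4) (nat_lit 388) (nat_lit 283) (nat_lit 109)) (XT.nd (nat_lit 78) (nat_lit 0) (nat_lit 0) (XT.lf (nat_lit 0) (nat_lit 10135218430) (nat_lit 76) (nat_lit 42619570370) (nat_lit 152) (nat_lit 21306805178) (nat_lit 12) (nat_lit 5) (nat_lit 13) (nat_lit 5) (nat_lit 14) (nat_lit 4) (nat_lit 389) (nat_lit 283) (nat_lit 108)) (XT.lf (nat_lit 0) (nat_lit 24605078140) (nat_lit 76)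 (nat_lit 35285651256) (nat_lit 152) (nat_lit 16131248591) (nat_lit 12) (nat_lit 5) (nat_lit 13) (nat_lit 5) (nat_lit 14) (nat_lit 4) (nat_lit 390) (nat_lit 283) (nat_lit 107))))) (XT.nd (nat_lit 234) (nat_lit 0) (nat_lit 76) (XT.nd (nat_lit 78) (nat_lit 0) (nat_lit 0) (XT.lf (nat_lit 0) (nat_lit 1282969746) (nat_lit 988) (nat_lit 1604493829) (nat_lit 988) (nat_lit 1604493829) (nat_lit 168) (nat_lit 3) (nat_lit 181) (nat_lit 3) (nat_lit 181) (nat_lit 5) (nat_lit 284) (nat_lit 284) (nat_lit 212)) (XT.nd (nat_lit 78) (nat_lit 0) (nat_lit 76) (XT.lf (nat_lit 76) (nat_lit 516197762) (nat_lit 0) (nat_lit 2900232485) (nat_lit 988) (nat_lit 5675497663) (nat_lit 169) (nat_lit 5) (nat_lit 168) (nat_lit 3) (nat_lit 181) (nat_lit 5) (nat_lit 285) (nat_lit 284) (nat_lit 211)) (XT.lf (nat_lit 0) (nat_lit 4294233390) (nat_lit 912) (nat_lit 4801972366) (nat_lit 988) (nat_lit 107014819) (nat_lit 169) (nat_lit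 5) (nat_lit 181) (nat_lit 5) (nat_lit 182) (nat_lit 5) (nat_lit 286) (nat_lit 284) (nat_lit 210)))) (XT.nd (nat_lit 78) (nat_lit 0) (nat_lit 0) (XT.lf (nat_lit 0) (nat_lit 5196492431) (nat_lit 912) (nat_lit 960977795) (nat_lit 988) (nat_lit 3160528530) (nat_lit 169) (nat_lit 5) (nat_lit 181) (nat_lit 5) (nat_lit 182) (nat_lit 5) (nat_lit 287) (nat_lit 284) (nat_lit 209)) (XT.nd (nat_lit 78) (nat_lit 0) (nat_lit 76) (XT.lf (nat_lit 76) (nat_lit 3037766345) (nat_lit 0) (nat_lit 3087551466) (nat_lit 988) (nat_lit 3311005272) (nat_lit 170) (nat_lit 5) (nat_lit 169) (nat_lit 5) (nat_lit 182) (nat_lit 5) (nat_lit 288) (nat_lit 284) (nat_lit 208)) (XT.lf (nat_lit 0) (nat_lit 7063646356) (nat_lit 912) (nat_lit 2400214052) (nat_lit 988) (nat_lit 94972780) (nat_lit 170) (nat_lit 5) (nat_lit 182) (nat_lit 5) (nat_lit 183) (nat_lit 5) (nat_lit 289) (nat_lit 284) (nat_lit 207))))))))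
noncomputable def xc176 : XT := (XT.nd (nat_lit 1716) (nat_lit 4028) (nat_lit 0) (XT.nd (nat_lit 858) (nat_lit 3572) (nat_lit 0) (XT.nd (nat_lit 390) (nat_lit 0) (nat_lit 76) (XT.nd (nat_lit 156) (nat_lit 912) (nat_lit 0) (XT.nd (nat_lit 78) (nat_lit 0) (nat_lit 0) (XT.lf (nat_lit 76) (nat_lit 1703598989) (nat_lit 0) (nat_lit 6345435243) (nat_lit 988) (nat_lit 1635499802) (nat_lit 171) (nat_lit 5) (nat_lit 170) (nat_lit 5) (nat_lit 183) (nat_lit 5) (nat_lit 290) (nat_lit 284) (nat_lit 206)) (XT.lf (nat_lit 76) (nat_lit 5962743169) (nat_lit 0) (nat_lit 3098094975) (nat_lit 988) (nat_lit 753342440) (nat_lit 171) (nat_lit 5) (nat_lit 170) (nat_lit 5) (nat_lit 183) (nat_lit 5) (nat_lit 291) (nat_lit 284) (nat_lit 205))) (XT.nd (nat_lit 78) (nat_lit 0) (nat_lit 0) (XT.lf (nat_lit 0) (nat_lit 131600263) (nat_lit 988) (nat_lit 9559980183) (nat_lit 1064) (nat_lit 256786485) (nat_lit 158) (nat_lit 5)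 (nat_lit 171) (nat_lit 5) (nat_lit 172) (nat_lit 5) (nat_lit 292) (nat_lit 284) (nat_lit 204)) (XT.nd (nat_lit 78) (nat_lit 0) (nat_lit 0) (XT.lf (nat_lit 0) (nat_lit 1071687395) (nat_lit 988) (nat_lit 5307461032) (nat_lit 1064) (nat_lit 3705968043) (nat_lit 158) (nat_lit 5) (nat_lit 171) (nat_lit 5) (nat_lit 172) (nat_lit 5) (nat_lit 293) (nat_lit 284) (nat_lit 203)) (XT.lf (nat_lit 0) (nat_lit 2014526988) (nat_lit 988) (nat_lit 944732460) (nat_lit 1064) (nat_lit 7267543909) (nat_lit 158) (nat_lit 5) (nat_lit 171) (nat_lit 5) (nat_lit 172) (nat_lit 5) (nat_lit 294) (nat_lit 284) (nat_lit 202))))) (XT.nd (nat_lit 234) (nat_lit 0) (nat_lit 76) (XT.nd (nat_lit 78) (nat_lit 0) (nat_lit 0) (XT.lf (nat_lit 0) (nat_lit 3001402873) (nat_lit 988) (nat_lit 6776033232) (nat_lit 1064) (nat_lit 594901489) (nat_lit 159) (nat_lit 5) (nat_lit 172) (nat_lit 5) (nat_lit 173) (nat_lit 5) (nat_lit 295) (nat_lit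 284) (nat_lit 201)) (XT.nd (nat_lit 78) (nat_lit 0) (nat_lit 0) (XT.lf (nat_lit 0) (nat_lit 4032740998) (nat_lit 988) (nat_lit 2275965788) (nat_lit 1064) (nat_lit 4213152651) (nat_lit 159) (nat_lit 5) (nat_lit 172) (nat_lit 5) (nat_lit 173) (nat_lit 5) (nat_lit 296) (nat_lit 284) (nat_lit 200)) (XT.lf (nat_lit 76) (nat_lit 2388668155) (nat_lit 0) (nat_lit 2705935719) (nat_lit 1064) (nat_lit 5581340826) (nat_lit 160) (nat_lit 5) (nat_lit 159) (nat_lit 5) (nat_lit 173) (nat_lit 5) (nat_lit 297) (nat_lit 284) (nat_lit 199)))) (XT.nd (nat_lit 78) (nat_lit 0) (nat_lit 0) (XT.lf (nat_lit 0) (nat_lit 6198392219) (nat_lit 988) (nat_lit 3621640817) (nat_lit 1064) (nat_lit 1014380792) (nat_lit 160) (nat_lit 5) (nat_lit 173) (nat_lit 5) (nat_lit 174) (nat_lit 5) (nat_lit 298) (nat_lit 284) (nat_lit 198)) (XT.nd (nat_lit 78) (nat_lit 0) (nat_lit 0) (XT.lf (nat_lit 76) (nat_lit 1162689415) (nat_lit 0) (nat_lit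 6188436170) (nat_lit 1064) (nat_lit 3646098057) (nat_lit 161) (nat_lit 5) (nat_lit 160) (nat_lit 5) (nat_lit 174) (nat_lit 5) (nat_lit 299) (nat_lit 284) (nat_lit 197)) (XT.lf (nat_lit 76) (nat_lit 6147786607) (nat_lit 0) (nat_lit 2405570571) (nat_lit 1064) (nat_lit 2611172844) (nat_lit 161) (nat_lit 5) (nat_lit 160) (nat_lit 5) (nat_lit 174) (nat_lit 5) (nat_lit 300) (nat_lit 284) (nat_lit 196)))))) (XT.nd (nat_lit 390) (nat_lit 1672) (nat_lit 0) (XT.nd (nat_lit 156) (nat_lit 1140) (nat_lit 0) (XT.nd (nat_lit 78) (nat_lit 988) (nat_lit 0) (XT.lf (nat_lit 0) (nat_lit 9785004928) (nat_lit 988) (nat_lit 85989150) (nat_lit 76) (nat_lit 1466119058) (nat_lit 161) (nat_lit 5) (nat_lit 174) (nat_lit 5) (nat_lit 162) (nat_lit 5) (nat_lit 301) (nat_lit 284) (nat_lit 195)) (XT.lf (nat_lit 0) (nat_lit 5050689520) (nat_lit 988) (nat_lit 6054910445) (nat_lit 1064) (nat_lit 407770171) (nat_lit 148) (nat_lit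 5) (nat_lit 161) (nat_lit 5) (nat_lit 162) (nat_lit 5) (nat_lit 302) (nat_lit 284) (nat_lit 194))) (XT.nd (nat_lit 78) (nat_lit 1064) (nat_lit 0) (XT.lf (nat_lit 0) (nat_lit 736544914) (nat_lit 1064) (nat_lit 1376105089) (nat_lit 76) (nat_lit 9582674930) (nat_lit 147) (nat_lit 5) (nat_lit 161) (nat_lit 5) (nat_lit 148) (nat_lit 5) (nat_lit 303) (nat_lit 284) (nat_lit 193)) (XT.nd (nat_lit 78) (nat_lit 0) (nat_lit 0) (XT.lf (nat_lit 0) (nat_lit 1944232812) (nat_lit 1140) (nat_lit 7982322264) (nat_lit 76) (nat_lit 1954996553) (nat_lit 133) (nat_lit 5) (nat_lit 148) (nat_lit 5) (nat_lit 134) (nat_lit 5) (nat_lit 304) (nat_lit 284) (nat_lit 192)) (XT.lf (nat_lit 0) (nat_lit 3203943719) (nat_lit 1140) (nat_lit 2749993705) (nat_lit 76) (nat_lit 6119003978) (nat_lit 133) (nat_lit 5) (nat_lit 148) (nat_lit 5) (nat_lit 134) (nat_lit 5) (nat_lit 305) (nat_lit 284) (nat_lit 191))))) (XT.nd (nat_lit 234)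 (nat_lit 532) (nat_lit 0) (XT.nd (nat_lit 78) (nat_lit 532) (nat_lit 0) (XT.lf (nat_lit 0) (nat_lit 2674975737) (nat_lit 608) (nat_lit 1833583232) (nat_lit 684) (nat_lit 7761349097) (nat_lit 125) (nat_lit 5) (nat_lit 133) (nat_lit 5) (nat_lit 134) (nat_lit 5) (nat_lit 306) (nat_lit 284) (nat_lit 190)) (XT.nd (nat_lit 78) (nat_lit 532) (nat_lit 0) (XT.lf (nat_lit 0) (nat_lit 5885328981) (nat_lit 684) (nat_lit 4193306013) (nat_lit 76) (nat_lit 2393205421) (nat_lit 125) (nat_lit 5) (nat_lit 134) (nat_lit 5) (nat_lit 126) (nat_lit 5) (nat_lit 307) (nat_lit 284) (nat_lit 189)) (XT.lf (nat_lit 0) (nat_lit 1362316171) (nat_lit 532) (nat_lit 5954667425) (nat_lit 608) (nat_lit 5362485494) (nat_lit 118) (nat_lit 5) (nat_lit 125) (nat_lit 5) (nat_lit 126) (nat_lit 5) (nat_lit 308) (nat_lit 284) (nat_lit 188)))) (XT.nd (nat_lit 78) (nat_lit 532) (nat_lit 0) (XT.lf (nat_lit 0) (nat_lit 7154244948) (nat_lit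 532) (nat_lit 1662376591) (nat_lit 608) (nat_lit 4075998543) (nat_lit 118) (nat_lit 5) (nat_lit 125) (nat_lit 5) (nat_lit 126) (nat_lit 5) (nat_lit 309) (nat_lit 284) (nat_lit 187)) (XT.nd (nat_lit 78) (nat_lit 532) (nat_lit 0) (XT.lf (nat_lit 0) (nat_lit 10370969714) (nat_lit 608) (nat_lit 35154134) (nat_lit 76) (nat_lit 2705793292) (nat_lit 118) (nat_lit 5) (nat_lit 126) (nat_lit 5) (nat_lit 119) (nat_lit 5) (nat_lit 310) (nat_lit 284) (nat_lit 186)) (XT.lf (nat_lit 0) (nat_lit 5922346386) (nat_lit 532) (nat_lit 6106682518) (nat_lit 608) (nat_lit 1307093703) (nat_lit 111) (nat_lit 5) (nat_lit 118) (nat_lit 5) (nat_lit 119) (nat_lit 5) (nat_lit 311) (nat_lit 284) (nat_lit 185))))))) (XT.nd (nat_lit 858) (nat_lit 1748) (nat_lit 0) (XT.nd (nat_lit 390) (nat_lit 1292) (nat_lit 0) (XT.nd (nat_lit 156) (nat_lit 456) (nat_lit 0) (XT.nd (nat_lit 78) (nat_lit 456) (nat_lit 0) (XT.lf (nat_lit 0) (nat_lit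 150638633) (nat_lit 608) (nat_lit 1525516239) (nat_lit 76) (nat_lit 11891364635) (nat_lit 110) (nat_lit 5) (nat_lit 118) (nat_lit 5) (nat_lit 111) (nat_lit 5) (nat_lit 312) (nat_lit 284) (nat_lit 184)) (XT.lf (nat_lit 0) (nat_lit 1682664719) (nat_lit 532) (nat_lit 9232410241) (nat_lit 76) (nat_lit 2888728475) (nat_lit 104) (nat_lit 5) (nat_lit 111) (nat_lit 5) (nat_lit 105) (nat_lit 5) (nat_lit 313) (nat_lit 284) (nat_lit 183))) (XT.nd (nat_lit 78) (nat_lit 456) (nat_lit 0) (XT.lf (nat_lit 0) (nat_lit 3277400751) (nat_lit 532) (nat_lit 3196985048) (nat_lit 76) (nat_lit 7572324846) (nat_lit 104) (nat_lit 5) (nat_lit 111) (nat_lit 5) (nat_lit 105) (nat_lit 5) (nat_lit 314) (nat_lit 284) (nat_lit 182)) (XT.nd (nat_lit 78) (nat_lit 0) (nat_lit 0) (XT.lf (nat_lit 0) (nat_lit 3063749142) (nat_lit 456) (nat_lit 1870725326) (nat_lit 532) (nat_lit 9362031889) (nat_lit 98) (nat_lit 5) (nat_lit 104) (nat_lit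 5) (nat_lit 105) (nat_lit 5) (nat_lit 315) (nat_lit 284) (nat_lit 181)) (XT.lf (nat_lit 0) (nat_lit 6686787303) (nat_lit 532) (nat_lit 5018759314) (nat_lit 76) (nat_lit 2846918620) (nat_lit 98) (nat_lit 5) (nat_lit 105) (nat_lit 5) (nat_lit 99) (nat_lit 5) (nat_lit 316) (nat_lit 284) (nat_lit 180))))) (XT.nd (nat_lit 234) (nat_lit 912) (nat_lit 0) (XT.nd (nat_lit 78) (nat_lit 0) (nat_lit 0) (XT.lf (nat_lit 0) (nat_lit 1374566603) (nat_lit 380) (nat_lit 7134591278) (nat_lit 456) (nat_lit 6306454430) (nat_lit 93) (nat_lit 5) (nat_lit 98) (nat_lit 5) (nat_lit 99) (nat_lit 5) (nat_lit 317) (nat_lit 284) (nat_lit 179)) (XT.nd (nat_lit 78) (nat_lit 0) (nat_lit 0) (XT.lf (nat_lit 0) (nat_lit 8047330220) (nat_lit 380) (nat_lit 2375570583) (nat_lit 456) (nat_lit 4662685046) (nat_lit 93) (nat_lit 5) (nat_lit 98) (nat_lit 5) (nat_lit 99) (nat_lit 5) (nat_lit 318) (nat_lit 284) (nat_lit 178)) (XT.lf (nat_lit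 0) (nat_lit 12404756534) (nat_lit 456) (nat_lit 482890687) (nat_lit 76) (nat_lit 2475722476) (nat_lit 93) (nat_lit 5) (nat_lit 99) (nat_lit 5) (nat_lit 94) (nat_lit 5) (nat_lit 319) (nat_lit 284) (nat_lit 177)))) (XT.nd (nat_lit 78) (nat_lit 456) (nat_lit 0) (XT.lf (nat_lit 0) (nat_lit 6354838684) (nat_lit 456) (nat_lit 8162648918) (nat_lit 532) (nat_lit 1129888060) (nat_lit 87) (nat_lit 5) (nat_lit 93) (nat_lit 5) (nat_lit 94) (nat_lit 5) (nat_lit 320) (nat_lit 284) (nat_lit 176)) (XT.nd (nat_lit 78) (nat_lit 380) (nat_lit 0) (XT.lf (nat_lit 0) (nat_lit 730814069) (nat_lit 532) (nat_lit 2554377127) (nat_lit 76) (nat_lit 12654767977) (nat_lit 86) (nat_lit 5) (nat_lit 93) (nat_lit 5) (nat_lit 87) (nat_lit 5) (nat_lit 321) (nat_lit 284) (nat_lit 175)) (XT.lf (nat_lit 0) (nat_lit 2671884257) (nat_lit 456) (nat_lit 11810315938) (nat_lit 76) (nat_lit 1757395225) (nat_lit 81) (nat_lit 5) (nat_lit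 87) (nat_lit 5) (nat_lit 82) (nat_lit 5) (nat_lit 322) (nat_lit 284) (nat_lit 174)))))) (XT.nd (nat_lit 468) (nat_lit 1064) (nat_lit 0) (XT.nd (nat_lit 234) (nat_lit 304) (nat_lit 0) (XT.nd (nat_lit 78) (nat_lit 380) (nat_lit 0) (XT.lf (nat_lit 0) (nat_lit 4717257161) (nat_lit 456) (nat_lit 4920155573) (nat_lit 76) (nat_lit 6909453612) (nat_lit 81) (nat_lit 5) (nat_lit 87) (nat_lit 5) (nat_lit 82) (nat_lit 5) (nat_lit 323) (nat_lit 284) (nat_lit 173)) (XT.nd (nat_lit 78) (nat_lit 0) (nat_lit 0) (XT.lf (nat_lit 0) (nat_lit 2205440220) (nat_lit 380) (nat_lit 4627609690) (nat_lit 456) (nat_lit 10030060633) (nat_lit 76) (nat_lit 5) (nat_lit 81) (nat_lit 5) (nat_lit 82) (nat_lit 5) (nat_lit 324) (nat_lit 284) (nat_lit 172)) (XT.lf (nat_lit 0) (nat_lit 9055665424) (nat_lit 456) (nat_lit 7561827316) (nat_lit 76) (nat_lit 570074976) (nat_lit 76) (nat_lit 5) (nat_lit 82) (nat_lit 5) (nat_lit 77) (nat_lit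 5) (nat_lit 325) (nat_lit 284) (nat_lit 171)))) (XT.nd (nat_lit 78) (nat_lit 304) (nat_lit 0) (XT.lf (nat_lit 0) (nat_lit 11379179787) (nat_lit 456) (nat_lit 313031311) (nat_lit 76) (nat_lit 5828546254) (nat_lit 76) (nat_lit 5) (nat_lit 82) (nat_lit 5) (nat_lit 77) (nat_lit 5) (nat_lit 326) (nat_lit 284) (nat_lit 170)) (XT.nd (nat_lit 78) (nat_lit 0) (nat_lit 0) (XT.lf (nat_lit 0) (nat_lit 7281625751) (nat_lit 304) (nat_lit 6549509529) (nat_lit 380) (nat_lit 4031069944) (nat_lit 72) (nat_lit 5) (nat_lit 76) (nat_lit 5) (nat_lit 77) (nat_lit 5) (nat_lit 327) (nat_lit 284) (nat_lit 169)) (XT.lf (nat_lit 0) (nat_lit 15096980044) (nat_lit 304) (nat_lit 1251768270) (nat_lit 380) (nat_lit 1865409156) (nat_lit 72) (nat_lit 5) (nat_lit 76) (nat_lit 5) (nat_lit 77) (nat_lit 5) (nat_lit 328) (nat_lit 284) (nat_lit 168))))) (XT.nd (nat_lit 234) (nat_lit 304) (nat_lit 0) (XT.nd (nat_lit 78) (nat_lit 304)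 (nat_lit 0) (XT.lf (nat_lit 0) (nat_lit 432737485) (nat_lit 456) (nat_lit 13972614297) (nat_lit 76) (nat_lit 4168994426) (nat_lit 66) (nat_lit 5) (nat_lit 72) (nat_lit 5) (nat_lit 67) (nat_lit 5) (nat_lit 329) (nat_lit 284) (nat_lit 167)) (XT.nd (nat_lit 78) (nat_lit 304) (nat_lit 0) (XT.lf (nat_lit 0) (nat_lit 2795813494) (nat_lit 456) (nat_lit 6373052663) (nat_lit 76) (nat_lit 9774937906) (nat_lit 66) (nat_lit 5) (nat_lit 72) (nat_lit 5) (nat_lit 67) (nat_lit 5) (nat_lit 330) (nat_lit 284) (nat_lit 166)) (XT.lf (nat_lit 0) (nat_lit 1469987177) (nat_lit 304) (nat_lit 3763531879) (nat_lit 380) (nat_lit 14090735718) (nat_lit 62) (nat_lit 5) (nat_lit 66) (nat_lit 5) (nat_lit 67) (nat_lit 5) (nat_lit 331) (nat_lit 284) (nat_lit 165)))) (XT.nd (nat_lit 78) (nat_lit 304) (nat_lit 0) (XT.lf (nat_lit 0) (nat_lit 7816445707) (nat_lit 380) (nat_lit 10066570536) (nat_lit 76) (nat_lit 1830960684) (nat_lit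 62) (nat_lit 5) (nat_lit 67) (nat_lit 5) (nat_lit 63) (nat_lit 5) (nat_lit 332) (nat_lit 284) (nat_lit 164)) (XT.nd (nat_lit 78) (nat_lit 304) (nat_lit 0) (XT.lf (nat_lit 0) (nat_lit 10504177815) (nat_lit 380) (nat_lit 2095479780) (nat_lit 76) (nat_lit 7514933640) (nat_lit 62) (nat_lit 5) (nat_lit 67) (nat_lit 5) (nat_lit 63) (nat_lit 5) (nat_lit 333) (nat_lit 284) (nat_lit 163)) (XT.lf (nat_lit 0) (nat_lit 6223591763) (nat_lit 304) (nat_lit 7099119719) (nat_lit 380) (nat_lit 7203026836) (nat_lit 58) (nat_lit 5) (nat_lit 62) (nat_lit 5) (nat_lit 63) (nat_lit 5) (nat_lit 334) (nat_lit 284) (nat_lit 162))))))))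
noncomputable def xc177 : XT := (XT.nd (nat_lit 1716) (nat_lit 1064) (nat_lit 0) (XT.nd (nat_lit 858) (nat_lit 912) (nat_lit 0) (XT.nd (nat_lit 390) (nat_lit 532) (nat_lit 0) (XT.nd (nat_lit 156) (nat_lit 380) (nat_lit 0) (XT.nd (nat_lit 78) (nat_lit 228) (nat_lit 0) (XT.lf (nat_lit 0) (nat_lit 14822717604) (nat_lit 304) (nat_lit 1414749743) (nat_lit 380) (nat_lit 4711421349) (nat_lit 58) (nat_lit 5) (nat_lit 62) (nat_lit 5) (nat_lit 63) (nat_lit 5) (nat_lit 335) (nat_lit 284) (nat_lit 161)) (XT.lf (nat_lit 0) (nat_lit 2284606200) (nat_lit 228) (nat_lit 17010456847) (nat_lit 304) (nat_lit 2088026944) (nat_lit 55) (nat_lit 5) (nat_lit 58) (nat_lit 5) (nat_lit 59) (nat_lit 5) (nat_lit 336) (nat_lit 284) (nat_lit 160))) (XT.nd (nat_lit 78) (nat_lit 304) (nat_lit 0) (XT.lf (nat_lit 0) (nat_lit 669367496) (nat_lit 304) (nat_lit 10788152802) (nat_lit 76) (nat_lit 10370618784) (nat_lit 54) (nat_lit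 5) (nat_lit 58) (nat_lit 5) (nat_lit 55) (nat_lit 5) (nat_lit 337) (nat_lit 284) (nat_lit 159)) (XT.nd (nat_lit 78) (nat_lit 304) (nat_lit 0) (XT.lf (nat_lit 0) (nat_lit 3458583166) (nat_lit 304) (nat_lit 2261278551) (nat_lit 76) (nat_lit 16566342486) (nat_lit 54) (nat_lit 5) (nat_lit 58) (nat_lit 5) (nat_lit 55) (nat_lit 5) (nat_lit 338) (nat_lit 284) (nat_lit 158)) (XT.lf (nat_lit 0) (nat_lit 6389050463) (nat_lit 380) (nat_lit 16119585190) (nat_lit 76) (nat_lit 247664648) (nat_lit 50) (nat_lit 5) (nat_lit 55) (nat_lit 5) (nat_lit 51) (nat_lit 5) (nat_lit 339) (nat_lit 284) (nat_lit 157))))) (XT.nd (nat_lit 234) (nat_lit 304) (nat_lit 0) (XT.nd (nat_lit 78) (nat_lit 228) (nat_lit 0) (XT.lf (nat_lit 0) (nat_lit 9478562625) (nat_lit 380) (nat_lit 7460537882) (nat_lit 76) (nat_lit 6299280651) (nat_lit 50) (nat_lit 5) (nat_lit 55) (nat_lit 5) (nat_lit 51) (nat_lit 5) (nat_lit 340) (nat_lit 284)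 (nat_lit 156)) (XT.nd (nat_lit 78) (nat_lit 0) (nat_lit 0) (XT.lf (nat_lit 0) (nat_lit 1475552010) (nat_lit 228) (nat_lit 11191079418) (nat_lit 304) (nat_lit 11068132217) (nat_lit 47) (nat_lit 5) (nat_lit 50) (nat_lit 5) (nat_lit 51) (nat_lit 5) (nat_lit 341) (nat_lit 284) (nat_lit 155)) (XT.lf (nat_lit 0) (nat_lit 10821249106) (nat_lit 228) (nat_lit 5196249806) (nat_lit 304) (nat_lit 8226538892) (nat_lit 47) (nat_lit 5) (nat_lit 50) (nat_lit 5) (nat_lit 51) (nat_lit 5) (nat_lit 342) (nat_lit 284) (nat_lit 154)))) (XT.nd (nat_lit 78) (nat_lit 304) (nat_lit 0) (XT.lf (nat_lit 0) (nat_lit 19470325571) (nat_lit 304) (nat_lit 4341977773) (nat_lit 76) (nat_lit 956258310) (nat_lit 47) (nat_lit 5) (nat_lit 51) (nat_lit 5) (nat_lit 48) (nat_lit 5) (nat_lit 343) (nat_lit 284) (nat_lit 153)) (XT.nd (nat_lit 78) (nat_lit 76) (nat_lit 0) (XT.lf (nat_lit 0) (nat_lit 5047330690) (nat_lit 228) (nat_lit 18071632517)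 (nat_lit 304) (nat_lit 2187105268) (nat_lit 44) (nat_lit 5) (nat_lit 47) (nat_lit 5) (nat_lit 48) (nat_lit 5) (nat_lit 344) (nat_lit 284) (nat_lit 152)) (XT.lf (nat_lit 0) (nat_lit 1034079043) (nat_lit 304) (nat_lit 11072303488) (nat_lit 76) (nat_lit 13751940661) (nat_lit 43) (nat_lit 5) (nat_lit 47) (nat_lit 5) (nat_lit 44) (nat_lit 5) (nat_lit 345) (nat_lit 284) (nat_lit 151)))))) (XT.nd (nat_lit 390) (nat_lit 456) (nat_lit 0) (XT.nd (nat_lit 156) (nat_lit 228) (nat_lit 0) (XT.nd (nat_lit 78) (nat_lit 228) (nat_lit 0) (XT.lf (nat_lit 0) (nat_lit 4300457072) (nat_lit 304) (nat_lit 1642638875) (nat_lit 76) (nat_lit 20483637313) (nat_lit 43) (nat_lit 5) (nat_lit 47) (nat_lit 5) (nat_lit 44) (nat_lit 5) (nat_lit 346) (nat_lit 284) (nat_lit 150)) (XT.lf (nat_lit 0) (nat_lit 7741222325) (nat_lit 304) (nat_lit 18794782211) (nat_lit 76) (nat_lit 473911693) (nat_lit 40) (nat_lit 5) (nat_lit 44) (nat_lit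 5) (nat_lit 41) (nat_lit 5) (nat_lit 347) (nat_lit 284) (nat_lit 149))) (XT.nd (nat_lit 78) (nat_lit 228) (nat_lit 0) (XT.lf (nat_lit 0) (nat_lit 11353621979) (nat_lit 304) (nat_lit 9277282121) (nat_lit 76) (nat_lit 6977650354) (nat_lit 40) (nat_lit 5) (nat_lit 44) (nat_lit 5) (nat_lit 41) (nat_lit 5) (nat_lit 348) (nat_lit 284) (nat_lit 148)) (XT.nd (nat_lit 78) (nat_lit 0) (nat_lit 0) (XT.lf (nat_lit 0) (nat_lit 525818260) (nat_lit 228) (nat_lit 14546656300) (nat_lit 304) (nat_lit 13152746596) (nat_lit 37) (nat_lit 5) (nat_lit 40) (nat_lit 5) (nat_lit 41) (nat_lit 5) (nat_lit 349) (nat_lit 284) (nat_lit 147)) (XT.lf (nat_lit 0) (nat_lit 10803101379) (nat_lit 228) (nat_lit 8186606316) (nat_lit 304) (nat_lit 9868087131) (nat_lit 37) (nat_lit 5) (nat_lit 40) (nat_lit 5) (nat_lit 41) (nat_lit 5) (nat_lit 350) (nat_lit 284) (nat_lit 146))))) (XT.nd (nat_lit 234) (nat_lit 228) (nat_lit 0) (XT.nd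 (nat_lit 78) (nat_lit 228) (nat_lit 0) (XT.lf (nat_lit 0) (nat_lit 21378911281) (nat_lit 228) (nat_lit 1638879182) (nat_lit 304) (nat_lit 6491766348) (nat_lit 37) (nat_lit 5) (nat_lit 40) (nat_lit 5) (nat_lit 41) (nat_lit 5) (nat_lit 351) (nat_lit 284) (nat_lit 145)) (XT.nd (nat_lit 78) (nat_lit 76) (nat_lit 0) (XT.lf (nat_lit 0) (nat_lit 2072814515) (nat_lit 152) (nat_lit 25156399106) (nat_lit 228) (nat_lit 2949793858) (nat_lit 35) (nat_lit 5) (nat_lit 37) (nat_lit 5) (nat_lit 38) (nat_lit 5) (nat_lit 352) (nat_lit 284) (nat_lit 144)) (XT.lf (nat_lit 0) (nat_lit 777473022) (nat_lit 228) (nat_lit 18150509651) (nat_lit 76) (nat_lit 11937587794) (nat_lit 34) (nat_lit 5) (nat_lit 37) (nat_lit 5) (nat_lit 35) (nat_lit 5) (nat_lit 353) (nat_lit 284) (nat_lit 143)))) (XT.nd (nat_lit 78) (nat_lit 228) (nat_lit 0) (XT.lf (nat_lit 0) (nat_lit 4550979918) (nat_lit 228) (nat_lit 7934804894) (nat_lit 76)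 (nat_lit 19086267907) (nat_lit 34) (nat_lit 5) (nat_lit 37) (nat_lit 5) (nat_lit 35) (nat_lit 5) (nat_lit 354) (nat_lit 284) (nat_lit 142)) (XT.nd (nat_lit 78) (nat_lit 0) (nat_lit 0) (XT.lf (nat_lit 0) (nat_lit 2629514165) (nat_lit 228) (nat_lit 5827347504) (nat_lit 304) (nat_lit 23842302240) (nat_lit 31) (nat_lit 5) (nat_lit 34) (nat_lit 5) (nat_lit 35) (nat_lit 5) (nat_lit 355) (nat_lit 284) (nat_lit 141)) (XT.lf (nat_lit 0) (nat_lit 12564702583) (nat_lit 304) (nat_lit 19392207142) (nat_lit 76) (nat_lit 1088644511) (nat_lit 31) (nat_lit 5) (nat_lit 35) (nat_lit 5) (nat_lit 32) (nat_lit 5) (nat_lit 356) (nat_lit 284) (nat_lit 140))))))) (XT.nd (nat_lit 858) (nat_lit 532) (nat_lit 0) (XT.nd (nat_lit 390) (nat_lit 380) (nat_lit 0) (XT.nd (nat_lit 156) (nat_lit 0) (nat_lit 0) (XT.nd (nat_lit 78) (nat_lit 152) (nat_lit 0) (XT.lf (nat_lit 0) (nat_lit 16847605641) (nat_lit 304) (nat_lit 8873107271)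 (nat_lit 76) (nat_lit 8092077565) (nat_lit 31) (nat_lit 5) (nat_lit 35) (nat_lit 5) (nat_lit 32) (nat_lit 5) (nat_lit 357) (nat_lit 284) (nat_lit 139)) (XT.lf (nat_lit 0) (nat_lit 1991723034) (nat_lit 152) (nat_lit 19280719784) (nat_lit 228) (nat_lit 13330206327) (nat_lit 29) (nat_lit 5) (nat_lit 31) (nat_lit 5) (nat_lit 32) (nat_lit 5) (nat_lit 358) (nat_lit 284) (nat_lit 138))) (XT.nd (nat_lit 78) (nat_lit 0) (nat_lit 0) (XT.lf (nat_lit 0) (nat_lit 13355765372) (nat_lit 152) (nat_lit 12558245181) (nat_lit 228) (nat_lit 9499681951) (nat_lit 29) (nat_lit 5) (nat_lit 31) (nat_lit 5) (nat_lit 32) (nat_lit 5) (nat_lit 359) (nat_lit 284) (nat_lit 137)) (XT.nd (nat_lit 78) (nat_lit 0) (nat_lit 0) (XT.lf (nat_lit 0) (nat_lit 25052357255) (nat_lit 152) (nat_lit 5637016082) (nat_lit 228) (nat_lit 5559865633) (nat_lit 29) (nat_lit 5) (nat_lit 31) (nat_lit 5) (nat_lit 32) (nat_lit 5) (nat_lit 360) (nat_lit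 284) (nat_lit 136)) (XT.lf (nat_lit 0) (nat_lit 35617017143) (nat_lit 228) (nat_lit 32612952) (nat_lit 76) (nat_lit 1459959138) (nat_lit 29) (nat_lit 5) (nat_lit 32) (nat_lit 5) (nat_lit 30) (nat_lit 5) (nat_lit 361) (nat_lit 284) (nat_lit 135))))) (XT.nd (nat_lit 234) (nat_lit 152) (nat_lit 0) (XT.nd (nat_lit 78) (nat_lit 0) (nat_lit 0) (XT.lf (nat_lit 0) (nat_lit 2808156007) (nat_lit 228) (nat_lit 26388733396) (nat_lit 76) (nat_lit 8793169301) (nat_lit 26) (nat_lit 5) (nat_lit 29) (nat_lit 5) (nat_lit 27) (nat_lit 5) (nat_lit 362) (nat_lit 284) (nat_lit 134)) (XT.nd (nat_lit 78) (nat_lit 0) (nat_lit 0) (XT.lf (nat_lit 0) (nat_lit 7203090082) (nat_lit 228) (nat_lit 15334821088) (nat_lit 76) (nat_lit 16358739578) (nat_lit 26) (nat_lit 5) (nat_lit 29) (nat_lit 5) (nat_lit 27) (nat_lit 5) (nat_lit 363) (nat_lit 284) (nat_lit 133)) (XT.lf (nat_lit 0) (nat_lit 11724872925) (nat_lit 228) (nat_lit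 3957114476) (nat_lit 76) (nat_lit 24148610243) (nat_lit 26) (nat_lit 5) (nat_lit 29) (nat_lit 5) (nat_lit 27) (nat_lit 5) (nat_lit 364) (nat_lit 284) (nat_lit 132)))) (XT.nd (nat_lit 78) (nat_lit 0) (nat_lit 0) (XT.lf (nat_lit 0) (nat_lit 7908654457) (nat_lit 152) (nat_lit 8544823975) (nat_lit 228) (nat_lit 24336956347) (nat_lit 24) (nat_lit 5) (nat_lit 26) (nat_lit 5) (nat_lit 27) (nat_lit 5) (nat_lit 365) (nat_lit 284) (nat_lit 131)) (XT.nd (nat_lit 78) (nat_lit 0) (nat_lit 0) (XT.lf (nat_lit 0) (nat_lit 20203992681) (nat_lit 152) (nat_lit 1155123951) (nat_lit 228) (nat_lit 20418901866) (nat_lit 24) (nat_lit 5) (nat_lit 26) (nat_lit 5) (nat_lit 27) (nat_lit 5) (nat_lit 366) (nat_lit 284) (nat_lit 130)) (XT.lf (nat_lit 0) (nat_lit 26469314816) (nat_lit 228) (nat_lit 9996522294) (nat_lit 76) (nat_lit 6327677404) (nat_lit 24) (nat_lit 5) (nat_lit 27) (nat_lit 5) (nat_lit 25) (nat_lit 5) (nat_lit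 367) (nat_lit 284) (nat_lit 129)))))) (XT.nd (nat_lit 468) (nat_lit 152) (nat_lit 0) (XT.nd (nat_lit 234) (nat_lit 228) (nat_lit 0) (XT.nd (nat_lit 78) (nat_lit 0) (nat_lit 0) (XT.lf (nat_lit 0) (nat_lit 1947669663) (nat_lit 152) (nat_lit 29810773636) (nat_lit 228) (nat_lit 12080269701) (nat_lit 22) (nat_lit 5) (nat_lit 24) (nat_lit 5) (nat_lit 25) (nat_lit 5) (nat_lit 368) (nat_lit 284) (nat_lit 128)) (XT.nd (nat_lit 78) (nat_lit 0) (nat_lit 0) (XT.lf (nat_lit 0) (nat_lit 14447971081) (nat_lit 152) (nat_lit 22854748614) (nat_lit 228) (nat_lit 7609659662) (nat_lit 22) (nat_lit 5) (nat_lit 24) (nat_lit 5) (nat_lit 25) (nat_lit 5) (nat_lit 369) (nat_lit 284) (nat_lit 127)) (XT.lf (nat_lit 0) (nat_lit 27316354157) (nat_lit 152) (nat_lit 15692629236) (nat_lit 228) (nat_lit 3009408498) (nat_lit 22) (nat_lit 5) (nat_lit 24) (nat_lit 5) (nat_lit 25) (nat_lit 5) (nat_lit 370) (nat_lit 284) (nat_lit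 126)))) (XT.nd (nat_lit 78) (nat_lit 152) (nat_lit 0) (XT.lf (nat_lit 0) (nat_lit 1690852153) (nat_lit 228) (nat_lit 6610230896) (nat_lit 76) (nat_lit 38856136664) (nat_lit 21) (nat_lit 5) (nat_lit 24) (nat_lit 5) (nat_lit 22) (nat_lit 5) (nat_lit 371) (nat_lit 284) (nat_lit 125)) (XT.nd (nat_lit 78) (nat_lit 0) (nat_lit 0) (XT.lf (nat_lit 0) (nat_lit 5923505423) (nat_lit 152) (nat_lit 600931612) (nat_lit 228) (nat_lit 41803302827) (nat_lit 19) (nat_lit 5) (nat_lit 21) (nat_lit 5) (nat_lit 22) (nat_lit 5) (nat_lit 372) (nat_lit 284) (nat_lit 124)) (XT.lf (nat_lit 0) (nat_lit 11636799278) (nat_lit 228) (nat_lit 30640396102) (nat_lit 76) (nat_lit 7252172435) (nat_lit 19) (nat_lit 5) (nat_lit 22) (nat_lit 5) (nat_lit 20) (nat_lit 5) (nat_lit 373) (nat_lit 284) (nat_lit 123))))) (XT.nd (nat_lit 234) (nat_lit 0) (nat_lit 0) (XT.nd (nat_lit 78) (nat_lit 152) (nat_lit 0) (XT.lf (nat_lit 0) (nat_lit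 16904497690) (nat_lit 228) (nat_lit 18536055136) (nat_lit 76) (nat_lit 15326437961) (nat_lit 19) (nat_lit 5) (nat_lit 22) (nat_lit 5) (nat_lit 20) (nat_lit 5) (nat_lit 374) (nat_lit 284) (nat_lit 122)) (XT.nd (nat_lit 78) (nat_lit 152) (nat_lit 0) (XT.lf (nat_lit 0) (nat_lit 22326358592) (nat_lit 228) (nat_lit 6074858411) (nat_lit 76) (nat_lit 23640646489) (nat_lit 19) (nat_lit 5) (nat_lit 22) (nat_lit 5) (nat_lit 20) (nat_lit 5) (nat_lit 375) (nat_lit 284) (nat_lit 121)) (XT.lf (nat_lit 0) (nat_lit 6888501981) (nat_lit 152) (nat_lit 21084834045) (nat_lit 228) (nat_lit 25379777375) (nat_lit 17) (nat_lit 5) (nat_lit 19) (nat_lit 5) (nat_lit 20) (nat_lit 5) (nat_lit 376) (nat_lit 284) (nat_lit 120)))) (XT.nd (nat_lit 78) (nat_lit 0) (nat_lit 0) (XT.lf (nat_lit 0) (nat_lit 20359259831) (nat_lit 152) (nat_lit 13488102731) (nat_lit 228) (nat_lit 20854613755) (nat_lit 17) (nat_lit 5) (nat_lit 19)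 (nat_lit 5) (nat_lit 20) (nat_lit 5) (nat_lit 377) (nat_lit 284) (nat_lit 119)) (XT.nd (nat_lit 78) (nat_lit 0) (nat_lit 0) (XT.lf (nat_lit 0) (nat_lit 34228284110) (nat_lit 152) (nat_lit 5665729298) (nat_lit 228) (nat_lit 16197404173) (nat_lit 17) (nat_lit 5) (nat_lit 19) (nat_lit 5) (nat_lit 20) (nat_lit 5) (nat_lit 378) (nat_lit 284) (nat_lit 118)) (XT.lf (nat_lit 0) (nat_lit 46141537742) (nat_lit 228) (nat_lit 9037923583) (nat_lit 76) (nat_lit 2342500973) (nat_lit 17) (nat_lit 5) (nat_lit 20) (nat_lit 5) (nat_lit 18) (nat_lit 4) (nat_lit 379) (nat_lit 284) (nat_lit 117))))))))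
noncomputable def xc178 : XT := (XT.nd (nat_lit 34164) (nat_lit 0) (nat_lit 6080) (XT.nd (nat_lit 33306) (nat_lit 0) (nat_lit 10944) (XT.nd (nat_lit 390) (nat_lit 152) (nat_lit 0) (XT.nd (nat_lit 156) (nat_lit 76) (nat_lit 0) (XT.nd (nat_lit 78) (nat_lit 0) (nat_lit 0) (XT.lf (nat_lit 0) (nat_lit 4192144450) (nat_lit 76) (nat_lit 48477326634) (nat_lit 152) (nat_lit 6323167078) (nat_lit 16) (nat_lit 5) (nat_lit 17) (nat_lit 5) (nat_lit 18) (nat_lit 4) (nat_lit 380) (nat_lit 284) (nat_lit 116)) (XT.lf (nat_lit 0) (nat_lit 17998832394) (nat_lit 76) (nat_lit 41482310808) (nat_lit 152) (nat_lit 1023658254) (nat_lit 16) (nat_lit 5) (nat_lit 17) (nat_lit 5) (nat_lit 18) (nat_lit 4) (nat_lit 381) (nat_lit 284) (nat_lit 115))) (XT.nd (nat_lit 78) (nat_lit 0) (nat_lit 0) (XT.lf (nat_lit 0) (nat_lit 4344993359) (nat_lit 152) (nat_lit 29890697734) (nat_lit 76) (nat_lit 27825462673) (nat_lit 15) (nat_lit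 5) (nat_lit 17) (nat_lit 5) (nat_lit 16) (nat_lit 5) (nat_lit 382) (nat_lit 284) (nat_lit 114)) (XT.nd (nat_lit 78) (nat_lit 0) (nat_lit 0) (XT.lf (nat_lit 0) (nat_lit 9850923349) (nat_lit 152) (nat_lit 16912403207) (nat_lit 76) (nat_lit 36900666053) (nat_lit 15) (nat_lit 5) (nat_lit 17) (nat_lit 5) (nat_lit 16) (nat_lit 5) (nat_lit 383) (nat_lit 284) (nat_lit 113)) (XT.lf (nat_lit 0) (nat_lit 15518917983) (nat_lit 152) (nat_lit 3549905197) (nat_lit 76) (nat_lit 46246190549) (nat_lit 15) (nat_lit 5) (nat_lit 17) (nat_lit 5) (nat_lit 16) (nat_lit 5) (nat_lit 384) (nat_lit 284) (nat_lit 112))))) (XT.nd (nat_lit 234) (nat_lit 0) (nat_lit 0) (XT.nd (nat_lit 78) (nat_lit 0) (nat_lit 0) (XT.lf (nat_lit 0) (nat_lit 10411640879) (nat_lit 152) (nat_lit 11042372058) (nat_lit 228) (nat_lit 45558644336) (nat_lit 13) (nat_lit 5) (nat_lit 15) (nat_lit 5) (nat_lit 16) (nat_lit 5) (nat_lit 385) (nat_lit 284)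 (nat_lit 111)) (XT.nd (nat_lit 78) (nat_lit 0) (nat_lit 0) (XT.lf (nat_lit 0) (nat_lit 24859856404) (nat_lit 152) (nat_lit 2740169327) (nat_lit 228) (nat_lit 41160221943) (nat_lit 13) (nat_lit 5) (nat_lit 15) (nat_lit 5) (nat_lit 16) (nat_lit 5) (nat_lit 386) (nat_lit 284) (nat_lit 110)) (XT.lf (nat_lit 0) (nat_lit 33983365184) (nat_lit 228) (nat_lit 30879481597) (nat_lit 76) (nat_lit 5695834015) (nat_lit 13) (nat_lit 5) (nat_lit 16) (nat_lit 5) (nat_lit 14) (nat_lit 4) (nat_lit 387) (nat_lit 284) (nat_lit 109)))) (XT.nd (nat_lit 78) (nat_lit 0) (nat_lit 0) (XT.lf (nat_lit 0) (nat_lit 40582506503) (nat_lit 228) (nat_lit 17499807411) (nat_lit 76) (nat_lit 14328027246) (nat_lit 13) (nat_lit 5) (nat_lit 16) (nat_lit 5) (nat_lit 14) (nat_lit 4) (nat_lit 388) (nat_lit 284) (nat_lit 108)) (XT.nd (nat_lit 32526) (nat_lit 0) (nat_lit 11780) (XT.lf (nat_lit 0) (nat_lit 47376875744) (nat_lit 228) (nat_lit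 3723337551) (nat_lit 76) (nat_lit 23217423631) (nat_lit 13) (nat_lit 5) (nat_lit 16) (nat_lit 5) (nat_lit 14) (nat_lit 4) (nat_lit 389) (nat_lit 284) (nat_lit 107)) (XT.lf (nat_lit 0) (nat_lit 2120740734) (nat_lit 988) (nat_lit 1239817147) (nat_lit 988) (nat_lit 1239817147) (nat_lit 168) (nat_lit 3) (nat_lit 181) (nat_lit 3) (nat_lit 181) (nat_lit 5) (nat_lit 285) (nat_lit 285) (nat_lit 210)))))) (XT.nd (nat_lit 390) (nat_lit 836) (nat_lit 0) (XT.nd (nat_lit 156) (nat_lit 0) (nat_lit 76) (XT.nd (nat_lit 78) (nat_lit 0) (nat_lit 0) (XT.lf (nat_lit 76) (nat_lit 1349212346) (nat_lit 0) (nat_lit 3729573075) (nat_lit 988) (nat_lit 4234516806) (nat_lit 169) (nat_lit 5) (nat_lit 168) (nat_lit 3) (nat_lit 181) (nat_lit 5) (nat_lit 286) (nat_lit 285) (nat_lit 209)) (XT.lf (nat_lit 76) (nat_lit 5328115851) (nat_lit 0) (nat_lit 608293284) (nat_lit 988) (nat_lit 3493053562) (nat_lit 169) (nat_lit 5) (nat_lit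 168) (nat_lit 3) (nat_lit 181) (nat_lit 5) (nat_lit 287) (nat_lit 285) (nat_lit 208))) (XT.nd (nat_lit 78) (nat_lit 0) (nat_lit 0) (XT.lf (nat_lit 0) (nat_lit 6815980851) (nat_lit 912) (nat_lit 164047927) (nat_lit 988) (nat_lit 2569277827) (nat_lit 169) (nat_lit 5) (nat_lit 181) (nat_lit 5) (nat_lit 182) (nat_lit 5) (nat_lit 288) (nat_lit 285) (nat_lit 207)) (XT.nd (nat_lit 78) (nat_lit 0) (nat_lit 0) (XT.lf (nat_lit 76) (nat_lit 3946562858) (nat_lit 0) (nat_lit 3791339074) (nat_lit 988) (nat_lit 1934447752) (nat_lit 170) (nat_lit 5) (nat_lit 169) (nat_lit 5) (nat_lit 182) (nat_lit 5) (nat_lit 289) (nat_lit 285) (nat_lit 206)) (XT.lf (nat_lit 76) (nat_lit 8168213602) (nat_lit 0) (nat_lit 493591443) (nat_lit 988) (nat_lit 1138129589) (nat_lit 170) (nat_lit 5) (nat_lit 169) (nat_lit 5) (nat_lit 182) (nat_lit 5) (nat_lit 290) (nat_lit 285) (nat_lit 205))))) (XT.nd (nat_lit 234) (nat_lit 0) (nat_lit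 76) (XT.nd (nat_lit 78) (nat_lit 988) (nat_lit 0) (XT.lf (nat_lit 76) (nat_lit 2591664395) (nat_lit 0) (nat_lit 7048152809) (nat_lit 988) (nat_lit 290816142) (nat_lit 171) (nat_lit 5) (nat_lit 170) (nat_lit 5) (nat_lit 183) (nat_lit 5) (nat_lit 291) (nat_lit 285) (nat_lit 204)) (XT.nd (nat_lit 78) (nat_lit 0) (nat_lit 0) (XT.lf (nat_lit 0) (nat_lit 565947846) (nat_lit 988) (nat_lit 3116806575) (nat_lit 1064) (nat_lit 6382542689) (nat_lit 157) (nat_lit 5) (nat_lit 170) (nat_lit 5) (nat_lit 171) (nat_lit 5) (nat_lit 292) (nat_lit 285) (nat_lit 203)) (XT.lf (nat_lit 76) (nat_lit 1237162395) (nat_lit 0) (nat_lit 191920055) (nat_lit 1064) (nat_lit 8775307926) (nat_lit 158) (nat_lit 5) (nat_lit 157) (nat_lit 5) (nat_lit 171) (nat_lit 5) (nat_lit 293) (nat_lit 285) (nat_lit 202)))) (XT.nd (nat_lit 78) (nat_lit 0) (nat_lit 0) (XT.lf (nat_lit 0) (nat_lit 2357905325) (nat_lit 988) (nat_lit 4610960145)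 (nat_lit 1064) (nat_lit 3377666421) (nat_lit 158) (nat_lit 5) (nat_lit 171) (nat_lit 5) (nat_lit 172) (nat_lit 5) (nat_lit 294) (nat_lit 285) (nat_lit 201)) (XT.nd (nat_lit 78) (nat_lit 0) (nat_lit 76) (XT.lf (nat_lit 0) (nat_lit 3292503874) (nat_lit 988) (nat_lit 142273737) (nat_lit 1064) (nat_lit 7058889970) (nat_lit 158) (nat_lit 5) (nat_lit 171) (nat_lit 5) (nat_lit 172) (nat_lit 5) (nat_lit 295) (nat_lit 285) (nat_lit 200)) (XT.lf (nat_lit 0) (nat_lit 4277900532) (nat_lit 988) (nat_lit 6114113811) (nat_lit 1064) (nat_lit 252585493) (nat_lit 159) (nat_lit 5) (nat_lit 172) (nat_lit 5) (nat_lit 173) (nat_lit 5) (nat_lit 296) (nat_lit 285) (nat_lit 199))))))) (XT.nd (nat_lit 858) (nat_lit 2432) (nat_lit 0) (XT.nd (nat_lit 390) (nat_lit 2584) (nat_lit 0) (XT.nd (nat_lit 156) (nat_lit 0) (nat_lit 76) (XT.nd (nat_lit 78) (nat_lit 0) (nat_lit 0) (XT.lf (nat_lit 0) (nat_lit 5305621843) (nat_lit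 988) (nat_lit 1504244355) (nat_lit 1064) (nat_lit 3989874376) (nat_lit 159) (nat_lit 5) (nat_lit 172) (nat_lit 5) (nat_lit 173) (nat_lit 5) (nat_lit 297) (nat_lit 285) (nat_lit 198)) (XT.lf (nat_lit 76) (nat_lit 3292093307) (nat_lit 0) (nat_lit 3081692286) (nat_lit 1064) (nat_lit 4585523169) (nat_lit 160) (nat_lit 5) (nat_lit 159) (nat_lit 5) (nat_lit 173) (nat_lit 5) (nat_lit 298) (nat_lit 285) (nat_lit 197))) (XT.nd (nat_lit 78) (nat_lit 0) (nat_lit 0) (XT.lf (nat_lit 0) (nat_lit 7475132273) (nat_lit 988) (nat_lit 2884162805) (nat_lit 1064) (nat_lit 764394537) (nat_lit 160) (nat_lit 5) (nat_lit 173) (nat_lit 5) (nat_lit 174) (nat_lit 5) (nat_lit 299) (nat_lit 285) (nat_lit 196)) (XT.nd (nat_lit 78) (nat_lit 0) (nat_lit 0) (XT.lf (nat_lit 76) (nat_lit 2035401969) (nat_lit 0) (nat_lit 6603328890) (nat_lit 1064) (nat_lit 2653452707) (nat_lit 161) (nat_lit 5) (nat_lit 160) (nat_lit 5) (nat_lit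 174) (nat_lit 5) (nat_lit 300) (nat_lit 285) (nat_lit 195)) (XT.lf (nat_lit 76) (nat_lit 7145649207) (nat_lit 0) (nat_lit 2700300441) (nat_lit 1064) (nat_lit 1619577648) (nat_lit 161) (nat_lit 5) (nat_lit 160) (nat_lit 5) (nat_lit 174) (nat_lit 5) (nat_lit 301) (nat_lit 285) (nat_lit 194))))) (XT.nd (nat_lit 234) (nat_lit 1672) (nat_lit 0) (XT.nd (nat_lit 78) (nat_lit 76) (nat_lit 0) (XT.lf (nat_lit 0) (nat_lit 750847018) (nat_lit 988) (nat_lit 10338665798) (nat_lit 1064) (nat_lit 554609375) (nat_lit 148) (nat_lit 5) (nat_lit 161) (nat_lit 5) (nat_lit 162) (nat_lit 5) (nat_lit 302) (nat_lit 285) (nat_lit 193)) (XT.nd (nat_lit 78) (nat_lit 0) (nat_lit 0) (XT.lf (nat_lit 0) (nat_lit 582916370) (nat_lit 1064) (nat_lit 5813432285) (nat_lit 76) (nat_lit 5430085714) (nat_lit 147) (nat_lit 5) (nat_lit 161) (nat_lit 5) (nat_lit 148) (nat_lit 5) (nat_lit 303) (nat_lit 285) (nat_lit 192)) (XT.lf (nat_lit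 0) (nat_lit 1724392592) (nat_lit 1064) (nat_lit 602736375) (nat_lit 76) (nat_lit 9687543101) (nat_lit 147) (nat_lit 5) (nat_lit 161) (nat_lit 5) (nat_lit 148) (nat_lit 5) (nat_lit 304) (nat_lit 285) (nat_lit 191)))) (XT.nd (nat_lit 78) (nat_lit 608) (nat_lit 0) (XT.lf (nat_lit 0) (nat_lit 2946603224) (nat_lit 1140) (nat_lit 7382966072) (nat_lit 76) (nat_lit 1877641489) (nat_lit 133) (nat_lit 5) (nat_lit 148) (nat_lit 5) (nat_lit 134) (nat_lit 5) (nat_lit 305) (nat_lit 285) (nat_lit 190)) (XT.nd (nat_lit 78) (nat_lit 608) (nat_lit 0) (XT.lf (nat_lit 0) (nat_lit 4216609048) (nat_lit 1140) (nat_lit 2018099477) (nat_lit 76) (nat_lit 6170530446) (nat_lit 133) (nat_lit 5) (nat_lit 148) (nat_lit 5) (nat_lit 134) (nat_lit 5) (nat_lit 306) (nat_lit 285) (nat_lit 189)) (XT.lf (nat_lit 0) (nat_lit 3561634792) (nat_lit 608) (nat_lit 1979784123) (nat_lit 684) (nat_lit 7067333771) (nat_lit 125) (nat_lit 5)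 (nat_lit 133) (nat_lit 5) (nat_lit 134) (nat_lit 5) (nat_lit 307) (nat_lit 285) (nat_lit 188)))))) (XT.nd (nat_lit 468) (nat_lit 1292) (nat_lit 0) (XT.nd (nat_lit 234) (nat_lit 608) (nat_lit 0) (XT.nd (nat_lit 78) (nat_lit 532) (nat_lit 0) (XT.lf (nat_lit 0) (nat_lit 6932497172) (nat_lit 684) (nat_lit 3506931396) (nat_lit 76) (nat_lit 2378191989) (nat_lit 125) (nat_lit 5) (nat_lit 134) (nat_lit 5) (nat_lit 126) (nat_lit 5) (nat_lit 308) (nat_lit 285) (nat_lit 187)) (XT.nd (nat_lit 78) (nat_lit 0) (nat_lit 0) (XT.lf (nat_lit 0) (nat_lit 2207396966) (nat_lit 532) (nat_lit 6182077507) (nat_lit 608) (nat_lit 4642598161) (nat_lit 118) (nat_lit 5) (nat_lit 125) (nat_lit 5) (nat_lit 126) (nat_lit 5) (nat_lit 309) (nat_lit 285) (nat_lit 186)) (XT.lf (nat_lit 0) (nat_lit 8149659975) (nat_lit 532) (nat_lit 1759597460) (nat_lit 608) (nat_lit 3343169860) (nat_lit 118) (nat_lit 5) (nat_lit 125) (nat_lit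 5) (nat_lit 126) (nat_lit 5) (nat_lit 310) (nat_lit 285) (nat_lit 185)))) (XT.nd (nat_lit 78) (nat_lit 76) (nat_lit 0) (XT.lf (nat_lit 0) (nat_lit 763361167) (nat_lit 532) (nat_lit 10729650384) (nat_lit 608) (nat_lit 1985870409) (nat_lit 111) (nat_lit 5) (nat_lit 118) (nat_lit 5) (nat_lit 119) (nat_lit 5) (nat_lit 311) (nat_lit 285) (nat_lit 184)) (XT.nd (nat_lit 78) (nat_lit 76) (nat_lit 0) (XT.lf (nat_lit 0) (nat_lit 6876997895) (nat_lit 532) (nat_lit 6300540453) (nat_lit 608) (nat_lit 533033623) (nat_lit 111) (nat_lit 5) (nat_lit 118) (nat_lit 5) (nat_lit 119) (nat_lit 5) (nat_lit 312) (nat_lit 285) (nat_lit 183)) (XT.lf (nat_lit 0) (nat_lit 929335469) (nat_lit 608) (nat_lit 799633420) (nat_lit 76) (nat_lit 12220460820) (nat_lit 110) (nat_lit 5) (nat_lit 118) (nat_lit 5) (nat_lit 111) (nat_lit 5) (nat_lit 313) (nat_lit 285) (nat_lit 182))))) (XT.nd (nat_lit 234) (nat_lit 380) (nat_lit 0)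 (XT.nd (nat_lit 78) (nat_lit 456) (nat_lit 0) (XT.lf (nat_lit 0) (nat_lit 2492167424) (nat_lit 532) (nat_lit 8720744325) (nat_lit 76) (nat_lit 2980400104) (nat_lit 104) (nat_lit 5) (nat_lit 111) (nat_lit 5) (nat_lit 105) (nat_lit 5) (nat_lit 314) (nat_lit 285) (nat_lit 181)) (XT.nd (nat_lit 78) (nat_lit 456) (nat_lit 0) (XT.lf (nat_lit 0) (nat_lit 4112638077) (nat_lit 532) (nat_lit 2527226422) (nat_lit 76) (nat_lit 7804358451) (nat_lit 104) (nat_lit 5) (nat_lit 111) (nat_lit 5) (nat_lit 105) (nat_lit 5) (nat_lit 315) (nat_lit 285) (nat_lit 180)) (XT.lf (nat_lit 0) (nat_lit 3913823244) (nat_lit 456) (nat_lit 1891425123) (nat_lit 532) (nat_lit 8896741325) (nat_lit 98) (nat_lit 5) (nat_lit 104) (nat_lit 5) (nat_lit 105) (nat_lit 5) (nat_lit 316) (nat_lit 285) (nat_lit 179)))) (XT.nd (nat_lit 78) (nat_lit 380) (nat_lit 0) (XT.lf (nat_lit 0) (nat_lit 7589410497) (nat_lit 532) (nat_lit 4410843467)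 (nat_lit 76) (nat_lit 2966045356) (nat_lit 98) (nat_lit 5) (nat_lit 105) (nat_lit 5) (nat_lit 99) (nat_lit 5) (nat_lit 317) (nat_lit 285) (nat_lit 178)) (XT.nd (nat_lit 78) (nat_lit 0) (nat_lit 0) (XT.lf (nat_lit 0) (nat_lit 2166846163) (nat_lit 380) (nat_lit 7286378338) (nat_lit 456) (nat_lit 5784562047) (nat_lit 93) (nat_lit 5) (nat_lit 98) (nat_lit 5) (nat_lit 99) (nat_lit 5) (nat_lit 318) (nat_lit 285) (nat_lit 177)) (XT.lf (nat_lit 0) (nat_lit 9017917662) (nat_lit 380) (nat_lit 2386400148) (nat_lit 456) (nat_lit 4112190824) (nat_lit 93) (nat_lit 5) (nat_lit 98) (nat_lit 5) (nat_lit 99) (nat_lit 5) (nat_lit 319) (nat_lit 285) (nat_lit 176))))))))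
noncomputable def xc179 : XT := (XT.nd (nat_lit 1794) (nat_lit 1596) (nat_lit 0) (XT.nd (nat_lit 858) (nat_lit 1444) (nat_lit 0) (XT.nd (nat_lit 390) (nat_lit 1140) (nat_lit 0) (XT.nd (nat_lit 156) (nat_lit 456) (nat_lit 0) (XT.nd (nat_lit 78) (nat_lit 0) (nat_lit 0) (XT.lf (nat_lit 0) (nat_lit 235599957) (nat_lit 456) (nat_lit 13193380457) (nat_lit 532) (nat_lit 2374191154) (nat_lit 87) (nat_lit 5) (nat_lit 93) (nat_lit 5) (nat_lit 94) (nat_lit 5) (nat_lit 320) (nat_lit 285) (nat_lit 175)) (XT.lf (nat_lit 0) (nat_lit 7266722827) (nat_lit 456) (nat_lit 8324112154) (nat_lit 532) (nat_lit 505335243) (nat_lit 87) (nat_lit 5) (nat_lit 93) (nat_lit 5) (nat_lit 94) (nat_lit 5) (nat_lit 321) (nat_lit 285) (nat_lit 174))) (XT.nd (nat_lit 78) (nat_lit 380) (nat_lit 0) (XT.lf (nat_lit 0) (nat_lit 1379535323) (nat_lit 532) (nat_lit 1916895556) (nat_lit 76) (nat_lit 13101516787) (nat_lit 86) (nat_lit 5)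 (nat_lit 93) (nat_lit 5) (nat_lit 87) (nat_lit 5) (nat_lit 322) (nat_lit 285) (nat_lit 173)) (XT.nd (nat_lit 78) (nat_lit 0) (nat_lit 0) (XT.lf (nat_lit 0) (nat_lit 3368260777) (nat_lit 456) (nat_lit 11438570277) (nat_lit 76) (nat_lit 1900100214) (nat_lit 81) (nat_lit 5) (nat_lit 87) (nat_lit 5) (nat_lit 82) (nat_lit 5) (nat_lit 323) (nat_lit 285) (nat_lit 172)) (XT.lf (nat_lit 0) (nat_lit 5457046714) (nat_lit 456) (nat_lit 4362852338) (nat_lit 76) (nat_lit 7204099485) (nat_lit 81) (nat_lit 5) (nat_lit 87) (nat_lit 5) (nat_lit 82) (nat_lit 5) (nat_lit 324) (nat_lit 285) (nat_lit 171))))) (XT.nd (nat_lit 234) (nat_lit 456) (nat_lit 0) (XT.nd (nat_lit 78) (nat_lit 304) (nat_lit 0) (XT.lf (nat_lit 0) (nat_lit 2969600467) (nat_lit 380) (nat_lit 4655996960) (nat_lit 456) (nat_lit 9724492719) (nat_lit 76) (nat_lit 5) (nat_lit 81) (nat_lit 5) (nat_lit 82) (nat_lit 5) (nat_lit 325) (nat_lit 285) (nat_lit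 170)) (XT.nd (nat_lit 78) (nat_lit 304) (nat_lit 0) (XT.lf (nat_lit 0) (nat_lit 9898808829) (nat_lit 456) (nat_lit 7093682982) (nat_lit 76) (nat_lit 692309186) (nat_lit 76) (nat_lit 5) (nat_lit 82) (nat_lit 5) (nat_lit 77) (nat_lit 5) (nat_lit 326) (nat_lit 285) (nat_lit 169)) (XT.lf (nat_lit 0) (nat_lit 359346350) (nat_lit 304) (nat_lit 11919491672) (nat_lit 380) (nat_lit 5749580413) (nat_lit 72) (nat_lit 5) (nat_lit 76) (nat_lit 5) (nat_lit 77) (nat_lit 5) (nat_lit 327) (nat_lit 285) (nat_lit 168)))) (XT.nd (nat_lit 78) (nat_lit 456) (nat_lit 0) (XT.lf (nat_lit 0) (nat_lit 8168215724) (nat_lit 304) (nat_lit 6622944726) (nat_lit 380) (nat_lit 3589380380) (nat_lit 72) (nat_lit 5) (nat_lit 76) (nat_lit 5) (nat_lit 77) (nat_lit 5) (nat_lit 328) (nat_lit 285) (nat_lit 167)) (XT.nd (nat_lit 78) (nat_lit 456) (nat_lit 0) (XT.lf (nat_lit 0) (nat_lit 16198570222) (nat_lit 304) (nat_lit 1169855212)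 (nat_lit 380) (nat_lit 1375136807) (nat_lit 72) (nat_lit 5) (nat_lit 76) (nat_lit 5) (nat_lit 77) (nat_lit 5) (nat_lit 329) (nat_lit 285) (nat_lit 166)) (XT.lf (nat_lit 0) (nat_lit 973209994) (nat_lit 456) (nat_lit 13722179633) (nat_lit 76) (nat_lit 4419284384) (nat_lit 66) (nat_lit 5) (nat_lit 72) (nat_lit 5) (nat_lit 67) (nat_lit 5) (nat_lit 330) (nat_lit 285) (nat_lit 165)))))) (XT.nd (nat_lit 468) (nat_lit 836) (nat_lit 0) (XT.nd (nat_lit 234) (nat_lit 304) (nat_lit 0) (XT.nd (nat_lit 78) (nat_lit 304) (nat_lit 0) (XT.lf (nat_lit 0) (nat_lit 3391814486) (nat_lit 456) (nat_lit 5914134444) (nat_lit 76) (nat_lit 10189758982) (nat_lit 66) (nat_lit 5) (nat_lit 72) (nat_lit 5) (nat_lit 67) (nat_lit 5) (nat_lit 331) (nat_lit 285) (nat_lit 164)) (XT.nd (nat_lit 78) (nat_lit 0) (nat_lit 0) (XT.lf (nat_lit 0) (nat_lit 2157822965) (nat_lit 304) (nat_lit 3736099927) (nat_lit 380) (nat_lit 13993941581)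 (nat_lit 62) (nat_lit 5) (nat_lit 66) (nat_lit 5) (nat_lit 67) (nat_lit 5) (nat_lit 332) (nat_lit 285) (nat_lit 163)) (XT.lf (nat_lit 0) (nat_lit 8540984980) (nat_lit 380) (nat_lit 9729242309) (nat_lit 76) (nat_lit 2019481166) (nat_lit 62) (nat_lit 5) (nat_lit 67) (nat_lit 5) (nat_lit 63) (nat_lit 5) (nat_lit 333) (nat_lit 285) (nat_lit 162)))) (XT.nd (nat_lit 78) (nat_lit 304) (nat_lit 0) (XT.lf (nat_lit 0) (nat_lit 11295075869) (nat_lit 380) (nat_lit 1537639956) (nat_lit 76) (nat_lit 7870082291) (nat_lit 62) (nat_lit 5) (nat_lit 67) (nat_lit 5) (nat_lit 63) (nat_lit 5) (nat_lit 334) (nat_lit 285) (nat_lit 161)) (XT.nd (nat_lit 78) (nat_lit 0) (nat_lit 0) (XT.lf (nat_lit 0) (nat_lit 7024918398) (nat_lit 304) (nat_lit 7165297783) (nat_lit 380) (nat_lit 6936329805) (nat_lit 58) (nat_lit 5) (nat_lit 62) (nat_lit 5) (nat_lit 63) (nat_lit 5) (nat_lit 335) (nat_lit 285) (nat_lit 160)) (XT.lf (nat_lit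 0) (nat_lit 15864116493) (nat_lit 304) (nat_lit 1314672306) (nat_lit 380) (nat_lit 4384037935) (nat_lit 58) (nat_lit 5) (nat_lit 62) (nat_lit 5) (nat_lit 63) (nat_lit 5) (nat_lit 336) (nat_lit 285) (nat_lit 159))))) (XT.nd (nat_lit 234) (nat_lit 532) (nat_lit 0) (XT.nd (nat_lit 78) (nat_lit 76) (nat_lit 0) (XT.lf (nat_lit 0) (nat_lit 2957041204) (nat_lit 228) (nat_lit 17364977226) (nat_lit 304) (nat_lit 1688244748) (nat_lit 55) (nat_lit 5) (nat_lit 58) (nat_lit 5) (nat_lit 59) (nat_lit 5) (nat_lit 337) (nat_lit 285) (nat_lit 158)) (XT.nd (nat_lit 78) (nat_lit 0) (nat_lit 0) (XT.lf (nat_lit 0) (nat_lit 1129642177) (nat_lit 304) (nat_lit 10515902981) (nat_lit 76) (nat_lit 10823406189) (nat_lit 54) (nat_lit 5) (nat_lit 58) (nat_lit 5) (nat_lit 55) (nat_lit 5) (nat_lit 338) (nat_lit 285) (nat_lit 157)) (XT.lf (nat_lit 0) (nat_lit 3989713143) (nat_lit 304) (nat_lit 1750578650) (nat_lit 76) (nat_lit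 17200875325) (nat_lit 54) (nat_lit 5) (nat_lit 58) (nat_lit 5) (nat_lit 55) (nat_lit 5) (nat_lit 339) (nat_lit 285) (nat_lit 156)))) (XT.nd (nat_lit 78) (nat_lit 228) (nat_lit 0) (XT.lf (nat_lit 0) (nat_lit 7002618754) (nat_lit 380) (nat_lit 16018380108) (nat_lit 76) (nat_lit 404554868) (nat_lit 50) (nat_lit 5) (nat_lit 55) (nat_lit 5) (nat_lit 51) (nat_lit 5) (nat_lit 340) (nat_lit 285) (nat_lit 155)) (XT.nd (nat_lit 78) (nat_lit 228) (nat_lit 0) (XT.lf (nat_lit 0) (nat_lit 10172528026) (nat_lit 380) (nat_lit 7116594175) (nat_lit 76) (nat_lit 6633366139) (nat_lit 50) (nat_lit 5) (nat_lit 55) (nat_lit 5) (nat_lit 51) (nat_lit 5) (nat_lit 341) (nat_lit 285) (nat_lit 154)) (XT.lf (nat_lit 0) (nat_lit 2082012140) (nat_lit 228) (nat_lit 11367700556) (nat_lit 304) (nat_lit 10984267411) (nat_lit 47) (nat_lit 5) (nat_lit 50) (nat_lit 5) (nat_lit 51) (nat_lit 5) (nat_lit 342) (nat_lit 285) (nat_lit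 153))))))) (XT.nd (nat_lit 858) (nat_lit 684) (nat_lit 0) (XT.nd (nat_lit 390) (nat_lit 608) (nat_lit 0) (XT.nd (nat_lit 156) (nat_lit 304) (nat_lit 0) (XT.nd (nat_lit 78) (nat_lit 0) (nat_lit 0) (XT.lf (nat_lit 0) (nat_lit 11691705579) (nat_lit 228) (nat_lit 5197660363) (nat_lit 304) (nat_lit 8069540134) (nat_lit 47) (nat_lit 5) (nat_lit 50) (nat_lit 5) (nat_lit 51) (nat_lit 5) (nat_lit 343) (nat_lit 285) (nat_lit 152)) (XT.lf (nat_lit 0) (nat_lit 20435820765) (nat_lit 304) (nat_lit 3931667267) (nat_lit 76) (nat_lit 1131997064) (nat_lit 47) (nat_lit 5) (nat_lit 51) (nat_lit 5) (nat_lit 48) (nat_lit 5) (nat_lit 344) (nat_lit 285) (nat_lit 151))) (XT.nd (nat_lit 78) (nat_lit 76) (nat_lit 0) (XT.lf (nat_lit 0) (nat_lit 5734020746) (nat_lit 228) (nat_lit 18453933815) (nat_lit 304) (nat_lit 1865361601) (nat_lit 44) (nat_lit 5) (nat_lit 47) (nat_lit 5) (nat_lit 48) (nat_lit 5) (nat_lit 345) (nat_lit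 285) (nat_lit 150)) (XT.nd (nat_lit 78) (nat_lit 0) (nat_lit 0) (XT.lf (nat_lit 0) (nat_lit 1433837432) (nat_lit 304) (nat_lit 10876821145) (nat_lit 76) (nat_lit 14311719095) (nat_lit 43) (nat_lit 5) (nat_lit 47) (nat_lit 5) (nat_lit 44) (nat_lit 5) (nat_lit 346) (nat_lit 285) (nat_lit 149)) (XT.lf (nat_lit 0) (nat_lit 4787466918) (nat_lit 304) (nat_lit 1179635082) (nat_lit 76) (nat_lit 21241078679) (nat_lit 43) (nat_lit 5) (nat_lit 47) (nat_lit 5) (nat_lit 44) (nat_lit 5) (nat_lit 347) (nat_lit 285) (nat_lit 148))))) (XT.nd (nat_lit 234) (nat_lit 152) (nat_lit 0) (XT.nd (nat_lit 78) (nat_lit 228) (nat_lit 0) (XT.lf (nat_lit 0) (nat_lit 8327392336) (nat_lit 304) (nat_lit 18841683135) (nat_lit 76) (nat_lit 639923454) (nat_lit 40) (nat_lit 5) (nat_lit 44) (nat_lit 5) (nat_lit 41) (nat_lit 5) (nat_lit 348) (nat_lit 285) (nat_lit 147)) (XT.nd (nat_lit 78) (nat_lit 228) (nat_lit 0) (XT.lf (nat_lit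 0) (nat_lit 12037855241) (nat_lit 304) (nat_lit 9053714621) (nat_lit 76) (nat_lit 7334353078) (nat_lit 40) (nat_lit 5) (nat_lit 44) (nat_lit 5) (nat_lit 41) (nat_lit 5) (nat_lit 349) (nat_lit 285) (nat_lit 146)) (XT.lf (nat_lit 0) (nat_lit 1038558321) (nat_lit 228) (nat_lit 14824483733) (nat_lit 304) (nat_lit 13198221407) (nat_lit 37) (nat_lit 5) (nat_lit 40) (nat_lit 5) (nat_lit 41) (nat_lit 5) (nat_lit 350) (nat_lit 285) (nat_lit 145)))) (XT.nd (nat_lit 78) (nat_lit 152) (nat_lit 0) (XT.lf (nat_lit 0) (nat_lit 11609685210) (nat_lit 228) (nat_lit 8278250858) (nat_lit 304) (nat_lit 9825190340) (nat_lit 37) (nat_lit 5) (nat_lit 40) (nat_lit 5) (nat_lit 41) (nat_lit 5) (nat_lit 351) (nat_lit 285) (nat_lit 144)) (XT.nd (nat_lit 78) (nat_lit 152) (nat_lit 0) (XT.lf (nat_lit 0) (nat_lit 22488716278) (nat_lit 228) (nat_lit 1538575997) (nat_lit 304) (nat_lit 6357451956) (nat_lit 37) (nat_lit 5) (nat_lit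 40) (nat_lit 5) (nat_lit 41) (nat_lit 5) (nat_lit 352) (nat_lit 285) (nat_lit 143)) (XT.lf (nat_lit 0) (nat_lit 2607421648) (nat_lit 152) (nat_lit 25754282307) (nat_lit 228) (nat_lit 2712690532) (nat_lit 35) (nat_lit 5) (nat_lit 37) (nat_lit 5) (nat_lit 38) (nat_lit 5) (nat_lit 353) (nat_lit 285) (nat_lit 142)))))) (XT.nd (nat_lit 468) (nat_lit 228) (nat_lit 0) (XT.nd (nat_lit 234) (nat_lit 152) (nat_lit 0) (XT.nd (nat_lit 78) (nat_lit 228) (nat_lit 0) (XT.lf (nat_lit 0) (nat_lit 1110742425) (nat_lit 228) (nat_lit 18229708364) (nat_lit 76) (nat_lit 12441303191) (nat_lit 34) (nat_lit 5) (nat_lit 37) (nat_lit 5) (nat_lit 35) (nat_lit 5) (nat_lit 354) (nat_lit 285) (nat_lit 141)) (XT.nd (nat_lit 78) (nat_lit 228) (nat_lit 0) (XT.lf (nat_lit 0) (nat_lit 4988426997) (nat_lit 228) (nat_lit 7721085374) (nat_lit 76) (nat_lit 19800203287) (nat_lit 34) (nat_lit 5) (nat_lit 37) (nat_lit 5) (nat_lit 35)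 (nat_lit 5) (nat_lit 355) (nat_lit 285) (nat_lit 140)) (XT.lf (nat_lit 0) (nat_lit 3155734201) (nat_lit 228) (nat_lit 5851286460) (nat_lit 304) (nat_lit 24251767180) (nat_lit 31) (nat_lit 5) (nat_lit 34) (nat_lit 5) (nat_lit 35) (nat_lit 5) (nat_lit 356) (nat_lit 285) (nat_lit 139)))) (XT.nd (nat_lit 78) (nat_lit 152) (nat_lit 0) (XT.lf (nat_lit 0) (nat_lit 13230870367) (nat_lit 304) (nat_lit 19531997404) (nat_lit 76) (nat_lit 1264932223) (nat_lit 31) (nat_lit 5) (nat_lit 35) (nat_lit 5) (nat_lit 32) (nat_lit 5) (nat_lit 357) (nat_lit 285) (nat_lit 138)) (XT.nd (nat_lit 78) (nat_lit 152) (nat_lit 0) (XT.lf (nat_lit 0) (nat_lit 17633836438) (nat_lit 304) (nat_lit 8710197623) (nat_lit 76) (nat_lit 8474284918) (nat_lit 31) (nat_lit 5) (nat_lit 35) (nat_lit 5) (nat_lit 32) (nat_lit 5) (nat_lit 358) (nat_lit 285) (nat_lit 137)) (XT.lf (nat_lit 0) (nat_lit 2476370700) (nat_lit 152) (nat_lit 19710953673)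 (nat_lit 228) (nat_lit 13444684422) (nat_lit 29) (nat_lit 5) (nat_lit 31) (nat_lit 5) (nat_lit 32) (nat_lit 5) (nat_lit 359) (nat_lit 285) (nat_lit 136))))) (XT.nd (nat_lit 234) (nat_lit 76) (nat_lit 0) (XT.nd (nat_lit 78) (nat_lit 152) (nat_lit 0) (XT.lf (nat_lit 0) (nat_lit 14168958697) (nat_lit 152) (nat_lit 12791120978) (nat_lit 228) (nat_lit 9507557754) (nat_lit 29) (nat_lit 5) (nat_lit 31) (nat_lit 5) (nat_lit 32) (nat_lit 5) (nat_lit 360) (nat_lit 285) (nat_lit 135)) (XT.nd (nat_lit 78) (nat_lit 152) (nat_lit 0) (XT.lf (nat_lit 0) (nat_lit 26204433181) (nat_lit 152) (nat_lit 5666445440) (nat_lit 228) (nat_lit 5457618246) (nat_lit 29) (nat_lit 5) (nat_lit 31) (nat_lit 5) (nat_lit 32) (nat_lit 5) (nat_lit 361) (nat_lit 285) (nat_lit 134)) (XT.lf (nat_lit 0) (nat_lit 369127965) (nat_lit 152) (nat_lit 36574478834) (nat_lit 228) (nat_lit 1271144679) (nat_lit 27) (nat_lit 5) (nat_lit 29) (nat_lit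 5) (nat_lit 30) (nat_lit 5) (nat_lit 362) (nat_lit 285) (nat_lit 133)))) (XT.nd (nat_lit 78) (nat_lit 0) (nat_lit 0) (XT.lf (nat_lit 0) (nat_lit 3146131319) (nat_lit 228) (nat_lit 26783345912) (nat_lit 76) (nat_lit 9192310246) (nat_lit 26) (nat_lit 5) (nat_lit 29) (nat_lit 5) (nat_lit 27) (nat_lit 5) (nat_lit 363) (nat_lit 285) (nat_lit 132)) (XT.nd (nat_lit 78) (nat_lit 0) (nat_lit 0) (XT.lf (nat_lit 0) (nat_lit 7665523204) (nat_lit 228) (nat_lit 15409380783) (nat_lit 76) (nat_lit 16980905518) (nat_lit 26) (nat_lit 5) (nat_lit 29) (nat_lit 5) (nat_lit 27) (nat_lit 5) (nat_lit 364) (nat_lit 285) (nat_lit 131)) (XT.lf (nat_lit 0) (nat_lit 12315784569) (nat_lit 228) (nat_lit 3701570690) (nat_lit 76) (nat_lit 25000645009) (nat_lit 26) (nat_lit 5) (nat_lit 29) (nat_lit 5) (nat_lit 27) (nat_lit 5) (nat_lit 365) (nat_lit 285) (nat_lit 130))))))))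
noncomputable def xc180 : XT := (XT.nd (nat_lit 1716) (nat_lit 0) (nat_lit 0) (XT.nd (nat_lit 858) (nat_lit 456) (nat_lit 0) (XT.nd (nat_lit 390) (nat_lit 228) (nat_lit 0) (XT.nd (nat_lit 156) (nat_lit 152) (nat_lit 0) (XT.nd (nat_lit 78) (nat_lit 0) (nat_lit 0) (XT.lf (nat_lit 0) (nat_lit 8516502123) (nat_lit 152) (nat_lit 8666342453) (nat_lit 228) (nat_lit 24823899964) (nat_lit 24) (nat_lit 5) (nat_lit 26) (nat_lit 5) (nat_lit 27) (nat_lit 5) (nat_lit 366) (nat_lit 285) (nat_lit 129)) (XT.lf (nat_lit 0) (nat_lit 21169906667) (nat_lit 152) (nat_lit 1058878406) (nat_lit 228) (nat_lit 20795386327) (nat_lit 24) (nat_lit 5) (nat_lit 26) (nat_lit 5) (nat_lit 27) (nat_lit 5) (nat_lit 367) (nat_lit 285) (nat_lit 128))) (XT.nd (nat_lit 78) (nat_lit 152) (nat_lit 0) (XT.lf (nat_lit 0) (nat_lit 27486843995) (nat_lit 228) (nat_lit 9941346531) (nat_lit 76) (nat_lit 6642114471) (nat_lit 24) (nat_lit 5)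 (nat_lit 27) (nat_lit 5) (nat_lit 25) (nat_lit 5) (nat_lit 368) (nat_lit 285) (nat_lit 127)) (XT.nd (nat_lit 78) (nat_lit 0) (nat_lit 0) (XT.lf (nat_lit 0) (nat_lit 2357690093) (nat_lit 152) (nat_lit 30573827697) (nat_lit 228) (nat_lit 12215444576) (nat_lit 22) (nat_lit 5) (nat_lit 24) (nat_lit 5) (nat_lit 25) (nat_lit 5) (nat_lit 369) (nat_lit 285) (nat_lit 126)) (XT.lf (nat_lit 0) (nat_lit 15222760057) (nat_lit 152) (nat_lit 23412945297) (nat_lit 228) (nat_lit 7617334680) (nat_lit 22) (nat_lit 5) (nat_lit 24) (nat_lit 5) (nat_lit 25) (nat_lit 5) (nat_lit 370) (nat_lit 285) (nat_lit 125))))) (XT.nd (nat_lit 234) (nat_lit 0) (nat_lit 0) (XT.nd (nat_lit 78) (nat_lit 228) (nat_lit 0) (XT.lf (nat_lit 0) (nat_lit 28467252397) (nat_lit 152) (nat_lit 16039674351) (nat_lit 228) (nat_lit 2885501654) (nat_lit 22) (nat_lit 5) (nat_lit 24) (nat_lit 5) (nat_lit 25) (nat_lit 5) (nat_lit 371) (nat_lit 285)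 (nat_lit 124)) (XT.nd (nat_lit 78) (nat_lit 152) (nat_lit 0) (XT.lf (nat_lit 0) (nat_lit 1945470435) (nat_lit 228) (nat_lit 6482456323) (nat_lit 76) (nat_lit 40137624096) (nat_lit 21) (nat_lit 5) (nat_lit 24) (nat_lit 5) (nat_lit 22) (nat_lit 5) (nat_lit 372) (nat_lit 285) (nat_lit 123)) (XT.lf (nat_lit 0) (nat_lit 6424095208) (nat_lit 152) (nat_lit 497132797) (nat_lit 228) (nat_lit 42850051474) (nat_lit 19) (nat_lit 5) (nat_lit 21) (nat_lit 5) (nat_lit 22) (nat_lit 5) (nat_lit 373) (nat_lit 285) (nat_lit 122)))) (XT.nd (nat_lit 78) (nat_lit 0) (nat_lit 0) (XT.lf (nat_lit 0) (nat_lit 12182242026) (nat_lit 228) (nat_lit 31241155433) (nat_lit 76) (nat_lit 7585707982) (nat_lit 19) (nat_lit 5) (nat_lit 22) (nat_lit 5) (nat_lit 20) (nat_lit 5) (nat_lit 374) (nat_lit 285) (nat_lit 121)) (XT.nd (nat_lit 78) (nat_lit 0) (nat_lit 0) (XT.lf (nat_lit 0) (nat_lit 17602252785) (nat_lit 228) (nat_lit 18782959555)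 (nat_lit 76) (nat_lit 15898823696) (nat_lit 19) (nat_lit 5) (nat_lit 22) (nat_lit 5) (nat_lit 20) (nat_lit 5) (nat_lit 375) (nat_lit 285) (nat_lit 120)) (XT.lf (nat_lit 0) (nat_lit 23181217470) (nat_lit 228) (nat_lit 5956932091) (nat_lit 76) (nat_lit 24459179083) (nat_lit 19) (nat_lit 5) (nat_lit 22) (nat_lit 5) (nat_lit 20) (nat_lit 5) (nat_lit 376) (nat_lit 285) (nat_lit 119)))))) (XT.nd (nat_lit 390) (nat_lit 228) (nat_lit 0) (XT.nd (nat_lit 156) (nat_lit 76) (nat_lit 0) (XT.nd (nat_lit 78) (nat_lit 0) (nat_lit 0) (XT.lf (nat_lit 0) (nat_lit 7392386249) (nat_lit 152) (nat_lit 21602684793) (nat_lit 228) (nat_lit 25952927956) (nat_lit 17) (nat_lit 5) (nat_lit 19) (nat_lit 5) (nat_lit 20) (nat_lit 5) (nat_lit 377) (nat_lit 285) (nat_lit 118)) (XT.lf (nat_lit 0) (nat_lit 21258609674) (nat_lit 152) (nat_lit 13781392149) (nat_lit 228) (nat_lit 21297492225) (nat_lit 17) (nat_lit 5) (nat_lit 19)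 (nat_lit 5) (nat_lit 20) (nat_lit 5) (nat_lit 378) (nat_lit 285) (nat_lit 117))) (XT.nd (nat_lit 78) (nat_lit 76) (nat_lit 0) (XT.lf (nat_lit 0) (nat_lit 35535299670) (nat_lit 152) (nat_lit 5727590824) (nat_lit 228) (nat_lit 16505889461) (nat_lit 17) (nat_lit 5) (nat_lit 19) (nat_lit 5) (nat_lit 20) (nat_lit 5) (nat_lit 379) (nat_lit 285) (nat_lit 116)) (XT.nd (nat_lit 78) (nat_lit 76) (nat_lit 0) (XT.lf (nat_lit 0) (nat_lit 47693838153) (nat_lit 228) (nat_lit 9032839963) (nat_lit 76) (nat_lit 2515689332) (nat_lit 17) (nat_lit 5) (nat_lit 20) (nat_lit 5) (nat_lit 18) (nat_lit 4) (nat_lit 380) (nat_lit 285) (nat_lit 115)) (XT.lf (nat_lit 0) (nat_lit 4591422058) (nat_lit 76) (nat_lit 49823921829) (nat_lit 152) (nat_lit 6341893847) (nat_lit 16) (nat_lit 5) (nat_lit 17) (nat_lit 5) (nat_lit 18) (nat_lit 4) (nat_lit 381) (nat_lit 285) (nat_lit 114))))) (XT.nd (nat_lit 234) (nat_lit 152) (nat_lit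 0) (XT.nd (nat_lit 78) (nat_lit 76) (nat_lit 0) (XT.lf (nat_lit 0) (nat_lit 18804344235) (nat_lit 76) (nat_lit 42622193138) (nat_lit 152) (nat_lit 888379416) (nat_lit 16) (nat_lit 5) (nat_lit 17) (nat_lit 5) (nat_lit 18) (nat_lit 4) (nat_lit 382) (nat_lit 285) (nat_lit 113)) (XT.nd (nat_lit 78) (nat_lit 0) (nat_lit 0) (XT.lf (nat_lit 0) (nat_lit 4633352431) (nat_lit 152) (nat_lit 30526273039) (nat_lit 76) (nat_lit 28758434191) (nat_lit 15) (nat_lit 5) (nat_lit 17) (nat_lit 5) (nat_lit 16) (nat_lit 5) (nat_lit 383) (nat_lit 285) (nat_lit 112)) (XT.lf (nat_lit 0) (nat_lit 10299858110) (nat_lit 152) (nat_lit 17166235860) (nat_lit 76) (nat_lit 38103033256) (nat_lit 15) (nat_lit 5) (nat_lit 17) (nat_lit 5) (nat_lit 16) (nat_lit 5) (nat_lit 384) (nat_lit 285) (nat_lit 111)))) (XT.nd (nat_lit 78) (nat_lit 152) (nat_lit 0) (XT.lf (nat_lit 0) (nat_lit 16133424416) (nat_lit 152) (nat_lit 3410247554) (nat_lit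 76) (nat_lit 47726146384) (nat_lit 15) (nat_lit 5) (nat_lit 17) (nat_lit 5) (nat_lit 16) (nat_lit 5) (nat_lit 385) (nat_lit 285) (nat_lit 110)) (XT.nd (nat_lit 78) (nat_lit 0) (nat_lit 0) (XT.lf (nat_lit 0) (nat_lit 10967731623) (nat_lit 152) (nat_lit 11276845562) (nat_lit 228) (nat_lit 46773879042) (nat_lit 13) (nat_lit 5) (nat_lit 15) (nat_lit 5) (nat_lit 16) (nat_lit 5) (nat_lit 386) (nat_lit 285) (nat_lit 109)) (XT.lf (nat_lit 0) (nat_lit 25842294345) (nat_lit 152) (nat_lit 2728396099) (nat_lit 228) (nat_lit 42247917316) (nat_lit 13) (nat_lit 5) (nat_lit 15) (nat_lit 5) (nat_lit 16) (nat_lit 5) (nat_lit 387) (nat_lit 285) (nat_lit 108))))))) (XT.nd (nat_lit 33384) (nat_lit 0) (nat_lit 9120) (XT.nd (nat_lit 32916) (nat_lit 0) (nat_lit 10868) (XT.nd (nat_lit 32682) (nat_lit 0) (nat_lit 11780) (XT.nd (nat_lit 78) (nat_lit 0) (nat_lit 0) (XT.lf (nat_lit 0) (nat_lit 35142251886) (nat_lit 228)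 (nat_lit 31572675543) (nat_lit 76) (nat_lit 5956169669) (nat_lit 13) (nat_lit 5) (nat_lit 16) (nat_lit 5) (nat_lit 14) (nat_lit 4) (nat_lit 388) (nat_lit 285) (nat_lit 107)) (XT.lf (nat_lit 0) (nat_lit 41935307665) (nat_lit 228) (nat_lit 17798403088) (nat_lit 76) (nat_lit 14844723048) (nat_lit 13) (nat_lit 5) (nat_lit 16) (nat_lit 5) (nat_lit 14) (nat_lit 4) (nat_lit 389) (nat_lit 285) (nat_lit 106))) (XT.nd (nat_lit 78) (nat_lit 0) (nat_lit 0) (XT.lf (nat_lit 0) (nat_lit 2937762800) (nat_lit 988) (nat_lit 887897234) (nat_lit 988) (nat_lit 887897234) (nat_lit 168) (nat_lit 3) (nat_lit 181) (nat_lit 3) (nat_lit 181) (nat_lit 5) (nat_lit 286) (nat_lit 286) (nat_lit 208)) (XT.nd (nat_lit 78) (nat_lit 0) (nat_lit 0) (XT.lf (nat_lit 76) (nat_lit 2160287878) (nat_lit 0) (nat_lit 4541180895) (nat_lit 988) (nat_lit 2842798623) (nat_lit 169) (nat_lit 5) (nat_lit 168) (nat_lit 3) (nat_lit 181) (nat_lit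 5) (nat_lit 287) (nat_lit 286) (nat_lit 207)) (XT.lf (nat_lit 76) (nat_lit 6236113852) (nat_lit 0) (nat_lit 1305882499) (nat_lit 988) (nat_lit 2123327026) (nat_lit 169) (nat_lit 5) (nat_lit 168) (nat_lit 3) (nat_lit 181) (nat_lit 5) (nat_lit 288) (nat_lit 286) (nat_lit 206))))) (XT.nd (nat_lit 234) (nat_lit 0) (nat_lit 76) (XT.nd (nat_lit 78) (nat_lit 988) (nat_lit 0) (XT.lf (nat_lit 76) (nat_lit 621515893) (nat_lit 0) (nat_lit 7784496158) (nat_lit 988) (nat_lit 1384131128) (nat_lit 170) (nat_lit 5) (nat_lit 169) (nat_lit 5) (nat_lit 182) (nat_lit 5) (nat_lit 289) (nat_lit 286) (nat_lit 205)) (XT.nd (nat_lit 78) (nat_lit 988) (nat_lit 0) (XT.lf (nat_lit 76) (nat_lit 4835686036) (nat_lit 0) (nat_lit 4481157166) (nat_lit 988) (nat_lit 601315496) (nat_lit 170) (nat_lit 5) (nat_lit 169) (nat_lit 5) (nat_lit 182) (nat_lit 5) (nat_lit 290) (nat_lit 286) (nat_lit 204)) (XT.lf (nat_lit 0) (nat_lit 174892125)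 (nat_lit 988) (nat_lit 891039945) (nat_lit 1064) (nat_lit 8984879770) (nat_lit 156) (nat_lit 5) (nat_lit 169) (nat_lit 5) (nat_lit 170) (nat_lit 5) (nat_lit 291) (nat_lit 286) (nat_lit 203)))) (XT.nd (nat_lit 78) (nat_lit 0) (nat_lit 0) (XT.lf (nat_lit 0) (nat_lit 994410434) (nat_lit 988) (nat_lit 6738088627) (nat_lit 1064) (nat_lit 2453874952) (nat_lit 157) (nat_lit 5) (nat_lit 170) (nat_lit 5) (nat_lit 171) (nat_lit 5) (nat_lit 292) (nat_lit 286) (nat_lit 202)) (XT.nd (nat_lit 78) (nat_lit 0) (nat_lit 0) (XT.lf (nat_lit 0) (nat_lit 1833514578) (nat_lit 988) (nat_lit 2415970941) (nat_lit 1064) (nat_lit 6076736800) (nat_lit 157) (nat_lit 5) (nat_lit 170) (nat_lit 5) (nat_lit 171) (nat_lit 5) (nat_lit 293) (nat_lit 286) (nat_lit 201)) (XT.lf (nat_lit 76) (nat_lit 2060829453) (nat_lit 0) (nat_lit 632849687) (nat_lit 1064) (nat_lit 7776777577) (nat_lit 158) (nat_lit 5) (nat_lit 157) (nat_lit 5)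 (nat_lit 171) (nat_lit 5) (nat_lit 294) (nat_lit 286) (nat_lit 200)))))) (XT.nd (nat_lit 468) (nat_lit 1900) (nat_lit 0) (XT.nd (nat_lit 234) (nat_lit 0) (nat_lit 76) (XT.nd (nat_lit 78) (nat_lit 0) (nat_lit 0) (XT.lf (nat_lit 0) (nat_lit 3610721199) (nat_lit 988) (nat_lit 3942686331) (nat_lit 1064) (nat_lit 3064743738) (nat_lit 158) (nat_lit 5) (nat_lit 171) (nat_lit 5) (nat_lit 172) (nat_lit 5) (nat_lit 295) (nat_lit 286) (nat_lit 199)) (XT.nd (nat_lit 78) (nat_lit 0) (nat_lit 0) (XT.lf (nat_lit 76) (nat_lit 649236327) (nat_lit 0) (nat_lit 3895932756) (nat_lit 1064) (nat_lit 6225474134) (nat_lit 159) (nat_lit 5) (nat_lit 158) (nat_lit 5) (nat_lit 172) (nat_lit 5) (nat_lit 296) (nat_lit 286) (nat_lit 198)) (XT.lf (nat_lit 76) (nat_lit 5444459539) (nat_lit 0) (nat_lit 80903875) (nat_lit 1064) (nat_lit 5401876672) (nat_lit 159) (nat_lit 5) (nat_lit 158) (nat_lit 5) (nat_lit 172) (nat_lit 5) (nat_lit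 297) (nat_lit 286) (nat_lit 197)))) (XT.nd (nat_lit 78) (nat_lit 0) (nat_lit 0) (XT.lf (nat_lit 0) (nat_lit 6550565419) (nat_lit 988) (nat_lit 757590739) (nat_lit 1064) (nat_lit 3779970406) (nat_lit 159) (nat_lit 5) (nat_lit 172) (nat_lit 5) (nat_lit 173) (nat_lit 5) (nat_lit 298) (nat_lit 286) (nat_lit 196)) (XT.nd (nat_lit 78) (nat_lit 0) (nat_lit 76) (XT.lf (nat_lit 76) (nat_lit 4174874495) (nat_lit 0) (nat_lit 3451811540) (nat_lit 1064) (nat_lit 3626606744) (nat_lit 160) (nat_lit 5) (nat_lit 159) (nat_lit 5) (nat_lit 173) (nat_lit 5) (nat_lit 299) (nat_lit 286) (nat_lit 195)) (XT.lf (nat_lit 0) (nat_lit 8727558818) (nat_lit 988) (nat_lit 2173131617) (nat_lit 1064) (nat_lit 523005817) (nat_lit 160) (nat_lit 5) (nat_lit 173) (nat_lit 5) (nat_lit 174) (nat_lit 5) (nat_lit 300) (nat_lit 286) (nat_lit 194))))) (XT.nd (nat_lit 234) (nat_lit 1064) (nat_lit 0) (XT.nd (nat_lit 78) (nat_lit 988) (nat_lit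 0) (XT.lf (nat_lit 76) (nat_lit 2886200924) (nat_lit 0) (nat_lit 7017509099) (nat_lit 1064) (nat_lit 1694288928) (nat_lit 161) (nat_lit 5) (nat_lit 160) (nat_lit 5) (nat_lit 174) (nat_lit 5) (nat_lit 301) (nat_lit 286) (nat_lit 193)) (XT.nd (nat_lit 78) (nat_lit 988) (nat_lit 0) (XT.lf (nat_lit 76) (nat_lit 8126753533) (nat_lit 0) (nat_lit 2991096194) (nat_lit 1064) (nat_lit 659652977) (nat_lit 161) (nat_lit 5) (nat_lit 160) (nat_lit 5) (nat_lit 174) (nat_lit 5) (nat_lit 302) (nat_lit 286) (nat_lit 192)) (XT.lf (nat_lit 0) (nat_lit 405650773) (nat_lit 1064) (nat_lit 10399930381) (nat_lit 76) (nat_lit 1156516826) (nat_lit 147) (nat_lit 5) (nat_lit 161) (nat_lit 5) (nat_lit 148) (nat_lit 5) (nat_lit 303) (nat_lit 286) (nat_lit 191)))) (XT.nd (nat_lit 78) (nat_lit 1064) (nat_lit 0) (XT.lf (nat_lit 0) (nat_lit 1538026513) (nat_lit 1064) (nat_lit 5196911111) (nat_lit 76) (nat_lit 5415695006) (nat_lit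 147) (nat_lit 5) (nat_lit 161) (nat_lit 5) (nat_lit 148) (nat_lit 5) (nat_lit 304) (nat_lit 286) (nat_lit 190)) (XT.nd (nat_lit 78) (nat_lit 0) (nat_lit 0) (XT.lf (nat_lit 0) (nat_lit 149996011) (nat_lit 1064) (nat_lit 2537883466) (nat_lit 1140) (nat_lit 9657485838) (nat_lit 133) (nat_lit 5) (nat_lit 147) (nat_lit 5) (nat_lit 148) (nat_lit 5) (nat_lit 305) (nat_lit 286) (nat_lit 189)) (XT.lf (nat_lit 0) (nat_lit 3924852794) (nat_lit 1140) (nat_lit 6813781231) (nat_lit 76) (nat_lit 1805773013) (nat_lit 133) (nat_lit 5) (nat_lit 148) (nat_lit 5) (nat_lit 134) (nat_lit 5) (nat_lit 306) (nat_lit 286) (nat_lit 188))))))))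
noncomputable def xc181 : XT := (XT.nd (nat_lit 1716) (nat_lit 2660) (nat_lit 0) (XT.nd (nat_lit 858) (nat_lit 1976) (nat_lit 0) (XT.nd (nat_lit 390) (nat_lit 1520) (nat_lit 0) (XT.nd (nat_lit 156) (nat_lit 532) (nat_lit 0) (XT.nd (nat_lit 78) (nat_lit 608) (nat_lit 0) (XT.lf (nat_lit 0) (nat_lit 5207040788) (nat_lit 1140) (nat_lit 1310997973) (nat_lit 76) (nat_lit 6231182553) (nat_lit 133) (nat_lit 5) (nat_lit 148) (nat_lit 5) (nat_lit 134) (nat_lit 5) (nat_lit 307) (nat_lit 286) (nat_lit 187)) (XT.lf (nat_lit 0) (nat_lit 4428602398) (nat_lit 608) (nat_lit 2125136167) (nat_lit 684) (nat_lit 6405703300) (nat_lit 125) (nat_lit 5) (nat_lit 133) (nat_lit 5) (nat_lit 134) (nat_lit 5) (nat_lit 308) (nat_lit 286) (nat_lit 186))) (XT.nd (nat_lit 78) (nat_lit 532) (nat_lit 0) (XT.lf (nat_lit 0) (nat_lit 7961103929) (nat_lit 684) (nat_lit 2846587639) (nat_lit 76) (nat_lit 2367711380) (nat_lit 125) (nat_lit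 5) (nat_lit 134) (nat_lit 5) (nat_lit 126) (nat_lit 5) (nat_lit 309) (nat_lit 286) (nat_lit 185)) (XT.nd (nat_lit 78) (nat_lit 0) (nat_lit 0) (XT.lf (nat_lit 0) (nat_lit 3031665165) (nat_lit 532) (nat_lit 6413510290) (nat_lit 608) (nat_lit 3951673544) (nat_lit 118) (nat_lit 5) (nat_lit 125) (nat_lit 5) (nat_lit 126) (nat_lit 5) (nat_lit 310) (nat_lit 286) (nat_lit 184)) (XT.lf (nat_lit 0) (nat_lit 9130117046) (nat_lit 532) (nat_lit 1857016897) (nat_lit 608) (nat_lit 2637443051) (nat_lit 118) (nat_lit 5) (nat_lit 125) (nat_lit 5) (nat_lit 126) (nat_lit 5) (nat_lit 311) (nat_lit 286) (nat_lit 183))))) (XT.nd (nat_lit 234) (nat_lit 912) (nat_lit 0) (XT.nd (nat_lit 78) (nat_lit 76) (nat_lit 0) (XT.lf (nat_lit 0) (nat_lit 1540612602) (nat_lit 532) (nat_lit 11061886943) (nat_lit 608) (nat_lit 1255861190) (nat_lit 111) (nat_lit 5) (nat_lit 118) (nat_lit 5) (nat_lit 119) (nat_lit 5) (nat_lit 312) (nat_lit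 286) (nat_lit 182)) (XT.nd (nat_lit 78) (nat_lit 0) (nat_lit 0) (XT.lf (nat_lit 0) (nat_lit 213317629) (nat_lit 608) (nat_lit 6284130625) (nat_lit 76) (nat_lit 7600215336) (nat_lit 110) (nat_lit 5) (nat_lit 118) (nat_lit 5) (nat_lit 111) (nat_lit 5) (nat_lit 313) (nat_lit 286) (nat_lit 181)) (XT.lf (nat_lit 0) (nat_lit 1686952245) (nat_lit 608) (nat_lit 96269886) (nat_lit 76) (nat_lit 12561016813) (nat_lit 110) (nat_lit 5) (nat_lit 118) (nat_lit 5) (nat_lit 111) (nat_lit 5) (nat_lit 314) (nat_lit 286) (nat_lit 180)))) (XT.nd (nat_lit 78) (nat_lit 456) (nat_lit 0) (XT.lf (nat_lit 0) (nat_lit 3282384198) (nat_lit 532) (nat_lit 8238999491) (nat_lit 76) (nat_lit 3074534300) (nat_lit 104) (nat_lit 5) (nat_lit 111) (nat_lit 5) (nat_lit 105) (nat_lit 5) (nat_lit 315) (nat_lit 286) (nat_lit 179)) (XT.nd (nat_lit 78) (nat_lit 456) (nat_lit 0) (XT.lf (nat_lit 0) (nat_lit 4930630570) (nat_lit 532) (nat_lit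 1881327522) (nat_lit 76) (nat_lit 8043073858) (nat_lit 104) (nat_lit 5) (nat_lit 111) (nat_lit 5) (nat_lit 105) (nat_lit 5) (nat_lit 316) (nat_lit 286) (nat_lit 178)) (XT.lf (nat_lit 0) (nat_lit 4745877989) (nat_lit 456) (nat_lit 1914779280) (nat_lit 532) (nat_lit 8460324194) (nat_lit 98) (nat_lit 5) (nat_lit 104) (nat_lit 5) (nat_lit 105) (nat_lit 5) (nat_lit 317) (nat_lit 286) (nat_lit 177)))))) (XT.nd (nat_lit 390) (nat_lit 1064) (nat_lit 0) (XT.nd (nat_lit 156) (nat_lit 532) (nat_lit 0) (XT.nd (nat_lit 78) (nat_lit 380) (nat_lit 0) (XT.lf (nat_lit 0) (nat_lit 8478813591) (nat_lit 532) (nat_lit 3828229920) (nat_lit 76) (nat_lit 3086810275) (nat_lit 98) (nat_lit 5) (nat_lit 105) (nat_lit 5) (nat_lit 99) (nat_lit 5) (nat_lit 318) (nat_lit 286) (nat_lit 176)) (XT.lf (nat_lit 0) (nat_lit 2939781194) (nat_lit 380) (nat_lit 7446292454) (nat_lit 456) (nat_lit 5287832138) (nat_lit 93) (nat_lit 5)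 (nat_lit 98) (nat_lit 5) (nat_lit 99) (nat_lit 5) (nat_lit 319) (nat_lit 286) (nat_lit 175))) (XT.nd (nat_lit 78) (nat_lit 532) (nat_lit 0) (XT.lf (nat_lit 0) (nat_lit 9975765528) (nat_lit 380) (nat_lit 2401023964) (nat_lit 456) (nat_lit 3584812112) (nat_lit 93) (nat_lit 5) (nat_lit 98) (nat_lit 5) (nat_lit 99) (nat_lit 5) (nat_lit 320) (nat_lit 286) (nat_lit 174)) (XT.nd (nat_lit 78) (nat_lit 76) (nat_lit 0) (XT.lf (nat_lit 0) (nat_lit 942899978) (nat_lit 456) (nat_lit 13508195237) (nat_lit 532) (nat_lit 1806145570) (nat_lit 87) (nat_lit 5) (nat_lit 93) (nat_lit 5) (nat_lit 94) (nat_lit 5) (nat_lit 321) (nat_lit 286) (nat_lit 173)) (XT.lf (nat_lit 0) (nat_lit 98202050) (nat_lit 532) (nat_lit 8396014020) (nat_lit 76) (nat_lit 8065367728) (nat_lit 86) (nat_lit 5) (nat_lit 93) (nat_lit 5) (nat_lit 87) (nat_lit 5) (nat_lit 322) (nat_lit 286) (nat_lit 172))))) (XT.nd (nat_lit 234) (nat_lit 684)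 (nat_lit 0) (XT.nd (nat_lit 78) (nat_lit 380) (nat_lit 0) (XT.lf (nat_lit 0) (nat_lit 2011737513) (nat_lit 532) (nat_lit 1301282539) (nat_lit 76) (nat_lit 13557815915) (nat_lit 86) (nat_lit 5) (nat_lit 93) (nat_lit 5) (nat_lit 87) (nat_lit 5) (nat_lit 323) (nat_lit 286) (nat_lit 171)) (XT.nd (nat_lit 78) (nat_lit 0) (nat_lit 0) (XT.lf (nat_lit 0) (nat_lit 4050155045) (nat_lit 456) (nat_lit 11097350782) (nat_lit 76) (nat_lit 2041920953) (nat_lit 81) (nat_lit 5) (nat_lit 87) (nat_lit 5) (nat_lit 82) (nat_lit 5) (nat_lit 324) (nat_lit 286) (nat_lit 170)) (XT.lf (nat_lit 0) (nat_lit 6184686702) (nat_lit 456) (nat_lit 3829294604) (nat_lit 76) (nat_lit 7502569782) (nat_lit 81) (nat_lit 5) (nat_lit 87) (nat_lit 5) (nat_lit 82) (nat_lit 5) (nat_lit 325) (nat_lit 286) (nat_lit 169)))) (XT.nd (nat_lit 78) (nat_lit 304) (nat_lit 0) (XT.lf (nat_lit 0) (nat_lit 3716617636) (nat_lit 380) (nat_lit 4691575614)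 (nat_lit 456) (nat_lit 9444571611) (nat_lit 76) (nat_lit 5) (nat_lit 81) (nat_lit 5) (nat_lit 82) (nat_lit 5) (nat_lit 326) (nat_lit 286) (nat_lit 168)) (XT.nd (nat_lit 78) (nat_lit 304) (nat_lit 0) (XT.lf (nat_lit 0) (nat_lit 10734441622) (nat_lit 456) (nat_lit 6651390113) (nat_lit 76) (nat_lit 812175417) (nat_lit 76) (nat_lit 5) (nat_lit 82) (nat_lit 5) (nat_lit 77) (nat_lit 5) (nat_lit 327) (nat_lit 286) (nat_lit 167)) (XT.lf (nat_lit 0) (nat_lit 1018807517) (nat_lit 304) (nat_lit 12157610316) (nat_lit 380) (nat_lit 5375833201) (nat_lit 72) (nat_lit 5) (nat_lit 76) (nat_lit 5) (nat_lit 77) (nat_lit 5) (nat_lit 328) (nat_lit 286) (nat_lit 166))))))) (XT.nd (nat_lit 858) (nat_lit 1292) (nat_lit 0) (XT.nd (nat_lit 390) (nat_lit 608) (nat_lit 0) (XT.nd (nat_lit 156) (nat_lit 760) (nat_lit 0) (XT.nd (nat_lit 78) (nat_lit 0) (nat_lit 0) (XT.lf (nat_lit 0) (nat_lit 9043049357) (nat_lit 304) (nat_lit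 6705646557) (nat_lit 380) (nat_lit 3166736914) (nat_lit 72) (nat_lit 5) (nat_lit 76) (nat_lit 5) (nat_lit 77) (nat_lit 5) (nat_lit 329) (nat_lit 286) (nat_lit 165)) (XT.lf (nat_lit 0) (nat_lit 17295971176) (nat_lit 304) (nat_lit 1092342605) (nat_lit 380) (nat_lit 901512389) (nat_lit 72) (nat_lit 5) (nat_lit 76) (nat_lit 5) (nat_lit 77) (nat_lit 5) (nat_lit 330) (nat_lit 286) (nat_lit 164))) (XT.nd (nat_lit 78) (nat_lit 304) (nat_lit 0) (XT.lf (nat_lit 0) (nat_lit 1499616573) (nat_lit 456) (nat_lit 13502670459) (nat_lit 76) (nat_lit 4669894895) (nat_lit 66) (nat_lit 5) (nat_lit 72) (nat_lit 5) (nat_lit 67) (nat_lit 5) (nat_lit 331) (nat_lit 286) (nat_lit 163)) (XT.nd (nat_lit 78) (nat_lit 304) (nat_lit 0) (XT.lf (nat_lit 0) (nat_lit 3976297346) (nat_lit 456) (nat_lit 5478767640) (nat_lit 76) (nat_lit 10610045905) (nat_lit 66) (nat_lit 5) (nat_lit 72) (nat_lit 5) (nat_lit 67) (nat_lit 5) (nat_lit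 332) (nat_lit 286) (nat_lit 162)) (XT.lf (nat_lit 0) (nat_lit 2829340738) (nat_lit 304) (nat_lit 3715900986) (nat_lit 380) (nat_lit 13924065975) (nat_lit 62) (nat_lit 5) (nat_lit 66) (nat_lit 5) (nat_lit 67) (nat_lit 5) (nat_lit 333) (nat_lit 286) (nat_lit 161))))) (XT.nd (nat_lit 234) (nat_lit 304) (nat_lit 0) (XT.nd (nat_lit 78) (nat_lit 304) (nat_lit 0) (XT.lf (nat_lit 0) (nat_lit 9259129791) (nat_lit 380) (nat_lit 9418494124) (nat_lit 76) (nat_lit 2205988554) (nat_lit 62) (nat_lit 5) (nat_lit 67) (nat_lit 5) (nat_lit 63) (nat_lit 5) (nat_lit 334) (nat_lit 286) (nat_lit 160)) (XT.nd (nat_lit 78) (nat_lit 304) (nat_lit 0) (XT.lf (nat_lit 0) (nat_lit 12082389564) (nat_lit 380) (nat_lit 998695899) (nat_lit 76) (nat_lit 8228440054) (nat_lit 62) (nat_lit 5) (nat_lit 67) (nat_lit 5) (nat_lit 63) (nat_lit 5) (nat_lit 335) (nat_lit 286) (nat_lit 159)) (XT.lf (nat_lit 0) (nat_lit 7815003193) (nat_lit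 304) (nat_lit 7241887853) (nat_lit 380) (nat_lit 6689345860) (nat_lit 58) (nat_lit 5) (nat_lit 62) (nat_lit 5) (nat_lit 63) (nat_lit 5) (nat_lit 336) (nat_lit 286) (nat_lit 158)))) (XT.nd (nat_lit 78) (nat_lit 304) (nat_lit 0) (XT.lf (nat_lit 0) (nat_lit 16902503332) (nat_lit 304) (nat_lit 1219773773) (nat_lit 380) (nat_lit 4073739812) (nat_lit 58) (nat_lit 5) (nat_lit 62) (nat_lit 5) (nat_lit 63) (nat_lit 5) (nat_lit 337) (nat_lit 286) (nat_lit 157)) (XT.nd (nat_lit 78) (nat_lit 76) (nat_lit 0) (XT.lf (nat_lit 0) (nat_lit 3614983111) (nat_lit 228) (nat_lit 17739076391) (nat_lit 304) (nat_lit 1303014059) (nat_lit 55) (nat_lit 5) (nat_lit 58) (nat_lit 5) (nat_lit 59) (nat_lit 5) (nat_lit 338) (nat_lit 286) (nat_lit 156)) (XT.lf (nat_lit 0) (nat_lit 1578456182) (nat_lit 304) (nat_lit 10269692441) (nat_lit 76) (nat_lit 11281644845) (nat_lit 54) (nat_lit 5) (nat_lit 58) (nat_lit 5) (nat_lit 55)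 (nat_lit 5) (nat_lit 339) (nat_lit 286) (nat_lit 155)))))) (XT.nd (nat_lit 468) (nat_lit 760) (nat_lit 0) (XT.nd (nat_lit 234) (nat_lit 228) (nat_lit 0) (XT.nd (nat_lit 78) (nat_lit 304) (nat_lit 0) (XT.lf (nat_lit 0) (nat_lit 4512244090) (nat_lit 304) (nat_lit 1257768214) (nat_lit 76) (nat_lit 17846548644) (nat_lit 54) (nat_lit 5) (nat_lit 58) (nat_lit 5) (nat_lit 55) (nat_lit 5) (nat_lit 340) (nat_lit 286) (nat_lit 154)) (XT.nd (nat_lit 78) (nat_lit 0) (nat_lit 0) (XT.lf (nat_lit 0) (nat_lit 7610375494) (nat_lit 380) (nat_lit 15947708362) (nat_lit 76) (nat_lit 557572163) (nat_lit 50) (nat_lit 5) (nat_lit 55) (nat_lit 5) (nat_lit 51) (nat_lit 5) (nat_lit 341) (nat_lit 286) (nat_lit 153)) (XT.lf (nat_lit 0) (nat_lit 10863799184) (nat_lit 380) (nat_lit 6794923895) (nat_lit 76) (nat_lit 6969144452) (nat_lit 50) (nat_lit 5) (nat_lit 55) (nat_lit 5) (nat_lit 51) (nat_lit 5) (nat_lit 342) (nat_lit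 286) (nat_lit 152)))) (XT.nd (nat_lit 78) (nat_lit 0) (nat_lit 0) (XT.lf (nat_lit 0) (nat_lit 2674393864) (nat_lit 228) (nat_lit 11558753964) (nat_lit 304) (nat_lit 10921761525) (nat_lit 47) (nat_lit 5) (nat_lit 50) (nat_lit 5) (nat_lit 51) (nat_lit 5) (nat_lit 343) (nat_lit 286) (nat_lit 151)) (XT.nd (nat_lit 78) (nat_lit 0) (nat_lit 0) (XT.lf (nat_lit 0) (nat_lit 12556943503) (nat_lit 228) (nat_lit 5207980846) (nat_lit 304) (nat_lit 7931010893) (nat_lit 47) (nat_lit 5) (nat_lit 50) (nat_lit 5) (nat_lit 51) (nat_lit 5) (nat_lit 344) (nat_lit 286) (nat_lit 150)) (XT.lf (nat_lit 0) (nat_lit 21408387732) (nat_lit 304) (nat_lit 3540078366) (nat_lit 76) (nat_lit 1304566652) (nat_lit 47) (nat_lit 5) (nat_lit 51) (nat_lit 5) (nat_lit 48) (nat_lit 5) (nat_lit 345) (nat_lit 286) (nat_lit 149))))) (XT.nd (nat_lit 234) (nat_lit 456) (nat_lit 0) (XT.nd (nat_lit 78) (nat_lit 76) (nat_lit 0) (XT.lf (nat_lit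 0) (nat_lit 6410584808) (nat_lit 228) (nat_lit 18856880063) (nat_lit 304) (nat_lit 1556201490) (nat_lit 44) (nat_lit 5) (nat_lit 47) (nat_lit 5) (nat_lit 48) (nat_lit 5) (nat_lit 346) (nat_lit 286) (nat_lit 148)) (XT.nd (nat_lit 78) (nat_lit 0) (nat_lit 0) (XT.lf (nat_lit 0) (nat_lit 1824421617) (nat_lit 304) (nat_lit 10705763683) (nat_lit 76) (nat_lit 14879839840) (nat_lit 43) (nat_lit 5) (nat_lit 47) (nat_lit 5) (nat_lit 44) (nat_lit 5) (nat_lit 347) (nat_lit 286) (nat_lit 147)) (XT.lf (nat_lit 0) (nat_lit 5268536616) (nat_lit 304) (nat_lit 732148313) (nat_lit 76) (nat_lit 22013038391) (nat_lit 43) (nat_lit 5) (nat_lit 47) (nat_lit 5) (nat_lit 44) (nat_lit 5) (nat_lit 348) (nat_lit 286) (nat_lit 146)))) (XT.nd (nat_lit 78) (nat_lit 228) (nat_lit 0) (XT.lf (nat_lit 0) (nat_lit 8910830226) (nat_lit 304) (nat_lit 18919665703) (nat_lit 76) (nat_lit 802201947) (nat_lit 40) (nat_lit 5) (nat_lit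 44) (nat_lit 5) (nat_lit 41) (nat_lit 5) (nat_lit 349) (nat_lit 286) (nat_lit 145)) (XT.nd (nat_lit 78) (nat_lit 228) (nat_lit 0) (XT.lf (nat_lit 0) (nat_lit 12722890044) (nat_lit 304) (nat_lit 8852250404) (nat_lit 76) (nat_lit 7693297058) (nat_lit 40) (nat_lit 5) (nat_lit 44) (nat_lit 5) (nat_lit 41) (nat_lit 5) (nat_lit 350) (nat_lit 286) (nat_lit 144)) (XT.lf (nat_lit 0) (nat_lit 1538152730) (nat_lit 228) (nat_lit 15119748684) (nat_lit 304) (nat_lit 13265100666) (nat_lit 37) (nat_lit 5) (nat_lit 40) (nat_lit 5) (nat_lit 41) (nat_lit 5) (nat_lit 351) (nat_lit 286) (nat_lit 143))))))))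
noncomputable def xc182 : XT := (XT.nd (nat_lit 1716) (nat_lit 608) (nat_lit 0) (XT.nd (nat_lit 858) (nat_lit 608) (nat_lit 0) (XT.nd (nat_lit 390) (nat_lit 380) (nat_lit 0) (XT.nd (nat_lit 156) (nat_lit 228) (nat_lit 0) (XT.nd (nat_lit 78) (nat_lit 0) (nat_lit 0) (XT.lf (nat_lit 0) (nat_lit 12412769610) (nat_lit 228) (nat_lit 8381482306) (nat_lit 304) (nat_lit 9800463154) (nat_lit 37) (nat_lit 5) (nat_lit 40) (nat_lit 5) (nat_lit 41) (nat_lit 5) (nat_lit 352) (nat_lit 286) (nat_lit 142)) (XT.lf (nat_lit 0) (nat_lit 23604925188) (nat_lit 228) (nat_lit 1443843880) (nat_lit 304) (nat_lit 6237997946) (nat_lit 37) (nat_lit 5) (nat_lit 40) (nat_lit 5) (nat_lit 41) (nat_lit 5) (nat_lit 353) (nat_lit 286) (nat_lit 141))) (XT.nd (nat_lit 78) (nat_lit 76) (nat_lit 0) (XT.lf (nat_lit 0) (nat_lit 3130948000) (nat_lit 152) (nat_lit 26379103470) (nat_lit 228) (nat_lit 2487164715) (nat_lit 35) (nat_lit 5)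 (nat_lit 37) (nat_lit 5) (nat_lit 38) (nat_lit 5) (nat_lit 354) (nat_lit 286) (nat_lit 140)) (XT.nd (nat_lit 78) (nat_lit 0) (nat_lit 0) (XT.lf (nat_lit 0) (nat_lit 1436217786) (nat_lit 228) (nat_lit 18337994113) (nat_lit 76) (nat_lit 12951772716) (nat_lit 34) (nat_lit 5) (nat_lit 37) (nat_lit 5) (nat_lit 35) (nat_lit 5) (nat_lit 355) (nat_lit 286) (nat_lit 139)) (XT.lf (nat_lit 0) (nat_lit 5421723583) (nat_lit 228) (nat_lit 7526887351) (nat_lit 76) (nat_lit 20527442812) (nat_lit 34) (nat_lit 5) (nat_lit 37) (nat_lit 5) (nat_lit 35) (nat_lit 5) (nat_lit 356) (nat_lit 286) (nat_lit 138))))) (XT.nd (nat_lit 234) (nat_lit 152) (nat_lit 0) (XT.nd (nat_lit 78) (nat_lit 0) (nat_lit 0) (XT.lf (nat_lit 0) (nat_lit 3672062002) (nat_lit 228) (nat_lit 5884604800) (nat_lit 304) (nat_lit 24691070476) (nat_lit 31) (nat_lit 5) (nat_lit 34) (nat_lit 5) (nat_lit 35) (nat_lit 5) (nat_lit 357) (nat_lit 286) (nat_lit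 137)) (XT.nd (nat_lit 78) (nat_lit 0) (nat_lit 0) (XT.lf (nat_lit 0) (nat_lit 13900420388) (nat_lit 304) (nat_lit 19701352602) (nat_lit 76) (nat_lit 1438263709) (nat_lit 31) (nat_lit 5) (nat_lit 35) (nat_lit 5) (nat_lit 32) (nat_lit 5) (nat_lit 358) (nat_lit 286) (nat_lit 136)) (XT.lf (nat_lit 0) (nat_lit 18427534940) (nat_lit 304) (nat_lit 8567032945) (nat_lit 76) (nat_lit 8859953775) (nat_lit 31) (nat_lit 5) (nat_lit 35) (nat_lit 5) (nat_lit 32) (nat_lit 5) (nat_lit 359) (nat_lit 286) (nat_lit 135)))) (XT.nd (nat_lit 78) (nat_lit 0) (nat_lit 0) (XT.lf (nat_lit 0) (nat_lit 2951167029) (nat_lit 152) (nat_lit 20162601158) (nat_lit 228) (nat_lit 13578981599) (nat_lit 29) (nat_lit 5) (nat_lit 31) (nat_lit 5) (nat_lit 32) (nat_lit 5) (nat_lit 360) (nat_lit 286) (nat_lit 134)) (XT.nd (nat_lit 78) (nat_lit 0) (nat_lit 0) (XT.lf (nat_lit 0) (nat_lit 14982867466) (nat_lit 152) (nat_lit 13039241866)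 (nat_lit 228) (nat_lit 9531577345) (nat_lit 29) (nat_lit 5) (nat_lit 31) (nat_lit 5) (nat_lit 32) (nat_lit 5) (nat_lit 361) (nat_lit 286) (nat_lit 133)) (XT.lf (nat_lit 0) (nat_lit 27368080747) (nat_lit 152) (nat_lit 5704775947) (nat_lit 228) (nat_lit 5367747628) (nat_lit 29) (nat_lit 5) (nat_lit 31) (nat_lit 5) (nat_lit 32) (nat_lit 5) (nat_lit 362) (nat_lit 286) (nat_lit 132)))))) (XT.nd (nat_lit 390) (nat_lit 228) (nat_lit 0) (XT.nd (nat_lit 156) (nat_lit 152) (nat_lit 0) (XT.nd (nat_lit 78) (nat_lit 76) (nat_lit 0) (XT.lf (nat_lit 0) (nat_lit 760433532) (nat_lit 152) (nat_lit 37535056237) (nat_lit 228) (nat_lit 1058035942) (nat_lit 27) (nat_lit 5) (nat_lit 29) (nat_lit 5) (nat_lit 30) (nat_lit 5) (nat_lit 363) (nat_lit 286) (nat_lit 131)) (XT.lf (nat_lit 0) (nat_lit 3479680715) (nat_lit 228) (nat_lit 27212589069) (nat_lit 76) (nat_lit 9595656013) (nat_lit 26) (nat_lit 5) (nat_lit 29) (nat_lit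 5) (nat_lit 27) (nat_lit 5) (nat_lit 364) (nat_lit 286) (nat_lit 130))) (XT.nd (nat_lit 78) (nat_lit 152) (nat_lit 0) (XT.lf (nat_lit 0) (nat_lit 8127688372) (nat_lit 228) (nat_lit 15508305682) (nat_lit 76) (nat_lit 17614193324) (nat_lit 26) (nat_lit 5) (nat_lit 29) (nat_lit 5) (nat_lit 27) (nat_lit 5) (nat_lit 365) (nat_lit 286) (nat_lit 129)) (XT.nd (nat_lit 78) (nat_lit 152) (nat_lit 0) (XT.lf (nat_lit 0) (nat_lit 12910694486) (nat_lit 228) (nat_lit 3459844486) (nat_lit 76) (nat_lit 25870917408) (nat_lit 26) (nat_lit 5) (nat_lit 29) (nat_lit 5) (nat_lit 27) (nat_lit 5) (nat_lit 366) (nat_lit 286) (nat_lit 128)) (XT.lf (nat_lit 0) (nat_lit 9121311950) (nat_lit 152) (nat_lit 8799246063) (nat_lit 228) (nat_lit 25339410560) (nat_lit 24) (nat_lit 5) (nat_lit 26) (nat_lit 5) (nat_lit 27) (nat_lit 5) (nat_lit 367) (nat_lit 286) (nat_lit 127))))) (XT.nd (nat_lit 234) (nat_lit 76) (nat_lit 0) (XT.nd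 (nat_lit 78) (nat_lit 152) (nat_lit 0) (XT.lf (nat_lit 0) (nat_lit 22144144414) (nat_lit 152) (nat_lit 967259648) (nat_lit 228) (nat_lit 21196717428) (nat_lit 24) (nat_lit 5) (nat_lit 26) (nat_lit 5) (nat_lit 27) (nat_lit 5) (nat_lit 368) (nat_lit 286) (nat_lit 126)) (XT.nd (nat_lit 78) (nat_lit 152) (nat_lit 0) (XT.lf (nat_lit 0) (nat_lit 28522072120) (nat_lit 228) (nat_lit 9904898047) (nat_lit 76) (nat_lit 6958831713) (nat_lit 24) (nat_lit 5) (nat_lit 27) (nat_lit 5) (nat_lit 25) (nat_lit 5) (nat_lit 369) (nat_lit 286) (nat_lit 125)) (XT.lf (nat_lit 0) (nat_lit 2759828411) (nat_lit 152) (nat_lit 31367308766) (nat_lit 228) (nat_lit 12367718814) (nat_lit 22) (nat_lit 5) (nat_lit 24) (nat_lit 5) (nat_lit 25) (nat_lit 5) (nat_lit 370) (nat_lit 286) (nat_lit 124)))) (XT.nd (nat_lit 78) (nat_lit 76) (nat_lit 0) (XT.lf (nat_lit 0) (nat_lit 16001197826) (nat_lit 152) (nat_lit 23995203790) (nat_lit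 228) (nat_lit 7637904138) (nat_lit 22) (nat_lit 5) (nat_lit 24) (nat_lit 5) (nat_lit 25) (nat_lit 5) (nat_lit 371) (nat_lit 286) (nat_lit 123)) (XT.nd (nat_lit 78) (nat_lit 76) (nat_lit 0) (XT.lf (nat_lit 0) (nat_lit 29633653432) (nat_lit 152) (nat_lit 16404233643) (nat_lit 228) (nat_lit 2770172934) (nat_lit 22) (nat_lit 5) (nat_lit 24) (nat_lit 5) (nat_lit 25) (nat_lit 5) (nat_lit 372) (nat_lit 286) (nat_lit 122)) (XT.lf (nat_lit 0) (nat_lit 2196022990) (nat_lit 228) (nat_lit 6369566924) (nat_lit 76) (nat_lit 41450908567) (nat_lit 21) (nat_lit 5) (nat_lit 24) (nat_lit 5) (nat_lit 22) (nat_lit 5) (nat_lit 373) (nat_lit 286) (nat_lit 121))))))) (XT.nd (nat_lit 858) (nat_lit 152) (nat_lit 0) (XT.nd (nat_lit 390) (nat_lit 152) (nat_lit 0) (XT.nd (nat_lit 156) (nat_lit 152) (nat_lit 0) (XT.nd (nat_lit 78) (nat_lit 0) (nat_lit 0) (XT.lf (nat_lit 0) (nat_lit 6921167789) (nat_lit 152) (nat_lit 397213371)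 (nat_lit 228) (nat_lit 43940105344) (nat_lit 19) (nat_lit 5) (nat_lit 21) (nat_lit 5) (nat_lit 22) (nat_lit 5) (nat_lit 374) (nat_lit 286) (nat_lit 120)) (XT.lf (nat_lit 0) (nat_lit 12732777407) (nat_lit 228) (nat_lit 31878218023) (nat_lit 76) (nat_lit 7922592421) (nat_lit 19) (nat_lit 5) (nat_lit 22) (nat_lit 5) (nat_lit 20) (nat_lit 5) (nat_lit 375) (nat_lit 286) (nat_lit 119))) (XT.nd (nat_lit 78) (nat_lit 152) (nat_lit 0) (XT.lf (nat_lit 0) (nat_lit 18309998156) (nat_lit 228) (nat_lit 19055019145) (nat_lit 76) (nat_lit 16481917727) (nat_lit 19) (nat_lit 5) (nat_lit 22) (nat_lit 5) (nat_lit 20) (nat_lit 5) (nat_lit 376) (nat_lit 286) (nat_lit 118)) (XT.nd (nat_lit 78) (nat_lit 152) (nat_lit 0) (XT.lf (nat_lit 0) (nat_lit 24051098448) (nat_lit 228) (nat_lit 5852699085) (nat_lit 76) (nat_lit 25295992631) (nat_lit 19) (nat_lit 5) (nat_lit 22) (nat_lit 5) (nat_lit 20) (nat_lit 5) (nat_lit 377)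 (nat_lit 286) (nat_lit 117)) (XT.lf (nat_lit 0) (nat_lit 7894324874) (nat_lit 152) (nat_lit 22142654984) (nat_lit 228) (nat_lit 26554078958) (nat_lit 17) (nat_lit 5) (nat_lit 19) (nat_lit 5) (nat_lit 20) (nat_lit 5) (nat_lit 378) (nat_lit 286) (nat_lit 116))))) (XT.nd (nat_lit 234) (nat_lit 152) (nat_lit 0) (XT.nd (nat_lit 78) (nat_lit 0) (nat_lit 0) (XT.lf (nat_lit 0) (nat_lit 22168374796) (nat_lit 152) (nat_lit 14089872406) (nat_lit 228) (nat_lit 21764148219) (nat_lit 17) (nat_lit 5) (nat_lit 19) (nat_lit 5) (nat_lit 20) (nat_lit 5) (nat_lit 379) (nat_lit 286) (nat_lit 115)) (XT.nd (nat_lit 78) (nat_lit 0) (nat_lit 0) (XT.lf (nat_lit 0) (nat_lit 36865442962) (nat_lit 152) (nat_lit 5797514173) (nat_lit 228) (nat_lit 16833814909) (nat_lit 17) (nat_lit 5) (nat_lit 19) (nat_lit 5) (nat_lit 20) (nat_lit 5) (nat_lit 380) (nat_lit 286) (nat_lit 114)) (XT.lf (nat_lit 0) (nat_lit 49283060573) (nat_lit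 228) (nat_lit 9043460069) (nat_lit 76) (nat_lit 2688165696) (nat_lit 17) (nat_lit 5) (nat_lit 20) (nat_lit 5) (nat_lit 18) (nat_lit 4) (nat_lit 381) (nat_lit 286) (nat_lit 113)))) (XT.nd (nat_lit 78) (nat_lit 76) (nat_lit 0) (XT.lf (nat_lit 0) (nat_lit 4986977213) (nat_lit 76) (nat_lit 51217098713) (nat_lit 152) (nat_lit 6370996696) (nat_lit 16) (nat_lit 5) (nat_lit 17) (nat_lit 5) (nat_lit 18) (nat_lit 4) (nat_lit 382) (nat_lit 286) (nat_lit 112)) (XT.nd (nat_lit 78) (nat_lit 76) (nat_lit 0) (XT.lf (nat_lit 0) (nat_lit 19618777954) (nat_lit 76) (nat_lit 43802275660) (nat_lit 152) (nat_lit 758570637) (nat_lit 16) (nat_lit 5) (nat_lit 17) (nat_lit 5) (nat_lit 18) (nat_lit 4) (nat_lit 383) (nat_lit 286) (nat_lit 111)) (XT.lf (nat_lit 0) (nat_lit 4921291898) (nat_lit 152) (nat_lit 31195906430) (nat_lit 76) (nat_lit 29713757334) (nat_lit 15) (nat_lit 5) (nat_lit 17) (nat_lit 5) (nat_lit 16) (nat_lit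 5) (nat_lit 384) (nat_lit 286) (nat_lit 110)))))) (XT.nd (nat_lit 33072) (nat_lit 0) (nat_lit 10868) (XT.nd (nat_lit 234) (nat_lit 0) (nat_lit 0) (XT.nd (nat_lit 78) (nat_lit 152) (nat_lit 0) (XT.lf (nat_lit 0) (nat_lit 10753454720) (nat_lit 152) (nat_lit 17442237693) (nat_lit 76) (nat_lit 39335998154) (nat_lit 15) (nat_lit 5) (nat_lit 17) (nat_lit 5) (nat_lit 16) (nat_lit 5) (nat_lit 385) (nat_lit 286) (nat_lit 109)) (XT.nd (nat_lit 78) (nat_lit 152) (nat_lit 0) (XT.lf (nat_lit 0) (nat_lit 16757816340) (nat_lit 152) (nat_lit 3280530473) (nat_lit 76) (nat_lit 49245186990) (nat_lit 15) (nat_lit 5) (nat_lit 17) (nat_lit 5) (nat_lit 16) (nat_lit 5) (nat_lit 386) (nat_lit 286) (nat_lit 108)) (XT.lf (nat_lit 0) (nat_lit 11526513329) (nat_lit 152) (nat_lit 11523909853) (nat_lit 228) (nat_lit 48034268923) (nat_lit 13) (nat_lit 5) (nat_lit 15) (nat_lit 5) (nat_lit 16) (nat_lit 5) (nat_lit 387) (nat_lit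 286) (nat_lit 107)))) (XT.nd (nat_lit 78) (nat_lit 0) (nat_lit 0) (XT.lf (nat_lit 0) (nat_lit 26840621192) (nat_lit 152) (nat_lit 2721664413) (nat_lit 228) (nat_lit 43376688340) (nat_lit 13) (nat_lit 5) (nat_lit 15) (nat_lit 5) (nat_lit 16) (nat_lit 5) (nat_lit 388) (nat_lit 286) (nat_lit 106)) (XT.nd (nat_lit 32682) (nat_lit 0) (nat_lit 11780) (XT.lf (nat_lit 0) (nat_lit 36327903876) (nat_lit 228) (nat_lit 32300051397) (nat_lit 76) (nat_lit 6219179987) (nat_lit 13) (nat_lit 5) (nat_lit 16) (nat_lit 5) (nat_lit 14) (nat_lit 4) (nat_lit 389) (nat_lit 286) (nat_lit 105)) (XT.lf (nat_lit 0) (nat_lit 3736047296) (nat_lit 988) (nat_lit 547756483) (nat_lit 988) (nat_lit 547756483) (nat_lit 168) (nat_lit 3) (nat_lit 181) (nat_lit 3) (nat_lit 181) (nat_lit 5) (nat_lit 287) (nat_lit 287) (nat_lit 206))))) (XT.nd (nat_lit 234) (nat_lit 912) (nat_lit 0) (XT.nd (nat_lit 78) (nat_lit 0) (nat_lit 0) (XT.lf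 (nat_lit 76) (nat_lit 2951460131) (nat_lit 0) (nat_lit 5336970124) (nat_lit 988) (nat_lit 1496511569) (nat_lit 169) (nat_lit 5) (nat_lit 168) (nat_lit 3) (nat_lit 181) (nat_lit 5) (nat_lit 288) (nat_lit 287) (nat_lit 205)) (XT.nd (nat_lit 78) (nat_lit 0) (nat_lit 76) (XT.lf (nat_lit 76) (nat_lit 7128404663) (nat_lit 0) (nat_lit 1985402470) (nat_lit 988) (nat_lit 797152067) (nat_lit 169) (nat_lit 5) (nat_lit 168) (nat_lit 3) (nat_lit 181) (nat_lit 5) (nat_lit 289) (nat_lit 287) (nat_lit 204)) (XT.lf (nat_lit 76) (nat_lit 1388439323) (nat_lit 0) (nat_lit 8577329993) (nat_lit 988) (nat_lit 75008763) (nat_lit 170) (nat_lit 5) (nat_lit 169) (nat_lit 5) (nat_lit 182) (nat_lit 5) (nat_lit 290) (nat_lit 287) (nat_lit 203)))) (XT.nd (nat_lit 78) (nat_lit 0) (nat_lit 0) (XT.lf (nat_lit 0) (nat_lit 678449647) (nat_lit 988) (nat_lit 4473299913) (nat_lit 1064) (nat_lit 5021939409) (nat_lit 156) (nat_lit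 5) (nat_lit 169) (nat_lit 5) (nat_lit 170) (nat_lit 5) (nat_lit 291) (nat_lit 287) (nat_lit 202)) (XT.nd (nat_lit 78) (nat_lit 0) (nat_lit 76) (XT.lf (nat_lit 0) (nat_lit 1428409532) (nat_lit 988) (nat_lit 184088317) (nat_lit 1064) (nat_lit 8698874172) (nat_lit 156) (nat_lit 5) (nat_lit 169) (nat_lit 5) (nat_lit 170) (nat_lit 5) (nat_lit 292) (nat_lit 287) (nat_lit 201)) (XT.lf (nat_lit 0) (nat_lit 2238406142) (nat_lit 988) (nat_lit 6169027566) (nat_lit 1064) (nat_lit 2044692978) (nat_lit 157) (nat_lit 5) (nat_lit 170) (nat_lit 5) (nat_lit 171) (nat_lit 5) (nat_lit 293) (nat_lit 287) (nat_lit 200))))))))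
noncomputable def xc183 : XT := (XT.nd (nat_lit 1794) (nat_lit 3724) (nat_lit 0) (XT.nd (nat_lit 858) (nat_lit 3192) (nat_lit 0) (XT.nd (nat_lit 390) (nat_lit 836) (nat_lit 0) (XT.nd (nat_lit 156) (nat_lit 0) (nat_lit 76) (XT.nd (nat_lit 78) (nat_lit 0) (nat_lit 0) (XT.lf (nat_lit 0) (nat_lit 3067319428) (nat_lit 988) (nat_lit 1739708595) (nat_lit 1064) (nat_lit 5790302766) (nat_lit 157) (nat_lit 5) (nat_lit 170) (nat_lit 5) (nat_lit 171) (nat_lit 5) (nat_lit 294) (nat_lit 287) (nat_lit 199)) (XT.lf (nat_lit 76) (nat_lit 2864055209) (nat_lit 0) (nat_lit 1062026553) (nat_lit 1064) (nat_lit 6820723201) (nat_lit 158) (nat_lit 5) (nat_lit 157) (nat_lit 5) (nat_lit 171) (nat_lit 5) (nat_lit 295) (nat_lit 287) (nat_lit 198))) (XT.nd (nat_lit 78) (nat_lit 0) (nat_lit 0) (XT.lf (nat_lit 0) (nat_lit 4833265395) (nat_lit 988) (nat_lit 3300666592) (nat_lit 1064) (nat_lit 2766213172) (nat_lit 158) (nat_lit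 5) (nat_lit 171) (nat_lit 5) (nat_lit 172) (nat_lit 5) (nat_lit 296) (nat_lit 287) (nat_lit 197)) (XT.nd (nat_lit 78) (nat_lit 0) (nat_lit 0) (XT.lf (nat_lit 76) (nat_lit 1421559821) (nat_lit 0) (nat_lit 4348970631) (nat_lit 1064) (nat_lit 5287528893) (nat_lit 159) (nat_lit 5) (nat_lit 158) (nat_lit 5) (nat_lit 172) (nat_lit 5) (nat_lit 297) (nat_lit 287) (nat_lit 196)) (XT.lf (nat_lit 76) (nat_lit 6338712164) (nat_lit 0) (nat_lit 409699819) (nat_lit 1064) (nat_lit 4471982035) (nat_lit 159) (nat_lit 5) (nat_lit 158) (nat_lit 5) (nat_lit 172) (nat_lit 5) (nat_lit 298) (nat_lit 287) (nat_lit 195))))) (XT.nd (nat_lit 234) (nat_lit 988) (nat_lit 0) (XT.nd (nat_lit 78) (nat_lit 0) (nat_lit 0) (XT.lf (nat_lit 0) (nat_lit 7770529381) (nat_lit 988) (nat_lit 33988980) (nat_lit 1064) (nat_lit 3582689715) (nat_lit 159) (nat_lit 5) (nat_lit 172) (nat_lit 5) (nat_lit 173) (nat_lit 5) (nat_lit 299) (nat_lit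 287) (nat_lit 194)) (XT.nd (nat_lit 78) (nat_lit 0) (nat_lit 76) (XT.lf (nat_lit 76) (nat_lit 5039133255) (nat_lit 0) (nat_lit 3817095065) (nat_lit 1064) (nat_lit 2701865385) (nat_lit 160) (nat_lit 5) (nat_lit 159) (nat_lit 5) (nat_lit 173) (nat_lit 5) (nat_lit 300) (nat_lit 287) (nat_lit 193)) (XT.lf (nat_lit 0) (nat_lit 9958536848) (nat_lit 988) (nat_lit 1486552474) (nat_lit 1064) (nat_lit 289548516) (nat_lit 160) (nat_lit 5) (nat_lit 173) (nat_lit 5) (nat_lit 174) (nat_lit 5) (nat_lit 301) (nat_lit 287) (nat_lit 192)))) (XT.nd (nat_lit 78) (nat_lit 1064) (nat_lit 0) (XT.lf (nat_lit 76) (nat_lit 3717189718) (nat_lit 0) (nat_lit 7431710818) (nat_lit 1064) (nat_lit 765979731) (nat_lit 161) (nat_lit 5) (nat_lit 160) (nat_lit 5) (nat_lit 174) (nat_lit 5) (nat_lit 302) (nat_lit 287) (nat_lit 191)) (XT.nd (nat_lit 78) (nat_lit 0) (nat_lit 76) (XT.lf (nat_lit 0) (nat_lit 265885083) (nat_lit 1064)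 (nat_lit 3010003201) (nat_lit 1140) (nat_lit 8824707269) (nat_lit 146) (nat_lit 5) (nat_lit 160) (nat_lit 5) (nat_lit 161) (nat_lit 5) (nat_lit 303) (nat_lit 287) (nat_lit 190)) (XT.lf (nat_lit 0) (nat_lit 1328133550) (nat_lit 1064) (nat_lit 9944040776) (nat_lit 76) (nat_lit 1019082934) (nat_lit 147) (nat_lit 5) (nat_lit 161) (nat_lit 5) (nat_lit 148) (nat_lit 5) (nat_lit 304) (nat_lit 287) (nat_lit 189)))))) (XT.nd (nat_lit 468) (nat_lit 1596) (nat_lit 0) (XT.nd (nat_lit 234) (nat_lit 608) (nat_lit 0) (XT.nd (nat_lit 78) (nat_lit 1064) (nat_lit 0) (XT.lf (nat_lit 0) (nat_lit 2467966584) (nat_lit 1064) (nat_lit 4607296584) (nat_lit 76) (nat_lit 5411049937) (nat_lit 147) (nat_lit 5) (nat_lit 161) (nat_lit 5) (nat_lit 148) (nat_lit 5) (nat_lit 305) (nat_lit 287) (nat_lit 188)) (XT.nd (nat_lit 78) (nat_lit 0) (nat_lit 0) (XT.lf (nat_lit 0) (nat_lit 892708714) (nat_lit 1064) (nat_lit 2740960849)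 (nat_lit 1140) (nat_lit 9053845278) (nat_lit 133) (nat_lit 5) (nat_lit 147) (nat_lit 5) (nat_lit 148) (nat_lit 5) (nat_lit 306) (nat_lit 287) (nat_lit 187)) (XT.lf (nat_lit 0) (nat_lit 4881368736) (nat_lit 1140) (nat_lit 6272908756) (nat_lit 76) (nat_lit 1739107557) (nat_lit 133) (nat_lit 5) (nat_lit 148) (nat_lit 5) (nat_lit 134) (nat_lit 5) (nat_lit 307) (nat_lit 287) (nat_lit 186)))) (XT.nd (nat_lit 78) (nat_lit 608) (nat_lit 0) (XT.lf (nat_lit 0) (nat_lit 6177592166) (nat_lit 1140) (nat_lit 626749357) (nat_lit 76) (nat_lit 6300798955) (nat_lit 133) (nat_lit 5) (nat_lit 148) (nat_lit 5) (nat_lit 134) (nat_lit 5) (nat_lit 308) (nat_lit 287) (nat_lit 185)) (XT.nd (nat_lit 78) (nat_lit 0) (nat_lit 0) (XT.lf (nat_lit 0) (nat_lit 5277945118) (nat_lit 608) (nat_lit 2269914402) (nat_lit 684) (nat_lit 5774375026) (nat_lit 125) (nat_lit 5) (nat_lit 133) (nat_lit 5) (nat_lit 134) (nat_lit 5) (nat_lit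 309) (nat_lit 287) (nat_lit 184)) (XT.lf (nat_lit 0) (nat_lit 8973461264) (nat_lit 684) (nat_lit 2210379368) (nat_lit 76) (nat_lit 2361613521) (nat_lit 125) (nat_lit 5) (nat_lit 134) (nat_lit 5) (nat_lit 126) (nat_lit 5) (nat_lit 310) (nat_lit 287) (nat_lit 183))))) (XT.nd (nat_lit 234) (nat_lit 532) (nat_lit 0) (XT.nd (nat_lit 78) (nat_lit 532) (nat_lit 0) (XT.lf (nat_lit 0) (nat_lit 3837146452) (nat_lit 532) (nat_lit 6649247164) (nat_lit 608) (nat_lit 3287678211) (nat_lit 118) (nat_lit 5) (nat_lit 125) (nat_lit 5) (nat_lit 126) (nat_lit 5) (nat_lit 311) (nat_lit 287) (nat_lit 182)) (XT.nd (nat_lit 78) (nat_lit 532) (nat_lit 0) (XT.lf (nat_lit 0) (nat_lit 10097740298) (nat_lit 532) (nat_lit 1954796885) (nat_lit 608) (nat_lit 1956813392) (nat_lit 118) (nat_lit 5) (nat_lit 125) (nat_lit 5) (nat_lit 126) (nat_lit 5) (nat_lit 312) (nat_lit 287) (nat_lit 181)) (XT.lf (nat_lit 0) (nat_lit 2297878770)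 (nat_lit 532) (nat_lit 11403496637) (nat_lit 608) (nat_lit 549277123) (nat_lit 111) (nat_lit 5) (nat_lit 118) (nat_lit 5) (nat_lit 119) (nat_lit 5) (nat_lit 313) (nat_lit 287) (nat_lit 180)))) (XT.nd (nat_lit 78) (nat_lit 456) (nat_lit 0) (XT.lf (nat_lit 0) (nat_lit 928199402) (nat_lit 608) (nat_lit 5766487032) (nat_lit 76) (nat_lit 7802922930) (nat_lit 110) (nat_lit 5) (nat_lit 118) (nat_lit 5) (nat_lit 111) (nat_lit 5) (nat_lit 314) (nat_lit 287) (nat_lit 179)) (XT.nd (nat_lit 78) (nat_lit 0) (nat_lit 0) (XT.lf (nat_lit 0) (nat_lit 598112878) (nat_lit 456) (nat_lit 1833044200) (nat_lit 532) (nat_lit 12320921859) (nat_lit 104) (nat_lit 5) (nat_lit 110) (nat_lit 5) (nat_lit 111) (nat_lit 5) (nat_lit 315) (nat_lit 287) (nat_lit 178)) (XT.lf (nat_lit 0) (nat_lit 4055237618) (nat_lit 532) (nat_lit 7785474629) (nat_lit 76) (nat_lit 3171221449) (nat_lit 104) (nat_lit 5) (nat_lit 111) (nat_lit 5)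 (nat_lit 105) (nat_lit 5) (nat_lit 316) (nat_lit 287) (nat_lit 177))))))) (XT.nd (nat_lit 858) (nat_lit 1596) (nat_lit 0) (XT.nd (nat_lit 390) (nat_lit 1292) (nat_lit 0) (XT.nd (nat_lit 156) (nat_lit 380) (nat_lit 0) (XT.nd (nat_lit 78) (nat_lit 456) (nat_lit 0) (XT.lf (nat_lit 0) (nat_lit 5733289190) (nat_lit 532) (nat_lit 1257481088) (nat_lit 76) (nat_lit 8288687549) (nat_lit 104) (nat_lit 5) (nat_lit 111) (nat_lit 5) (nat_lit 105) (nat_lit 5) (nat_lit 317) (nat_lit 287) (nat_lit 176)) (XT.lf (nat_lit 0) (nat_lit 5561871115) (nat_lit 456) (nat_lit 1940750703) (nat_lit 532) (nat_lit 8051187959) (nat_lit 98) (nat_lit 5) (nat_lit 104) (nat_lit 5) (nat_lit 105) (nat_lit 5) (nat_lit 318) (nat_lit 287) (nat_lit 175))) (XT.nd (nat_lit 78) (nat_lit 380) (nat_lit 0) (XT.lf (nat_lit 0) (nat_lit 9356913299) (nat_lit 532) (nat_lit 3269178382) (nat_lit 76) (nat_lit 3209373635) (nat_lit 98) (nat_lit 5)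 (nat_lit 105) (nat_lit 5) (nat_lit 99) (nat_lit 5) (nat_lit 319) (nat_lit 287) (nat_lit 174)) (XT.nd (nat_lit 78) (nat_lit 0) (nat_lit 0) (XT.lf (nat_lit 0) (nat_lit 3695266218) (nat_lit 380) (nat_lit 7614372306) (nat_lit 456) (nat_lit 4814676388) (nat_lit 93) (nat_lit 5) (nat_lit 98) (nat_lit 5) (nat_lit 99) (nat_lit 5) (nat_lit 320) (nat_lit 287) (nat_lit 173)) (XT.lf (nat_lit 0) (nat_lit 10922894405) (nat_lit 380) (nat_lit 2419356701) (nat_lit 456) (nat_lit 3078967432) (nat_lit 93) (nat_lit 5) (nat_lit 98) (nat_lit 5) (nat_lit 99) (nat_lit 5) (nat_lit 321) (nat_lit 287) (nat_lit 172))))) (XT.nd (nat_lit 234) (nat_lit 760) (nat_lit 0) (XT.nd (nat_lit 78) (nat_lit 76) (nat_lit 0) (XT.lf (nat_lit 0) (nat_lit 1631222817) (nat_lit 456) (nat_lit 13837103425) (nat_lit 532) (nat_lit 1257755408) (nat_lit 87) (nat_lit 5) (nat_lit 93) (nat_lit 5) (nat_lit 94) (nat_lit 5) (nat_lit 322) (nat_lit 287)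 (nat_lit 171)) (XT.nd (nat_lit 78) (nat_lit 0) (nat_lit 0) (XT.lf (nat_lit 0) (nat_lit 674756005) (nat_lit 532) (nat_lit 7994379990) (nat_lit 76) (nat_lit 8368740046) (nat_lit 86) (nat_lit 5) (nat_lit 93) (nat_lit 5) (nat_lit 87) (nat_lit 5) (nat_lit 323) (nat_lit 287) (nat_lit 170)) (XT.lf (nat_lit 0) (nat_lit 2628990506) (nat_lit 532) (nat_lit 705840966) (nat_lit 76) (nat_lit 14024173001) (nat_lit 86) (nat_lit 5) (nat_lit 93) (nat_lit 5) (nat_lit 87) (nat_lit 5) (nat_lit 324) (nat_lit 287) (nat_lit 169)))) (XT.nd (nat_lit 78) (nat_lit 380) (nat_lit 0) (XT.lf (nat_lit 0) (nat_lit 4719163178) (nat_lit 456) (nat_lit 10785180718) (nat_lit 76) (nat_lit 2183127429) (nat_lit 81) (nat_lit 5) (nat_lit 87) (nat_lit 5) (nat_lit 82) (nat_lit 5) (nat_lit 325) (nat_lit 287) (nat_lit 168)) (XT.nd (nat_lit 78) (nat_lit 380) (nat_lit 0) (XT.lf (nat_lit 0) (nat_lit 6901784081) (nat_lit 456) (nat_lit 3317871901)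 (nat_lit 76) (nat_lit 7805267116) (nat_lit 81) (nat_lit 5) (nat_lit 87) (nat_lit 5) (nat_lit 82) (nat_lit 5) (nat_lit 326) (nat_lit 287) (nat_lit 167)) (XT.lf (nat_lit 0) (nat_lit 4448277494) (nat_lit 380) (nat_lit 4734197465) (nat_lit 456) (nat_lit 9189068256) (nat_lit 76) (nat_lit 5) (nat_lit 81) (nat_lit 5) (nat_lit 82) (nat_lit 5) (nat_lit 327) (nat_lit 287) (nat_lit 166)))))) (XT.nd (nat_lit 468) (nat_lit 836) (nat_lit 0) (XT.nd (nat_lit 234) (nat_lit 456) (nat_lit 0) (XT.nd (nat_lit 78) (nat_lit 304) (nat_lit 0) (XT.lf (nat_lit 0) (nat_lit 11564221623) (nat_lit 456) (nat_lit 6233434071) (nat_lit 76) (nat_lit 929949065) (nat_lit 76) (nat_lit 5) (nat_lit 82) (nat_lit 5) (nat_lit 77) (nat_lit 5) (nat_lit 328) (nat_lit 287) (nat_lit 165)) (XT.nd (nat_lit 78) (nat_lit 0) (nat_lit 0) (XT.lf (nat_lit 0) (nat_lit 1660815589) (nat_lit 304) (nat_lit 12409730362) (nat_lit 380) (nat_lit 5022229676)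 (nat_lit 72) (nat_lit 5) (nat_lit 76) (nat_lit 5) (nat_lit 77) (nat_lit 5) (nat_lit 329) (nat_lit 287) (nat_lit 164)) (XT.lf (nat_lit 0) (nat_lit 9907975640) (nat_lit 304) (nat_lit 6797487543) (nat_lit 380) (nat_lit 2761856962) (nat_lit 72) (nat_lit 5) (nat_lit 76) (nat_lit 5) (nat_lit 77) (nat_lit 5) (nat_lit 330) (nat_lit 287) (nat_lit 163)))) (XT.nd (nat_lit 78) (nat_lit 456) (nat_lit 0) (XT.lf (nat_lit 0) (nat_lit 18391194779) (nat_lit 304) (nat_lit 1018968795) (nat_lit 380) (nat_lit 443235373) (nat_lit 72) (nat_lit 5) (nat_lit 76) (nat_lit 5) (nat_lit 77) (nat_lit 5) (nat_lit 331) (nat_lit 287) (nat_lit 162)) (XT.nd (nat_lit 78) (nat_lit 0) (nat_lit 0) (XT.lf (nat_lit 0) (nat_lit 2013273445) (nat_lit 456) (nat_lit 13312808013) (nat_lit 76) (nat_lit 4921248201) (nat_lit 66) (nat_lit 5) (nat_lit 72) (nat_lit 5) (nat_lit 67) (nat_lit 5) (nat_lit 332) (nat_lit 287) (nat_lit 161)) (XT.lf (nat_lit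 0) (nat_lit 4550604106) (nat_lit 456) (nat_lit 5065516534) (nat_lit 76) (nat_lit 11036363263) (nat_lit 66) (nat_lit 5) (nat_lit 72) (nat_lit 5) (nat_lit 67) (nat_lit 5) (nat_lit 333) (nat_lit 287) (nat_lit 160))))) (XT.nd (nat_lit 234) (nat_lit 532) (nat_lit 0) (XT.nd (nat_lit 78) (nat_lit 0) (nat_lit 0) (XT.lf (nat_lit 0) (nat_lit 3486172213) (nat_lit 304) (nat_lit 3702689601) (nat_lit 380) (nat_lit 13880204532) (nat_lit 62) (nat_lit 5) (nat_lit 66) (nat_lit 5) (nat_lit 67) (nat_lit 5) (nat_lit 334) (nat_lit 287) (nat_lit 159)) (XT.nd (nat_lit 78) (nat_lit 0) (nat_lit 0) (XT.lf (nat_lit 0) (nat_lit 9972303122) (nat_lit 380) (nat_lit 9133016661) (nat_lit 76) (nat_lit 2390862671) (nat_lit 62) (nat_lit 5) (nat_lit 67) (nat_lit 5) (nat_lit 63) (nat_lit 5) (nat_lit 335) (nat_lit 287) (nat_lit 158)) (XT.lf (nat_lit 0) (nat_lit 12867579151) (nat_lit 380) (nat_lit 477169118) (nat_lit 76) (nat_lit 8590530596)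 (nat_lit 62) (nat_lit 5) (nat_lit 67) (nat_lit 5) (nat_lit 63) (nat_lit 5) (nat_lit 336) (nat_lit 287) (nat_lit 157)))) (XT.nd (nat_lit 78) (nat_lit 228) (nat_lit 0) (XT.lf (nat_lit 0) (nat_lit 8595534205) (nat_lit 304) (nat_lit 7328718565) (nat_lit 380) (nat_lit 6461075497) (nat_lit 58) (nat_lit 5) (nat_lit 62) (nat_lit 5) (nat_lit 63) (nat_lit 5) (nat_lit 337) (nat_lit 287) (nat_lit 156)) (XT.nd (nat_lit 78) (nat_lit 228) (nat_lit 0) (XT.lf (nat_lit 0) (nat_lit 17939754078) (nat_lit 304) (nat_lit 1129739876) (nat_lit 380) (nat_lit 3779494978) (nat_lit 58) (nat_lit 5) (nat_lit 62) (nat_lit 5) (nat_lit 63) (nat_lit 5) (nat_lit 338) (nat_lit 287) (nat_lit 155)) (XT.lf (nat_lit 0) (nat_lit 4259987105) (nat_lit 228) (nat_lit 18132828331) (nat_lit 304) (nat_lit 931247631) (nat_lit 55) (nat_lit 5) (nat_lit 58) (nat_lit 5) (nat_lit 59) (nat_lit 5) (nat_lit 339) (nat_lit 287) (nat_lit 154))))))))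
noncomputable def xc184 : XT := (XT.nd (nat_lit 1716) (nat_lit 988) (nat_lit 0) (XT.nd (nat_lit 858) (nat_lit 836) (nat_lit 0) (XT.nd (nat_lit 390) (nat_lit 532) (nat_lit 0) (XT.nd (nat_lit 156) (nat_lit 532) (nat_lit 0) (XT.nd (nat_lit 78) (nat_lit 0) (nat_lit 0) (XT.lf (nat_lit 0) (nat_lit 2016916229) (nat_lit 304) (nat_lit 10048338753) (nat_lit 76) (nat_lit 11745965121) (nat_lit 54) (nat_lit 5) (nat_lit 58) (nat_lit 5) (nat_lit 55) (nat_lit 5) (nat_lit 340) (nat_lit 287) (nat_lit 153)) (XT.lf (nat_lit 0) (nat_lit 5027326328) (nat_lit 304) (nat_lit 781477512) (nat_lit 76) (nat_lit 18504149890) (nat_lit 54) (nat_lit 5) (nat_lit 58) (nat_lit 5) (nat_lit 55) (nat_lit 5) (nat_lit 341) (nat_lit 287) (nat_lit 152))) (XT.nd (nat_lit 78) (nat_lit 228) (nat_lit 0) (XT.lf (nat_lit 0) (nat_lit 8213536582) (nat_lit 380) (nat_lit 15906558928) (nat_lit 76) (nat_lit 707092851) (nat_lit 50) (nat_lit 5) (nat_lit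 55) (nat_lit 5) (nat_lit 51) (nat_lit 5) (nat_lit 342) (nat_lit 287) (nat_lit 151)) (XT.nd (nat_lit 78) (nat_lit 228) (nat_lit 0) (XT.lf (nat_lit 0) (nat_lit 11553645026) (nat_lit 380) (nat_lit 6494324345) (nat_lit 76) (nat_lit 7307144537) (nat_lit 50) (nat_lit 5) (nat_lit 55) (nat_lit 5) (nat_lit 51) (nat_lit 5) (nat_lit 343) (nat_lit 287) (nat_lit 150)) (XT.lf (nat_lit 0) (nat_lit 3254127385) (nat_lit 228) (nat_lit 11764148303) (nat_lit 304) (nat_lit 10879884813) (nat_lit 47) (nat_lit 5) (nat_lit 50) (nat_lit 5) (nat_lit 51) (nat_lit 5) (nat_lit 344) (nat_lit 287) (nat_lit 149))))) (XT.nd (nat_lit 234) (nat_lit 304) (nat_lit 0) (XT.nd (nat_lit 78) (nat_lit 228) (nat_lit 0) (XT.lf (nat_lit 0) (nat_lit 13418604920) (nat_lit 228) (nat_lit 5226969514) (nat_lit 304) (nat_lit 7810174660) (nat_lit 47) (nat_lit 5) (nat_lit 50) (nat_lit 5) (nat_lit 51) (nat_lit 5) (nat_lit 345) (nat_lit 287) (nat_lit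 148)) (XT.nd (nat_lit 78) (nat_lit 228) (nat_lit 0) (XT.lf (nat_lit 0) (nat_lit 22389495377) (nat_lit 304) (nat_lit 3165991416) (nat_lit 76) (nat_lit 1474356565) (nat_lit 47) (nat_lit 5) (nat_lit 51) (nat_lit 5) (nat_lit 48) (nat_lit 5) (nat_lit 346) (nat_lit 287) (nat_lit 147)) (XT.lf (nat_lit 0) (nat_lit 7078482934) (nat_lit 228) (nat_lit 19280563875) (nat_lit 304) (nat_lit 1258726012) (nat_lit 44) (nat_lit 5) (nat_lit 47) (nat_lit 5) (nat_lit 48) (nat_lit 5) (nat_lit 347) (nat_lit 287) (nat_lit 146)))) (XT.nd (nat_lit 78) (nat_lit 228) (nat_lit 0) (XT.lf (nat_lit 0) (nat_lit 2206771441) (nat_lit 304) (nat_lit 10558125116) (nat_lit 76) (nat_lit 15457038289) (nat_lit 43) (nat_lit 5) (nat_lit 47) (nat_lit 5) (nat_lit 44) (nat_lit 5) (nat_lit 348) (nat_lit 287) (nat_lit 145)) (XT.nd (nat_lit 78) (nat_lit 228) (nat_lit 0) (XT.lf (nat_lit 0) (nat_lit 5744667643) (nat_lit 304) (nat_lit 298955989)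 (nat_lit 76) (nat_lit 22800422993) (nat_lit 43) (nat_lit 5) (nat_lit 47) (nat_lit 5) (nat_lit 44) (nat_lit 5) (nat_lit 349) (nat_lit 287) (nat_lit 144)) (XT.lf (nat_lit 0) (nat_lit 9492620322) (nat_lit 304) (nat_lit 19027958921) (nat_lit 76) (nat_lit 961135373) (nat_lit 40) (nat_lit 5) (nat_lit 44) (nat_lit 5) (nat_lit 41) (nat_lit 5) (nat_lit 350) (nat_lit 287) (nat_lit 143)))))) (XT.nd (nat_lit 390) (nat_lit 456) (nat_lit 0) (XT.nd (nat_lit 156) (nat_lit 152) (nat_lit 0) (XT.nd (nat_lit 78) (nat_lit 228) (nat_lit 0) (XT.lf (nat_lit 0) (nat_lit 13409882755) (nat_lit 304) (nat_lit 8671898738) (nat_lit 76) (nat_lit 8055035162) (nat_lit 40) (nat_lit 5) (nat_lit 44) (nat_lit 5) (nat_lit 41) (nat_lit 5) (nat_lit 351) (nat_lit 287) (nat_lit 142)) (XT.lf (nat_lit 0) (nat_lit 2025844733) (nat_lit 228) (nat_lit 15432451748) (nat_lit 304) (nat_lit 13352876117) (nat_lit 37) (nat_lit 5) (nat_lit 40) (nat_lit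 5) (nat_lit 41) (nat_lit 5) (nat_lit 352) (nat_lit 287) (nat_lit 141))) (XT.nd (nat_lit 78) (nat_lit 152) (nat_lit 0) (XT.lf (nat_lit 0) (nat_lit 13213839515) (nat_lit 228) (nat_lit 8496140954) (nat_lit 304) (nat_lit 9793333778) (nat_lit 37) (nat_lit 5) (nat_lit 40) (nat_lit 5) (nat_lit 41) (nat_lit 5) (nat_lit 353) (nat_lit 287) (nat_lit 140)) (XT.nd (nat_lit 78) (nat_lit 152) (nat_lit 0) (XT.lf (nat_lit 0) (nat_lit 24729273737) (nat_lit 228) (nat_lit 1354357428) (nat_lit 304) (nat_lit 6132765776) (nat_lit 37) (nat_lit 5) (nat_lit 40) (nat_lit 5) (nat_lit 41) (nat_lit 5) (nat_lit 354) (nat_lit 287) (nat_lit 139)) (XT.lf (nat_lit 0) (nat_lit 3644617889) (nat_lit 152) (nat_lit 27031154012) (nat_lit 228) (nat_lit 2272490813) (nat_lit 35) (nat_lit 5) (nat_lit 37) (nat_lit 5) (nat_lit 38) (nat_lit 5) (nat_lit 355) (nat_lit 287) (nat_lit 138))))) (XT.nd (nat_lit 234) (nat_lit 152) (nat_lit 0) (XT.nd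 (nat_lit 78) (nat_lit 228) (nat_lit 0) (XT.lf (nat_lit 0) (nat_lit 1754686626) (nat_lit 228) (nat_lit 18474706185) (nat_lit 76) (nat_lit 13469678739) (nat_lit 34) (nat_lit 5) (nat_lit 37) (nat_lit 5) (nat_lit 35) (nat_lit 5) (nat_lit 356) (nat_lit 287) (nat_lit 137)) (XT.nd (nat_lit 78) (nat_lit 228) (nat_lit 0) (XT.lf (nat_lit 0) (nat_lit 5851736753) (nat_lit 228) (nat_lit 7351307805) (nat_lit 76) (nat_lit 21268851379) (nat_lit 34) (nat_lit 5) (nat_lit 37) (nat_lit 5) (nat_lit 35) (nat_lit 5) (nat_lit 357) (nat_lit 287) (nat_lit 136)) (XT.lf (nat_lit 0) (nat_lit 4179674870) (nat_lit 228) (nat_lit 5927086713) (nat_lit 304) (nat_lit 25160099584) (nat_lit 31) (nat_lit 5) (nat_lit 34) (nat_lit 5) (nat_lit 35) (nat_lit 5) (nat_lit 358) (nat_lit 287) (nat_lit 135)))) (XT.nd (nat_lit 78) (nat_lit 152) (nat_lit 0) (XT.lf (nat_lit 0) (nat_lit 14574407183) (nat_lit 304) (nat_lit 19899703271) (nat_lit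 76) (nat_lit 1609023572) (nat_lit 31) (nat_lit 5) (nat_lit 35) (nat_lit 5) (nat_lit 32) (nat_lit 5) (nat_lit 359) (nat_lit 287) (nat_lit 134)) (XT.nd (nat_lit 78) (nat_lit 152) (nat_lit 0) (XT.lf (nat_lit 0) (nat_lit 19229850486) (nat_lit 304) (nat_lit 8442791595) (nat_lit 76) (nat_lit 9249647488) (nat_lit 31) (nat_lit 5) (nat_lit 35) (nat_lit 5) (nat_lit 32) (nat_lit 5) (nat_lit 360) (nat_lit 287) (nat_lit 133)) (XT.lf (nat_lit 0) (nat_lit 3417216611) (nat_lit 152) (nat_lit 20635816337) (nat_lit 228) (nat_lit 13732751881) (nat_lit 29) (nat_lit 5) (nat_lit 31) (nat_lit 5) (nat_lit 32) (nat_lit 5) (nat_lit 361) (nat_lit 287) (nat_lit 132))))))) (XT.nd (nat_lit 858) (nat_lit 456) (nat_lit 0) (XT.nd (nat_lit 390) (nat_lit 304) (nat_lit 0) (XT.nd (nat_lit 156) (nat_lit 228) (nat_lit 0) (XT.nd (nat_lit 78) (nat_lit 0) (nat_lit 0) (XT.lf (nat_lit 0) (nat_lit 15798872491) (nat_lit 152) (nat_lit 13302591106)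 (nat_lit 228) (nat_lit 9571311883) (nat_lit 29) (nat_lit 5) (nat_lit 31) (nat_lit 5) (nat_lit 32) (nat_lit 5) (nat_lit 362) (nat_lit 287) (nat_lit 131)) (XT.lf (nat_lit 0) (nat_lit 28544966859) (nat_lit 152) (nat_lit 5751814356) (nat_lit 228) (nat_lit 5289738520) (nat_lit 29) (nat_lit 5) (nat_lit 31) (nat_lit 5) (nat_lit 32) (nat_lit 5) (nat_lit 363) (nat_lit 287) (nat_lit 130))) (XT.nd (nat_lit 78) (nat_lit 76) (nat_lit 0) (XT.lf (nat_lit 0) (nat_lit 1141651410) (nat_lit 152) (nat_lit 38532295630) (nat_lit 228) (nat_lit 852956324) (nat_lit 27) (nat_lit 5) (nat_lit 29) (nat_lit 5) (nat_lit 30) (nat_lit 5) (nat_lit 364) (nat_lit 287) (nat_lit 129)) (XT.nd (nat_lit 78) (nat_lit 0) (nat_lit 0) (XT.lf (nat_lit 0) (nat_lit 3809507517) (nat_lit 228) (nat_lit 27676193416) (nat_lit 76) (nat_lit 10003778742) (nat_lit 26) (nat_lit 5) (nat_lit 29) (nat_lit 5) (nat_lit 27) (nat_lit 5) (nat_lit 365) (nat_lit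 287) (nat_lit 128)) (XT.lf (nat_lit 0) (nat_lit 8590389296) (nat_lit 228) (nat_lit 15631056478) (nat_lit 76) (nat_lit 18259369656) (nat_lit 26) (nat_lit 5) (nat_lit 29) (nat_lit 5) (nat_lit 27) (nat_lit 5) (nat_lit 366) (nat_lit 287) (nat_lit 127))))) (XT.nd (nat_lit 234) (nat_lit 152) (nat_lit 0) (XT.nd (nat_lit 78) (nat_lit 152) (nat_lit 0) (XT.lf (nat_lit 0) (nat_lit 13510510731) (nat_lit 228) (nat_lit 3231117127) (nat_lit 76) (nat_lit 26760394962) (nat_lit 26) (nat_lit 5) (nat_lit 29) (nat_lit 5) (nat_lit 27) (nat_lit 5) (nat_lit 367) (nat_lit 287) (nat_lit 126)) (XT.nd (nat_lit 78) (nat_lit 0) (nat_lit 0) (XT.lf (nat_lit 0) (nat_lit 9724213975) (nat_lit 152) (nat_lit 8943432075) (nat_lit 228) (nat_lit 25883543859) (nat_lit 24) (nat_lit 5) (nat_lit 26) (nat_lit 5) (nat_lit 27) (nat_lit 5) (nat_lit 368) (nat_lit 287) (nat_lit 125)) (XT.lf (nat_lit 0) (nat_lit 23128141238) (nat_lit 152) (nat_lit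 879975137) (nat_lit 228) (nat_lit 21622862623) (nat_lit 24) (nat_lit 5) (nat_lit 26) (nat_lit 5) (nat_lit 27) (nat_lit 5) (nat_lit 369) (nat_lit 287) (nat_lit 124)))) (XT.nd (nat_lit 78) (nat_lit 152) (nat_lit 0) (XT.lf (nat_lit 0) (nat_lit 29576266479) (nat_lit 228) (nat_lit 9886568620) (nat_lit 76) (nat_lit 7278308144) (nat_lit 24) (nat_lit 5) (nat_lit 27) (nat_lit 5) (nat_lit 25) (nat_lit 5) (nat_lit 370) (nat_lit 287) (nat_lit 123)) (XT.nd (nat_lit 78) (nat_lit 0) (nat_lit 0) (XT.lf (nat_lit 0) (nat_lit 3155006726) (nat_lit 152) (nat_lit 32191697091) (nat_lit 228) (nat_lit 12536856609) (nat_lit 22) (nat_lit 5) (nat_lit 24) (nat_lit 5) (nat_lit 25) (nat_lit 5) (nat_lit 371) (nat_lit 287) (nat_lit 122)) (XT.lf (nat_lit 0) (nat_lit 16784518676) (nat_lit 152) (nat_lit 24601825983) (nat_lit 228) (nat_lit 7671027894) (nat_lit 22) (nat_lit 5) (nat_lit 24) (nat_lit 5) (nat_lit 25) (nat_lit 5) (nat_lit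 372) (nat_lit 287) (nat_lit 121)))))) (XT.nd (nat_lit 468) (nat_lit 228) (nat_lit 0) (XT.nd (nat_lit 234) (nat_lit 0) (nat_lit 0) (XT.nd (nat_lit 78) (nat_lit 228) (nat_lit 0) (XT.lf (nat_lit 0) (nat_lit 30817114409) (nat_lit 152) (nat_lit 16786424807) (nat_lit 228) (nat_lit 2662973882) (nat_lit 22) (nat_lit 5) (nat_lit 24) (nat_lit 5) (nat_lit 25) (nat_lit 5) (nat_lit 373) (nat_lit 287) (nat_lit 120)) (XT.nd (nat_lit 78) (nat_lit 152) (nat_lit 0) (XT.lf (nat_lit 0) (nat_lit 2443059718) (nat_lit 228) (nat_lit 6270934743) (nat_lit 76) (nat_lit 42797325585) (nat_lit 21) (nat_lit 5) (nat_lit 24) (nat_lit 5) (nat_lit 22) (nat_lit 5) (nat_lit 374) (nat_lit 287) (nat_lit 119)) (XT.lf (nat_lit 0) (nat_lit 7415681628) (nat_lit 152) (nat_lit 300888271) (nat_lit 228) (nat_lit 45074080325) (nat_lit 19) (nat_lit 5) (nat_lit 21) (nat_lit 5) (nat_lit 22) (nat_lit 5) (nat_lit 375) (nat_lit 287) (nat_lit 118))))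 (XT.nd (nat_lit 78) (nat_lit 0) (nat_lit 0) (XT.lf (nat_lit 0) (nat_lit 13289205183) (nat_lit 228) (nat_lit 32551623596) (nat_lit 76) (nat_lit 8263308369) (nat_lit 19) (nat_lit 5) (nat_lit 22) (nat_lit 5) (nat_lit 20) (nat_lit 5) (nat_lit 376) (nat_lit 287) (nat_lit 117)) (XT.nd (nat_lit 78) (nat_lit 0) (nat_lit 0) (XT.lf (nat_lit 0) (nat_lit 19028661647) (nat_lit 228) (nat_lit 19351969750) (nat_lit 76) (nat_lit 17076412322) (nat_lit 19) (nat_lit 5) (nat_lit 22) (nat_lit 5) (nat_lit 20) (nat_lit 5) (nat_lit 377) (nat_lit 287) (nat_lit 116)) (XT.lf (nat_lit 0) (nat_lit 24937062029) (nat_lit 228) (nat_lit 5761581059) (nat_lit 76) (nat_lit 26151995772) (nat_lit 19) (nat_lit 5) (nat_lit 22) (nat_lit 5) (nat_lit 20) (nat_lit 5) (nat_lit 378) (nat_lit 287) (nat_lit 115))))) (XT.nd (nat_lit 234) (nat_lit 76) (nat_lit 0) (XT.nd (nat_lit 78) (nat_lit 0) (nat_lit 0) (XT.lf (nat_lit 0) (nat_lit 8395238923)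 (nat_lit 152) (nat_lit 22705030257) (nat_lit 228) (nat_lit 27183450090) (nat_lit 17) (nat_lit 5) (nat_lit 19) (nat_lit 5) (nat_lit 20) (nat_lit 5) (nat_lit 379) (nat_lit 287) (nat_lit 114)) (XT.nd (nat_lit 78) (nat_lit 0) (nat_lit 0) (XT.lf (nat_lit 0) (nat_lit 23089818566) (nat_lit 152) (nat_lit 14413632291) (nat_lit 228) (nat_lit 22254692824) (nat_lit 17) (nat_lit 5) (nat_lit 19) (nat_lit 5) (nat_lit 20) (nat_lit 5) (nat_lit 380) (nat_lit 287) (nat_lit 113)) (XT.lf (nat_lit 0) (nat_lit 38220331035) (nat_lit 152) (nat_lit 5875384950) (nat_lit 228) (nat_lit 17181179025) (nat_lit 17) (nat_lit 5) (nat_lit 19) (nat_lit 5) (nat_lit 20) (nat_lit 5) (nat_lit 381) (nat_lit 287) (nat_lit 112)))) (XT.nd (nat_lit 78) (nat_lit 76) (nat_lit 0) (XT.lf (nat_lit 0) (nat_lit 50910866440) (nat_lit 228) (nat_lit 9069344800) (nat_lit 76) (nat_lit 2860247829) (nat_lit 17) (nat_lit 5) (nat_lit 20) (nat_lit 5) (nat_lit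 18) (nat_lit 4) (nat_lit 382) (nat_lit 287) (nat_lit 111)) (XT.nd (nat_lit 78) (nat_lit 0) (nat_lit 0) (XT.lf (nat_lit 0) (nat_lit 5379599532) (nat_lit 76) (nat_lit 52657899759) (nat_lit 152) (nat_lit 6410223528) (nat_lit 16) (nat_lit 5) (nat_lit 17) (nat_lit 5) (nat_lit 18) (nat_lit 4) (nat_lit 383) (nat_lit 287) (nat_lit 110)) (XT.lf (nat_lit 0) (nat_lit 20443276246) (nat_lit 76) (nat_lit 45023419740) (nat_lit 152) (nat_lit 633849048) (nat_lit 16) (nat_lit 5) (nat_lit 17) (nat_lit 5) (nat_lit 18) (nat_lit 4) (nat_lit 384) (nat_lit 287) (nat_lit 109))))))))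
noncomputable def xc185 : XT := (XT.nd (nat_lit 34476) (nat_lit 0) (nat_lit 4788) (XT.nd (nat_lit 33618) (nat_lit 0) (nat_lit 10108) (XT.nd (nat_lit 33150) (nat_lit 0) (nat_lit 10792) (XT.nd (nat_lit 156) (nat_lit 152) (nat_lit 0) (XT.nd (nat_lit 78) (nat_lit 0) (nat_lit 0) (XT.lf (nat_lit 0) (nat_lit 5209319846) (nat_lit 152) (nat_lit 31899759116) (nat_lit 76) (nat_lit 30692426269) (nat_lit 15) (nat_lit 5) (nat_lit 17) (nat_lit 5) (nat_lit 16) (nat_lit 5) (nat_lit 385) (nat_lit 287) (nat_lit 108)) (XT.lf (nat_lit 0) (nat_lit 11212358548) (nat_lit 152) (nat_lit 17740238312) (nat_lit 76) (nat_lit 40600792870) (nat_lit 15) (nat_lit 5) (nat_lit 17) (nat_lit 5) (nat_lit 16) (nat_lit 5) (nat_lit 386) (nat_lit 287) (nat_lit 107))) (XT.nd (nat_lit 78) (nat_lit 152) (nat_lit 0) (XT.lf (nat_lit 0) (nat_lit 17392881108) (nat_lit 152) (nat_lit 3160241036) (nat_lit 76) (nat_lit 50804789950) (nat_lit 15)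 (nat_lit 5) (nat_lit 17) (nat_lit 5) (nat_lit 16) (nat_lit 5) (nat_lit 387) (nat_lit 287) (nat_lit 106)) (XT.nd (nat_lit 32838) (nat_lit 0) (nat_lit 11780) (XT.lf (nat_lit 0) (nat_lit 12088869910) (nat_lit 152) (nat_lit 11783623684) (nat_lit 228) (nat_lit 49340669325) (nat_lit 13) (nat_lit 5) (nat_lit 15) (nat_lit 5) (nat_lit 16) (nat_lit 5) (nat_lit 388) (nat_lit 287) (nat_lit 105)) (XT.lf (nat_lit 0) (nat_lit 4517514718) (nat_lit 988) (nat_lit 218466048) (nat_lit 988) (nat_lit 218466048) (nat_lit 168) (nat_lit 3) (nat_lit 181) (nat_lit 3) (nat_lit 181) (nat_lit 5) (nat_lit 288) (nat_lit 288) (nat_lit 204))))) (XT.nd (nat_lit 234) (nat_lit 0) (nat_lit 76) (XT.nd (nat_lit 78) (nat_lit 988) (nat_lit 0) (XT.lf (nat_lit 76) (nat_lit 3724671309) (nat_lit 0) (nat_lit 6118771943) (nat_lit 988) (nat_lit 192013936) (nat_lit 169) (nat_lit 5) (nat_lit 168) (nat_lit 3) (nat_lit 181) (nat_lit 5) (nat_lit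 289) (nat_lit 288) (nat_lit 203)) (XT.nd (nat_lit 78) (nat_lit 0) (nat_lit 76) (XT.lf (nat_lit 0) (nat_lit 479481029) (nat_lit 988) (nat_lit 2164226857) (nat_lit 1064) (nat_lit 7522659561) (nat_lit 155) (nat_lit 5) (nat_lit 168) (nat_lit 3) (nat_lit 169) (nat_lit 5) (nat_lit 290) (nat_lit 288) (nat_lit 202)) (XT.lf (nat_lit 0) (nat_lit 1172519218) (nat_lit 988) (nat_lit 8177483433) (nat_lit 1064) (nat_lit 951056877) (nat_lit 156) (nat_lit 5) (nat_lit 169) (nat_lit 5) (nat_lit 170) (nat_lit 5) (nat_lit 291) (nat_lit 288) (nat_lit 201)))) (XT.nd (nat_lit 78) (nat_lit 0) (nat_lit 0) (XT.lf (nat_lit 0) (nat_lit 1910716382) (nat_lit 988) (nat_lit 3895185487) (nat_lit 1064) (nat_lit 4633226726) (nat_lit 156) (nat_lit 5) (nat_lit 169) (nat_lit 5) (nat_lit 170) (nat_lit 5) (nat_lit 292) (nat_lit 288) (nat_lit 200)) (XT.nd (nat_lit 78) (nat_lit 0) (nat_lit 76) (XT.lf (nat_lit 76) (nat_lit 511945360)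 (nat_lit 0) (nat_lit 2140852390) (nat_lit 1064) (nat_lit 7929155134) (nat_lit 157) (nat_lit 5) (nat_lit 156) (nat_lit 5) (nat_lit 170) (nat_lit 5) (nat_lit 293) (nat_lit 288) (nat_lit 199)) (XT.lf (nat_lit 0) (nat_lit 3450023775) (nat_lit 988) (nat_lit 5627164922) (nat_lit 1064) (nat_lit 1650950139) (nat_lit 157) (nat_lit 5) (nat_lit 170) (nat_lit 5) (nat_lit 171) (nat_lit 5) (nat_lit 294) (nat_lit 288) (nat_lit 198)))))) (XT.nd (nat_lit 390) (nat_lit 836) (nat_lit 0) (XT.nd (nat_lit 156) (nat_lit 0) (nat_lit 76) (XT.nd (nat_lit 78) (nat_lit 0) (nat_lit 0) (XT.lf (nat_lit 0) (nat_lit 4270470514) (nat_lit 988) (nat_lit 1086139201) (nat_lit 1064) (nat_lit 5522183083) (nat_lit 157) (nat_lit 5) (nat_lit 170) (nat_lit 5) (nat_lit 171) (nat_lit 5) (nat_lit 295) (nat_lit 288) (nat_lit 197)) (XT.lf (nat_lit 76) (nat_lit 3648818294) (nat_lit 0) (nat_lit 1480532061) (nat_lit 1064) (nat_lit 5904261192)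 (nat_lit 158) (nat_lit 5) (nat_lit 157) (nat_lit 5) (nat_lit 171) (nat_lit 5) (nat_lit 296) (nat_lit 288) (nat_lit 196))) (XT.nd (nat_lit 78) (nat_lit 0) (nat_lit 0) (XT.lf (nat_lit 0) (nat_lit 6028524985) (nat_lit 988) (nat_lit 2683030611) (nat_lit 1064) (nat_lit 2481141430) (nat_lit 158) (nat_lit 5) (nat_lit 171) (nat_lit 5) (nat_lit 172) (nat_lit 5) (nat_lit 297) (nat_lit 288) (nat_lit 195)) (XT.nd (nat_lit 78) (nat_lit 0) (nat_lit 0) (XT.lf (nat_lit 76) (nat_lit 2173836556) (nat_lit 0) (nat_lit 4796302689) (nat_lit 1064) (nat_lit 4386008220) (nat_lit 159) (nat_lit 5) (nat_lit 158) (nat_lit 5) (nat_lit 172) (nat_lit 5) (nat_lit 298) (nat_lit 288) (nat_lit 194)) (XT.lf (nat_lit 76) (nat_lit 7217834636) (nat_lit 0) (nat_lit 729624736) (nat_lit 1064) (nat_lit 3576873010) (nat_lit 159) (nat_lit 5) (nat_lit 158) (nat_lit 5) (nat_lit 172) (nat_lit 5) (nat_lit 299) (nat_lit 288) (nat_lit 193)))))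 (XT.nd (nat_lit 234) (nat_lit 988) (nat_lit 0) (XT.nd (nat_lit 78) (nat_lit 0) (nat_lit 0) (XT.lf (nat_lit 76) (nat_lit 681782497) (nat_lit 0) (nat_lit 8293113430) (nat_lit 1064) (nat_lit 2722096109) (nat_lit 160) (nat_lit 5) (nat_lit 159) (nat_lit 5) (nat_lit 173) (nat_lit 5) (nat_lit 300) (nat_lit 288) (nat_lit 192)) (XT.nd (nat_lit 78) (nat_lit 0) (nat_lit 76) (XT.lf (nat_lit 76) (nat_lit 5886897437) (nat_lit 0) (nat_lit 4178312770) (nat_lit 1064) (nat_lit 1808711184) (nat_lit 160) (nat_lit 5) (nat_lit 159) (nat_lit 5) (nat_lit 173) (nat_lit 5) (nat_lit 301) (nat_lit 288) (nat_lit 191)) (XT.lf (nat_lit 0) (nat_lit 11170810971) (nat_lit 988) (nat_lit 822530809) (nat_lit 1064) (nat_lit 63389581) (nat_lit 160) (nat_lit 5) (nat_lit 173) (nat_lit 5) (nat_lit 174) (nat_lit 5) (nat_lit 302) (nat_lit 288) (nat_lit 190)))) (XT.nd (nat_lit 78) (nat_lit 0) (nat_lit 0) (XT.lf (nat_lit 0) (nat_lit 131357941)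 (nat_lit 1064) (nat_lit 7713962329) (nat_lit 1140) (nat_lit 4397692013) (nat_lit 146) (nat_lit 5) (nat_lit 160) (nat_lit 5) (nat_lit 161) (nat_lit 5) (nat_lit 303) (nat_lit 288) (nat_lit 189)) (XT.nd (nat_lit 78) (nat_lit 0) (nat_lit 76) (XT.lf (nat_lit 0) (nat_lit 1152426326) (nat_lit 1064) (nat_lit 2399259628) (nat_lit 1140) (nat_lit 8883246000) (nat_lit 146) (nat_lit 5) (nat_lit 160) (nat_lit 5) (nat_lit 161) (nat_lit 5) (nat_lit 304) (nat_lit 288) (nat_lit 188)) (XT.lf (nat_lit 0) (nat_lit 2226035106) (nat_lit 1064) (nat_lit 9518554368) (nat_lit 76) (nat_lit 887406956) (nat_lit 147) (nat_lit 5) (nat_lit 161) (nat_lit 5) (nat_lit 148) (nat_lit 5) (nat_lit 305) (nat_lit 288) (nat_lit 187))))))) (XT.nd (nat_lit 858) (nat_lit 2128) (nat_lit 0) (XT.nd (nat_lit 390) (nat_lit 1596) (nat_lit 0) (XT.nd (nat_lit 156) (nat_lit 608) (nat_lit 0) (XT.nd (nat_lit 78) (nat_lit 1064) (nat_lit 0) (XT.lf (nat_lit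 0) (nat_lit 3375071163) (nat_lit 1064) (nat_lit 4042789626) (nat_lit 76) (nat_lit 5415858653) (nat_lit 147) (nat_lit 5) (nat_lit 161) (nat_lit 5) (nat_lit 148) (nat_lit 5) (nat_lit 306) (nat_lit 288) (nat_lit 186)) (XT.lf (nat_lit 0) (nat_lit 1615326363) (nat_lit 1064) (nat_lit 2942843629) (nat_lit 1140) (nat_lit 8483378315) (nat_lit 133) (nat_lit 5) (nat_lit 147) (nat_lit 5) (nat_lit 148) (nat_lit 5) (nat_lit 307) (nat_lit 288) (nat_lit 185))) (XT.nd (nat_lit 78) (nat_lit 608) (nat_lit 0) (XT.lf (nat_lit 0) (nat_lit 5818431306) (nat_lit 1140) (nat_lit 5758592568) (nat_lit 76) (nat_lit 1677378770) (nat_lit 133) (nat_lit 5) (nat_lit 148) (nat_lit 5) (nat_lit 134) (nat_lit 5) (nat_lit 308) (nat_lit 288) (nat_lit 184)) (XT.nd (nat_lit 78) (nat_lit 0) (nat_lit 0) (XT.lf (nat_lit 0) (nat_lit 37216576) (nat_lit 608) (nat_lit 7093654800) (nat_lit 684) (nat_lit 6342379616) (nat_lit 125) (nat_lit 5)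 (nat_lit 133) (nat_lit 5) (nat_lit 134) (nat_lit 5) (nat_lit 309) (nat_lit 288) (nat_lit 183)) (XT.lf (nat_lit 0) (nat_lit 6111638969) (nat_lit 608) (nat_lit 2414384866) (nat_lit 684) (nat_lit 5171379137) (nat_lit 125) (nat_lit 5) (nat_lit 133) (nat_lit 5) (nat_lit 134) (nat_lit 5) (nat_lit 310) (nat_lit 288) (nat_lit 182))))) (XT.nd (nat_lit 234) (nat_lit 1064) (nat_lit 0) (XT.nd (nat_lit 78) (nat_lit 532) (nat_lit 0) (XT.lf (nat_lit 0) (nat_lit 9971785864) (nat_lit 684) (nat_lit 1596507980) (nat_lit 76) (nat_lit 2359760257) (nat_lit 125) (nat_lit 5) (nat_lit 134) (nat_lit 5) (nat_lit 126) (nat_lit 5) (nat_lit 311) (nat_lit 288) (nat_lit 181)) (XT.nd (nat_lit 78) (nat_lit 0) (nat_lit 0) (XT.lf (nat_lit 0) (nat_lit 4625775156) (nat_lit 532) (nat_lit 6889568736) (nat_lit 608) (nat_lit 2648684334) (nat_lit 118) (nat_lit 5) (nat_lit 125) (nat_lit 5) (nat_lit 126) (nat_lit 5) (nat_lit 312) (nat_lit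 288) (nat_lit 180)) (XT.lf (nat_lit 0) (nat_lit 11054569895) (nat_lit 532) (nat_lit 2053095312) (nat_lit 608) (nat_lit 1299377771) (nat_lit 118) (nat_lit 5) (nat_lit 125) (nat_lit 5) (nat_lit 126) (nat_lit 5) (nat_lit 313) (nat_lit 288) (nat_lit 179)))) (XT.nd (nat_lit 78) (nat_lit 456) (nat_lit 0) (XT.lf (nat_lit 0) (nat_lit 133131328) (nat_lit 608) (nat_lit 11620319059) (nat_lit 76) (nat_lit 2902570176) (nat_lit 110) (nat_lit 5) (nat_lit 118) (nat_lit 5) (nat_lit 111) (nat_lit 5) (nat_lit 314) (nat_lit 288) (nat_lit 178)) (XT.nd (nat_lit 78) (nat_lit 456) (nat_lit 0) (XT.lf (nat_lit 0) (nat_lit 1623857849) (nat_lit 608) (nat_lit 5273851036) (nat_lit 76) (nat_lit 8013164010) (nat_lit 110) (nat_lit 5) (nat_lit 118) (nat_lit 5) (nat_lit 111) (nat_lit 5) (nat_lit 315) (nat_lit 288) (nat_lit 177)) (XT.lf (nat_lit 0) (nat_lit 1275161082) (nat_lit 456) (nat_lit 1883628044) (nat_lit 532) (nat_lit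 12014628370) (nat_lit 104) (nat_lit 5) (nat_lit 110) (nat_lit 5) (nat_lit 111) (nat_lit 5) (nat_lit 316) (nat_lit 288) (nat_lit 176)))))) (XT.nd (nat_lit 468) (nat_lit 1292) (nat_lit 0) (XT.nd (nat_lit 234) (nat_lit 380) (nat_lit 0) (XT.nd (nat_lit 78) (nat_lit 456) (nat_lit 0) (XT.lf (nat_lit 0) (nat_lit 4812564361) (nat_lit 532) (nat_lit 7358566772) (nat_lit 76) (nat_lit 3270553701) (nat_lit 104) (nat_lit 5) (nat_lit 111) (nat_lit 5) (nat_lit 105) (nat_lit 5) (nat_lit 317) (nat_lit 288) (nat_lit 175)) (XT.nd (nat_lit 78) (nat_lit 456) (nat_lit 0) (XT.lf (nat_lit 0) (nat_lit 6522442831) (nat_lit 532) (nat_lit 653970476) (nat_lit 76) (nat_lit 8541421581) (nat_lit 104) (nat_lit 5) (nat_lit 111) (nat_lit 5) (nat_lit 105) (nat_lit 5) (nat_lit 318) (nat_lit 288) (nat_lit 174)) (XT.lf (nat_lit 0) (nat_lit 6363675675) (nat_lit 456) (nat_lit 1969307889) (nat_lit 532) (nat_lit 7667833446) (nat_lit 98)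 (nat_lit 5) (nat_lit 104) (nat_lit 5) (nat_lit 105) (nat_lit 5) (nat_lit 319) (nat_lit 288) (nat_lit 173)))) (XT.nd (nat_lit 78) (nat_lit 380) (nat_lit 0) (XT.lf (nat_lit 0) (nat_lit 10225551039) (nat_lit 532) (nat_lit 2732039825) (nat_lit 76) (nat_lit 3333894124) (nat_lit 98) (nat_lit 5) (nat_lit 105) (nat_lit 5) (nat_lit 99) (nat_lit 5) (nat_lit 320) (nat_lit 288) (nat_lit 172)) (XT.nd (nat_lit 78) (nat_lit 0) (nat_lit 0) (XT.lf (nat_lit 0) (nat_lit 4435110526) (nat_lit 380) (nat_lit 7790669512) (nat_lit 456) (nat_lit 4363593336) (nat_lit 93) (nat_lit 5) (nat_lit 98) (nat_lit 5) (nat_lit 99) (nat_lit 5) (nat_lit 321) (nat_lit 288) (nat_lit 171)) (XT.lf (nat_lit 0) (nat_lit 11861247569) (nat_lit 380) (nat_lit 2441321904) (nat_lit 456) (nat_lit 2593158452) (nat_lit 93) (nat_lit 5) (nat_lit 98) (nat_lit 5) (nat_lit 99) (nat_lit 5) (nat_lit 322) (nat_lit 288) (nat_lit 170))))) (XT.nd (nat_lit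 234) (nat_lit 760) (nat_lit 0) (XT.nd (nat_lit 78) (nat_lit 76) (nat_lit 0) (XT.lf (nat_lit 0) (nat_lit 2302306584) (nat_lit 456) (nat_lit 14180260953) (nat_lit 532) (nat_lit 727503783) (nat_lit 87) (nat_lit 5) (nat_lit 93) (nat_lit 5) (nat_lit 94) (nat_lit 5) (nat_lit 323) (nat_lit 288) (nat_lit 169)) (XT.nd (nat_lit 78) (nat_lit 0) (nat_lit 0) (XT.lf (nat_lit 0) (nat_lit 1235679139) (nat_lit 532) (nat_lit 7618211342) (nat_lit 76) (nat_lit 8677688275) (nat_lit 86) (nat_lit 5) (nat_lit 93) (nat_lit 5) (nat_lit 87) (nat_lit 5) (nat_lit 324) (nat_lit 288) (nat_lit 168)) (XT.lf (nat_lit 0) (nat_lit 3232792701) (nat_lit 532) (nat_lit 128957896) (nat_lit 76) (nat_lit 14501098217) (nat_lit 86) (nat_lit 5) (nat_lit 93) (nat_lit 5) (nat_lit 87) (nat_lit 5) (nat_lit 325) (nat_lit 288) (nat_lit 167)))) (XT.nd (nat_lit 78) (nat_lit 380) (nat_lit 0) (XT.lf (nat_lit 0) (nat_lit 5376812616) (nat_lit 456)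 (nat_lit 10500676392) (nat_lit 76) (nat_lit 2323980708) (nat_lit 81) (nat_lit 5) (nat_lit 87) (nat_lit 5) (nat_lit 82) (nat_lit 5) (nat_lit 326) (nat_lit 288) (nat_lit 166)) (XT.nd (nat_lit 78) (nat_lit 380) (nat_lit 0) (XT.lf (nat_lit 0) (nat_lit 7609880849) (nat_lit 456) (nat_lit 2827058788) (nat_lit 76) (nat_lit 8112589650) (nat_lit 81) (nat_lit 5) (nat_lit 87) (nat_lit 5) (nat_lit 82) (nat_lit 5) (nat_lit 327) (nat_lit 288) (nat_lit 165)) (XT.lf (nat_lit 0) (nat_lit 5166287351) (nat_lit 380) (nat_lit 4783730772) (nat_lit 456) (nat_lit 8956831450) (nat_lit 76) (nat_lit 5) (nat_lit 81) (nat_lit 5) (nat_lit 82) (nat_lit 5) (nat_lit 328) (nat_lit 288) (nat_lit 164))))))))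
noncomputable def xc186 : XT := (XT.nd (nat_lit 1716) (nat_lit 1368) (nat_lit 0) (XT.nd (nat_lit 858) (nat_lit 1368) (nat_lit 0) (XT.nd (nat_lit 390) (nat_lit 608) (nat_lit 0) (XT.nd (nat_lit 156) (nat_lit 456) (nat_lit 0) (XT.nd (nat_lit 78) (nat_lit 304) (nat_lit 0) (XT.lf (nat_lit 0) (nat_lit 12389748282) (nat_lit 456) (nat_lit 5838386244) (nat_lit 76) (nat_lit 1045893899) (nat_lit 76) (nat_lit 5) (nat_lit 82) (nat_lit 5) (nat_lit 77) (nat_lit 5) (nat_lit 329) (nat_lit 288) (nat_lit 163)) (XT.lf (nat_lit 0) (nat_lit 2286984525) (nat_lit 304) (nat_lit 12675878185) (nat_lit 380) (nat_lit 4687574178) (nat_lit 72) (nat_lit 5) (nat_lit 76) (nat_lit 5) (nat_lit 77) (nat_lit 5) (nat_lit 330) (nat_lit 288) (nat_lit 162))) (XT.nd (nat_lit 78) (nat_lit 456) (nat_lit 0) (XT.lf (nat_lit 0) (nat_lit 10764772646) (nat_lit 304) (nat_lit 6898359656) (nat_lit 380) (nat_lit 2373525886) (nat_lit 72) (nat_lit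 5) (nat_lit 76) (nat_lit 5) (nat_lit 77) (nat_lit 5) (nat_lit 331) (nat_lit 288) (nat_lit 161)) (XT.nd (nat_lit 78) (nat_lit 380) (nat_lit 0) (XT.lf (nat_lit 0) (nat_lit 912306) (nat_lit 380) (nat_lit 948565357) (nat_lit 76) (nat_lit 19485269042) (nat_lit 71) (nat_lit 5) (nat_lit 76) (nat_lit 5) (nat_lit 72) (nat_lit 5) (nat_lit 332) (nat_lit 288) (nat_lit 160)) (XT.lf (nat_lit 0) (nat_lit 2515436541) (nat_lit 456) (nat_lit 13151401830) (nat_lit 76) (nat_lit 5173755532) (nat_lit 66) (nat_lit 5) (nat_lit 72) (nat_lit 5) (nat_lit 67) (nat_lit 5) (nat_lit 333) (nat_lit 288) (nat_lit 159))))) (XT.nd (nat_lit 234) (nat_lit 304) (nat_lit 0) (XT.nd (nat_lit 78) (nat_lit 304) (nat_lit 0) (XT.lf (nat_lit 0) (nat_lit 5116020183) (nat_lit 456) (nat_lit 4673025308) (nat_lit 76) (nat_lit 11469269582) (nat_lit 66) (nat_lit 5) (nat_lit 72) (nat_lit 5) (nat_lit 67) (nat_lit 5) (nat_lit 334) (nat_lit 288) (nat_lit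 158)) (XT.nd (nat_lit 78) (nat_lit 0) (nat_lit 0) (XT.lf (nat_lit 0) (nat_lit 4129876290) (nat_lit 304) (nat_lit 3696239500) (nat_lit 380) (nat_lit 13861524021) (nat_lit 62) (nat_lit 5) (nat_lit 66) (nat_lit 5) (nat_lit 67) (nat_lit 5) (nat_lit 335) (nat_lit 288) (nat_lit 157)) (XT.lf (nat_lit 0) (nat_lit 10681877943) (nat_lit 380) (nat_lit 8871582251) (nat_lit 76) (nat_lit 2574469464) (nat_lit 62) (nat_lit 5) (nat_lit 67) (nat_lit 5) (nat_lit 63) (nat_lit 5) (nat_lit 336) (nat_lit 288) (nat_lit 156)))) (XT.nd (nat_lit 78) (nat_lit 0) (nat_lit 0) (XT.lf (nat_lit 0) (nat_lit 28909954) (nat_lit 304) (nat_lit 13623426633) (nat_lit 380) (nat_lit 8928236704) (nat_lit 58) (nat_lit 5) (nat_lit 62) (nat_lit 5) (nat_lit 63) (nat_lit 5) (nat_lit 337) (nat_lit 288) (nat_lit 155)) (XT.nd (nat_lit 78) (nat_lit 0) (nat_lit 0) (XT.lf (nat_lit 0) (nat_lit 9368133868) (nat_lit 304) (nat_lit 7425641179) (nat_lit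 380) (nat_lit 6250580550) (nat_lit 58) (nat_lit 5) (nat_lit 62) (nat_lit 5) (nat_lit 63) (nat_lit 5) (nat_lit 338) (nat_lit 288) (nat_lit 154)) (XT.lf (nat_lit 0) (nat_lit 18977688096) (nat_lit 304) (nat_lit 1044273875) (nat_lit 380) (nat_lit 3500329136) (nat_lit 58) (nat_lit 5) (nat_lit 62) (nat_lit 5) (nat_lit 63) (nat_lit 5) (nat_lit 339) (nat_lit 288) (nat_lit 153)))))) (XT.nd (nat_lit 390) (nat_lit 760) (nat_lit 0) (XT.nd (nat_lit 156) (nat_lit 304) (nat_lit 0) (XT.nd (nat_lit 78) (nat_lit 76) (nat_lit 0) (XT.lf (nat_lit 0) (nat_lit 4893540797) (nat_lit 228) (nat_lit 18546338723) (nat_lit 304) (nat_lit 571913073) (nat_lit 55) (nat_lit 5) (nat_lit 58) (nat_lit 5) (nat_lit 59) (nat_lit 5) (nat_lit 340) (nat_lit 288) (nat_lit 152)) (XT.lf (nat_lit 0) (nat_lit 2446078973) (nat_lit 304) (nat_lit 9850736733) (nat_lit 76) (nat_lit 12216989499) (nat_lit 54) (nat_lit 5) (nat_lit 58) (nat_lit 5)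 (nat_lit 55) (nat_lit 5) (nat_lit 341) (nat_lit 288) (nat_lit 151))) (XT.nd (nat_lit 78) (nat_lit 304) (nat_lit 0) (XT.lf (nat_lit 0) (nat_lit 5536063843) (nat_lit 304) (nat_lit 320405154) (nat_lit 76) (nat_lit 19174464120) (nat_lit 54) (nat_lit 5) (nat_lit 58) (nat_lit 5) (nat_lit 55) (nat_lit 5) (nat_lit 342) (nat_lit 288) (nat_lit 150)) (XT.nd (nat_lit 78) (nat_lit 0) (nat_lit 0) (XT.lf (nat_lit 0) (nat_lit 8813274588) (nat_lit 380) (nat_lit 15894001068) (nat_lit 76) (nat_lit 853476268) (nat_lit 50) (nat_lit 5) (nat_lit 55) (nat_lit 5) (nat_lit 51) (nat_lit 5) (nat_lit 343) (nat_lit 288) (nat_lit 149)) (XT.lf (nat_lit 0) (nat_lit 12243295066) (nat_lit 380) (nat_lit 6213664146) (nat_lit 76) (nat_lit 7647883758) (nat_lit 50) (nat_lit 5) (nat_lit 55) (nat_lit 5) (nat_lit 51) (nat_lit 5) (nat_lit 344) (nat_lit 288) (nat_lit 148))))) (XT.nd (nat_lit 234) (nat_lit 532) (nat_lit 0) (XT.nd (nat_lit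 78) (nat_lit 0) (nat_lit 0) (XT.lf (nat_lit 0) (nat_lit 3822579471) (nat_lit 228) (nat_lit 11983819590) (nat_lit 304) (nat_lit 10857964309) (nat_lit 47) (nat_lit 5) (nat_lit 50) (nat_lit 5) (nat_lit 51) (nat_lit 5) (nat_lit 345) (nat_lit 288) (nat_lit 147)) (XT.nd (nat_lit 78) (nat_lit 0) (nat_lit 0) (XT.lf (nat_lit 0) (nat_lit 14278277887) (nat_lit 228) (nat_lit 5254406597) (nat_lit 304) (nat_lit 7706308007) (nat_lit 47) (nat_lit 5) (nat_lit 50) (nat_lit 5) (nat_lit 51) (nat_lit 5) (nat_lit 346) (nat_lit 288) (nat_lit 146)) (XT.lf (nat_lit 0) (nat_lit 23380584529) (nat_lit 304) (nat_lit 2808252428) (nat_lit 76) (nat_lit 1641740163) (nat_lit 47) (nat_lit 5) (nat_lit 51) (nat_lit 5) (nat_lit 48) (nat_lit 5) (nat_lit 347) (nat_lit 288) (nat_lit 145)))) (XT.nd (nat_lit 78) (nat_lit 304) (nat_lit 0) (XT.lf (nat_lit 0) (nat_lit 7739117733) (nat_lit 228) (nat_lit 19725110878) (nat_lit 304) (nat_lit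 972082550) (nat_lit 44) (nat_lit 5) (nat_lit 47) (nat_lit 5) (nat_lit 48) (nat_lit 5) (nat_lit 348) (nat_lit 288) (nat_lit 144)) (XT.nd (nat_lit 78) (nat_lit 228) (nat_lit 0) (XT.lf (nat_lit 0) (nat_lit 2581785194) (nat_lit 304) (nat_lit 10432969089) (nat_lit 76) (nat_lit 16044044049) (nat_lit 43) (nat_lit 5) (nat_lit 47) (nat_lit 5) (nat_lit 44) (nat_lit 5) (nat_lit 349) (nat_lit 288) (nat_lit 143)) (XT.lf (nat_lit 0) (nat_lit 123514456) (nat_lit 228) (nat_lit 6094496638) (nat_lit 304) (nat_lit 23481812029) (nat_lit 40) (nat_lit 5) (nat_lit 43) (nat_lit 5) (nat_lit 44) (nat_lit 5) (nat_lit 350) (nat_lit 288) (nat_lit 142))))))) (XT.nd (nat_lit 858) (nat_lit 684) (nat_lit 0) (XT.nd (nat_lit 390) (nat_lit 456) (nat_lit 0) (XT.nd (nat_lit 156) (nat_lit 228) (nat_lit 0) (XT.nd (nat_lit 78) (nat_lit 0) (nat_lit 0) (XT.lf (nat_lit 0) (nat_lit 10073812533) (nat_lit 304) (nat_lit 19165866447) (nat_lit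 76) (nat_lit 1117094862) (nat_lit 40) (nat_lit 5) (nat_lit 44) (nat_lit 5) (nat_lit 41) (nat_lit 5) (nat_lit 351) (nat_lit 288) (nat_lit 141)) (XT.lf (nat_lit 0) (nat_lit 14099959433) (nat_lit 304) (nat_lit 8511734107) (nat_lit 76) (nat_lit 8420108963) (nat_lit 40) (nat_lit 5) (nat_lit 44) (nat_lit 5) (nat_lit 41) (nat_lit 5) (nat_lit 352) (nat_lit 288) (nat_lit 140))) (XT.nd (nat_lit 78) (nat_lit 0) (nat_lit 0) (XT.lf (nat_lit 0) (nat_lit 2502820868) (nat_lit 228) (nat_lit 15762623532) (nat_lit 304) (nat_lit 13461090293) (nat_lit 37) (nat_lit 5) (nat_lit 40) (nat_lit 5) (nat_lit 41) (nat_lit 5) (nat_lit 353) (nat_lit 288) (nat_lit 139)) (XT.nd (nat_lit 78) (nat_lit 0) (nat_lit 0) (XT.lf (nat_lit 0) (nat_lit 14014333141) (nat_lit 228) (nat_lit 8622091427) (nat_lit 304) (nat_lit 9803277377) (nat_lit 37) (nat_lit 5) (nat_lit 40) (nat_lit 5) (nat_lit 41) (nat_lit 5) (nat_lit 354) (nat_lit 288)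 (nat_lit 138)) (XT.lf (nat_lit 0) (nat_lit 25863461114) (nat_lit 228) (nat_lit 1269809748) (nat_lit 304) (nat_lit 6041159997) (nat_lit 37) (nat_lit 5) (nat_lit 40) (nat_lit 5) (nat_lit 41) (nat_lit 5) (nat_lit 355) (nat_lit 288) (nat_lit 137))))) (XT.nd (nat_lit 234) (nat_lit 228) (nat_lit 0) (XT.nd (nat_lit 78) (nat_lit 76) (nat_lit 0) (XT.lf (nat_lit 0) (nat_lit 4149602997) (nat_lit 152) (nat_lit 27710763755) (nat_lit 228) (nat_lit 2067983058) (nat_lit 35) (nat_lit 5) (nat_lit 37) (nat_lit 5) (nat_lit 38) (nat_lit 5) (nat_lit 356) (nat_lit 288) (nat_lit 136)) (XT.nd (nat_lit 78) (nat_lit 0) (nat_lit 0) (XT.lf (nat_lit 0) (nat_lit 2066901461) (nat_lit 228) (nat_lit 18639252063) (nat_lit 76) (nat_lit 13995696561) (nat_lit 34) (nat_lit 5) (nat_lit 37) (nat_lit 5) (nat_lit 35) (nat_lit 5) (nat_lit 357) (nat_lit 288) (nat_lit 135)) (XT.lf (nat_lit 0) (nat_lit 6279302676) (nat_lit 228) (nat_lit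 7193502081) (nat_lit 76) (nat_lit 22025293095) (nat_lit 34) (nat_lit 5) (nat_lit 37) (nat_lit 5) (nat_lit 35) (nat_lit 5) (nat_lit 358) (nat_lit 288) (nat_lit 134)))) (XT.nd (nat_lit 78) (nat_lit 0) (nat_lit 0) (XT.lf (nat_lit 0) (nat_lit 4679700810) (nat_lit 228) (nat_lit 5978538460) (nat_lit 304) (nat_lit 25658796429) (nat_lit 31) (nat_lit 5) (nat_lit 34) (nat_lit 5) (nat_lit 35) (nat_lit 5) (nat_lit 359) (nat_lit 288) (nat_lit 133)) (XT.nd (nat_lit 78) (nat_lit 0) (nat_lit 0) (XT.lf (nat_lit 0) (nat_lit 15253862212) (nat_lit 304) (nat_lit 20126546467) (nat_lit 76) (nat_lit 1777580783) (nat_lit 31) (nat_lit 5) (nat_lit 35) (nat_lit 5) (nat_lit 32) (nat_lit 5) (nat_lit 360) (nat_lit 288) (nat_lit 132)) (XT.lf (nat_lit 0) (nat_lit 20041913780) (nat_lit 304) (nat_lit 8336708448) (nat_lit 76) (nat_lit 9643919926) (nat_lit 31) (nat_lit 5) (nat_lit 35) (nat_lit 5) (nat_lit 32) (nat_lit 5) (nat_lit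 361) (nat_lit 288) (nat_lit 131)))))) (XT.nd (nat_lit 468) (nat_lit 304) (nat_lit 0) (XT.nd (nat_lit 234) (nat_lit 228) (nat_lit 0) (XT.nd (nat_lit 78) (nat_lit 0) (nat_lit 0) (XT.lf (nat_lit 0) (nat_lit 3875576799) (nat_lit 152) (nat_lit 21130785957) (nat_lit 228) (nat_lit 13905692901) (nat_lit 29) (nat_lit 5) (nat_lit 31) (nat_lit 5) (nat_lit 32) (nat_lit 5) (nat_lit 362) (nat_lit 288) (nat_lit 130)) (XT.nd (nat_lit 78) (nat_lit 0) (nat_lit 0) (XT.lf (nat_lit 0) (nat_lit 16618317976) (nat_lit 152) (nat_lit 13581178674) (nat_lit 228) (nat_lit 9626372078) (nat_lit 29) (nat_lit 5) (nat_lit 31) (nat_lit 5) (nat_lit 32) (nat_lit 5) (nat_lit 363) (nat_lit 288) (nat_lit 129)) (XT.lf (nat_lit 0) (nat_lit 29736732672) (nat_lit 152) (nat_lit 5807388044) (nat_lit 228) (nat_lit 5223111101) (nat_lit 29) (nat_lit 5) (nat_lit 31) (nat_lit 5) (nat_lit 32) (nat_lit 5) (nat_lit 364) (nat_lit 288) (nat_lit 128))))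 (XT.nd (nat_lit 78) (nat_lit 76) (nat_lit 0) (XT.lf (nat_lit 0) (nat_lit 1513731918) (nat_lit 152) (nat_lit 39566846558) (nat_lit 228) (nat_lit 655318794) (nat_lit 27) (nat_lit 5) (nat_lit 29) (nat_lit 5) (nat_lit 30) (nat_lit 5) (nat_lit 365) (nat_lit 288) (nat_lit 127)) (XT.nd (nat_lit 78) (nat_lit 0) (nat_lit 0) (XT.lf (nat_lit 0) (nat_lit 4136288152) (nat_lit 228) (nat_lit 28173956525) (nat_lit 76) (nat_lit 10417242136) (nat_lit 26) (nat_lit 5) (nat_lit 29) (nat_lit 5) (nat_lit 27) (nat_lit 5) (nat_lit 366) (nat_lit 288) (nat_lit 126)) (XT.lf (nat_lit 0) (nat_lit 9054407198) (nat_lit 228) (nat_lit 15777150607) (nat_lit 76) (nat_lit 18917199320) (nat_lit 26) (nat_lit 5) (nat_lit 29) (nat_lit 5) (nat_lit 27) (nat_lit 5) (nat_lit 367) (nat_lit 288) (nat_lit 125))))) (XT.nd (nat_lit 234) (nat_lit 152) (nat_lit 0) (XT.nd (nat_lit 78) (nat_lit 152) (nat_lit 0) (XT.lf (nat_lit 0) (nat_lit 14116123357)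 (nat_lit 228) (nat_lit 3014616111) (nat_lit 76) (nat_lit 27670050088) (nat_lit 26) (nat_lit 5) (nat_lit 29) (nat_lit 5) (nat_lit 27) (nat_lit 5) (nat_lit 368) (nat_lit 288) (nat_lit 124)) (XT.nd (nat_lit 78) (nat_lit 0) (nat_lit 0) (XT.lf (nat_lit 0) (nat_lit 10326302037) (nat_lit 152) (nat_lit 9098820183) (nat_lit 228) (nat_lit 26456403254) (nat_lit 24) (nat_lit 5) (nat_lit 26) (nat_lit 5) (nat_lit 27) (nat_lit 5) (nat_lit 369) (nat_lit 288) (nat_lit 123)) (XT.lf (nat_lit 0) (nat_lit 24123307458) (nat_lit 152) (nat_lit 796748319) (nat_lit 228) (nat_lit 22073833045) (nat_lit 24) (nat_lit 5) (nat_lit 26) (nat_lit 5) (nat_lit 27) (nat_lit 5) (nat_lit 370) (nat_lit 288) (nat_lit 122)))) (XT.nd (nat_lit 78) (nat_lit 152) (nat_lit 0) (XT.lf (nat_lit 0) (nat_lit 30650690108) (nat_lit 228) (nat_lit 9885798945) (nat_lit 76) (nat_lit 7601013575) (nat_lit 24) (nat_lit 5) (nat_lit 27) (nat_lit 5) (nat_lit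 25) (nat_lit 5) (nat_lit 371) (nat_lit 288) (nat_lit 121)) (XT.nd (nat_lit 78) (nat_lit 0) (nat_lit 0) (XT.lf (nat_lit 0) (nat_lit 3544108302) (nat_lit 152) (nat_lit 33047512158) (nat_lit 228) (nat_lit 12722658067) (nat_lit 22) (nat_lit 5) (nat_lit 24) (nat_lit 5) (nat_lit 25) (nat_lit 5) (nat_lit 372) (nat_lit 288) (nat_lit 120)) (XT.lf (nat_lit 0) (nat_lit 17573929357) (nat_lit 152) (nat_lit 25233146932) (nat_lit 228) (nat_lit 7716397332) (nat_lit 22) (nat_lit 5) (nat_lit 24) (nat_lit 5) (nat_lit 25) (nat_lit 5) (nat_lit 373) (nat_lit 288) (nat_lit 119))))))))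
noncomputable def xc187 : XT := (XT.nd (nat_lit 34632) (nat_lit 0) (nat_lit 6764) (XT.nd (nat_lit 858) (nat_lit 76) (nat_lit 0) (XT.nd (nat_lit 390) (nat_lit 228) (nat_lit 0) (XT.nd (nat_lit 156) (nat_lit 152) (nat_lit 0) (XT.nd (nat_lit 78) (nat_lit 76) (nat_lit 0) (XT.lf (nat_lit 0) (nat_lit 32019176502) (nat_lit 152) (nat_lit 17186392474) (nat_lit 228) (nat_lit 2563483099) (nat_lit 22) (nat_lit 5) (nat_lit 24) (nat_lit 5) (nat_lit 25) (nat_lit 5) (nat_lit 374) (nat_lit 288) (nat_lit 118)) (XT.lf (nat_lit 0) (nat_lit 2687108450) (nat_lit 228) (nat_lit 6185974662) (nat_lit 76) (nat_lit 44178228821) (nat_lit 21) (nat_lit 5) (nat_lit 24) (nat_lit 5) (nat_lit 22) (nat_lit 5) (nat_lit 375) (nat_lit 288) (nat_lit 117))) (XT.nd (nat_lit 78) (nat_lit 0) (nat_lit 0) (XT.lf (nat_lit 0) (nat_lit 7908562865) (nat_lit 152) (nat_lit 207886922) (nat_lit 228) (nat_lit 46252650008) (nat_lit 19) (nat_lit 5)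 (nat_lit 21) (nat_lit 5) (nat_lit 22) (nat_lit 5) (nat_lit 376) (nat_lit 288) (nat_lit 116)) (XT.nd (nat_lit 78) (nat_lit 0) (nat_lit 0) (XT.lf (nat_lit 0) (nat_lit 13852311967) (nat_lit 228) (nat_lit 33261473305) (nat_lit 76) (nat_lit 8608330982) (nat_lit 19) (nat_lit 5) (nat_lit 22) (nat_lit 5) (nat_lit 20) (nat_lit 5) (nat_lit 377) (nat_lit 288) (nat_lit 115)) (XT.lf (nat_lit 0) (nat_lit 19759162883) (nat_lit 228) (nat_lit 19673597776) (nat_lit 76) (nat_lit 17682999218) (nat_lit 19) (nat_lit 5) (nat_lit 22) (nat_lit 5) (nat_lit 20) (nat_lit 5) (nat_lit 378) (nat_lit 288) (nat_lit 114))))) (XT.nd (nat_lit 234) (nat_lit 76) (nat_lit 0) (XT.nd (nat_lit 78) (nat_lit 152) (nat_lit 0) (XT.lf (nat_lit 0) (nat_lit 25840165528) (nat_lit 228) (nat_lit 5683039106) (nat_lit 76) (nat_lit 27028103729) (nat_lit 19) (nat_lit 5) (nat_lit 22) (nat_lit 5) (nat_lit 20) (nat_lit 5) (nat_lit 379) (nat_lit 288)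 (nat_lit 113)) (XT.nd (nat_lit 78) (nat_lit 0) (nat_lit 0) (XT.lf (nat_lit 0) (nat_lit 8896020874) (nat_lit 152) (nat_lit 23290126517) (nat_lit 228) (nat_lit 27841303261) (nat_lit 17) (nat_lit 5) (nat_lit 19) (nat_lit 5) (nat_lit 20) (nat_lit 5) (nat_lit 380) (nat_lit 288) (nat_lit 112)) (XT.lf (nat_lit 0) (nat_lit 24024187670) (nat_lit 152) (nat_lit 14752784320) (nat_lit 228) (nat_lit 22769275035) (nat_lit 17) (nat_lit 5) (nat_lit 19) (nat_lit 5) (nat_lit 20) (nat_lit 5) (nat_lit 381) (nat_lit 288) (nat_lit 111)))) (XT.nd (nat_lit 78) (nat_lit 76) (nat_lit 0) (XT.lf (nat_lit 0) (nat_lit 39601576448) (nat_lit 152) (nat_lit 5961105780) (nat_lit 228) (nat_lit 17548013838) (nat_lit 17) (nat_lit 5) (nat_lit 19) (nat_lit 5) (nat_lit 20) (nat_lit 5) (nat_lit 382) (nat_lit 288) (nat_lit 110)) (XT.nd (nat_lit 78) (nat_lit 76) (nat_lit 0) (XT.lf (nat_lit 0) (nat_lit 52578935246) (nat_lit 228) (nat_lit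 9110094132) (nat_lit 76) (nat_lit 3032243558) (nat_lit 17) (nat_lit 5) (nat_lit 20) (nat_lit 5) (nat_lit 18) (nat_lit 4) (nat_lit 383) (nat_lit 288) (nat_lit 109)) (XT.lf (nat_lit 0) (nat_lit 5770050579) (nat_lit 76) (nat_lit 54147419091) (nat_lit 152) (nat_lit 6459347022) (nat_lit 16) (nat_lit 5) (nat_lit 17) (nat_lit 5) (nat_lit 18) (nat_lit 4) (nat_lit 384) (nat_lit 288) (nat_lit 108)))))) (XT.nd (nat_lit 33306) (nat_lit 0) (nat_lit 10640) (XT.nd (nat_lit 234) (nat_lit 0) (nat_lit 0) (XT.nd (nat_lit 78) (nat_lit 76) (nat_lit 0) (XT.lf (nat_lit 0) (nat_lit 21278965855) (nat_lit 76) (nat_lit 46286532371) (nat_lit 152) (nat_lit 513851693) (nat_lit 16) (nat_lit 5) (nat_lit 17) (nat_lit 5) (nat_lit 18) (nat_lit 4) (nat_lit 385) (nat_lit 288) (nat_lit 107)) (XT.nd (nat_lit 78) (nat_lit 0) (nat_lit 0) (XT.lf (nat_lit 0) (nat_lit 5497929719) (nat_lit 152) (nat_lit 32638046538) (nat_lit 76) (nat_lit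 31695446407) (nat_lit 15) (nat_lit 5) (nat_lit 17) (nat_lit 5) (nat_lit 16) (nat_lit 5) (nat_lit 386) (nat_lit 288) (nat_lit 106)) (XT.lf (nat_lit 0) (nat_lit 11677205302) (nat_lit 152) (nat_lit 18060110169) (nat_lit 76) (nat_lit 41898668453) (nat_lit 15) (nat_lit 5) (nat_lit 17) (nat_lit 5) (nat_lit 16) (nat_lit 5) (nat_lit 387) (nat_lit 288) (nat_lit 105)))) (XT.nd (nat_lit 32916) (nat_lit 0) (nat_lit 10640) (XT.lf (nat_lit 0) (nat_lit 18039401519) (nat_lit 152) (nat_lit 3048897498) (nat_lit 76) (nat_lit 52406459665) (nat_lit 15) (nat_lit 5) (nat_lit 17) (nat_lit 5) (nat_lit 16) (nat_lit 5) (nat_lit 388) (nat_lit 288) (nat_lit 104)) (XT.nd (nat_lit 78) (nat_lit 0) (nat_lit 0) (XT.lf (nat_lit 0) (nat_lit 99868382) (nat_lit 0) (nat_lit 99868382) (nat_lit 988) (nat_lit 4882432621) (nat_lit 155) (nat_lit 5) (nat_lit 155) (nat_lit 3) (nat_lit 168) (nat_lit 3) (nat_lit 289) (nat_lit 289) (nat_lit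 202)) (XT.lf (nat_lit 0) (nat_lit 1053197257) (nat_lit 988) (nat_lit 5824507627) (nat_lit 1064) (nat_lit 3417943629) (nat_lit 155) (nat_lit 5) (nat_lit 168) (nat_lit 3) (nat_lit 169) (nat_lit 5) (nat_lit 290) (nat_lit 289) (nat_lit 201))))) (XT.nd (nat_lit 234) (nat_lit 0) (nat_lit 76) (XT.nd (nat_lit 78) (nat_lit 0) (nat_lit 76) (XT.lf (nat_lit 0) (nat_lit 1704654122) (nat_lit 988) (nat_lit 1575075312) (nat_lit 1064) (nat_lit 7151891731) (nat_lit 155) (nat_lit 5) (nat_lit 168) (nat_lit 3) (nat_lit 169) (nat_lit 5) (nat_lit 291) (nat_lit 289) (nat_lit 200)) (XT.nd (nat_lit 78) (nat_lit 0) (nat_lit 0) (XT.lf (nat_lit 0) (nat_lit 2384309596) (nat_lit 988) (nat_lit 7731241505) (nat_lit 1064) (nat_lit 455927549) (nat_lit 156) (nat_lit 5) (nat_lit 169) (nat_lit 5) (nat_lit 170) (nat_lit 5) (nat_lit 292) (nat_lit 289) (nat_lit 199)) (XT.lf (nat_lit 0) (nat_lit 3110382341) (nat_lit 988) (nat_lit 3340617333)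 (nat_lit 1064) (nat_lit 4263814757) (nat_lit 156) (nat_lit 5) (nat_lit 169) (nat_lit 5) (nat_lit 170) (nat_lit 5) (nat_lit 293) (nat_lit 289) (nat_lit 198)))) (XT.nd (nat_lit 78) (nat_lit 0) (nat_lit 76) (XT.lf (nat_lit 76) (nat_lit 1192144854) (nat_lit 0) (nat_lit 2655699987) (nat_lit 1064) (nat_lit 7014978766) (nat_lit 157) (nat_lit 5) (nat_lit 156) (nat_lit 5) (nat_lit 170) (nat_lit 5) (nat_lit 294) (nat_lit 289) (nat_lit 197)) (XT.nd (nat_lit 78) (nat_lit 0) (nat_lit 0) (XT.lf (nat_lit 0) (nat_lit 4632292938) (nat_lit 988) (nat_lit 5110775354) (nat_lit 1064) (nat_lit 1271518675) (nat_lit 157) (nat_lit 5) (nat_lit 170) (nat_lit 5) (nat_lit 171) (nat_lit 5) (nat_lit 295) (nat_lit 289) (nat_lit 196)) (XT.lf (nat_lit 0) (nat_lit 5445932640) (nat_lit 988) (nat_lit 453476274) (nat_lit 1064) (nat_lit 5271382587) (nat_lit 157) (nat_lit 5) (nat_lit 170) (nat_lit 5) (nat_lit 171) (nat_lit 5) (nat_lit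 296) (nat_lit 289) (nat_lit 195))))))) (XT.nd (nat_lit 858) (nat_lit 3192) (nat_lit 0) (XT.nd (nat_lit 390) (nat_lit 836) (nat_lit 0) (XT.nd (nat_lit 156) (nat_lit 0) (nat_lit 76) (XT.nd (nat_lit 78) (nat_lit 0) (nat_lit 76) (XT.lf (nat_lit 76) (nat_lit 4417007916) (nat_lit 0) (nat_lit 1889397747) (nat_lit 1064) (nat_lit 5024660113) (nat_lit 158) (nat_lit 5) (nat_lit 157) (nat_lit 5) (nat_lit 171) (nat_lit 5) (nat_lit 297) (nat_lit 289) (nat_lit 194)) (XT.lf (nat_lit 0) (nat_lit 7199353047) (nat_lit 988) (nat_lit 2088004535) (nat_lit 1064) (nat_lit 2208645579) (nat_lit 158) (nat_lit 5) (nat_lit 171) (nat_lit 5) (nat_lit 172) (nat_lit 5) (nat_lit 298) (nat_lit 289) (nat_lit 193))) (XT.nd (nat_lit 78) (nat_lit 0) (nat_lit 0) (XT.lf (nat_lit 76) (nat_lit 2907945931) (nat_lit 0) (nat_lit 5238865481) (nat_lit 1064) (nat_lit 3518298674) (nat_lit 159) (nat_lit 5) (nat_lit 158) (nat_lit 5) (nat_lit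 172) (nat_lit 5) (nat_lit 299) (nat_lit 289) (nat_lit 192)) (XT.nd (nat_lit 78) (nat_lit 0) (nat_lit 76) (XT.lf (nat_lit 76) (nat_lit 8083781596) (nat_lit 0) (nat_lit 1041487954) (nat_lit 1064) (nat_lit 2713994937) (nat_lit 159) (nat_lit 5) (nat_lit 158) (nat_lit 5) (nat_lit 172) (nat_lit 5) (nat_lit 300) (nat_lit 289) (nat_lit 191)) (XT.lf (nat_lit 76) (nat_lit 1378537121) (nat_lit 0) (nat_lit 8781426108) (nat_lit 1064) (nat_lit 1857923883) (nat_lit 160) (nat_lit 5) (nat_lit 159) (nat_lit 5) (nat_lit 173) (nat_lit 5) (nat_lit 301) (nat_lit 289) (nat_lit 190))))) (XT.nd (nat_lit 234) (nat_lit 0) (nat_lit 0) (XT.nd (nat_lit 78) (nat_lit 988) (nat_lit 0) (XT.lf (nat_lit 76) (nat_lit 6720107417) (nat_lit 0) (nat_lit 4536205138) (nat_lit 1064) (nat_lit 944686007) (nat_lit 160) (nat_lit 5) (nat_lit 159) (nat_lit 5) (nat_lit 173) (nat_lit 5) (nat_lit 302) (nat_lit 289) (nat_lit 189)) (XT.nd (nat_lit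 78) (nat_lit 988) (nat_lit 0) (XT.lf (nat_lit 76) (nat_lit 12209364579) (nat_lit 0) (nat_lit 159179195) (nat_lit 1064) (nat_lit 21617011) (nat_lit 160) (nat_lit 5) (nat_lit 159) (nat_lit 5) (nat_lit 173) (nat_lit 5) (nat_lit 303) (nat_lit 289) (nat_lit 188)) (XT.lf (nat_lit 0) (nat_lit 988274106) (nat_lit 1064) (nat_lit 7264756277) (nat_lit 1140) (nat_lit 4329426184) (nat_lit 146) (nat_lit 5) (nat_lit 160) (nat_lit 5) (nat_lit 161) (nat_lit 5) (nat_lit 304) (nat_lit 289) (nat_lit 187)))) (XT.nd (nat_lit 78) (nat_lit 0) (nat_lit 76) (XT.lf (nat_lit 0) (nat_lit 2015130598) (nat_lit 1064) (nat_lit 1810436522) (nat_lit 1140) (nat_lit 8955377759) (nat_lit 146) (nat_lit 5) (nat_lit 160) (nat_lit 5) (nat_lit 161) (nat_lit 5) (nat_lit 305) (nat_lit 289) (nat_lit 186)) (XT.nd (nat_lit 78) (nat_lit 0) (nat_lit 0) (XT.lf (nat_lit 0) (nat_lit 3101617695) (nat_lit 1064) (nat_lit 9121852886) (nat_lit 76)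 (nat_lit 761094425) (nat_lit 147) (nat_lit 5) (nat_lit 161) (nat_lit 5) (nat_lit 148) (nat_lit 5) (nat_lit 306) (nat_lit 289) (nat_lit 185)) (XT.lf (nat_lit 0) (nat_lit 4261567508) (nat_lit 1064) (nat_lit 3501686797) (nat_lit 76) (nat_lit 5429854082) (nat_lit 147) (nat_lit 5) (nat_lit 161) (nat_lit 5) (nat_lit 148) (nat_lit 5) (nat_lit 307) (nat_lit 289) (nat_lit 184)))))) (XT.nd (nat_lit 468) (nat_lit 1064) (nat_lit 0) (XT.nd (nat_lit 234) (nat_lit 532) (nat_lit 0) (XT.nd (nat_lit 78) (nat_lit 608) (nat_lit 0) (XT.lf (nat_lit 0) (nat_lit 2319678685) (nat_lit 1064) (nat_lit 3143914265) (nat_lit 1140) (nat_lit 7944136313) (nat_lit 133) (nat_lit 5) (nat_lit 147) (nat_lit 5) (nat_lit 148) (nat_lit 5) (nat_lit 308) (nat_lit 289) (nat_lit 183)) (XT.nd (nat_lit 78) (nat_lit 608) (nat_lit 0) (XT.lf (nat_lit 0) (nat_lit 6738220845) (nat_lit 1140) (nat_lit 5269173465) (nat_lit 76) (nat_lit 1620336561)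 (nat_lit 133) (nat_lit 5) (nat_lit 148) (nat_lit 5) (nat_lit 134) (nat_lit 5) (nat_lit 309) (nat_lit 289) (nat_lit 182)) (XT.lf (nat_lit 0) (nat_lit 694018023) (nat_lit 608) (nat_lit 7380613018) (nat_lit 684) (nat_lit 5779032423) (nat_lit 125) (nat_lit 5) (nat_lit 133) (nat_lit 5) (nat_lit 134) (nat_lit 5) (nat_lit 310) (nat_lit 289) (nat_lit 181)))) (XT.nd (nat_lit 78) (nat_lit 532) (nat_lit 0) (XT.lf (nat_lit 0) (nat_lit 6931575467) (nat_lit 608) (nat_lit 2558805320) (nat_lit 684) (nat_lit 4594851985) (nat_lit 125) (nat_lit 5) (nat_lit 133) (nat_lit 5) (nat_lit 134) (nat_lit 5) (nat_lit 311) (nat_lit 289) (nat_lit 180)) (XT.nd (nat_lit 78) (nat_lit 532) (nat_lit 0) (XT.lf (nat_lit 0) (nat_lit 10958205688) (nat_lit 684) (nat_lit 1003265724) (nat_lit 76) (nat_lit 2362024769) (nat_lit 125) (nat_lit 5) (nat_lit 134) (nat_lit 5) (nat_lit 126) (nat_lit 5) (nat_lit 312) (nat_lit 289) (nat_lit 179))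 (XT.lf (nat_lit 0) (nat_lit 5399400244) (nat_lit 532) (nat_lit 7134755333) (nat_lit 608) (nat_lit 2032863288) (nat_lit 118) (nat_lit 5) (nat_lit 125) (nat_lit 5) (nat_lit 126) (nat_lit 5) (nat_lit 313) (nat_lit 289) (nat_lit 178))))) (XT.nd (nat_lit 234) (nat_lit 456) (nat_lit 0) (XT.nd (nat_lit 78) (nat_lit 608) (nat_lit 0) (XT.lf (nat_lit 0) (nat_lit 12002567996) (nat_lit 532) (nat_lit 2152066361) (nat_lit 608) (nat_lit 663328448) (nat_lit 118) (nat_lit 5) (nat_lit 125) (nat_lit 5) (nat_lit 126) (nat_lit 5) (nat_lit 314) (nat_lit 289) (nat_lit 177)) (XT.nd (nat_lit 78) (nat_lit 0) (nat_lit 0) (XT.lf (nat_lit 0) (nat_lit 785486885) (nat_lit 608) (nat_lit 11322685323) (nat_lit 76) (nat_lit 2966495235) (nat_lit 110) (nat_lit 5) (nat_lit 118) (nat_lit 5) (nat_lit 111) (nat_lit 5) (nat_lit 315) (nat_lit 289) (nat_lit 176)) (XT.lf (nat_lit 0) (nat_lit 2302050883) (nat_lit 608) (nat_lit 4804645879)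 (nat_lit 76) (nat_lit 8231081216) (nat_lit 110) (nat_lit 5) (nat_lit 118) (nat_lit 5) (nat_lit 111) (nat_lit 5) (nat_lit 316) (nat_lit 289) (nat_lit 175)))) (XT.nd (nat_lit 78) (nat_lit 0) (nat_lit 0) (XT.lf (nat_lit 0) (nat_lit 1934685419) (nat_lit 456) (nat_lit 1935982411) (nat_lit 532) (nat_lit 11737946715) (nat_lit 104) (nat_lit 5) (nat_lit 110) (nat_lit 5) (nat_lit 111) (nat_lit 5) (nat_lit 317) (nat_lit 289) (nat_lit 174)) (XT.nd (nat_lit 78) (nat_lit 0) (nat_lit 0) (XT.lf (nat_lit 0) (nat_lit 5556120870) (nat_lit 532) (nat_lit 6956765479) (nat_lit 76) (nat_lit 3372625074) (nat_lit 104) (nat_lit 5) (nat_lit 111) (nat_lit 5) (nat_lit 105) (nat_lit 5) (nat_lit 318) (nat_lit 289) (nat_lit 173)) (XT.lf (nat_lit 0) (nat_lit 7299843862) (nat_lit 532) (nat_lit 69164060) (nat_lit 76) (nat_lit 8801503804) (nat_lit 104) (nat_lit 5) (nat_lit 111) (nat_lit 5) (nat_lit 105) (nat_lit 5) (nat_lit 319)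 (nat_lit 289) (nat_lit 172))))))))
noncomputable def xc188 : XT := (XT.nd (nat_lit 1716) (nat_lit 1976) (nat_lit 0) (XT.nd (nat_lit 858) (nat_lit 1596) (nat_lit 0) (XT.nd (nat_lit 390) (nat_lit 836) (nat_lit 0) (XT.nd (nat_lit 156) (nat_lit 836) (nat_lit 0) (XT.nd (nat_lit 78) (nat_lit 0) (nat_lit 0) (XT.lf (nat_lit 0) (nat_lit 7153085735) (nat_lit 456) (nat_lit 2000424701) (nat_lit 532) (nat_lit 7308849549) (nat_lit 98) (nat_lit 5) (nat_lit 104) (nat_lit 5) (nat_lit 105) (nat_lit 5) (nat_lit 320) (nat_lit 289) (nat_lit 171)) (XT.lf (nat_lit 0) (nat_lit 11086498306) (nat_lit 532) (nat_lit 2215250987) (nat_lit 76) (nat_lit 3460529178) (nat_lit 98) (nat_lit 5) (nat_lit 105) (nat_lit 5) (nat_lit 99) (nat_lit 5) (nat_lit 321) (nat_lit 289) (nat_lit 170))) (XT.nd (nat_lit 78) (nat_lit 456) (nat_lit 0) (XT.lf (nat_lit 0) (nat_lit 5161043776) (nat_lit 380) (nat_lit 7975248337) (nat_lit 456) (nat_lit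 3933163268) (nat_lit 93) (nat_lit 5) (nat_lit 98) (nat_lit 5) (nat_lit 99) (nat_lit 5) (nat_lit 322) (nat_lit 289) (nat_lit 169)) (XT.nd (nat_lit 78) (nat_lit 456) (nat_lit 0) (XT.lf (nat_lit 0) (nat_lit 12792696582) (nat_lit 380) (nat_lit 2466851599) (nat_lit 456) (nat_lit 2125964984) (nat_lit 93) (nat_lit 5) (nat_lit 98) (nat_lit 5) (nat_lit 99) (nat_lit 5) (nat_lit 323) (nat_lit 289) (nat_lit 168)) (XT.lf (nat_lit 0) (nat_lit 2957809076) (nat_lit 456) (nat_lit 14537843751) (nat_lit 532) (nat_lit 213949232) (nat_lit 87) (nat_lit 5) (nat_lit 93) (nat_lit 5) (nat_lit 94) (nat_lit 5) (nat_lit 324) (nat_lit 289) (nat_lit 167))))) (XT.nd (nat_lit 234) (nat_lit 380) (nat_lit 0) (XT.nd (nat_lit 78) (nat_lit 380) (nat_lit 0) (XT.lf (nat_lit 0) (nat_lit 1782392697) (nat_lit 532) (nat_lit 7266118558) (nat_lit 76) (nat_lit 8992582055) (nat_lit 86) (nat_lit 5) (nat_lit 93) (nat_lit 5) (nat_lit 87) (nat_lit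 5) (nat_lit 325) (nat_lit 289) (nat_lit 166)) (XT.nd (nat_lit 78) (nat_lit 0) (nat_lit 0) (XT.lf (nat_lit 0) (nat_lit 439476440) (nat_lit 380) (nat_lit 3389323766) (nat_lit 456) (nat_lit 14553853155) (nat_lit 81) (nat_lit 5) (nat_lit 86) (nat_lit 5) (nat_lit 87) (nat_lit 5) (nat_lit 326) (nat_lit 289) (nat_lit 165)) (XT.lf (nat_lit 0) (nat_lit 6024566747) (nat_lit 456) (nat_lit 10242542052) (nat_lit 76) (nat_lit 2464733645) (nat_lit 81) (nat_lit 5) (nat_lit 87) (nat_lit 5) (nat_lit 82) (nat_lit 5) (nat_lit 327) (nat_lit 289) (nat_lit 164)))) (XT.nd (nat_lit 78) (nat_lit 380) (nat_lit 0) (XT.lf (nat_lit 0) (nat_lit 8310458588) (nat_lit 456) (nat_lit 2355409745) (nat_lit 76) (nat_lit 8424931918) (nat_lit 81) (nat_lit 5) (nat_lit 87) (nat_lit 5) (nat_lit 82) (nat_lit 5) (nat_lit 328) (nat_lit 289) (nat_lit 163)) (XT.nd (nat_lit 78) (nat_lit 0) (nat_lit 0) (XT.lf (nat_lit 0) (nat_lit 5872281281)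 (nat_lit 380) (nat_lit 4840059534) (nat_lit 456) (nat_lit 8746783586) (nat_lit 76) (nat_lit 5) (nat_lit 81) (nat_lit 5) (nat_lit 82) (nat_lit 5) (nat_lit 329) (nat_lit 289) (nat_lit 162)) (XT.lf (nat_lit 0) (nat_lit 13212567143) (nat_lit 456) (nat_lit 5464899082) (nat_lit 76) (nat_lit 1160262856) (nat_lit 76) (nat_lit 5) (nat_lit 82) (nat_lit 5) (nat_lit 77) (nat_lit 5) (nat_lit 330) (nat_lit 289) (nat_lit 161)))))) (XT.nd (nat_lit 390) (nat_lit 836) (nat_lit 0) (XT.nd (nat_lit 156) (nat_lit 456) (nat_lit 0) (XT.nd (nat_lit 78) (nat_lit 0) (nat_lit 0) (XT.lf (nat_lit 0) (nat_lit 2898853999) (nat_lit 304) (nat_lit 12956103548) (nat_lit 380) (nat_lit 4370738505) (nat_lit 72) (nat_lit 5) (nat_lit 76) (nat_lit 5) (nat_lit 77) (nat_lit 5) (nat_lit 331) (nat_lit 289) (nat_lit 160)) (XT.lf (nat_lit 0) (nat_lit 11615152659) (nat_lit 304) (nat_lit 7008173569) (nat_lit 380) (nat_lit 2000592927) (nat_lit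 72) (nat_lit 5) (nat_lit 76) (nat_lit 5) (nat_lit 77) (nat_lit 5) (nat_lit 332) (nat_lit 289) (nat_lit 159))) (XT.nd (nat_lit 78) (nat_lit 380) (nat_lit 0) (XT.lf (nat_lit 0) (nat_lit 423728014) (nat_lit 380) (nat_lit 455656998) (nat_lit 76) (nat_lit 20154844036) (nat_lit 71) (nat_lit 5) (nat_lit 76) (nat_lit 5) (nat_lit 72) (nat_lit 5) (nat_lit 333) (nat_lit 289) (nat_lit 158)) (XT.nd (nat_lit 78) (nat_lit 0) (nat_lit 0) (XT.lf (nat_lit 0) (nat_lit 3007305418) (nat_lit 456) (nat_lit 13017345126) (nat_lit 76) (nat_lit 5427818122) (nat_lit 66) (nat_lit 5) (nat_lit 72) (nat_lit 5) (nat_lit 67) (nat_lit 5) (nat_lit 334) (nat_lit 289) (nat_lit 157)) (XT.lf (nat_lit 0) (nat_lit 5673778246) (nat_lit 456) (nat_lit 4300013389) (nat_lit 76) (nat_lit 11909318469) (nat_lit 66) (nat_lit 5) (nat_lit 72) (nat_lit 5) (nat_lit 67) (nat_lit 5) (nat_lit 335) (nat_lit 289) (nat_lit 156))))) (XT.nd (nat_lit 234)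 (nat_lit 228) (nat_lit 0) (XT.nd (nat_lit 78) (nat_lit 304) (nat_lit 0) (XT.lf (nat_lit 0) (nat_lit 4761943858) (nat_lit 304) (nat_lit 3696342644) (nat_lit 380) (nat_lit 13867258849) (nat_lit 62) (nat_lit 5) (nat_lit 66) (nat_lit 5) (nat_lit 67) (nat_lit 5) (nat_lit 336) (nat_lit 289) (nat_lit 155)) (XT.nd (nat_lit 78) (nat_lit 304) (nat_lit 0) (XT.lf (nat_lit 0) (nat_lit 11389181041) (nat_lit 380) (nat_lit 8633040388) (nat_lit 76) (nat_lit 2757162038) (nat_lit 62) (nat_lit 5) (nat_lit 67) (nat_lit 5) (nat_lit 63) (nat_lit 5) (nat_lit 337) (nat_lit 289) (nat_lit 154)) (XT.lf (nat_lit 0) (nat_lit 529518648) (nat_lit 304) (nat_lit 13912771235) (nat_lit 380) (nat_lit 8803533114) (nat_lit 58) (nat_lit 5) (nat_lit 62) (nat_lit 5) (nat_lit 63) (nat_lit 5) (nat_lit 338) (nat_lit 289) (nat_lit 153)))) (XT.nd (nat_lit 78) (nat_lit 228) (nat_lit 0) (XT.lf (nat_lit 0) (nat_lit 10134363705) (nat_lit 304)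 (nat_lit 7532528669) (nat_lit 380) (nat_lit 6056980790) (nat_lit 58) (nat_lit 5) (nat_lit 62) (nat_lit 5) (nat_lit 63) (nat_lit 5) (nat_lit 339) (nat_lit 289) (nat_lit 152)) (XT.nd (nat_lit 78) (nat_lit 228) (nat_lit 0) (XT.lf (nat_lit 0) (nat_lit 20018072933) (nat_lit 304) (nat_lit 963095543) (nat_lit 380) (nat_lit 3235322334) (nat_lit 58) (nat_lit 5) (nat_lit 62) (nat_lit 5) (nat_lit 63) (nat_lit 5) (nat_lit 340) (nat_lit 289) (nat_lit 151)) (XT.lf (nat_lit 0) (nat_lit 5517068746) (nat_lit 228) (nat_lit 18979744194) (nat_lit 304) (nat_lit 224029476) (nat_lit 55) (nat_lit 5) (nat_lit 58) (nat_lit 5) (nat_lit 59) (nat_lit 5) (nat_lit 341) (nat_lit 289) (nat_lit 150))))))) (XT.nd (nat_lit 858) (nat_lit 836) (nat_lit 0) (XT.nd (nat_lit 390) (nat_lit 532) (nat_lit 0) (XT.nd (nat_lit 156) (nat_lit 228) (nat_lit 0) (XT.nd (nat_lit 78) (nat_lit 304) (nat_lit 0) (XT.lf (nat_lit 0) (nat_lit 2866954279)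 (nat_lit 304) (nat_lit 9675854288) (nat_lit 76) (nat_lit 12695333876) (nat_lit 54) (nat_lit 5) (nat_lit 58) (nat_lit 5) (nat_lit 55) (nat_lit 5) (nat_lit 342) (nat_lit 289) (nat_lit 149)) (XT.lf (nat_lit 0) (nat_lit 129207436) (nat_lit 304) (nat_lit 5911552127) (nat_lit 380) (nat_lit 19730309999) (nat_lit 50) (nat_lit 5) (nat_lit 54) (nat_lit 5) (nat_lit 55) (nat_lit 5) (nat_lit 343) (nat_lit 289) (nat_lit 148))) (XT.nd (nat_lit 78) (nat_lit 228) (nat_lit 0) (XT.lf (nat_lit 0) (nat_lit 9410722039) (nat_lit 380) (nat_lit 15909180391) (nat_lit 76) (nat_lit 997065882) (nat_lit 50) (nat_lit 5) (nat_lit 55) (nat_lit 5) (nat_lit 51) (nat_lit 5) (nat_lit 344) (nat_lit 289) (nat_lit 147)) (XT.nd (nat_lit 78) (nat_lit 228) (nat_lit 0) (XT.lf (nat_lit 0) (nat_lit 12933942668) (nat_lit 380) (nat_lit 5951879207) (nat_lit 76) (nat_lit 7991869130) (nat_lit 50) (nat_lit 5) (nat_lit 55) (nat_lit 5) (nat_lit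 51) (nat_lit 5) (nat_lit 345) (nat_lit 289) (nat_lit 146)) (XT.lf (nat_lit 0) (nat_lit 4381057651) (nat_lit 228) (nat_lit 12217730292) (nat_lit 304) (nat_lit 10855381012) (nat_lit 47) (nat_lit 5) (nat_lit 50) (nat_lit 5) (nat_lit 51) (nat_lit 5) (nat_lit 346) (nat_lit 289) (nat_lit 145))))) (XT.nd (nat_lit 234) (nat_lit 304) (nat_lit 0) (XT.nd (nat_lit 78) (nat_lit 228) (nat_lit 0) (XT.lf (nat_lit 0) (nat_lit 15137500783) (nat_lit 228) (nat_lit 5290093275) (nat_lit 304) (nat_lit 7618737804) (nat_lit 47) (nat_lit 5) (nat_lit 50) (nat_lit 5) (nat_lit 51) (nat_lit 5) (nat_lit 347) (nat_lit 289) (nat_lit 144)) (XT.nd (nat_lit 78) (nat_lit 228) (nat_lit 0) (XT.lf (nat_lit 0) (nat_lit 24383071243) (nat_lit 304) (nat_lit 2465769178) (nat_lit 76) (nat_lit 1807075789) (nat_lit 47) (nat_lit 5) (nat_lit 51) (nat_lit 5) (nat_lit 48) (nat_lit 5) (nat_lit 348) (nat_lit 289) (nat_lit 143)) (XT.lf (nat_lit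 0) (nat_lit 8393838453) (nat_lit 228) (nat_lit 20190678972) (nat_lit 304) (nat_lit 695461972) (nat_lit 44) (nat_lit 5) (nat_lit 47) (nat_lit 5) (nat_lit 48) (nat_lit 5) (nat_lit 349) (nat_lit 289) (nat_lit 142)))) (XT.nd (nat_lit 78) (nat_lit 228) (nat_lit 0) (XT.lf (nat_lit 0) (nat_lit 2950322368) (nat_lit 304) (nat_lit 10329425236) (nat_lit 76) (nat_lit 16641582367) (nat_lit 43) (nat_lit 5) (nat_lit 47) (nat_lit 5) (nat_lit 44) (nat_lit 5) (nat_lit 350) (nat_lit 289) (nat_lit 141)) (XT.nd (nat_lit 78) (nat_lit 0) (nat_lit 0) (XT.lf (nat_lit 0) (nat_lit 539669159) (nat_lit 228) (nat_lit 6151452437) (nat_lit 304) (nat_lit 23890613871) (nat_lit 40) (nat_lit 5) (nat_lit 43) (nat_lit 5) (nat_lit 44) (nat_lit 5) (nat_lit 351) (nat_lit 289) (nat_lit 140)) (XT.lf (nat_lit 0) (nat_lit 10655425157) (nat_lit 304) (nat_lit 19332763224) (nat_lit 76) (nat_lit 1270435617) (nat_lit 40) (nat_lit 5) (nat_lit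 44) (nat_lit 5) (nat_lit 41) (nat_lit 5) (nat_lit 352) (nat_lit 289) (nat_lit 139)))))) (XT.nd (nat_lit 468) (nat_lit 380) (nat_lit 0) (XT.nd (nat_lit 234) (nat_lit 228) (nat_lit 0) (XT.nd (nat_lit 78) (nat_lit 228) (nat_lit 0) (XT.lf (nat_lit 0) (nat_lit 14794218651) (nat_lit 304) (nat_lit 8370892716) (nat_lit 76) (nat_lit 8789050007) (nat_lit 40) (nat_lit 5) (nat_lit 44) (nat_lit 5) (nat_lit 41) (nat_lit 5) (nat_lit 353) (nat_lit 289) (nat_lit 138)) (XT.nd (nat_lit 78) (nat_lit 0) (nat_lit 0) (XT.lf (nat_lit 0) (nat_lit 2970214659) (nat_lit 228) (nat_lit 16110323835) (nat_lit 304) (nat_lit 13589334250) (nat_lit 37) (nat_lit 5) (nat_lit 40) (nat_lit 5) (nat_lit 41) (nat_lit 5) (nat_lit 354) (nat_lit 289) (nat_lit 137)) (XT.lf (nat_lit 0) (nat_lit 14815645819) (nat_lit 228) (nat_lit 8759221739) (nat_lit 304) (nat_lit 9829813802) (nat_lit 37) (nat_lit 5) (nat_lit 40) (nat_lit 5) (nat_lit 41)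 (nat_lit 5) (nat_lit 355) (nat_lit 289) (nat_lit 136)))) (XT.nd (nat_lit 78) (nat_lit 228) (nat_lit 0) (XT.lf (nat_lit 0) (nat_lit 27009153962) (nat_lit 228) (nat_lit 1189911389) (nat_lit 304) (nat_lit 5962625966) (nat_lit 37) (nat_lit 5) (nat_lit 40) (nat_lit 5) (nat_lit 41) (nat_lit 5) (nat_lit 356) (nat_lit 289) (nat_lit 135)) (XT.nd (nat_lit 78) (nat_lit 76) (nat_lit 0) (XT.lf (nat_lit 0) (nat_lit 4647025928) (nat_lit 152) (nat_lit 28418300375) (nat_lit 228) (nat_lit 1872993160) (nat_lit 35) (nat_lit 5) (nat_lit 37) (nat_lit 5) (nat_lit 38) (nat_lit 5) (nat_lit 357) (nat_lit 289) (nat_lit 134)) (XT.lf (nat_lit 0) (nat_lit 2373582117) (nat_lit 228) (nat_lit 18831104423) (nat_lit 76) (nat_lit 14530495782) (nat_lit 34) (nat_lit 5) (nat_lit 37) (nat_lit 5) (nat_lit 35) (nat_lit 5) (nat_lit 358) (nat_lit 289) (nat_lit 133))))) (XT.nd (nat_lit 234) (nat_lit 152) (nat_lit 0) (XT.nd (nat_lit 78)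 (nat_lit 228) (nat_lit 0) (XT.lf (nat_lit 0) (nat_lit 6705228953) (nat_lit 228) (nat_lit 7052680733) (nat_lit 76) (nat_lit 22797632785) (nat_lit 34) (nat_lit 5) (nat_lit 37) (nat_lit 5) (nat_lit 35) (nat_lit 5) (nat_lit 359) (nat_lit 289) (nat_lit 132)) (XT.nd (nat_lit 78) (nat_lit 0) (nat_lit 0) (XT.lf (nat_lit 0) (nat_lit 5173221907) (nat_lit 228) (nat_lit 6038787390) (nat_lit 304) (nat_lit 26187155720) (nat_lit 31) (nat_lit 5) (nat_lit 34) (nat_lit 5) (nat_lit 35) (nat_lit 5) (nat_lit 360) (nat_lit 289) (nat_lit 131)) (XT.lf (nat_lit 0) (nat_lit 15939796311) (nat_lit 304) (nat_lit 20381442963) (nat_lit 76) (nat_lit 1944289773) (nat_lit 31) (nat_lit 5) (nat_lit 35) (nat_lit 5) (nat_lit 32) (nat_lit 5) (nat_lit 361) (nat_lit 289) (nat_lit 130)))) (XT.nd (nat_lit 78) (nat_lit 152) (nat_lit 0) (XT.lf (nat_lit 0) (nat_lit 20864839381) (nat_lit 304) (nat_lit 8248071936) (nat_lit 76) (nat_lit 10043316714)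 (nat_lit 31) (nat_lit 5) (nat_lit 35) (nat_lit 5) (nat_lit 32) (nat_lit 5) (nat_lit 362) (nat_lit 289) (nat_lit 129)) (XT.nd (nat_lit 78) (nat_lit 0) (nat_lit 0) (XT.lf (nat_lit 0) (nat_lit 4327260910) (nat_lit 152) (nat_lit 21647728793) (nat_lit 228) (nat_lit 14097544113) (nat_lit 29) (nat_lit 5) (nat_lit 31) (nat_lit 5) (nat_lit 32) (nat_lit 5) (nat_lit 363) (nat_lit 289) (nat_lit 128)) (XT.lf (nat_lit 0) (nat_lit 17442514901) (nat_lit 152) (nat_lit 13875040497) (nat_lit 228) (nat_lit 9696406372) (nat_lit 29) (nat_lit 5) (nat_lit 31) (nat_lit 5) (nat_lit 32) (nat_lit 5) (nat_lit 364) (nat_lit 289) (nat_lit 127))))))))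
noncomputable def xc189 : XT := (XT.nd (nat_lit 1716) (nat_lit 76) (nat_lit 0) (XT.nd (nat_lit 858) (nat_lit 456) (nat_lit 0) (XT.nd (nat_lit 390) (nat_lit 304) (nat_lit 0) (XT.nd (nat_lit 156) (nat_lit 76) (nat_lit 0) (XT.nd (nat_lit 78) (nat_lit 152) (nat_lit 0) (XT.lf (nat_lit 0) (nat_lit 30944997162) (nat_lit 152) (nat_lit 5871344115) (nat_lit 228) (nat_lit 5167419125) (nat_lit 29) (nat_lit 5) (nat_lit 31) (nat_lit 5) (nat_lit 32) (nat_lit 5) (nat_lit 365) (nat_lit 289) (nat_lit 126)) (XT.lf (nat_lit 0) (nat_lit 1877581961) (nat_lit 152) (nat_lit 40639403900) (nat_lit 228) (nat_lit 464566236) (nat_lit 27) (nat_lit 5) (nat_lit 29) (nat_lit 5) (nat_lit 30) (nat_lit 5) (nat_lit 366) (nat_lit 289) (nat_lit 125))) (XT.nd (nat_lit 78) (nat_lit 0) (nat_lit 0) (XT.lf (nat_lit 0) (nat_lit 4460674101) (nat_lit 228) (nat_lit 28705740691) (nat_lit 76) (nat_lit 10836602676) (nat_lit 26) (nat_lit 5) (nat_lit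 29) (nat_lit 5) (nat_lit 27) (nat_lit 5) (nat_lit 367) (nat_lit 289) (nat_lit 124)) (XT.nd (nat_lit 78) (nat_lit 0) (nat_lit 0) (XT.lf (nat_lit 0) (nat_lit 9520502816) (nat_lit 228) (nat_lit 15946159756) (nat_lit 76) (nat_lit 19588446636) (nat_lit 26) (nat_lit 5) (nat_lit 29) (nat_lit 5) (nat_lit 27) (nat_lit 5) (nat_lit 368) (nat_lit 289) (nat_lit 123)) (XT.lf (nat_lit 0) (nat_lit 14728406477) (nat_lit 228) (nat_lit 2809612488) (nat_lit 76) (nat_lit 28600861625) (nat_lit 26) (nat_lit 5) (nat_lit 29) (nat_lit 5) (nat_lit 27) (nat_lit 5) (nat_lit 369) (nat_lit 289) (nat_lit 122))))) (XT.nd (nat_lit 234) (nat_lit 152) (nat_lit 0) (XT.nd (nat_lit 78) (nat_lit 0) (nat_lit 0) (XT.lf (nat_lit 0) (nat_lit 10928636713) (nat_lit 152) (nat_lit 9265351709) (nat_lit 228) (nat_lit 27058138597) (nat_lit 24) (nat_lit 5) (nat_lit 26) (nat_lit 5) (nat_lit 27) (nat_lit 5) (nat_lit 370) (nat_lit 289) (nat_lit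 121)) (XT.nd (nat_lit 78) (nat_lit 0) (nat_lit 0) (XT.lf (nat_lit 0) (nat_lit 25131031551) (nat_lit 152) (nat_lit 717317681) (nat_lit 228) (nat_lit 22549682256) (nat_lit 24) (nat_lit 5) (nat_lit 26) (nat_lit 5) (nat_lit 27) (nat_lit 5) (nat_lit 371) (nat_lit 289) (nat_lit 120)) (XT.lf (nat_lit 0) (nat_lit 31746604095) (nat_lit 228) (nat_lit 9902076246) (nat_lit 76) (nat_lit 7927409698) (nat_lit 24) (nat_lit 5) (nat_lit 27) (nat_lit 5) (nat_lit 25) (nat_lit 5) (nat_lit 372) (nat_lit 289) (nat_lit 119)))) (XT.nd (nat_lit 78) (nat_lit 0) (nat_lit 0) (XT.lf (nat_lit 0) (nat_lit 3927980212) (nat_lit 152) (nat_lit 33935312445) (nat_lit 228) (nat_lit 12924957810) (nat_lit 22) (nat_lit 5) (nat_lit 24) (nat_lit 5) (nat_lit 25) (nat_lit 5) (nat_lit 373) (nat_lit 289) (nat_lit 118)) (XT.nd (nat_lit 78) (nat_lit 0) (nat_lit 0) (XT.lf (nat_lit 0) (nat_lit 18370611956) (nat_lit 152) (nat_lit 25889534468)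 (nat_lit 228) (nat_lit 7773733913) (nat_lit 22) (nat_lit 5) (nat_lit 24) (nat_lit 5) (nat_lit 25) (nat_lit 5) (nat_lit 374) (nat_lit 289) (nat_lit 117)) (XT.lf (nat_lit 0) (nat_lit 33241368029) (nat_lit 152) (nat_lit 17604307673) (nat_lit 228) (nat_lit 2471304739) (nat_lit 22) (nat_lit 5) (nat_lit 24) (nat_lit 5) (nat_lit 25) (nat_lit 5) (nat_lit 375) (nat_lit 289) (nat_lit 116)))))) (XT.nd (nat_lit 390) (nat_lit 228) (nat_lit 0) (XT.nd (nat_lit 156) (nat_lit 0) (nat_lit 0) (XT.nd (nat_lit 78) (nat_lit 152) (nat_lit 0) (XT.lf (nat_lit 0) (nat_lit 2928676497) (nat_lit 228) (nat_lit 6114142154) (nat_lit 76) (nat_lit 45594991906) (nat_lit 21) (nat_lit 5) (nat_lit 24) (nat_lit 5) (nat_lit 22) (nat_lit 5) (nat_lit 376) (nat_lit 289) (nat_lit 115)) (XT.lf (nat_lit 0) (nat_lit 8400707854) (nat_lit 152) (nat_lit 117952357) (nat_lit 228) (nat_lit 47476545157) (nat_lit 19) (nat_lit 5) (nat_lit 21) (nat_lit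 5) (nat_lit 22) (nat_lit 5) (nat_lit 377) (nat_lit 289) (nat_lit 114))) (XT.nd (nat_lit 78) (nat_lit 0) (nat_lit 0) (XT.lf (nat_lit 0) (nat_lit 14422872963) (nat_lit 228) (nat_lit 34007928119) (nat_lit 76) (nat_lit 8958128995) (nat_lit 19) (nat_lit 5) (nat_lit 22) (nat_lit 5) (nat_lit 20) (nat_lit 5) (nat_lit 378) (nat_lit 289) (nat_lit 113)) (XT.nd (nat_lit 78) (nat_lit 0) (nat_lit 0) (XT.lf (nat_lit 0) (nat_lit 20502415088) (nat_lit 228) (nat_lit 20019738345) (nat_lit 76) (nat_lit 18302370829) (nat_lit 19) (nat_lit 5) (nat_lit 22) (nat_lit 5) (nat_lit 20) (nat_lit 5) (nat_lit 379) (nat_lit 289) (nat_lit 112)) (XT.lf (nat_lit 0) (nat_lit 26761464977) (nat_lit 228) (nat_lit 5616571673) (nat_lit 76) (nat_lit 27925239690) (nat_lit 19) (nat_lit 5) (nat_lit 22) (nat_lit 5) (nat_lit 20) (nat_lit 5) (nat_lit 380) (nat_lit 289) (nat_lit 111))))) (XT.nd (nat_lit 234) (nat_lit 76) (nat_lit 0) (XT.nd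 (nat_lit 78) (nat_lit 0) (nat_lit 0) (XT.lf (nat_lit 0) (nat_lit 9397536983) (nat_lit 152) (nat_lit 23898289594) (nat_lit 228) (nat_lit 28527941802) (nat_lit 17) (nat_lit 5) (nat_lit 19) (nat_lit 5) (nat_lit 20) (nat_lit 5) (nat_lit 381) (nat_lit 289) (nat_lit 110)) (XT.nd (nat_lit 78) (nat_lit 0) (nat_lit 0) (XT.lf (nat_lit 0) (nat_lit 24972714740) (nat_lit 152) (nat_lit 15107464239) (nat_lit 228) (nat_lit 23308080900) (nat_lit 17) (nat_lit 5) (nat_lit 19) (nat_lit 5) (nat_lit 20) (nat_lit 5) (nat_lit 382) (nat_lit 289) (nat_lit 109)) (XT.lf (nat_lit 0) (nat_lit 41010790188) (nat_lit 152) (nat_lit 6054595643) (nat_lit 228) (nat_lit 17934383976) (nat_lit 17) (nat_lit 5) (nat_lit 19) (nat_lit 5) (nat_lit 20) (nat_lit 5) (nat_lit 383) (nat_lit 289) (nat_lit 108)))) (XT.nd (nat_lit 78) (nat_lit 76) (nat_lit 0) (XT.lf (nat_lit 0) (nat_lit 54288966902) (nat_lit 228) (nat_lit 9165345289) (nat_lit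 76) (nat_lit 3204451598) (nat_lit 17) (nat_lit 5) (nat_lit 20) (nat_lit 5) (nat_lit 18) (nat_lit 4) (nat_lit 384) (nat_lit 289) (nat_lit 107)) (XT.nd (nat_lit 78) (nat_lit 0) (nat_lit 0) (XT.lf (nat_lit 0) (nat_lit 6159066001) (nat_lit 76) (nat_lit 55686802867) (nat_lit 152) (nat_lit 6518163523) (nat_lit 16) (nat_lit 5) (nat_lit 17) (nat_lit 5) (nat_lit 18) (nat_lit 4) (nat_lit 385) (nat_lit 289) (nat_lit 106)) (XT.lf (nat_lit 0) (nat_lit 22126959981) (nat_lit 76) (nat_lit 47592566403) (nat_lit 152) (nat_lit 398234322) (nat_lit 16) (nat_lit 5) (nat_lit 17) (nat_lit 5) (nat_lit 18) (nat_lit 4) (nat_lit 386) (nat_lit 289) (nat_lit 105))))))) (XT.nd (nat_lit 33852) (nat_lit 0) (nat_lit 8360) (XT.nd (nat_lit 33384) (nat_lit 0) (nat_lit 10716) (XT.nd (nat_lit 33150) (nat_lit 0) (nat_lit 10640) (XT.nd (nat_lit 33072) (nat_lit 0) (nat_lit 10640) (XT.lf (nat_lit 0) (nat_lit 5787601589) (nat_lit 152)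 (nat_lit 33411037165) (nat_lit 76) (nat_lit 32723835816) (nat_lit 15) (nat_lit 5) (nat_lit 17) (nat_lit 5) (nat_lit 16) (nat_lit 5) (nat_lit 387) (nat_lit 289) (nat_lit 104)) (XT.lf (nat_lit 0) (nat_lit 407023480) (nat_lit 0) (nat_lit 407023480) (nat_lit 988) (nat_lit 4400631140) (nat_lit 155) (nat_lit 5) (nat_lit 155) (nat_lit 3) (nat_lit 168) (nat_lit 3) (nat_lit 290) (nat_lit 290) (nat_lit 200))) (XT.nd (nat_lit 78) (nat_lit 0) (nat_lit 0) (XT.lf (nat_lit 0) (nat_lit 2260316148) (nat_lit 988) (nat_lit 5364215331) (nat_lit 1064) (nat_lit 2941406582) (nat_lit 155) (nat_lit 5) (nat_lit 168) (nat_lit 3) (nat_lit 169) (nat_lit 5) (nat_lit 291) (nat_lit 290) (nat_lit 199)) (XT.nd (nat_lit 78) (nat_lit 0) (nat_lit 0) (XT.lf (nat_lit 0) (nat_lit 2897078186) (nat_lit 988) (nat_lit 1005795994) (nat_lit 1064) (nat_lit 6804239399) (nat_lit 155) (nat_lit 5) (nat_lit 168) (nat_lit 3) (nat_lit 169) (nat_lit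 5) (nat_lit 292) (nat_lit 290) (nat_lit 198)) (XT.lf (nat_lit 76) (nat_lit 3540673504) (nat_lit 0) (nat_lit 24472927) (nat_lit 1064) (nat_lit 7287073384) (nat_lit 156) (nat_lit 5) (nat_lit 155) (nat_lit 5) (nat_lit 169) (nat_lit 5) (nat_lit 293) (nat_lit 290) (nat_lit 197))))) (XT.nd (nat_lit 234) (nat_lit 0) (nat_lit 76) (XT.nd (nat_lit 78) (nat_lit 0) (nat_lit 0) (XT.lf (nat_lit 0) (nat_lit 4280463033) (nat_lit 988) (nat_lit 2807954603) (nat_lit 1064) (nat_lit 3912505172) (nat_lit 156) (nat_lit 5) (nat_lit 169) (nat_lit 5) (nat_lit 170) (nat_lit 5) (nat_lit 294) (nat_lit 290) (nat_lit 196)) (XT.nd (nat_lit 78) (nat_lit 0) (nat_lit 76) (XT.lf (nat_lit 76) (nat_lit 1854585732) (nat_lit 0) (nat_lit 3160125464) (nat_lit 1064) (nat_lit 6139509549) (nat_lit 157) (nat_lit 5) (nat_lit 156) (nat_lit 5) (nat_lit 170) (nat_lit 5) (nat_lit 295) (nat_lit 290) (nat_lit 195)) (XT.lf (nat_lit 0) (nat_lit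 5788104455) (nat_lit 988) (nat_lit 4618227641) (nat_lit 1064) (nat_lit 905328325) (nat_lit 157) (nat_lit 5) (nat_lit 170) (nat_lit 5) (nat_lit 171) (nat_lit 5) (nat_lit 296) (nat_lit 290) (nat_lit 194)))) (XT.nd (nat_lit 78) (nat_lit 0) (nat_lit 0) (XT.lf (nat_lit 76) (nat_lit 163162523) (nat_lit 0) (nat_lit 6434942463) (nat_lit 1064) (nat_lit 4875370823) (nat_lit 158) (nat_lit 5) (nat_lit 157) (nat_lit 5) (nat_lit 171) (nat_lit 5) (nat_lit 297) (nat_lit 290) (nat_lit 193)) (XT.nd (nat_lit 78) (nat_lit 0) (nat_lit 76) (XT.lf (nat_lit 76) (nat_lit 5170429712) (nat_lit 0) (nat_lit 2289608498) (nat_lit 1064) (nat_lit 4179331565) (nat_lit 158) (nat_lit 5) (nat_lit 157) (nat_lit 5) (nat_lit 171) (nat_lit 5) (nat_lit 298) (nat_lit 290) (nat_lit 192)) (XT.lf (nat_lit 0) (nat_lit 8348477492) (nat_lit 988) (nat_lit 1513905115) (nat_lit 1064) (nat_lit 1947890059) (nat_lit 158) (nat_lit 5) (nat_lit 171)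 (nat_lit 5) (nat_lit 172) (nat_lit 5) (nat_lit 299) (nat_lit 290) (nat_lit 191)))))) (XT.nd (nat_lit 468) (nat_lit 1520) (nat_lit 0) (XT.nd (nat_lit 234) (nat_lit 988) (nat_lit 0) (XT.nd (nat_lit 78) (nat_lit 0) (nat_lit 0) (XT.lf (nat_lit 76) (nat_lit 3625681320) (nat_lit 0) (nat_lit 5677560063) (nat_lit 1064) (nat_lit 2681921165) (nat_lit 159) (nat_lit 5) (nat_lit 158) (nat_lit 5) (nat_lit 172) (nat_lit 5) (nat_lit 300) (nat_lit 290) (nat_lit 190)) (XT.nd (nat_lit 78) (nat_lit 0) (nat_lit 76) (XT.lf (nat_lit 76) (nat_lit 8938428064) (nat_lit 0) (nat_lit 1346061348) (nat_lit 1064) (nat_lit 1880923066) (nat_lit 159) (nat_lit 5) (nat_lit 158) (nat_lit 5) (nat_lit 172) (nat_lit 5) (nat_lit 301) (nat_lit 290) (nat_lit 189)) (XT.lf (nat_lit 76) (nat_lit 2057371931) (nat_lit 0) (nat_lit 9270638780) (nat_lit 1064) (nat_lit 1022121295) (nat_lit 160) (nat_lit 5) (nat_lit 159) (nat_lit 5) (nat_lit 173)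 (nat_lit 5) (nat_lit 302) (nat_lit 290) (nat_lit 188)))) (XT.nd (nat_lit 78) (nat_lit 1064) (nat_lit 0) (XT.lf (nat_lit 76) (nat_lit 7540621995) (nat_lit 0) (nat_lit 4891485358) (nat_lit 1064) (nat_lit 107453476) (nat_lit 160) (nat_lit 5) (nat_lit 159) (nat_lit 5) (nat_lit 173) (nat_lit 5) (nat_lit 303) (nat_lit 290) (nat_lit 187)) (XT.nd (nat_lit 78) (nat_lit 0) (nat_lit 76) (XT.lf (nat_lit 76) (nat_lit 442095200) (nat_lit 0) (nat_lit 364287196) (nat_lit 1140) (nat_lit 11928452141) (nat_lit 146) (nat_lit 5) (nat_lit 145) (nat_lit 5) (nat_lit 160) (nat_lit 5) (nat_lit 304) (nat_lit 290) (nat_lit 186)) (XT.lf (nat_lit 0) (nat_lit 1821933477) (nat_lit 1064) (nat_lit 6841144699) (nat_lit 1140) (nat_lit 4270604482) (nat_lit 146) (nat_lit 5) (nat_lit 160) (nat_lit 5) (nat_lit 161) (nat_lit 5) (nat_lit 305) (nat_lit 290) (nat_lit 185))))) (XT.nd (nat_lit 234) (nat_lit 1596) (nat_lit 0) (XT.nd (nat_lit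 78) (nat_lit 0) (nat_lit 76) (XT.lf (nat_lit 0) (nat_lit 2856177864) (nat_lit 1064) (nat_lit 1241881397) (nat_lit 1140) (nat_lit 9040830852) (nat_lit 146) (nat_lit 5) (nat_lit 160) (nat_lit 5) (nat_lit 161) (nat_lit 5) (nat_lit 306) (nat_lit 290) (nat_lit 184)) (XT.nd (nat_lit 78) (nat_lit 0) (nat_lit 0) (XT.lf (nat_lit 0) (nat_lit 3957039244) (nat_lit 1064) (nat_lit 8752414767) (nat_lit 76) (nat_lit 639771598) (nat_lit 147) (nat_lit 5) (nat_lit 161) (nat_lit 5) (nat_lit 148) (nat_lit 5) (nat_lit 307) (nat_lit 290) (nat_lit 183)) (XT.lf (nat_lit 0) (nat_lit 5129582512) (nat_lit 1064) (nat_lit 2982374580) (nat_lit 76) (nat_lit 5452792753) (nat_lit 147) (nat_lit 5) (nat_lit 161) (nat_lit 5) (nat_lit 148) (nat_lit 5) (nat_lit 308) (nat_lit 290) (nat_lit 182)))) (XT.nd (nat_lit 78) (nat_lit 608) (nat_lit 0) (XT.lf (nat_lit 0) (nat_lit 3007510663) (nat_lit 1064) (nat_lit 3344542681) (nat_lit 1140)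 (nat_lit 7434281166) (nat_lit 133) (nat_lit 5) (nat_lit 147) (nat_lit 5) (nat_lit 148) (nat_lit 5) (nat_lit 309) (nat_lit 290) (nat_lit 181)) (XT.nd (nat_lit 78) (nat_lit 608) (nat_lit 0) (XT.lf (nat_lit 0) (nat_lit 7642824441) (nat_lit 1140) (nat_lit 4803083452) (nat_lit 76) (nat_lit 1567746194) (nat_lit 133) (nat_lit 5) (nat_lit 148) (nat_lit 5) (nat_lit 134) (nat_lit 5) (nat_lit 310) (nat_lit 290) (nat_lit 180)) (XT.lf (nat_lit 0) (nat_lit 1332884514) (nat_lit 608) (nat_lit 7671923552) (nat_lit 684) (nat_lit 5242045602) (nat_lit 125) (nat_lit 5) (nat_lit 133) (nat_lit 5) (nat_lit 134) (nat_lit 5) (nat_lit 311) (nat_lit 290) (nat_lit 179))))))))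
noncomputable def xc190 : XT := (XT.nd (nat_lit 1716) (nat_lit 2660) (nat_lit 0) (XT.nd (nat_lit 858) (nat_lit 1976) (nat_lit 0) (XT.nd (nat_lit 390) (nat_lit 912) (nat_lit 0) (XT.nd (nat_lit 156) (nat_lit 1140) (nat_lit 0) (XT.nd (nat_lit 78) (nat_lit 0) (nat_lit 0) (XT.lf (nat_lit 0) (nat_lit 7739567344) (nat_lit 608) (nat_lit 2703425929) (nat_lit 684) (nat_lit 4043029784) (nat_lit 125) (nat_lit 5) (nat_lit 133) (nat_lit 5) (nat_lit 134) (nat_lit 5) (nat_lit 312) (nat_lit 290) (nat_lit 178)) (XT.lf (nat_lit 0) (nat_lit 11934766213) (nat_lit 684) (nat_lit 429030115) (nat_lit 76) (nat_lit 2368291021) (nat_lit 125) (nat_lit 5) (nat_lit 134) (nat_lit 5) (nat_lit 126) (nat_lit 5) (nat_lit 313) (nat_lit 290) (nat_lit 177))) (XT.nd (nat_lit 78) (nat_lit 608) (nat_lit 0) (XT.lf (nat_lit 0) (nat_lit 6159790993) (nat_lit 532) (nat_lit 7385087497) (nat_lit 608) (nat_lit 1438479618) (nat_lit 118) (nat_lit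 5) (nat_lit 125) (nat_lit 5) (nat_lit 126) (nat_lit 5) (nat_lit 314) (nat_lit 290) (nat_lit 176)) (XT.nd (nat_lit 78) (nat_lit 608) (nat_lit 0) (XT.lf (nat_lit 0) (nat_lit 12943624396) (nat_lit 532) (nat_lit 2251860880) (nat_lit 608) (nat_lit 46947167) (nat_lit 118) (nat_lit 5) (nat_lit 125) (nat_lit 5) (nat_lit 126) (nat_lit 5) (nat_lit 315) (nat_lit 290) (nat_lit 175)) (XT.lf (nat_lit 0) (nat_lit 1420194499) (nat_lit 608) (nat_lit 11053219584) (nat_lit 76) (nat_lit 3033667068) (nat_lit 110) (nat_lit 5) (nat_lit 118) (nat_lit 5) (nat_lit 111) (nat_lit 5) (nat_lit 316) (nat_lit 290) (nat_lit 174))))) (XT.nd (nat_lit 234) (nat_lit 456) (nat_lit 0) (XT.nd (nat_lit 78) (nat_lit 456) (nat_lit 0) (XT.lf (nat_lit 0) (nat_lit 2964455135) (nat_lit 608) (nat_lit 4357381082) (nat_lit 76) (nat_lit 8456826250) (nat_lit 110) (nat_lit 5) (nat_lit 118) (nat_lit 5) (nat_lit 111) (nat_lit 5) (nat_lit 317) (nat_lit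 290) (nat_lit 173)) (XT.nd (nat_lit 78) (nat_lit 0) (nat_lit 0) (XT.lf (nat_lit 0) (nat_lit 2578332075) (nat_lit 456) (nat_lit 1990145893) (nat_lit 532) (nat_lit 11489537934) (nat_lit 104) (nat_lit 5) (nat_lit 110) (nat_lit 5) (nat_lit 111) (nat_lit 5) (nat_lit 318) (nat_lit 290) (nat_lit 172)) (XT.lf (nat_lit 0) (nat_lit 6287588715) (nat_lit 532) (nat_lit 6578647540) (nat_lit 76) (nat_lit 3477531570) (nat_lit 104) (nat_lit 5) (nat_lit 111) (nat_lit 5) (nat_lit 105) (nat_lit 5) (nat_lit 319) (nat_lit 290) (nat_lit 171)))) (XT.nd (nat_lit 78) (nat_lit 0) (nat_lit 0) (XT.lf (nat_lit 0) (nat_lit 508410978) (nat_lit 456) (nat_lit 7563649550) (nat_lit 532) (nat_lit 8565644265) (nat_lit 98) (nat_lit 5) (nat_lit 104) (nat_lit 5) (nat_lit 105) (nat_lit 5) (nat_lit 320) (nat_lit 290) (nat_lit 170)) (XT.nd (nat_lit 78) (nat_lit 0) (nat_lit 0) (XT.lf (nat_lit 0) (nat_lit 7931821761) (nat_lit 456) (nat_lit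 2034080175) (nat_lit 532) (nat_lit 6972908229) (nat_lit 98) (nat_lit 5) (nat_lit 104) (nat_lit 5) (nat_lit 105) (nat_lit 5) (nat_lit 321) (nat_lit 290) (nat_lit 169)) (XT.lf (nat_lit 0) (nat_lit 11941461749) (nat_lit 532) (nat_lit 1717329186) (nat_lit 76) (nat_lit 3589435288) (nat_lit 98) (nat_lit 5) (nat_lit 105) (nat_lit 5) (nat_lit 99) (nat_lit 5) (nat_lit 322) (nat_lit 290) (nat_lit 168)))))) (XT.nd (nat_lit 390) (nat_lit 684) (nat_lit 0) (XT.nd (nat_lit 156) (nat_lit 912) (nat_lit 0) (XT.nd (nat_lit 78) (nat_lit 0) (nat_lit 0) (XT.lf (nat_lit 0) (nat_lit 5874721289) (nat_lit 380) (nat_lit 8168185437) (nat_lit 456) (nat_lit 3522043389) (nat_lit 93) (nat_lit 5) (nat_lit 98) (nat_lit 5) (nat_lit 99) (nat_lit 5) (nat_lit 323) (nat_lit 290) (nat_lit 167)) (XT.lf (nat_lit 0) (nat_lit 13719046606) (nat_lit 380) (nat_lit 2495885933) (nat_lit 456) (nat_lit 1676040267) (nat_lit 93) (nat_lit 5) (nat_lit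 98) (nat_lit 5) (nat_lit 99) (nat_lit 5) (nat_lit 324) (nat_lit 290) (nat_lit 166))) (XT.nd (nat_lit 78) (nat_lit 380) (nat_lit 0) (XT.lf (nat_lit 0) (nat_lit 278731666) (nat_lit 532) (nat_lit 14628501158) (nat_lit 76) (nat_lit 3317766664) (nat_lit 86) (nat_lit 5) (nat_lit 93) (nat_lit 5) (nat_lit 87) (nat_lit 5) (nat_lit 325) (nat_lit 290) (nat_lit 165)) (XT.nd (nat_lit 78) (nat_lit 380) (nat_lit 0) (XT.lf (nat_lit 0) (nat_lit 2316252059) (nat_lit 532) (nat_lit 6936794051) (nat_lit 76) (nat_lit 9313790502) (nat_lit 86) (nat_lit 5) (nat_lit 93) (nat_lit 5) (nat_lit 87) (nat_lit 5) (nat_lit 326) (nat_lit 290) (nat_lit 164)) (XT.lf (nat_lit 0) (nat_lit 994603031) (nat_lit 380) (nat_lit 3420666370) (nat_lit 456) (nat_lit 14503668928) (nat_lit 81) (nat_lit 5) (nat_lit 86) (nat_lit 5) (nat_lit 87) (nat_lit 5) (nat_lit 327) (nat_lit 290) (nat_lit 163))))) (XT.nd (nat_lit 234) (nat_lit 304) (nat_lit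 0) (XT.nd (nat_lit 78) (nat_lit 380) (nat_lit 0) (XT.lf (nat_lit 0) (nat_lit 6663829297) (nat_lit 456) (nat_lit 10009565103) (nat_lit 76) (nat_lit 2605631555) (nat_lit 81) (nat_lit 5) (nat_lit 87) (nat_lit 5) (nat_lit 82) (nat_lit 5) (nat_lit 328) (nat_lit 290) (nat_lit 162)) (XT.nd (nat_lit 78) (nat_lit 380) (nat_lit 0) (XT.lf (nat_lit 0) (nat_lit 9004942779) (nat_lit 456) (nat_lit 1901554357) (nat_lit 76) (nat_lit 8742685605) (nat_lit 81) (nat_lit 5) (nat_lit 87) (nat_lit 5) (nat_lit 82) (nat_lit 5) (nat_lit 329) (nat_lit 290) (nat_lit 161)) (XT.lf (nat_lit 0) (nat_lit 6567825069) (nat_lit 380) (nat_lit 4903082828) (nat_lit 456) (nat_lit 8557916655) (nat_lit 76) (nat_lit 5) (nat_lit 81) (nat_lit 5) (nat_lit 82) (nat_lit 5) (nat_lit 330) (nat_lit 290) (nat_lit 160)))) (XT.nd (nat_lit 78) (nat_lit 304) (nat_lit 0) (XT.lf (nat_lit 0) (nat_lit 14034174068) (nat_lit 456) (nat_lit 5111701413) (nat_lit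 76) (nat_lit 1273298794) (nat_lit 76) (nat_lit 5) (nat_lit 82) (nat_lit 5) (nat_lit 77) (nat_lit 5) (nat_lit 331) (nat_lit 290) (nat_lit 159)) (XT.nd (nat_lit 78) (nat_lit 0) (nat_lit 0) (XT.lf (nat_lit 0) (nat_lit 3497894214) (nat_lit 304) (nat_lit 13250479007) (nat_lit 380) (nat_lit 4070658005) (nat_lit 72) (nat_lit 5) (nat_lit 76) (nat_lit 5) (nat_lit 77) (nat_lit 5) (nat_lit 332) (nat_lit 290) (nat_lit 158)) (XT.lf (nat_lit 0) (nat_lit 12460767040) (nat_lit 304) (nat_lit 7126857954) (nat_lit 380) (nat_lit 1641967359) (nat_lit 72) (nat_lit 5) (nat_lit 76) (nat_lit 5) (nat_lit 77) (nat_lit 5) (nat_lit 333) (nat_lit 290) (nat_lit 157))))))) (XT.nd (nat_lit 858) (nat_lit 988) (nat_lit 0) (XT.nd (nat_lit 390) (nat_lit 912) (nat_lit 0) (XT.nd (nat_lit 156) (nat_lit 304) (nat_lit 0) (XT.nd (nat_lit 78) (nat_lit 0) (nat_lit 0) (XT.lf (nat_lit 0) (nat_lit 22550143) (nat_lit 380) (nat_lit 812625036)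 (nat_lit 456) (nat_lit 20817292583) (nat_lit 66) (nat_lit 5) (nat_lit 71) (nat_lit 5) (nat_lit 72) (nat_lit 5) (nat_lit 334) (nat_lit 290) (nat_lit 156)) (XT.lf (nat_lit 0) (nat_lit 3490026966) (nat_lit 456) (nat_lit 12909610452) (nat_lit 76) (nat_lit 5683828199) (nat_lit 66) (nat_lit 5) (nat_lit 72) (nat_lit 5) (nat_lit 67) (nat_lit 5) (nat_lit 335) (nat_lit 290) (nat_lit 155))) (XT.nd (nat_lit 78) (nat_lit 304) (nat_lit 0) (XT.lf (nat_lit 0) (nat_lit 6225061871) (nat_lit 456) (nat_lit 3945271045) (nat_lit 76) (nat_lit 12357059707) (nat_lit 66) (nat_lit 5) (nat_lit 72) (nat_lit 5) (nat_lit 67) (nat_lit 5) (nat_lit 336) (nat_lit 290) (nat_lit 154)) (XT.nd (nat_lit 78) (nat_lit 0) (nat_lit 0) (XT.lf (nat_lit 0) (nat_lit 5383802343) (nat_lit 304) (nat_lit 3702808339) (nat_lit 380) (nat_lit 13896707765) (nat_lit 62) (nat_lit 5) (nat_lit 66) (nat_lit 5) (nat_lit 67) (nat_lit 5) (nat_lit 337) (nat_lit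 290) (nat_lit 153)) (XT.lf (nat_lit 0) (nat_lit 12095496645) (nat_lit 380) (nat_lit 8416313502) (nat_lit 76) (nat_lit 2939281642) (nat_lit 62) (nat_lit 5) (nat_lit 67) (nat_lit 5) (nat_lit 63) (nat_lit 5) (nat_lit 338) (nat_lit 290) (nat_lit 152))))) (XT.nd (nat_lit 234) (nat_lit 608) (nat_lit 0) (XT.nd (nat_lit 78) (nat_lit 0) (nat_lit 0) (XT.lf (nat_lit 0) (nat_lit 1016458403) (nat_lit 304) (nat_lit 14217647824) (nat_lit 380) (nat_lit 8697622432) (nat_lit 58) (nat_lit 5) (nat_lit 62) (nat_lit 5) (nat_lit 63) (nat_lit 5) (nat_lit 339) (nat_lit 290) (nat_lit 151)) (XT.nd (nat_lit 78) (nat_lit 0) (nat_lit 0) (XT.lf (nat_lit 0) (nat_lit 10895728786) (nat_lit 304) (nat_lit 7649274871) (nat_lit 380) (nat_lit 5879450723) (nat_lit 58) (nat_lit 5) (nat_lit 62) (nat_lit 5) (nat_lit 63) (nat_lit 5) (nat_lit 340) (nat_lit 290) (nat_lit 150)) (XT.lf (nat_lit 0) (nat_lit 21062628879) (nat_lit 304) (nat_lit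 885940197) (nat_lit 380) (nat_lit 2983605800) (nat_lit 58) (nat_lit 5) (nat_lit 62) (nat_lit 5) (nat_lit 63) (nat_lit 5) (nat_lit 341) (nat_lit 290) (nat_lit 149)))) (XT.nd (nat_lit 78) (nat_lit 304) (nat_lit 0) (XT.lf (nat_lit 0) (nat_lit 111124193) (nat_lit 304) (nat_lit 19320965324) (nat_lit 76) (nat_lit 6019690426) (nat_lit 54) (nat_lit 5) (nat_lit 58) (nat_lit 5) (nat_lit 55) (nat_lit 5) (nat_lit 342) (nat_lit 290) (nat_lit 148)) (XT.nd (nat_lit 78) (nat_lit 304) (nat_lit 0) (XT.lf (nat_lit 0) (nat_lit 3280508329) (nat_lit 304) (nat_lit 9522728516) (nat_lit 76) (nat_lit 13181608815) (nat_lit 54) (nat_lit 5) (nat_lit 58) (nat_lit 5) (nat_lit 55) (nat_lit 5) (nat_lit 343) (nat_lit 290) (nat_lit 147)) (XT.lf (nat_lit 0) (nat_lit 572137987) (nat_lit 304) (nat_lit 5972070084) (nat_lit 380) (nat_lit 19989730014) (nat_lit 50) (nat_lit 5) (nat_lit 54) (nat_lit 5) (nat_lit 55) (nat_lit 5) (nat_lit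 344) (nat_lit 290) (nat_lit 146)))))) (XT.nd (nat_lit 468) (nat_lit 532) (nat_lit 0) (XT.nd (nat_lit 234) (nat_lit 228) (nat_lit 0) (XT.nd (nat_lit 78) (nat_lit 228) (nat_lit 0) (XT.lf (nat_lit 0) (nat_lit 10006974525) (nat_lit 380) (nat_lit 15951315159) (nat_lit 76) (nat_lit 1138190343) (nat_lit 50) (nat_lit 5) (nat_lit 55) (nat_lit 5) (nat_lit 51) (nat_lit 5) (nat_lit 345) (nat_lit 290) (nat_lit 145)) (XT.nd (nat_lit 78) (nat_lit 228) (nat_lit 0) (XT.lf (nat_lit 0) (nat_lit 13626748157) (nat_lit 380) (nat_lit 5707968939) (nat_lit 76) (nat_lit 8339598491) (nat_lit 50) (nat_lit 5) (nat_lit 55) (nat_lit 5) (nat_lit 51) (nat_lit 5) (nat_lit 346) (nat_lit 290) (nat_lit 144)) (XT.lf (nat_lit 0) (nat_lit 4930814195) (nat_lit 228) (nat_lit 12465868492) (nat_lit 304) (nat_lit 10871567256) (nat_lit 47) (nat_lit 5) (nat_lit 50) (nat_lit 5) (nat_lit 51) (nat_lit 5) (nat_lit 347) (nat_lit 290) (nat_lit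 143)))) (XT.nd (nat_lit 78) (nat_lit 228) (nat_lit 0) (XT.lf (nat_lit 0) (nat_lit 15997766403) (nat_lit 228) (nat_lit 5333850725) (nat_lit 304) (nat_lit 7546838592) (nat_lit 47) (nat_lit 5) (nat_lit 50) (nat_lit 5) (nat_lit 51) (nat_lit 5) (nat_lit 348) (nat_lit 290) (nat_lit 142)) (XT.nd (nat_lit 78) (nat_lit 228) (nat_lit 0) (XT.lf (nat_lit 0) (nat_lit 25398349957) (nat_lit 304) (nat_lit 2137507525) (nat_lit 76) (nat_lit 1970707821) (nat_lit 47) (nat_lit 5) (nat_lit 51) (nat_lit 5) (nat_lit 48) (nat_lit 5) (nat_lit 349) (nat_lit 290) (nat_lit 141)) (XT.lf (nat_lit 0) (nat_lit 9043944857) (nat_lit 228) (nat_lit 20677457658) (nat_lit 304) (nat_lit 428095974) (nat_lit 44) (nat_lit 5) (nat_lit 47) (nat_lit 5) (nat_lit 48) (nat_lit 5) (nat_lit 350) (nat_lit 290) (nat_lit 140))))) (XT.nd (nat_lit 234) (nat_lit 228) (nat_lit 0) (XT.nd (nat_lit 78) (nat_lit 228) (nat_lit 0) (XT.lf (nat_lit 0) (nat_lit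 3313206266) (nat_lit 304) (nat_lit 10246685762) (nat_lit 76) (nat_lit 17250375504) (nat_lit 43) (nat_lit 5) (nat_lit 47) (nat_lit 5) (nat_lit 44) (nat_lit 5) (nat_lit 351) (nat_lit 290) (nat_lit 139)) (XT.nd (nat_lit 78) (nat_lit 0) (nat_lit 0) (XT.lf (nat_lit 0) (nat_lit 944632228) (nat_lit 228) (nat_lit 6217342884) (nat_lit 304) (nat_lit 24328651432) (nat_lit 40) (nat_lit 5) (nat_lit 43) (nat_lit 5) (nat_lit 44) (nat_lit 5) (nat_lit 352) (nat_lit 290) (nat_lit 138)) (XT.lf (nat_lit 0) (nat_lit 11238447558) (nat_lit 304) (nat_lit 19528092321) (nat_lit 76) (nat_lit 1421497982) (nat_lit 40) (nat_lit 5) (nat_lit 44) (nat_lit 5) (nat_lit 41) (nat_lit 5) (nat_lit 353) (nat_lit 290) (nat_lit 137)))) (XT.nd (nat_lit 78) (nat_lit 228) (nat_lit 0) (XT.lf (nat_lit 0) (nat_lit 15493734187) (nat_lit 304) (nat_lit 8248569206) (nat_lit 76) (nat_lit 9162381019) (nat_lit 40) (nat_lit 5) (nat_lit 44) (nat_lit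 5) (nat_lit 41) (nat_lit 5) (nat_lit 354) (nat_lit 290) (nat_lit 136)) (XT.nd (nat_lit 78) (nat_lit 0) (nat_lit 0) (XT.lf (nat_lit 0) (nat_lit 3429110113) (nat_lit 228) (nat_lit 16475640899) (nat_lit 304) (nat_lit 13737245446) (nat_lit 37) (nat_lit 5) (nat_lit 40) (nat_lit 5) (nat_lit 41) (nat_lit 5) (nat_lit 355) (nat_lit 290) (nat_lit 135)) (XT.lf (nat_lit 0) (nat_lit 15619133654) (nat_lit 228) (nat_lit 8907442419) (nat_lit 304) (nat_lit 9872505468) (nat_lit 37) (nat_lit 5) (nat_lit 40) (nat_lit 5) (nat_lit 41) (nat_lit 5) (nat_lit 356) (nat_lit 290) (nat_lit 134))))))))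
noncomputable def xc191 : XT := (XT.nd (nat_lit 1794) (nat_lit 228) (nat_lit 0) (XT.nd (nat_lit 858) (nat_lit 608) (nat_lit 0) (XT.nd (nat_lit 390) (nat_lit 304) (nat_lit 0) (XT.nd (nat_lit 156) (nat_lit 304) (nat_lit 0) (XT.nd (nat_lit 78) (nat_lit 152) (nat_lit 0) (XT.lf (nat_lit 0) (nat_lit 28167990192) (nat_lit 228) (nat_lit 1114389340) (nat_lit 304) (nat_lit 5896647708) (nat_lit 37) (nat_lit 5) (nat_lit 40) (nat_lit 5) (nat_lit 41) (nat_lit 5) (nat_lit 357) (nat_lit 290) (nat_lit 133)) (XT.lf (nat_lit 0) (nat_lit 5137963560) (nat_lit 152) (nat_lit 29154168934) (nat_lit 228) (nat_lit 1686908103) (nat_lit 35) (nat_lit 5) (nat_lit 37) (nat_lit 5) (nat_lit 38) (nat_lit 5) (nat_lit 358) (nat_lit 290) (nat_lit 132))) (XT.nd (nat_lit 78) (nat_lit 228) (nat_lit 0) (XT.lf (nat_lit 0) (nat_lit 2675417927) (nat_lit 228) (nat_lit 19049798322) (nat_lit 76) (nat_lit 15074741624) (nat_lit 34) (nat_lit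 5) (nat_lit 37) (nat_lit 5) (nat_lit 35) (nat_lit 5) (nat_lit 359) (nat_lit 290) (nat_lit 131)) (XT.nd (nat_lit 78) (nat_lit 228) (nat_lit 0) (XT.lf (nat_lit 0) (nat_lit 7130296837) (nat_lit 228) (nat_lit 6928106560) (nat_lit 76) (nat_lit 23586737466) (nat_lit 34) (nat_lit 5) (nat_lit 37) (nat_lit 5) (nat_lit 35) (nat_lit 5) (nat_lit 360) (nat_lit 290) (nat_lit 130)) (XT.lf (nat_lit 0) (nat_lit 5661277526) (nat_lit 228) (nat_lit 6107681029) (nat_lit 304) (nat_lit 26745223401) (nat_lit 31) (nat_lit 5) (nat_lit 34) (nat_lit 5) (nat_lit 35) (nat_lit 5) (nat_lit 361) (nat_lit 290) (nat_lit 129))))) (XT.nd (nat_lit 234) (nat_lit 152) (nat_lit 0) (XT.nd (nat_lit 78) (nat_lit 152) (nat_lit 0) (XT.lf (nat_lit 0) (nat_lit 16633202033) (nat_lit 304) (nat_lit 20664014636) (nat_lit 76) (nat_lit 2109491467) (nat_lit 31) (nat_lit 5) (nat_lit 35) (nat_lit 5) (nat_lit 32) (nat_lit 5) (nat_lit 362) (nat_lit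 290) (nat_lit 128)) (XT.nd (nat_lit 78) (nat_lit 152) (nat_lit 0) (XT.lf (nat_lit 0) (nat_lit 21699728089) (nat_lit 304) (nat_lit 8176221263) (nat_lit 76) (nat_lit 10448376410) (nat_lit 31) (nat_lit 5) (nat_lit 35) (nat_lit 5) (nat_lit 32) (nat_lit 5) (nat_lit 363) (nat_lit 290) (nat_lit 127)) (XT.lf (nat_lit 0) (nat_lit 4773241247) (nat_lit 152) (nat_lit 22186895087) (nat_lit 228) (nat_lit 14308085128) (nat_lit 29) (nat_lit 5) (nat_lit 31) (nat_lit 5) (nat_lit 32) (nat_lit 5) (nat_lit 364) (nat_lit 290) (nat_lit 126)))) (XT.nd (nat_lit 78) (nat_lit 152) (nat_lit 0) (XT.lf (nat_lit 0) (nat_lit 18272744241) (nat_lit 152) (nat_lit 14184237761) (nat_lit 228) (nat_lit 9781099234) (nat_lit 29) (nat_lit 5) (nat_lit 31) (nat_lit 5) (nat_lit 32) (nat_lit 5) (nat_lit 365) (nat_lit 290) (nat_lit 125)) (XT.nd (nat_lit 78) (nat_lit 152) (nat_lit 0) (XT.lf (nat_lit 0) (nat_lit 32171360565) (nat_lit 152)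 (nat_lit 5943548564) (nat_lit 228) (nat_lit 5122248175) (nat_lit 29) (nat_lit 5) (nat_lit 31) (nat_lit 5) (nat_lit 32) (nat_lit 5) (nat_lit 366) (nat_lit 290) (nat_lit 124)) (XT.lf (nat_lit 0) (nat_lit 2234067858) (nat_lit 152) (nat_lit 41750707750) (nat_lit 228) (nat_lit 280169618) (nat_lit 27) (nat_lit 5) (nat_lit 29) (nat_lit 5) (nat_lit 30) (nat_lit 5) (nat_lit 367) (nat_lit 290) (nat_lit 123)))))) (XT.nd (nat_lit 468) (nat_lit 380) (nat_lit 0) (XT.nd (nat_lit 234) (nat_lit 152) (nat_lit 0) (XT.nd (nat_lit 78) (nat_lit 0) (nat_lit 0) (XT.lf (nat_lit 0) (nat_lit 4783293744) (nat_lit 228) (nat_lit 29271470806) (nat_lit 76) (nat_lit 11262410792) (nat_lit 26) (nat_lit 5) (nat_lit 29) (nat_lit 5) (nat_lit 27) (nat_lit 5) (nat_lit 368) (nat_lit 290) (nat_lit 122)) (XT.nd (nat_lit 78) (nat_lit 0) (nat_lit 0) (XT.lf (nat_lit 0) (nat_lit 9989418308) (nat_lit 228) (nat_lit 16137707553) (nat_lit 76)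 (nat_lit 20273876768) (nat_lit 26) (nat_lit 5) (nat_lit 29) (nat_lit 5) (nat_lit 27) (nat_lit 5) (nat_lit 369) (nat_lit 290) (nat_lit 121)) (XT.lf (nat_lit 0) (nat_lit 15348220232) (nat_lit 228) (nat_lit 2615418343) (nat_lit 76) (nat_lit 29553816341) (nat_lit 26) (nat_lit 5) (nat_lit 29) (nat_lit 5) (nat_lit 27) (nat_lit 5) (nat_lit 370) (nat_lit 290) (nat_lit 120)))) (XT.nd (nat_lit 78) (nat_lit 0) (nat_lit 0) (XT.lf (nat_lit 0) (nat_lit 11532248114) (nat_lit 152) (nat_lit 9442988874) (nat_lit 228) (nat_lit 27688945104) (nat_lit 24) (nat_lit 5) (nat_lit 26) (nat_lit 5) (nat_lit 27) (nat_lit 5) (nat_lit 371) (nat_lit 290) (nat_lit 119)) (XT.nd (nat_lit 78) (nat_lit 0) (nat_lit 0) (XT.lf (nat_lit 0) (nat_lit 26152683177) (nat_lit 152) (nat_lit 641435866) (nat_lit 228) (nat_lit 23050505101) (nat_lit 24) (nat_lit 5) (nat_lit 26) (nat_lit 5) (nat_lit 27) (nat_lit 5) (nat_lit 372) (nat_lit 290) (nat_lit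 118)) (XT.lf (nat_lit 0) (nat_lit 32865269805) (nat_lit 228) (nat_lit 9934932042) (nat_lit 76) (nat_lit 8257951109) (nat_lit 24) (nat_lit 5) (nat_lit 27) (nat_lit 5) (nat_lit 25) (nat_lit 5) (nat_lit 373) (nat_lit 290) (nat_lit 117))))) (XT.nd (nat_lit 234) (nat_lit 228) (nat_lit 0) (XT.nd (nat_lit 78) (nat_lit 0) (nat_lit 0) (XT.lf (nat_lit 0) (nat_lit 4307435850) (nat_lit 152) (nat_lit 34855695244) (nat_lit 228) (nat_lit 13143623691) (nat_lit 22) (nat_lit 5) (nat_lit 24) (nat_lit 5) (nat_lit 25) (nat_lit 5) (nat_lit 374) (nat_lit 290) (nat_lit 116)) (XT.nd (nat_lit 78) (nat_lit 0) (nat_lit 0) (XT.lf (nat_lit 0) (nat_lit 19175726657) (nat_lit 152) (nat_lit 26571388876) (nat_lit 228) (nat_lit 7842787821) (nat_lit 22) (nat_lit 5) (nat_lit 24) (nat_lit 5) (nat_lit 25) (nat_lit 5) (nat_lit 375) (nat_lit 290) (nat_lit 115)) (XT.lf (nat_lit 0) (nat_lit 34485207460) (nat_lit 152) (nat_lit 18040367364)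 (nat_lit 228) (nat_lit 2386067076) (nat_lit 22) (nat_lit 5) (nat_lit 24) (nat_lit 5) (nat_lit 25) (nat_lit 5) (nat_lit 376) (nat_lit 290) (nat_lit 114)))) (XT.nd (nat_lit 78) (nat_lit 152) (nat_lit 0) (XT.lf (nat_lit 0) (nat_lit 3168252122) (nat_lit 228) (nat_lit 6054931159) (nat_lit 76) (nat_lit 47049010218) (nat_lit 21) (nat_lit 5) (nat_lit 24) (nat_lit 5) (nat_lit 22) (nat_lit 5) (nat_lit 377) (nat_lit 290) (nat_lit 113)) (XT.nd (nat_lit 78) (nat_lit 0) (nat_lit 0) (XT.lf (nat_lit 0) (nat_lit 8892985573) (nat_lit 152) (nat_lit 30840375) (nat_lit 228) (nat_lit 48746553313) (nat_lit 19) (nat_lit 5) (nat_lit 21) (nat_lit 5) (nat_lit 22) (nat_lit 5) (nat_lit 378) (nat_lit 290) (nat_lit 112)) (XT.lf (nat_lit 0) (nat_lit 15001653636) (nat_lit 228) (nat_lit 34791207357) (nat_lit 76) (nat_lit 9313165715) (nat_lit 19) (nat_lit 5) (nat_lit 22) (nat_lit 5) (nat_lit 20) (nat_lit 5) (nat_lit 379) (nat_lit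 290) (nat_lit 111))))))) (XT.nd (nat_lit 33930) (nat_lit 0) (nat_lit 9804) (XT.nd (nat_lit 390) (nat_lit 76) (nat_lit 0) (XT.nd (nat_lit 156) (nat_lit 152) (nat_lit 0) (XT.nd (nat_lit 78) (nat_lit 0) (nat_lit 0) (XT.lf (nat_lit 0) (nat_lit 21259326845) (nat_lit 228) (nat_lit 20390273596) (nat_lit 76) (nat_lit 18935221420) (nat_lit 19) (nat_lit 5) (nat_lit 22) (nat_lit 5) (nat_lit 20) (nat_lit 5) (nat_lit 380) (nat_lit 290) (nat_lit 110)) (XT.lf (nat_lit 0) (nat_lit 27702016989) (nat_lit 228) (nat_lit 5561712610) (nat_lit 76) (nat_lit 28844336168) (nat_lit 19) (nat_lit 5) (nat_lit 22) (nat_lit 5) (nat_lit 20) (nat_lit 5) (nat_lit 381) (nat_lit 290) (nat_lit 109))) (XT.nd (nat_lit 78) (nat_lit 0) (nat_lit 0) (XT.lf (nat_lit 0) (nat_lit 9900629538) (nat_lit 152) (nat_lit 24529894971) (nat_lit 228) (nat_lit 29243709779) (nat_lit 17) (nat_lit 5) (nat_lit 19) (nat_lit 5) (nat_lit 20) (nat_lit 5) (nat_lit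 382) (nat_lit 290) (nat_lit 108)) (XT.nd (nat_lit 78) (nat_lit 0) (nat_lit 0) (XT.lf (nat_lit 0) (nat_lit 25936620887) (nat_lit 152) (nat_lit 15477830583) (nat_lit 228) (nat_lit 23871332766) (nat_lit 17) (nat_lit 5) (nat_lit 19) (nat_lit 5) (nat_lit 20) (nat_lit 5) (nat_lit 383) (nat_lit 290) (nat_lit 107)) (XT.lf (nat_lit 0) (nat_lit 42449584481) (nat_lit 152) (nat_lit 6155789256) (nat_lit 228) (nat_lit 18340385824) (nat_lit 17) (nat_lit 5) (nat_lit 19) (nat_lit 5) (nat_lit 20) (nat_lit 5) (nat_lit 384) (nat_lit 290) (nat_lit 106))))) (XT.nd (nat_lit 33306) (nat_lit 0) (nat_lit 10564) (XT.nd (nat_lit 78) (nat_lit 76) (nat_lit 0) (XT.lf (nat_lit 0) (nat_lit 56042684075) (nat_lit 228) (nat_lit 9234771040) (nat_lit 76) (nat_lit 3377162329) (nat_lit 17) (nat_lit 5) (nat_lit 20) (nat_lit 5) (nat_lit 18) (nat_lit 4) (nat_lit 385) (nat_lit 290) (nat_lit 105)) (XT.nd (nat_lit 78) (nat_lit 0) (nat_lit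 0) (XT.lf (nat_lit 0) (nat_lit 6547357545) (nat_lit 76) (nat_lit 57277249731) (nat_lit 152) (nat_lit 6586491999) (nat_lit 16) (nat_lit 5) (nat_lit 17) (nat_lit 5) (nat_lit 18) (nat_lit 4) (nat_lit 386) (nat_lit 290) (nat_lit 104)) (XT.lf (nat_lit 0) (nat_lit 22988360589) (nat_lit 76) (nat_lit 48942520849) (nat_lit 152) (nat_lit 286670255) (nat_lit 16) (nat_lit 5) (nat_lit 17) (nat_lit 5) (nat_lit 18) (nat_lit 4) (nat_lit 387) (nat_lit 290) (nat_lit 103)))) (XT.nd (nat_lit 78) (nat_lit 0) (nat_lit 0) (XT.lf (nat_lit 0) (nat_lit 705933258) (nat_lit 0) (nat_lit 705933258) (nat_lit 988) (nat_lit 3940441139) (nat_lit 155) (nat_lit 5) (nat_lit 155) (nat_lit 3) (nat_lit 168) (nat_lit 3) (nat_lit 291) (nat_lit 291) (nat_lit 198)) (XT.nd (nat_lit 78) (nat_lit 0) (nat_lit 0) (XT.lf (nat_lit 0) (nat_lit 3436168778) (nat_lit 988) (nat_lit 4926567443) (nat_lit 1064) (nat_lit 2483814718) (nat_lit 155) (nat_lit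 5) (nat_lit 168) (nat_lit 3) (nat_lit 169) (nat_lit 5) (nat_lit 292) (nat_lit 291) (nat_lit 197)) (XT.lf (nat_lit 0) (nat_lit 4059760576) (nat_lit 988) (nat_lit 454829731) (nat_lit 1064) (nat_lit 6478430599) (nat_lit 155) (nat_lit 5) (nat_lit 168) (nat_lit 3) (nat_lit 169) (nat_lit 5) (nat_lit 293) (nat_lit 291) (nat_lit 196)))))) (XT.nd (nat_lit 468) (nat_lit 760) (nat_lit 0) (XT.nd (nat_lit 234) (nat_lit 0) (nat_lit 152) (XT.nd (nat_lit 78) (nat_lit 0) (nat_lit 76) (XT.lf (nat_lit 76) (nat_lit 4222336400) (nat_lit 0) (nat_lit 499732868) (nat_lit 1064) (nat_lit 6421273448) (nat_lit 156) (nat_lit 5) (nat_lit 155) (nat_lit 5) (nat_lit 169) (nat_lit 5) (nat_lit 294) (nat_lit 291) (nat_lit 195)) (XT.nd (nat_lit 78) (nat_lit 0) (nat_lit 0) (XT.lf (nat_lit 0) (nat_lit 5423835187) (nat_lit 988) (nat_lit 2295641963) (nat_lit 1064) (nat_lit 3578165719) (nat_lit 156) (nat_lit 5) (nat_lit 169) (nat_lit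 5) (nat_lit 170) (nat_lit 5) (nat_lit 295) (nat_lit 291) (nat_lit 194)) (XT.lf (nat_lit 76) (nat_lit 2500926040) (nat_lit 0) (nat_lit 3655301061) (nat_lit 1064) (nat_lit 5300112424) (nat_lit 157) (nat_lit 5) (nat_lit 156) (nat_lit 5) (nat_lit 170) (nat_lit 5) (nat_lit 296) (nat_lit 291) (nat_lit 193)))) (XT.nd (nat_lit 78) (nat_lit 0) (nat_lit 0) (XT.lf (nat_lit 0) (nat_lit 6920219384) (nat_lit 988) (nat_lit 4147979132) (nat_lit 1064) (nat_lit 551362800) (nat_lit 157) (nat_lit 5) (nat_lit 170) (nat_lit 5) (nat_lit 171) (nat_lit 5) (nat_lit 297) (nat_lit 291) (nat_lit 192)) (XT.nd (nat_lit 78) (nat_lit 0) (nat_lit 0) (XT.lf (nat_lit 76) (nat_lit 770884154) (nat_lit 0) (nat_lit 6961513862) (nat_lit 1064) (nat_lit 4054575296) (nat_lit 158) (nat_lit 5) (nat_lit 157) (nat_lit 5) (nat_lit 171) (nat_lit 5) (nat_lit 298) (nat_lit 291) (nat_lit 191)) (XT.lf (nat_lit 76) (nat_lit 5910811298) (nat_lit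 0) (nat_lit 2682105613) (nat_lit 1064) (nat_lit 3365821558) (nat_lit 158) (nat_lit 5) (nat_lit 157) (nat_lit 5) (nat_lit 171) (nat_lit 5) (nat_lit 299) (nat_lit 291) (nat_lit 190))))) (XT.nd (nat_lit 234) (nat_lit 988) (nat_lit 0) (XT.nd (nat_lit 78) (nat_lit 0) (nat_lit 0) (XT.lf (nat_lit 0) (nat_lit 9478509394) (nat_lit 988) (nat_lit 959134169) (nat_lit 1064) (nat_lit 1698083865) (nat_lit 158) (nat_lit 5) (nat_lit 171) (nat_lit 5) (nat_lit 172) (nat_lit 5) (nat_lit 300) (nat_lit 291) (nat_lit 189)) (XT.nd (nat_lit 78) (nat_lit 0) (nat_lit 0) (XT.lf (nat_lit 76) (nat_lit 4328755663) (nat_lit 0) (nat_lit 6113254588) (nat_lit 1064) (nat_lit 1874522762) (nat_lit 159) (nat_lit 5) (nat_lit 158) (nat_lit 5) (nat_lit 172) (nat_lit 5) (nat_lit 301) (nat_lit 291) (nat_lit 188)) (XT.lf (nat_lit 76) (nat_lit 9783574987) (nat_lit 0) (nat_lit 1644081755) (nat_lit 1064) (nat_lit 1075354605) (nat_lit 159)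 (nat_lit 5) (nat_lit 158) (nat_lit 5) (nat_lit 172) (nat_lit 5) (nat_lit 302) (nat_lit 291) (nat_lit 187)))) (XT.nd (nat_lit 78) (nat_lit 1064) (nat_lit 0) (XT.lf (nat_lit 76) (nat_lit 2719977901) (nat_lit 0) (nat_lit 9761567716) (nat_lit 1064) (nat_lit 212422690) (nat_lit 160) (nat_lit 5) (nat_lit 159) (nat_lit 5) (nat_lit 173) (nat_lit 5) (nat_lit 303) (nat_lit 291) (nat_lit 186)) (XT.nd (nat_lit 78) (nat_lit 0) (nat_lit 0) (XT.lf (nat_lit 0) (nat_lit 691447433) (nat_lit 1064) (nat_lit 4546411653) (nat_lit 1140) (nat_lit 7651794270) (nat_lit 145) (nat_lit 5) (nat_lit 159) (nat_lit 5) (nat_lit 160) (nat_lit 5) (nat_lit 304) (nat_lit 291) (nat_lit 185)) (XT.lf (nat_lit 76) (nat_lit 1050893121) (nat_lit 0) (nat_lit 562070254) (nat_lit 1140) (nat_lit 11478379202) (nat_lit 146) (nat_lit 5) (nat_lit 145) (nat_lit 5) (nat_lit 160) (nat_lit 5) (nat_lit 305) (nat_lit 291) (nat_lit 184))))))))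
noncomputable def xc192 : XT := (XT.nd (nat_lit 1716) (nat_lit 2964) (nat_lit 0) (XT.nd (nat_lit 858) (nat_lit 2356) (nat_lit 0) (XT.nd (nat_lit 390) (nat_lit 1216) (nat_lit 0) (XT.nd (nat_lit 156) (nat_lit 988) (nat_lit 0) (XT.nd (nat_lit 78) (nat_lit 0) (nat_lit 0) (XT.lf (nat_lit 0) (nat_lit 2634449101) (nat_lit 1064) (nat_lit 6441652613) (nat_lit 1140) (nat_lit 4220850540) (nat_lit 146) (nat_lit 5) (nat_lit 160) (nat_lit 5) (nat_lit 161) (nat_lit 5) (nat_lit 306) (nat_lit 291) (nat_lit 183)) (XT.lf (nat_lit 0) (nat_lit 3677647296) (nat_lit 1064) (nat_lit 692024803) (nat_lit 1140) (nat_lit 9139364440) (nat_lit 146) (nat_lit 5) (nat_lit 160) (nat_lit 5) (nat_lit 161) (nat_lit 5) (nat_lit 307) (nat_lit 291) (nat_lit 182))) (XT.nd (nat_lit 78) (nat_lit 1064) (nat_lit 0) (XT.lf (nat_lit 0) (nat_lit 4794360110) (nat_lit 1064) (nat_lit 8408809714) (nat_lit 76) (nat_lit 523084210) (nat_lit 147)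 (nat_lit 5) (nat_lit 161) (nat_lit 5) (nat_lit 148) (nat_lit 5) (nat_lit 308) (nat_lit 291) (nat_lit 181)) (XT.nd (nat_lit 78) (nat_lit 1064) (nat_lit 0) (XT.lf (nat_lit 0) (nat_lit 5981149297) (nat_lit 1064) (nat_lit 2483323976) (nat_lit 76) (nat_lit 5484453685) (nat_lit 147) (nat_lit 5) (nat_lit 161) (nat_lit 5) (nat_lit 148) (nat_lit 5) (nat_lit 309) (nat_lit 291) (nat_lit 180)) (XT.lf (nat_lit 0) (nat_lit 3680488002) (nat_lit 1064) (nat_lit 3545087265) (nat_lit 1140) (nat_lit 6952078914) (nat_lit 133) (nat_lit 5) (nat_lit 147) (nat_lit 5) (nat_lit 148) (nat_lit 5) (nat_lit 310) (nat_lit 291) (nat_lit 179))))) (XT.nd (nat_lit 234) (nat_lit 608) (nat_lit 0) (XT.nd (nat_lit 78) (nat_lit 608) (nat_lit 0) (XT.lf (nat_lit 0) (nat_lit 8534242240) (nat_lit 1140) (nat_lit 4358840375) (nat_lit 76) (nat_lit 1519387436) (nat_lit 133) (nat_lit 5) (nat_lit 148) (nat_lit 5) (nat_lit 134) (nat_lit 5) (nat_lit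 311) (nat_lit 291) (nat_lit 178)) (XT.nd (nat_lit 78) (nat_lit 0) (nat_lit 0) (XT.lf (nat_lit 0) (nat_lit 1955438635) (nat_lit 608) (nat_lit 7967961307) (nat_lit 684) (nat_lit 4729726621) (nat_lit 125) (nat_lit 5) (nat_lit 133) (nat_lit 5) (nat_lit 134) (nat_lit 5) (nat_lit 312) (nat_lit 291) (nat_lit 177)) (XT.lf (nat_lit 0) (nat_lit 8537353961) (nat_lit 608) (nat_lit 2848489919) (nat_lit 684) (nat_lit 3514242669) (nat_lit 125) (nat_lit 5) (nat_lit 133) (nat_lit 5) (nat_lit 134) (nat_lit 5) (nat_lit 313) (nat_lit 291) (nat_lit 176)))) (XT.nd (nat_lit 78) (nat_lit 76) (nat_lit 0) (XT.lf (nat_lit 0) (nat_lit 130283644) (nat_lit 532) (nat_lit 12774405080) (nat_lit 608) (nat_lit 2249421970) (nat_lit 118) (nat_lit 5) (nat_lit 125) (nat_lit 5) (nat_lit 126) (nat_lit 5) (nat_lit 314) (nat_lit 291) (nat_lit 175)) (XT.nd (nat_lit 78) (nat_lit 76) (nat_lit 0) (XT.lf (nat_lit 0) (nat_lit 6908642354) (nat_lit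 532) (nat_lit 7640846460) (nat_lit 608) (nat_lit 863885332) (nat_lit 118) (nat_lit 5) (nat_lit 125) (nat_lit 5) (nat_lit 126) (nat_lit 5) (nat_lit 315) (nat_lit 291) (nat_lit 174)) (XT.lf (nat_lit 0) (nat_lit 540640604) (nat_lit 608) (nat_lit 1806526729) (nat_lit 76) (nat_lit 13333461882) (nat_lit 117) (nat_lit 5) (nat_lit 125) (nat_lit 5) (nat_lit 118) (nat_lit 5) (nat_lit 316) (nat_lit 291) (nat_lit 173)))))) (XT.nd (nat_lit 390) (nat_lit 912) (nat_lit 0) (XT.nd (nat_lit 156) (nat_lit 912) (nat_lit 0) (XT.nd (nat_lit 78) (nat_lit 0) (nat_lit 0) (XT.lf (nat_lit 0) (nat_lit 2038861233) (nat_lit 608) (nat_lit 10810637362) (nat_lit 76) (nat_lit 3104106787) (nat_lit 110) (nat_lit 5) (nat_lit 118) (nat_lit 5) (nat_lit 111) (nat_lit 5) (nat_lit 317) (nat_lit 291) (nat_lit 172)) (XT.lf (nat_lit 0) (nat_lit 3612671215) (nat_lit 608) (nat_lit 3930647360) (nat_lit 76) (nat_lit 8690559879) (nat_lit 110)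 (nat_lit 5) (nat_lit 118) (nat_lit 5) (nat_lit 111) (nat_lit 5) (nat_lit 318) (nat_lit 291) (nat_lit 171))) (XT.nd (nat_lit 78) (nat_lit 456) (nat_lit 0) (XT.lf (nat_lit 0) (nat_lit 3207671945) (nat_lit 456) (nat_lit 2046159073) (nat_lit 532) (nat_lit 11268150755) (nat_lit 104) (nat_lit 5) (nat_lit 110) (nat_lit 5) (nat_lit 111) (nat_lit 5) (nat_lit 319) (nat_lit 291) (nat_lit 170)) (XT.nd (nat_lit 78) (nat_lit 456) (nat_lit 0) (XT.lf (nat_lit 0) (nat_lit 7008579671) (nat_lit 532) (nat_lit 6222871984) (nat_lit 76) (nat_lit 3585371272) (nat_lit 104) (nat_lit 5) (nat_lit 111) (nat_lit 5) (nat_lit 105) (nat_lit 5) (nat_lit 320) (nat_lit 291) (nat_lit 169)) (XT.lf (nat_lit 0) (nat_lit 1071375398) (nat_lit 456) (nat_lit 7764969457) (nat_lit 532) (nat_lit 8283577859) (nat_lit 98) (nat_lit 5) (nat_lit 104) (nat_lit 5) (nat_lit 105) (nat_lit 5) (nat_lit 321) (nat_lit 291) (nat_lit 168))))) (XT.nd (nat_lit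 234) (nat_lit 532) (nat_lit 0) (XT.nd (nat_lit 78) (nat_lit 380) (nat_lit 0) (XT.lf (nat_lit 0) (nat_lit 8701535725) (nat_lit 456) (nat_lit 2070258329) (nat_lit 532) (nat_lit 6658759812) (nat_lit 98) (nat_lit 5) (nat_lit 104) (nat_lit 5) (nat_lit 105) (nat_lit 5) (nat_lit 322) (nat_lit 291) (nat_lit 167)) (XT.nd (nat_lit 78) (nat_lit 380) (nat_lit 0) (XT.lf (nat_lit 0) (nat_lit 12792088007) (nat_lit 532) (nat_lit 1236867414) (nat_lit 76) (nat_lit 3720768299) (nat_lit 98) (nat_lit 5) (nat_lit 105) (nat_lit 5) (nat_lit 99) (nat_lit 5) (nat_lit 323) (nat_lit 291) (nat_lit 166)) (XT.lf (nat_lit 0) (nat_lit 6577729070) (nat_lit 380) (nat_lit 8369569626) (nat_lit 456) (nat_lit 3128963266) (nat_lit 93) (nat_lit 5) (nat_lit 98) (nat_lit 5) (nat_lit 99) (nat_lit 5) (nat_lit 324) (nat_lit 291) (nat_lit 165)))) (XT.nd (nat_lit 78) (nat_lit 532) (nat_lit 0) (XT.lf (nat_lit 0) (nat_lit 14642041442) (nat_lit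 380) (nat_lit 2528372828) (nat_lit 456) (nat_lit 1242106499) (nat_lit 93) (nat_lit 5) (nat_lit 98) (nat_lit 5) (nat_lit 99) (nat_lit 5) (nat_lit 325) (nat_lit 291) (nat_lit 164)) (XT.nd (nat_lit 78) (nat_lit 0) (nat_lit 0) (XT.lf (nat_lit 0) (nat_lit 753489324) (nat_lit 532) (nat_lit 14535989141) (nat_lit 76) (nat_lit 3467232659) (nat_lit 86) (nat_lit 5) (nat_lit 93) (nat_lit 5) (nat_lit 87) (nat_lit 5) (nat_lit 326) (nat_lit 291) (nat_lit 163)) (XT.lf (nat_lit 0) (nat_lit 2838550988) (nat_lit 532) (nat_lit 6629007531) (nat_lit 76) (nat_lit 9641682854) (nat_lit 86) (nat_lit 5) (nat_lit 93) (nat_lit 5) (nat_lit 87) (nat_lit 5) (nat_lit 327) (nat_lit 291) (nat_lit 162))))))) (XT.nd (nat_lit 858) (nat_lit 1140) (nat_lit 0) (XT.nd (nat_lit 390) (nat_lit 1064) (nat_lit 0) (XT.nd (nat_lit 156) (nat_lit 380) (nat_lit 0) (XT.nd (nat_lit 78) (nat_lit 0) (nat_lit 0) (XT.lf (nat_lit 0) (nat_lit 1535273716)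 (nat_lit 380) (nat_lit 3456986891) (nat_lit 456) (nat_lit 14479923475) (nat_lit 81) (nat_lit 5) (nat_lit 86) (nat_lit 5) (nat_lit 87) (nat_lit 5) (nat_lit 328) (nat_lit 291) (nat_lit 161)) (XT.lf (nat_lit 0) (nat_lit 7295948480) (nat_lit 456) (nat_lit 9800611590) (nat_lit 76) (nat_lit 2746912861) (nat_lit 81) (nat_lit 5) (nat_lit 87) (nat_lit 5) (nat_lit 82) (nat_lit 5) (nat_lit 329) (nat_lit 291) (nat_lit 160))) (XT.nd (nat_lit 78) (nat_lit 380) (nat_lit 0) (XT.lf (nat_lit 0) (nat_lit 9694706892) (nat_lit 456) (nat_lit 1464192768) (nat_lit 76) (nat_lit 9066240307) (nat_lit 81) (nat_lit 5) (nat_lit 87) (nat_lit 5) (nat_lit 82) (nat_lit 5) (nat_lit 330) (nat_lit 291) (nat_lit 159)) (XT.nd (nat_lit 78) (nat_lit 0) (nat_lit 0) (XT.lf (nat_lit 0) (nat_lit 7254420902) (nat_lit 380) (nat_lit 4972714202) (nat_lit 456) (nat_lit 8389288486) (nat_lit 76) (nat_lit 5) (nat_lit 81) (nat_lit 5) (nat_lit 82)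 (nat_lit 5) (nat_lit 331) (nat_lit 291) (nat_lit 158)) (XT.lf (nat_lit 0) (nat_lit 14856019265) (nat_lit 456) (nat_lit 4777594033) (nat_lit 76) (nat_lit 1385235199) (nat_lit 76) (nat_lit 5) (nat_lit 82) (nat_lit 5) (nat_lit 77) (nat_lit 5) (nat_lit 332) (nat_lit 291) (nat_lit 157))))) (XT.nd (nat_lit 234) (nat_lit 304) (nat_lit 0) (XT.nd (nat_lit 78) (nat_lit 456) (nat_lit 0) (XT.lf (nat_lit 0) (nat_lit 4085510459) (nat_lit 304) (nat_lit 13559099374) (nat_lit 380) (nat_lit 3786327885) (nat_lit 72) (nat_lit 5) (nat_lit 76) (nat_lit 5) (nat_lit 77) (nat_lit 5) (nat_lit 333) (nat_lit 291) (nat_lit 156)) (XT.nd (nat_lit 78) (nat_lit 456) (nat_lit 0) (XT.lf (nat_lit 0) (nat_lit 13303210846) (nat_lit 304) (nat_lit 7254358835) (nat_lit 380) (nat_lit 1296614866) (nat_lit 72) (nat_lit 5) (nat_lit 76) (nat_lit 5) (nat_lit 77) (nat_lit 5) (nat_lit 334) (nat_lit 291) (nat_lit 155)) (XT.lf (nat_lit 0) (nat_lit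 495672093) (nat_lit 380) (nat_lit 744741739) (nat_lit 456) (nat_lit 21049443784) (nat_lit 66) (nat_lit 5) (nat_lit 71) (nat_lit 5) (nat_lit 72) (nat_lit 5) (nat_lit 335) (nat_lit 291) (nat_lit 154)))) (XT.nd (nat_lit 78) (nat_lit 304) (nat_lit 0) (XT.lf (nat_lit 0) (nat_lit 3964698917) (nat_lit 456) (nat_lit 12827245615) (nat_lit 76) (nat_lit 5942169922) (nat_lit 66) (nat_lit 5) (nat_lit 72) (nat_lit 5) (nat_lit 67) (nat_lit 5) (nat_lit 336) (nat_lit 291) (nat_lit 153)) (XT.nd (nat_lit 78) (nat_lit 304) (nat_lit 0) (XT.lf (nat_lit 0) (nat_lit 6771009011) (nat_lit 456) (nat_lit 3607655243) (nat_lit 76) (nat_lit 12813040311) (nat_lit 66) (nat_lit 5) (nat_lit 72) (nat_lit 5) (nat_lit 67) (nat_lit 5) (nat_lit 337) (nat_lit 291) (nat_lit 152)) (XT.lf (nat_lit 0) (nat_lit 5996820014) (nat_lit 304) (nat_lit 3715462404) (nat_lit 380) (nat_lit 13949230781) (nat_lit 62) (nat_lit 5) (nat_lit 66) (nat_lit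 5) (nat_lit 67) (nat_lit 5) (nat_lit 338) (nat_lit 291) (nat_lit 151)))))) (XT.nd (nat_lit 468) (nat_lit 532) (nat_lit 0) (XT.nd (nat_lit 234) (nat_lit 304) (nat_lit 0) (XT.nd (nat_lit 78) (nat_lit 304) (nat_lit 0) (XT.lf (nat_lit 0) (nat_lit 12802069880) (nat_lit 380) (nat_lit 8220392974) (nat_lit 76) (nat_lit 3121158594) (nat_lit 62) (nat_lit 5) (nat_lit 67) (nat_lit 5) (nat_lit 63) (nat_lit 5) (nat_lit 339) (nat_lit 291) (nat_lit 150)) (XT.nd (nat_lit 78) (nat_lit 0) (nat_lit 0) (XT.lf (nat_lit 0) (nat_lit 1490965912) (nat_lit 304) (nat_lit 14538129047) (nat_lit 380) (nat_lit 8609774900) (nat_lit 58) (nat_lit 5) (nat_lit 62) (nat_lit 5) (nat_lit 63) (nat_lit 5) (nat_lit 340) (nat_lit 291) (nat_lit 149)) (XT.lf (nat_lit 0) (nat_lit 11653681967) (nat_lit 304) (nat_lit 7775793688) (nat_lit 380) (nat_lit 5717216570) (nat_lit 58) (nat_lit 5) (nat_lit 62) (nat_lit 5) (nat_lit 63) (nat_lit 5) (nat_lit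 341) (nat_lit 291) (nat_lit 148)))) (XT.nd (nat_lit 78) (nat_lit 304) (nat_lit 0) (XT.lf (nat_lit 0) (nat_lit 22113033296) (nat_lit 304) (nat_lit 812557792) (nat_lit 380) (nat_lit 2744358950) (nat_lit 58) (nat_lit 5) (nat_lit 62) (nat_lit 5) (nat_lit 63) (nat_lit 5) (nat_lit 342) (nat_lit 291) (nat_lit 147)) (XT.nd (nat_lit 78) (nat_lit 0) (nat_lit 0) (XT.lf (nat_lit 0) (nat_lit 432463182) (nat_lit 304) (nat_lit 19470107486) (nat_lit 76) (nat_lit 6302625724) (nat_lit 54) (nat_lit 5) (nat_lit 58) (nat_lit 5) (nat_lit 55) (nat_lit 5) (nat_lit 343) (nat_lit 291) (nat_lit 146)) (XT.lf (nat_lit 0) (nat_lit 3687666553) (nat_lit 304) (nat_lit 9390462025) (nat_lit 76) (nat_lit 13676420755) (nat_lit 54) (nat_lit 5) (nat_lit 58) (nat_lit 5) (nat_lit 55) (nat_lit 5) (nat_lit 344) (nat_lit 291) (nat_lit 145))))) (XT.nd (nat_lit 234) (nat_lit 228) (nat_lit 0) (XT.nd (nat_lit 78) (nat_lit 0) (nat_lit 0) (XT.lf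 (nat_lit 0) (nat_lit 1003152941) (nat_lit 304) (nat_lit 6041110020) (nat_lit 380) (nat_lit 20276018875) (nat_lit 50) (nat_lit 5) (nat_lit 54) (nat_lit 5) (nat_lit 55) (nat_lit 5) (nat_lit 345) (nat_lit 291) (nat_lit 144)) (XT.nd (nat_lit 78) (nat_lit 0) (nat_lit 0) (XT.lf (nat_lit 0) (nat_lit 10603093672) (nat_lit 380) (nat_lit 16019692824) (nat_lit 76) (nat_lit 1277164487) (nat_lit 50) (nat_lit 5) (nat_lit 55) (nat_lit 5) (nat_lit 51) (nat_lit 5) (nat_lit 346) (nat_lit 291) (nat_lit 143)) (XT.lf (nat_lit 0) (nat_lit 14322841778) (nat_lit 380) (nat_lit 5480992676) (nat_lit 76) (nat_lit 8691561624) (nat_lit 50) (nat_lit 5) (nat_lit 55) (nat_lit 5) (nat_lit 51) (nat_lit 5) (nat_lit 347) (nat_lit 291) (nat_lit 142)))) (XT.nd (nat_lit 78) (nat_lit 0) (nat_lit 0) (XT.lf (nat_lit 0) (nat_lit 5473049880) (nat_lit 228) (nat_lit 12728247121) (nat_lit 304) (nat_lit 10906004228) (nat_lit 47) (nat_lit 5)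 (nat_lit 50) (nat_lit 5) (nat_lit 51) (nat_lit 5) (nat_lit 348) (nat_lit 291) (nat_lit 141)) (XT.nd (nat_lit 78) (nat_lit 0) (nat_lit 0) (XT.lf (nat_lit 0) (nat_lit 16860525860) (nat_lit 228) (nat_lit 5385519231) (nat_lit 304) (nat_lit 7490030114) (nat_lit 47) (nat_lit 5) (nat_lit 50) (nat_lit 5) (nat_lit 51) (nat_lit 5) (nat_lit 349) (nat_lit 291) (nat_lit 140)) (XT.lf (nat_lit 0) (nat_lit 26427796521) (nat_lit 304) (nat_lit 1822487942) (nat_lit 76) (nat_lit 2132967672) (nat_lit 47) (nat_lit 5) (nat_lit 51) (nat_lit 5) (nat_lit 48) (nat_lit 5) (nat_lit 350) (nat_lit 291) (nat_lit 139))))))))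
noncomputable def xc193 : XT := (XT.nd (nat_lit 1716) (nat_lit 532) (nat_lit 0) (XT.nd (nat_lit 858) (nat_lit 760) (nat_lit 0) (XT.nd (nat_lit 390) (nat_lit 456) (nat_lit 0) (XT.nd (nat_lit 156) (nat_lit 228) (nat_lit 0) (XT.nd (nat_lit 78) (nat_lit 76) (nat_lit 0) (XT.lf (nat_lit 0) (nat_lit 9690690906) (nat_lit 228) (nat_lit 21185667443) (nat_lit 304) (nat_lit 169254570) (nat_lit 44) (nat_lit 5) (nat_lit 47) (nat_lit 5) (nat_lit 48) (nat_lit 5) (nat_lit 351) (nat_lit 291) (nat_lit 138)) (XT.lf (nat_lit 0) (nat_lit 3671226478) (nat_lit 304) (nat_lit 10184002225) (nat_lit 76) (nat_lit 17871144065) (nat_lit 43) (nat_lit 5) (nat_lit 47) (nat_lit 5) (nat_lit 44) (nat_lit 5) (nat_lit 352) (nat_lit 291) (nat_lit 137))) (XT.nd (nat_lit 78) (nat_lit 0) (nat_lit 0) (XT.lf (nat_lit 0) (nat_lit 1339427028) (nat_lit 228) (nat_lit 6292021220) (nat_lit 304) (nat_lit 24795827541) (nat_lit 40) (nat_lit 5)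 (nat_lit 43) (nat_lit 5) (nat_lit 44) (nat_lit 5) (nat_lit 353) (nat_lit 291) (nat_lit 136)) (XT.nd (nat_lit 78) (nat_lit 0) (nat_lit 0) (XT.lf (nat_lit 0) (nat_lit 11823842709) (nat_lit 304) (nat_lit 19751361992) (nat_lit 76) (nat_lit 1570608467) (nat_lit 40) (nat_lit 5) (nat_lit 44) (nat_lit 5) (nat_lit 41) (nat_lit 5) (nat_lit 354) (nat_lit 291) (nat_lit 135)) (XT.lf (nat_lit 0) (nat_lit 16199557595) (nat_lit 304) (nat_lit 8144013565) (nat_lit 76) (nat_lit 9540617056) (nat_lit 40) (nat_lit 5) (nat_lit 44) (nat_lit 5) (nat_lit 41) (nat_lit 5) (nat_lit 355) (nat_lit 291) (nat_lit 134))))) (XT.nd (nat_lit 234) (nat_lit 228) (nat_lit 0) (XT.nd (nat_lit 78) (nat_lit 0) (nat_lit 0) (XT.lf (nat_lit 0) (nat_lit 3880545028) (nat_lit 228) (nat_lit 16858690735) (nat_lit 304) (nat_lit 13904505773) (nat_lit 37) (nat_lit 5) (nat_lit 40) (nat_lit 5) (nat_lit 41) (nat_lit 5) (nat_lit 356) (nat_lit 291) (nat_lit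 133)) (XT.nd (nat_lit 78) (nat_lit 0) (nat_lit 0) (XT.lf (nat_lit 0) (nat_lit 16426116996) (nat_lit 228) (nat_lit 9066685701) (nat_lit 304) (nat_lit 9930955353) (nat_lit 37) (nat_lit 5) (nat_lit 40) (nat_lit 5) (nat_lit 41) (nat_lit 5) (nat_lit 357) (nat_lit 291) (nat_lit 132)) (XT.lf (nat_lit 0) (nat_lit 29341582648) (nat_lit 228) (nat_lit 1042986078) (nat_lit 304) (nat_lit 5842745898) (nat_lit 37) (nat_lit 5) (nat_lit 40) (nat_lit 5) (nat_lit 41) (nat_lit 5) (nat_lit 358) (nat_lit 291) (nat_lit 131)))) (XT.nd (nat_lit 78) (nat_lit 76) (nat_lit 0) (XT.lf (nat_lit 0) (nat_lit 5623450242) (nat_lit 152) (nat_lit 29918811484) (nat_lit 228) (nat_lit 1509148062) (nat_lit 35) (nat_lit 5) (nat_lit 37) (nat_lit 5) (nat_lit 38) (nat_lit 5) (nat_lit 359) (nat_lit 291) (nat_lit 130)) (XT.nd (nat_lit 78) (nat_lit 0) (nat_lit 0) (XT.lf (nat_lit 0) (nat_lit 2973069800) (nat_lit 228) (nat_lit 19294928587)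 (nat_lit 76) (nat_lit 15629096200) (nat_lit 34) (nat_lit 5) (nat_lit 37) (nat_lit 5) (nat_lit 35) (nat_lit 5) (nat_lit 360) (nat_lit 291) (nat_lit 129)) (XT.lf (nat_lit 0) (nat_lit 7555263350) (nat_lit 228) (nat_lit 6819091811) (nat_lit 76) (nat_lit 24393477772) (nat_lit 34) (nat_lit 5) (nat_lit 37) (nat_lit 5) (nat_lit 35) (nat_lit 5) (nat_lit 361) (nat_lit 291) (nat_lit 128)))))) (XT.nd (nat_lit 390) (nat_lit 380) (nat_lit 0) (XT.nd (nat_lit 156) (nat_lit 152) (nat_lit 0) (XT.nd (nat_lit 78) (nat_lit 0) (nat_lit 0) (XT.lf (nat_lit 0) (nat_lit 6144867348) (nat_lit 228) (nat_lit 6185086234) (nat_lit 304) (nat_lit 27333095240) (nat_lit 31) (nat_lit 5) (nat_lit 34) (nat_lit 5) (nat_lit 35) (nat_lit 5) (nat_lit 362) (nat_lit 291) (nat_lit 127)) (XT.lf (nat_lit 0) (nat_lit 17335055886) (nat_lit 304) (nat_lit 20973942034) (nat_lit 76) (nat_lit 2273514264) (nat_lit 31) (nat_lit 5) (nat_lit 35) (nat_lit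 5) (nat_lit 32) (nat_lit 5) (nat_lit 363) (nat_lit 291) (nat_lit 126))) (XT.nd (nat_lit 78) (nat_lit 152) (nat_lit 0) (XT.lf (nat_lit 0) (nat_lit 22547669245) (nat_lit 304) (nat_lit 8120543784) (nat_lit 76) (nat_lit 10859631638) (nat_lit 31) (nat_lit 5) (nat_lit 35) (nat_lit 5) (nat_lit 32) (nat_lit 5) (nat_lit 364) (nat_lit 291) (nat_lit 125)) (XT.nd (nat_lit 78) (nat_lit 0) (nat_lit 0) (XT.lf (nat_lit 0) (nat_lit 5214451973) (nat_lit 152) (nat_lit 22748566065) (nat_lit 228) (nat_lit 14537134158) (nat_lit 29) (nat_lit 5) (nat_lit 31) (nat_lit 5) (nat_lit 32) (nat_lit 5) (nat_lit 365) (nat_lit 291) (nat_lit 124)) (XT.lf (nat_lit 0) (nat_lit 19110260052) (nat_lit 152) (nat_lit 14508856278) (nat_lit 228) (nat_lit 9880169566) (nat_lit 29) (nat_lit 5) (nat_lit 31) (nat_lit 5) (nat_lit 32) (nat_lit 5) (nat_lit 366) (nat_lit 291) (nat_lit 123))))) (XT.nd (nat_lit 234) (nat_lit 152) (nat_lit 0) (XT.nd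 (nat_lit 78) (nat_lit 228) (nat_lit 0) (XT.lf (nat_lit 0) (nat_lit 33417407677) (nat_lit 152) (nat_lit 6023885491) (nat_lit 228) (nat_lit 5087214024) (nat_lit 29) (nat_lit 5) (nat_lit 31) (nat_lit 5) (nat_lit 32) (nat_lit 5) (nat_lit 367) (nat_lit 291) (nat_lit 122)) (XT.nd (nat_lit 78) (nat_lit 76) (nat_lit 0) (XT.lf (nat_lit 0) (nat_lit 2584018008) (nat_lit 152) (nat_lit 42901543368) (nat_lit 228) (nat_lit 101626262) (nat_lit 27) (nat_lit 5) (nat_lit 29) (nat_lit 5) (nat_lit 30) (nat_lit 5) (nat_lit 368) (nat_lit 291) (nat_lit 121)) (XT.lf (nat_lit 0) (nat_lit 5104754117) (nat_lit 228) (nat_lit 29871132410) (nat_lit 76) (nat_lit 11695211982) (nat_lit 26) (nat_lit 5) (nat_lit 29) (nat_lit 5) (nat_lit 27) (nat_lit 5) (nat_lit 369) (nat_lit 291) (nat_lit 120)))) (XT.nd (nat_lit 78) (nat_lit 152) (nat_lit 0) (XT.lf (nat_lit 0) (nat_lit 10461879071) (nat_lit 228) (nat_lit 16351467400) (nat_lit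 76) (nat_lit 20974257020) (nat_lit 26) (nat_lit 5) (nat_lit 29) (nat_lit 5) (nat_lit 27) (nat_lit 5) (nat_lit 370) (nat_lit 291) (nat_lit 119)) (XT.nd (nat_lit 78) (nat_lit 152) (nat_lit 0) (XT.lf (nat_lit 0) (nat_lit 15976412678) (nat_lit 228) (nat_lit 2431384408) (nat_lit 76) (nat_lit 30529910393) (nat_lit 26) (nat_lit 5) (nat_lit 29) (nat_lit 5) (nat_lit 27) (nat_lit 5) (nat_lit 371) (nat_lit 291) (nat_lit 118)) (XT.lf (nat_lit 0) (nat_lit 12138138547) (nat_lit 152) (nat_lit 9631714128) (nat_lit 228) (nat_lit 28349062367) (nat_lit 24) (nat_lit 5) (nat_lit 26) (nat_lit 5) (nat_lit 27) (nat_lit 5) (nat_lit 372) (nat_lit 291) (nat_lit 117))))))) (XT.nd (nat_lit 858) (nat_lit 0) (nat_lit 0) (XT.nd (nat_lit 390) (nat_lit 380) (nat_lit 0) (XT.nd (nat_lit 156) (nat_lit 152) (nat_lit 0) (XT.nd (nat_lit 78) (nat_lit 0) (nat_lit 0) (XT.lf (nat_lit 0) (nat_lit 27189616089) (nat_lit 152) (nat_lit 568868833)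 (nat_lit 228) (nat_lit 23576436671) (nat_lit 24) (nat_lit 5) (nat_lit 26) (nat_lit 5) (nat_lit 27) (nat_lit 5) (nat_lit 373) (nat_lit 291) (nat_lit 116)) (XT.lf (nat_lit 0) (nat_lit 34007951047) (nat_lit 228) (nat_lit 9983940044) (nat_lit 76) (nat_lit 8593086306) (nat_lit 24) (nat_lit 5) (nat_lit 27) (nat_lit 5) (nat_lit 25) (nat_lit 5) (nat_lit 374) (nat_lit 291) (nat_lit 115))) (XT.nd (nat_lit 78) (nat_lit 0) (nat_lit 0) (XT.lf (nat_lit 0) (nat_lit 4683257316) (nat_lit 152) (nat_lit 35809296561) (nat_lit 228) (nat_lit 13378555596) (nat_lit 22) (nat_lit 5) (nat_lit 24) (nat_lit 5) (nat_lit 25) (nat_lit 5) (nat_lit 375) (nat_lit 291) (nat_lit 114)) (XT.nd (nat_lit 78) (nat_lit 0) (nat_lit 0) (XT.lf (nat_lit 0) (nat_lit 19990414369) (nat_lit 152) (nat_lit 27279142640) (nat_lit 228) (nat_lit 7923336693) (nat_lit 22) (nat_lit 5) (nat_lit 24) (nat_lit 5) (nat_lit 25) (nat_lit 5) (nat_lit 376) (nat_lit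 291) (nat_lit 113)) (XT.lf (nat_lit 0) (nat_lit 35752206317) (nat_lit 152) (nat_lit 18494794013) (nat_lit 228) (nat_lit 2307421163) (nat_lit 22) (nat_lit 5) (nat_lit 24) (nat_lit 5) (nat_lit 25) (nat_lit 5) (nat_lit 377) (nat_lit 291) (nat_lit 112))))) (XT.nd (nat_lit 234) (nat_lit 152) (nat_lit 0) (XT.nd (nat_lit 78) (nat_lit 152) (nat_lit 0) (XT.lf (nat_lit 0) (nat_lit 3406305936) (nat_lit 228) (nat_lit 6007872090) (nat_lit 76) (nat_lit 48541702653) (nat_lit 21) (nat_lit 5) (nat_lit 24) (nat_lit 5) (nat_lit 22) (nat_lit 5) (nat_lit 378) (nat_lit 291) (nat_lit 111)) (XT.nd (nat_lit 78) (nat_lit 0) (nat_lit 0) (XT.lf (nat_lit 0) (nat_lit 9333074680) (nat_lit 228) (nat_lit 50010353249) (nat_lit 76) (nat_lit 52633740) (nat_lit 19) (nat_lit 5) (nat_lit 22) (nat_lit 5) (nat_lit 20) (nat_lit 5) (nat_lit 379) (nat_lit 291) (nat_lit 110)) (XT.lf (nat_lit 0) (nat_lit 15589411307) (nat_lit 228) (nat_lit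 35611587364) (nat_lit 76) (nat_lit 9673899973) (nat_lit 19) (nat_lit 5) (nat_lit 22) (nat_lit 5) (nat_lit 20) (nat_lit 5) (nat_lit 380) (nat_lit 291) (nat_lit 109)))) (XT.nd (nat_lit 78) (nat_lit 152) (nat_lit 0) (XT.lf (nat_lit 0) (nat_lit 22030803798) (nat_lit 228) (nat_lit 20785131112) (nat_lit 76) (nat_lit 19582248244) (nat_lit 19) (nat_lit 5) (nat_lit 22) (nat_lit 5) (nat_lit 20) (nat_lit 5) (nat_lit 381) (nat_lit 291) (nat_lit 108)) (XT.nd (nat_lit 78) (nat_lit 152) (nat_lit 0) (XT.lf (nat_lit 0) (nat_lit 28662880555) (nat_lit 228) (nat_lit 5518029336) (nat_lit 76) (nat_lit 29786336332) (nat_lit 19) (nat_lit 5) (nat_lit 22) (nat_lit 5) (nat_lit 20) (nat_lit 5) (nat_lit 382) (nat_lit 291) (nat_lit 107)) (XT.lf (nat_lit 0) (nat_lit 10406119011) (nat_lit 152) (nat_lit 25185347565) (nat_lit 228) (nat_lit 29988991401) (nat_lit 17) (nat_lit 5) (nat_lit 19) (nat_lit 5) (nat_lit 20) (nat_lit 5)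 (nat_lit 383) (nat_lit 291) (nat_lit 106)))))) (XT.nd (nat_lit 33696) (nat_lit 0) (nat_lit 10488) (XT.nd (nat_lit 33462) (nat_lit 0) (nat_lit 10488) (XT.nd (nat_lit 78) (nat_lit 0) (nat_lit 0) (XT.lf (nat_lit 0) (nat_lit 26917118142) (nat_lit 152) (nat_lit 15864064281) (nat_lit 228) (nat_lit 24459288603) (nat_lit 17) (nat_lit 5) (nat_lit 19) (nat_lit 5) (nat_lit 20) (nat_lit 5) (nat_lit 384) (nat_lit 291) (nat_lit 105)) (XT.nd (nat_lit 78) (nat_lit 0) (nat_lit 0) (XT.lf (nat_lit 0) (nat_lit 43919575538) (nat_lit 152) (nat_lit 6264636508) (nat_lit 228) (nat_lit 18766146772) (nat_lit 17) (nat_lit 5) (nat_lit 19) (nat_lit 5) (nat_lit 20) (nat_lit 5) (nat_lit 385) (nat_lit 291) (nat_lit 104)) (XT.lf (nat_lit 0) (nat_lit 57841834487) (nat_lit 228) (nat_lit 9318078090) (nat_lit 76) (nat_lit 3550658538) (nat_lit 17) (nat_lit 5) (nat_lit 20) (nat_lit 5) (nat_lit 18) (nat_lit 4) (nat_lit 386) (nat_lit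 291) (nat_lit 103)))) (XT.nd (nat_lit 78) (nat_lit 0) (nat_lit 0) (XT.lf (nat_lit 0) (nat_lit 997352629) (nat_lit 0) (nat_lit 997352629) (nat_lit 988) (nat_lit 3500440653) (nat_lit 155) (nat_lit 5) (nat_lit 155) (nat_lit 3) (nat_lit 168) (nat_lit 3) (nat_lit 292) (nat_lit 292) (nat_lit 196)) (XT.nd (nat_lit 78) (nat_lit 0) (nat_lit 0) (XT.lf (nat_lit 0) (nat_lit 4583690778) (nat_lit 988) (nat_lit 4510150736) (nat_lit 1064) (nat_lit 2043828205) (nat_lit 155) (nat_lit 5) (nat_lit 168) (nat_lit 3) (nat_lit 169) (nat_lit 5) (nat_lit 293) (nat_lit 292) (nat_lit 195)) (XT.lf (nat_lit 76) (nat_lit 80884036) (nat_lit 0) (nat_lit 5115463307) (nat_lit 1064) (nat_lit 6093161498) (nat_lit 156) (nat_lit 5) (nat_lit 155) (nat_lit 5) (nat_lit 169) (nat_lit 5) (nat_lit 294) (nat_lit 292) (nat_lit 194))))) (XT.nd (nat_lit 234) (nat_lit 0) (nat_lit 152) (XT.nd (nat_lit 78) (nat_lit 0) (nat_lit 76) (XT.lf (nat_lit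 76) (nat_lit 4891416418) (nat_lit 0) (nat_lit 962010887) (nat_lit 1064) (nat_lit 5591749208) (nat_lit 156) (nat_lit 5) (nat_lit 155) (nat_lit 5) (nat_lit 169) (nat_lit 5) (nat_lit 295) (nat_lit 292) (nat_lit 193)) (XT.nd (nat_lit 78) (nat_lit 0) (nat_lit 0) (XT.lf (nat_lit 0) (nat_lit 6543245750) (nat_lit 988) (nat_lit 1802204428) (nat_lit 1064) (nat_lit 3259726349) (nat_lit 156) (nat_lit 5) (nat_lit 169) (nat_lit 5) (nat_lit 170) (nat_lit 5) (nat_lit 296) (nat_lit 292) (nat_lit 192)) (XT.lf (nat_lit 76) (nat_lit 3132747803) (nat_lit 0) (nat_lit 4142348945) (nat_lit 1064) (nat_lit 4494291203) (nat_lit 157) (nat_lit 5) (nat_lit 156) (nat_lit 5) (nat_lit 170) (nat_lit 5) (nat_lit 297) (nat_lit 292) (nat_lit 191)))) (XT.nd (nat_lit 78) (nat_lit 0) (nat_lit 0) (XT.lf (nat_lit 0) (nat_lit 8031277559) (nat_lit 988) (nat_lit 3698570512) (nat_lit 1064) (nat_lit 208656465) (nat_lit 157) (nat_lit 5) (nat_lit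 170) (nat_lit 5) (nat_lit 171) (nat_lit 5) (nat_lit 298) (nat_lit 292) (nat_lit 190)) (XT.nd (nat_lit 78) (nat_lit 0) (nat_lit 0) (XT.lf (nat_lit 76) (nat_lit 1362232713) (nat_lit 0) (nat_lit 7484736812) (nat_lit 1064) (nat_lit 3264668910) (nat_lit 158) (nat_lit 5) (nat_lit 157) (nat_lit 5) (nat_lit 171) (nat_lit 5) (nat_lit 299) (nat_lit 292) (nat_lit 189)) (XT.lf (nat_lit 76) (nat_lit 6639807514) (nat_lit 0) (nat_lit 3067789687) (nat_lit 1064) (nat_lit 2581802375) (nat_lit 158) (nat_lit 5) (nat_lit 157) (nat_lit 5) (nat_lit 171) (nat_lit 5) (nat_lit 300) (nat_lit 292) (nat_lit 188))))))))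
noncomputable def xc194 : XT := (XT.nd (nat_lit 1716) (nat_lit 3344) (nat_lit 0) (XT.nd (nat_lit 858) (nat_lit 2660) (nat_lit 0) (XT.nd (nat_lit 390) (nat_lit 912) (nat_lit 0) (XT.nd (nat_lit 156) (nat_lit 988) (nat_lit 0) (XT.nd (nat_lit 78) (nat_lit 0) (nat_lit 0) (XT.lf (nat_lit 0) (nat_lit 10591950903) (nat_lit 988) (nat_lit 422173346) (nat_lit 1064) (nat_lit 1458477889) (nat_lit 158) (nat_lit 5) (nat_lit 171) (nat_lit 5) (nat_lit 172) (nat_lit 5) (nat_lit 301) (nat_lit 292) (nat_lit 187)) (XT.lf (nat_lit 76) (nat_lit 5018806760) (nat_lit 0) (nat_lit 6546786756) (nat_lit 1064) (nat_lit 1093868976) (nat_lit 159) (nat_lit 5) (nat_lit 158) (nat_lit 5) (nat_lit 172) (nat_lit 5) (nat_lit 302) (nat_lit 292) (nat_lit 186))) (XT.nd (nat_lit 78) (nat_lit 988) (nat_lit 0) (XT.lf (nat_lit 76) (nat_lit 10620954496) (nat_lit 0) (nat_lit 1936253266) (nat_lit 1064) (nat_lit 295101196) (nat_lit 159) (nat_lit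 5) (nat_lit 158) (nat_lit 5) (nat_lit 172) (nat_lit 5) (nat_lit 303) (nat_lit 292) (nat_lit 185)) (XT.nd (nat_lit 78) (nat_lit 0) (nat_lit 0) (XT.lf (nat_lit 0) (nat_lit 562138973) (nat_lit 1064) (nat_lit 9687192894) (nat_lit 1140) (nat_lit 2800153328) (nat_lit 145) (nat_lit 5) (nat_lit 159) (nat_lit 5) (nat_lit 160) (nat_lit 5) (nat_lit 304) (nat_lit 292) (nat_lit 184)) (XT.lf (nat_lit 0) (nat_lit 1466234409) (nat_lit 1064) (nat_lit 4115897177) (nat_lit 1140) (nat_lit 7669584907) (nat_lit 145) (nat_lit 5) (nat_lit 159) (nat_lit 5) (nat_lit 160) (nat_lit 5) (nat_lit 305) (nat_lit 292) (nat_lit 183))))) (XT.nd (nat_lit 234) (nat_lit 912) (nat_lit 0) (XT.nd (nat_lit 78) (nat_lit 0) (nat_lit 76) (XT.lf (nat_lit 76) (nat_lit 1643768830) (nat_lit 0) (nat_lit 755060595) (nat_lit 1140) (nat_lit 11061182360) (nat_lit 146) (nat_lit 5) (nat_lit 145) (nat_lit 5) (nat_lit 160) (nat_lit 5) (nat_lit 306)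 (nat_lit 292) (nat_lit 182)) (XT.nd (nat_lit 78) (nat_lit 0) (nat_lit 0) (XT.lf (nat_lit 0) (nat_lit 3427836065) (nat_lit 1064) (nat_lit 6064889534) (nat_lit 1140) (nat_lit 4179814564) (nat_lit 146) (nat_lit 5) (nat_lit 160) (nat_lit 5) (nat_lit 161) (nat_lit 5) (nat_lit 307) (nat_lit 292) (nat_lit 181)) (XT.lf (nat_lit 0) (nat_lit 4481523794) (nat_lit 1064) (nat_lit 159375201) (nat_lit 1140) (nat_lit 9250767226) (nat_lit 146) (nat_lit 5) (nat_lit 160) (nat_lit 5) (nat_lit 161) (nat_lit 5) (nat_lit 308) (nat_lit 292) (nat_lit 180)))) (XT.nd (nat_lit 78) (nat_lit 1064) (nat_lit 0) (XT.lf (nat_lit 0) (nat_lit 5615549467) (nat_lit 1064) (nat_lit 8089693577) (nat_lit 76) (nat_lit 410696299) (nat_lit 147) (nat_lit 5) (nat_lit 161) (nat_lit 5) (nat_lit 148) (nat_lit 5) (nat_lit 309) (nat_lit 292) (nat_lit 179)) (XT.nd (nat_lit 78) (nat_lit 1064) (nat_lit 0) (XT.lf (nat_lit 0) (nat_lit 6818213439)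 (nat_lit 1064) (nat_lit 2003085416) (nat_lit 76) (nat_lit 5524637357) (nat_lit 147) (nat_lit 5) (nat_lit 161) (nat_lit 5) (nat_lit 148) (nat_lit 5) (nat_lit 310) (nat_lit 292) (nat_lit 178)) (XT.lf (nat_lit 0) (nat_lit 4340202311) (nat_lit 1064) (nat_lit 3745895819) (nat_lit 1140) (nat_lit 6495893720) (nat_lit 133) (nat_lit 5) (nat_lit 147) (nat_lit 5) (nat_lit 148) (nat_lit 5) (nat_lit 311) (nat_lit 292) (nat_lit 177)))))) (XT.nd (nat_lit 390) (nat_lit 1520) (nat_lit 0) (XT.nd (nat_lit 156) (nat_lit 532) (nat_lit 0) (XT.nd (nat_lit 78) (nat_lit 608) (nat_lit 0) (XT.lf (nat_lit 0) (nat_lit 9414393427) (nat_lit 1140) (nat_lit 3935042874) (nat_lit 76) (nat_lit 1475053758) (nat_lit 133) (nat_lit 5) (nat_lit 148) (nat_lit 5) (nat_lit 134) (nat_lit 5) (nat_lit 312) (nat_lit 292) (nat_lit 176)) (XT.lf (nat_lit 0) (nat_lit 2563227616) (nat_lit 608) (nat_lit 8269098411) (nat_lit 684) (nat_lit 4240474721)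 (nat_lit 125) (nat_lit 5) (nat_lit 133) (nat_lit 5) (nat_lit 134) (nat_lit 5) (nat_lit 313) (nat_lit 292) (nat_lit 175))) (XT.nd (nat_lit 78) (nat_lit 532) (nat_lit 0) (XT.lf (nat_lit 0) (nat_lit 9326606446) (nat_lit 608) (nat_lit 2994234193) (nat_lit 684) (nat_lit 3006909077) (nat_lit 125) (nat_lit 5) (nat_lit 133) (nat_lit 5) (nat_lit 134) (nat_lit 5) (nat_lit 314) (nat_lit 292) (nat_lit 174)) (XT.nd (nat_lit 78) (nat_lit 0) (nat_lit 0) (XT.lf (nat_lit 0) (nat_lit 681820922) (nat_lit 532) (nat_lit 13190847270) (nat_lit 608) (nat_lit 1717148634) (nat_lit 118) (nat_lit 5) (nat_lit 125) (nat_lit 5) (nat_lit 126) (nat_lit 5) (nat_lit 315) (nat_lit 292) (nat_lit 173)) (XT.lf (nat_lit 0) (nat_lit 7647580041) (nat_lit 532) (nat_lit 7902314608) (nat_lit 608) (nat_lit 307514518) (nat_lit 118) (nat_lit 5) (nat_lit 125) (nat_lit 5) (nat_lit 126) (nat_lit 5) (nat_lit 316) (nat_lit 292) (nat_lit 172)))))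 (XT.nd (nat_lit 234) (nat_lit 912) (nat_lit 0) (XT.nd (nat_lit 78) (nat_lit 532) (nat_lit 0) (XT.lf (nat_lit 0) (nat_lit 1111155793) (nat_lit 608) (nat_lit 1332132903) (nat_lit 76) (nat_lit 13689765103) (nat_lit 117) (nat_lit 5) (nat_lit 125) (nat_lit 5) (nat_lit 118) (nat_lit 5) (nat_lit 317) (nat_lit 292) (nat_lit 171)) (XT.nd (nat_lit 78) (nat_lit 0) (nat_lit 0) (XT.lf (nat_lit 0) (nat_lit 2643019716) (nat_lit 608) (nat_lit 10593737887) (nat_lit 76) (nat_lit 3177840516) (nat_lit 110) (nat_lit 5) (nat_lit 118) (nat_lit 5) (nat_lit 111) (nat_lit 5) (nat_lit 318) (nat_lit 292) (nat_lit 170)) (XT.lf (nat_lit 0) (nat_lit 4248228679) (nat_lit 608) (nat_lit 3523111833) (nat_lit 76) (nat_lit 8932451943) (nat_lit 110) (nat_lit 5) (nat_lit 118) (nat_lit 5) (nat_lit 111) (nat_lit 5) (nat_lit 319) (nat_lit 292) (nat_lit 169)))) (XT.nd (nat_lit 78) (nat_lit 456) (nat_lit 0) (XT.lf (nat_lit 0) (nat_lit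 3824205532) (nat_lit 456) (nat_lit 2104064539) (nat_lit 532) (nat_lit 11072616884) (nat_lit 104) (nat_lit 5) (nat_lit 110) (nat_lit 5) (nat_lit 111) (nat_lit 5) (nat_lit 320) (nat_lit 292) (nat_lit 168)) (XT.nd (nat_lit 78) (nat_lit 456) (nat_lit 0) (XT.lf (nat_lit 0) (nat_lit 7720640525) (nat_lit 532) (nat_lit 5888175372) (nat_lit 76) (nat_lit 3696244462) (nat_lit 104) (nat_lit 5) (nat_lit 111) (nat_lit 5) (nat_lit 105) (nat_lit 5) (nat_lit 321) (nat_lit 292) (nat_lit 167)) (XT.lf (nat_lit 0) (nat_lit 1619787836) (nat_lit 456) (nat_lit 7973797907) (nat_lit 532) (nat_lit 8023992317) (nat_lit 98) (nat_lit 5) (nat_lit 104) (nat_lit 5) (nat_lit 105) (nat_lit 5) (nat_lit 322) (nat_lit 292) (nat_lit 166))))))) (XT.nd (nat_lit 858) (nat_lit 1672) (nat_lit 0) (XT.nd (nat_lit 390) (nat_lit 760) (nat_lit 0) (XT.nd (nat_lit 156) (nat_lit 912) (nat_lit 0) (XT.nd (nat_lit 78) (nat_lit 0) (nat_lit 0) (XT.lf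 (nat_lit 0) (nat_lit 9463815948) (nat_lit 456) (nat_lit 2108947988) (nat_lit 532) (nat_lit 6365228550) (nat_lit 98) (nat_lit 5) (nat_lit 104) (nat_lit 5) (nat_lit 105) (nat_lit 5) (nat_lit 323) (nat_lit 292) (nat_lit 165)) (XT.lf (nat_lit 0) (nat_lit 13639968288) (nat_lit 532) (nat_lit 772529711) (nat_lit 76) (nat_lit 3854683696) (nat_lit 98) (nat_lit 5) (nat_lit 105) (nat_lit 5) (nat_lit 99) (nat_lit 5) (nat_lit 324) (nat_lit 292) (nat_lit 164))) (XT.nd (nat_lit 78) (nat_lit 532) (nat_lit 0) (XT.lf (nat_lit 0) (nat_lit 7271588552) (nat_lit 380) (nat_lit 8579501683) (nat_lit 456) (nat_lit 2752720538) (nat_lit 93) (nat_lit 5) (nat_lit 98) (nat_lit 5) (nat_lit 99) (nat_lit 5) (nat_lit 325) (nat_lit 292) (nat_lit 163)) (XT.nd (nat_lit 78) (nat_lit 532) (nat_lit 0) (XT.lf (nat_lit 0) (nat_lit 15563368327) (nat_lit 380) (nat_lit 2564267671) (nat_lit 456) (nat_lit 822950639) (nat_lit 93) (nat_lit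 5) (nat_lit 98) (nat_lit 5) (nat_lit 99) (nat_lit 5) (nat_lit 326) (nat_lit 292) (nat_lit 162)) (XT.lf (nat_lit 0) (nat_lit 1215716692) (nat_lit 532) (nat_lit 14471204405) (nat_lit 76) (nat_lit 3618316276) (nat_lit 86) (nat_lit 5) (nat_lit 93) (nat_lit 5) (nat_lit 87) (nat_lit 5) (nat_lit 327) (nat_lit 292) (nat_lit 161))))) (XT.nd (nat_lit 234) (nat_lit 380) (nat_lit 0) (XT.nd (nat_lit 78) (nat_lit 380) (nat_lit 0) (XT.lf (nat_lit 0) (nat_lit 3350525661) (nat_lit 532) (nat_lit 6341601631) (nat_lit 76) (nat_lit 9976629104) (nat_lit 86) (nat_lit 5) (nat_lit 93) (nat_lit 5) (nat_lit 87) (nat_lit 5) (nat_lit 328) (nat_lit 292) (nat_lit 160)) (XT.nd (nat_lit 78) (nat_lit 0) (nat_lit 0) (XT.lf (nat_lit 0) (nat_lit 2062840640) (nat_lit 380) (nat_lit 3498202887) (nat_lit 456) (nat_lit 14481805843) (nat_lit 81) (nat_lit 5) (nat_lit 86) (nat_lit 5) (nat_lit 87) (nat_lit 5) (nat_lit 329) (nat_lit 292)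 (nat_lit 159)) (XT.lf (nat_lit 0) (nat_lit 7922220944) (nat_lit 456) (nat_lit 9614621957) (nat_lit 76) (nat_lit 2888809697) (nat_lit 81) (nat_lit 5) (nat_lit 87) (nat_lit 5) (nat_lit 82) (nat_lit 5) (nat_lit 330) (nat_lit 292) (nat_lit 158)))) (XT.nd (nat_lit 78) (nat_lit 380) (nat_lit 0) (XT.lf (nat_lit 0) (nat_lit 10381076264) (nat_lit 456) (nat_lit 1042091386) (nat_lit 76) (nat_lit 9395984265) (nat_lit 81) (nat_lit 5) (nat_lit 87) (nat_lit 5) (nat_lit 82) (nat_lit 5) (nat_lit 331) (nat_lit 292) (nat_lit 157)) (XT.nd (nat_lit 78) (nat_lit 0) (nat_lit 0) (XT.lf (nat_lit 0) (nat_lit 7933511801) (nat_lit 380) (nat_lit 5048881103) (nat_lit 456) (nat_lit 8240019202) (nat_lit 76) (nat_lit 5) (nat_lit 81) (nat_lit 5) (nat_lit 82) (nat_lit 5) (nat_lit 332) (nat_lit 292) (nat_lit 156)) (XT.lf (nat_lit 0) (nat_lit 15679511111) (nat_lit 456) (nat_lit 4461445539) (nat_lit 76) (nat_lit 1496296866) (nat_lit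 76) (nat_lit 5) (nat_lit 82) (nat_lit 5) (nat_lit 77) (nat_lit 5) (nat_lit 333) (nat_lit 292) (nat_lit 155)))))) (XT.nd (nat_lit 468) (nat_lit 608) (nat_lit 0) (XT.nd (nat_lit 234) (nat_lit 304) (nat_lit 0) (XT.nd (nat_lit 78) (nat_lit 456) (nat_lit 0) (XT.lf (nat_lit 0) (nat_lit 4663047418) (nat_lit 304) (nat_lit 13882081232) (nat_lit 380) (nat_lit 3516799747) (nat_lit 72) (nat_lit 5) (nat_lit 76) (nat_lit 5) (nat_lit 77) (nat_lit 5) (nat_lit 334) (nat_lit 292) (nat_lit 154)) (XT.nd (nat_lit 78) (nat_lit 456) (nat_lit 0) (XT.lf (nat_lit 0) (nat_lit 14144027215) (nat_lit 304) (nat_lit 7390638995) (nat_lit 380) (nat_lit 963554113) (nat_lit 72) (nat_lit 5) (nat_lit 76) (nat_lit 5) (nat_lit 77) (nat_lit 5) (nat_lit 335) (nat_lit 292) (nat_lit 153)) (XT.lf (nat_lit 0) (nat_lit 955867401) (nat_lit 380) (nat_lit 680118162) (nat_lit 456) (nat_lit 21311083025) (nat_lit 66) (nat_lit 5) (nat_lit 71) (nat_lit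 5) (nat_lit 72) (nat_lit 5) (nat_lit 336) (nat_lit 292) (nat_lit 152)))) (XT.nd (nat_lit 78) (nat_lit 304) (nat_lit 0) (XT.lf (nat_lit 0) (nat_lit 4432373171) (nat_lit 456) (nat_lit 12769369845) (nat_lit 76) (nat_lit 6203220275) (nat_lit 66) (nat_lit 5) (nat_lit 72) (nat_lit 5) (nat_lit 67) (nat_lit 5) (nat_lit 337) (nat_lit 292) (nat_lit 151)) (XT.nd (nat_lit 78) (nat_lit 304) (nat_lit 0) (XT.lf (nat_lit 0) (nat_lit 7312715287) (nat_lit 456) (nat_lit 3286085737) (nat_lit 76) (nat_lit 13277805554) (nat_lit 66) (nat_lit 5) (nat_lit 72) (nat_lit 5) (nat_lit 67) (nat_lit 5) (nat_lit 338) (nat_lit 292) (nat_lit 150)) (XT.lf (nat_lit 0) (nat_lit 6602310061) (nat_lit 304) (nat_lit 3734146386) (nat_lit 380) (nat_lit 14024246289) (nat_lit 62) (nat_lit 5) (nat_lit 66) (nat_lit 5) (nat_lit 67) (nat_lit 5) (nat_lit 339) (nat_lit 292) (nat_lit 149))))) (XT.nd (nat_lit 234) (nat_lit 304) (nat_lit 0) (XT.nd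 (nat_lit 78) (nat_lit 304) (nat_lit 0) (XT.lf (nat_lit 0) (nat_lit 13510110048) (nat_lit 380) (nat_lit 8044335395) (nat_lit 76) (nat_lit 3303113177) (nat_lit 62) (nat_lit 5) (nat_lit 67) (nat_lit 5) (nat_lit 63) (nat_lit 5) (nat_lit 340) (nat_lit 292) (nat_lit 148)) (XT.nd (nat_lit 78) (nat_lit 0) (nat_lit 0) (XT.lf (nat_lit 0) (nat_lit 1954220440) (nat_lit 304) (nat_lit 14874312308) (nat_lit 380) (nat_lit 8539313124) (nat_lit 58) (nat_lit 5) (nat_lit 62) (nat_lit 5) (nat_lit 63) (nat_lit 5) (nat_lit 341) (nat_lit 292) (nat_lit 147)) (XT.lf (nat_lit 0) (nat_lit 12409627913) (nat_lit 304) (nat_lit 7912018362) (nat_lit 380) (nat_lit 5569553432) (nat_lit 58) (nat_lit 5) (nat_lit 62) (nat_lit 5) (nat_lit 63) (nat_lit 5) (nat_lit 342) (nat_lit 292) (nat_lit 146)))) (XT.nd (nat_lit 78) (nat_lit 304) (nat_lit 0) (XT.lf (nat_lit 0) (nat_lit 23170924767) (nat_lit 304) (nat_lit 742712063) (nat_lit 380)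 (nat_lit 2516806578) (nat_lit 58) (nat_lit 5) (nat_lit 62) (nat_lit 5) (nat_lit 63) (nat_lit 5) (nat_lit 343) (nat_lit 292) (nat_lit 145)) (XT.nd (nat_lit 78) (nat_lit 0) (nat_lit 0) (XT.lf (nat_lit 0) (nat_lit 745187538) (nat_lit 304) (nat_lit 19648435617) (nat_lit 76) (nat_lit 6588174083) (nat_lit 54) (nat_lit 5) (nat_lit 58) (nat_lit 5) (nat_lit 55) (nat_lit 5) (nat_lit 344) (nat_lit 292) (nat_lit 144)) (XT.lf (nat_lit 0) (nat_lit 4089316413) (nat_lit 304) (nat_lit 9278219483) (nat_lit 76) (nat_lit 14180373171) (nat_lit 54) (nat_lit 5) (nat_lit 58) (nat_lit 5) (nat_lit 55) (nat_lit 5) (nat_lit 345) (nat_lit 292) (nat_lit 143))))))))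
noncomputable def xc195 : XT := (XT.nd (nat_lit 1794) (nat_lit 912) (nat_lit 0) (XT.nd (nat_lit 858) (nat_lit 836) (nat_lit 0) (XT.nd (nat_lit 390) (nat_lit 532) (nat_lit 0) (XT.nd (nat_lit 156) (nat_lit 228) (nat_lit 0) (XT.nd (nat_lit 78) (nat_lit 0) (nat_lit 0) (XT.lf (nat_lit 0) (nat_lit 1423341613) (nat_lit 304) (nat_lit 6118542616) (nat_lit 380) (nat_lit 20588887019) (nat_lit 50) (nat_lit 5) (nat_lit 54) (nat_lit 5) (nat_lit 55) (nat_lit 5) (nat_lit 346) (nat_lit 292) (nat_lit 142)) (XT.lf (nat_lit 0) (nat_lit 11200109955) (nat_lit 380) (nat_lit 16113666782) (nat_lit 76) (nat_lit 1414290274) (nat_lit 50) (nat_lit 5) (nat_lit 55) (nat_lit 5) (nat_lit 51) (nat_lit 5) (nat_lit 347) (nat_lit 292) (nat_lit 141))) (XT.nd (nat_lit 78) (nat_lit 228) (nat_lit 0) (XT.lf (nat_lit 0) (nat_lit 15023326519) (nat_lit 380) (nat_lit 5270066315) (nat_lit 76) (nat_lit 9048241339) (nat_lit 50) (nat_lit 5)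 (nat_lit 55) (nat_lit 5) (nat_lit 51) (nat_lit 5) (nat_lit 348) (nat_lit 292) (nat_lit 140)) (XT.nd (nat_lit 78) (nat_lit 0) (nat_lit 0) (XT.lf (nat_lit 0) (nat_lit 6008917555) (nat_lit 228) (nat_lit 13004903258) (nat_lit 304) (nat_lit 10958219660) (nat_lit 47) (nat_lit 5) (nat_lit 50) (nat_lit 5) (nat_lit 51) (nat_lit 5) (nat_lit 349) (nat_lit 292) (nat_lit 139)) (XT.lf (nat_lit 0) (nat_lit 17727192296) (nat_lit 228) (nat_lit 5444957355) (nat_lit 304) (nat_lit 7447775003) (nat_lit 47) (nat_lit 5) (nat_lit 50) (nat_lit 5) (nat_lit 51) (nat_lit 5) (nat_lit 350) (nat_lit 292) (nat_lit 138))))) (XT.nd (nat_lit 234) (nat_lit 228) (nat_lit 0) (XT.nd (nat_lit 78) (nat_lit 304) (nat_lit 0) (XT.lf (nat_lit 0) (nat_lit 27472771114) (nat_lit 304) (nat_lit 1519782234) (nat_lit 76) (nat_lit 2294174740) (nat_lit 47) (nat_lit 5) (nat_lit 51) (nat_lit 5) (nat_lit 48) (nat_lit 5) (nat_lit 351) (nat_lit 292)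 (nat_lit 137)) (XT.nd (nat_lit 78) (nat_lit 0) (nat_lit 0) (XT.lf (nat_lit 0) (nat_lit 80160927) (nat_lit 304) (nat_lit 21634588925) (nat_lit 76) (nat_lit 10254317855) (nat_lit 43) (nat_lit 5) (nat_lit 47) (nat_lit 5) (nat_lit 44) (nat_lit 5) (nat_lit 352) (nat_lit 292) (nat_lit 136)) (XT.lf (nat_lit 0) (nat_lit 4025141219) (nat_lit 304) (nat_lit 10140682524) (nat_lit 76) (nat_lit 18504608292) (nat_lit 43) (nat_lit 5) (nat_lit 47) (nat_lit 5) (nat_lit 44) (nat_lit 5) (nat_lit 353) (nat_lit 292) (nat_lit 135)))) (XT.nd (nat_lit 78) (nat_lit 0) (nat_lit 0) (XT.lf (nat_lit 0) (nat_lit 1725029609) (nat_lit 228) (nat_lit 6375360092) (nat_lit 304) (nat_lit 25292098037) (nat_lit 40) (nat_lit 5) (nat_lit 43) (nat_lit 5) (nat_lit 44) (nat_lit 5) (nat_lit 354) (nat_lit 292) (nat_lit 134)) (XT.nd (nat_lit 78) (nat_lit 0) (nat_lit 0) (XT.lf (nat_lit 0) (nat_lit 12412549624) (nat_lit 304) (nat_lit 20002142932)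 (nat_lit 76) (nat_lit 1718080708) (nat_lit 40) (nat_lit 5) (nat_lit 44) (nat_lit 5) (nat_lit 41) (nat_lit 5) (nat_lit 355) (nat_lit 292) (nat_lit 133)) (XT.lf (nat_lit 0) (nat_lit 16912720667) (nat_lit 304) (nat_lit 8056528225) (nat_lit 76) (nat_lit 9924266624) (nat_lit 40) (nat_lit 5) (nat_lit 44) (nat_lit 5) (nat_lit 41) (nat_lit 5) (nat_lit 356) (nat_lit 292) (nat_lit 132)))))) (XT.nd (nat_lit 468) (nat_lit 380) (nat_lit 0) (XT.nd (nat_lit 234) (nat_lit 228) (nat_lit 0) (XT.nd (nat_lit 78) (nat_lit 0) (nat_lit 0) (XT.lf (nat_lit 0) (nat_lit 4325514128) (nat_lit 228) (nat_lit 17259616515) (nat_lit 304) (nat_lit 14090839704) (nat_lit 37) (nat_lit 5) (nat_lit 40) (nat_lit 5) (nat_lit 41) (nat_lit 5) (nat_lit 357) (nat_lit 292) (nat_lit 131)) (XT.nd (nat_lit 78) (nat_lit 0) (nat_lit 0) (XT.lf (nat_lit 0) (nat_lit 17237883757) (nat_lit 228) (nat_lit 9236904774) (nat_lit 304) (nat_lit 10004805139)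 (nat_lit 37) (nat_lit 5) (nat_lit 40) (nat_lit 5) (nat_lit 41) (nat_lit 5) (nat_lit 358) (nat_lit 292) (nat_lit 130)) (XT.lf (nat_lit 0) (nat_lit 30531522605) (nat_lit 228) (nat_lit 975458673) (nat_lit 304) (nat_lit 5800475969) (nat_lit 37) (nat_lit 5) (nat_lit 40) (nat_lit 5) (nat_lit 41) (nat_lit 5) (nat_lit 359) (nat_lit 292) (nat_lit 129)))) (XT.nd (nat_lit 78) (nat_lit 76) (nat_lit 0) (XT.lf (nat_lit 0) (nat_lit 6104480807) (nat_lit 152) (nat_lit 30712706758) (nat_lit 228) (nat_lit 1339164436) (nat_lit 35) (nat_lit 5) (nat_lit 37) (nat_lit 5) (nat_lit 38) (nat_lit 5) (nat_lit 360) (nat_lit 292) (nat_lit 128)) (XT.nd (nat_lit 78) (nat_lit 0) (nat_lit 0) (XT.lf (nat_lit 0) (nat_lit 3267172193) (nat_lit 228) (nat_lit 19566147371) (nat_lit 76) (nat_lit 16194219748) (nat_lit 34) (nat_lit 5) (nat_lit 37) (nat_lit 5) (nat_lit 35) (nat_lit 5) (nat_lit 361) (nat_lit 292) (nat_lit 127)) (XT.lf (nat_lit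 0) (nat_lit 7980863288) (nat_lit 228) (nat_lit 6724995561) (nat_lit 76) (nat_lit 25218729350) (nat_lit 34) (nat_lit 5) (nat_lit 37) (nat_lit 5) (nat_lit 35) (nat_lit 5) (nat_lit 362) (nat_lit 292) (nat_lit 126))))) (XT.nd (nat_lit 234) (nat_lit 152) (nat_lit 0) (XT.nd (nat_lit 78) (nat_lit 0) (nat_lit 0) (XT.lf (nat_lit 0) (nat_lit 6624954245) (nat_lit 228) (nat_lit 6270888396) (nat_lit 304) (nat_lit 27950915544) (nat_lit 31) (nat_lit 5) (nat_lit 34) (nat_lit 5) (nat_lit 35) (nat_lit 5) (nat_lit 363) (nat_lit 292) (nat_lit 125)) (XT.nd (nat_lit 78) (nat_lit 0) (nat_lit 0) (XT.lf (nat_lit 0) (nat_lit 18046320489) (nat_lit 304) (nat_lit 21310962124) (nat_lit 76) (nat_lit 2436674969) (nat_lit 31) (nat_lit 5) (nat_lit 35) (nat_lit 5) (nat_lit 32) (nat_lit 5) (nat_lit 364) (nat_lit 292) (nat_lit 124)) (XT.lf (nat_lit 0) (nat_lit 23409742939) (nat_lit 304) (nat_lit 8080472552) (nat_lit 76) (nat_lit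 11277610176) (nat_lit 31) (nat_lit 5) (nat_lit 35) (nat_lit 5) (nat_lit 32) (nat_lit 5) (nat_lit 365) (nat_lit 292) (nat_lit 123)))) (XT.nd (nat_lit 78) (nat_lit 0) (nat_lit 0) (XT.lf (nat_lit 0) (nat_lit 5651791827) (nat_lit 152) (nat_lit 23333053517) (nat_lit 228) (nat_lit 14784546586) (nat_lit 29) (nat_lit 5) (nat_lit 31) (nat_lit 5) (nat_lit 32) (nat_lit 5) (nat_lit 366) (nat_lit 292) (nat_lit 122)) (XT.nd (nat_lit 78) (nat_lit 0) (nat_lit 0) (XT.lf (nat_lit 0) (nat_lit 19956292412) (nat_lit 152) (nat_lit 14849005917) (nat_lit 228) (nat_lit 9993369220) (nat_lit 29) (nat_lit 5) (nat_lit 31) (nat_lit 5) (nat_lit 32) (nat_lit 5) (nat_lit 367) (nat_lit 292) (nat_lit 121)) (XT.lf (nat_lit 0) (nat_lit 34684711032) (nat_lit 152) (nat_lit 6112256377) (nat_lit 228) (nat_lit 5061961092) (nat_lit 29) (nat_lit 5) (nat_lit 31) (nat_lit 5) (nat_lit 32) (nat_lit 5) (nat_lit 368) (nat_lit 292) (nat_lit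 120))))))) (XT.nd (nat_lit 858) (nat_lit 304) (nat_lit 0) (XT.nd (nat_lit 390) (nat_lit 228) (nat_lit 0) (XT.nd (nat_lit 156) (nat_lit 152) (nat_lit 0) (XT.nd (nat_lit 78) (nat_lit 0) (nat_lit 0) (XT.lf (nat_lit 0) (nat_lit 70145751) (nat_lit 228) (nat_lit 44021887140) (nat_lit 76) (nat_lit 2857371347) (nat_lit 26) (nat_lit 5) (nat_lit 29) (nat_lit 5) (nat_lit 27) (nat_lit 5) (nat_lit 369) (nat_lit 292) (nat_lit 119)) (XT.lf (nat_lit 0) (nat_lit 5425642579) (nat_lit 228) (nat_lit 30504769898) (nat_lit 76) (nat_lit 12135547904) (nat_lit 26) (nat_lit 5) (nat_lit 29) (nat_lit 5) (nat_lit 27) (nat_lit 5) (nat_lit 370) (nat_lit 292) (nat_lit 118))) (XT.nd (nat_lit 78) (nat_lit 152) (nat_lit 0) (XT.lf (nat_lit 0) (nat_lit 10938595481) (nat_lit 228) (nat_lit 16587160466) (nat_lit 76) (nat_lit 21690358092) (nat_lit 26) (nat_lit 5) (nat_lit 29) (nat_lit 5) (nat_lit 27) (nat_lit 5) (nat_lit 371) (nat_lit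 292) (nat_lit 117)) (XT.nd (nat_lit 78) (nat_lit 152) (nat_lit 0) (XT.lf (nat_lit 0) (nat_lit 16613821600) (nat_lit 228) (nat_lit 2256897828) (nat_lit 76) (nat_lit 31530150774) (nat_lit 26) (nat_lit 5) (nat_lit 29) (nat_lit 5) (nat_lit 27) (nat_lit 5) (nat_lit 372) (nat_lit 292) (nat_lit 116)) (XT.lf (nat_lit 0) (nat_lit 12747285050) (nat_lit 152) (nat_lit 9831529523) (nat_lit 228) (nat_lit 29038773479) (nat_lit 24) (nat_lit 5) (nat_lit 26) (nat_lit 5) (nat_lit 27) (nat_lit 5) (nat_lit 373) (nat_lit 292) (nat_lit 115))))) (XT.nd (nat_lit 234) (nat_lit 76) (nat_lit 0) (XT.nd (nat_lit 78) (nat_lit 152) (nat_lit 0) (XT.lf (nat_lit 0) (nat_lit 28243170928) (nat_lit 152) (nat_lit 499395064) (nat_lit 228) (nat_lit 24127651364) (nat_lit 24) (nat_lit 5) (nat_lit 26) (nat_lit 5) (nat_lit 27) (nat_lit 5) (nat_lit 374) (nat_lit 292) (nat_lit 114)) (XT.nd (nat_lit 78) (nat_lit 152) (nat_lit 0) (XT.lf (nat_lit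 0) (nat_lit 35175916176) (nat_lit 228) (nat_lit 10048714200) (nat_lit 76) (nat_lit 8933258633) (nat_lit 24) (nat_lit 5) (nat_lit 27) (nat_lit 5) (nat_lit 25) (nat_lit 5) (nat_lit 375) (nat_lit 292) (nat_lit 113)) (XT.lf (nat_lit 0) (nat_lit 5056197669) (nat_lit 152) (nat_lit 36796791087) (nat_lit 228) (nat_lit 13629684339) (nat_lit 22) (nat_lit 5) (nat_lit 24) (nat_lit 5) (nat_lit 25) (nat_lit 5) (nat_lit 376) (nat_lit 292) (nat_lit 112)))) (XT.nd (nat_lit 78) (nat_lit 76) (nat_lit 0) (XT.lf (nat_lit 0) (nat_lit 20815799260) (nat_lit 152) (nat_lit 28013260248) (nat_lit 228) (nat_lit 8015184439) (nat_lit 22) (nat_lit 5) (nat_lit 24) (nat_lit 5) (nat_lit 25) (nat_lit 5) (nat_lit 377) (nat_lit 292) (nat_lit 111)) (XT.nd (nat_lit 78) (nat_lit 76) (nat_lit 0) (XT.lf (nat_lit 0) (nat_lit 37043871983) (nat_lit 152) (nat_lit 18967835240) (nat_lit 228) (nat_lit 2235039570) (nat_lit 22) (nat_lit 5) (nat_lit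 24) (nat_lit 5) (nat_lit 25) (nat_lit 5) (nat_lit 378) (nat_lit 292) (nat_lit 110)) (XT.lf (nat_lit 0) (nat_lit 3643292220) (nat_lit 228) (nat_lit 5972529967) (nat_lit 76) (nat_lit 50074513377) (nat_lit 21) (nat_lit 5) (nat_lit 24) (nat_lit 5) (nat_lit 22) (nat_lit 5) (nat_lit 379) (nat_lit 292) (nat_lit 109)))))) (XT.nd (nat_lit 468) (nat_lit 0) (nat_lit 0) (XT.nd (nat_lit 234) (nat_lit 152) (nat_lit 0) (XT.nd (nat_lit 78) (nat_lit 0) (nat_lit 0) (XT.lf (nat_lit 0) (nat_lit 9746764069) (nat_lit 228) (nat_lit 51293813155) (nat_lit 76) (nat_lit 133182933) (nat_lit 19) (nat_lit 5) (nat_lit 22) (nat_lit 5) (nat_lit 20) (nat_lit 5) (nat_lit 380) (nat_lit 292) (nat_lit 108)) (XT.nd (nat_lit 78) (nat_lit 0) (nat_lit 0) (XT.lf (nat_lit 0) (nat_lit 16186896703) (nat_lit 228) (nat_lit 36469400333) (nat_lit 76) (nat_lit 10040787051) (nat_lit 19) (nat_lit 5) (nat_lit 22) (nat_lit 5) (nat_lit 20) (nat_lit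 5) (nat_lit 381) (nat_lit 292) (nat_lit 107)) (XT.lf (nat_lit 0) (nat_lit 22817750297) (nat_lit 228) (nat_lit 21204282470) (nat_lit 76) (nat_lit 20244152661) (nat_lit 19) (nat_lit 5) (nat_lit 22) (nat_lit 5) (nat_lit 20) (nat_lit 5) (nat_lit 382) (nat_lit 292) (nat_lit 106)))) (XT.nd (nat_lit 78) (nat_lit 152) (nat_lit 0) (XT.lf (nat_lit 0) (nat_lit 29645118801) (nat_lit 228) (nat_lit 5485121114) (nat_lit 76) (nat_lit 30752195325) (nat_lit 19) (nat_lit 5) (nat_lit 22) (nat_lit 5) (nat_lit 20) (nat_lit 5) (nat_lit 383) (nat_lit 292) (nat_lit 105)) (XT.nd (nat_lit 78) (nat_lit 0) (nat_lit 0) (XT.lf (nat_lit 0) (nat_lit 10914806104) (nat_lit 152) (nat_lit 25865081565) (nat_lit 228) (nat_lit 30764210516) (nat_lit 17) (nat_lit 5) (nat_lit 19) (nat_lit 5) (nat_lit 20) (nat_lit 5) (nat_lit 384) (nat_lit 292) (nat_lit 104)) (XT.lf (nat_lit 0) (nat_lit 27915411805) (nat_lit 152) (nat_lit 16266368320)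 (nat_lit 228) (nat_lit 25072241410) (nat_lit 17) (nat_lit 5) (nat_lit 19) (nat_lit 5) (nat_lit 20) (nat_lit 5) (nat_lit 385) (nat_lit 292) (nat_lit 103))))) (XT.nd (nat_lit 33540) (nat_lit 0) (nat_lit 10488) (XT.nd (nat_lit 33384) (nat_lit 0) (nat_lit 10488) (XT.lf (nat_lit 0) (nat_lit 45422386220) (nat_lit 152) (nat_lit 6381101924) (nat_lit 228) (nat_lit 19211824523) (nat_lit 17) (nat_lit 5) (nat_lit 19) (nat_lit 5) (nat_lit 20) (nat_lit 5) (nat_lit 386) (nat_lit 292) (nat_lit 102)) (XT.nd (nat_lit 78) (nat_lit 0) (nat_lit 0) (XT.lf (nat_lit 0) (nat_lit 1282001622) (nat_lit 0) (nat_lit 1282001622) (nat_lit 988) (nat_lit 3079283904) (nat_lit 155) (nat_lit 5) (nat_lit 155) (nat_lit 3) (nat_lit 168) (nat_lit 3) (nat_lit 293) (nat_lit 293) (nat_lit 194)) (XT.lf (nat_lit 0) (nat_lit 5705683485) (nat_lit 988) (nat_lit 4113629703) (nat_lit 1064) (nat_lit 1620176557) (nat_lit 155) (nat_lit 5) (nat_lit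 168) (nat_lit 3) (nat_lit 169) (nat_lit 5) (nat_lit 294) (nat_lit 293) (nat_lit 193)))) (XT.nd (nat_lit 78) (nat_lit 0) (nat_lit 0) (XT.lf (nat_lit 76) (nat_lit 609922136) (nat_lit 0) (nat_lit 5703185491) (nat_lit 1064) (nat_lit 5283565621) (nat_lit 156) (nat_lit 5) (nat_lit 155) (nat_lit 5) (nat_lit 169) (nat_lit 5) (nat_lit 295) (nat_lit 293) (nat_lit 192)) (XT.nd (nat_lit 78) (nat_lit 0) (nat_lit 76) (XT.lf (nat_lit 76) (nat_lit 5549432288) (nat_lit 0) (nat_lit 1412481199) (nat_lit 1064) (nat_lit 4796015546) (nat_lit 156) (nat_lit 5) (nat_lit 155) (nat_lit 5) (nat_lit 169) (nat_lit 5) (nat_lit 296) (nat_lit 293) (nat_lit 191)) (XT.lf (nat_lit 0) (nat_lit 7641320394) (nat_lit 988) (nat_lit 1326242478) (nat_lit 1064) (nat_lit 2956175560) (nat_lit 156) (nat_lit 5) (nat_lit 169) (nat_lit 5) (nat_lit 170) (nat_lit 5) (nat_lit 297) (nat_lit 293) (nat_lit 190))))))))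
noncomputable def xc196 : XT := (XT.nd (nat_lit 1716) (nat_lit 3952) (nat_lit 0) (XT.nd (nat_lit 858) (nat_lit 2584) (nat_lit 0) (XT.nd (nat_lit 390) (nat_lit 912) (nat_lit 0) (XT.nd (nat_lit 156) (nat_lit 0) (nat_lit 76) (XT.nd (nat_lit 78) (nat_lit 0) (nat_lit 0) (XT.lf (nat_lit 76) (nat_lit 3751561967) (nat_lit 0) (nat_lit 4622344601) (nat_lit 1064) (nat_lit 3719680223) (nat_lit 157) (nat_lit 5) (nat_lit 156) (nat_lit 5) (nat_lit 170) (nat_lit 5) (nat_lit 298) (nat_lit 293) (nat_lit 189)) (XT.lf (nat_lit 76) (nat_lit 8998847645) (nat_lit 0) (nat_lit 126170848) (nat_lit 1064) (nat_lit 3143662838) (nat_lit 157) (nat_lit 5) (nat_lit 156) (nat_lit 5) (nat_lit 170) (nat_lit 5) (nat_lit 299) (nat_lit 293) (nat_lit 188))) (XT.nd (nat_lit 78) (nat_lit 0) (nat_lit 0) (XT.lf (nat_lit 76) (nat_lit 1938703459) (nat_lit 0) (nat_lit 8005609893) (nat_lit 1064) (nat_lit 2503391668) (nat_lit 158) (nat_lit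 5) (nat_lit 157) (nat_lit 5) (nat_lit 171) (nat_lit 5) (nat_lit 300) (nat_lit 293) (nat_lit 187)) (XT.nd (nat_lit 78) (nat_lit 0) (nat_lit 76) (XT.lf (nat_lit 76) (nat_lit 7359005395) (nat_lit 0) (nat_lit 3447523356) (nat_lit 1064) (nat_lit 1825064883) (nat_lit 158) (nat_lit 5) (nat_lit 157) (nat_lit 5) (nat_lit 171) (nat_lit 5) (nat_lit 301) (nat_lit 293) (nat_lit 186)) (XT.lf (nat_lit 76) (nat_lit 100379573) (nat_lit 0) (nat_lit 11591788053) (nat_lit 1064) (nat_lit 1128947742) (nat_lit 159) (nat_lit 5) (nat_lit 158) (nat_lit 5) (nat_lit 172) (nat_lit 5) (nat_lit 302) (nat_lit 293) (nat_lit 185))))) (XT.nd (nat_lit 234) (nat_lit 0) (nat_lit 76) (XT.nd (nat_lit 78) (nat_lit 1064) (nat_lit 0) (XT.lf (nat_lit 76) (nat_lit 5697402284) (nat_lit 0) (nat_lit 6978966144) (nat_lit 1064) (nat_lit 337836456) (nat_lit 159) (nat_lit 5) (nat_lit 158) (nat_lit 5) (nat_lit 172) (nat_lit 5) (nat_lit 303) (nat_lit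 293) (nat_lit 184)) (XT.nd (nat_lit 78) (nat_lit 0) (nat_lit 76) (XT.lf (nat_lit 0) (nat_lit 452904496) (nat_lit 1064) (nat_lit 1765771449) (nat_lit 1140) (nat_lit 10994756954) (nat_lit 144) (nat_lit 5) (nat_lit 158) (nat_lit 5) (nat_lit 159) (nat_lit 5) (nat_lit 304) (nat_lit 293) (nat_lit 183)) (XT.lf (nat_lit 0) (nat_lit 1311084262) (nat_lit 1064) (nat_lit 9427413705) (nat_lit 1140) (nat_lit 2678562596) (nat_lit 145) (nat_lit 5) (nat_lit 159) (nat_lit 5) (nat_lit 160) (nat_lit 5) (nat_lit 305) (nat_lit 293) (nat_lit 182)))) (XT.nd (nat_lit 78) (nat_lit 0) (nat_lit 0) (XT.lf (nat_lit 0) (nat_lit 2220979810) (nat_lit 1064) (nat_lit 3705010038) (nat_lit 1140) (nat_lit 7700065337) (nat_lit 145) (nat_lit 5) (nat_lit 159) (nat_lit 5) (nat_lit 160) (nat_lit 5) (nat_lit 306) (nat_lit 293) (nat_lit 181)) (XT.nd (nat_lit 78) (nat_lit 0) (nat_lit 76) (XT.lf (nat_lit 76) (nat_lit 2222207086) (nat_lit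 0) (nat_lit 943730165) (nat_lit 1140) (nat_lit 10675185597) (nat_lit 146) (nat_lit 5) (nat_lit 145) (nat_lit 5) (nat_lit 160) (nat_lit 5) (nat_lit 307) (nat_lit 293) (nat_lit 180)) (XT.lf (nat_lit 0) (nat_lit 4204017826) (nat_lit 1064) (nat_lit 5709544622) (nat_lit 1140) (nat_lit 4147171964) (nat_lit 146) (nat_lit 5) (nat_lit 160) (nat_lit 5) (nat_lit 161) (nat_lit 5) (nat_lit 308) (nat_lit 293) (nat_lit 179)))))) (XT.nd (nat_lit 390) (nat_lit 1748) (nat_lit 0) (XT.nd (nat_lit 156) (nat_lit 988) (nat_lit 0) (XT.nd (nat_lit 78) (nat_lit 0) (nat_lit 76) (XT.lf (nat_lit 76) (nat_lit 364600540) (nat_lit 0) (nat_lit 4908608370) (nat_lit 1140) (nat_lit 9013760449) (nat_lit 147) (nat_lit 5) (nat_lit 146) (nat_lit 5) (nat_lit 161) (nat_lit 5) (nat_lit 309) (nat_lit 293) (nat_lit 178)) (XT.lf (nat_lit 0) (nat_lit 6422491352) (nat_lit 1064) (nat_lit 7793803530) (nat_lit 76) (nat_lit 302289092) (nat_lit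 147) (nat_lit 5) (nat_lit 161) (nat_lit 5) (nat_lit 148) (nat_lit 5) (nat_lit 310) (nat_lit 293) (nat_lit 177))) (XT.nd (nat_lit 78) (nat_lit 1064) (nat_lit 0) (XT.lf (nat_lit 0) (nat_lit 7642638872) (nat_lit 1064) (nat_lit 1540283945) (nat_lit 76) (nat_lit 5573164734) (nat_lit 147) (nat_lit 5) (nat_lit 161) (nat_lit 5) (nat_lit 148) (nat_lit 5) (nat_lit 311) (nat_lit 293) (nat_lit 176)) (XT.nd (nat_lit 78) (nat_lit 0) (nat_lit 0) (XT.lf (nat_lit 0) (nat_lit 4988176002) (nat_lit 1064) (nat_lit 3947306472) (nat_lit 1140) (nat_lit 6064182200) (nat_lit 133) (nat_lit 5) (nat_lit 147) (nat_lit 5) (nat_lit 148) (nat_lit 5) (nat_lit 312) (nat_lit 293) (nat_lit 175)) (XT.lf (nat_lit 0) (nat_lit 10285121883) (nat_lit 1140) (nat_lit 3530365617) (nat_lit 76) (nat_lit 1434551575) (nat_lit 133) (nat_lit 5) (nat_lit 148) (nat_lit 5) (nat_lit 134) (nat_lit 5) (nat_lit 313) (nat_lit 293) (nat_lit 174))))) (XT.nd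 (nat_lit 234) (nat_lit 608) (nat_lit 0) (XT.nd (nat_lit 78) (nat_lit 532) (nat_lit 0) (XT.lf (nat_lit 0) (nat_lit 3157728198) (nat_lit 608) (nat_lit 8575704933) (nat_lit 684) (nat_lit 3772775495) (nat_lit 125) (nat_lit 5) (nat_lit 133) (nat_lit 5) (nat_lit 134) (nat_lit 5) (nat_lit 314) (nat_lit 293) (nat_lit 173)) (XT.nd (nat_lit 78) (nat_lit 532) (nat_lit 0) (XT.lf (nat_lit 0) (nat_lit 10108932556) (nat_lit 608) (nat_lit 3140889928) (nat_lit 684) (nat_lit 2519530458) (nat_lit 125) (nat_lit 5) (nat_lit 133) (nat_lit 5) (nat_lit 134) (nat_lit 5) (nat_lit 315) (nat_lit 293) (nat_lit 172)) (XT.lf (nat_lit 0) (nat_lit 1218468187) (nat_lit 532) (nat_lit 13617876333) (nat_lit 608) (nat_lit 1203335546) (nat_lit 118) (nat_lit 5) (nat_lit 125) (nat_lit 5) (nat_lit 126) (nat_lit 5) (nat_lit 316) (nat_lit 293) (nat_lit 171)))) (XT.nd (nat_lit 78) (nat_lit 532) (nat_lit 0) (XT.lf (nat_lit 0) (nat_lit 227592210)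 (nat_lit 608) (nat_lit 7939885489) (nat_lit 76) (nat_lit 8148274897) (nat_lit 117) (nat_lit 5) (nat_lit 125) (nat_lit 5) (nat_lit 118) (nat_lit 5) (nat_lit 317) (nat_lit 293) (nat_lit 170)) (XT.nd (nat_lit 78) (nat_lit 532) (nat_lit 0) (XT.lf (nat_lit 0) (nat_lit 1666967581) (nat_lit 608) (nat_lit 873850469) (nat_lit 76) (nat_lit 14059266016) (nat_lit 117) (nat_lit 5) (nat_lit 125) (nat_lit 5) (nat_lit 118) (nat_lit 5) (nat_lit 318) (nat_lit 293) (nat_lit 169)) (XT.lf (nat_lit 0) (nat_lit 3234132955) (nat_lit 608) (nat_lit 10401399588) (nat_lit 76) (nat_lit 3254899292) (nat_lit 110) (nat_lit 5) (nat_lit 118) (nat_lit 5) (nat_lit 111) (nat_lit 5) (nat_lit 319) (nat_lit 293) (nat_lit 168))))))) (XT.nd (nat_lit 858) (nat_lit 1748) (nat_lit 0) (XT.nd (nat_lit 390) (nat_lit 1292) (nat_lit 0) (XT.nd (nat_lit 156) (nat_lit 456) (nat_lit 0) (XT.nd (nat_lit 78) (nat_lit 456) (nat_lit 0) (XT.lf (nat_lit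 0) (nat_lit 4872590731) (nat_lit 608) (nat_lit 3133513503) (nat_lit 76) (nat_lit 9182681386) (nat_lit 110) (nat_lit 5) (nat_lit 118) (nat_lit 5) (nat_lit 111) (nat_lit 5) (nat_lit 320) (nat_lit 293) (nat_lit 167)) (XT.lf (nat_lit 0) (nat_lit 4429367582) (nat_lit 456) (nat_lit 2163906894) (nat_lit 532) (nat_lit 10901846580) (nat_lit 104) (nat_lit 5) (nat_lit 110) (nat_lit 5) (nat_lit 111) (nat_lit 5) (nat_lit 321) (nat_lit 293) (nat_lit 166))) (XT.nd (nat_lit 78) (nat_lit 456) (nat_lit 0) (XT.lf (nat_lit 0) (nat_lit 8425257633) (nat_lit 532) (nat_lit 5573367365) (nat_lit 76) (nat_lit 3810253722) (nat_lit 104) (nat_lit 5) (nat_lit 111) (nat_lit 5) (nat_lit 105) (nat_lit 5) (nat_lit 322) (nat_lit 293) (nat_lit 165)) (XT.nd (nat_lit 78) (nat_lit 0) (nat_lit 0) (XT.lf (nat_lit 0) (nat_lit 2155016570) (nat_lit 456) (nat_lit 8190275835) (nat_lit 532) (nat_lit 7785785819) (nat_lit 98) (nat_lit 5) (nat_lit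 104) (nat_lit 5) (nat_lit 105) (nat_lit 5) (nat_lit 323) (nat_lit 293) (nat_lit 164)) (XT.lf (nat_lit 0) (nat_lit 10220191687) (nat_lit 456) (nat_lit 2150142632) (nat_lit 532) (nat_lit 6091208448) (nat_lit 98) (nat_lit 5) (nat_lit 104) (nat_lit 5) (nat_lit 105) (nat_lit 5) (nat_lit 324) (nat_lit 293) (nat_lit 163))))) (XT.nd (nat_lit 234) (nat_lit 912) (nat_lit 0) (XT.nd (nat_lit 78) (nat_lit 380) (nat_lit 0) (XT.lf (nat_lit 0) (nat_lit 14486642727) (nat_lit 532) (nat_lit 323046798) (nat_lit 76) (nat_lit 3991336884) (nat_lit 98) (nat_lit 5) (nat_lit 105) (nat_lit 5) (nat_lit 99) (nat_lit 5) (nat_lit 325) (nat_lit 293) (nat_lit 162)) (XT.nd (nat_lit 78) (nat_lit 0) (nat_lit 0) (XT.lf (nat_lit 0) (nat_lit 7957761103) (nat_lit 380) (nat_lit 8798094169) (nat_lit 456) (nat_lit 2392176858) (nat_lit 93) (nat_lit 5) (nat_lit 98) (nat_lit 5) (nat_lit 99) (nat_lit 5) (nat_lit 326) (nat_lit 293) (nat_lit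 161)) (XT.lf (nat_lit 0) (nat_lit 16484662478) (nat_lit 380) (nat_lit 2603533017) (nat_lit 456) (nat_lit 417420424) (nat_lit 93) (nat_lit 5) (nat_lit 98) (nat_lit 5) (nat_lit 99) (nat_lit 5) (nat_lit 327) (nat_lit 293) (nat_lit 160)))) (XT.nd (nat_lit 78) (nat_lit 380) (nat_lit 0) (XT.lf (nat_lit 0) (nat_lit 1666574739) (nat_lit 532) (nat_lit 14433227794) (nat_lit 76) (nat_lit 3771230584) (nat_lit 86) (nat_lit 5) (nat_lit 93) (nat_lit 5) (nat_lit 87) (nat_lit 5) (nat_lit 328) (nat_lit 293) (nat_lit 159)) (XT.nd (nat_lit 78) (nat_lit 380) (nat_lit 0) (XT.lf (nat_lit 0) (nat_lit 3853358466) (nat_lit 532) (nat_lit 6073487793) (nat_lit 76) (nat_lit 10319000618) (nat_lit 86) (nat_lit 5) (nat_lit 93) (nat_lit 5) (nat_lit 87) (nat_lit 5) (nat_lit 329) (nat_lit 293) (nat_lit 158)) (XT.lf (nat_lit 0) (nat_lit 2578594002) (nat_lit 380) (nat_lit 3544242753) (nat_lit 456) (nat_lit 14508572831) (nat_lit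 81) (nat_lit 5) (nat_lit 86) (nat_lit 5) (nat_lit 87) (nat_lit 5) (nat_lit 330) (nat_lit 293) (nat_lit 157)))))) (XT.nd (nat_lit 468) (nat_lit 1064) (nat_lit 0) (XT.nd (nat_lit 234) (nat_lit 304) (nat_lit 0) (XT.nd (nat_lit 78) (nat_lit 380) (nat_lit 0) (XT.lf (nat_lit 0) (nat_lit 8543895499) (nat_lit 456) (nat_lit 9450607057) (nat_lit 76) (nat_lit 3031548501) (nat_lit 81) (nat_lit 5) (nat_lit 87) (nat_lit 5) (nat_lit 82) (nat_lit 5) (nat_lit 331) (nat_lit 293) (nat_lit 156)) (XT.nd (nat_lit 78) (nat_lit 380) (nat_lit 0) (XT.lf (nat_lit 0) (nat_lit 11065331781) (nat_lit 456) (nat_lit 634078828) (nat_lit 76) (nat_lit 9732305068) (nat_lit 81) (nat_lit 5) (nat_lit 87) (nat_lit 5) (nat_lit 82) (nat_lit 5) (nat_lit 332) (nat_lit 293) (nat_lit 155)) (XT.lf (nat_lit 0) (nat_lit 8606485834) (nat_lit 380) (nat_lit 5131524343) (nat_lit 456) (nat_lit 8109287890) (nat_lit 76) (nat_lit 5) (nat_lit 81) (nat_lit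 5) (nat_lit 82) (nat_lit 5) (nat_lit 333) (nat_lit 293) (nat_lit 154)))) (XT.nd (nat_lit 78) (nat_lit 304) (nat_lit 0) (XT.lf (nat_lit 0) (nat_lit 16506019800) (nat_lit 456) (nat_lit 4162188410) (nat_lit 76) (nat_lit 1606700534) (nat_lit 76) (nat_lit 5) (nat_lit 82) (nat_lit 5) (nat_lit 77) (nat_lit 5) (nat_lit 334) (nat_lit 293) (nat_lit 153)) (XT.nd (nat_lit 78) (nat_lit 0) (nat_lit 0) (XT.lf (nat_lit 0) (nat_lit 5231793253) (nat_lit 304) (nat_lit 14219562499) (nat_lit 380) (nat_lit 3261178304) (nat_lit 72) (nat_lit 5) (nat_lit 76) (nat_lit 5) (nat_lit 77) (nat_lit 5) (nat_lit 335) (nat_lit 293) (nat_lit 152)) (XT.lf (nat_lit 0) (nat_lit 14984711538) (nat_lit 304) (nat_lit 7535677418) (nat_lit 380) (nat_lit 641853517) (nat_lit 72) (nat_lit 5) (nat_lit 76) (nat_lit 5) (nat_lit 77) (nat_lit 5) (nat_lit 336) (nat_lit 293) (nat_lit 151))))) (XT.nd (nat_lit 234) (nat_lit 608) (nat_lit 0) (XT.nd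 (nat_lit 78) (nat_lit 0) (nat_lit 0) (XT.lf (nat_lit 0) (nat_lit 1404305082) (nat_lit 380) (nat_lit 618548072) (nat_lit 456) (nat_lit 21601802006) (nat_lit 66) (nat_lit 5) (nat_lit 71) (nat_lit 5) (nat_lit 72) (nat_lit 5) (nat_lit 337) (nat_lit 293) (nat_lit 150)) (XT.nd (nat_lit 78) (nat_lit 0) (nat_lit 0) (XT.lf (nat_lit 0) (nat_lit 4894058934) (nat_lit 456) (nat_lit 12735170198) (nat_lit 76) (nat_lit 6467349925) (nat_lit 66) (nat_lit 5) (nat_lit 72) (nat_lit 5) (nat_lit 67) (nat_lit 5) (nat_lit 338) (nat_lit 293) (nat_lit 149)) (XT.lf (nat_lit 0) (nat_lit 7851237103) (nat_lit 456) (nat_lit 2979541375) (nat_lit 76) (nat_lit 13751899956) (nat_lit 66) (nat_lit 5) (nat_lit 72) (nat_lit 5) (nat_lit 67) (nat_lit 5) (nat_lit 339) (nat_lit 293) (nat_lit 148)))) (XT.nd (nat_lit 78) (nat_lit 304) (nat_lit 0) (XT.lf (nat_lit 0) (nat_lit 7201534464) (nat_lit 304) (nat_lit 3758716832) (nat_lit 380) (nat_lit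 14121228352) (nat_lit 62) (nat_lit 5) (nat_lit 66) (nat_lit 5) (nat_lit 67) (nat_lit 5) (nat_lit 340) (nat_lit 293) (nat_lit 147)) (XT.nd (nat_lit 78) (nat_lit 304) (nat_lit 0) (XT.lf (nat_lit 0) (nat_lit 14220793754) (nat_lit 380) (nat_lit 7887259039) (nat_lit 76) (nat_lit 3485456479) (nat_lit 62) (nat_lit 5) (nat_lit 67) (nat_lit 5) (nat_lit 63) (nat_lit 5) (nat_lit 341) (nat_lit 293) (nat_lit 146)) (XT.lf (nat_lit 0) (nat_lit 2407347526) (nat_lit 304) (nat_lit 15226319214) (nat_lit 380) (nat_lit 8485609377) (nat_lit 58) (nat_lit 5) (nat_lit 62) (nat_lit 5) (nat_lit 63) (nat_lit 5) (nat_lit 342) (nat_lit 293) (nat_lit 145))))))))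
noncomputable def xc197 : XT := (XT.nd (nat_lit 1716) (nat_lit 1064) (nat_lit 0) (XT.nd (nat_lit 858) (nat_lit 912) (nat_lit 0) (XT.nd (nat_lit 390) (nat_lit 532) (nat_lit 0) (XT.nd (nat_lit 156) (nat_lit 608) (nat_lit 0) (XT.nd (nat_lit 78) (nat_lit 0) (nat_lit 0) (XT.lf (nat_lit 0) (nat_lit 13164926918) (nat_lit 304) (nat_lit 8057900794) (nat_lit 380) (nat_lit 5435782617) (nat_lit 58) (nat_lit 5) (nat_lit 62) (nat_lit 5) (nat_lit 63) (nat_lit 5) (nat_lit 343) (nat_lit 293) (nat_lit 144)) (XT.lf (nat_lit 0) (nat_lit 24237907042) (nat_lit 304) (nat_lit 676179717) (nat_lit 380) (nat_lit 2300216194) (nat_lit 58) (nat_lit 5) (nat_lit 62) (nat_lit 5) (nat_lit 63) (nat_lit 5) (nat_lit 344) (nat_lit 293) (nat_lit 143))) (XT.nd (nat_lit 78) (nat_lit 304) (nat_lit 0) (XT.lf (nat_lit 0) (nat_lit 1050086721) (nat_lit 304) (nat_lit 19855406742) (nat_lit 76) (nat_lit 6876751144) (nat_lit 54) (nat_lit 5)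 (nat_lit 58) (nat_lit 5) (nat_lit 55) (nat_lit 5) (nat_lit 345) (nat_lit 293) (nat_lit 142)) (XT.nd (nat_lit 78) (nat_lit 304) (nat_lit 0) (XT.lf (nat_lit 0) (nat_lit 4486310039) (nat_lit 304) (nat_lit 9185224375) (nat_lit 76) (nat_lit 14694067705) (nat_lit 54) (nat_lit 5) (nat_lit 58) (nat_lit 5) (nat_lit 55) (nat_lit 5) (nat_lit 346) (nat_lit 293) (nat_lit 141)) (XT.lf (nat_lit 0) (nat_lit 1833742950) (nat_lit 304) (nat_lit 6204256776) (nat_lit 380) (nat_lit 20928099088) (nat_lit 50) (nat_lit 5) (nat_lit 54) (nat_lit 5) (nat_lit 55) (nat_lit 5) (nat_lit 347) (nat_lit 293) (nat_lit 140))))) (XT.nd (nat_lit 234) (nat_lit 304) (nat_lit 0) (XT.nd (nat_lit 78) (nat_lit 228) (nat_lit 0) (XT.lf (nat_lit 0) (nat_lit 11799025377) (nat_lit 380) (nat_lit 16232653347) (nat_lit 76) (nat_lit 1549857688) (nat_lit 50) (nat_lit 5) (nat_lit 55) (nat_lit 5) (nat_lit 51) (nat_lit 5) (nat_lit 348) (nat_lit 293)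 (nat_lit 139)) (XT.nd (nat_lit 78) (nat_lit 228) (nat_lit 0) (XT.lf (nat_lit 0) (nat_lit 15729280803) (nat_lit 380) (nat_lit 5074359141) (nat_lit 76) (nat_lit 9410114507) (nat_lit 50) (nat_lit 5) (nat_lit 55) (nat_lit 5) (nat_lit 51) (nat_lit 5) (nat_lit 349) (nat_lit 293) (nat_lit 138)) (XT.lf (nat_lit 0) (nat_lit 6539525528) (nat_lit 228) (nat_lit 13295897488) (nat_lit 304) (nat_lit 11027785653) (nat_lit 47) (nat_lit 5) (nat_lit 50) (nat_lit 5) (nat_lit 51) (nat_lit 5) (nat_lit 350) (nat_lit 293) (nat_lit 137)))) (XT.nd (nat_lit 78) (nat_lit 304) (nat_lit 0) (XT.lf (nat_lit 0) (nat_lit 18599144420) (nat_lit 228) (nat_lit 5512041156) (nat_lit 304) (nat_lit 7419576605) (nat_lit 47) (nat_lit 5) (nat_lit 50) (nat_lit 5) (nat_lit 51) (nat_lit 5) (nat_lit 351) (nat_lit 293) (nat_lit 136)) (XT.nd (nat_lit 78) (nat_lit 304) (nat_lit 0) (XT.lf (nat_lit 0) (nat_lit 28534621036) (nat_lit 304) (nat_lit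 1228510449) (nat_lit 76) (nat_lit 2454637307) (nat_lit 47) (nat_lit 5) (nat_lit 51) (nat_lit 5) (nat_lit 48) (nat_lit 5) (nat_lit 352) (nat_lit 293) (nat_lit 135)) (XT.lf (nat_lit 0) (nat_lit 319243373) (nat_lit 304) (nat_lit 21944947207) (nat_lit 76) (nat_lit 10656442444) (nat_lit 43) (nat_lit 5) (nat_lit 47) (nat_lit 5) (nat_lit 44) (nat_lit 5) (nat_lit 353) (nat_lit 293) (nat_lit 134)))))) (XT.nd (nat_lit 390) (nat_lit 456) (nat_lit 0) (XT.nd (nat_lit 156) (nat_lit 228) (nat_lit 0) (XT.nd (nat_lit 78) (nat_lit 228) (nat_lit 0) (XT.lf (nat_lit 0) (nat_lit 4375679551) (nat_lit 304) (nat_lit 10116088062) (nat_lit 76) (nat_lit 19151489311) (nat_lit 43) (nat_lit 5) (nat_lit 47) (nat_lit 5) (nat_lit 44) (nat_lit 5) (nat_lit 354) (nat_lit 293) (nat_lit 133)) (XT.lf (nat_lit 0) (nat_lit 2102371759) (nat_lit 228) (nat_lit 6467250770) (nat_lit 304) (nat_lit 25817470149) (nat_lit 40) (nat_lit 5) (nat_lit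 43) (nat_lit 5) (nat_lit 44) (nat_lit 5) (nat_lit 355) (nat_lit 293) (nat_lit 132))) (XT.nd (nat_lit 78) (nat_lit 228) (nat_lit 0) (XT.lf (nat_lit 0) (nat_lit 13005485670) (nat_lit 304) (nat_lit 20280065719) (nat_lit 76) (nat_lit 1864216387) (nat_lit 40) (nat_lit 5) (nat_lit 44) (nat_lit 5) (nat_lit 41) (nat_lit 5) (nat_lit 356) (nat_lit 293) (nat_lit 131)) (XT.nd (nat_lit 78) (nat_lit 228) (nat_lit 0) (XT.lf (nat_lit 0) (nat_lit 17634237779) (nat_lit 304) (nat_lit 7985465333) (nat_lit 76) (nat_lit 10313832737) (nat_lit 40) (nat_lit 5) (nat_lit 44) (nat_lit 5) (nat_lit 41) (nat_lit 5) (nat_lit 357) (nat_lit 293) (nat_lit 130)) (XT.lf (nat_lit 0) (nat_lit 4764972030) (nat_lit 228) (nat_lit 17678588023) (nat_lit 304) (nat_lit 14296012589) (nat_lit 37) (nat_lit 5) (nat_lit 40) (nat_lit 5) (nat_lit 41) (nat_lit 5) (nat_lit 358) (nat_lit 293) (nat_lit 129))))) (XT.nd (nat_lit 234) (nat_lit 304) (nat_lit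 0) (XT.nd (nat_lit 78) (nat_lit 152) (nat_lit 0) (XT.lf (nat_lit 0) (nat_lit 18055692578) (nat_lit 228) (nat_lit 9418073094) (nat_lit 304) (nat_lit 10093733461) (nat_lit 37) (nat_lit 5) (nat_lit 40) (nat_lit 5) (nat_lit 41) (nat_lit 5) (nat_lit 359) (nat_lit 293) (nat_lit 128)) (XT.nd (nat_lit 78) (nat_lit 152) (nat_lit 0) (XT.lf (nat_lit 0) (nat_lit 31739383145) (nat_lit 228) (nat_lit 911577944) (nat_lit 304) (nat_lit 5769426334) (nat_lit 37) (nat_lit 5) (nat_lit 40) (nat_lit 5) (nat_lit 41) (nat_lit 5) (nat_lit 360) (nat_lit 293) (nat_lit 127)) (XT.lf (nat_lit 0) (nat_lit 6582013438) (nat_lit 152) (nat_lit 31536369919) (nat_lit 228) (nat_lit 1176437996) (nat_lit 35) (nat_lit 5) (nat_lit 37) (nat_lit 5) (nat_lit 38) (nat_lit 5) (nat_lit 361) (nat_lit 293) (nat_lit 126)))) (XT.nd (nat_lit 78) (nat_lit 228) (nat_lit 0) (XT.lf (nat_lit 0) (nat_lit 3558334968) (nat_lit 228) (nat_lit 19863161885)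 (nat_lit 76) (nat_lit 16770771821) (nat_lit 34) (nat_lit 5) (nat_lit 37) (nat_lit 5) (nat_lit 35) (nat_lit 5) (nat_lit 362) (nat_lit 293) (nat_lit 125)) (XT.nd (nat_lit 78) (nat_lit 228) (nat_lit 0) (XT.lf (nat_lit 0) (nat_lit 8407811137) (nat_lit 228) (nat_lit 6645221247) (nat_lit 76) (nat_lit 26063374221) (nat_lit 34) (nat_lit 5) (nat_lit 37) (nat_lit 5) (nat_lit 35) (nat_lit 5) (nat_lit 363) (nat_lit 293) (nat_lit 124)) (XT.lf (nat_lit 0) (nat_lit 7102467012) (nat_lit 228) (nat_lit 6364990705) (nat_lit 304) (nat_lit 28598875988) (nat_lit 31) (nat_lit 5) (nat_lit 34) (nat_lit 5) (nat_lit 35) (nat_lit 5) (nat_lit 364) (nat_lit 293) (nat_lit 123))))))) (XT.nd (nat_lit 858) (nat_lit 532) (nat_lit 0) (XT.nd (nat_lit 390) (nat_lit 380) (nat_lit 0) (XT.nd (nat_lit 156) (nat_lit 152) (nat_lit 0) (XT.nd (nat_lit 78) (nat_lit 0) (nat_lit 0) (XT.lf (nat_lit 0) (nat_lit 18767946625) (nat_lit 304) (nat_lit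 21674866186) (nat_lit 76) (nat_lit 2599279673) (nat_lit 31) (nat_lit 5) (nat_lit 35) (nat_lit 5) (nat_lit 32) (nat_lit 5) (nat_lit 365) (nat_lit 293) (nat_lit 122)) (XT.lf (nat_lit 0) (nat_lit 24287022142) (nat_lit 304) (nat_lit 8055484009) (nat_lit 76) (nat_lit 11702836011) (nat_lit 31) (nat_lit 5) (nat_lit 35) (nat_lit 5) (nat_lit 32) (nat_lit 5) (nat_lit 366) (nat_lit 293) (nat_lit 121))) (XT.nd (nat_lit 78) (nat_lit 0) (nat_lit 0) (XT.lf (nat_lit 0) (nat_lit 6086126706) (nat_lit 152) (nat_lit 23940699444) (nat_lit 228) (nat_lit 15050213631) (nat_lit 29) (nat_lit 5) (nat_lit 31) (nat_lit 5) (nat_lit 32) (nat_lit 5) (nat_lit 367) (nat_lit 293) (nat_lit 120)) (XT.nd (nat_lit 78) (nat_lit 0) (nat_lit 0) (XT.lf (nat_lit 0) (nat_lit 20812050237) (nat_lit 152) (nat_lit 15204820096) (nat_lit 228) (nat_lit 10120481605) (nat_lit 29) (nat_lit 5) (nat_lit 31) (nat_lit 5) (nat_lit 32) (nat_lit 5) (nat_lit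 368) (nat_lit 293) (nat_lit 119)) (XT.lf (nat_lit 0) (nat_lit 35974833967) (nat_lit 152) (nat_lit 6208579410) (nat_lit 228) (nat_lit 5046161001) (nat_lit 29) (nat_lit 5) (nat_lit 31) (nat_lit 5) (nat_lit 32) (nat_lit 5) (nat_lit 369) (nat_lit 293) (nat_lit 118))))) (XT.nd (nat_lit 234) (nat_lit 152) (nat_lit 0) (XT.nd (nat_lit 78) (nat_lit 0) (nat_lit 0) (XT.lf (nat_lit 0) (nat_lit 235110161) (nat_lit 228) (nat_lit 45087692798) (nat_lit 76) (nat_lit 3029965848) (nat_lit 26) (nat_lit 5) (nat_lit 29) (nat_lit 5) (nat_lit 27) (nat_lit 5) (nat_lit 370) (nat_lit 293) (nat_lit 117)) (XT.nd (nat_lit 78) (nat_lit 0) (nat_lit 0) (XT.lf (nat_lit 0) (nat_lit 5746528398) (nat_lit 228) (nat_lit 31172484882) (nat_lit 76) (nat_lit 12583957410) (nat_lit 26) (nat_lit 5) (nat_lit 29) (nat_lit 5) (nat_lit 27) (nat_lit 5) (nat_lit 371) (nat_lit 293) (nat_lit 116)) (XT.lf (nat_lit 0) (nat_lit 11420264551) (nat_lit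 228) (nat_lit 16844553812) (nat_lit 76) (nat_lit 22422955309) (nat_lit 26) (nat_lit 5) (nat_lit 29) (nat_lit 5) (nat_lit 27) (nat_lit 5) (nat_lit 372) (nat_lit 293) (nat_lit 115)))) (XT.nd (nat_lit 78) (nat_lit 152) (nat_lit 0) (XT.lf (nat_lit 0) (nat_lit 17261276253) (nat_lit 228) (nat_lit 2091380036) (nat_lit 76) (nat_lit 32555556729) (nat_lit 26) (nat_lit 5) (nat_lit 29) (nat_lit 5) (nat_lit 27) (nat_lit 5) (nat_lit 373) (nat_lit 293) (nat_lit 114)) (XT.nd (nat_lit 78) (nat_lit 0) (nat_lit 0) (XT.lf (nat_lit 0) (nat_lit 13360641811) (nat_lit 152) (nat_lit 10042456152) (nat_lit 228) (nat_lit 29758404249) (nat_lit 24) (nat_lit 5) (nat_lit 26) (nat_lit 5) (nat_lit 27) (nat_lit 5) (nat_lit 374) (nat_lit 293) (nat_lit 113)) (XT.lf (nat_lit 0) (nat_lit 29314677910) (nat_lit 152) (nat_lit 432804822) (nat_lit 228) (nat_lit 24704362037) (nat_lit 24) (nat_lit 5) (nat_lit 26) (nat_lit 5) (nat_lit 27)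 (nat_lit 5) (nat_lit 375) (nat_lit 293) (nat_lit 112)))))) (XT.nd (nat_lit 468) (nat_lit 152) (nat_lit 0) (XT.nd (nat_lit 234) (nat_lit 228) (nat_lit 0) (XT.nd (nat_lit 78) (nat_lit 152) (nat_lit 0) (XT.lf (nat_lit 0) (nat_lit 36370440149) (nat_lit 228) (nat_lit 10128906848) (nat_lit 76) (nat_lit 9278907196) (nat_lit 24) (nat_lit 5) (nat_lit 27) (nat_lit 5) (nat_lit 25) (nat_lit 5) (nat_lit 376) (nat_lit 293) (nat_lit 111)) (XT.nd (nat_lit 78) (nat_lit 0) (nat_lit 0) (XT.lf (nat_lit 0) (nat_lit 5426983075) (nat_lit 152) (nat_lit 37818892226) (nat_lit 228) (nat_lit 13896970642) (nat_lit 22) (nat_lit 5) (nat_lit 24) (nat_lit 5) (nat_lit 25) (nat_lit 5) (nat_lit 377) (nat_lit 293) (nat_lit 110)) (XT.lf (nat_lit 0) (nat_lit 21652991176) (nat_lit 152) (nat_lit 28774238062) (nat_lit 228) (nat_lit 8118160140) (nat_lit 22) (nat_lit 5) (nat_lit 24) (nat_lit 5) (nat_lit 25) (nat_lit 5) (nat_lit 378) (nat_lit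 293) (nat_lit 109)))) (XT.nd (nat_lit 78) (nat_lit 228) (nat_lit 0) (XT.lf (nat_lit 0) (nat_lit 38361710412) (nat_lit 152) (nat_lit 19459763508) (nat_lit 228) (nat_lit 2168615192) (nat_lit 22) (nat_lit 5) (nat_lit 24) (nat_lit 5) (nat_lit 25) (nat_lit 5) (nat_lit 379) (nat_lit 293) (nat_lit 108)) (XT.nd (nat_lit 78) (nat_lit 152) (nat_lit 0) (XT.lf (nat_lit 0) (nat_lit 3879650187) (nat_lit 228) (nat_lit 5948502656) (nat_lit 76) (nat_lit 51648913587) (nat_lit 21) (nat_lit 5) (nat_lit 24) (nat_lit 5) (nat_lit 22) (nat_lit 5) (nat_lit 380) (nat_lit 293) (nat_lit 107)) (XT.lf (nat_lit 0) (nat_lit 10165189375) (nat_lit 228) (nat_lit 52628224974) (nat_lit 76) (nat_lit 211615391) (nat_lit 19) (nat_lit 5) (nat_lit 22) (nat_lit 5) (nat_lit 20) (nat_lit 5) (nat_lit 381) (nat_lit 293) (nat_lit 106))))) (XT.nd (nat_lit 234) (nat_lit 152) (nat_lit 0) (XT.nd (nat_lit 78) (nat_lit 0) (nat_lit 0) (XT.lf (nat_lit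 0) (nat_lit 16794855434) (nat_lit 228) (nat_lit 37365033241) (nat_lit 76) (nat_lit 10414279565) (nat_lit 19) (nat_lit 5) (nat_lit 22) (nat_lit 5) (nat_lit 20) (nat_lit 5) (nat_lit 382) (nat_lit 293) (nat_lit 105)) (XT.nd (nat_lit 78) (nat_lit 0) (nat_lit 0) (XT.lf (nat_lit 0) (nat_lit 23621070990) (nat_lit 228) (nat_lit 21647741913) (nat_lit 76) (nat_lit 20921641224) (nat_lit 19) (nat_lit 5) (nat_lit 22) (nat_lit 5) (nat_lit 20) (nat_lit 5) (nat_lit 383) (nat_lit 293) (nat_lit 104)) (XT.lf (nat_lit 0) (nat_lit 30649800699) (nat_lit 228) (nat_lit 5462617436) (nat_lit 76) (nat_lit 31742881557) (nat_lit 19) (nat_lit 5) (nat_lit 22) (nat_lit 5) (nat_lit 20) (nat_lit 5) (nat_lit 384) (nat_lit 293) (nat_lit 103)))) (XT.nd (nat_lit 33540) (nat_lit 0) (nat_lit 10488) (XT.lf (nat_lit 0) (nat_lit 11427473704) (nat_lit 152) (nat_lit 26569560333) (nat_lit 228) (nat_lit 31569830179) (nat_lit 17) (nat_lit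 5) (nat_lit 19) (nat_lit 5) (nat_lit 20) (nat_lit 5) (nat_lit 385) (nat_lit 293) (nat_lit 102)) (XT.nd (nat_lit 78) (nat_lit 0) (nat_lit 0) (XT.lf (nat_lit 0) (nat_lit 1560567631) (nat_lit 0) (nat_lit 1560567631) (nat_lit 988) (nat_lit 2675696761) (nat_lit 155) (nat_lit 5) (nat_lit 155) (nat_lit 3) (nat_lit 168) (nat_lit 3) (nat_lit 294) (nat_lit 294) (nat_lit 192)) (XT.lf (nat_lit 0) (nat_lit 6804822679) (nat_lit 988) (nat_lit 3735742002) (nat_lit 1064) (nat_lit 1211654420) (nat_lit 155) (nat_lit 5) (nat_lit 168) (nat_lit 3) (nat_lit 169) (nat_lit 5) (nat_lit 295) (nat_lit 294) (nat_lit 191))))))))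
noncomputable def xc198 : XT := (XT.nd (nat_lit 1716) (nat_lit 3952) (nat_lit 0) (XT.nd (nat_lit 858) (nat_lit 1976) (nat_lit 0) (XT.nd (nat_lit 390) (nat_lit 836) (nat_lit 0) (XT.nd (nat_lit 156) (nat_lit 0) (nat_lit 76) (XT.nd (nat_lit 78) (nat_lit 0) (nat_lit 0) (XT.lf (nat_lit 76) (nat_lit 1124601719) (nat_lit 0) (nat_lit 6283611139) (nat_lit 1064) (nat_lit 4506649154) (nat_lit 156) (nat_lit 5) (nat_lit 155) (nat_lit 5) (nat_lit 169) (nat_lit 5) (nat_lit 296) (nat_lit 294) (nat_lit 190)) (XT.lf (nat_lit 76) (nat_lit 6197839450) (nat_lit 0) (nat_lit 1852263483) (nat_lit 1064) (nat_lit 4031717919) (nat_lit 156) (nat_lit 5) (nat_lit 155) (nat_lit 5) (nat_lit 169) (nat_lit 5) (nat_lit 297) (nat_lit 294) (nat_lit 189))) (XT.nd (nat_lit 78) (nat_lit 0) (nat_lit 0) (XT.lf (nat_lit 0) (nat_lit 8720571573) (nat_lit 988) (nat_lit 866427449) (nat_lit 1064) (nat_lit 2666556954) (nat_lit 156) (nat_lit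 5) (nat_lit 169) (nat_lit 5) (nat_lit 170) (nat_lit 5) (nat_lit 298) (nat_lit 294) (nat_lit 188)) (XT.nd (nat_lit 78) (nat_lit 0) (nat_lit 0) (XT.lf (nat_lit 76) (nat_lit 4358813068) (nat_lit 0) (nat_lit 5096320046) (nat_lit 1064) (nat_lit 2974036475) (nat_lit 157) (nat_lit 5) (nat_lit 156) (nat_lit 5) (nat_lit 170) (nat_lit 5) (nat_lit 299) (nat_lit 294) (nat_lit 187)) (XT.lf (nat_lit 76) (nat_lit 9749108455) (nat_lit 0) (nat_lit 455494912) (nat_lit 1064) (nat_lit 2405706553) (nat_lit 157) (nat_lit 5) (nat_lit 156) (nat_lit 5) (nat_lit 170) (nat_lit 5) (nat_lit 300) (nat_lit 294) (nat_lit 186))))) (XT.nd (nat_lit 234) (nat_lit 988) (nat_lit 0) (XT.nd (nat_lit 78) (nat_lit 0) (nat_lit 0) (XT.lf (nat_lit 76) (nat_lit 2501722480) (nat_lit 0) (nat_lit 8525098556) (nat_lit 1064) (nat_lit 1768598696) (nat_lit 158) (nat_lit 5) (nat_lit 157) (nat_lit 5) (nat_lit 171) (nat_lit 5) (nat_lit 301) (nat_lit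 294) (nat_lit 185)) (XT.nd (nat_lit 78) (nat_lit 0) (nat_lit 76) (XT.lf (nat_lit 76) (nat_lit 8069928875) (nat_lit 0) (nat_lit 3822133878) (nat_lit 1064) (nat_lit 1093511275) (nat_lit 158) (nat_lit 5) (nat_lit 157) (nat_lit 5) (nat_lit 171) (nat_lit 5) (nat_lit 302) (nat_lit 294) (nat_lit 184)) (XT.lf (nat_lit 76) (nat_lit 616042728) (nat_lit 0) (nat_lit 12168450224) (nat_lit 1064) (nat_lit 396943757) (nat_lit 159) (nat_lit 5) (nat_lit 158) (nat_lit 5) (nat_lit 172) (nat_lit 5) (nat_lit 303) (nat_lit 294) (nat_lit 183)))) (XT.nd (nat_lit 78) (nat_lit 0) (nat_lit 0) (XT.lf (nat_lit 0) (nat_lit 387874441) (nat_lit 1064) (nat_lit 7018785206) (nat_lit 1140) (nat_lit 5974253302) (nat_lit 144) (nat_lit 5) (nat_lit 158) (nat_lit 5) (nat_lit 159) (nat_lit 5) (nat_lit 304) (nat_lit 294) (nat_lit 182)) (XT.nd (nat_lit 78) (nat_lit 0) (nat_lit 76) (XT.lf (nat_lit 0) (nat_lit 1174312809) (nat_lit 1064)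 (nat_lit 1319544052) (nat_lit 1140) (nat_lit 11092854338) (nat_lit 144) (nat_lit 5) (nat_lit 158) (nat_lit 5) (nat_lit 159) (nat_lit 5) (nat_lit 305) (nat_lit 294) (nat_lit 181)) (XT.lf (nat_lit 0) (nat_lit 2040473458) (nat_lit 1064) (nat_lit 9191436063) (nat_lit 1140) (nat_lit 2565126156) (nat_lit 145) (nat_lit 5) (nat_lit 159) (nat_lit 5) (nat_lit 160) (nat_lit 5) (nat_lit 306) (nat_lit 294) (nat_lit 180)))))) (XT.nd (nat_lit 390) (nat_lit 2052) (nat_lit 0) (XT.nd (nat_lit 156) (nat_lit 0) (nat_lit 76) (XT.nd (nat_lit 78) (nat_lit 0) (nat_lit 0) (XT.lf (nat_lit 0) (nat_lit 2957567134) (nat_lit 1064) (nat_lit 3312470967) (nat_lit 1140) (nat_lit 7742918445) (nat_lit 145) (nat_lit 5) (nat_lit 159) (nat_lit 5) (nat_lit 160) (nat_lit 5) (nat_lit 307) (nat_lit 294) (nat_lit 179)) (XT.lf (nat_lit 76) (nat_lit 2787624539) (nat_lit 0) (nat_lit 1128529724) (nat_lit 1140) (nat_lit 10318815438) (nat_lit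 146) (nat_lit 5) (nat_lit 145) (nat_lit 5) (nat_lit 160) (nat_lit 5) (nat_lit 308) (nat_lit 294) (nat_lit 178))) (XT.nd (nat_lit 78) (nat_lit 0) (nat_lit 0) (XT.lf (nat_lit 0) (nat_lit 4964832186) (nat_lit 1064) (nat_lit 5374382098) (nat_lit 1140) (nat_lit 4122622058) (nat_lit 146) (nat_lit 5) (nat_lit 160) (nat_lit 5) (nat_lit 161) (nat_lit 5) (nat_lit 309) (nat_lit 294) (nat_lit 177)) (XT.nd (nat_lit 78) (nat_lit 0) (nat_lit 76) (XT.lf (nat_lit 76) (nat_lit 877022234) (nat_lit 0) (nat_lit 5175411109) (nat_lit 1140) (nat_lit 8642883877) (nat_lit 147) (nat_lit 5) (nat_lit 146) (nat_lit 5) (nat_lit 161) (nat_lit 5) (nat_lit 310) (nat_lit 294) (nat_lit 176)) (XT.lf (nat_lit 0) (nat_lit 7216990393) (nat_lit 1064) (nat_lit 7519953526) (nat_lit 76) (nat_lit 197559955) (nat_lit 147) (nat_lit 5) (nat_lit 161) (nat_lit 5) (nat_lit 148) (nat_lit 5) (nat_lit 311) (nat_lit 294) (nat_lit 175))))) (XT.nd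 (nat_lit 234) (nat_lit 1140) (nat_lit 0) (XT.nd (nat_lit 78) (nat_lit 1064) (nat_lit 0) (XT.lf (nat_lit 0) (nat_lit 8456213477) (nat_lit 1064) (nat_lit 1093614687) (nat_lit 76) (nat_lit 5629876366) (nat_lit 147) (nat_lit 5) (nat_lit 161) (nat_lit 5) (nat_lit 148) (nat_lit 5) (nat_lit 312) (nat_lit 294) (nat_lit 174)) (XT.nd (nat_lit 78) (nat_lit 0) (nat_lit 0) (XT.lf (nat_lit 0) (nat_lit 5625866923) (nat_lit 1064) (nat_lit 4149648542) (nat_lit 1140) (nat_lit 5655488068) (nat_lit 133) (nat_lit 5) (nat_lit 147) (nat_lit 5) (nat_lit 148) (nat_lit 5) (nat_lit 313) (nat_lit 294) (nat_lit 173)) (XT.lf (nat_lit 0) (nat_lit 11148201558) (nat_lit 1140) (nat_lit 3143554799) (nat_lit 76) (nat_lit 1397699541) (nat_lit 133) (nat_lit 5) (nat_lit 148) (nat_lit 5) (nat_lit 134) (nat_lit 5) (nat_lit 314) (nat_lit 294) (nat_lit 172)))) (XT.nd (nat_lit 78) (nat_lit 532) (nat_lit 0) (XT.lf (nat_lit 0) (nat_lit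 3740351225) (nat_lit 608) (nat_lit 8888149584) (nat_lit 684) (nat_lit 3325195759) (nat_lit 125) (nat_lit 5) (nat_lit 133) (nat_lit 5) (nat_lit 134) (nat_lit 5) (nat_lit 315) (nat_lit 294) (nat_lit 171)) (XT.nd (nat_lit 78) (nat_lit 532) (nat_lit 0) (XT.lf (nat_lit 0) (nat_lit 10885881291) (nat_lit 608) (nat_lit 3288683134) (nat_lit 684) (nat_lit 2050686273) (nat_lit 125) (nat_lit 5) (nat_lit 133) (nat_lit 5) (nat_lit 134) (nat_lit 5) (nat_lit 316) (nat_lit 294) (nat_lit 170)) (XT.lf (nat_lit 0) (nat_lit 1741583300) (nat_lit 532) (nat_lit 14055919311) (nat_lit 608) (nat_lit 706560179) (nat_lit 118) (nat_lit 5) (nat_lit 125) (nat_lit 5) (nat_lit 126) (nat_lit 5) (nat_lit 317) (nat_lit 294) (nat_lit 169))))))) (XT.nd (nat_lit 858) (nat_lit 2052) (nat_lit 0) (XT.nd (nat_lit 390) (nat_lit 836) (nat_lit 0) (XT.nd (nat_lit 156) (nat_lit 988) (nat_lit 0) (XT.nd (nat_lit 78) (nat_lit 0) (nat_lit 0) (XT.lf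 (nat_lit 0) (nat_lit 741679310) (nat_lit 608) (nat_lit 7694347665) (nat_lit 76) (nat_lit 8352730871) (nat_lit 117) (nat_lit 5) (nat_lit 125) (nat_lit 5) (nat_lit 118) (nat_lit 5) (nat_lit 318) (nat_lit 294) (nat_lit 168)) (XT.lf (nat_lit 0) (nat_lit 2209461398) (nat_lit 608) (nat_lit 430420945) (nat_lit 76) (nat_lit 14442216547) (nat_lit 117) (nat_lit 5) (nat_lit 125) (nat_lit 5) (nat_lit 118) (nat_lit 5) (nat_lit 319) (nat_lit 294) (nat_lit 167))) (XT.nd (nat_lit 78) (nat_lit 456) (nat_lit 0) (XT.lf (nat_lit 0) (nat_lit 3813598878) (nat_lit 608) (nat_lit 10232575863) (nat_lit 76) (nat_lit 3335318974) (nat_lit 110) (nat_lit 5) (nat_lit 118) (nat_lit 5) (nat_lit 111) (nat_lit 5) (nat_lit 320) (nat_lit 294) (nat_lit 166)) (XT.nd (nat_lit 78) (nat_lit 456) (nat_lit 0) (XT.lf (nat_lit 0) (nat_lit 5487158679) (nat_lit 608) (nat_lit 2760658993) (nat_lit 76) (nat_lit 9441436296) (nat_lit 110) (nat_lit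 5) (nat_lit 118) (nat_lit 5) (nat_lit 111) (nat_lit 5) (nat_lit 321) (nat_lit 294) (nat_lit 165)) (XT.lf (nat_lit 0) (nat_lit 5024531467) (nat_lit 456) (nat_lit 2225732782) (nat_lit 532) (nat_lit 10754824485) (nat_lit 104) (nat_lit 5) (nat_lit 110) (nat_lit 5) (nat_lit 111) (nat_lit 5) (nat_lit 322) (nat_lit 294) (nat_lit 164))))) (XT.nd (nat_lit 234) (nat_lit 380) (nat_lit 0) (XT.nd (nat_lit 78) (nat_lit 456) (nat_lit 0) (XT.lf (nat_lit 0) (nat_lit 9123861240) (nat_lit 532) (nat_lit 5277326546) (nat_lit 76) (nat_lit 3927504048) (nat_lit 104) (nat_lit 5) (nat_lit 111) (nat_lit 5) (nat_lit 105) (nat_lit 5) (nat_lit 323) (nat_lit 294) (nat_lit 163)) (XT.nd (nat_lit 78) (nat_lit 0) (nat_lit 0) (XT.lf (nat_lit 0) (nat_lit 2678367320) (nat_lit 456) (nat_lit 8414553240) (nat_lit 532) (nat_lit 7567925452) (nat_lit 98) (nat_lit 5) (nat_lit 104) (nat_lit 5) (nat_lit 105) (nat_lit 5) (nat_lit 324) (nat_lit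 294) (nat_lit 162)) (XT.lf (nat_lit 0) (nat_lit 10972137489) (nat_lit 456) (nat_lit 2193840241) (nat_lit 532) (nat_lit 5835659322) (nat_lit 98) (nat_lit 5) (nat_lit 104) (nat_lit 5) (nat_lit 105) (nat_lit 5) (nat_lit 325) (nat_lit 294) (nat_lit 161)))) (XT.nd (nat_lit 78) (nat_lit 0) (nat_lit 0) (XT.lf (nat_lit 0) (nat_lit 115032756) (nat_lit 380) (nat_lit 15219677530) (nat_lit 456) (nat_lit 4016956462) (nat_lit 93) (nat_lit 5) (nat_lit 98) (nat_lit 5) (nat_lit 99) (nat_lit 5) (nat_lit 326) (nat_lit 294) (nat_lit 160)) (XT.nd (nat_lit 78) (nat_lit 0) (nat_lit 0) (XT.lf (nat_lit 0) (nat_lit 8637652287) (nat_lit 380) (nat_lit 9025471282) (nat_lit 456) (nat_lit 2046254072) (nat_lit 93) (nat_lit 5) (nat_lit 98) (nat_lit 5) (nat_lit 99) (nat_lit 5) (nat_lit 327) (nat_lit 294) (nat_lit 159)) (XT.lf (nat_lit 0) (nat_lit 17407511431) (nat_lit 380) (nat_lit 2646138316) (nat_lit 456) (nat_lit 24420618)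 (nat_lit 93) (nat_lit 5) (nat_lit 98) (nat_lit 5) (nat_lit 99) (nat_lit 5) (nat_lit 328) (nat_lit 294) (nat_lit 158)))))) (XT.nd (nat_lit 468) (nat_lit 760) (nat_lit 0) (XT.nd (nat_lit 234) (nat_lit 380) (nat_lit 0) (XT.nd (nat_lit 78) (nat_lit 380) (nat_lit 0) (XT.lf (nat_lit 0) (nat_lit 2107171045) (nat_lit 532) (nat_lit 14421213087) (nat_lit 76) (nat_lit 3926185600) (nat_lit 86) (nat_lit 5) (nat_lit 93) (nat_lit 5) (nat_lit 87) (nat_lit 5) (nat_lit 329) (nat_lit 294) (nat_lit 157)) (XT.nd (nat_lit 78) (nat_lit 380) (nat_lit 0) (XT.lf (nat_lit 0) (nat_lit 4348181612) (nat_lit 532) (nat_lit 5823642387) (nat_lit 76) (nat_lit 10669170731) (nat_lit 86) (nat_lit 5) (nat_lit 93) (nat_lit 5) (nat_lit 87) (nat_lit 5) (nat_lit 330) (nat_lit 294) (nat_lit 156)) (XT.lf (nat_lit 0) (nat_lit 3083766077) (nat_lit 380) (nat_lit 3595045273) (nat_lit 456) (nat_lit 14559545741) (nat_lit 81) (nat_lit 5) (nat_lit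 86) (nat_lit 5) (nat_lit 87) (nat_lit 5) (nat_lit 331) (nat_lit 294) (nat_lit 155)))) (XT.nd (nat_lit 78) (nat_lit 380) (nat_lit 0) (XT.lf (nat_lit 0) (nat_lit 9162176665) (nat_lit 456) (nat_lit 9307644396) (nat_lit 76) (nat_lit 3175350563) (nat_lit 81) (nat_lit 5) (nat_lit 87) (nat_lit 5) (nat_lit 82) (nat_lit 5) (nat_lit 332) (nat_lit 294) (nat_lit 154)) (XT.nd (nat_lit 78) (nat_lit 380) (nat_lit 0) (XT.lf (nat_lit 0) (nat_lit 11748713386) (nat_lit 456) (nat_lit 239042092) (nat_lit 76) (nat_lit 10075590343) (nat_lit 81) (nat_lit 5) (nat_lit 87) (nat_lit 5) (nat_lit 82) (nat_lit 5) (nat_lit 333) (nat_lit 294) (nat_lit 153)) (XT.lf (nat_lit 0) (nat_lit 9274680106) (nat_lit 380) (nat_lit 5220597613) (nat_lit 456) (nat_lit 7996329476) (nat_lit 76) (nat_lit 5) (nat_lit 81) (nat_lit 5) (nat_lit 82) (nat_lit 5) (nat_lit 334) (nat_lit 294) (nat_lit 152))))) (XT.nd (nat_lit 234) (nat_lit 456) (nat_lit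 0) (XT.nd (nat_lit 78) (nat_lit 304) (nat_lit 0) (XT.lf (nat_lit 0) (nat_lit 17336880812) (nat_lit 456) (nat_lit 3878815307) (nat_lit 76) (nat_lit 1716655497) (nat_lit 76) (nat_lit 5) (nat_lit 82) (nat_lit 5) (nat_lit 77) (nat_lit 5) (nat_lit 335) (nat_lit 294) (nat_lit 151)) (XT.nd (nat_lit 78) (nat_lit 0) (nat_lit 0) (XT.lf (nat_lit 0) (nat_lit 5792983464) (nat_lit 304) (nat_lit 14571702047) (nat_lit 380) (nat_lit 3018618294) (nat_lit 72) (nat_lit 5) (nat_lit 76) (nat_lit 5) (nat_lit 77) (nat_lit 5) (nat_lit 336) (nat_lit 294) (nat_lit 150)) (XT.lf (nat_lit 0) (nat_lit 15826715422) (nat_lit 304) (nat_lit 7689468781) (nat_lit 380) (nat_lit 330628192) (nat_lit 72) (nat_lit 5) (nat_lit 76) (nat_lit 5) (nat_lit 77) (nat_lit 5) (nat_lit 337) (nat_lit 294) (nat_lit 149)))) (XT.nd (nat_lit 78) (nat_lit 0) (nat_lit 0) (XT.lf (nat_lit 0) (nat_lit 1842099858) (nat_lit 380) (nat_lit 559836501) (nat_lit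 456) (nat_lit 21921254398) (nat_lit 66) (nat_lit 5) (nat_lit 71) (nat_lit 5) (nat_lit 72) (nat_lit 5) (nat_lit 338) (nat_lit 294) (nat_lit 148)) (XT.nd (nat_lit 78) (nat_lit 0) (nat_lit 0) (XT.lf (nat_lit 0) (nat_lit 5350725710) (nat_lit 456) (nat_lit 12723898184) (nat_lit 76) (nat_lit 6734924050) (nat_lit 66) (nat_lit 5) (nat_lit 72) (nat_lit 5) (nat_lit 67) (nat_lit 5) (nat_lit 339) (nat_lit 294) (nat_lit 147)) (XT.lf (nat_lit 0) (nat_lit 8387594612) (nat_lit 456) (nat_lit 2687056626) (nat_lit 76) (nat_lit 14235868243) (nat_lit 66) (nat_lit 5) (nat_lit 72) (nat_lit 5) (nat_lit 67) (nat_lit 5) (nat_lit 340) (nat_lit 294) (nat_lit 146))))))))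
noncomputable def xc199 : XT := (XT.nd (nat_lit 1794) (nat_lit 1140) (nat_lit 0) (XT.nd (nat_lit 858) (nat_lit 988) (nat_lit 0) (XT.nd (nat_lit 390) (nat_lit 836) (nat_lit 0) (XT.nd (nat_lit 156) (nat_lit 304) (nat_lit 0) (XT.nd (nat_lit 78) (nat_lit 0) (nat_lit 0) (XT.lf (nat_lit 0) (nat_lit 7795707655) (nat_lit 304) (nat_lit 3789044606) (nat_lit 380) (nat_lit 14239704182) (nat_lit 62) (nat_lit 5) (nat_lit 66) (nat_lit 5) (nat_lit 67) (nat_lit 5) (nat_lit 341) (nat_lit 294) (nat_lit 145)) (XT.lf (nat_lit 0) (nat_lit 14935267886) (nat_lit 380) (nat_lit 7748340551) (nat_lit 76) (nat_lit 3668491195) (nat_lit 62) (nat_lit 5) (nat_lit 67) (nat_lit 5) (nat_lit 63) (nat_lit 5) (nat_lit 342) (nat_lit 294) (nat_lit 144))) (XT.nd (nat_lit 78) (nat_lit 0) (nat_lit 0) (XT.lf (nat_lit 0) (nat_lit 2851422483) (nat_lit 304) (nat_lit 15594295082) (nat_lit 380) (nat_lit 8448083077) (nat_lit 58) (nat_lit 5)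 (nat_lit 62) (nat_lit 5) (nat_lit 63) (nat_lit 5) (nat_lit 343) (nat_lit 294) (nat_lit 143)) (XT.nd (nat_lit 78) (nat_lit 0) (nat_lit 0) (XT.lf (nat_lit 0) (nat_lit 13920898542) (nat_lit 304) (nat_lit 8213410917) (nat_lit 380) (nat_lit 5315269124) (nat_lit 58) (nat_lit 5) (nat_lit 62) (nat_lit 5) (nat_lit 63) (nat_lit 5) (nat_lit 344) (nat_lit 294) (nat_lit 142)) (XT.lf (nat_lit 0) (nat_lit 25315552813) (nat_lit 304) (nat_lit 612749671) (nat_lit 380) (nat_lit 2093895523) (nat_lit 58) (nat_lit 5) (nat_lit 62) (nat_lit 5) (nat_lit 63) (nat_lit 5) (nat_lit 345) (nat_lit 294) (nat_lit 141))))) (XT.nd (nat_lit 234) (nat_lit 228) (nat_lit 0) (XT.nd (nat_lit 78) (nat_lit 304) (nat_lit 0) (XT.lf (nat_lit 0) (nat_lit 1347913724) (nat_lit 304) (nat_lit 20090543029) (nat_lit 76) (nat_lit 7168765657) (nat_lit 54) (nat_lit 5) (nat_lit 58) (nat_lit 5) (nat_lit 55) (nat_lit 5) (nat_lit 346) (nat_lit 294) (nat_lit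 140)) (XT.nd (nat_lit 78) (nat_lit 304) (nat_lit 0) (XT.lf (nat_lit 0) (nat_lit 4879466720) (nat_lit 304) (nat_lit 9110755946) (nat_lit 76) (nat_lit 15218105250) (nat_lit 54) (nat_lit 5) (nat_lit 58) (nat_lit 5) (nat_lit 55) (nat_lit 5) (nat_lit 347) (nat_lit 294) (nat_lit 139)) (XT.lf (nat_lit 0) (nat_lit 2235348779) (nat_lit 304) (nat_lit 6298158898) (nat_lit 380) (nat_lit 21293471950) (nat_lit 50) (nat_lit 5) (nat_lit 54) (nat_lit 5) (nat_lit 55) (nat_lit 5) (nat_lit 348) (nat_lit 294) (nat_lit 138)))) (XT.nd (nat_lit 78) (nat_lit 228) (nat_lit 0) (XT.lf (nat_lit 0) (nat_lit 12400816031) (nat_lit 380) (nat_lit 16376128906) (nat_lit 76) (nat_lit 1684145582) (nat_lit 50) (nat_lit 5) (nat_lit 55) (nat_lit 5) (nat_lit 51) (nat_lit 5) (nat_lit 349) (nat_lit 294) (nat_lit 137)) (XT.nd (nat_lit 78) (nat_lit 228) (nat_lit 0) (XT.lf (nat_lit 0) (nat_lit 16441761065) (nat_lit 380) (nat_lit 4893090845)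 (nat_lit 76) (nat_lit 9777653052) (nat_lit 50) (nat_lit 5) (nat_lit 55) (nat_lit 5) (nat_lit 51) (nat_lit 5) (nat_lit 350) (nat_lit 294) (nat_lit 136)) (XT.lf (nat_lit 0) (nat_lit 7065940766) (nat_lit 228) (nat_lit 13601313326) (nat_lit 304) (nat_lit 11114316652) (nat_lit 47) (nat_lit 5) (nat_lit 50) (nat_lit 5) (nat_lit 51) (nat_lit 5) (nat_lit 351) (nat_lit 294) (nat_lit 135)))))) (XT.nd (nat_lit 468) (nat_lit 456) (nat_lit 0) (XT.nd (nat_lit 234) (nat_lit 228) (nat_lit 0) (XT.nd (nat_lit 78) (nat_lit 304) (nat_lit 0) (XT.lf (nat_lit 0) (nat_lit 19477729890) (nat_lit 228) (nat_lit 5586663471) (nat_lit 304) (nat_lit 7404976942) (nat_lit 47) (nat_lit 5) (nat_lit 50) (nat_lit 5) (nat_lit 51) (nat_lit 5) (nat_lit 352) (nat_lit 294) (nat_lit 134)) (XT.nd (nat_lit 78) (nat_lit 304) (nat_lit 0) (XT.lf (nat_lit 0) (nat_lit 29614683411) (nat_lit 304) (nat_lit 947837953) (nat_lit 76) (nat_lit 2614653393)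 (nat_lit 47) (nat_lit 5) (nat_lit 51) (nat_lit 5) (nat_lit 48) (nat_lit 5) (nat_lit 353) (nat_lit 294) (nat_lit 133)) (XT.lf (nat_lit 0) (nat_lit 551912029) (nat_lit 304) (nat_lit 22284057820) (nat_lit 76) (nat_lit 11065206368) (nat_lit 43) (nat_lit 5) (nat_lit 47) (nat_lit 5) (nat_lit 44) (nat_lit 5) (nat_lit 354) (nat_lit 294) (nat_lit 132)))) (XT.nd (nat_lit 78) (nat_lit 228) (nat_lit 0) (XT.lf (nat_lit 0) (nat_lit 4723543486) (nat_lit 304) (nat_lit 10109631089) (nat_lit 76) (nat_lit 19812510351) (nat_lit 43) (nat_lit 5) (nat_lit 47) (nat_lit 5) (nat_lit 44) (nat_lit 5) (nat_lit 355) (nat_lit 294) (nat_lit 131)) (XT.nd (nat_lit 78) (nat_lit 0) (nat_lit 0) (XT.lf (nat_lit 0) (nat_lit 2472343904) (nat_lit 228) (nat_lit 6567602420) (nat_lit 304) (nat_lit 26372001013) (nat_lit 40) (nat_lit 5) (nat_lit 43) (nat_lit 5) (nat_lit 44) (nat_lit 5) (nat_lit 356) (nat_lit 294) (nat_lit 130)) (XT.lf (nat_lit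 0) (nat_lit 13603548776) (nat_lit 304) (nat_lit 20584818428) (nat_lit 76) (nat_lit 2009306097) (nat_lit 40) (nat_lit 5) (nat_lit 44) (nat_lit 5) (nat_lit 41) (nat_lit 5) (nat_lit 357) (nat_lit 294) (nat_lit 129))))) (XT.nd (nat_lit 234) (nat_lit 228) (nat_lit 0) (XT.nd (nat_lit 78) (nat_lit 228) (nat_lit 0) (XT.lf (nat_lit 0) (nat_lit 18365108152) (nat_lit 304) (nat_lit 7930224184) (nat_lit 76) (nat_lit 10709813950) (nat_lit 40) (nat_lit 5) (nat_lit 44) (nat_lit 5) (nat_lit 41) (nat_lit 5) (nat_lit 358) (nat_lit 294) (nat_lit 128)) (XT.nd (nat_lit 78) (nat_lit 0) (nat_lit 0) (XT.lf (nat_lit 0) (nat_lit 5199836053) (nat_lit 228) (nat_lit 18115801175) (nat_lit 304) (nat_lit 14519829053) (nat_lit 37) (nat_lit 5) (nat_lit 40) (nat_lit 5) (nat_lit 41) (nat_lit 5) (nat_lit 359) (nat_lit 294) (nat_lit 127)) (XT.lf (nat_lit 0) (nat_lit 18880775844) (nat_lit 228) (nat_lit 9610183745) (nat_lit 304) (nat_lit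 10197454287) (nat_lit 37) (nat_lit 5) (nat_lit 40) (nat_lit 5) (nat_lit 41) (nat_lit 5) (nat_lit 360) (nat_lit 294) (nat_lit 126)))) (XT.nd (nat_lit 78) (nat_lit 228) (nat_lit 0) (XT.lf (nat_lit 0) (nat_lit 32966722395) (nat_lit 228) (nat_lit 851127669) (nat_lit 304) (nat_lit 5749216718) (nat_lit 37) (nat_lit 5) (nat_lit 40) (nat_lit 5) (nat_lit 41) (nat_lit 5) (nat_lit 361) (nat_lit 294) (nat_lit 125)) (XT.nd (nat_lit 78) (nat_lit 76) (nat_lit 0) (XT.lf (nat_lit 0) (nat_lit 7056972386) (nat_lit 152) (nat_lit 32390352389) (nat_lit 228) (nat_lit 1020477130) (nat_lit 35) (nat_lit 5) (nat_lit 37) (nat_lit 5) (nat_lit 38) (nat_lit 5) (nat_lit 362) (nat_lit 294) (nat_lit 124)) (XT.lf (nat_lit 0) (nat_lit 3847145163) (nat_lit 228) (nat_lit 20185732294) (nat_lit 76) (nat_lit 17359412442) (nat_lit 34) (nat_lit 5) (nat_lit 37) (nat_lit 5) (nat_lit 35) (nat_lit 5) (nat_lit 363) (nat_lit 294) (nat_lit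 123))))))) (XT.nd (nat_lit 858) (nat_lit 532) (nat_lit 0) (XT.nd (nat_lit 390) (nat_lit 228) (nat_lit 0) (XT.nd (nat_lit 156) (nat_lit 152) (nat_lit 0) (XT.nd (nat_lit 78) (nat_lit 228) (nat_lit 0) (XT.lf (nat_lit 0) (nat_lit 8836802894) (nat_lit 228) (nat_lit 6579214342) (nat_lit 76) (nat_lit 26928302115) (nat_lit 34) (nat_lit 5) (nat_lit 37) (nat_lit 5) (nat_lit 35) (nat_lit 5) (nat_lit 364) (nat_lit 294) (nat_lit 122)) (XT.lf (nat_lit 0) (nat_lit 7578302961) (nat_lit 228) (nat_lit 6467313465) (nat_lit 304) (nat_lit 29277214572) (nat_lit 31) (nat_lit 5) (nat_lit 34) (nat_lit 5) (nat_lit 35) (nat_lit 5) (nat_lit 365) (nat_lit 294) (nat_lit 121))) (XT.nd (nat_lit 78) (nat_lit 152) (nat_lit 0) (XT.lf (nat_lit 0) (nat_lit 19500875231) (nat_lit 304) (nat_lit 22065497881) (nat_lit 76) (nat_lit 2761624597) (nat_lit 31) (nat_lit 5) (nat_lit 35) (nat_lit 5) (nat_lit 32) (nat_lit 5) (nat_lit 366) (nat_lit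 294) (nat_lit 120)) (XT.nd (nat_lit 78) (nat_lit 152) (nat_lit 0) (XT.lf (nat_lit 0) (nat_lit 25180574755) (nat_lit 304) (nat_lit 8045095819) (nat_lit 76) (nat_lit 12135830347) (nat_lit 31) (nat_lit 5) (nat_lit 35) (nat_lit 5) (nat_lit 32) (nat_lit 5) (nat_lit 367) (nat_lit 294) (nat_lit 119)) (XT.lf (nat_lit 0) (nat_lit 6518292112) (nat_lit 152) (nat_lit 24571875768) (nat_lit 228) (nat_lit 15334061116) (nat_lit 29) (nat_lit 5) (nat_lit 31) (nat_lit 5) (nat_lit 32) (nat_lit 5) (nat_lit 368) (nat_lit 294) (nat_lit 118))))) (XT.nd (nat_lit 234) (nat_lit 0) (nat_lit 0) (XT.nd (nat_lit 78) (nat_lit 228) (nat_lit 0) (XT.lf (nat_lit 0) (nat_lit 21678723982) (nat_lit 152) (nat_lit 15576455322) (nat_lit 228) (nat_lit 10261320398) (nat_lit 29) (nat_lit 5) (nat_lit 31) (nat_lit 5) (nat_lit 32) (nat_lit 5) (nat_lit 369) (nat_lit 294) (nat_lit 117)) (XT.nd (nat_lit 78) (nat_lit 228) (nat_lit 0) (XT.lf (nat_lit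 0) (nat_lit 37289333586) (nat_lit 152) (nat_lit 6312788853) (nat_lit 228) (nat_lit 5039511215) (nat_lit 29) (nat_lit 5) (nat_lit 31) (nat_lit 5) (nat_lit 32) (nat_lit 5) (nat_lit 370) (nat_lit 294) (nat_lit 116)) (XT.lf (nat_lit 0) (nat_lit 395674671) (nat_lit 228) (nat_lit 46200102113) (nat_lit 76) (nat_lit 3202751298) (nat_lit 26) (nat_lit 5) (nat_lit 29) (nat_lit 5) (nat_lit 27) (nat_lit 5) (nat_lit 371) (nat_lit 294) (nat_lit 115)))) (XT.nd (nat_lit 78) (nat_lit 0) (nat_lit 0) (XT.lf (nat_lit 0) (nat_lit 6067964255) (nat_lit 228) (nat_lit 31874434702) (nat_lit 76) (nat_lit 13040977564) (nat_lit 26) (nat_lit 5) (nat_lit 29) (nat_lit 5) (nat_lit 27) (nat_lit 5) (nat_lit 372) (nat_lit 294) (nat_lit 114)) (XT.nd (nat_lit 78) (nat_lit 0) (nat_lit 0) (XT.lf (nat_lit 0) (nat_lit 11907571521) (nat_lit 228) (nat_lit 17123458653) (nat_lit 76) (nat_lit 23172829824) (nat_lit 26) (nat_lit 5) (nat_lit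 29) (nat_lit 5) (nat_lit 27) (nat_lit 5) (nat_lit 373) (nat_lit 294) (nat_lit 113)) (XT.lf (nat_lit 0) (nat_lit 17919599040) (nat_lit 228) (nat_lit 1934284764) (nat_lit 76) (nat_lit 33607161155) (nat_lit 26) (nat_lit 5) (nat_lit 29) (nat_lit 5) (nat_lit 27) (nat_lit 5) (nat_lit 374) (nat_lit 294) (nat_lit 112)))))) (XT.nd (nat_lit 468) (nat_lit 228) (nat_lit 0) (XT.nd (nat_lit 234) (nat_lit 152) (nat_lit 0) (XT.nd (nat_lit 78) (nat_lit 0) (nat_lit 0) (XT.lf (nat_lit 0) (nat_lit 13979142477) (nat_lit 152) (nat_lit 10264533630) (nat_lit 228) (nat_lit 30508322524) (nat_lit 24) (nat_lit 5) (nat_lit 26) (nat_lit 5) (nat_lit 27) (nat_lit 5) (nat_lit 375) (nat_lit 294) (nat_lit 111)) (XT.nd (nat_lit 78) (nat_lit 0) (nat_lit 0) (XT.lf (nat_lit 0) (nat_lit 30405459423) (nat_lit 152) (nat_lit 368899446) (nat_lit 228) (nat_lit 25306819255) (nat_lit 24) (nat_lit 5) (nat_lit 26) (nat_lit 5) (nat_lit 27)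 (nat_lit 5) (nat_lit 376) (nat_lit 294) (nat_lit 110)) (XT.lf (nat_lit 0) (nat_lit 37592806522) (nat_lit 228) (nat_lit 10224207009) (nat_lit 76) (nat_lit 9630467742) (nat_lit 24) (nat_lit 5) (nat_lit 27) (nat_lit 5) (nat_lit 25) (nat_lit 5) (nat_lit 377) (nat_lit 294) (nat_lit 109)))) (XT.nd (nat_lit 78) (nat_lit 0) (nat_lit 0) (XT.lf (nat_lit 0) (nat_lit 5796314837) (nat_lit 152) (nat_lit 38876352203) (nat_lit 228) (nat_lit 14180404196) (nat_lit 22) (nat_lit 5) (nat_lit 24) (nat_lit 5) (nat_lit 25) (nat_lit 5) (nat_lit 378) (nat_lit 294) (nat_lit 108)) (XT.nd (nat_lit 78) (nat_lit 0) (nat_lit 0) (XT.lf (nat_lit 0) (nat_lit 22503087969) (nat_lit 152) (nat_lit 29562604243) (nat_lit 228) (nat_lit 8232117016) (nat_lit 22) (nat_lit 5) (nat_lit 24) (nat_lit 5) (nat_lit 25) (nat_lit 5) (nat_lit 379) (nat_lit 294) (nat_lit 107)) (XT.lf (nat_lit 0) (nat_lit 39707228770) (nat_lit 152) (nat_lit 19970875868)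 (nat_lit 228) (nat_lit 2107860126) (nat_lit 22) (nat_lit 5) (nat_lit 24) (nat_lit 5) (nat_lit 25) (nat_lit 5) (nat_lit 380) (nat_lit 294) (nat_lit 106))))) (XT.nd (nat_lit 234) (nat_lit 0) (nat_lit 0) (XT.nd (nat_lit 78) (nat_lit 152) (nat_lit 0) (XT.lf (nat_lit 0) (nat_lit 4115805175) (nat_lit 228) (nat_lit 5935419220) (nat_lit 76) (nat_lit 53266403248) (nat_lit 21) (nat_lit 5) (nat_lit 24) (nat_lit 5) (nat_lit 22) (nat_lit 5) (nat_lit 381) (nat_lit 294) (nat_lit 105)) (XT.nd (nat_lit 78) (nat_lit 0) (nat_lit 0) (XT.lf (nat_lit 0) (nat_lit 10588933241) (nat_lit 228) (nat_lit 54014402692) (nat_lit 76) (nat_lit 288127836) (nat_lit 19) (nat_lit 5) (nat_lit 22) (nat_lit 5) (nat_lit 20) (nat_lit 5) (nat_lit 382) (nat_lit 294) (nat_lit 104)) (XT.lf (nat_lit 0) (nat_lit 17414029431) (nat_lit 228) (nat_lit 38298926926) (nat_lit 76) (nat_lit 10794828324) (nat_lit 19) (nat_lit 5) (nat_lit 22) (nat_lit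 5) (nat_lit 20) (nat_lit 5) (nat_lit 383) (nat_lit 294) (nat_lit 103)))) (XT.nd (nat_lit 78) (nat_lit 0) (nat_lit 0) (XT.lf (nat_lit 0) (nat_lit 24441672377) (nat_lit 228) (nat_lit 22115565130) (nat_lit 76) (nat_lit 21615426744) (nat_lit 19) (nat_lit 5) (nat_lit 22) (nat_lit 5) (nat_lit 20) (nat_lit 5) (nat_lit 384) (nat_lit 294) (nat_lit 102)) (XT.nd (nat_lit 33618) (nat_lit 0) (nat_lit 10336) (XT.lf (nat_lit 0) (nat_lit 31678002737) (nat_lit 228) (nat_lit 5450176502) (nat_lit 76) (nat_lit 32759377987) (nat_lit 19) (nat_lit 5) (nat_lit 22) (nat_lit 5) (nat_lit 20) (nat_lit 5) (nat_lit 385) (nat_lit 294) (nat_lit 101)) (XT.lf (nat_lit 0) (nat_lit 1833707556) (nat_lit 0) (nat_lit 1833707556) (nat_lit 988) (nat_lit 2288472462) (nat_lit 155) (nat_lit 5) (nat_lit 155) (nat_lit 3) (nat_lit 168) (nat_lit 3) (nat_lit 295) (nat_lit 295) (nat_lit 190))))))))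
noncomputable def xc200 : XT := (XT.nd (nat_lit 1716) (nat_lit 4484) (nat_lit 0) (XT.nd (nat_lit 858) (nat_lit 1444) (nat_lit 0) (XT.nd (nat_lit 390) (nat_lit 836) (nat_lit 0) (XT.nd (nat_lit 156) (nat_lit 0) (nat_lit 0) (XT.nd (nat_lit 78) (nat_lit 0) (nat_lit 0) (XT.lf (nat_lit 0) (nat_lit 7883666851) (nat_lit 988) (nat_lit 3375294145) (nat_lit 1064) (nat_lit 817117604) (nat_lit 155) (nat_lit 5) (nat_lit 168) (nat_lit 3) (nat_lit 169) (nat_lit 5) (nat_lit 296) (nat_lit 295) (nat_lit 189)) (XT.lf (nat_lit 76) (nat_lit 1626227338) (nat_lit 0) (nat_lit 6857952334) (nat_lit 1064) (nat_lit 3760122325) (nat_lit 156) (nat_lit 5) (nat_lit 155) (nat_lit 5) (nat_lit 169) (nat_lit 5) (nat_lit 297) (nat_lit 295) (nat_lit 188))) (XT.nd (nat_lit 78) (nat_lit 0) (nat_lit 76) (XT.lf (nat_lit 76) (nat_lit 6838034407) (nat_lit 0) (nat_lit 2282426399) (nat_lit 1064) (nat_lit 3296624502) (nat_lit 156) (nat_lit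 5) (nat_lit 155) (nat_lit 5) (nat_lit 169) (nat_lit 5) (nat_lit 298) (nat_lit 295) (nat_lit 187)) (XT.nd (nat_lit 78) (nat_lit 0) (nat_lit 0) (XT.lf (nat_lit 0) (nat_lit 9783406146) (nat_lit 988) (nat_lit 421497185) (nat_lit 1064) (nat_lit 2389965980) (nat_lit 156) (nat_lit 5) (nat_lit 169) (nat_lit 5) (nat_lit 170) (nat_lit 5) (nat_lit 299) (nat_lit 295) (nat_lit 186)) (XT.lf (nat_lit 76) (nat_lit 4955883654) (nat_lit 0) (nat_lit 5565266869) (nat_lit 1064) (nat_lit 2255232162) (nat_lit 157) (nat_lit 5) (nat_lit 156) (nat_lit 5) (nat_lit 170) (nat_lit 5) (nat_lit 300) (nat_lit 295) (nat_lit 185))))) (XT.nd (nat_lit 234) (nat_lit 912) (nat_lit 0) (XT.nd (nat_lit 78) (nat_lit 0) (nat_lit 76) (XT.lf (nat_lit 76) (nat_lit 10494306169) (nat_lit 0) (nat_lit 776011431) (nat_lit 1064) (nat_lit 1693387063) (nat_lit 157) (nat_lit 5) (nat_lit 156) (nat_lit 5) (nat_lit 170) (nat_lit 5) (nat_lit 301) (nat_lit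 295) (nat_lit 184)) (XT.nd (nat_lit 78) (nat_lit 0) (nat_lit 0) (XT.lf (nat_lit 76) (nat_lit 3052651163) (nat_lit 0) (nat_lit 9044137748) (nat_lit 1064) (nat_lit 1058253206) (nat_lit 158) (nat_lit 5) (nat_lit 157) (nat_lit 5) (nat_lit 171) (nat_lit 5) (nat_lit 302) (nat_lit 295) (nat_lit 183)) (XT.lf (nat_lit 76) (nat_lit 8774043253) (nat_lit 0) (nat_lit 4192415598) (nat_lit 1064) (nat_lit 385148214) (nat_lit 158) (nat_lit 5) (nat_lit 157) (nat_lit 5) (nat_lit 171) (nat_lit 5) (nat_lit 303) (nat_lit 295) (nat_lit 182)))) (XT.nd (nat_lit 78) (nat_lit 0) (nat_lit 0) (XT.lf (nat_lit 0) (nat_lit 306947284) (nat_lit 1064) (nat_lit 12439225124) (nat_lit 1140) (nat_lit 807700618) (nat_lit 144) (nat_lit 5) (nat_lit 158) (nat_lit 5) (nat_lit 159) (nat_lit 5) (nat_lit 304) (nat_lit 295) (nat_lit 181)) (XT.nd (nat_lit 78) (nat_lit 0) (nat_lit 0) (XT.lf (nat_lit 0) (nat_lit 1086715701) (nat_lit 1064) (nat_lit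 6744688043) (nat_lit 1140) (nat_lit 5928485440) (nat_lit 144) (nat_lit 5) (nat_lit 158) (nat_lit 5) (nat_lit 159) (nat_lit 5) (nat_lit 305) (nat_lit 295) (nat_lit 180)) (XT.lf (nat_lit 0) (nat_lit 1876731540) (nat_lit 1064) (nat_lit 888585986) (nat_lit 1140) (nat_lit 11207197773) (nat_lit 144) (nat_lit 5) (nat_lit 158) (nat_lit 5) (nat_lit 159) (nat_lit 5) (nat_lit 306) (nat_lit 295) (nat_lit 179)))))) (XT.nd (nat_lit 390) (nat_lit 1520) (nat_lit 0) (XT.nd (nat_lit 156) (nat_lit 0) (nat_lit 0) (XT.nd (nat_lit 78) (nat_lit 0) (nat_lit 0) (XT.lf (nat_lit 0) (nat_lit 2752132254) (nat_lit 1064) (nat_lit 8978160338) (nat_lit 1140) (nat_lit 2459411152) (nat_lit 145) (nat_lit 5) (nat_lit 159) (nat_lit 5) (nat_lit 160) (nat_lit 5) (nat_lit 307) (nat_lit 295) (nat_lit 178)) (XT.lf (nat_lit 0) (nat_lit 3677793753) (nat_lit 1064) (nat_lit 2937069555) (nat_lit 1140) (nat_lit 7797857659) (nat_lit 145) (nat_lit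 5) (nat_lit 159) (nat_lit 5) (nat_lit 160) (nat_lit 5) (nat_lit 308) (nat_lit 295) (nat_lit 177))) (XT.nd (nat_lit 78) (nat_lit 0) (nat_lit 76) (XT.lf (nat_lit 76) (nat_lit 3341374154) (nat_lit 0) (nat_lit 1309890239) (nat_lit 1140) (nat_lit 9990595258) (nat_lit 146) (nat_lit 5) (nat_lit 145) (nat_lit 5) (nat_lit 160) (nat_lit 5) (nat_lit 309) (nat_lit 295) (nat_lit 176)) (XT.nd (nat_lit 78) (nat_lit 0) (nat_lit 0) (XT.lf (nat_lit 0) (nat_lit 5712036954) (nat_lit 1064) (nat_lit 5058236935) (nat_lit 1140) (nat_lit 4105886860) (nat_lit 146) (nat_lit 5) (nat_lit 160) (nat_lit 5) (nat_lit 161) (nat_lit 5) (nat_lit 310) (nat_lit 295) (nat_lit 175)) (XT.lf (nat_lit 76) (nat_lit 1376029364) (nat_lit 0) (nat_lit 5443355586) (nat_lit 1140) (nat_lit 8297693641) (nat_lit 147) (nat_lit 5) (nat_lit 146) (nat_lit 5) (nat_lit 161) (nat_lit 5) (nat_lit 311) (nat_lit 295) (nat_lit 174))))) (XT.nd (nat_lit 234)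 (nat_lit 608) (nat_lit 0) (XT.nd (nat_lit 78) (nat_lit 1064) (nat_lit 0) (XT.lf (nat_lit 0) (nat_lit 8000777229) (nat_lit 1064) (nat_lit 7267030018) (nat_lit 76) (nat_lit 96221404) (nat_lit 147) (nat_lit 5) (nat_lit 161) (nat_lit 5) (nat_lit 148) (nat_lit 5) (nat_lit 312) (nat_lit 295) (nat_lit 173)) (XT.nd (nat_lit 78) (nat_lit 1064) (nat_lit 0) (XT.lf (nat_lit 0) (nat_lit 9260654370) (nat_lit 1064) (nat_lit 661838551) (nat_lit 76) (nat_lit 5694631541) (nat_lit 147) (nat_lit 5) (nat_lit 161) (nat_lit 5) (nat_lit 148) (nat_lit 5) (nat_lit 313) (nat_lit 295) (nat_lit 172)) (XT.lf (nat_lit 0) (nat_lit 6254672756) (nat_lit 1064) (nat_lit 4353243358) (nat_lit 1140) (nat_lit 5268437094) (nat_lit 133) (nat_lit 5) (nat_lit 147) (nat_lit 5) (nat_lit 148) (nat_lit 5) (nat_lit 314) (nat_lit 295) (nat_lit 171)))) (XT.nd (nat_lit 78) (nat_lit 608) (nat_lit 0) (XT.lf (nat_lit 0) (nat_lit 12005341562) (nat_lit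 1140) (nat_lit 2773423903) (nat_lit 76) (nat_lit 1364327878) (nat_lit 133) (nat_lit 5) (nat_lit 148) (nat_lit 5) (nat_lit 134) (nat_lit 5) (nat_lit 315) (nat_lit 295) (nat_lit 170)) (XT.nd (nat_lit 78) (nat_lit 0) (nat_lit 0) (XT.lf (nat_lit 0) (nat_lit 4312445993) (nat_lit 608) (nat_lit 9206800390) (nat_lit 684) (nat_lit 2896378721) (nat_lit 125) (nat_lit 5) (nat_lit 133) (nat_lit 5) (nat_lit 134) (nat_lit 5) (nat_lit 316) (nat_lit 295) (nat_lit 169)) (XT.lf (nat_lit 0) (nat_lit 11658947274) (nat_lit 608) (nat_lit 3437835199) (nat_lit 684) (nat_lit 1599029278) (nat_lit 125) (nat_lit 5) (nat_lit 133) (nat_lit 5) (nat_lit 134) (nat_lit 5) (nat_lit 317) (nat_lit 295) (nat_lit 168))))))) (XT.nd (nat_lit 858) (nat_lit 2052) (nat_lit 0) (XT.nd (nat_lit 390) (nat_lit 1292) (nat_lit 0) (XT.nd (nat_lit 156) (nat_lit 532) (nat_lit 0) (XT.nd (nat_lit 78) (nat_lit 76) (nat_lit 0) (XT.lf (nat_lit 0) (nat_lit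 2252461272) (nat_lit 532) (nat_lit 14505409773) (nat_lit 608) (nat_lit 225470781) (nat_lit 118) (nat_lit 5) (nat_lit 125) (nat_lit 5) (nat_lit 126) (nat_lit 5) (nat_lit 318) (nat_lit 295) (nat_lit 167)) (XT.lf (nat_lit 0) (nat_lit 1242070263) (nat_lit 608) (nat_lit 7469212038) (nat_lit 76) (nat_lit 8565616245) (nat_lit 117) (nat_lit 5) (nat_lit 125) (nat_lit 5) (nat_lit 118) (nat_lit 5) (nat_lit 319) (nat_lit 295) (nat_lit 166))) (XT.nd (nat_lit 78) (nat_lit 532) (nat_lit 0) (XT.lf (nat_lit 0) (nat_lit 2739959389) (nat_lit 608) (nat_lit 648082) (nat_lit 76) (nat_lit 14838884449) (nat_lit 117) (nat_lit 5) (nat_lit 125) (nat_lit 5) (nat_lit 118) (nat_lit 5) (nat_lit 320) (nat_lit 295) (nat_lit 165)) (XT.nd (nat_lit 78) (nat_lit 0) (nat_lit 0) (XT.lf (nat_lit 0) (nat_lit 4382754637) (nat_lit 608) (nat_lit 10086291085) (nat_lit 76) (nat_lit 3419140164) (nat_lit 110) (nat_lit 5) (nat_lit 118) (nat_lit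 5) (nat_lit 111) (nat_lit 5) (nat_lit 321) (nat_lit 295) (nat_lit 164)) (XT.lf (nat_lit 0) (nat_lit 6093276151) (nat_lit 608) (nat_lit 2403418516) (nat_lit 76) (nat_lit 9708913968) (nat_lit 110) (nat_lit 5) (nat_lit 118) (nat_lit 5) (nat_lit 111) (nat_lit 5) (nat_lit 322) (nat_lit 295) (nat_lit 163))))) (XT.nd (nat_lit 234) (nat_lit 380) (nat_lit 0) (XT.nd (nat_lit 78) (nat_lit 456) (nat_lit 0) (XT.lf (nat_lit 0) (nat_lit 5611013342) (nat_lit 456) (nat_lit 2289590901) (nat_lit 532) (nat_lit 10630605716) (nat_lit 104) (nat_lit 5) (nat_lit 110) (nat_lit 5) (nat_lit 111) (nat_lit 5) (nat_lit 323) (nat_lit 295) (nat_lit 162)) (XT.nd (nat_lit 78) (nat_lit 456) (nat_lit 0) (XT.lf (nat_lit 0) (nat_lit 9817829577) (nat_lit 532) (nat_lit 4998996480) (nat_lit 76) (nat_lit 4048102960) (nat_lit 104) (nat_lit 5) (nat_lit 111) (nat_lit 5) (nat_lit 105) (nat_lit 5) (nat_lit 324) (nat_lit 295) (nat_lit 161))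 (XT.lf (nat_lit 0) (nat_lit 3191087322) (nat_lit 456) (nat_lit 8646789187) (nat_lit 532) (nat_lit 7369443430) (nat_lit 98) (nat_lit 5) (nat_lit 104) (nat_lit 5) (nat_lit 105) (nat_lit 5) (nat_lit 325) (nat_lit 295) (nat_lit 160)))) (XT.nd (nat_lit 78) (nat_lit 380) (nat_lit 0) (XT.lf (nat_lit 0) (nat_lit 11721077325) (nat_lit 456) (nat_lit 2240043166) (nat_lit 532) (nat_lit 5597603095) (nat_lit 98) (nat_lit 5) (nat_lit 104) (nat_lit 5) (nat_lit 105) (nat_lit 5) (nat_lit 326) (nat_lit 295) (nat_lit 159)) (XT.nd (nat_lit 78) (nat_lit 0) (nat_lit 0) (XT.lf (nat_lit 0) (nat_lit 546792817) (nat_lit 380) (nat_lit 15640767164) (nat_lit 456) (nat_lit 3731942737) (nat_lit 93) (nat_lit 5) (nat_lit 98) (nat_lit 5) (nat_lit 99) (nat_lit 5) (nat_lit 327) (nat_lit 295) (nat_lit 158)) (XT.lf (nat_lit 0) (nat_lit 9312615913) (nat_lit 380) (nat_lit 9261768729) (nat_lit 456) (nat_lit 1713930608) (nat_lit 93)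 (nat_lit 5) (nat_lit 98) (nat_lit 5) (nat_lit 99) (nat_lit 5) (nat_lit 328) (nat_lit 295) (nat_lit 157)))))) (XT.nd (nat_lit 468) (nat_lit 760) (nat_lit 0) (XT.nd (nat_lit 234) (nat_lit 760) (nat_lit 0) (XT.nd (nat_lit 78) (nat_lit 456) (nat_lit 0) (XT.lf (nat_lit 0) (nat_lit 350122413) (nat_lit 456) (nat_lit 2338401696) (nat_lit 76) (nat_lit 17979801196) (nat_lit 92) (nat_lit 5) (nat_lit 98) (nat_lit 5) (nat_lit 93) (nat_lit 5) (nat_lit 329) (nat_lit 295) (nat_lit 156)) (XT.nd (nat_lit 78) (nat_lit 0) (nat_lit 0) (XT.lf (nat_lit 0) (nat_lit 2538563256) (nat_lit 532) (nat_lit 14434383422) (nat_lit 76) (nat_lit 4083388735) (nat_lit 86) (nat_lit 5) (nat_lit 93) (nat_lit 5) (nat_lit 87) (nat_lit 5) (nat_lit 330) (nat_lit 295) (nat_lit 155)) (XT.lf (nat_lit 0) (nat_lit 4836080536) (nat_lit 532) (nat_lit 5591103059) (nat_lit 76) (nat_lit 11027515337) (nat_lit 86) (nat_lit 5) (nat_lit 93) (nat_lit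 5) (nat_lit 87) (nat_lit 5) (nat_lit 331) (nat_lit 295) (nat_lit 154)))) (XT.nd (nat_lit 78) (nat_lit 380) (nat_lit 0) (XT.lf (nat_lit 0) (nat_lit 3579535026) (nat_lit 380) (nat_lit 3650559216) (nat_lit 456) (nat_lit 14634107328) (nat_lit 81) (nat_lit 5) (nat_lit 86) (nat_lit 5) (nat_lit 87) (nat_lit 5) (nat_lit 332) (nat_lit 295) (nat_lit 153)) (XT.nd (nat_lit 78) (nat_lit 380) (nat_lit 0) (XT.lf (nat_lit 0) (nat_lit 9778228034) (nat_lit 456) (nat_lit 9184874601) (nat_lit 76) (nat_lit 3320432559) (nat_lit 81) (nat_lit 5) (nat_lit 87) (nat_lit 5) (nat_lit 82) (nat_lit 5) (nat_lit 333) (nat_lit 295) (nat_lit 152)) (XT.lf (nat_lit 0) (nat_lit 146944474) (nat_lit 380) (nat_lit 12286891444) (nat_lit 456) (nat_lit 10280696466) (nat_lit 76) (nat_lit 5) (nat_lit 81) (nat_lit 5) (nat_lit 82) (nat_lit 5) (nat_lit 334) (nat_lit 295) (nat_lit 151))))) (XT.nd (nat_lit 234) (nat_lit 456) (nat_lit 0) (XT.nd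 (nat_lit 78) (nat_lit 304) (nat_lit 0) (XT.lf (nat_lit 0) (nat_lit 9939384547) (nat_lit 380) (nat_lit 5316067025) (nat_lit 456) (nat_lit 7900431774) (nat_lit 76) (nat_lit 5) (nat_lit 81) (nat_lit 5) (nat_lit 82) (nat_lit 5) (nat_lit 335) (nat_lit 295) (nat_lit 150)) (XT.nd (nat_lit 78) (nat_lit 304) (nat_lit 0) (XT.lf (nat_lit 0) (nat_lit 18173398226) (nat_lit 456) (nat_lit 3610375586) (nat_lit 76) (nat_lit 1826364179) (nat_lit 76) (nat_lit 5) (nat_lit 82) (nat_lit 5) (nat_lit 77) (nat_lit 5) (nat_lit 336) (nat_lit 295) (nat_lit 149)) (XT.lf (nat_lit 0) (nat_lit 6347804559) (nat_lit 304) (nat_lit 14938679361) (nat_lit 380) (nat_lit 2788321571) (nat_lit 72) (nat_lit 5) (nat_lit 76) (nat_lit 5) (nat_lit 77) (nat_lit 5) (nat_lit 337) (nat_lit 295) (nat_lit 148)))) (XT.nd (nat_lit 78) (nat_lit 456) (nat_lit 0) (XT.lf (nat_lit 0) (nat_lit 16671450468) (nat_lit 304) (nat_lit 7852022994) (nat_lit 380)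 (nat_lit 29037065) (nat_lit 72) (nat_lit 5) (nat_lit 76) (nat_lit 5) (nat_lit 77) (nat_lit 5) (nat_lit 338) (nat_lit 295) (nat_lit 147)) (XT.nd (nat_lit 78) (nat_lit 0) (nat_lit 0) (XT.lf (nat_lit 0) (nat_lit 2270315652) (nat_lit 380) (nat_lit 503799084) (nat_lit 456) (nat_lit 22269153442) (nat_lit 66) (nat_lit 5) (nat_lit 71) (nat_lit 5) (nat_lit 72) (nat_lit 5) (nat_lit 339) (nat_lit 295) (nat_lit 146)) (XT.lf (nat_lit 0) (nat_lit 5803306118) (nat_lit 456) (nat_lit 12734866596) (nat_lit 76) (nat_lit 7006303119) (nat_lit 66) (nat_lit 5) (nat_lit 72) (nat_lit 5) (nat_lit 67) (nat_lit 5) (nat_lit 340) (nat_lit 295) (nat_lit 145))))))))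
noncomputable def xc201 : XT := (XT.nd (nat_lit 1716) (nat_lit 1368) (nat_lit 0) (XT.nd (nat_lit 858) (nat_lit 988) (nat_lit 0) (XT.nd (nat_lit 390) (nat_lit 608) (nat_lit 0) (XT.nd (nat_lit 156) (nat_lit 304) (nat_lit 0) (XT.nd (nat_lit 78) (nat_lit 304) (nat_lit 0) (XT.lf (nat_lit 0) (nat_lit 8922774525) (nat_lit 456) (nat_lit 2407718292) (nat_lit 76) (nat_lit 14730256278) (nat_lit 66) (nat_lit 5) (nat_lit 72) (nat_lit 5) (nat_lit 67) (nat_lit 5) (nat_lit 341) (nat_lit 295) (nat_lit 144)) (XT.lf (nat_lit 0) (nat_lit 8385999996) (nat_lit 304) (nat_lit 3825014247) (nat_lit 380) (nat_lit 14379251779) (nat_lit 62) (nat_lit 5) (nat_lit 66) (nat_lit 5) (nat_lit 67) (nat_lit 5) (nat_lit 342) (nat_lit 295) (nat_lit 143))) (XT.nd (nat_lit 78) (nat_lit 304) (nat_lit 0) (XT.lf (nat_lit 0) (nat_lit 15654652457) (nat_lit 380) (nat_lit 7626811826) (nat_lit 76) (nat_lit 3852512394) (nat_lit 62) (nat_lit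 5) (nat_lit 67) (nat_lit 5) (nat_lit 63) (nat_lit 5) (nat_lit 343) (nat_lit 295) (nat_lit 142)) (XT.nd (nat_lit 78) (nat_lit 0) (nat_lit 0) (XT.lf (nat_lit 0) (nat_lit 3287473718) (nat_lit 304) (nat_lit 15978408497) (nat_lit 380) (nat_lit 8426198413) (nat_lit 58) (nat_lit 5) (nat_lit 62) (nat_lit 5) (nat_lit 63) (nat_lit 5) (nat_lit 344) (nat_lit 295) (nat_lit 141)) (XT.lf (nat_lit 0) (nat_lit 14678825071) (nat_lit 304) (nat_lit 8378536120) (nat_lit 380) (nat_lit 5207419279) (nat_lit 58) (nat_lit 5) (nat_lit 62) (nat_lit 5) (nat_lit 63) (nat_lit 5) (nat_lit 345) (nat_lit 295) (nat_lit 140))))) (XT.nd (nat_lit 234) (nat_lit 304) (nat_lit 0) (XT.nd (nat_lit 78) (nat_lit 304) (nat_lit 0) (XT.lf (nat_lit 0) (nat_lit 26405407332) (nat_lit 304) (nat_lit 552222332) (nat_lit 380) (nat_lit 1897190138) (nat_lit 58) (nat_lit 5) (nat_lit 62) (nat_lit 5) (nat_lit 63) (nat_lit 5) (nat_lit 346) (nat_lit 295)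 (nat_lit 139)) (XT.nd (nat_lit 78) (nat_lit 0) (nat_lit 0) (XT.lf (nat_lit 0) (nat_lit 1639387427) (nat_lit 304) (nat_lit 20353429067) (nat_lit 76) (nat_lit 7464620388) (nat_lit 54) (nat_lit 5) (nat_lit 58) (nat_lit 5) (nat_lit 55) (nat_lit 5) (nat_lit 347) (nat_lit 295) (nat_lit 138)) (XT.lf (nat_lit 0) (nat_lit 5269575276) (nat_lit 304) (nat_lit 9054146340) (nat_lit 76) (nat_lit 15753087010) (nat_lit 54) (nat_lit 5) (nat_lit 58) (nat_lit 5) (nat_lit 55) (nat_lit 5) (nat_lit 348) (nat_lit 295) (nat_lit 137)))) (XT.nd (nat_lit 78) (nat_lit 0) (nat_lit 0) (XT.lf (nat_lit 0) (nat_lit 2629106897) (nat_lit 304) (nat_lit 6400172210) (nat_lit 380) (nat_lit 21684872855) (nat_lit 50) (nat_lit 5) (nat_lit 54) (nat_lit 5) (nat_lit 55) (nat_lit 5) (nat_lit 349) (nat_lit 295) (nat_lit 136)) (XT.nd (nat_lit 78) (nat_lit 0) (nat_lit 0) (XT.lf (nat_lit 0) (nat_lit 13006434528) (nat_lit 380) (nat_lit 16543627268)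 (nat_lit 76) (nat_lit 1817422483) (nat_lit 50) (nat_lit 5) (nat_lit 55) (nat_lit 5) (nat_lit 51) (nat_lit 5) (nat_lit 350) (nat_lit 295) (nat_lit 135)) (XT.lf (nat_lit 0) (nat_lit 17161804204) (nat_lit 380) (nat_lit 4725528711) (nat_lit 76) (nat_lit 10151324909) (nat_lit 50) (nat_lit 5) (nat_lit 55) (nat_lit 5) (nat_lit 51) (nat_lit 5) (nat_lit 351) (nat_lit 295) (nat_lit 134)))))) (XT.nd (nat_lit 390) (nat_lit 456) (nat_lit 0) (XT.nd (nat_lit 156) (nat_lit 304) (nat_lit 0) (XT.nd (nat_lit 78) (nat_lit 0) (nat_lit 0) (XT.lf (nat_lit 0) (nat_lit 7589191938) (nat_lit 228) (nat_lit 13921256687) (nat_lit 304) (nat_lit 11217467548) (nat_lit 47) (nat_lit 5) (nat_lit 50) (nat_lit 5) (nat_lit 51) (nat_lit 5) (nat_lit 352) (nat_lit 295) (nat_lit 133)) (XT.lf (nat_lit 0) (nat_lit 20364268533) (nat_lit 228) (nat_lit 5668733241) (nat_lit 304) (nat_lit 7403554791) (nat_lit 47) (nat_lit 5) (nat_lit 50) (nat_lit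 5) (nat_lit 51) (nat_lit 5) (nat_lit 353) (nat_lit 295) (nat_lit 132))) (XT.nd (nat_lit 78) (nat_lit 304) (nat_lit 0) (XT.lf (nat_lit 0) (nat_lit 30714287778) (nat_lit 304) (nat_lit 676972679) (nat_lit 76) (nat_lit 2774511571) (nat_lit 47) (nat_lit 5) (nat_lit 51) (nat_lit 5) (nat_lit 48) (nat_lit 5) (nat_lit 354) (nat_lit 295) (nat_lit 131)) (XT.nd (nat_lit 78) (nat_lit 0) (nat_lit 0) (XT.lf (nat_lit 0) (nat_lit 778754388) (nat_lit 304) (nat_lit 22651667307) (nat_lit 76) (nat_lit 11481120190) (nat_lit 43) (nat_lit 5) (nat_lit 47) (nat_lit 5) (nat_lit 44) (nat_lit 5) (nat_lit 355) (nat_lit 295) (nat_lit 130)) (XT.lf (nat_lit 0) (nat_lit 5069409984) (nat_lit 304) (nat_lit 10120772208) (nat_lit 76) (nat_lit 20488397924) (nat_lit 43) (nat_lit 5) (nat_lit 47) (nat_lit 5) (nat_lit 44) (nat_lit 5) (nat_lit 356) (nat_lit 295) (nat_lit 129))))) (XT.nd (nat_lit 234) (nat_lit 228) (nat_lit 0) (XT.nd (nat_lit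 78) (nat_lit 0) (nat_lit 0) (XT.lf (nat_lit 0) (nat_lit 2835797840) (nat_lit 228) (nat_lit 6676341424) (nat_lit 304) (nat_lit 26955796315) (nat_lit 40) (nat_lit 5) (nat_lit 43) (nat_lit 5) (nat_lit 44) (nat_lit 5) (nat_lit 357) (nat_lit 295) (nat_lit 128)) (XT.nd (nat_lit 78) (nat_lit 0) (nat_lit 0) (XT.lf (nat_lit 0) (nat_lit 14207619549) (nat_lit 304) (nat_lit 20916144429) (nat_lit 76) (nat_lit 2153630164) (nat_lit 40) (nat_lit 5) (nat_lit 44) (nat_lit 5) (nat_lit 41) (nat_lit 5) (nat_lit 358) (nat_lit 295) (nat_lit 127)) (XT.lf (nat_lit 0) (nat_lit 19106318007) (nat_lit 304) (nat_lit 7890248820) (nat_lit 76) (nat_lit 11112705343) (nat_lit 40) (nat_lit 5) (nat_lit 44) (nat_lit 5) (nat_lit 41) (nat_lit 5) (nat_lit 359) (nat_lit 295) (nat_lit 126)))) (XT.nd (nat_lit 78) (nat_lit 0) (nat_lit 0) (XT.lf (nat_lit 0) (nat_lit 5630988890) (nat_lit 228) (nat_lit 18571477596) (nat_lit 304) (nat_lit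 14762131519) (nat_lit 37) (nat_lit 5) (nat_lit 40) (nat_lit 5) (nat_lit 41) (nat_lit 5) (nat_lit 360) (nat_lit 295) (nat_lit 125)) (XT.nd (nat_lit 78) (nat_lit 0) (nat_lit 0) (XT.lf (nat_lit 0) (nat_lit 19714342570) (nat_lit 228) (nat_lit 9813248856) (nat_lit 304) (nat_lit 10315715385) (nat_lit 37) (nat_lit 5) (nat_lit 40) (nat_lit 5) (nat_lit 41) (nat_lit 5) (nat_lit 361) (nat_lit 295) (nat_lit 124)) (XT.lf (nat_lit 0) (nat_lit 34215086641) (nat_lit 228) (nat_lit 793903827) (nat_lit 304) (nat_lit 5739496588) (nat_lit 37) (nat_lit 5) (nat_lit 40) (nat_lit 5) (nat_lit 41) (nat_lit 5) (nat_lit 362) (nat_lit 295) (nat_lit 123))))))) (XT.nd (nat_lit 858) (nat_lit 532) (nat_lit 0) (XT.nd (nat_lit 390) (nat_lit 380) (nat_lit 0) (XT.nd (nat_lit 156) (nat_lit 228) (nat_lit 0) (XT.nd (nat_lit 78) (nat_lit 76) (nat_lit 0) (XT.lf (nat_lit 0) (nat_lit 7530250552) (nat_lit 152) (nat_lit 33275241746) (nat_lit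 228) (nat_lit 870816202) (nat_lit 35) (nat_lit 5) (nat_lit 37) (nat_lit 5) (nat_lit 38) (nat_lit 5) (nat_lit 363) (nat_lit 295) (nat_lit 122)) (XT.lf (nat_lit 0) (nat_lit 4134168667) (nat_lit 228) (nat_lit 20533669756) (nat_lit 76) (nat_lit 17960803230) (nat_lit 34) (nat_lit 5) (nat_lit 37) (nat_lit 5) (nat_lit 35) (nat_lit 5) (nat_lit 364) (nat_lit 295) (nat_lit 121))) (XT.nd (nat_lit 78) (nat_lit 228) (nat_lit 0) (XT.lf (nat_lit 0) (nat_lit 9268517805) (nat_lit 228) (nat_lit 6526460184) (nat_lit 76) (nat_lit 27814411775) (nat_lit 34) (nat_lit 5) (nat_lit 37) (nat_lit 5) (nat_lit 35) (nat_lit 5) (nat_lit 365) (nat_lit 295) (nat_lit 120)) (XT.nd (nat_lit 78) (nat_lit 0) (nat_lit 0) (XT.lf (nat_lit 0) (nat_lit 8053330378) (nat_lit 228) (nat_lit 6577793459) (nat_lit 304) (nat_lit 29986214678) (nat_lit 31) (nat_lit 5) (nat_lit 34) (nat_lit 5) (nat_lit 35) (nat_lit 5) (nat_lit 366) (nat_lit 295)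 (nat_lit 119)) (XT.lf (nat_lit 0) (nat_lit 20246039303) (nat_lit 304) (nat_lit 22482751448) (nat_lit 76) (nat_lit 2923996884) (nat_lit 31) (nat_lit 5) (nat_lit 35) (nat_lit 5) (nat_lit 32) (nat_lit 5) (nat_lit 367) (nat_lit 295) (nat_lit 118))))) (XT.nd (nat_lit 234) (nat_lit 228) (nat_lit 0) (XT.nd (nat_lit 78) (nat_lit 152) (nat_lit 0) (XT.lf (nat_lit 0) (nat_lit 26091465605) (nat_lit 304) (nat_lit 8048864841) (nat_lit 76) (nat_lit 12577112587) (nat_lit 31) (nat_lit 5) (nat_lit 35) (nat_lit 5) (nat_lit 32) (nat_lit 5) (nat_lit 368) (nat_lit 295) (nat_lit 117)) (XT.nd (nat_lit 78) (nat_lit 0) (nat_lit 0) (XT.lf (nat_lit 0) (nat_lit 6949095475) (nat_lit 152) (nat_lit 25226984102) (nat_lit 228) (nat_lit 15636048333) (nat_lit 29) (nat_lit 5) (nat_lit 31) (nat_lit 5) (nat_lit 32) (nat_lit 5) (nat_lit 369) (nat_lit 295) (nat_lit 116)) (XT.lf (nat_lit 0) (nat_lit 22557488225) (nat_lit 152) (nat_lit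 15964090788) (nat_lit 228) (nat_lit 10415728344) (nat_lit 29) (nat_lit 5) (nat_lit 31) (nat_lit 5) (nat_lit 32) (nat_lit 5) (nat_lit 370) (nat_lit 295) (nat_lit 115)))) (XT.nd (nat_lit 78) (nat_lit 228) (nat_lit 0) (XT.lf (nat_lit 0) (nat_lit 38629763617) (nat_lit 152) (nat_lit 6424834466) (nat_lit 228) (nat_lit 5041733769) (nat_lit 29) (nat_lit 5) (nat_lit 31) (nat_lit 5) (nat_lit 32) (nat_lit 5) (nat_lit 371) (nat_lit 295) (nat_lit 114)) (XT.nd (nat_lit 78) (nat_lit 0) (nat_lit 0) (XT.lf (nat_lit 0) (nat_lit 552243946) (nat_lit 228) (nat_lit 47359673403) (nat_lit 76) (nat_lit 3376019693) (nat_lit 26) (nat_lit 5) (nat_lit 29) (nat_lit 5) (nat_lit 27) (nat_lit 5) (nat_lit 372) (nat_lit 295) (nat_lit 113)) (XT.lf (nat_lit 0) (nat_lit 6390487682) (nat_lit 228) (nat_lit 32610831070) (nat_lit 76) (nat_lit 13507144615) (nat_lit 26) (nat_lit 5) (nat_lit 29) (nat_lit 5) (nat_lit 27) (nat_lit 5) (nat_lit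 373) (nat_lit 295) (nat_lit 112)))))) (XT.nd (nat_lit 468) (nat_lit 228) (nat_lit 0) (XT.nd (nat_lit 234) (nat_lit 152) (nat_lit 0) (XT.nd (nat_lit 78) (nat_lit 152) (nat_lit 0) (XT.lf (nat_lit 0) (nat_lit 12401191385) (nat_lit 228) (nat_lit 17423728749) (nat_lit 76) (nat_lit 23940769791) (nat_lit 26) (nat_lit 5) (nat_lit 29) (nat_lit 5) (nat_lit 27) (nat_lit 5) (nat_lit 374) (nat_lit 295) (nat_lit 111)) (XT.nd (nat_lit 78) (nat_lit 152) (nat_lit 0) (XT.lf (nat_lit 0) (nat_lit 18589607125) (nat_lit 228) (nat_lit 1785096158) (nat_lit 76) (nat_lit 34686011982) (nat_lit 26) (nat_lit 5) (nat_lit 29) (nat_lit 5) (nat_lit 27) (nat_lit 5) (nat_lit 375) (nat_lit 295) (nat_lit 110)) (XT.lf (nat_lit 0) (nat_lit 14603702360) (nat_lit 152) (nat_lit 10497819618) (nat_lit 228) (nat_lit 31288937594) (nat_lit 24) (nat_lit 5) (nat_lit 26) (nat_lit 5) (nat_lit 27) (nat_lit 5) (nat_lit 376) (nat_lit 295) (nat_lit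 109)))) (XT.nd (nat_lit 78) (nat_lit 152) (nat_lit 0) (XT.lf (nat_lit 0) (nat_lit 31516832534) (nat_lit 152) (nat_lit 307490681) (nat_lit 228) (nat_lit 25935310623) (nat_lit 24) (nat_lit 5) (nat_lit 26) (nat_lit 5) (nat_lit 27) (nat_lit 5) (nat_lit 377) (nat_lit 295) (nat_lit 108)) (XT.nd (nat_lit 78) (nat_lit 152) (nat_lit 0) (XT.lf (nat_lit 0) (nat_lit 38844309418) (nat_lit 228) (nat_lit 10334338777) (nat_lit 76) (nat_lit 9988373508) (nat_lit 24) (nat_lit 5) (nat_lit 27) (nat_lit 5) (nat_lit 25) (nat_lit 5) (nat_lit 378) (nat_lit 295) (nat_lit 107)) (XT.lf (nat_lit 0) (nat_lit 6164871328) (nat_lit 152) (nat_lit 39969962224) (nat_lit 228) (nat_lit 14480002799) (nat_lit 22) (nat_lit 5) (nat_lit 24) (nat_lit 5) (nat_lit 25) (nat_lit 5) (nat_lit 379) (nat_lit 295) (nat_lit 106))))) (XT.nd (nat_lit 234) (nat_lit 152) (nat_lit 0) (XT.nd (nat_lit 78) (nat_lit 76) (nat_lit 0) (XT.lf (nat_lit 0) (nat_lit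 23367177740) (nat_lit 152) (nat_lit 30378918734) (nat_lit 228) (nat_lit 8356931476) (nat_lit 22) (nat_lit 5) (nat_lit 24) (nat_lit 5) (nat_lit 25) (nat_lit 5) (nat_lit 380) (nat_lit 295) (nat_lit 105)) (XT.nd (nat_lit 78) (nat_lit 76) (nat_lit 0) (XT.lf (nat_lit 0) (nat_lit 41081937995) (nat_lit 152) (nat_lit 20501493760) (nat_lit 228) (nat_lit 2052504618) (nat_lit 22) (nat_lit 5) (nat_lit 24) (nat_lit 5) (nat_lit 25) (nat_lit 5) (nat_lit 381) (nat_lit 295) (nat_lit 104)) (XT.lf (nat_lit 0) (nat_lit 4352169784) (nat_lit 228) (nat_lit 5932938377) (nat_lit 76) (nat_lit 54928512843) (nat_lit 21) (nat_lit 5) (nat_lit 24) (nat_lit 5) (nat_lit 22) (nat_lit 5) (nat_lit 382) (nat_lit 295) (nat_lit 103)))) (XT.nd (nat_lit 78) (nat_lit 0) (nat_lit 0) (XT.lf (nat_lit 0) (nat_lit 11018570495) (nat_lit 228) (nat_lit 55453225733) (nat_lit 76) (nat_lit 362907955) (nat_lit 19) (nat_lit 5) (nat_lit 22) (nat_lit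 5) (nat_lit 20) (nat_lit 5) (nat_lit 383) (nat_lit 295) (nat_lit 102)) (XT.nd (nat_lit 33774) (nat_lit 0) (nat_lit 10336) (XT.lf (nat_lit 0) (nat_lit 18045158330) (nat_lit 228) (nat_lit 39271575277) (nat_lit 76) (nat_lit 11182883158) (nat_lit 19) (nat_lit 5) (nat_lit 22) (nat_lit 5) (nat_lit 20) (nat_lit 5) (nat_lit 384) (nat_lit 295) (nat_lit 101)) (XT.lf (nat_lit 0) (nat_lit 2102049818) (nat_lit 0) (nat_lit 2102049818) (nat_lit 988) (nat_lit 1916467571) (nat_lit 155) (nat_lit 5) (nat_lit 155) (nat_lit 3) (nat_lit 168) (nat_lit 3) (nat_lit 296) (nat_lit 296) (nat_lit 188))))))))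
noncomputable def xc202 : XT := (XT.nd (nat_lit 1716) (nat_lit 4484) (nat_lit 0) (XT.nd (nat_lit 858) (nat_lit 1368) (nat_lit 0) (XT.nd (nat_lit 390) (nat_lit 912) (nat_lit 0) (XT.nd (nat_lit 156) (nat_lit 0) (nat_lit 0) (XT.nd (nat_lit 78) (nat_lit 0) (nat_lit 0) (XT.lf (nat_lit 0) (nat_lit 8944665019) (nat_lit 988) (nat_lit 3031157440) (nat_lit 1064) (nat_lit 435479328) (nat_lit 155) (nat_lit 5) (nat_lit 168) (nat_lit 3) (nat_lit 169) (nat_lit 5) (nat_lit 297) (nat_lit 296) (nat_lit 187)) (XT.lf (nat_lit 76) (nat_lit 2116043064) (nat_lit 0) (nat_lit 7427375381) (nat_lit 1064) (nat_lit 3041814388) (nat_lit 156) (nat_lit 5) (nat_lit 155) (nat_lit 5) (nat_lit 169) (nat_lit 5) (nat_lit 298) (nat_lit 296) (nat_lit 186))) (XT.nd (nat_lit 78) (nat_lit 0) (nat_lit 76) (XT.lf (nat_lit 76) (nat_lit 7471358844) (nat_lit 0) (nat_lit 2703990916) (nat_lit 1064) (nat_lit 2588618765) (nat_lit 156) (nat_lit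 5) (nat_lit 155) (nat_lit 5) (nat_lit 169) (nat_lit 5) (nat_lit 299) (nat_lit 296) (nat_lit 185)) (XT.nd (nat_lit 78) (nat_lit 0) (nat_lit 0) (XT.lf (nat_lit 76) (nat_lit 9942080) (nat_lit 0) (nat_lit 10822286087) (nat_lit 1064) (nat_lit 2115700357) (nat_lit 157) (nat_lit 5) (nat_lit 156) (nat_lit 5) (nat_lit 170) (nat_lit 5) (nat_lit 300) (nat_lit 296) (nat_lit 184)) (XT.lf (nat_lit 76) (nat_lit 5544098475) (nat_lit 0) (nat_lit 6030139120) (nat_lit 1064) (nat_lit 1561247683) (nat_lit 157) (nat_lit 5) (nat_lit 156) (nat_lit 5) (nat_lit 170) (nat_lit 5) (nat_lit 301) (nat_lit 296) (nat_lit 183))))) (XT.nd (nat_lit 234) (nat_lit 0) (nat_lit 76) (XT.nd (nat_lit 78) (nat_lit 988) (nat_lit 0) (XT.lf (nat_lit 76) (nat_lit 11235871579) (nat_lit 0) (nat_lit 1088528904) (nat_lit 1064) (nat_lit 1004730962) (nat_lit 157) (nat_lit 5) (nat_lit 156) (nat_lit 5) (nat_lit 170) (nat_lit 5) (nat_lit 302) (nat_lit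 296) (nat_lit 182)) (XT.nd (nat_lit 78) (nat_lit 1064) (nat_lit 0) (XT.lf (nat_lit 76) (nat_lit 3592790418) (nat_lit 0) (nat_lit 9563634408) (nat_lit 1064) (nat_lit 370419831) (nat_lit 158) (nat_lit 5) (nat_lit 157) (nat_lit 5) (nat_lit 171) (nat_lit 5) (nat_lit 303) (nat_lit 296) (nat_lit 181)) (XT.lf (nat_lit 0) (nat_lit 296028100) (nat_lit 1064) (nat_lit 4260114864) (nat_lit 1140) (nat_lit 9173742021) (nat_lit 143) (nat_lit 5) (nat_lit 157) (nat_lit 5) (nat_lit 158) (nat_lit 5) (nat_lit 304) (nat_lit 296) (nat_lit 180)))) (XT.nd (nat_lit 78) (nat_lit 0) (nat_lit 0) (XT.lf (nat_lit 0) (nat_lit 983345049) (nat_lit 1064) (nat_lit 12341857490) (nat_lit 1140) (nat_lit 613489441) (nat_lit 144) (nat_lit 5) (nat_lit 158) (nat_lit 5) (nat_lit 159) (nat_lit 5) (nat_lit 305) (nat_lit 296) (nat_lit 179)) (XT.nd (nat_lit 78) (nat_lit 0) (nat_lit 0) (XT.lf (nat_lit 0) (nat_lit 1767073820) (nat_lit 1064)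 (nat_lit 6490189473) (nat_lit 1140) (nat_lit 5894260202) (nat_lit 144) (nat_lit 5) (nat_lit 158) (nat_lit 5) (nat_lit 159) (nat_lit 5) (nat_lit 306) (nat_lit 296) (nat_lit 178)) (XT.lf (nat_lit 0) (nat_lit 2561923435) (nat_lit 1064) (nat_lit 471710351) (nat_lit 1140) (nat_lit 11337510986) (nat_lit 144) (nat_lit 5) (nat_lit 158) (nat_lit 5) (nat_lit 159) (nat_lit 5) (nat_lit 307) (nat_lit 296) (nat_lit 177)))))) (XT.nd (nat_lit 390) (nat_lit 1520) (nat_lit 0) (XT.nd (nat_lit 156) (nat_lit 0) (nat_lit 0) (XT.nd (nat_lit 78) (nat_lit 0) (nat_lit 0) (XT.lf (nat_lit 0) (nat_lit 3447802634) (nat_lit 1064) (nat_lit 8786558021) (nat_lit 1140) (nat_lit 2361010634) (nat_lit 145) (nat_lit 5) (nat_lit 159) (nat_lit 5) (nat_lit 160) (nat_lit 5) (nat_lit 308) (nat_lit 296) (nat_lit 176)) (XT.lf (nat_lit 0) (nat_lit 4383376509) (nat_lit 1064) (nat_lit 2577660159) (nat_lit 1140) (nat_lit 7864625571) (nat_lit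 145) (nat_lit 5) (nat_lit 159) (nat_lit 5) (nat_lit 160) (nat_lit 5) (nat_lit 309) (nat_lit 296) (nat_lit 175))) (XT.nd (nat_lit 78) (nat_lit 0) (nat_lit 76) (XT.lf (nat_lit 76) (nat_lit 3884749396) (nat_lit 0) (nat_lit 1488224200) (nat_lit 1140) (nat_lit 9689139921) (nat_lit 146) (nat_lit 5) (nat_lit 145) (nat_lit 5) (nat_lit 160) (nat_lit 5) (nat_lit 310) (nat_lit 296) (nat_lit 174)) (XT.nd (nat_lit 78) (nat_lit 0) (nat_lit 0) (XT.lf (nat_lit 0) (nat_lit 6447315305) (nat_lit 1064) (nat_lit 4760010789) (nat_lit 1140) (nat_lit 4096709935) (nat_lit 146) (nat_lit 5) (nat_lit 160) (nat_lit 5) (nat_lit 161) (nat_lit 5) (nat_lit 311) (nat_lit 296) (nat_lit 173)) (XT.lf (nat_lit 76) (nat_lit 1862871997) (nat_lit 0) (nat_lit 5712869983) (nat_lit 1140) (nat_lit 7976847137) (nat_lit 147) (nat_lit 5) (nat_lit 146) (nat_lit 5) (nat_lit 161) (nat_lit 5) (nat_lit 312) (nat_lit 296) (nat_lit 172))))) (XT.nd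 (nat_lit 234) (nat_lit 608) (nat_lit 0) (XT.nd (nat_lit 78) (nat_lit 988) (nat_lit 0) (XT.lf (nat_lit 76) (nat_lit 8773493616) (nat_lit 0) (nat_lit 2039633) (nat_lit 1140) (nat_lit 7031967905) (nat_lit 147) (nat_lit 5) (nat_lit 146) (nat_lit 5) (nat_lit 161) (nat_lit 5) (nat_lit 313) (nat_lit 296) (nat_lit 171)) (XT.nd (nat_lit 78) (nat_lit 1064) (nat_lit 0) (XT.lf (nat_lit 0) (nat_lit 10057612930) (nat_lit 1064) (nat_lit 243778187) (nat_lit 76) (nat_lit 5767307497) (nat_lit 147) (nat_lit 5) (nat_lit 161) (nat_lit 5) (nat_lit 148) (nat_lit 5) (nat_lit 314) (nat_lit 296) (nat_lit 170)) (XT.lf (nat_lit 0) (nat_lit 6875935170) (nat_lit 1064) (nat_lit 4558405047) (nat_lit 1140) (nat_lit 4901732343) (nat_lit 133) (nat_lit 5) (nat_lit 147) (nat_lit 5) (nat_lit 148) (nat_lit 5) (nat_lit 315) (nat_lit 296) (nat_lit 169)))) (XT.nd (nat_lit 78) (nat_lit 608) (nat_lit 0) (XT.lf (nat_lit 0) (nat_lit 12858190995)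 (nat_lit 1140) (nat_lit 2418849694) (nat_lit 76) (nat_lit 1334277745) (nat_lit 133) (nat_lit 5) (nat_lit 148) (nat_lit 5) (nat_lit 134) (nat_lit 5) (nat_lit 316) (nat_lit 296) (nat_lit 168)) (XT.nd (nat_lit 78) (nat_lit 0) (nat_lit 0) (XT.lf (nat_lit 0) (nat_lit 4875304368) (nat_lit 608) (nat_lit 9532025345) (nat_lit 684) (nat_lit 2485039419) (nat_lit 125) (nat_lit 5) (nat_lit 133) (nat_lit 5) (nat_lit 134) (nat_lit 5) (nat_lit 317) (nat_lit 296) (nat_lit 167)) (XT.lf (nat_lit 0) (nat_lit 12429574911) (nat_lit 608) (nat_lit 3588563404) (nat_lit 684) (nat_lit 1163281065) (nat_lit 125) (nat_lit 5) (nat_lit 133) (nat_lit 5) (nat_lit 134) (nat_lit 5) (nat_lit 318) (nat_lit 296) (nat_lit 166))))))) (XT.nd (nat_lit 858) (nat_lit 2052) (nat_lit 0) (XT.nd (nat_lit 390) (nat_lit 1292) (nat_lit 0) (XT.nd (nat_lit 156) (nat_lit 532) (nat_lit 0) (XT.nd (nat_lit 78) (nat_lit 0) (nat_lit 0) (XT.lf (nat_lit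 0) (nat_lit 236510983) (nat_lit 608) (nat_lit 14727889096) (nat_lit 76) (nat_lit 2513439036) (nat_lit 117) (nat_lit 5) (nat_lit 125) (nat_lit 5) (nat_lit 118) (nat_lit 5) (nat_lit 319) (nat_lit 296) (nat_lit 165)) (XT.lf (nat_lit 0) (nat_lit 1730025719) (nat_lit 608) (nat_lit 7263496660) (nat_lit 76) (nat_lit 8787052116) (nat_lit 117) (nat_lit 5) (nat_lit 125) (nat_lit 5) (nat_lit 118) (nat_lit 5) (nat_lit 320) (nat_lit 296) (nat_lit 164))) (XT.nd (nat_lit 78) (nat_lit 0) (nat_lit 0) (XT.lf (nat_lit 0) (nat_lit 424897285) (nat_lit 532) (nat_lit 2838911616) (nat_lit 608) (nat_lit 14828740384) (nat_lit 110) (nat_lit 5) (nat_lit 117) (nat_lit 5) (nat_lit 118) (nat_lit 5) (nat_lit 321) (nat_lit 296) (nat_lit 163)) (XT.nd (nat_lit 78) (nat_lit 0) (nat_lit 0) (XT.lf (nat_lit 0) (nat_lit 4942880686) (nat_lit 608) (nat_lit 9961636859) (nat_lit 76) (nat_lit 3506408139) (nat_lit 110) (nat_lit 5) (nat_lit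 118) (nat_lit 5) (nat_lit 111) (nat_lit 5) (nat_lit 322) (nat_lit 296) (nat_lit 162)) (XT.lf (nat_lit 0) (nat_lit 6692233086) (nat_lit 608) (nat_lit 2060722083) (nat_lit 76) (nat_lit 9985320970) (nat_lit 110) (nat_lit 5) (nat_lit 118) (nat_lit 5) (nat_lit 111) (nat_lit 5) (nat_lit 323) (nat_lit 296) (nat_lit 161))))) (XT.nd (nat_lit 234) (nat_lit 380) (nat_lit 0) (XT.nd (nat_lit 78) (nat_lit 456) (nat_lit 0) (XT.lf (nat_lit 0) (nat_lit 6190076074) (nat_lit 456) (nat_lit 2355532031) (nat_lit 532) (nat_lit 10528312176) (nat_lit 104) (nat_lit 5) (nat_lit 110) (nat_lit 5) (nat_lit 111) (nat_lit 5) (nat_lit 324) (nat_lit 296) (nat_lit 160)) (XT.nd (nat_lit 78) (nat_lit 456) (nat_lit 0) (XT.lf (nat_lit 0) (nat_lit 10508492753) (nat_lit 532) (nat_lit 4737382000) (nat_lit 76) (nat_lit 4172160613) (nat_lit 104) (nat_lit 5) (nat_lit 111) (nat_lit 5) (nat_lit 105) (nat_lit 5) (nat_lit 325) (nat_lit 296)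 (nat_lit 159)) (XT.lf (nat_lit 0) (nat_lit 3694369175) (nat_lit 456) (nat_lit 8887151812) (nat_lit 532) (nat_lit 7189433523) (nat_lit 98) (nat_lit 5) (nat_lit 104) (nat_lit 5) (nat_lit 105) (nat_lit 5) (nat_lit 326) (nat_lit 296) (nat_lit 158)))) (XT.nd (nat_lit 78) (nat_lit 380) (nat_lit 0) (XT.lf (nat_lit 0) (nat_lit 12468388512) (nat_lit 456) (nat_lit 2288758005) (nat_lit 532) (nat_lit 5376120305) (nat_lit 98) (nat_lit 5) (nat_lit 104) (nat_lit 5) (nat_lit 105) (nat_lit 5) (nat_lit 327) (nat_lit 296) (nat_lit 157)) (XT.nd (nat_lit 78) (nat_lit 0) (nat_lit 0) (XT.lf (nat_lit 0) (nat_lit 966918987) (nat_lit 380) (nat_lit 16076527372) (nat_lit 456) (nat_lit 3461657246) (nat_lit 93) (nat_lit 5) (nat_lit 98) (nat_lit 5) (nat_lit 99) (nat_lit 5) (nat_lit 328) (nat_lit 296) (nat_lit 156)) (XT.lf (nat_lit 0) (nat_lit 9983957871) (nat_lit 380) (nat_lit 9507133629) (nat_lit 456) (nat_lit 1394238067)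 (nat_lit 93) (nat_lit 5) (nat_lit 98) (nat_lit 5) (nat_lit 99) (nat_lit 5) (nat_lit 329) (nat_lit 296) (nat_lit 155)))))) (XT.nd (nat_lit 468) (nat_lit 760) (nat_lit 0) (XT.nd (nat_lit 234) (nat_lit 760) (nat_lit 0) (XT.nd (nat_lit 78) (nat_lit 456) (nat_lit 0) (XT.lf (nat_lit 0) (nat_lit 713896723) (nat_lit 456) (nat_lit 2020173862) (nat_lit 76) (nat_lit 18542904322) (nat_lit 92) (nat_lit 5) (nat_lit 98) (nat_lit 5) (nat_lit 93) (nat_lit 5) (nat_lit 330) (nat_lit 296) (nat_lit 154)) (XT.nd (nat_lit 78) (nat_lit 0) (nat_lit 0) (XT.lf (nat_lit 0) (nat_lit 2961762362) (nat_lit 532) (nat_lit 14472027935) (nat_lit 76) (nat_lit 4243045236) (nat_lit 86) (nat_lit 5) (nat_lit 93) (nat_lit 5) (nat_lit 87) (nat_lit 5) (nat_lit 331) (nat_lit 296) (nat_lit 153)) (XT.lf (nat_lit 0) (nat_lit 5318097135) (nat_lit 532) (nat_lit 5374965287) (nat_lit 76) (nat_lit 11394413455) (nat_lit 86) (nat_lit 5) (nat_lit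 93) (nat_lit 5) (nat_lit 87) (nat_lit 5) (nat_lit 332) (nat_lit 296) (nat_lit 152)))) (XT.nd (nat_lit 78) (nat_lit 380) (nat_lit 0) (XT.lf (nat_lit 0) (nat_lit 4067028501) (nat_lit 380) (nat_lit 3710742960) (nat_lit 456) (nat_lit 14731698947) (nat_lit 81) (nat_lit 5) (nat_lit 86) (nat_lit 5) (nat_lit 87) (nat_lit 5) (nat_lit 333) (nat_lit 296) (nat_lit 151)) (XT.nd (nat_lit 78) (nat_lit 380) (nat_lit 0) (XT.lf (nat_lit 0) (nat_lit 10393175468) (nat_lit 456) (nat_lit 9081498107) (nat_lit 76) (nat_lit 3467007057) (nat_lit 81) (nat_lit 5) (nat_lit 87) (nat_lit 5) (nat_lit 82) (nat_lit 5) (nat_lit 334) (nat_lit 296) (nat_lit 150)) (XT.lf (nat_lit 0) (nat_lit 526560612) (nat_lit 380) (nat_lit 12596130696) (nat_lit 456) (nat_lit 10263109994) (nat_lit 76) (nat_lit 5) (nat_lit 81) (nat_lit 5) (nat_lit 82) (nat_lit 5) (nat_lit 335) (nat_lit 296) (nat_lit 149))))) (XT.nd (nat_lit 234) (nat_lit 456) (nat_lit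 0) (XT.nd (nat_lit 78) (nat_lit 304) (nat_lit 0) (XT.lf (nat_lit 0) (nat_lit 10601845504) (nat_lit 380) (nat_lit 5417910695) (nat_lit 456) (nat_lit 7820932721) (nat_lit 76) (nat_lit 5) (nat_lit 81) (nat_lit 5) (nat_lit 82) (nat_lit 5) (nat_lit 336) (nat_lit 296) (nat_lit 148)) (XT.nd (nat_lit 78) (nat_lit 304) (nat_lit 0) (XT.lf (nat_lit 0) (nat_lit 19016847876) (nat_lit 456) (nat_lit 3355972008) (nat_lit 76) (nat_lit 1936022686) (nat_lit 76) (nat_lit 5) (nat_lit 82) (nat_lit 5) (nat_lit 77) (nat_lit 5) (nat_lit 337) (nat_lit 296) (nat_lit 147)) (XT.lf (nat_lit 0) (nat_lit 6897397514) (nat_lit 304) (nat_lit 15320694256) (nat_lit 380) (nat_lit 2569534351) (nat_lit 72) (nat_lit 5) (nat_lit 76) (nat_lit 5) (nat_lit 77) (nat_lit 5) (nat_lit 338) (nat_lit 296) (nat_lit 146)))) (XT.nd (nat_lit 78) (nat_lit 380) (nat_lit 0) (XT.lf (nat_lit 0) (nat_lit 258573724) (nat_lit 380) (nat_lit 7762179952) (nat_lit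 76) (nat_lit 17259107051) (nat_lit 71) (nat_lit 5) (nat_lit 76) (nat_lit 5) (nat_lit 72) (nat_lit 5) (nat_lit 339) (nat_lit 296) (nat_lit 145)) (XT.nd (nat_lit 78) (nat_lit 0) (nat_lit 0) (XT.lf (nat_lit 0) (nat_lit 2689968903) (nat_lit 380) (nat_lit 450261427) (nat_lit 456) (nat_lit 22645269720) (nat_lit 66) (nat_lit 5) (nat_lit 71) (nat_lit 5) (nat_lit 72) (nat_lit 5) (nat_lit 340) (nat_lit 296) (nat_lit 144)) (XT.lf (nat_lit 0) (nat_lit 6252698578) (nat_lit 456) (nat_lit 12767446542) (nat_lit 76) (nat_lit 7281843658) (nat_lit 66) (nat_lit 5) (nat_lit 72) (nat_lit 5) (nat_lit 67) (nat_lit 5) (nat_lit 341) (nat_lit 296) (nat_lit 143))))))))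
noncomputable def xc203 : XT := (XT.nd (nat_lit 1794) (nat_lit 1216) (nat_lit 0) (XT.nd (nat_lit 858) (nat_lit 1140) (nat_lit 0) (XT.nd (nat_lit 390) (nat_lit 608) (nat_lit 0) (XT.nd (nat_lit 156) (nat_lit 304) (nat_lit 0) (XT.nd (nat_lit 78) (nat_lit 304) (nat_lit 0) (XT.lf (nat_lit 0) (nat_lit 9457732786) (nat_lit 456) (nat_lit 2140662412) (nat_lit 76) (nat_lit 15235611971) (nat_lit 66) (nat_lit 5) (nat_lit 72) (nat_lit 5) (nat_lit 67) (nat_lit 5) (nat_lit 342) (nat_lit 296) (nat_lit 142)) (XT.lf (nat_lit 0) (nat_lit 8973541077) (nat_lit 304) (nat_lit 3866523372) (nat_lit 380) (nat_lit 14539497719) (nat_lit 62) (nat_lit 5) (nat_lit 66) (nat_lit 5) (nat_lit 67) (nat_lit 5) (nat_lit 343) (nat_lit 296) (nat_lit 141))) (XT.nd (nat_lit 78) (nat_lit 304) (nat_lit 0) (XT.lf (nat_lit 0) (nat_lit 16380043312) (nat_lit 380) (nat_lit 7521957078) (nat_lit 76) (nat_lit 4037808252) (nat_lit 62) (nat_lit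 5) (nat_lit 67) (nat_lit 5) (nat_lit 63) (nat_lit 5) (nat_lit 344) (nat_lit 296) (nat_lit 140)) (XT.nd (nat_lit 78) (nat_lit 0) (nat_lit 0) (XT.lf (nat_lit 0) (nat_lit 3716485864) (nat_lit 304) (nat_lit 16378850923) (nat_lit 380) (nat_lit 8419462114) (nat_lit 58) (nat_lit 5) (nat_lit 62) (nat_lit 5) (nat_lit 63) (nat_lit 5) (nat_lit 345) (nat_lit 296) (nat_lit 139)) (XT.lf (nat_lit 0) (nat_lit 15439954809) (nat_lit 304) (nat_lit 8553280719) (nat_lit 380) (nat_lit 5111678506) (nat_lit 58) (nat_lit 5) (nat_lit 62) (nat_lit 5) (nat_lit 63) (nat_lit 5) (nat_lit 346) (nat_lit 296) (nat_lit 138))))) (XT.nd (nat_lit 234) (nat_lit 304) (nat_lit 0) (XT.nd (nat_lit 78) (nat_lit 304) (nat_lit 0) (XT.lf (nat_lit 0) (nat_lit 27508991868) (nat_lit 304) (nat_lit 494408920) (nat_lit 380) (nat_lit 1709481229) (nat_lit 58) (nat_lit 5) (nat_lit 62) (nat_lit 5) (nat_lit 63) (nat_lit 5) (nat_lit 347) (nat_lit 296)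 (nat_lit 137)) (XT.nd (nat_lit 78) (nat_lit 0) (nat_lit 0) (XT.lf (nat_lit 0) (nat_lit 1925194831) (nat_lit 304) (nat_lit 20643709332) (nat_lit 76) (nat_lit 7764712983) (nat_lit 54) (nat_lit 5) (nat_lit 58) (nat_lit 5) (nat_lit 55) (nat_lit 5) (nat_lit 348) (nat_lit 296) (nat_lit 136)) (XT.lf (nat_lit 0) (nat_lit 5657396303) (nat_lit 304) (nat_lit 9014777909) (nat_lit 76) (nat_lit 16299615526) (nat_lit 54) (nat_lit 5) (nat_lit 58) (nat_lit 5) (nat_lit 55) (nat_lit 5) (nat_lit 349) (nat_lit 296) (nat_lit 135)))) (XT.nd (nat_lit 78) (nat_lit 0) (nat_lit 0) (XT.lf (nat_lit 0) (nat_lit 3015923976) (nat_lit 304) (nat_lit 6510236142) (nat_lit 380) (nat_lit 22102217746) (nat_lit 50) (nat_lit 5) (nat_lit 54) (nat_lit 5) (nat_lit 55) (nat_lit 5) (nat_lit 350) (nat_lit 296) (nat_lit 134)) (XT.nd (nat_lit 78) (nat_lit 0) (nat_lit 0) (XT.lf (nat_lit 0) (nat_lit 13616812329) (nat_lit 380) (nat_lit 16734737193)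 (nat_lit 76) (nat_lit 1949947357) (nat_lit 50) (nat_lit 5) (nat_lit 55) (nat_lit 5) (nat_lit 51) (nat_lit 5) (nat_lit 351) (nat_lit 296) (nat_lit 133)) (XT.lf (nat_lit 0) (nat_lit 17890429946) (nat_lit 380) (nat_lit 4570984968) (nat_lit 76) (nat_lit 10531594947) (nat_lit 50) (nat_lit 5) (nat_lit 55) (nat_lit 5) (nat_lit 51) (nat_lit 5) (nat_lit 352) (nat_lit 296) (nat_lit 132)))))) (XT.nd (nat_lit 468) (nat_lit 380) (nat_lit 0) (XT.nd (nat_lit 234) (nat_lit 532) (nat_lit 0) (XT.nd (nat_lit 78) (nat_lit 0) (nat_lit 0) (XT.lf (nat_lit 0) (nat_lit 8110272304) (nat_lit 228) (nat_lit 14255855422) (nat_lit 304) (nat_lit 11336931905) (nat_lit 47) (nat_lit 5) (nat_lit 50) (nat_lit 5) (nat_lit 51) (nat_lit 5) (nat_lit 353) (nat_lit 296) (nat_lit 131)) (XT.nd (nat_lit 78) (nat_lit 0) (nat_lit 0) (XT.lf (nat_lit 0) (nat_lit 21260055432) (nat_lit 228) (nat_lit 5758174883) (nat_lit 304) (nat_lit 7414923891)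 (nat_lit 47) (nat_lit 5) (nat_lit 50) (nat_lit 5) (nat_lit 51) (nat_lit 5) (nat_lit 354) (nat_lit 296) (nat_lit 130)) (XT.lf (nat_lit 0) (nat_lit 31834758606) (nat_lit 304) (nat_lit 415162513) (nat_lit 76) (nat_lit 2934491735) (nat_lit 47) (nat_lit 5) (nat_lit 51) (nat_lit 5) (nat_lit 48) (nat_lit 5) (nat_lit 355) (nat_lit 296) (nat_lit 129)))) (XT.nd (nat_lit 78) (nat_lit 228) (nat_lit 0) (XT.lf (nat_lit 0) (nat_lit 1000330799) (nat_lit 304) (nat_lit 23047578672) (nat_lit 76) (nat_lit 11904691916) (nat_lit 43) (nat_lit 5) (nat_lit 47) (nat_lit 5) (nat_lit 44) (nat_lit 5) (nat_lit 356) (nat_lit 296) (nat_lit 128)) (XT.nd (nat_lit 78) (nat_lit 228) (nat_lit 0) (XT.lf (nat_lit 0) (nat_lit 5413932846) (nat_lit 304) (nat_lit 10149018041) (nat_lit 76) (nat_lit 21179882988) (nat_lit 43) (nat_lit 5) (nat_lit 47) (nat_lit 5) (nat_lit 44) (nat_lit 5) (nat_lit 357) (nat_lit 296) (nat_lit 127)) (XT.lf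 (nat_lit 0) (nat_lit 3193549331) (nat_lit 228) (nat_lit 6793410752) (nat_lit 304) (nat_lit 27569009060) (nat_lit 40) (nat_lit 5) (nat_lit 43) (nat_lit 5) (nat_lit 44) (nat_lit 5) (nat_lit 358) (nat_lit 296) (nat_lit 126))))) (XT.nd (nat_lit 234) (nat_lit 152) (nat_lit 0) (XT.nd (nat_lit 78) (nat_lit 228) (nat_lit 0) (XT.lf (nat_lit 0) (nat_lit 14818563293) (nat_lit 304) (nat_lit 21273840326) (nat_lit 76) (nat_lit 2297459433) (nat_lit 40) (nat_lit 5) (nat_lit 44) (nat_lit 5) (nat_lit 41) (nat_lit 5) (nat_lit 359) (nat_lit 296) (nat_lit 125)) (XT.nd (nat_lit 78) (nat_lit 228) (nat_lit 0) (XT.lf (nat_lit 0) (nat_lit 19858842651) (nat_lit 304) (nat_lit 7865025764) (nat_lit 76) (nat_lit 11522999479) (nat_lit 40) (nat_lit 5) (nat_lit 44) (nat_lit 5) (nat_lit 41) (nat_lit 5) (nat_lit 360) (nat_lit 296) (nat_lit 124)) (XT.lf (nat_lit 0) (nat_lit 6059281131) (nat_lit 228) (nat_lit 19045864253) (nat_lit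 304) (nat_lit 15022798833) (nat_lit 37) (nat_lit 5) (nat_lit 40) (nat_lit 5) (nat_lit 41) (nat_lit 5) (nat_lit 361) (nat_lit 296) (nat_lit 123)))) (XT.nd (nat_lit 78) (nat_lit 152) (nat_lit 0) (XT.lf (nat_lit 0) (nat_lit 20557581172) (nat_lit 228) (nat_lit 10027299067) (nat_lit 304) (nat_lit 10448296913) (nat_lit 37) (nat_lit 5) (nat_lit 40) (nat_lit 5) (nat_lit 41) (nat_lit 5) (nat_lit 362) (nat_lit 296) (nat_lit 122)) (XT.nd (nat_lit 78) (nat_lit 152) (nat_lit 0) (XT.lf (nat_lit 0) (nat_lit 35486013342) (nat_lit 228) (nat_lit 739713899) (nat_lit 304) (nat_lit 5739943686) (nat_lit 37) (nat_lit 5) (nat_lit 40) (nat_lit 5) (nat_lit 41) (nat_lit 5) (nat_lit 363) (nat_lit 296) (nat_lit 121)) (XT.lf (nat_lit 0) (nat_lit 8002711932) (nat_lit 152) (nat_lit 34191661677) (nat_lit 228) (nat_lit 727013981) (nat_lit 35) (nat_lit 5) (nat_lit 37) (nat_lit 5) (nat_lit 38) (nat_lit 5) (nat_lit 364) (nat_lit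 296) (nat_lit 120))))))) (XT.nd (nat_lit 858) (nat_lit 532) (nat_lit 0) (XT.nd (nat_lit 390) (nat_lit 380) (nat_lit 0) (XT.nd (nat_lit 156) (nat_lit 228) (nat_lit 0) (XT.nd (nat_lit 78) (nat_lit 0) (nat_lit 0) (XT.lf (nat_lit 0) (nat_lit 4419951808) (nat_lit 228) (nat_lit 20906834617) (nat_lit 76) (nat_lit 18575608488) (nat_lit 34) (nat_lit 5) (nat_lit 37) (nat_lit 5) (nat_lit 35) (nat_lit 5) (nat_lit 365) (nat_lit 296) (nat_lit 119)) (XT.lf (nat_lit 0) (nat_lit 9703620021) (nat_lit 228) (nat_lit 6486481920) (nat_lit 76) (nat_lit 28722612246) (nat_lit 34) (nat_lit 5) (nat_lit 37) (nat_lit 5) (nat_lit 35) (nat_lit 5) (nat_lit 366) (nat_lit 296) (nat_lit 118))) (XT.nd (nat_lit 78) (nat_lit 0) (nat_lit 0) (XT.lf (nat_lit 0) (nat_lit 8528390868) (nat_lit 228) (nat_lit 6696383356) (nat_lit 304) (nat_lit 30726204238) (nat_lit 31) (nat_lit 5) (nat_lit 34) (nat_lit 5) (nat_lit 35) (nat_lit 5) (nat_lit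 367) (nat_lit 296) (nat_lit 117)) (XT.nd (nat_lit 78) (nat_lit 0) (nat_lit 0) (XT.lf (nat_lit 0) (nat_lit 21004365731) (nat_lit 304) (nat_lit 22926570057) (nat_lit 76) (nat_lit 3086675363) (nat_lit 31) (nat_lit 5) (nat_lit 35) (nat_lit 5) (nat_lit 32) (nat_lit 5) (nat_lit 368) (nat_lit 296) (nat_lit 116)) (XT.lf (nat_lit 0) (nat_lit 27020758358) (nat_lit 304) (nat_lit 8066385218) (nat_lit 76) (nat_lit 13027201278) (nat_lit 31) (nat_lit 5) (nat_lit 35) (nat_lit 5) (nat_lit 32) (nat_lit 5) (nat_lit 369) (nat_lit 296) (nat_lit 115))))) (XT.nd (nat_lit 234) (nat_lit 228) (nat_lit 0) (XT.nd (nat_lit 78) (nat_lit 0) (nat_lit 0) (XT.lf (nat_lit 0) (nat_lit 7379318363) (nat_lit 152) (nat_lit 25906455573) (nat_lit 228) (nat_lit 15956167001) (nat_lit 29) (nat_lit 5) (nat_lit 31) (nat_lit 5) (nat_lit 32) (nat_lit 5) (nat_lit 370) (nat_lit 296) (nat_lit 114)) (XT.nd (nat_lit 78) (nat_lit 0) (nat_lit 0)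 (XT.lf (nat_lit 0) (nat_lit 23449504156) (nat_lit 152) (nat_lit 16367928024) (nat_lit 228) (nat_lit 10583576134) (nat_lit 29) (nat_lit 5) (nat_lit 31) (nat_lit 5) (nat_lit 32) (nat_lit 5) (nat_lit 371) (nat_lit 296) (nat_lit 113)) (XT.lf (nat_lit 0) (nat_lit 39997677190) (nat_lit 152) (nat_lit 6544680969) (nat_lit 228) (nat_lit 5052574072) (nat_lit 29) (nat_lit 5) (nat_lit 31) (nat_lit 5) (nat_lit 32) (nat_lit 5) (nat_lit 372) (nat_lit 296) (nat_lit 112)))) (XT.nd (nat_lit 78) (nat_lit 0) (nat_lit 0) (XT.lf (nat_lit 0) (nat_lit 705203982) (nat_lit 228) (nat_lit 48567029942) (nat_lit 76) (nat_lit 3550055356) (nat_lit 26) (nat_lit 5) (nat_lit 29) (nat_lit 5) (nat_lit 27) (nat_lit 5) (nat_lit 373) (nat_lit 296) (nat_lit 111)) (XT.nd (nat_lit 78) (nat_lit 0) (nat_lit 0) (XT.lf (nat_lit 0) (nat_lit 6714622427) (nat_lit 228) (nat_lit 33381938853) (nat_lit 76) (nat_lit 13982994946) (nat_lit 26) (nat_lit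 5) (nat_lit 29) (nat_lit 5) (nat_lit 27) (nat_lit 5) (nat_lit 374) (nat_lit 296) (nat_lit 110)) (XT.lf (nat_lit 0) (nat_lit 12901790344) (nat_lit 228) (nat_lit 17745258914) (nat_lit 76) (nat_lit 24727571518) (nat_lit 26) (nat_lit 5) (nat_lit 29) (nat_lit 5) (nat_lit 27) (nat_lit 5) (nat_lit 375) (nat_lit 296) (nat_lit 109)))))) (XT.nd (nat_lit 468) (nat_lit 228) (nat_lit 0) (XT.nd (nat_lit 234) (nat_lit 152) (nat_lit 0) (XT.nd (nat_lit 78) (nat_lit 152) (nat_lit 0) (XT.lf (nat_lit 0) (nat_lit 19272113997) (nat_lit 228) (nat_lit 1643327006) (nat_lit 76) (nat_lit 35793173539) (nat_lit 26) (nat_lit 5) (nat_lit 29) (nat_lit 5) (nat_lit 27) (nat_lit 5) (nat_lit 376) (nat_lit 296) (nat_lit 108)) (XT.nd (nat_lit 78) (nat_lit 0) (nat_lit 0) (XT.lf (nat_lit 0) (nat_lit 15235220545) (nat_lit 152) (nat_lit 10742389402) (nat_lit 228) (nat_lit 32100699694) (nat_lit 24) (nat_lit 5) (nat_lit 26) (nat_lit 5)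 (nat_lit 27) (nat_lit 5) (nat_lit 377) (nat_lit 296) (nat_lit 107)) (XT.lf (nat_lit 0) (nat_lit 32650111408) (nat_lit 152) (nat_lit 248400057) (nat_lit 228) (nat_lit 26590160206) (nat_lit 24) (nat_lit 5) (nat_lit 26) (nat_lit 5) (nat_lit 27) (nat_lit 5) (nat_lit 378) (nat_lit 296) (nat_lit 106)))) (XT.nd (nat_lit 78) (nat_lit 152) (nat_lit 0) (XT.lf (nat_lit 0) (nat_lit 40126255441) (nat_lit 228) (nat_lit 10459059823) (nat_lit 76) (nat_lit 10353056039) (nat_lit 24) (nat_lit 5) (nat_lit 27) (nat_lit 5) (nat_lit 25) (nat_lit 5) (nat_lit 379) (nat_lit 296) (nat_lit 105)) (XT.nd (nat_lit 78) (nat_lit 0) (nat_lit 0) (XT.lf (nat_lit 0) (nat_lit 6533309830) (nat_lit 152) (nat_lit 41100552707) (nat_lit 228) (nat_lit 14795811572) (nat_lit 22) (nat_lit 5) (nat_lit 24) (nat_lit 5) (nat_lit 25) (nat_lit 5) (nat_lit 380) (nat_lit 296) (nat_lit 104)) (XT.lf (nat_lit 0) (nat_lit 24246340996) (nat_lit 152)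 (nat_lit 31223773302) (nat_lit 228) (nat_lit 8492502225) (nat_lit 22) (nat_lit 5) (nat_lit 24) (nat_lit 5) (nat_lit 25) (nat_lit 5) (nat_lit 381) (nat_lit 296) (nat_lit 103))))) (XT.nd (nat_lit 34008) (nat_lit 0) (nat_lit 10336) (XT.nd (nat_lit 78) (nat_lit 228) (nat_lit 0) (XT.lf (nat_lit 0) (nat_lit 42487355284) (nat_lit 152) (nat_lit 21051962850) (nat_lit 228) (nat_lit 2002296072) (nat_lit 22) (nat_lit 5) (nat_lit 24) (nat_lit 5) (nat_lit 25) (nat_lit 5) (nat_lit 382) (nat_lit 296) (nat_lit 102)) (XT.nd (nat_lit 78) (nat_lit 152) (nat_lit 0) (XT.lf (nat_lit 0) (nat_lit 4589144958) (nat_lit 228) (nat_lit 5940747038) (nat_lit 76) (nat_lit 56636805119) (nat_lit 21) (nat_lit 5) (nat_lit 24) (nat_lit 5) (nat_lit 22) (nat_lit 5) (nat_lit 383) (nat_lit 296) (nat_lit 101)) (XT.lf (nat_lit 0) (nat_lit 11454669373) (nat_lit 228) (nat_lit 56945638566) (nat_lit 76) (nat_lit 436134984) (nat_lit 19) (nat_lit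 5) (nat_lit 22) (nat_lit 5) (nat_lit 20) (nat_lit 5) (nat_lit 384) (nat_lit 296) (nat_lit 100)))) (XT.nd (nat_lit 78) (nat_lit 0) (nat_lit 0) (XT.lf (nat_lit 0) (nat_lit 2366196275) (nat_lit 0) (nat_lit 2366196275) (nat_lit 988) (nat_lit 1558598166) (nat_lit 155) (nat_lit 5) (nat_lit 155) (nat_lit 3) (nat_lit 168) (nat_lit 3) (nat_lit 297) (nat_lit 297) (nat_lit 186)) (XT.nd (nat_lit 78) (nat_lit 0) (nat_lit 0) (XT.lf (nat_lit 0) (nat_lit 9990164138) (nat_lit 988) (nat_lit 2702264160) (nat_lit 1064) (nat_lit 65706679) (nat_lit 155) (nat_lit 5) (nat_lit 168) (nat_lit 3) (nat_lit 169) (nat_lit 5) (nat_lit 298) (nat_lit 297) (nat_lit 185)) (XT.lf (nat_lit 76) (nat_lit 2595236399) (nat_lit 0) (nat_lit 7993004143) (nat_lit 1064) (nat_lit 2349666420) (nat_lit 156) (nat_lit 5) (nat_lit 155) (nat_lit 5) (nat_lit 169) (nat_lit 5) (nat_lit 299) (nat_lit 297) (nat_lit 184))))))))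
noncomputable def xc204 : XT := (XT.nd (nat_lit 1716) (nat_lit 4180) (nat_lit 0) (XT.nd (nat_lit 858) (nat_lit 1976) (nat_lit 0) (XT.nd (nat_lit 390) (nat_lit 0) (nat_lit 0) (XT.nd (nat_lit 156) (nat_lit 912) (nat_lit 0) (XT.nd (nat_lit 78) (nat_lit 0) (nat_lit 76) (XT.lf (nat_lit 76) (nat_lit 8099103534) (nat_lit 0) (nat_lit 3117933459) (nat_lit 1064) (nat_lit 1905692473) (nat_lit 156) (nat_lit 5) (nat_lit 155) (nat_lit 5) (nat_lit 169) (nat_lit 5) (nat_lit 300) (nat_lit 297) (nat_lit 183)) (XT.lf (nat_lit 76) (nat_lit 436976567) (nat_lit 0) (nat_lit 11436191800) (nat_lit 1064) (nat_lit 1439713656) (nat_lit 157) (nat_lit 5) (nat_lit 156) (nat_lit 5) (nat_lit 170) (nat_lit 5) (nat_lit 301) (nat_lit 297) (nat_lit 182))) (XT.nd (nat_lit 78) (nat_lit 988) (nat_lit 0) (XT.lf (nat_lit 76) (nat_lit 6124728443) (nat_lit 0) (nat_lit 6491856042) (nat_lit 1064) (nat_lit 890165004) (nat_lit 157) (nat_lit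 5) (nat_lit 156) (nat_lit 5) (nat_lit 170) (nat_lit 5) (nat_lit 302) (nat_lit 297) (nat_lit 181)) (XT.nd (nat_lit 78) (nat_lit 988) (nat_lit 0) (XT.lf (nat_lit 76) (nat_lit 11975187545) (nat_lit 0) (nat_lit 1393818508) (nat_lit 1064) (nat_lit 337863076) (nat_lit 157) (nat_lit 5) (nat_lit 156) (nat_lit 5) (nat_lit 170) (nat_lit 5) (nat_lit 303) (nat_lit 297) (nat_lit 180)) (XT.lf (nat_lit 0) (nat_lit 290951153) (nat_lit 1064) (nat_lit 9790580660) (nat_lit 1140) (nat_lit 3829495499) (nat_lit 143) (nat_lit 5) (nat_lit 157) (nat_lit 5) (nat_lit 158) (nat_lit 5) (nat_lit 304) (nat_lit 297) (nat_lit 179))))) (XT.nd (nat_lit 234) (nat_lit 0) (nat_lit 76) (XT.nd (nat_lit 78) (nat_lit 0) (nat_lit 76) (XT.lf (nat_lit 0) (nat_lit 950577398) (nat_lit 1064) (nat_lit 3962842888) (nat_lit 1140) (nat_lit 9207261529) (nat_lit 143) (nat_lit 5) (nat_lit 157) (nat_lit 5) (nat_lit 158) (nat_lit 5) (nat_lit 305)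 (nat_lit 297) (nat_lit 178)) (XT.nd (nat_lit 78) (nat_lit 0) (nat_lit 0) (XT.lf (nat_lit 0) (nat_lit 1641735349) (nat_lit 1064) (nat_lit 12268580000) (nat_lit 1140) (nat_lit 425991405) (nat_lit 144) (nat_lit 5) (nat_lit 158) (nat_lit 5) (nat_lit 159) (nat_lit 5) (nat_lit 306) (nat_lit 297) (nat_lit 177)) (XT.lf (nat_lit 0) (nat_lit 2430658800) (nat_lit 1064) (nat_lit 6254280386) (nat_lit 1140) (nat_lit 5871182454) (nat_lit 144) (nat_lit 5) (nat_lit 158) (nat_lit 5) (nat_lit 159) (nat_lit 5) (nat_lit 307) (nat_lit 297) (nat_lit 176)))) (XT.nd (nat_lit 78) (nat_lit 0) (nat_lit 76) (XT.lf (nat_lit 0) (nat_lit 3231570231) (nat_lit 1064) (nat_lit 67789068) (nat_lit 1140) (nat_lit 11483553254) (nat_lit 144) (nat_lit 5) (nat_lit 158) (nat_lit 5) (nat_lit 159) (nat_lit 5) (nat_lit 308) (nat_lit 297) (nat_lit 175)) (XT.nd (nat_lit 78) (nat_lit 0) (nat_lit 0) (XT.lf (nat_lit 0) (nat_lit 4129148309) (nat_lit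 1064) (nat_lit 8615667885) (nat_lit 1140) (nat_lit 2269542100) (nat_lit 145) (nat_lit 5) (nat_lit 159) (nat_lit 5) (nat_lit 160) (nat_lit 5) (nat_lit 309) (nat_lit 297) (nat_lit 174)) (XT.lf (nat_lit 0) (nat_lit 5075957024) (nat_lit 1064) (nat_lit 2233158045) (nat_lit 1140) (nat_lit 7942992636) (nat_lit 145) (nat_lit 5) (nat_lit 159) (nat_lit 5) (nat_lit 160) (nat_lit 5) (nat_lit 310) (nat_lit 297) (nat_lit 173)))))) (XT.nd (nat_lit 390) (nat_lit 1216) (nat_lit 0) (XT.nd (nat_lit 156) (nat_lit 912) (nat_lit 0) (XT.nd (nat_lit 78) (nat_lit 0) (nat_lit 76) (XT.lf (nat_lit 76) (nat_lit 4418988190) (nat_lit 0) (nat_lit 1663926872) (nat_lit 1140) (nat_lit 9413150724) (nat_lit 146) (nat_lit 5) (nat_lit 145) (nat_lit 5) (nat_lit 160) (nat_lit 5) (nat_lit 311) (nat_lit 297) (nat_lit 172)) (XT.lf (nat_lit 0) (nat_lit 7172280851) (nat_lit 1064) (nat_lit 4478668163) (nat_lit 1140) (nat_lit 4094855337)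 (nat_lit 146) (nat_lit 5) (nat_lit 160) (nat_lit 5) (nat_lit 161) (nat_lit 5) (nat_lit 312) (nat_lit 297) (nat_lit 171))) (XT.nd (nat_lit 78) (nat_lit 988) (nat_lit 0) (XT.lf (nat_lit 76) (nat_lit 2338742842) (nat_lit 0) (nat_lit 5984372708) (nat_lit 1140) (nat_lit 7679082787) (nat_lit 147) (nat_lit 5) (nat_lit 146) (nat_lit 5) (nat_lit 161) (nat_lit 5) (nat_lit 313) (nat_lit 297) (nat_lit 170)) (XT.nd (nat_lit 78) (nat_lit 988) (nat_lit 0) (XT.lf (nat_lit 76) (nat_lit 9444450546) (nat_lit 0) (nat_lit 99301429) (nat_lit 1140) (nat_lit 6721499987) (nat_lit 147) (nat_lit 5) (nat_lit 146) (nat_lit 5) (nat_lit 161) (nat_lit 5) (nat_lit 314) (nat_lit 297) (nat_lit 169)) (XT.lf (nat_lit 0) (nat_lit 164903710) (nat_lit 1064) (nat_lit 10685360993) (nat_lit 1140) (nat_lit 5684480134) (nat_lit 133) (nat_lit 5) (nat_lit 147) (nat_lit 5) (nat_lit 148) (nat_lit 5) (nat_lit 315) (nat_lit 297) (nat_lit 168)))))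 (XT.nd (nat_lit 234) (nat_lit 608) (nat_lit 0) (XT.nd (nat_lit 78) (nat_lit 608) (nat_lit 0) (XT.lf (nat_lit 0) (nat_lit 7490943767) (nat_lit 1064) (nat_lit 4765441286) (nat_lit 1140) (nat_lit 4554149699) (nat_lit 133) (nat_lit 5) (nat_lit 147) (nat_lit 5) (nat_lit 148) (nat_lit 5) (nat_lit 316) (nat_lit 297) (nat_lit 167)) (XT.nd (nat_lit 78) (nat_lit 608) (nat_lit 0) (XT.lf (nat_lit 0) (nat_lit 13708343535) (nat_lit 1140) (nat_lit 2078768446) (nat_lit 76) (nat_lit 1307400649) (nat_lit 133) (nat_lit 5) (nat_lit 148) (nat_lit 5) (nat_lit 134) (nat_lit 5) (nat_lit 317) (nat_lit 297) (nat_lit 166)) (XT.lf (nat_lit 0) (nat_lit 5430164681) (nat_lit 608) (nat_lit 9864193045) (nat_lit 684) (nat_lit 2089960416) (nat_lit 125) (nat_lit 5) (nat_lit 133) (nat_lit 5) (nat_lit 134) (nat_lit 5) (nat_lit 318) (nat_lit 297) (nat_lit 165)))) (XT.nd (nat_lit 78) (nat_lit 608) (nat_lit 0) (XT.lf (nat_lit 0) (nat_lit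 13199162336) (nat_lit 608) (nat_lit 3741081413) (nat_lit 684) (nat_lit 742227861) (nat_lit 125) (nat_lit 5) (nat_lit 133) (nat_lit 5) (nat_lit 134) (nat_lit 5) (nat_lit 319) (nat_lit 297) (nat_lit 164)) (XT.nd (nat_lit 78) (nat_lit 0) (nat_lit 0) (XT.lf (nat_lit 0) (nat_lit 681172670) (nat_lit 608) (nat_lit 14752452235) (nat_lit 76) (nat_lit 2554344522) (nat_lit 117) (nat_lit 5) (nat_lit 125) (nat_lit 5) (nat_lit 118) (nat_lit 5) (nat_lit 320) (nat_lit 297) (nat_lit 163)) (XT.lf (nat_lit 0) (nat_lit 2206748197) (nat_lit 608) (nat_lit 7076281624) (nat_lit 76) (nat_lit 9017170781) (nat_lit 117) (nat_lit 5) (nat_lit 125) (nat_lit 5) (nat_lit 118) (nat_lit 5) (nat_lit 321) (nat_lit 297) (nat_lit 162))))))) (XT.nd (nat_lit 858) (nat_lit 1824) (nat_lit 0) (XT.nd (nat_lit 390) (nat_lit 1368) (nat_lit 0) (XT.nd (nat_lit 156) (nat_lit 456) (nat_lit 0) (XT.nd (nat_lit 78) (nat_lit 0) (nat_lit 0) (XT.lf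 (nat_lit 0) (nat_lit 838792374) (nat_lit 532) (nat_lit 2939235134) (nat_lit 608) (nat_lit 14843793129) (nat_lit 110) (nat_lit 5) (nat_lit 117) (nat_lit 5) (nat_lit 118) (nat_lit 5) (nat_lit 322) (nat_lit 297) (nat_lit 161)) (XT.lf (nat_lit 0) (nat_lit 5495204630) (nat_lit 608) (nat_lit 9857768501) (nat_lit 76) (nat_lit 3597172793) (nat_lit 110) (nat_lit 5) (nat_lit 118) (nat_lit 5) (nat_lit 111) (nat_lit 5) (nat_lit 323) (nat_lit 297) (nat_lit 160))) (XT.nd (nat_lit 78) (nat_lit 456) (nat_lit 0) (XT.lf (nat_lit 0) (nat_lit 7285269520) (nat_lit 608) (nat_lit 1731555916) (nat_lit 76) (nat_lit 10270873230) (nat_lit 110) (nat_lit 5) (nat_lit 118) (nat_lit 5) (nat_lit 111) (nat_lit 5) (nat_lit 324) (nat_lit 297) (nat_lit 159)) (XT.nd (nat_lit 78) (nat_lit 0) (nat_lit 0) (XT.lf (nat_lit 0) (nat_lit 6762932971) (nat_lit 456) (nat_lit 2423609061) (nat_lit 532) (nat_lit 10447129106) (nat_lit 104) (nat_lit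 5) (nat_lit 110) (nat_lit 5) (nat_lit 111) (nat_lit 5) (nat_lit 325) (nat_lit 297) (nat_lit 158)) (XT.lf (nat_lit 0) (nat_lit 11197136439) (nat_lit 532) (nat_lit 4491545712) (nat_lit 76) (nat_lit 4299789909) (nat_lit 104) (nat_lit 5) (nat_lit 111) (nat_lit 5) (nat_lit 105) (nat_lit 5) (nat_lit 326) (nat_lit 297) (nat_lit 157))))) (XT.nd (nat_lit 234) (nat_lit 532) (nat_lit 0) (XT.nd (nat_lit 78) (nat_lit 380) (nat_lit 0) (XT.lf (nat_lit 0) (nat_lit 4189354491) (nat_lit 456) (nat_lit 9135818350) (nat_lit 532) (nat_lit 7027047710) (nat_lit 98) (nat_lit 5) (nat_lit 104) (nat_lit 5) (nat_lit 105) (nat_lit 5) (nat_lit 327) (nat_lit 297) (nat_lit 156)) (XT.nd (nat_lit 78) (nat_lit 380) (nat_lit 0) (XT.lf (nat_lit 0) (nat_lit 13215405449) (nat_lit 456) (nat_lit 2339995487) (nat_lit 532) (nat_lit 5170346809) (nat_lit 98) (nat_lit 5) (nat_lit 104) (nat_lit 5) (nat_lit 105) (nat_lit 5) (nat_lit 328) (nat_lit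 297) (nat_lit 155)) (XT.lf (nat_lit 0) (nat_lit 1376473625) (nat_lit 380) (nat_lit 16527281288) (nat_lit 456) (nat_lit 3205205547) (nat_lit 93) (nat_lit 5) (nat_lit 98) (nat_lit 5) (nat_lit 99) (nat_lit 5) (nat_lit 329) (nat_lit 297) (nat_lit 154)))) (XT.nd (nat_lit 78) (nat_lit 532) (nat_lit 0) (XT.lf (nat_lit 0) (nat_lit 10652939780) (nat_lit 380) (nat_lit 9761724429) (nat_lit 456) (nat_lit 1086258008) (nat_lit 93) (nat_lit 5) (nat_lit 98) (nat_lit 5) (nat_lit 99) (nat_lit 5) (nat_lit 330) (nat_lit 297) (nat_lit 153)) (XT.nd (nat_lit 78) (nat_lit 456) (nat_lit 0) (XT.lf (nat_lit 0) (nat_lit 1068305083) (nat_lit 456) (nat_lit 1714693788) (nat_lit 76) (nat_lit 19121539543) (nat_lit 92) (nat_lit 5) (nat_lit 98) (nat_lit 5) (nat_lit 93) (nat_lit 5) (nat_lit 331) (nat_lit 297) (nat_lit 152)) (XT.lf (nat_lit 0) (nat_lit 3377735800) (nat_lit 532) (nat_lit 14533498614) (nat_lit 76) (nat_lit 4405358591)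 (nat_lit 86) (nat_lit 5) (nat_lit 93) (nat_lit 5) (nat_lit 87) (nat_lit 5) (nat_lit 332) (nat_lit 297) (nat_lit 151)))))) (XT.nd (nat_lit 468) (nat_lit 1064) (nat_lit 0) (XT.nd (nat_lit 234) (nat_lit 380) (nat_lit 0) (XT.nd (nat_lit 78) (nat_lit 380) (nat_lit 0) (XT.lf (nat_lit 0) (nat_lit 5795232832) (nat_lit 532) (nat_lit 5174379139) (nat_lit 76) (nat_lit 11770247799) (nat_lit 86) (nat_lit 5) (nat_lit 93) (nat_lit 5) (nat_lit 87) (nat_lit 5) (nat_lit 333) (nat_lit 297) (nat_lit 150)) (XT.nd (nat_lit 78) (nat_lit 0) (nat_lit 0) (XT.lf (nat_lit 0) (nat_lit 4547327059) (nat_lit 380) (nat_lit 3775564134) (nat_lit 456) (nat_lit 14851817886) (nat_lit 81) (nat_lit 5) (nat_lit 86) (nat_lit 5) (nat_lit 87) (nat_lit 5) (nat_lit 334) (nat_lit 297) (nat_lit 149)) (XT.lf (nat_lit 0) (nat_lit 11008110135) (nat_lit 456) (nat_lit 8996772033) (nat_lit 76) (nat_lit 3615283008) (nat_lit 81) (nat_lit 5) (nat_lit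 87) (nat_lit 5) (nat_lit 82) (nat_lit 5) (nat_lit 335) (nat_lit 297) (nat_lit 148)))) (XT.nd (nat_lit 78) (nat_lit 0) (nat_lit 0) (XT.lf (nat_lit 0) (nat_lit 896026771) (nat_lit 380) (nat_lit 12918055063) (nat_lit 456) (nat_lit 10263710085) (nat_lit 76) (nat_lit 5) (nat_lit 81) (nat_lit 5) (nat_lit 82) (nat_lit 5) (nat_lit 336) (nat_lit 297) (nat_lit 147)) (XT.nd (nat_lit 78) (nat_lit 0) (nat_lit 0) (XT.lf (nat_lit 0) (nat_lit 11263269161) (nat_lit 380) (nat_lit 5526118352) (nat_lit 456) (nat_lit 7757217781) (nat_lit 76) (nat_lit 5) (nat_lit 81) (nat_lit 5) (nat_lit 82) (nat_lit 5) (nat_lit 337) (nat_lit 297) (nat_lit 146)) (XT.lf (nat_lit 0) (nat_lit 19868480378) (nat_lit 456) (nat_lit 3114757638) (nat_lit 76) (nat_lit 2045821325) (nat_lit 76) (nat_lit 5) (nat_lit 82) (nat_lit 5) (nat_lit 77) (nat_lit 5) (nat_lit 338) (nat_lit 297) (nat_lit 145))))) (XT.nd (nat_lit 234) (nat_lit 304) (nat_lit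 0) (XT.nd (nat_lit 78) (nat_lit 456) (nat_lit 0) (XT.lf (nat_lit 0) (nat_lit 7442861072) (nat_lit 304) (nat_lit 15717966619) (nat_lit 380) (nat_lit 2361544627) (nat_lit 72) (nat_lit 5) (nat_lit 76) (nat_lit 5) (nat_lit 77) (nat_lit 5) (nat_lit 339) (nat_lit 297) (nat_lit 144)) (XT.nd (nat_lit 78) (nat_lit 380) (nat_lit 0) (XT.lf (nat_lit 0) (nat_lit 537702683) (nat_lit 380) (nat_lit 7660400791) (nat_lit 76) (nat_lit 17831449390) (nat_lit 71) (nat_lit 5) (nat_lit 76) (nat_lit 5) (nat_lit 72) (nat_lit 5) (nat_lit 340) (nat_lit 297) (nat_lit 143)) (XT.lf (nat_lit 0) (nat_lit 3102031700) (nat_lit 380) (nat_lit 399058526) (nat_lit 456) (nat_lit 23049429087) (nat_lit 66) (nat_lit 5) (nat_lit 71) (nat_lit 5) (nat_lit 72) (nat_lit 5) (nat_lit 341) (nat_lit 297) (nat_lit 142)))) (XT.nd (nat_lit 78) (nat_lit 304) (nat_lit 0) (XT.lf (nat_lit 0) (nat_lit 6699769851) (nat_lit 456) (nat_lit 12821064667) (nat_lit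 76) (nat_lit 7561898972) (nat_lit 66) (nat_lit 5) (nat_lit 72) (nat_lit 5) (nat_lit 67) (nat_lit 5) (nat_lit 342) (nat_lit 297) (nat_lit 141)) (XT.nd (nat_lit 78) (nat_lit 304) (nat_lit 0) (XT.lf (nat_lit 0) (nat_lit 9993397115) (nat_lit 456) (nat_lit 1885071342) (nat_lit 76) (nat_lit 15752486160) (nat_lit 66) (nat_lit 5) (nat_lit 72) (nat_lit 5) (nat_lit 67) (nat_lit 5) (nat_lit 343) (nat_lit 297) (nat_lit 140)) (XT.lf (nat_lit 0) (nat_lit 9559422850) (nat_lit 304) (nat_lit 3913482121) (nat_lit 380) (nat_lit 14720115101) (nat_lit 62) (nat_lit 5) (nat_lit 66) (nat_lit 5) (nat_lit 67) (nat_lit 5) (nat_lit 344) (nat_lit 297) (nat_lit 139))))))))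
noncomputable def xc205 : XT := (XT.nd (nat_lit 1716) (nat_lit 912) (nat_lit 0) (XT.nd (nat_lit 858) (nat_lit 988) (nat_lit 0) (XT.nd (nat_lit 390) (nat_lit 532) (nat_lit 0) (XT.nd (nat_lit 156) (nat_lit 304) (nat_lit 0) (XT.nd (nat_lit 78) (nat_lit 304) (nat_lit 0) (XT.lf (nat_lit 0) (nat_lit 17112514723) (nat_lit 380) (nat_lit 7433110085) (nat_lit 76) (nat_lit 4224660745) (nat_lit 62) (nat_lit 5) (nat_lit 67) (nat_lit 5) (nat_lit 63) (nat_lit 5) (nat_lit 345) (nat_lit 297) (nat_lit 138)) (XT.lf (nat_lit 0) (nat_lit 4139402756) (nat_lit 304) (nat_lit 16795836368) (nat_lit 380) (nat_lit 8427421365) (nat_lit 58) (nat_lit 5) (nat_lit 62) (nat_lit 5) (nat_lit 63) (nat_lit 5) (nat_lit 346) (nat_lit 297) (nat_lit 137))) (XT.nd (nat_lit 78) (nat_lit 304) (nat_lit 0) (XT.lf (nat_lit 0) (nat_lit 16205505216) (nat_lit 304) (nat_lit 8737665468) (nat_lit 380) (nat_lit 5027529237) (nat_lit 58) (nat_lit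 5) (nat_lit 62) (nat_lit 5) (nat_lit 63) (nat_lit 5) (nat_lit 347) (nat_lit 297) (nat_lit 136)) (XT.nd (nat_lit 78) (nat_lit 304) (nat_lit 0) (XT.lf (nat_lit 0) (nat_lit 28627807025) (nat_lit 304) (nat_lit 439130826) (nat_lit 380) (nat_lit 1530183507) (nat_lit 58) (nat_lit 5) (nat_lit 62) (nat_lit 5) (nat_lit 63) (nat_lit 5) (nat_lit 348) (nat_lit 297) (nat_lit 135)) (XT.lf (nat_lit 0) (nat_lit 2205993169) (nat_lit 304) (nat_lit 20961085834) (nat_lit 76) (nat_lit 8069436805) (nat_lit 54) (nat_lit 5) (nat_lit 58) (nat_lit 5) (nat_lit 55) (nat_lit 5) (nat_lit 349) (nat_lit 297) (nat_lit 134))))) (XT.nd (nat_lit 234) (nat_lit 228) (nat_lit 0) (XT.nd (nat_lit 78) (nat_lit 304) (nat_lit 0) (XT.lf (nat_lit 0) (nat_lit 6043664302) (nat_lit 304) (nat_lit 8992080684) (nat_lit 76) (nat_lit 16858295674) (nat_lit 54) (nat_lit 5) (nat_lit 58) (nat_lit 5) (nat_lit 55) (nat_lit 5) (nat_lit 350) (nat_lit 297)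 (nat_lit 133)) (XT.nd (nat_lit 78) (nat_lit 0) (nat_lit 0) (XT.lf (nat_lit 0) (nat_lit 3396668330) (nat_lit 304) (nat_lit 6628305755) (nat_lit 380) (nat_lit 22545469692) (nat_lit 50) (nat_lit 5) (nat_lit 54) (nat_lit 5) (nat_lit 55) (nat_lit 5) (nat_lit 351) (nat_lit 297) (nat_lit 132)) (XT.lf (nat_lit 0) (nat_lit 14232861957) (nat_lit 380) (nat_lit 16949100082) (nat_lit 76) (nat_lit 2081970331) (nat_lit 50) (nat_lit 5) (nat_lit 55) (nat_lit 5) (nat_lit 51) (nat_lit 5) (nat_lit 352) (nat_lit 297) (nat_lit 131)))) (XT.nd (nat_lit 78) (nat_lit 228) (nat_lit 0) (XT.lf (nat_lit 0) (nat_lit 18628643095) (nat_lit 380) (nat_lit 4428814296) (nat_lit 76) (nat_lit 10918925858) (nat_lit 50) (nat_lit 5) (nat_lit 55) (nat_lit 5) (nat_lit 51) (nat_lit 5) (nat_lit 353) (nat_lit 297) (nat_lit 130)) (XT.nd (nat_lit 78) (nat_lit 0) (nat_lit 0) (XT.lf (nat_lit 0) (nat_lit 8630142457) (nat_lit 228) (nat_lit 14605258896)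 (nat_lit 304) (nat_lit 11472440306) (nat_lit 47) (nat_lit 5) (nat_lit 50) (nat_lit 5) (nat_lit 51) (nat_lit 5) (nat_lit 354) (nat_lit 297) (nat_lit 129)) (XT.lf (nat_lit 0) (nat_lit 22166363875) (nat_lit 228) (nat_lit 5854927713) (nat_lit 304) (nat_lit 7438731262) (nat_lit 47) (nat_lit 5) (nat_lit 50) (nat_lit 5) (nat_lit 51) (nat_lit 5) (nat_lit 355) (nat_lit 297) (nat_lit 128)))))) (XT.nd (nat_lit 390) (nat_lit 456) (nat_lit 0) (XT.nd (nat_lit 156) (nat_lit 228) (nat_lit 0) (XT.nd (nat_lit 78) (nat_lit 304) (nat_lit 0) (XT.lf (nat_lit 0) (nat_lit 32977417722) (nat_lit 304) (nat_lit 161692848) (nat_lit 76) (nat_lit 3094865837) (nat_lit 47) (nat_lit 5) (nat_lit 51) (nat_lit 5) (nat_lit 48) (nat_lit 5) (nat_lit 356) (nat_lit 297) (nat_lit 127)) (XT.lf (nat_lit 0) (nat_lit 1217176221) (nat_lit 304) (nat_lit 23471649397) (nat_lit 76) (nat_lit 12336427941) (nat_lit 43) (nat_lit 5) (nat_lit 47) (nat_lit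 5) (nat_lit 44) (nat_lit 5) (nat_lit 357) (nat_lit 297) (nat_lit 126))) (XT.nd (nat_lit 78) (nat_lit 228) (nat_lit 0) (XT.lf (nat_lit 0) (nat_lit 5757744518) (nat_lit 304) (nat_lit 10193919034) (nat_lit 76) (nat_lit 21887702068) (nat_lit 43) (nat_lit 5) (nat_lit 47) (nat_lit 5) (nat_lit 44) (nat_lit 5) (nat_lit 358) (nat_lit 297) (nat_lit 125)) (XT.nd (nat_lit 78) (nat_lit 0) (nat_lit 0) (XT.lf (nat_lit 0) (nat_lit 3546380560) (nat_lit 228) (nat_lit 6918769380) (nat_lit 304) (nat_lit 28211838456) (nat_lit 40) (nat_lit 5) (nat_lit 43) (nat_lit 5) (nat_lit 44) (nat_lit 5) (nat_lit 359) (nat_lit 297) (nat_lit 124)) (XT.lf (nat_lit 0) (nat_lit 15437231942) (nat_lit 304) (nat_lit 21657754059) (nat_lit 76) (nat_lit 2441056008) (nat_lit 40) (nat_lit 5) (nat_lit 44) (nat_lit 5) (nat_lit 41) (nat_lit 5) (nat_lit 360) (nat_lit 297) (nat_lit 123))))) (XT.nd (nat_lit 234) (nat_lit 228) (nat_lit 0) (XT.nd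 (nat_lit 78) (nat_lit 228) (nat_lit 0) (XT.lf (nat_lit 0) (nat_lit 20623648466) (nat_lit 304) (nat_lit 7854081900) (nat_lit 76) (nat_lit 11941187319) (nat_lit 40) (nat_lit 5) (nat_lit 44) (nat_lit 5) (nat_lit 41) (nat_lit 5) (nat_lit 361) (nat_lit 297) (nat_lit 122)) (XT.nd (nat_lit 78) (nat_lit 0) (nat_lit 0) (XT.lf (nat_lit 0) (nat_lit 6485533667) (nat_lit 228) (nat_lit 19539233137) (nat_lit 304) (nat_lit 15301744998) (nat_lit 37) (nat_lit 5) (nat_lit 40) (nat_lit 5) (nat_lit 41) (nat_lit 5) (nat_lit 362) (nat_lit 297) (nat_lit 121)) (XT.lf (nat_lit 0) (nat_lit 21411662104) (nat_lit 228) (nat_lit 10252383047) (nat_lit 304) (nat_lit 10595010093) (nat_lit 37) (nat_lit 5) (nat_lit 40) (nat_lit 5) (nat_lit 41) (nat_lit 5) (nat_lit 363) (nat_lit 297) (nat_lit 120)))) (XT.nd (nat_lit 78) (nat_lit 228) (nat_lit 0) (XT.lf (nat_lit 0) (nat_lit 36781034030) (nat_lit 228) (nat_lit 688376197) (nat_lit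 304) (nat_lit 5750262650) (nat_lit 37) (nat_lit 5) (nat_lit 40) (nat_lit 5) (nat_lit 41) (nat_lit 5) (nat_lit 364) (nat_lit 297) (nat_lit 119)) (XT.nd (nat_lit 78) (nat_lit 76) (nat_lit 0) (XT.lf (nat_lit 0) (nat_lit 8475193952) (nat_lit 152) (nat_lit 35140272002) (nat_lit 228) (nat_lit 588652182) (nat_lit 35) (nat_lit 5) (nat_lit 37) (nat_lit 5) (nat_lit 38) (nat_lit 5) (nat_lit 365) (nat_lit 297) (nat_lit 118)) (XT.lf (nat_lit 0) (nat_lit 4705022869) (nat_lit 228) (nat_lit 21305134734) (nat_lit 76) (nat_lit 19204496275) (nat_lit 34) (nat_lit 5) (nat_lit 37) (nat_lit 5) (nat_lit 35) (nat_lit 5) (nat_lit 366) (nat_lit 297) (nat_lit 117))))))) (XT.nd (nat_lit 858) (nat_lit 304) (nat_lit 0) (XT.nd (nat_lit 390) (nat_lit 228) (nat_lit 0) (XT.nd (nat_lit 156) (nat_lit 152) (nat_lit 0) (XT.nd (nat_lit 78) (nat_lit 228) (nat_lit 0) (XT.lf (nat_lit 0) (nat_lit 10142760181) (nat_lit 228) (nat_lit 6458838589)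 (nat_lit 76) (nat_lit 29653824140) (nat_lit 34) (nat_lit 5) (nat_lit 37) (nat_lit 5) (nat_lit 35) (nat_lit 5) (nat_lit 367) (nat_lit 297) (nat_lit 116)) (XT.lf (nat_lit 0) (nat_lit 9004301581) (nat_lit 228) (nat_lit 6823051172) (nat_lit 304) (nat_lit 31497554998) (nat_lit 31) (nat_lit 5) (nat_lit 34) (nat_lit 5) (nat_lit 35) (nat_lit 5) (nat_lit 368) (nat_lit 297) (nat_lit 115))) (XT.nd (nat_lit 78) (nat_lit 152) (nat_lit 0) (XT.lf (nat_lit 0) (nat_lit 21776777078) (nat_lit 304) (nat_lit 23396944277) (nat_lit 76) (nat_lit 3249931268) (nat_lit 31) (nat_lit 5) (nat_lit 35) (nat_lit 5) (nat_lit 32) (nat_lit 5) (nat_lit 369) (nat_lit 297) (nat_lit 114)) (XT.nd (nat_lit 78) (nat_lit 152) (nat_lit 0) (XT.lf (nat_lit 0) (nat_lit 27969517395) (nat_lit 304) (nat_lit 8097286598) (nat_lit 76) (nat_lit 13486615028) (nat_lit 31) (nat_lit 5) (nat_lit 35) (nat_lit 5) (nat_lit 32) (nat_lit 5) (nat_lit 370)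 (nat_lit 297) (nat_lit 113)) (XT.lf (nat_lit 0) (nat_lit 7809718578) (nat_lit 152) (nat_lit 26610750709) (nat_lit 228) (nat_lit 16294440301) (nat_lit 29) (nat_lit 5) (nat_lit 31) (nat_lit 5) (nat_lit 32) (nat_lit 5) (nat_lit 371) (nat_lit 297) (nat_lit 112))))) (XT.nd (nat_lit 234) (nat_lit 0) (nat_lit 0) (XT.nd (nat_lit 78) (nat_lit 228) (nat_lit 0) (XT.lf (nat_lit 0) (nat_lit 24355921965) (nat_lit 152) (nat_lit 16788190592) (nat_lit 228) (nat_lit 10764761369) (nat_lit 29) (nat_lit 5) (nat_lit 31) (nat_lit 5) (nat_lit 32) (nat_lit 5) (nat_lit 372) (nat_lit 297) (nat_lit 111)) (XT.nd (nat_lit 78) (nat_lit 228) (nat_lit 0) (XT.lf (nat_lit 0) (nat_lit 41394629529) (nat_lit 152) (nat_lit 6672307540) (nat_lit 228) (nat_lit 5071799791) (nat_lit 29) (nat_lit 5) (nat_lit 31) (nat_lit 5) (nat_lit 32) (nat_lit 5) (nat_lit 373) (nat_lit 297) (nat_lit 110)) (XT.lf (nat_lit 0) (nat_lit 854923319) (nat_lit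 228) (nat_lit 49822859143) (nat_lit 76) (nat_lit 3725135650) (nat_lit 26) (nat_lit 5) (nat_lit 29) (nat_lit 5) (nat_lit 27) (nat_lit 5) (nat_lit 374) (nat_lit 297) (nat_lit 109)))) (XT.nd (nat_lit 78) (nat_lit 0) (nat_lit 0) (XT.lf (nat_lit 0) (nat_lit 7040879758) (nat_lit 228) (nat_lit 34188074982) (nat_lit 76) (nat_lit 14469065992) (nat_lit 26) (nat_lit 5) (nat_lit 29) (nat_lit 5) (nat_lit 27) (nat_lit 5) (nat_lit 375) (nat_lit 297) (nat_lit 108)) (XT.nd (nat_lit 78) (nat_lit 0) (nat_lit 0) (XT.lf (nat_lit 0) (nat_lit 13410027217) (nat_lit 228) (nat_lit 18087983636) (nat_lit 76) (nat_lit 25534040603) (nat_lit 26) (nat_lit 5) (nat_lit 29) (nat_lit 5) (nat_lit 27) (nat_lit 5) (nat_lit 376) (nat_lit 297) (nat_lit 107)) (XT.lf (nat_lit 0) (nat_lit 19967930973) (nat_lit 228) (nat_lit 1508517064) (nat_lit 76) (nat_lit 36929727909) (nat_lit 26) (nat_lit 5) (nat_lit 29) (nat_lit 5) (nat_lit 27) (nat_lit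 5) (nat_lit 377) (nat_lit 297) (nat_lit 106)))))) (XT.nd (nat_lit 34398) (nat_lit 0) (nat_lit 10108) (XT.nd (nat_lit 234) (nat_lit 152) (nat_lit 0) (XT.nd (nat_lit 78) (nat_lit 0) (nat_lit 0) (XT.lf (nat_lit 0) (nat_lit 15874581917) (nat_lit 152) (nat_lit 10998335507) (nat_lit 228) (nat_lit 32944099582) (nat_lit 24) (nat_lit 5) (nat_lit 26) (nat_lit 5) (nat_lit 27) (nat_lit 5) (nat_lit 378) (nat_lit 297) (nat_lit 105)) (XT.nd (nat_lit 78) (nat_lit 0) (nat_lit 0) (XT.lf (nat_lit 0) (nat_lit 33806609659) (nat_lit 152) (nat_lit 191458295) (nat_lit 228) (nat_lit 27271728019) (nat_lit 24) (nat_lit 5) (nat_lit 26) (nat_lit 5) (nat_lit 27) (nat_lit 5) (nat_lit 379) (nat_lit 297) (nat_lit 104)) (XT.lf (nat_lit 0) (nat_lit 41439965567) (nat_lit 228) (nat_lit 10598160001) (nat_lit 76) (nat_lit 10724945982) (nat_lit 24) (nat_lit 5) (nat_lit 27) (nat_lit 5) (nat_lit 25) (nat_lit 5) (nat_lit 380) (nat_lit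 297) (nat_lit 103)))) (XT.nd (nat_lit 78) (nat_lit 0) (nat_lit 0) (XT.lf (nat_lit 0) (nat_lit 6902268274) (nat_lit 152) (nat_lit 42268993565) (nat_lit 228) (nat_lit 15127902234) (nat_lit 22) (nat_lit 5) (nat_lit 24) (nat_lit 5) (nat_lit 25) (nat_lit 5) (nat_lit 381) (nat_lit 297) (nat_lit 102)) (XT.nd (nat_lit 78) (nat_lit 0) (nat_lit 0) (XT.lf (nat_lit 0) (nat_lit 25141652731) (nat_lit 152) (nat_lit 32097791625) (nat_lit 228) (nat_lit 8638749443) (nat_lit 22) (nat_lit 5) (nat_lit 24) (nat_lit 5) (nat_lit 25) (nat_lit 5) (nat_lit 382) (nat_lit 297) (nat_lit 101)) (XT.lf (nat_lit 0) (nat_lit 43925006529) (nat_lit 152) (nat_lit 21622652924) (nat_lit 228) (nat_lit 1956998110) (nat_lit 22) (nat_lit 5) (nat_lit 24) (nat_lit 5) (nat_lit 25) (nat_lit 5) (nat_lit 383) (nat_lit 297) (nat_lit 100))))) (XT.nd (nat_lit 234) (nat_lit 0) (nat_lit 0) (XT.nd (nat_lit 78) (nat_lit 0) (nat_lit 0) (XT.lf (nat_lit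 0) (nat_lit 2626724025) (nat_lit 0) (nat_lit 2626724025) (nat_lit 988) (nat_lit 1213836239) (nat_lit 155) (nat_lit 5) (nat_lit 155) (nat_lit 3) (nat_lit 168) (nat_lit 3) (nat_lit 298) (nat_lit 298) (nat_lit 184)) (XT.nd (nat_lit 78) (nat_lit 0) (nat_lit 0) (XT.lf (nat_lit 0) (nat_lit 10726272807) (nat_lit 0) (nat_lit 299017648) (nat_lit 988) (nat_lit 2091460618) (nat_lit 155) (nat_lit 5) (nat_lit 155) (nat_lit 3) (nat_lit 168) (nat_lit 3) (nat_lit 299) (nat_lit 298) (nat_lit 183)) (XT.lf (nat_lit 76) (nat_lit 3064941962) (nat_lit 0) (nat_lit 8555923215) (nat_lit 1064) (nat_lit 1681724514) (nat_lit 156) (nat_lit 5) (nat_lit 155) (nat_lit 5) (nat_lit 169) (nat_lit 5) (nat_lit 300) (nat_lit 298) (nat_lit 182)))) (XT.nd (nat_lit 78) (nat_lit 0) (nat_lit 76) (XT.lf (nat_lit 76) (nat_lit 8722512049) (nat_lit 0) (nat_lit 3525188887) (nat_lit 1064) (nat_lit 1245939075) (nat_lit 156) (nat_lit 5) (nat_lit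 155) (nat_lit 5) (nat_lit 169) (nat_lit 5) (nat_lit 301) (nat_lit 298) (nat_lit 181)) (XT.nd (nat_lit 78) (nat_lit 0) (nat_lit 0) (XT.lf (nat_lit 76) (nat_lit 852325683) (nat_lit 0) (nat_lit 12051911291) (nat_lit 1064) (nat_lit 785895251) (nat_lit 157) (nat_lit 5) (nat_lit 156) (nat_lit 5) (nat_lit 170) (nat_lit 5) (nat_lit 302) (nat_lit 298) (nat_lit 180)) (XT.lf (nat_lit 76) (nat_lit 6698994393) (nat_lit 0) (nat_lit 6951304670) (nat_lit 1064) (nat_lit 240161396) (nat_lit 157) (nat_lit 5) (nat_lit 156) (nat_lit 5) (nat_lit 170) (nat_lit 5) (nat_lit 303) (nat_lit 298) (nat_lit 179))))))))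
noncomputable def xc206 : XT := (XT.nd (nat_lit 1716) (nat_lit 3952) (nat_lit 0) (XT.nd (nat_lit 858) (nat_lit 2432) (nat_lit 0) (XT.nd (nat_lit 390) (nat_lit 0) (nat_lit 152) (XT.nd (nat_lit 156) (nat_lit 0) (nat_lit 76) (XT.nd (nat_lit 78) (nat_lit 0) (nat_lit 76) (XT.lf (nat_lit 0) (nat_lit 302969935) (nat_lit 1064) (nat_lit 1386587170) (nat_lit 1140) (nat_lit 12407563443) (nat_lit 142) (nat_lit 5) (nat_lit 156) (nat_lit 5) (nat_lit 157) (nat_lit 5) (nat_lit 304) (nat_lit 298) (nat_lit 178)) (XT.lf (nat_lit 0) (nat_lit 926542265) (nat_lit 1064) (nat_lit 9671603496) (nat_lit 1140) (nat_lit 3709727206) (nat_lit 143) (nat_lit 5) (nat_lit 157) (nat_lit 5) (nat_lit 158) (nat_lit 5) (nat_lit 305) (nat_lit 298) (nat_lit 177))) (XT.nd (nat_lit 78) (nat_lit 0) (nat_lit 76) (XT.lf (nat_lit 0) (nat_lit 1587699165) (nat_lit 1064) (nat_lit 3681053822) (nat_lit 1140) (nat_lit 9255660774) (nat_lit 143)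 (nat_lit 5) (nat_lit 157) (nat_lit 5) (nat_lit 158) (nat_lit 5) (nat_lit 306) (nat_lit 298) (nat_lit 176)) (XT.nd (nat_lit 78) (nat_lit 0) (nat_lit 0) (XT.lf (nat_lit 0) (nat_lit 2283776503) (nat_lit 1064) (nat_lit 12218564806) (nat_lit 1140) (nat_lit 244688085) (nat_lit 144) (nat_lit 5) (nat_lit 158) (nat_lit 5) (nat_lit 159) (nat_lit 5) (nat_lit 307) (nat_lit 298) (nat_lit 175)) (XT.lf (nat_lit 0) (nat_lit 3079101955) (nat_lit 1064) (nat_lit 6036013075) (nat_lit 1140) (nat_lit 5858887771) (nat_lit 144) (nat_lit 5) (nat_lit 158) (nat_lit 5) (nat_lit 159) (nat_lit 5) (nat_lit 308) (nat_lit 298) (nat_lit 174))))) (XT.nd (nat_lit 234) (nat_lit 0) (nat_lit 76) (XT.nd (nat_lit 78) (nat_lit 0) (nat_lit 76) (XT.lf (nat_lit 76) (nat_lit 330704002) (nat_lit 0) (nat_lit 3559752839) (nat_lit 1140) (nat_lit 11317592879) (nat_lit 145) (nat_lit 5) (nat_lit 144) (nat_lit 5) (nat_lit 159) (nat_lit 5) (nat_lit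 309) (nat_lit 298) (nat_lit 173)) (XT.nd (nat_lit 78) (nat_lit 0) (nat_lit 0) (XT.lf (nat_lit 0) (nat_lit 4797759864) (nat_lit 1064) (nat_lit 8464592369) (nat_lit 1140) (nat_lit 2184646128) (nat_lit 145) (nat_lit 5) (nat_lit 159) (nat_lit 5) (nat_lit 160) (nat_lit 5) (nat_lit 310) (nat_lit 298) (nat_lit 172)) (XT.lf (nat_lit 0) (nat_lit 5757106711) (nat_lit 1064) (nat_lit 1902535745) (nat_lit 1140) (nat_lit 8032755973) (nat_lit 145) (nat_lit 5) (nat_lit 159) (nat_lit 5) (nat_lit 160) (nat_lit 5) (nat_lit 311) (nat_lit 298) (nat_lit 171)))) (XT.nd (nat_lit 78) (nat_lit 0) (nat_lit 76) (XT.lf (nat_lit 76) (nat_lit 4945276671) (nat_lit 0) (nat_lit 1837377478) (nat_lit 1140) (nat_lit 9161410649) (nat_lit 146) (nat_lit 5) (nat_lit 145) (nat_lit 5) (nat_lit 160) (nat_lit 5) (nat_lit 312) (nat_lit 298) (nat_lit 170)) (XT.nd (nat_lit 78) (nat_lit 0) (nat_lit 0) (XT.lf (nat_lit 0) (nat_lit 7888482443)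 (nat_lit 1064) (nat_lit 4213232799) (nat_lit 1140) (nat_lit 4100106600) (nat_lit 146) (nat_lit 5) (nat_lit 160) (nat_lit 5) (nat_lit 161) (nat_lit 5) (nat_lit 313) (nat_lit 298) (nat_lit 169)) (XT.lf (nat_lit 76) (nat_lit 2804780973) (nat_lit 0) (nat_lit 6258273412) (nat_lit 1140) (nat_lit 7403215508) (nat_lit 147) (nat_lit 5) (nat_lit 146) (nat_lit 5) (nat_lit 161) (nat_lit 5) (nat_lit 314) (nat_lit 298) (nat_lit 168)))))) (XT.nd (nat_lit 390) (nat_lit 1140) (nat_lit 0) (XT.nd (nat_lit 156) (nat_lit 608) (nat_lit 0) (XT.nd (nat_lit 78) (nat_lit 988) (nat_lit 0) (XT.lf (nat_lit 76) (nat_lit 10112129543) (nat_lit 0) (nat_lit 193901368) (nat_lit 1140) (nat_lit 6431650071) (nat_lit 147) (nat_lit 5) (nat_lit 146) (nat_lit 5) (nat_lit 161) (nat_lit 5) (nat_lit 315) (nat_lit 298) (nat_lit 167)) (XT.lf (nat_lit 0) (nat_lit 566676590) (nat_lit 1064) (nat_lit 11074158801) (nat_lit 1140) (nat_lit 5374786756)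 (nat_lit 133) (nat_lit 5) (nat_lit 147) (nat_lit 5) (nat_lit 148) (nat_lit 5) (nat_lit 316) (nat_lit 298) (nat_lit 166))) (XT.nd (nat_lit 78) (nat_lit 608) (nat_lit 0) (XT.lf (nat_lit 0) (nat_lit 8100939816) (nat_lit 1064) (nat_lit 4974654017) (nat_lit 1140) (nat_lit 4224533625) (nat_lit 133) (nat_lit 5) (nat_lit 147) (nat_lit 5) (nat_lit 148) (nat_lit 5) (nat_lit 317) (nat_lit 298) (nat_lit 165)) (XT.nd (nat_lit 78) (nat_lit 608) (nat_lit 0) (XT.lf (nat_lit 0) (nat_lit 14557341801) (nat_lit 1140) (nat_lit 1752172371) (nat_lit 76) (nat_lit 1283557885) (nat_lit 133) (nat_lit 5) (nat_lit 148) (nat_lit 5) (nat_lit 134) (nat_lit 5) (nat_lit 318) (nat_lit 298) (nat_lit 164)) (XT.lf (nat_lit 0) (nat_lit 5978215425) (nat_lit 608) (nat_lit 10203673310) (nat_lit 684) (nat_lit 1709987737) (nat_lit 125) (nat_lit 5) (nat_lit 133) (nat_lit 5) (nat_lit 134) (nat_lit 5) (nat_lit 319) (nat_lit 298) (nat_lit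 163))))) (XT.nd (nat_lit 234) (nat_lit 532) (nat_lit 0) (XT.nd (nat_lit 78) (nat_lit 608) (nat_lit 0) (XT.lf (nat_lit 0) (nat_lit 13969065170) (nat_lit 608) (nat_lit 3895599751) (nat_lit 684) (nat_lit 334716550) (nat_lit 125) (nat_lit 5) (nat_lit 133) (nat_lit 5) (nat_lit 134) (nat_lit 5) (nat_lit 320) (nat_lit 298) (nat_lit 162)) (XT.nd (nat_lit 78) (nat_lit 0) (nat_lit 0) (XT.lf (nat_lit 0) (nat_lit 1114056109) (nat_lit 608) (nat_lit 14801705477) (nat_lit 76) (nat_lit 2598457480) (nat_lit 117) (nat_lit 5) (nat_lit 125) (nat_lit 5) (nat_lit 118) (nat_lit 5) (nat_lit 321) (nat_lit 298) (nat_lit 161)) (XT.lf (nat_lit 0) (nat_lit 2673385846) (nat_lit 608) (nat_lit 6906705679) (nat_lit 76) (nat_lit 9256115636) (nat_lit 117) (nat_lit 5) (nat_lit 125) (nat_lit 5) (nat_lit 118) (nat_lit 5) (nat_lit 322) (nat_lit 298) (nat_lit 160)))) (XT.nd (nat_lit 78) (nat_lit 0) (nat_lit 0) (XT.lf (nat_lit 0) (nat_lit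 1242076771) (nat_lit 532) (nat_lit 3041698331) (nat_lit 608) (nat_lit 14883970278) (nat_lit 110) (nat_lit 5) (nat_lit 117) (nat_lit 5) (nat_lit 118) (nat_lit 5) (nat_lit 323) (nat_lit 298) (nat_lit 159)) (XT.nd (nat_lit 78) (nat_lit 0) (nat_lit 0) (XT.lf (nat_lit 0) (nat_lit 6040904887) (nat_lit 608) (nat_lit 9773901721) (nat_lit 76) (nat_lit 3691488590) (nat_lit 110) (nat_lit 5) (nat_lit 118) (nat_lit 5) (nat_lit 111) (nat_lit 5) (nat_lit 324) (nat_lit 298) (nat_lit 158)) (XT.lf (nat_lit 0) (nat_lit 7873579176) (nat_lit 608) (nat_lit 1414959065) (nat_lit 76) (nat_lit 10565796139) (nat_lit 110) (nat_lit 5) (nat_lit 118) (nat_lit 5) (nat_lit 111) (nat_lit 5) (nat_lit 325) (nat_lit 298) (nat_lit 157))))))) (XT.nd (nat_lit 858) (nat_lit 1748) (nat_lit 0) (XT.nd (nat_lit 390) (nat_lit 912) (nat_lit 0) (XT.nd (nat_lit 156) (nat_lit 836) (nat_lit 0) (XT.nd (nat_lit 78) (nat_lit 0) (nat_lit 0) (XT.lf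 (nat_lit 0) (nat_lit 7330751317) (nat_lit 456) (nat_lit 2493877017) (nat_lit 532) (nat_lit 10386301830) (nat_lit 104) (nat_lit 5) (nat_lit 110) (nat_lit 5) (nat_lit 111) (nat_lit 5) (nat_lit 326) (nat_lit 298) (nat_lit 156)) (XT.lf (nat_lit 0) (nat_lit 11885005385) (nat_lit 532) (nat_lit 4260604697) (nat_lit 76) (nat_lit 4431106613) (nat_lit 104) (nat_lit 5) (nat_lit 111) (nat_lit 5) (nat_lit 105) (nat_lit 5) (nat_lit 327) (nat_lit 298) (nat_lit 155))) (XT.nd (nat_lit 78) (nat_lit 380) (nat_lit 0) (XT.lf (nat_lit 0) (nat_lit 4677137341) (nat_lit 456) (nat_lit 9392975174) (nat_lit 532) (nat_lit 6881493020) (nat_lit 98) (nat_lit 5) (nat_lit 104) (nat_lit 5) (nat_lit 105) (nat_lit 5) (nat_lit 328) (nat_lit 298) (nat_lit 154)) (XT.nd (nat_lit 78) (nat_lit 380) (nat_lit 0) (XT.lf (nat_lit 0) (nat_lit 13963423162) (nat_lit 456) (nat_lit 2393770374) (nat_lit 532) (nat_lit 4979470688) (nat_lit 98) (nat_lit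 5) (nat_lit 104) (nat_lit 5) (nat_lit 105) (nat_lit 5) (nat_lit 329) (nat_lit 298) (nat_lit 153)) (XT.lf (nat_lit 0) (nat_lit 1776469944) (nat_lit 380) (nat_lit 16993368456) (nat_lit 456) (nat_lit 2961743072) (nat_lit 93) (nat_lit 5) (nat_lit 98) (nat_lit 5) (nat_lit 99) (nat_lit 5) (nat_lit 330) (nat_lit 298) (nat_lit 152))))) (XT.nd (nat_lit 234) (nat_lit 380) (nat_lit 0) (XT.nd (nat_lit 78) (nat_lit 532) (nat_lit 0) (XT.lf (nat_lit 0) (nat_lit 11320782450) (nat_lit 380) (nat_lit 10025710850) (nat_lit 456) (nat_lit 789118912) (nat_lit 93) (nat_lit 5) (nat_lit 98) (nat_lit 5) (nat_lit 99) (nat_lit 5) (nat_lit 331) (nat_lit 298) (nat_lit 151)) (XT.nd (nat_lit 78) (nat_lit 456) (nat_lit 0) (XT.lf (nat_lit 0) (nat_lit 1414230622) (nat_lit 456) (nat_lit 1421064105) (nat_lit 76) (nat_lit 19716250948) (nat_lit 92) (nat_lit 5) (nat_lit 98) (nat_lit 5) (nat_lit 93) (nat_lit 5) (nat_lit 332) (nat_lit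 298) (nat_lit 150)) (XT.lf (nat_lit 0) (nat_lit 3787410381) (nat_lit 532) (nat_lit 14618207352) (nat_lit 76) (nat_lit 4570530942) (nat_lit 86) (nat_lit 5) (nat_lit 93) (nat_lit 5) (nat_lit 87) (nat_lit 5) (nat_lit 333) (nat_lit 298) (nat_lit 149)))) (XT.nd (nat_lit 78) (nat_lit 380) (nat_lit 0) (XT.lf (nat_lit 0) (nat_lit 6268451475) (nat_lit 532) (nat_lit 4988546223) (nat_lit 76) (nat_lit 12155405323) (nat_lit 86) (nat_lit 5) (nat_lit 93) (nat_lit 5) (nat_lit 87) (nat_lit 5) (nat_lit 334) (nat_lit 298) (nat_lit 148)) (XT.nd (nat_lit 78) (nat_lit 0) (nat_lit 0) (XT.lf (nat_lit 0) (nat_lit 5021467394) (nat_lit 380) (nat_lit 3844999298) (nat_lit 456) (nat_lit 14994014867) (nat_lit 81) (nat_lit 5) (nat_lit 86) (nat_lit 5) (nat_lit 87) (nat_lit 5) (nat_lit 335) (nat_lit 298) (nat_lit 147)) (XT.lf (nat_lit 0) (nat_lit 11624091401) (nat_lit 456) (nat_lit 8930007254) (nat_lit 76) (nat_lit 3765466202)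 (nat_lit 81) (nat_lit 5) (nat_lit 87) (nat_lit 5) (nat_lit 82) (nat_lit 5) (nat_lit 336) (nat_lit 298) (nat_lit 146)))))) (XT.nd (nat_lit 468) (nat_lit 608) (nat_lit 0) (XT.nd (nat_lit 234) (nat_lit 760) (nat_lit 0) (XT.nd (nat_lit 78) (nat_lit 0) (nat_lit 0) (XT.lf (nat_lit 0) (nat_lit 1256274848) (nat_lit 380) (nat_lit 13252849468) (nat_lit 456) (nat_lit 10281968065) (nat_lit 76) (nat_lit 5) (nat_lit 81) (nat_lit 5) (nat_lit 82) (nat_lit 5) (nat_lit 337) (nat_lit 298) (nat_lit 145)) (XT.nd (nat_lit 78) (nat_lit 0) (nat_lit 0) (XT.lf (nat_lit 0) (nat_lit 11924824783) (nat_lit 380) (nat_lit 5640690983) (nat_lit 456) (nat_lit 7708717497) (nat_lit 76) (nat_lit 5) (nat_lit 81) (nat_lit 5) (nat_lit 82) (nat_lit 5) (nat_lit 338) (nat_lit 298) (nat_lit 144)) (XT.lf (nat_lit 0) (nat_lit 20729524012) (nat_lit 456) (nat_lit 2885932924) (nat_lit 76) (nat_lit 2155945100) (nat_lit 76) (nat_lit 5) (nat_lit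 82) (nat_lit 5) (nat_lit 77) (nat_lit 5) (nat_lit 339) (nat_lit 298) (nat_lit 143)))) (XT.nd (nat_lit 78) (nat_lit 456) (nat_lit 0) (XT.lf (nat_lit 0) (nat_lit 7985254862) (nat_lit 304) (nat_lit 16130736209) (nat_lit 380) (nat_lit 2163679727) (nat_lit 72) (nat_lit 5) (nat_lit 76) (nat_lit 5) (nat_lit 77) (nat_lit 5) (nat_lit 340) (nat_lit 298) (nat_lit 142)) (XT.nd (nat_lit 78) (nat_lit 380) (nat_lit 0) (XT.lf (nat_lit 0) (nat_lit 809627662) (nat_lit 380) (nat_lit 7574778222) (nat_lit 76) (nat_lit 18417829509) (nat_lit 71) (nat_lit 5) (nat_lit 76) (nat_lit 5) (nat_lit 72) (nat_lit 5) (nat_lit 341) (nat_lit 298) (nat_lit 141)) (XT.lf (nat_lit 0) (nat_lit 3507434748) (nat_lit 380) (nat_lit 350034199) (nat_lit 456) (nat_lit 23481510769) (nat_lit 66) (nat_lit 5) (nat_lit 71) (nat_lit 5) (nat_lit 72) (nat_lit 5) (nat_lit 342) (nat_lit 298) (nat_lit 140))))) (XT.nd (nat_lit 234) (nat_lit 304) (nat_lit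 0) (XT.nd (nat_lit 78) (nat_lit 304) (nat_lit 0) (XT.lf (nat_lit 0) (nat_lit 7145357456) (nat_lit 456) (nat_lit 12895200547) (nat_lit 76) (nat_lit 7846819853) (nat_lit 66) (nat_lit 5) (nat_lit 72) (nat_lit 5) (nat_lit 67) (nat_lit 5) (nat_lit 343) (nat_lit 298) (nat_lit 139)) (XT.nd (nat_lit 78) (nat_lit 304) (nat_lit 0) (XT.lf (nat_lit 0) (nat_lit 10530669427) (nat_lit 456) (nat_lit 1640170996) (nat_lit 76) (nat_lit 16281433475) (nat_lit 66) (nat_lit 5) (nat_lit 72) (nat_lit 5) (nat_lit 67) (nat_lit 5) (nat_lit 344) (nat_lit 298) (nat_lit 138)) (XT.lf (nat_lit 0) (nat_lit 10144702605) (nat_lit 304) (nat_lit 3965812637) (nat_lit 380) (nat_lit 14920821627) (nat_lit 62) (nat_lit 5) (nat_lit 66) (nat_lit 5) (nat_lit 67) (nat_lit 5) (nat_lit 345) (nat_lit 298) (nat_lit 137)))) (XT.nd (nat_lit 78) (nat_lit 304) (nat_lit 0) (XT.lf (nat_lit 0) (nat_lit 17853121865) (nat_lit 380) (nat_lit 7359651597)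 (nat_lit 76) (nat_lit 4413346316) (nat_lit 62) (nat_lit 5) (nat_lit 67) (nat_lit 5) (nat_lit 63) (nat_lit 5) (nat_lit 346) (nat_lit 298) (nat_lit 136)) (XT.nd (nat_lit 78) (nat_lit 0) (nat_lit 0) (XT.lf (nat_lit 0) (nat_lit 4557130239) (nat_lit 304) (nat_lit 17229601098) (nat_lit 380) (nat_lit 8449661846) (nat_lit 58) (nat_lit 5) (nat_lit 62) (nat_lit 5) (nat_lit 63) (nat_lit 5) (nat_lit 347) (nat_lit 298) (nat_lit 135)) (XT.lf (nat_lit 0) (nat_lit 16976665907) (nat_lit 304) (nat_lit 8931727120) (nat_lit 380) (nat_lit 4954488941) (nat_lit 58) (nat_lit 5) (nat_lit 62) (nat_lit 5) (nat_lit 63) (nat_lit 5) (nat_lit 348) (nat_lit 298) (nat_lit 134))))))))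
noncomputable def xc207 : XT := (XT.nd (nat_lit 1794) (nat_lit 684) (nat_lit 0) (XT.nd (nat_lit 858) (nat_lit 912) (nat_lit 0) (XT.nd (nat_lit 390) (nat_lit 532) (nat_lit 0) (XT.nd (nat_lit 156) (nat_lit 304) (nat_lit 0) (XT.nd (nat_lit 78) (nat_lit 304) (nat_lit 0) (XT.lf (nat_lit 0) (nat_lit 29763335930) (nat_lit 304) (nat_lit 386219011) (nat_lit 380) (nat_lit 1358743212) (nat_lit 58) (nat_lit 5) (nat_lit 62) (nat_lit 5) (nat_lit 63) (nat_lit 5) (nat_lit 349) (nat_lit 298) (nat_lit 133)) (XT.lf (nat_lit 0) (nat_lit 2482411906) (nat_lit 304) (nat_lit 21305315922) (nat_lit 76) (nat_lit 8379181737) (nat_lit 54) (nat_lit 5) (nat_lit 58) (nat_lit 5) (nat_lit 55) (nat_lit 5) (nat_lit 350) (nat_lit 298) (nat_lit 132))) (XT.nd (nat_lit 78) (nat_lit 304) (nat_lit 0) (XT.lf (nat_lit 0) (nat_lit 6429089709) (nat_lit 304) (nat_lit 8985530011) (nat_lit 76) (nat_lit 17429735640) (nat_lit 54) (nat_lit 5)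 (nat_lit 58) (nat_lit 5) (nat_lit 55) (nat_lit 5) (nat_lit 351) (nat_lit 298) (nat_lit 131)) (XT.nd (nat_lit 78) (nat_lit 0) (nat_lit 0) (XT.lf (nat_lit 0) (nat_lit 3772172522) (nat_lit 304) (nat_lit 6754351202) (nat_lit 380) (nat_lit 23014637454) (nat_lit 50) (nat_lit 5) (nat_lit 54) (nat_lit 5) (nat_lit 55) (nat_lit 5) (nat_lit 352) (nat_lit 298) (nat_lit 130)) (XT.lf (nat_lit 0) (nat_lit 14855479127) (nat_lit 380) (nat_lit 17186407821) (nat_lit 76) (nat_lit 2213733385) (nat_lit 50) (nat_lit 5) (nat_lit 55) (nat_lit 5) (nat_lit 51) (nat_lit 5) (nat_lit 353) (nat_lit 298) (nat_lit 129))))) (XT.nd (nat_lit 234) (nat_lit 304) (nat_lit 0) (XT.nd (nat_lit 78) (nat_lit 228) (nat_lit 0) (XT.lf (nat_lit 0) (nat_lit 19377435700) (nat_lit 380) (nat_lit 4298411479) (nat_lit 76) (nat_lit 11313779016) (nat_lit 50) (nat_lit 5) (nat_lit 55) (nat_lit 5) (nat_lit 51) (nat_lit 5) (nat_lit 354) (nat_lit 298)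 (nat_lit 128)) (XT.nd (nat_lit 78) (nat_lit 0) (nat_lit 0) (XT.lf (nat_lit 0) (nat_lit 9149732925) (nat_lit 228) (nat_lit 14969637618) (nat_lit 304) (nat_lit 11623758810) (nat_lit 47) (nat_lit 5) (nat_lit 50) (nat_lit 5) (nat_lit 51) (nat_lit 5) (nat_lit 355) (nat_lit 298) (nat_lit 127)) (XT.lf (nat_lit 0) (nat_lit 23084448184) (nat_lit 228) (nat_lit 5958945404) (nat_lit 304) (nat_lit 7474655622) (nat_lit 47) (nat_lit 5) (nat_lit 50) (nat_lit 5) (nat_lit 51) (nat_lit 5) (nat_lit 356) (nat_lit 298) (nat_lit 126)))) (XT.nd (nat_lit 78) (nat_lit 76) (nat_lit 0) (XT.lf (nat_lit 0) (nat_lit 85789818) (nat_lit 228) (nat_lit 34058621511) (nat_lit 304) (nat_lit 3170933434) (nat_lit 44) (nat_lit 5) (nat_lit 47) (nat_lit 5) (nat_lit 48) (nat_lit 5) (nat_lit 357) (nat_lit 298) (nat_lit 125)) (XT.nd (nat_lit 78) (nat_lit 0) (nat_lit 0) (XT.lf (nat_lit 0) (nat_lit 1429801883) (nat_lit 304) (nat_lit 23923789609)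 (nat_lit 76) (nat_lit 12776833973) (nat_lit 43) (nat_lit 5) (nat_lit 47) (nat_lit 5) (nat_lit 44) (nat_lit 5) (nat_lit 358) (nat_lit 298) (nat_lit 124)) (XT.lf (nat_lit 0) (nat_lit 6101457801) (nat_lit 304) (nat_lit 10255067410) (nat_lit 76) (nat_lit 22612598367) (nat_lit 43) (nat_lit 5) (nat_lit 47) (nat_lit 5) (nat_lit 44) (nat_lit 5) (nat_lit 359) (nat_lit 298) (nat_lit 123)))))) (XT.nd (nat_lit 468) (nat_lit 456) (nat_lit 0) (XT.nd (nat_lit 234) (nat_lit 228) (nat_lit 0) (XT.nd (nat_lit 78) (nat_lit 0) (nat_lit 0) (XT.lf (nat_lit 0) (nat_lit 3895042453) (nat_lit 228) (nat_lit 7052391757) (nat_lit 304) (nat_lit 28884528915) (nat_lit 40) (nat_lit 5) (nat_lit 43) (nat_lit 5) (nat_lit 44) (nat_lit 5) (nat_lit 360) (nat_lit 298) (nat_lit 122)) (XT.nd (nat_lit 78) (nat_lit 0) (nat_lit 0) (XT.lf (nat_lit 0) (nat_lit 16064465925) (nat_lit 304) (nat_lit 22067783150) (nat_lit 76) (nat_lit 2584673955)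 (nat_lit 40) (nat_lit 5) (nat_lit 44) (nat_lit 5) (nat_lit 41) (nat_lit 5) (nat_lit 361) (nat_lit 298) (nat_lit 121)) (XT.lf (nat_lit 0) (nat_lit 21401694837) (nat_lit 304) (nat_lit 7856982482) (nat_lit 76) (nat_lit 12367759120) (nat_lit 40) (nat_lit 5) (nat_lit 44) (nat_lit 5) (nat_lit 41) (nat_lit 5) (nat_lit 362) (nat_lit 298) (nat_lit 120)))) (XT.nd (nat_lit 78) (nat_lit 0) (nat_lit 0) (XT.lf (nat_lit 0) (nat_lit 6910539965) (nat_lit 228) (nat_lit 20051881012) (nat_lit 304) (nat_lit 15598918001) (nat_lit 37) (nat_lit 5) (nat_lit 40) (nat_lit 5) (nat_lit 41) (nat_lit 5) (nat_lit 363) (nat_lit 298) (nat_lit 119)) (XT.nd (nat_lit 78) (nat_lit 0) (nat_lit 0) (XT.lf (nat_lit 0) (nat_lit 22277740402) (nat_lit 228) (nat_lit 10488567044) (nat_lit 304) (nat_lit 10755695981) (nat_lit 37) (nat_lit 5) (nat_lit 40) (nat_lit 5) (nat_lit 41) (nat_lit 5) (nat_lit 364) (nat_lit 298) (nat_lit 118)) (XT.lf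 (nat_lit 0) (nat_lit 38101677124) (nat_lit 228) (nat_lit 639719236) (nat_lit 304) (nat_lit 5770183719) (nat_lit 37) (nat_lit 5) (nat_lit 40) (nat_lit 5) (nat_lit 41) (nat_lit 5) (nat_lit 365) (nat_lit 298) (nat_lit 117))))) (XT.nd (nat_lit 234) (nat_lit 228) (nat_lit 0) (XT.nd (nat_lit 78) (nat_lit 76) (nat_lit 0) (XT.lf (nat_lit 0) (nat_lit 8948509685) (nat_lit 152) (nat_lit 36121768762) (nat_lit 228) (nat_lit 455334070) (nat_lit 35) (nat_lit 5) (nat_lit 37) (nat_lit 5) (nat_lit 38) (nat_lit 5) (nat_lit 366) (nat_lit 298) (nat_lit 116)) (XT.nd (nat_lit 78) (nat_lit 0) (nat_lit 0) (XT.lf (nat_lit 0) (nat_lit 4989893516) (nat_lit 228) (nat_lit 21728523932) (nat_lit 76) (nat_lit 19848139441) (nat_lit 34) (nat_lit 5) (nat_lit 37) (nat_lit 5) (nat_lit 35) (nat_lit 5) (nat_lit 367) (nat_lit 298) (nat_lit 115)) (XT.lf (nat_lit 0) (nat_lit 10586576929) (nat_lit 228) (nat_lit 6443123316) (nat_lit 76)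 (nat_lit 30608980881) (nat_lit 34) (nat_lit 5) (nat_lit 37) (nat_lit 5) (nat_lit 35) (nat_lit 5) (nat_lit 368) (nat_lit 298) (nat_lit 114)))) (XT.nd (nat_lit 78) (nat_lit 0) (nat_lit 0) (XT.lf (nat_lit 0) (nat_lit 9481857329) (nat_lit 228) (nat_lit 6957779766) (nat_lit 304) (nat_lit 32300681886) (nat_lit 31) (nat_lit 5) (nat_lit 34) (nat_lit 5) (nat_lit 35) (nat_lit 5) (nat_lit 369) (nat_lit 298) (nat_lit 113)) (XT.nd (nat_lit 78) (nat_lit 0) (nat_lit 0) (XT.lf (nat_lit 0) (nat_lit 22564193289) (nat_lit 304) (nat_lit 23893910686) (nat_lit 76) (nat_lit 3414028927) (nat_lit 31) (nat_lit 5) (nat_lit 35) (nat_lit 5) (nat_lit 32) (nat_lit 5) (nat_lit 370) (nat_lit 298) (nat_lit 112)) (XT.lf (nat_lit 0) (nat_lit 28938809615) (nat_lit 304) (nat_lit 8141232460) (nat_lit 76) (nat_lit 13955873402) (nat_lit 31) (nat_lit 5) (nat_lit 35) (nat_lit 5) (nat_lit 32) (nat_lit 5) (nat_lit 371) (nat_lit 298) (nat_lit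 111))))))) (XT.nd (nat_lit 858) (nat_lit 0) (nat_lit 0) (XT.nd (nat_lit 390) (nat_lit 304) (nat_lit 0) (XT.nd (nat_lit 156) (nat_lit 228) (nat_lit 0) (XT.nd (nat_lit 78) (nat_lit 0) (nat_lit 0) (XT.lf (nat_lit 0) (nat_lit 8241032159) (nat_lit 152) (nat_lit 27340359373) (nat_lit 228) (nat_lit 16650922007) (nat_lit 29) (nat_lit 5) (nat_lit 31) (nat_lit 5) (nat_lit 32) (nat_lit 5) (nat_lit 372) (nat_lit 298) (nat_lit 110)) (XT.lf (nat_lit 0) (nat_lit 25277883142) (nat_lit 152) (nat_lit 17225123827) (nat_lit 228) (nat_lit 10959207606) (nat_lit 29) (nat_lit 5) (nat_lit 31) (nat_lit 5) (nat_lit 32) (nat_lit 5) (nat_lit 373) (nat_lit 298) (nat_lit 109))) (XT.nd (nat_lit 78) (nat_lit 228) (nat_lit 0) (XT.lf (nat_lit 0) (nat_lit 42822180568) (nat_lit 152) (nat_lit 6807707366) (nat_lit 228) (nat_lit 5099199800) (nat_lit 29) (nat_lit 5) (nat_lit 31) (nat_lit 5) (nat_lit 32) (nat_lit 5) (nat_lit 374) (nat_lit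 298) (nat_lit 108)) (XT.nd (nat_lit 78) (nat_lit 0) (nat_lit 0) (XT.lf (nat_lit 0) (nat_lit 1001754182) (nat_lit 228) (nat_lit 51127911872) (nat_lit 76) (nat_lit 3901531659) (nat_lit 26) (nat_lit 5) (nat_lit 29) (nat_lit 5) (nat_lit 27) (nat_lit 5) (nat_lit 375) (nat_lit 298) (nat_lit 107)) (XT.lf (nat_lit 0) (nat_lit 7369759707) (nat_lit 228) (nat_lit 35029607478) (nat_lit 76) (nat_lit 14965897136) (nat_lit 26) (nat_lit 5) (nat_lit 29) (nat_lit 5) (nat_lit 27) (nat_lit 5) (nat_lit 376) (nat_lit 298) (nat_lit 106))))) (XT.nd (nat_lit 234) (nat_lit 152) (nat_lit 0) (XT.nd (nat_lit 78) (nat_lit 152) (nat_lit 0) (XT.lf (nat_lit 0) (nat_lit 13926554788) (nat_lit 228) (nat_lit 18451875812) (nat_lit 76) (nat_lit 26360993049) (nat_lit 26) (nat_lit 5) (nat_lit 29) (nat_lit 5) (nat_lit 27) (nat_lit 5) (nat_lit 377) (nat_lit 298) (nat_lit 105)) (XT.nd (nat_lit 78) (nat_lit 152) (nat_lit 0) (XT.lf (nat_lit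 0) (nat_lit 20677868664) (nat_lit 228) (nat_lit 1380231476) (nat_lit 76) (nat_lit 38096776278) (nat_lit 26) (nat_lit 5) (nat_lit 29) (nat_lit 5) (nat_lit 27) (nat_lit 5) (nat_lit 378) (nat_lit 298) (nat_lit 104)) (XT.lf (nat_lit 0) (nat_lit 16522659091) (nat_lit 152) (nat_lit 11265767355) (nat_lit 228) (nat_lit 33819668207) (nat_lit 24) (nat_lit 5) (nat_lit 26) (nat_lit 5) (nat_lit 27) (nat_lit 5) (nat_lit 379) (nat_lit 298) (nat_lit 103)))) (XT.nd (nat_lit 78) (nat_lit 152) (nat_lit 0) (XT.lf (nat_lit 0) (nat_lit 34987642625) (nat_lit 152) (nat_lit 136504746) (nat_lit 228) (nat_lit 27980409605) (nat_lit 24) (nat_lit 5) (nat_lit 26) (nat_lit 5) (nat_lit 27) (nat_lit 5) (nat_lit 380) (nat_lit 298) (nat_lit 102)) (XT.nd (nat_lit 78) (nat_lit 152) (nat_lit 0) (XT.lf (nat_lit 0) (nat_lit 42786776998) (nat_lit 228) (nat_lit 10751460050) (nat_lit 76) (nat_lit 11104473852) (nat_lit 24) (nat_lit 5)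 (nat_lit 27) (nat_lit 5) (nat_lit 25) (nat_lit 5) (nat_lit 381) (nat_lit 298) (nat_lit 101)) (XT.lf (nat_lit 0) (nat_lit 7272366909) (nat_lit 152) (nat_lit 43476194560) (nat_lit 228) (nat_lit 15476372457) (nat_lit 22) (nat_lit 5) (nat_lit 24) (nat_lit 5) (nat_lit 25) (nat_lit 5) (nat_lit 382) (nat_lit 298) (nat_lit 100)))))) (XT.nd (nat_lit 34476) (nat_lit 0) (nat_lit 9120) (XT.nd (nat_lit 34242) (nat_lit 0) (nat_lit 10108) (XT.nd (nat_lit 34086) (nat_lit 0) (nat_lit 10108) (XT.lf (nat_lit 0) (nat_lit 26054184435) (nat_lit 152) (nat_lit 33001629439) (nat_lit 228) (nat_lit 8795614019) (nat_lit 22) (nat_lit 5) (nat_lit 24) (nat_lit 5) (nat_lit 25) (nat_lit 5) (nat_lit 383) (nat_lit 298) (nat_lit 99)) (XT.nd (nat_lit 78) (nat_lit 0) (nat_lit 0) (XT.lf (nat_lit 0) (nat_lit 2884187130) (nat_lit 0) (nat_lit 2884187130) (nat_lit 988) (nat_lit 881206296) (nat_lit 155) (nat_lit 5) (nat_lit 155) (nat_lit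 3) (nat_lit 168) (nat_lit 3) (nat_lit 299) (nat_lit 299) (nat_lit 182)) (XT.lf (nat_lit 0) (nat_lit 11394976301) (nat_lit 0) (nat_lit 654903486) (nat_lit 988) (nat_lit 1437612146) (nat_lit 155) (nat_lit 5) (nat_lit 155) (nat_lit 3) (nat_lit 168) (nat_lit 3) (nat_lit 300) (nat_lit 299) (nat_lit 181)))) (XT.nd (nat_lit 78) (nat_lit 0) (nat_lit 0) (XT.lf (nat_lit 76) (nat_lit 3526244987) (nat_lit 0) (nat_lit 9117180935) (nat_lit 1064) (nat_lit 1036133364) (nat_lit 156) (nat_lit 5) (nat_lit 155) (nat_lit 5) (nat_lit 169) (nat_lit 5) (nat_lit 301) (nat_lit 299) (nat_lit 180)) (XT.nd (nat_lit 78) (nat_lit 0) (nat_lit 76) (XT.lf (nat_lit 76) (nat_lit 9342784271) (nat_lit 0) (nat_lit 3926653315) (nat_lit 1064) (nat_lit 607547454) (nat_lit 156) (nat_lit 5) (nat_lit 155) (nat_lit 5) (nat_lit 169) (nat_lit 5) (nat_lit 302) (nat_lit 299) (nat_lit 179)) (XT.lf (nat_lit 76) (nat_lit 1257045062) (nat_lit 0)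 (nat_lit 12670452074) (nat_lit 1064) (nat_lit 152473508) (nat_lit 157) (nat_lit 5) (nat_lit 156) (nat_lit 5) (nat_lit 170) (nat_lit 5) (nat_lit 303) (nat_lit 299) (nat_lit 178))))) (XT.nd (nat_lit 234) (nat_lit 0) (nat_lit 76) (XT.nd (nat_lit 78) (nat_lit 0) (nat_lit 0) (XT.lf (nat_lit 0) (nat_lit 382876487) (nat_lit 1064) (nat_lit 7022599511) (nat_lit 1140) (nat_lit 6881327852) (nat_lit 142) (nat_lit 5) (nat_lit 156) (nat_lit 5) (nat_lit 157) (nat_lit 5) (nat_lit 304) (nat_lit 299) (nat_lit 177)) (XT.nd (nat_lit 78) (nat_lit 0) (nat_lit 76) (XT.lf (nat_lit 0) (nat_lit 919258760) (nat_lit 1064) (nat_lit 1057085074) (nat_lit 1140) (nat_lit 12523843961) (nat_lit 142) (nat_lit 5) (nat_lit 156) (nat_lit 5) (nat_lit 157) (nat_lit 5) (nat_lit 305) (nat_lit 299) (nat_lit 176)) (XT.lf (nat_lit 0) (nat_lit 1545216634) (nat_lit 1064) (nat_lit 9572747375) (nat_lit 1140) (nat_lit 3599835915) (nat_lit 143)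 (nat_lit 5) (nat_lit 157) (nat_lit 5) (nat_lit 158) (nat_lit 5) (nat_lit 306) (nat_lit 299) (nat_lit 175)))) (XT.nd (nat_lit 78) (nat_lit 0) (nat_lit 76) (XT.lf (nat_lit 0) (nat_lit 2208998199) (nat_lit 1064) (nat_lit 3413811430) (nat_lit 1140) (nat_lit 9318589717) (nat_lit 143) (nat_lit 5) (nat_lit 157) (nat_lit 5) (nat_lit 158) (nat_lit 5) (nat_lit 307) (nat_lit 299) (nat_lit 174)) (XT.nd (nat_lit 78) (nat_lit 0) (nat_lit 0) (XT.lf (nat_lit 0) (nat_lit 2911050372) (nat_lit 1064) (nat_lit 12191048234) (nat_lit 1140) (nat_lit 69086828) (nat_lit 144) (nat_lit 5) (nat_lit 158) (nat_lit 5) (nat_lit 159) (nat_lit 5) (nat_lit 308) (nat_lit 299) (nat_lit 173)) (XT.lf (nat_lit 0) (nat_lit 3713961008) (nat_lit 1064) (nat_lit 5834497821) (nat_lit 1140) (nat_lit 5857040910) (nat_lit 144) (nat_lit 5) (nat_lit 158) (nat_lit 5) (nat_lit 159) (nat_lit 5) (nat_lit 309) (nat_lit 299) (nat_lit 172))))))))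
noncomputable def xc208 : XT := (XT.nd (nat_lit 1716) (nat_lit 3268) (nat_lit 0) (XT.nd (nat_lit 858) (nat_lit 2432) (nat_lit 0) (XT.nd (nat_lit 390) (nat_lit 1444) (nat_lit 0) (XT.nd (nat_lit 156) (nat_lit 0) (nat_lit 76) (XT.nd (nat_lit 78) (nat_lit 0) (nat_lit 76) (XT.lf (nat_lit 76) (nat_lit 719469832) (nat_lit 0) (nat_lit 3818027833) (nat_lit 1140) (nat_lit 11109477356) (nat_lit 145) (nat_lit 5) (nat_lit 144) (nat_lit 5) (nat_lit 159) (nat_lit 5) (nat_lit 310) (nat_lit 299) (nat_lit 171)) (XT.lf (nat_lit 0) (nat_lit 5455159628) (nat_lit 1064) (nat_lit 8332494177) (nat_lit 1140) (nat_lit 2105985083) (nat_lit 145) (nat_lit 5) (nat_lit 159) (nat_lit 5) (nat_lit 160) (nat_lit 5) (nat_lit 311) (nat_lit 299) (nat_lit 170))) (XT.nd (nat_lit 78) (nat_lit 0) (nat_lit 0) (XT.lf (nat_lit 0) (nat_lit 6428331532) (nat_lit 1064) (nat_lit 1584819620) (nat_lit 1140) (nat_lit 8133738236) (nat_lit 145) (nat_lit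 5) (nat_lit 159) (nat_lit 5) (nat_lit 160) (nat_lit 5) (nat_lit 312) (nat_lit 299) (nat_lit 169)) (XT.nd (nat_lit 78) (nat_lit 0) (nat_lit 76) (XT.lf (nat_lit 76) (nat_lit 5464752734) (nat_lit 0) (nat_lit 2008940313) (nat_lit 1140) (nat_lit 8932779882) (nat_lit 146) (nat_lit 5) (nat_lit 145) (nat_lit 5) (nat_lit 160) (nat_lit 5) (nat_lit 313) (nat_lit 299) (nat_lit 168)) (XT.lf (nat_lit 0) (nat_lit 8597408729) (nat_lit 1064) (nat_lit 3962784266) (nat_lit 1140) (nat_lit 4112265800) (nat_lit 146) (nat_lit 5) (nat_lit 160) (nat_lit 5) (nat_lit 161) (nat_lit 5) (nat_lit 314) (nat_lit 299) (nat_lit 167))))) (XT.nd (nat_lit 234) (nat_lit 608) (nat_lit 0) (XT.nd (nat_lit 78) (nat_lit 988) (nat_lit 0) (XT.lf (nat_lit 76) (nat_lit 3262075356) (nat_lit 0) (nat_lit 6534973939) (nat_lit 1140) (nat_lit 7148132443) (nat_lit 147) (nat_lit 5) (nat_lit 146) (nat_lit 5) (nat_lit 161) (nat_lit 5) (nat_lit 315)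 (nat_lit 299) (nat_lit 166)) (XT.nd (nat_lit 78) (nat_lit 988) (nat_lit 0) (XT.lf (nat_lit 76) (nat_lit 10777775908) (nat_lit 0) (nat_lit 286079890) (nat_lit 1140) (nat_lit 6161318476) (nat_lit 147) (nat_lit 5) (nat_lit 146) (nat_lit 5) (nat_lit 161) (nat_lit 5) (nat_lit 316) (nat_lit 299) (nat_lit 165)) (XT.lf (nat_lit 0) (nat_lit 957723234) (nat_lit 1064) (nat_lit 11470703461) (nat_lit 1140) (nat_lit 5083369616) (nat_lit 133) (nat_lit 5) (nat_lit 147) (nat_lit 5) (nat_lit 148) (nat_lit 5) (nat_lit 317) (nat_lit 299) (nat_lit 164)))) (XT.nd (nat_lit 78) (nat_lit 608) (nat_lit 0) (XT.lf (nat_lit 0) (nat_lit 8707119803) (nat_lit 1064) (nat_lit 5186340139) (nat_lit 1140) (nat_lit 3911793185) (nat_lit 133) (nat_lit 5) (nat_lit 147) (nat_lit 5) (nat_lit 148) (nat_lit 5) (nat_lit 318) (nat_lit 299) (nat_lit 163)) (XT.nd (nat_lit 78) (nat_lit 608) (nat_lit 0) (XT.lf (nat_lit 0) (nat_lit 15406681491)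 (nat_lit 1140) (nat_lit 1438106259) (nat_lit 76) (nat_lit 1262620015) (nat_lit 133) (nat_lit 5) (nat_lit 148) (nat_lit 5) (nat_lit 134) (nat_lit 5) (nat_lit 319) (nat_lit 299) (nat_lit 162)) (XT.lf (nat_lit 0) (nat_lit 6520598747) (nat_lit 608) (nat_lit 10550837777) (nat_lit 684) (nat_lit 1344027032) (nat_lit 125) (nat_lit 5) (nat_lit 133) (nat_lit 5) (nat_lit 134) (nat_lit 5) (nat_lit 320) (nat_lit 299) (nat_lit 161)))))) (XT.nd (nat_lit 390) (nat_lit 1292) (nat_lit 0) (XT.nd (nat_lit 156) (nat_lit 532) (nat_lit 0) (XT.nd (nat_lit 78) (nat_lit 532) (nat_lit 0) (XT.lf (nat_lit 0) (nat_lit 59171448) (nat_lit 684) (nat_lit 3992557292) (nat_lit 76) (nat_lit 14680831131) (nat_lit 124) (nat_lit 5) (nat_lit 133) (nat_lit 5) (nat_lit 125) (nat_lit 5) (nat_lit 321) (nat_lit 299) (nat_lit 160)) (XT.lf (nat_lit 0) (nat_lit 1536249833) (nat_lit 608) (nat_lit 14875014511) (nat_lit 76) (nat_lit 2645760458)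 (nat_lit 117) (nat_lit 5) (nat_lit 125) (nat_lit 5) (nat_lit 118) (nat_lit 5) (nat_lit 322) (nat_lit 299) (nat_lit 159))) (XT.nd (nat_lit 78) (nat_lit 532) (nat_lit 0) (XT.lf (nat_lit 0) (nat_lit 3131036005) (nat_lit 608) (nat_lit 6753963034) (nat_lit 76) (nat_lit 9504041098) (nat_lit 117) (nat_lit 5) (nat_lit 125) (nat_lit 5) (nat_lit 118) (nat_lit 5) (nat_lit 323) (nat_lit 299) (nat_lit 158)) (XT.nd (nat_lit 78) (nat_lit 0) (nat_lit 0) (XT.lf (nat_lit 0) (nat_lit 1635754029) (nat_lit 532) (nat_lit 3146415340) (nat_lit 608) (nat_lit 14948609242) (nat_lit 110) (nat_lit 5) (nat_lit 117) (nat_lit 5) (nat_lit 118) (nat_lit 5) (nat_lit 324) (nat_lit 299) (nat_lit 157)) (XT.lf (nat_lit 0) (nat_lit 6581114141) (nat_lit 608) (nat_lit 9709309522) (nat_lit 76) (nat_lit 3789414521) (nat_lit 110) (nat_lit 5) (nat_lit 118) (nat_lit 5) (nat_lit 111) (nat_lit 5) (nat_lit 325) (nat_lit 299) (nat_lit 156)))))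 (XT.nd (nat_lit 234) (nat_lit 836) (nat_lit 0) (XT.nd (nat_lit 78) (nat_lit 456) (nat_lit 0) (XT.lf (nat_lit 0) (nat_lit 8458312868) (nat_lit 608) (nat_lit 1110020214) (nat_lit 76) (nat_lit 10870324657) (nat_lit 110) (nat_lit 5) (nat_lit 118) (nat_lit 5) (nat_lit 111) (nat_lit 5) (nat_lit 326) (nat_lit 299) (nat_lit 155)) (XT.nd (nat_lit 78) (nat_lit 0) (nat_lit 0) (XT.lf (nat_lit 0) (nat_lit 7894655718) (nat_lit 456) (nat_lit 2566393096) (nat_lit 532) (nat_lit 10345132708) (nat_lit 104) (nat_lit 5) (nat_lit 110) (nat_lit 5) (nat_lit 111) (nat_lit 5) (nat_lit 327) (nat_lit 299) (nat_lit 154)) (XT.lf (nat_lit 0) (nat_lit 12573306752) (nat_lit 532) (nat_lit 4043727404) (nat_lit 76) (nat_lit 4566229467) (nat_lit 104) (nat_lit 5) (nat_lit 111) (nat_lit 5) (nat_lit 105) (nat_lit 5) (nat_lit 328) (nat_lit 299) (nat_lit 153)))) (XT.nd (nat_lit 78) (nat_lit 380) (nat_lit 0) (XT.lf (nat_lit 0) (nat_lit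 5158767528) (nat_lit 456) (nat_lit 9658817850) (nat_lit 532) (nat_lit 6752028562) (nat_lit 98) (nat_lit 5) (nat_lit 104) (nat_lit 5) (nat_lit 105) (nat_lit 5) (nat_lit 329) (nat_lit 299) (nat_lit 152)) (XT.nd (nat_lit 78) (nat_lit 380) (nat_lit 0) (XT.lf (nat_lit 0) (nat_lit 14713700679) (nat_lit 456) (nat_lit 2450101369) (nat_lit 532) (nat_lit 4802729324) (nat_lit 98) (nat_lit 5) (nat_lit 104) (nat_lit 5) (nat_lit 105) (nat_lit 5) (nat_lit 330) (nat_lit 299) (nat_lit 151)) (XT.lf (nat_lit 0) (nat_lit 2167875184) (nat_lit 380) (nat_lit 17475144936) (nat_lit 456) (nat_lit 2730472222) (nat_lit 93) (nat_lit 5) (nat_lit 98) (nat_lit 5) (nat_lit 99) (nat_lit 5) (nat_lit 331) (nat_lit 299) (nat_lit 150))))))) (XT.nd (nat_lit 858) (nat_lit 1596) (nat_lit 0) (XT.nd (nat_lit 390) (nat_lit 760) (nat_lit 0) (XT.nd (nat_lit 156) (nat_lit 836) (nat_lit 0) (XT.nd (nat_lit 78) (nat_lit 76) (nat_lit 0) (XT.lf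 (nat_lit 0) (nat_lit 11988669168) (nat_lit 380) (nat_lit 10299273851) (nat_lit 456) (nat_lit 501993313) (nat_lit 93) (nat_lit 5) (nat_lit 98) (nat_lit 5) (nat_lit 99) (nat_lit 5) (nat_lit 332) (nat_lit 299) (nat_lit 149)) (XT.lf (nat_lit 0) (nat_lit 1752516139) (nat_lit 456) (nat_lit 1138433990) (nat_lit 76) (nat_lit 20327594466) (nat_lit 92) (nat_lit 5) (nat_lit 98) (nat_lit 5) (nat_lit 93) (nat_lit 5) (nat_lit 333) (nat_lit 299) (nat_lit 148))) (XT.nd (nat_lit 78) (nat_lit 380) (nat_lit 0) (XT.lf (nat_lit 0) (nat_lit 4191675079) (nat_lit 532) (nat_lit 14725623193) (nat_lit 76) (nat_lit 4738763462) (nat_lit 86) (nat_lit 5) (nat_lit 93) (nat_lit 5) (nat_lit 87) (nat_lit 5) (nat_lit 334) (nat_lit 299) (nat_lit 147)) (XT.nd (nat_lit 78) (nat_lit 380) (nat_lit 0) (XT.lf (nat_lit 0) (nat_lit 6738682094) (nat_lit 532) (nat_lit 4816716804) (nat_lit 76) (nat_lit 12550277766) (nat_lit 86) (nat_lit 5)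 (nat_lit 93) (nat_lit 5) (nat_lit 87) (nat_lit 5) (nat_lit 335) (nat_lit 299) (nat_lit 146)) (XT.lf (nat_lit 0) (nat_lit 5490445399) (nat_lit 380) (nat_lit 3919033638) (nat_lit 456) (nat_lit 15157891723) (nat_lit 81) (nat_lit 5) (nat_lit 86) (nat_lit 5) (nat_lit 87) (nat_lit 5) (nat_lit 336) (nat_lit 299) (nat_lit 145))))) (XT.nd (nat_lit 234) (nat_lit 380) (nat_lit 0) (XT.nd (nat_lit 78) (nat_lit 380) (nat_lit 0) (XT.lf (nat_lit 0) (nat_lit 12242149577) (nat_lit 456) (nat_lit 8880565649) (nat_lit 76) (nat_lit 3917759723) (nat_lit 81) (nat_lit 5) (nat_lit 87) (nat_lit 5) (nat_lit 82) (nat_lit 5) (nat_lit 337) (nat_lit 299) (nat_lit 144)) (XT.nd (nat_lit 78) (nat_lit 0) (nat_lit 0) (XT.lf (nat_lit 0) (nat_lit 1608193722) (nat_lit 380) (nat_lit 13600715613) (nat_lit 456) (nat_lit 10317401071) (nat_lit 76) (nat_lit 5) (nat_lit 81) (nat_lit 5) (nat_lit 82) (nat_lit 5) (nat_lit 338) (nat_lit 299)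 (nat_lit 143)) (XT.lf (nat_lit 0) (nat_lit 12587647807) (nat_lit 380) (nat_lit 5761640510) (nat_lit 456) (nat_lit 7674905200) (nat_lit 76) (nat_lit 5) (nat_lit 81) (nat_lit 5) (nat_lit 82) (nat_lit 5) (nat_lit 339) (nat_lit 299) (nat_lit 142)))) (XT.nd (nat_lit 78) (nat_lit 380) (nat_lit 0) (XT.lf (nat_lit 0) (nat_lit 21601187489) (nat_lit 456) (nat_lit 2668742938) (nat_lit 76) (nat_lit 2266574189) (nat_lit 76) (nat_lit 5) (nat_lit 82) (nat_lit 5) (nat_lit 77) (nat_lit 5) (nat_lit 340) (nat_lit 299) (nat_lit 141)) (XT.nd (nat_lit 78) (nat_lit 76) (nat_lit 0) (XT.lf (nat_lit 0) (nat_lit 8525602364) (nat_lit 304) (nat_lit 16559262492) (nat_lit 380) (nat_lit 1975304004) (nat_lit 72) (nat_lit 5) (nat_lit 76) (nat_lit 5) (nat_lit 77) (nat_lit 5) (nat_lit 341) (nat_lit 299) (nat_lit 140)) (XT.lf (nat_lit 0) (nat_lit 1075026774) (nat_lit 380) (nat_lit 7504694212) (nat_lit 76) (nat_lit 19018848357)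 (nat_lit 71) (nat_lit 5) (nat_lit 76) (nat_lit 5) (nat_lit 72) (nat_lit 5) (nat_lit 342) (nat_lit 299) (nat_lit 139)))))) (XT.nd (nat_lit 468) (nat_lit 608) (nat_lit 0) (XT.nd (nat_lit 234) (nat_lit 608) (nat_lit 0) (XT.nd (nat_lit 78) (nat_lit 0) (nat_lit 0) (XT.lf (nat_lit 0) (nat_lit 3907070173) (nat_lit 380) (nat_lit 303040567) (nat_lit 456) (nat_lit 23941445590) (nat_lit 66) (nat_lit 5) (nat_lit 71) (nat_lit 5) (nat_lit 72) (nat_lit 5) (nat_lit 343) (nat_lit 299) (nat_lit 138)) (XT.nd (nat_lit 78) (nat_lit 0) (nat_lit 0) (XT.lf (nat_lit 0) (nat_lit 7590271965) (nat_lit 456) (nat_lit 12989384247) (nat_lit 76) (nat_lit 8136955255) (nat_lit 66) (nat_lit 5) (nat_lit 72) (nat_lit 5) (nat_lit 67) (nat_lit 5) (nat_lit 344) (nat_lit 299) (nat_lit 137)) (XT.lf (nat_lit 0) (nat_lit 11070428135) (nat_lit 456) (nat_lit 1405228246) (nat_lit 76) (nat_lit 16823013185) (nat_lit 66) (nat_lit 5) (nat_lit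 72) (nat_lit 5) (nat_lit 67) (nat_lit 5) (nat_lit 345) (nat_lit 299) (nat_lit 136)))) (XT.nd (nat_lit 78) (nat_lit 304) (nat_lit 0) (XT.lf (nat_lit 0) (nat_lit 10730405800) (nat_lit 304) (nat_lit 4023448578) (nat_lit 380) (nat_lit 15141377818) (nat_lit 62) (nat_lit 5) (nat_lit 66) (nat_lit 5) (nat_lit 67) (nat_lit 5) (nat_lit 346) (nat_lit 299) (nat_lit 135)) (XT.nd (nat_lit 78) (nat_lit 304) (nat_lit 0) (XT.lf (nat_lit 0) (nat_lit 18602903192) (nat_lit 380) (nat_lit 7301006899) (nat_lit 76) (nat_lit 4604136515) (nat_lit 62) (nat_lit 5) (nat_lit 67) (nat_lit 5) (nat_lit 63) (nat_lit 5) (nat_lit 347) (nat_lit 299) (nat_lit 134)) (XT.lf (nat_lit 0) (nat_lit 4970538840) (nat_lit 304) (nat_lit 17680403391) (nat_lit 380) (nat_lit 8485805902) (nat_lit 58) (nat_lit 5) (nat_lit 62) (nat_lit 5) (nat_lit 63) (nat_lit 5) (nat_lit 348) (nat_lit 299) (nat_lit 133))))) (XT.nd (nat_lit 234) (nat_lit 304) (nat_lit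 0) (XT.nd (nat_lit 78) (nat_lit 304) (nat_lit 0) (XT.lf (nat_lit 0) (nat_lit 17754601510) (nat_lit 304) (nat_lit 9135518022) (nat_lit 380) (nat_lit 4892108269) (nat_lit 58) (nat_lit 5) (nat_lit 62) (nat_lit 5) (nat_lit 63) (nat_lit 5) (nat_lit 349) (nat_lit 299) (nat_lit 132)) (XT.nd (nat_lit 78) (nat_lit 304) (nat_lit 0) (XT.lf (nat_lit 0) (nat_lit 30917047294) (nat_lit 304) (nat_lit 335513433) (nat_lit 380) (nat_lit 1194636246) (nat_lit 58) (nat_lit 5) (nat_lit 62) (nat_lit 5) (nat_lit 63) (nat_lit 5) (nat_lit 350) (nat_lit 299) (nat_lit 131)) (XT.lf (nat_lit 0) (nat_lit 2755054630) (nat_lit 304) (nat_lit 21676210260) (nat_lit 76) (nat_lit 8694334951) (nat_lit 54) (nat_lit 5) (nat_lit 58) (nat_lit 5) (nat_lit 55) (nat_lit 5) (nat_lit 351) (nat_lit 299) (nat_lit 130)))) (XT.nd (nat_lit 78) (nat_lit 304) (nat_lit 0) (XT.lf (nat_lit 0) (nat_lit 6814360814) (nat_lit 304) (nat_lit 8994644319) (nat_lit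 76) (nat_lit 18014547866) (nat_lit 54) (nat_lit 5) (nat_lit 58) (nat_lit 5) (nat_lit 55) (nat_lit 5) (nat_lit 352) (nat_lit 299) (nat_lit 129)) (XT.nd (nat_lit 78) (nat_lit 0) (nat_lit 0) (XT.lf (nat_lit 0) (nat_lit 4143235842) (nat_lit 304) (nat_lit 6888357245) (nat_lit 380) (nat_lit 23509774165) (nat_lit 50) (nat_lit 5) (nat_lit 54) (nat_lit 5) (nat_lit 55) (nat_lit 5) (nat_lit 353) (nat_lit 299) (nat_lit 128)) (XT.lf (nat_lit 0) (nat_lit 15485544775) (nat_lit 380) (nat_lit 17446400788) (nat_lit 76) (nat_lit 2345471001) (nat_lit 50) (nat_lit 5) (nat_lit 55) (nat_lit 5) (nat_lit 51) (nat_lit 5) (nat_lit 354) (nat_lit 299) (nat_lit 127))))))))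
noncomputable def xc209 : XT := (XT.nd (nat_lit 1716) (nat_lit 152) (nat_lit 0) (XT.nd (nat_lit 858) (nat_lit 836) (nat_lit 0) (XT.nd (nat_lit 390) (nat_lit 456) (nat_lit 0) (XT.nd (nat_lit 156) (nat_lit 304) (nat_lit 0) (XT.nd (nat_lit 78) (nat_lit 228) (nat_lit 0) (XT.lf (nat_lit 0) (nat_lit 20137789134) (nat_lit 380) (nat_lit 4179209195) (nat_lit 76) (nat_lit 11716615313) (nat_lit 50) (nat_lit 5) (nat_lit 55) (nat_lit 5) (nat_lit 51) (nat_lit 5) (nat_lit 355) (nat_lit 299) (nat_lit 126)) (XT.lf (nat_lit 0) (nat_lit 9669946653) (nat_lit 228) (nat_lit 15349182920) (nat_lit 304) (nat_lit 11790687518) (nat_lit 47) (nat_lit 5) (nat_lit 50) (nat_lit 5) (nat_lit 51) (nat_lit 5) (nat_lit 356) (nat_lit 299) (nat_lit 125))) (XT.nd (nat_lit 78) (nat_lit 304) (nat_lit 0) (XT.lf (nat_lit 0) (nat_lit 24015546426) (nat_lit 228) (nat_lit 6070195488) (nat_lit 304) (nat_lit 7522405916) (nat_lit 47) (nat_lit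 5) (nat_lit 50) (nat_lit 5) (nat_lit 51) (nat_lit 5) (nat_lit 357) (nat_lit 299) (nat_lit 124)) (XT.nd (nat_lit 78) (nat_lit 76) (nat_lit 0) (XT.lf (nat_lit 0) (nat_lit 329336269) (nat_lit 228) (nat_lit 35008418482) (nat_lit 304) (nat_lit 3091677633) (nat_lit 44) (nat_lit 5) (nat_lit 47) (nat_lit 5) (nat_lit 48) (nat_lit 5) (nat_lit 358) (nat_lit 299) (nat_lit 123)) (XT.lf (nat_lit 0) (nat_lit 1638696859) (nat_lit 304) (nat_lit 24403960390) (nat_lit 76) (nat_lit 13226415922) (nat_lit 43) (nat_lit 5) (nat_lit 47) (nat_lit 5) (nat_lit 44) (nat_lit 5) (nat_lit 359) (nat_lit 299) (nat_lit 122))))) (XT.nd (nat_lit 234) (nat_lit 228) (nat_lit 0) (XT.nd (nat_lit 78) (nat_lit 228) (nat_lit 0) (XT.lf (nat_lit 0) (nat_lit 6445667476) (nat_lit 304) (nat_lit 10332095251) (nat_lit 76) (nat_lit 23355322851) (nat_lit 43) (nat_lit 5) (nat_lit 47) (nat_lit 5) (nat_lit 44) (nat_lit 5) (nat_lit 360) (nat_lit 299)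 (nat_lit 121)) (XT.nd (nat_lit 78) (nat_lit 0) (nat_lit 0) (XT.lf (nat_lit 0) (nat_lit 4240256887) (nat_lit 228) (nat_lit 7194267303) (nat_lit 304) (nat_lit 29587369151) (nat_lit 40) (nat_lit 5) (nat_lit 43) (nat_lit 5) (nat_lit 44) (nat_lit 5) (nat_lit 361) (nat_lit 299) (nat_lit 120)) (XT.lf (nat_lit 0) (nat_lit 16701095938) (nat_lit 304) (nat_lit 22503873076) (nat_lit 76) (nat_lit 2728559982) (nat_lit 40) (nat_lit 5) (nat_lit 44) (nat_lit 5) (nat_lit 41) (nat_lit 5) (nat_lit 362) (nat_lit 299) (nat_lit 119)))) (XT.nd (nat_lit 78) (nat_lit 228) (nat_lit 0) (XT.lf (nat_lit 0) (nat_lit 22193936008) (nat_lit 304) (nat_lit 7873329269) (nat_lit 76) (nat_lit 12803205300) (nat_lit 40) (nat_lit 5) (nat_lit 44) (nat_lit 5) (nat_lit 41) (nat_lit 5) (nat_lit 363) (nat_lit 299) (nat_lit 118)) (XT.nd (nat_lit 78) (nat_lit 0) (nat_lit 0) (XT.lf (nat_lit 0) (nat_lit 7335068236) (nat_lit 228) (nat_lit 20584129196)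 (nat_lit 304) (nat_lit 15914298731) (nat_lit 37) (nat_lit 5) (nat_lit 40) (nat_lit 5) (nat_lit 41) (nat_lit 5) (nat_lit 364) (nat_lit 299) (nat_lit 117)) (XT.lf (nat_lit 0) (nat_lit 23156958122) (nat_lit 228) (nat_lit 10735934495) (nat_lit 304) (nat_lit 10930224326) (nat_lit 37) (nat_lit 5) (nat_lit 40) (nat_lit 5) (nat_lit 41) (nat_lit 5) (nat_lit 365) (nat_lit 299) (nat_lit 116)))))) (XT.nd (nat_lit 390) (nat_lit 380) (nat_lit 0) (XT.nd (nat_lit 156) (nat_lit 304) (nat_lit 0) (XT.nd (nat_lit 78) (nat_lit 152) (nat_lit 0) (XT.lf (nat_lit 0) (nat_lit 39449470649) (nat_lit 228) (nat_lit 593581143) (nat_lit 304) (nat_lit 5799461527) (nat_lit 37) (nat_lit 5) (nat_lit 40) (nat_lit 5) (nat_lit 41) (nat_lit 5) (nat_lit 366) (nat_lit 299) (nat_lit 115)) (XT.lf (nat_lit 0) (nat_lit 9423449955) (nat_lit 152) (nat_lit 37136884356) (nat_lit 228) (nat_lit 326683151) (nat_lit 35) (nat_lit 5) (nat_lit 37)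 (nat_lit 5) (nat_lit 38) (nat_lit 5) (nat_lit 367) (nat_lit 299) (nat_lit 114))) (XT.nd (nat_lit 78) (nat_lit 228) (nat_lit 0) (XT.lf (nat_lit 0) (nat_lit 5275060168) (nat_lit 228) (nat_lit 22177000592) (nat_lit 76) (nat_lit 20507216651) (nat_lit 34) (nat_lit 5) (nat_lit 37) (nat_lit 5) (nat_lit 35) (nat_lit 5) (nat_lit 368) (nat_lit 299) (nat_lit 113)) (XT.nd (nat_lit 78) (nat_lit 228) (nat_lit 0) (XT.lf (nat_lit 0) (nat_lit 11035698360) (nat_lit 228) (nat_lit 6438961619) (nat_lit 76) (nat_lit 31589029945) (nat_lit 34) (nat_lit 5) (nat_lit 37) (nat_lit 5) (nat_lit 35) (nat_lit 5) (nat_lit 369) (nat_lit 299) (nat_lit 112)) (XT.lf (nat_lit 0) (nat_lit 9961832608) (nat_lit 228) (nat_lit 7100566377) (nat_lit 304) (nat_lit 33136042468) (nat_lit 31) (nat_lit 5) (nat_lit 34) (nat_lit 5) (nat_lit 35) (nat_lit 5) (nat_lit 370) (nat_lit 299) (nat_lit 111))))) (XT.nd (nat_lit 234) (nat_lit 228) (nat_lit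 0) (XT.nd (nat_lit 78) (nat_lit 152) (nat_lit 0) (XT.lf (nat_lit 0) (nat_lit 23367533358) (nat_lit 304) (nat_lit 24417550593) (nat_lit 76) (nat_lit 3579226419) (nat_lit 31) (nat_lit 5) (nat_lit 35) (nat_lit 5) (nat_lit 32) (nat_lit 5) (nat_lit 371) (nat_lit 299) (nat_lit 110)) (XT.nd (nat_lit 78) (nat_lit 152) (nat_lit 0) (XT.lf (nat_lit 0) (nat_lit 29929706204) (nat_lit 304) (nat_lit 8197918546) (nat_lit 76) (nat_lit 14435497783) (nat_lit 31) (nat_lit 5) (nat_lit 35) (nat_lit 5) (nat_lit 32) (nat_lit 5) (nat_lit 372) (nat_lit 299) (nat_lit 109)) (XT.lf (nat_lit 0) (nat_lit 8673975277) (nat_lit 152) (nat_lit 28095800753) (nat_lit 228) (nat_lit 17025695682) (nat_lit 29) (nat_lit 5) (nat_lit 31) (nat_lit 5) (nat_lit 32) (nat_lit 5) (nat_lit 373) (nat_lit 299) (nat_lit 108)))) (XT.nd (nat_lit 78) (nat_lit 228) (nat_lit 0) (XT.lf (nat_lit 0) (nat_lit 26216522698) (nat_lit 152) (nat_lit 17678994628)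 (nat_lit 228) (nat_lit 11166863460) (nat_lit 29) (nat_lit 5) (nat_lit 31) (nat_lit 5) (nat_lit 32) (nat_lit 5) (nat_lit 374) (nat_lit 299) (nat_lit 107)) (XT.nd (nat_lit 78) (nat_lit 228) (nat_lit 0) (XT.lf (nat_lit 0) (nat_lit 44281897502) (nat_lit 152) (nat_lit 6950887214) (nat_lit 228) (nat_lit 5134583198) (nat_lit 29) (nat_lit 5) (nat_lit 31) (nat_lit 5) (nat_lit 32) (nat_lit 5) (nat_lit 375) (nat_lit 299) (nat_lit 106)) (XT.lf (nat_lit 0) (nat_lit 1146033561) (nat_lit 228) (nat_lit 52483001895) (nat_lit 76) (nat_lit 4079508836) (nat_lit 26) (nat_lit 5) (nat_lit 29) (nat_lit 5) (nat_lit 27) (nat_lit 5) (nat_lit 376) (nat_lit 299) (nat_lit 105))))))) (XT.nd (nat_lit 35022) (nat_lit 0) (nat_lit 8968) (XT.nd (nat_lit 390) (nat_lit 0) (nat_lit 0) (XT.nd (nat_lit 156) (nat_lit 152) (nat_lit 0) (XT.nd (nat_lit 78) (nat_lit 0) (nat_lit 0) (XT.lf (nat_lit 0) (nat_lit 7701752259) (nat_lit 228) (nat_lit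 35906954603) (nat_lit 76) (nat_lit 15474030581) (nat_lit 26) (nat_lit 5) (nat_lit 29) (nat_lit 5) (nat_lit 27) (nat_lit 5) (nat_lit 377) (nat_lit 299) (nat_lit 104)) (XT.lf (nat_lit 0) (nat_lit 14452021102) (nat_lit 228) (nat_lit 18836945582) (nat_lit 76) (nat_lit 27209256366) (nat_lit 26) (nat_lit 5) (nat_lit 29) (nat_lit 5) (nat_lit 27) (nat_lit 5) (nat_lit 378) (nat_lit 299) (nat_lit 103))) (XT.nd (nat_lit 78) (nat_lit 152) (nat_lit 0) (XT.lf (nat_lit 0) (nat_lit 21402738384) (nat_lit 228) (nat_lit 1258059289) (nat_lit 76) (nat_lit 39295440271) (nat_lit 26) (nat_lit 5) (nat_lit 29) (nat_lit 5) (nat_lit 27) (nat_lit 5) (nat_lit 379) (nat_lit 299) (nat_lit 102)) (XT.nd (nat_lit 78) (nat_lit 0) (nat_lit 0) (XT.lf (nat_lit 0) (nat_lit 17180314278) (nat_lit 152) (nat_lit 11544810960) (nat_lit 228) (nat_lit 34727976453) (nat_lit 24) (nat_lit 5) (nat_lit 26) (nat_lit 5) (nat_lit 27) (nat_lit 5)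 (nat_lit 380) (nat_lit 299) (nat_lit 101)) (XT.lf (nat_lit 0) (nat_lit 36194529587) (nat_lit 152) (nat_lit 83386863) (nat_lit 228) (nat_lit 28716635679) (nat_lit 24) (nat_lit 5) (nat_lit 26) (nat_lit 5) (nat_lit 27) (nat_lit 5) (nat_lit 381) (nat_lit 299) (nat_lit 100))))) (XT.nd (nat_lit 34398) (nat_lit 0) (nat_lit 8892) (XT.nd (nat_lit 34242) (nat_lit 0) (nat_lit 9956) (XT.lf (nat_lit 0) (nat_lit 44168044992) (nat_lit 228) (nat_lit 10918810383) (nat_lit 76) (nat_lit 11492070779) (nat_lit 24) (nat_lit 5) (nat_lit 27) (nat_lit 5) (nat_lit 25) (nat_lit 5) (nat_lit 382) (nat_lit 299) (nat_lit 99)) (XT.nd (nat_lit 78) (nat_lit 0) (nat_lit 0) (XT.lf (nat_lit 0) (nat_lit 3139118234) (nat_lit 0) (nat_lit 3139118234) (nat_lit 988) (nat_lit 559782150) (nat_lit 155) (nat_lit 5) (nat_lit 155) (nat_lit 3) (nat_lit 168) (nat_lit 3) (nat_lit 300) (nat_lit 300) (nat_lit 180)) (XT.lf (nat_lit 0) (nat_lit 12063826541)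 (nat_lit 0) (nat_lit 1001551542) (nat_lit 988) (nat_lit 805283549) (nat_lit 155) (nat_lit 5) (nat_lit 155) (nat_lit 3) (nat_lit 168) (nat_lit 3) (nat_lit 301) (nat_lit 300) (nat_lit 179)))) (XT.nd (nat_lit 78) (nat_lit 1064) (nat_lit 0) (XT.lf (nat_lit 76) (nat_lit 3980184628) (nat_lit 0) (nat_lit 9677792248) (nat_lit 1064) (nat_lit 411130188) (nat_lit 156) (nat_lit 5) (nat_lit 155) (nat_lit 5) (nat_lit 169) (nat_lit 5) (nat_lit 302) (nat_lit 300) (nat_lit 178)) (XT.nd (nat_lit 78) (nat_lit 0) (nat_lit 76) (XT.lf (nat_lit 0) (nat_lit 10985333) (nat_lit 1064) (nat_lit 4312090519) (nat_lit 1140) (nat_lit 9949983469) (nat_lit 141) (nat_lit 5) (nat_lit 155) (nat_lit 5) (nat_lit 156) (nat_lit 5) (nat_lit 303) (nat_lit 300) (nat_lit 177)) (XT.lf (nat_lit 0) (nat_lit 453216580) (nat_lit 1064) (nat_lit 12835004000) (nat_lit 1140) (nat_lit 1194348104) (nat_lit 142) (nat_lit 5) (nat_lit 156) (nat_lit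 5) (nat_lit 157) (nat_lit 5) (nat_lit 304) (nat_lit 300) (nat_lit 176)))))) (XT.nd (nat_lit 468) (nat_lit 0) (nat_lit 152) (XT.nd (nat_lit 234) (nat_lit 0) (nat_lit 76) (XT.nd (nat_lit 78) (nat_lit 0) (nat_lit 0) (XT.lf (nat_lit 0) (nat_lit 983877080) (nat_lit 1064) (nat_lit 6872986515) (nat_lit 1140) (nat_lit 6839276052) (nat_lit 142) (nat_lit 5) (nat_lit 156) (nat_lit 5) (nat_lit 157) (nat_lit 5) (nat_lit 305) (nat_lit 300) (nat_lit 175)) (XT.nd (nat_lit 78) (nat_lit 0) (nat_lit 76) (XT.lf (nat_lit 0) (nat_lit 1519180502) (nat_lit 1064) (nat_lit 739000557) (nat_lit 1140) (nat_lit 12658305265) (nat_lit 142) (nat_lit 5) (nat_lit 156) (nat_lit 5) (nat_lit 157) (nat_lit 5) (nat_lit 306) (nat_lit 300) (nat_lit 174)) (XT.lf (nat_lit 0) (nat_lit 2148532415) (nat_lit 1064) (nat_lit 9493256003) (nat_lit 1140) (nat_lit 3499344700) (nat_lit 143) (nat_lit 5) (nat_lit 157) (nat_lit 5) (nat_lit 158) (nat_lit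 5) (nat_lit 307) (nat_lit 300) (nat_lit 173)))) (XT.nd (nat_lit 78) (nat_lit 0) (nat_lit 0) (XT.lf (nat_lit 0) (nat_lit 2816005311) (nat_lit 1064) (nat_lit 3160231800) (nat_lit 1140) (nat_lit 9395733533) (nat_lit 143) (nat_lit 5) (nat_lit 157) (nat_lit 5) (nat_lit 158) (nat_lit 5) (nat_lit 308) (nat_lit 300) (nat_lit 172)) (XT.nd (nat_lit 78) (nat_lit 0) (nat_lit 76) (XT.lf (nat_lit 76) (nat_lit 3422763724) (nat_lit 0) (nat_lit 103296540) (nat_lit 1140) (nat_lit 12083024005) (nat_lit 144) (nat_lit 5) (nat_lit 143) (nat_lit 5) (nat_lit 158) (nat_lit 5) (nat_lit 309) (nat_lit 300) (nat_lit 171)) (XT.lf (nat_lit 0) (nat_lit 4336724917) (nat_lit 1064) (nat_lit 5648899663) (nat_lit 1140) (nat_lit 5865334383) (nat_lit 144) (nat_lit 5) (nat_lit 158) (nat_lit 5) (nat_lit 159) (nat_lit 5) (nat_lit 310) (nat_lit 300) (nat_lit 170))))) (XT.nd (nat_lit 234) (nat_lit 0) (nat_lit 76) (XT.nd (nat_lit 78) (nat_lit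 0) (nat_lit 76) (XT.lf (nat_lit 76) (nat_lit 1098151400) (nat_lit 0) (nat_lit 4075355367) (nat_lit 1140) (nat_lit 10926555335) (nat_lit 145) (nat_lit 5) (nat_lit 144) (nat_lit 5) (nat_lit 159) (nat_lit 5) (nat_lit 311) (nat_lit 300) (nat_lit 169)) (XT.nd (nat_lit 78) (nat_lit 0) (nat_lit 0) (XT.lf (nat_lit 0) (nat_lit 6102806280) (nat_lit 1064) (nat_lit 8218593084) (nat_lit 1140) (nat_lit 2033241901) (nat_lit 145) (nat_lit 5) (nat_lit 159) (nat_lit 5) (nat_lit 160) (nat_lit 5) (nat_lit 312) (nat_lit 300) (nat_lit 168)) (XT.lf (nat_lit 0) (nat_lit 7091076491) (nat_lit 1064) (nat_lit 1279086618) (nat_lit 1140) (nat_lit 8245786564) (nat_lit 145) (nat_lit 5) (nat_lit 159) (nat_lit 5) (nat_lit 160) (nat_lit 5) (nat_lit 313) (nat_lit 300) (nat_lit 167)))) (XT.nd (nat_lit 78) (nat_lit 0) (nat_lit 76) (XT.lf (nat_lit 76) (nat_lit 5978509402) (nat_lit 0) (nat_lit 2178965815) (nat_lit 1140) (nat_lit 8726191606)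 (nat_lit 146) (nat_lit 5) (nat_lit 145) (nat_lit 5) (nat_lit 160) (nat_lit 5) (nat_lit 314) (nat_lit 300) (nat_lit 166)) (XT.nd (nat_lit 78) (nat_lit 0) (nat_lit 0) (XT.lf (nat_lit 0) (nat_lit 9300492469) (nat_lit 1064) (nat_lit 3726454752) (nat_lit 1140) (nat_lit 4131152675) (nat_lit 146) (nat_lit 5) (nat_lit 160) (nat_lit 5) (nat_lit 161) (nat_lit 5) (nat_lit 315) (nat_lit 300) (nat_lit 165)) (XT.lf (nat_lit 76) (nat_lit 3711668178) (nat_lit 0) (nat_lit 6814869256) (nat_lit 1140) (nat_lit 6912788944) (nat_lit 147) (nat_lit 5) (nat_lit 146) (nat_lit 5) (nat_lit 161) (nat_lit 5) (nat_lit 316) (nat_lit 300) (nat_lit 164))))))))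
noncomputable def xc210 : XT := (XT.nd (nat_lit 1716) (nat_lit 2888) (nat_lit 0) (XT.nd (nat_lit 858) (nat_lit 2204) (nat_lit 0) (XT.nd (nat_lit 390) (nat_lit 1140) (nat_lit 0) (XT.nd (nat_lit 156) (nat_lit 608) (nat_lit 0) (XT.nd (nat_lit 78) (nat_lit 988) (nat_lit 0) (XT.lf (nat_lit 76) (nat_lit 11442595168) (nat_lit 0) (nat_lit 376066265) (nat_lit 1140) (nat_lit 5909471164) (nat_lit 147) (nat_lit 5) (nat_lit 146) (nat_lit 5) (nat_lit 161) (nat_lit 5) (nat_lit 317) (nat_lit 300) (nat_lit 163)) (XT.lf (nat_lit 0) (nat_lit 1339029486) (nat_lit 1064) (nat_lit 11875452236) (nat_lit 1140) (nat_lit 4809194541) (nat_lit 133) (nat_lit 5) (nat_lit 147) (nat_lit 5) (nat_lit 148) (nat_lit 5) (nat_lit 318) (nat_lit 300) (nat_lit 162))) (XT.nd (nat_lit 78) (nat_lit 608) (nat_lit 0) (XT.lf (nat_lit 0) (nat_lit 9310638790) (nat_lit 1064) (nat_lit 5400792160) (nat_lit 1140) (nat_lit 3614898278) (nat_lit 133)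 (nat_lit 5) (nat_lit 147) (nat_lit 5) (nat_lit 148) (nat_lit 5) (nat_lit 319) (nat_lit 300) (nat_lit 161)) (XT.nd (nat_lit 78) (nat_lit 608) (nat_lit 0) (XT.lf (nat_lit 0) (nat_lit 16257815329) (nat_lit 1140) (nat_lit 1135664299) (nat_lit 76) (nat_lit 1244466372) (nat_lit 133) (nat_lit 5) (nat_lit 148) (nat_lit 5) (nat_lit 134) (nat_lit 5) (nat_lit 320) (nat_lit 300) (nat_lit 160)) (XT.lf (nat_lit 0) (nat_lit 7058413767) (nat_lit 608) (nat_lit 10906060496) (nat_lit 684) (nat_lit 991039956) (nat_lit 125) (nat_lit 5) (nat_lit 133) (nat_lit 5) (nat_lit 134) (nat_lit 5) (nat_lit 321) (nat_lit 300) (nat_lit 159))))) (XT.nd (nat_lit 234) (nat_lit 532) (nat_lit 0) (XT.nd (nat_lit 78) (nat_lit 532) (nat_lit 0) (XT.lf (nat_lit 0) (nat_lit 435347595) (nat_lit 684) (nat_lit 3771722763) (nat_lit 76) (nat_lit 15075304499) (nat_lit 124) (nat_lit 5) (nat_lit 133) (nat_lit 5) (nat_lit 125) (nat_lit 5) (nat_lit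 322) (nat_lit 300) (nat_lit 158)) (XT.nd (nat_lit 78) (nat_lit 0) (nat_lit 0) (XT.lf (nat_lit 0) (nat_lit 1948792264) (nat_lit 608) (nat_lit 14971804931) (nat_lit 76) (nat_lit 2696242003) (nat_lit 117) (nat_lit 5) (nat_lit 125) (nat_lit 5) (nat_lit 118) (nat_lit 5) (nat_lit 323) (nat_lit 300) (nat_lit 157)) (XT.lf (nat_lit 0) (nat_lit 3580748576) (nat_lit 608) (nat_lit 6617300357) (nat_lit 76) (nat_lit 9761112556) (nat_lit 117) (nat_lit 5) (nat_lit 125) (nat_lit 5) (nat_lit 118) (nat_lit 5) (nat_lit 324) (nat_lit 300) (nat_lit 156)))) (XT.nd (nat_lit 78) (nat_lit 0) (nat_lit 0) (XT.lf (nat_lit 0) (nat_lit 2020781927) (nat_lit 532) (nat_lit 3253500854) (nat_lit 608) (nat_lit 15037108857) (nat_lit 110) (nat_lit 5) (nat_lit 117) (nat_lit 5) (nat_lit 118) (nat_lit 5) (nat_lit 325) (nat_lit 300) (nat_lit 155)) (XT.nd (nat_lit 78) (nat_lit 0) (nat_lit 0) (XT.lf (nat_lit 0) (nat_lit 7116922630) (nat_lit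 608) (nat_lit 9663319271) (nat_lit 76) (nat_lit 3891014077) (nat_lit 110) (nat_lit 5) (nat_lit 118) (nat_lit 5) (nat_lit 111) (nat_lit 5) (nat_lit 326) (nat_lit 300) (nat_lit 154)) (XT.lf (nat_lit 0) (nat_lit 9040581736) (nat_lit 608) (nat_lit 815874669) (nat_lit 76) (nat_lit 11184703446) (nat_lit 110) (nat_lit 5) (nat_lit 118) (nat_lit 5) (nat_lit 111) (nat_lit 5) (nat_lit 327) (nat_lit 300) (nat_lit 153)))))) (XT.nd (nat_lit 390) (nat_lit 912) (nat_lit 0) (XT.nd (nat_lit 156) (nat_lit 836) (nat_lit 0) (XT.nd (nat_lit 78) (nat_lit 0) (nat_lit 0) (XT.lf (nat_lit 0) (nat_lit 8455731285) (nat_lit 456) (nat_lit 2641216700) (nat_lit 532) (nat_lit 10322978275) (nat_lit 104) (nat_lit 5) (nat_lit 110) (nat_lit 5) (nat_lit 111) (nat_lit 5) (nat_lit 328) (nat_lit 300) (nat_lit 152)) (XT.lf (nat_lit 0) (nat_lit 13263213283) (nat_lit 532) (nat_lit 3840130720) (nat_lit 76) (nat_lit 4705280312) (nat_lit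 104) (nat_lit 5) (nat_lit 111) (nat_lit 5) (nat_lit 105) (nat_lit 5) (nat_lit 329) (nat_lit 300) (nat_lit 151))) (XT.nd (nat_lit 78) (nat_lit 380) (nat_lit 0) (XT.lf (nat_lit 0) (nat_lit 5635253683) (nat_lit 456) (nat_lit 9933551204) (nat_lit 532) (nat_lit 6637962736) (nat_lit 98) (nat_lit 5) (nat_lit 104) (nat_lit 5) (nat_lit 105) (nat_lit 5) (nat_lit 330) (nat_lit 300) (nat_lit 150)) (XT.nd (nat_lit 78) (nat_lit 380) (nat_lit 0) (XT.lf (nat_lit 0) (nat_lit 15467464252) (nat_lit 456) (nat_lit 2509011030) (nat_lit 532) (nat_lit 4639406657) (nat_lit 98) (nat_lit 5) (nat_lit 104) (nat_lit 5) (nat_lit 105) (nat_lit 5) (nat_lit 331) (nat_lit 300) (nat_lit 149)) (XT.lf (nat_lit 0) (nat_lit 2551613619) (nat_lit 380) (nat_lit 17972983435) (nat_lit 456) (nat_lit 2510639624) (nat_lit 93) (nat_lit 5) (nat_lit 98) (nat_lit 5) (nat_lit 99) (nat_lit 5) (nat_lit 332) (nat_lit 300) (nat_lit 148))))) (XT.nd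 (nat_lit 234) (nat_lit 380) (nat_lit 0) (XT.nd (nat_lit 78) (nat_lit 532) (nat_lit 0) (XT.lf (nat_lit 0) (nat_lit 12657748834) (nat_lit 380) (nat_lit 10582605612) (nat_lit 456) (nat_lit 224095089) (nat_lit 93) (nat_lit 5) (nat_lit 98) (nat_lit 5) (nat_lit 99) (nat_lit 5) (nat_lit 333) (nat_lit 300) (nat_lit 147)) (XT.nd (nat_lit 78) (nat_lit 456) (nat_lit 0) (XT.lf (nat_lit 0) (nat_lit 2083966727) (nat_lit 456) (nat_lit 865996343) (nat_lit 76) (nat_lit 20956138474) (nat_lit 92) (nat_lit 5) (nat_lit 98) (nat_lit 5) (nat_lit 93) (nat_lit 5) (nat_lit 334) (nat_lit 300) (nat_lit 146)) (XT.lf (nat_lit 0) (nat_lit 4591383656) (nat_lit 532) (nat_lit 14855269748) (nat_lit 76) (nat_lit 4910256738) (nat_lit 86) (nat_lit 5) (nat_lit 93) (nat_lit 5) (nat_lit 87) (nat_lit 5) (nat_lit 335) (nat_lit 300) (nat_lit 145)))) (XT.nd (nat_lit 78) (nat_lit 380) (nat_lit 0) (XT.lf (nat_lit 0) (nat_lit 7206821513)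 (nat_lit 532) (nat_lit 4658187103) (nat_lit 76) (nat_lit 12955262189) (nat_lit 86) (nat_lit 5) (nat_lit 93) (nat_lit 5) (nat_lit 87) (nat_lit 5) (nat_lit 336) (nat_lit 300) (nat_lit 144)) (XT.nd (nat_lit 78) (nat_lit 0) (nat_lit 0) (XT.lf (nat_lit 0) (nat_lit 5955219072) (nat_lit 380) (nat_lit 3997660696) (nat_lit 456) (nat_lit 15343099216) (nat_lit 81) (nat_lit 5) (nat_lit 86) (nat_lit 5) (nat_lit 87) (nat_lit 5) (nat_lit 337) (nat_lit 300) (nat_lit 143)) (XT.lf (nat_lit 0) (nat_lit 12863288542) (nat_lit 456) (nat_lit 8847857514) (nat_lit 76) (nat_lit 4072364374) (nat_lit 81) (nat_lit 5) (nat_lit 87) (nat_lit 5) (nat_lit 82) (nat_lit 5) (nat_lit 338) (nat_lit 300) (nat_lit 142))))))) (XT.nd (nat_lit 858) (nat_lit 1140) (nat_lit 0) (XT.nd (nat_lit 390) (nat_lit 988) (nat_lit 0) (XT.nd (nat_lit 156) (nat_lit 380) (nat_lit 0) (XT.nd (nat_lit 78) (nat_lit 0) (nat_lit 0) (XT.lf (nat_lit 0) (nat_lit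 1952632038) (nat_lit 380) (nat_lit 13961871836) (nat_lit 456) (nat_lit 10369569878) (nat_lit 76) (nat_lit 5) (nat_lit 81) (nat_lit 5) (nat_lit 82) (nat_lit 5) (nat_lit 339) (nat_lit 300) (nat_lit 141)) (XT.lf (nat_lit 0) (nat_lit 13252842780) (nat_lit 380) (nat_lit 5888989486) (nat_lit 456) (nat_lit 7655294856) (nat_lit 76) (nat_lit 5) (nat_lit 81) (nat_lit 5) (nat_lit 82) (nat_lit 5) (nat_lit 340) (nat_lit 300) (nat_lit 140))) (XT.nd (nat_lit 78) (nat_lit 380) (nat_lit 0) (XT.lf (nat_lit 0) (nat_lit 22484662605) (nat_lit 456) (nat_lit 2462474777) (nat_lit 76) (nat_lit 2377884391) (nat_lit 76) (nat_lit 5) (nat_lit 82) (nat_lit 5) (nat_lit 77) (nat_lit 5) (nat_lit 341) (nat_lit 300) (nat_lit 139)) (XT.nd (nat_lit 78) (nat_lit 76) (nat_lit 0) (XT.lf (nat_lit 0) (nat_lit 9064893723) (nat_lit 304) (nat_lit 17003824509) (nat_lit 380) (nat_lit 1795816668) (nat_lit 72) (nat_lit 5) (nat_lit 76) (nat_lit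 5) (nat_lit 77) (nat_lit 5) (nat_lit 342) (nat_lit 300) (nat_lit 138)) (XT.lf (nat_lit 0) (nat_lit 1334547142) (nat_lit 380) (nat_lit 7449575489) (nat_lit 76) (nat_lit 19635114593) (nat_lit 71) (nat_lit 5) (nat_lit 76) (nat_lit 5) (nat_lit 72) (nat_lit 5) (nat_lit 343) (nat_lit 300) (nat_lit 137))))) (XT.nd (nat_lit 234) (nat_lit 608) (nat_lit 0) (XT.nd (nat_lit 78) (nat_lit 0) (nat_lit 0) (XT.lf (nat_lit 0) (nat_lit 4301794186) (nat_lit 380) (nat_lit 257937554) (nat_lit 456) (nat_lit 24429214359) (nat_lit 66) (nat_lit 5) (nat_lit 71) (nat_lit 5) (nat_lit 72) (nat_lit 5) (nat_lit 344) (nat_lit 300) (nat_lit 136)) (XT.nd (nat_lit 78) (nat_lit 0) (nat_lit 0) (XT.lf (nat_lit 0) (nat_lit 8035299178) (nat_lit 456) (nat_lit 13103194046) (nat_lit 76) (nat_lit 8432652947) (nat_lit 66) (nat_lit 5) (nat_lit 72) (nat_lit 5) (nat_lit 67) (nat_lit 5) (nat_lit 345) (nat_lit 300) (nat_lit 135)) (XT.lf (nat_lit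 0) (nat_lit 11613530353) (nat_lit 456) (nat_lit 1179548464) (nat_lit 76) (nat_lit 17377790021) (nat_lit 66) (nat_lit 5) (nat_lit 72) (nat_lit 5) (nat_lit 67) (nat_lit 5) (nat_lit 346) (nat_lit 300) (nat_lit 134)))) (XT.nd (nat_lit 78) (nat_lit 304) (nat_lit 0) (XT.lf (nat_lit 0) (nat_lit 11317528754) (nat_lit 304) (nat_lit 4086334675) (nat_lit 380) (nat_lit 15381585353) (nat_lit 62) (nat_lit 5) (nat_lit 66) (nat_lit 5) (nat_lit 67) (nat_lit 5) (nat_lit 347) (nat_lit 300) (nat_lit 133)) (XT.nd (nat_lit 78) (nat_lit 304) (nat_lit 0) (XT.lf (nat_lit 0) (nat_lit 19362882711) (nat_lit 380) (nat_lit 7256643530) (nat_lit 76) (nat_lit 4797298606) (nat_lit 62) (nat_lit 5) (nat_lit 67) (nat_lit 5) (nat_lit 63) (nat_lit 5) (nat_lit 348) (nat_lit 300) (nat_lit 132)) (XT.lf (nat_lit 0) (nat_lit 5380466292) (nat_lit 304) (nat_lit 18148523345) (nat_lit 380) (nat_lit 8535510817) (nat_lit 58) (nat_lit 5) (nat_lit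 62) (nat_lit 5) (nat_lit 63) (nat_lit 5) (nat_lit 349) (nat_lit 300) (nat_lit 131)))))) (XT.nd (nat_lit 468) (nat_lit 532) (nat_lit 0) (XT.nd (nat_lit 234) (nat_lit 304) (nat_lit 0) (XT.nd (nat_lit 78) (nat_lit 304) (nat_lit 0) (XT.lf (nat_lit 0) (nat_lit 18540454396) (nat_lit 304) (nat_lit 9349105749) (nat_lit 380) (nat_lit 4839969321) (nat_lit 58) (nat_lit 5) (nat_lit 62) (nat_lit 5) (nat_lit 63) (nat_lit 5) (nat_lit 350) (nat_lit 300) (nat_lit 130)) (XT.nd (nat_lit 78) (nat_lit 304) (nat_lit 0) (XT.lf (nat_lit 0) (nat_lit 32090398365) (nat_lit 304) (nat_lit 286862513) (nat_lit 380) (nat_lit 1037366405) (nat_lit 58) (nat_lit 5) (nat_lit 62) (nat_lit 5) (nat_lit 63) (nat_lit 5) (nat_lit 351) (nat_lit 300) (nat_lit 129)) (XT.lf (nat_lit 0) (nat_lit 3024500846) (nat_lit 304) (nat_lit 22073630945) (nat_lit 76) (nat_lit 9015281657) (nat_lit 54) (nat_lit 5) (nat_lit 58) (nat_lit 5) (nat_lit 55)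 (nat_lit 5) (nat_lit 352) (nat_lit 300) (nat_lit 128)))) (XT.nd (nat_lit 78) (nat_lit 304) (nat_lit 0) (XT.lf (nat_lit 0) (nat_lit 7200145596) (nat_lit 304) (nat_lit 9018983044) (nat_lit 76) (nat_lit 18613349989) (nat_lit 54) (nat_lit 5) (nat_lit 58) (nat_lit 5) (nat_lit 55) (nat_lit 5) (nat_lit 353) (nat_lit 300) (nat_lit 127)) (XT.nd (nat_lit 78) (nat_lit 0) (nat_lit 0) (XT.lf (nat_lit 0) (nat_lit 4510626654) (nat_lit 304) (nat_lit 7030322795) (nat_lit 380) (nat_lit 24030976134) (nat_lit 50) (nat_lit 5) (nat_lit 54) (nat_lit 5) (nat_lit 55) (nat_lit 5) (nat_lit 354) (nat_lit 300) (nat_lit 126)) (XT.lf (nat_lit 0) (nat_lit 16123927004) (nat_lit 380) (nat_lit 17728865988) (nat_lit 76) (nat_lit 2477410788) (nat_lit 50) (nat_lit 5) (nat_lit 55) (nat_lit 5) (nat_lit 51) (nat_lit 5) (nat_lit 355) (nat_lit 300) (nat_lit 125))))) (XT.nd (nat_lit 234) (nat_lit 304) (nat_lit 0) (XT.nd (nat_lit 78) (nat_lit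 228) (nat_lit 0) (XT.lf (nat_lit 0) (nat_lit 20910676096) (nat_lit 380) (nat_lit 4070675933) (nat_lit 76) (nat_lit 12127895963) (nat_lit 50) (nat_lit 5) (nat_lit 55) (nat_lit 5) (nat_lit 51) (nat_lit 5) (nat_lit 356) (nat_lit 300) (nat_lit 124)) (XT.nd (nat_lit 78) (nat_lit 0) (nat_lit 0) (XT.lf (nat_lit 0) (nat_lit 10191661359) (nat_lit 228) (nat_lit 15744106682) (nat_lit 304) (nat_lit 11973059236) (nat_lit 47) (nat_lit 5) (nat_lit 50) (nat_lit 5) (nat_lit 51) (nat_lit 5) (nat_lit 357) (nat_lit 300) (nat_lit 123)) (XT.lf (nat_lit 0) (nat_lit 24960883020) (nat_lit 228) (nat_lit 6188658900) (nat_lit 304) (nat_lit 7581719931) (nat_lit 47) (nat_lit 5) (nat_lit 50) (nat_lit 5) (nat_lit 51) (nat_lit 5) (nat_lit 358) (nat_lit 300) (nat_lit 122)))) (XT.nd (nat_lit 78) (nat_lit 76) (nat_lit 0) (XT.lf (nat_lit 0) (nat_lit 566356292) (nat_lit 228) (nat_lit 35990840256) (nat_lit 304) (nat_lit 3020054503)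 (nat_lit 44) (nat_lit 5) (nat_lit 47) (nat_lit 5) (nat_lit 48) (nat_lit 5) (nat_lit 359) (nat_lit 300) (nat_lit 121)) (XT.nd (nat_lit 78) (nat_lit 0) (nat_lit 0) (XT.lf (nat_lit 0) (nat_lit 1844329553) (nat_lit 304) (nat_lit 24912172230) (nat_lit 76) (nat_lit 13685680762) (nat_lit 43) (nat_lit 5) (nat_lit 47) (nat_lit 5) (nat_lit 44) (nat_lit 5) (nat_lit 360) (nat_lit 300) (nat_lit 120)) (XT.lf (nat_lit 0) (nat_lit 6790951858) (nat_lit 304) (nat_lit 10424672698) (nat_lit 76) (nat_lit 24116635316) (nat_lit 43) (nat_lit 5) (nat_lit 47) (nat_lit 5) (nat_lit 44) (nat_lit 5) (nat_lit 361) (nat_lit 300) (nat_lit 119))))))))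
noncomputable def xc211 : XT := (XT.nd (nat_lit 36036) (nat_lit 0) (nat_lit 7068) (XT.nd (nat_lit 858) (nat_lit 532) (nat_lit 0) (XT.nd (nat_lit 390) (nat_lit 456) (nat_lit 0) (XT.nd (nat_lit 156) (nat_lit 228) (nat_lit 0) (XT.nd (nat_lit 78) (nat_lit 0) (nat_lit 0) (XT.lf (nat_lit 0) (nat_lit 4582718775) (nat_lit 228) (nat_lit 7344399963) (nat_lit 304) (nat_lit 30320691393) (nat_lit 40) (nat_lit 5) (nat_lit 43) (nat_lit 5) (nat_lit 44) (nat_lit 5) (nat_lit 362) (nat_lit 300) (nat_lit 118)) (XT.lf (nat_lit 0) (nat_lit 17347944667) (nat_lit 304) (nat_lit 22966015786) (nat_lit 76) (nat_lit 2872954068) (nat_lit 40) (nat_lit 5) (nat_lit 44) (nat_lit 5) (nat_lit 41) (nat_lit 5) (nat_lit 363) (nat_lit 300) (nat_lit 117))) (XT.nd (nat_lit 78) (nat_lit 228) (nat_lit 0) (XT.lf (nat_lit 0) (nat_lit 23001322875) (nat_lit 304) (nat_lit 7902758775) (nat_lit 76) (nat_lit 13248017271) (nat_lit 40) (nat_lit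 5) (nat_lit 44) (nat_lit 5) (nat_lit 41) (nat_lit 5) (nat_lit 364) (nat_lit 300) (nat_lit 116)) (XT.nd (nat_lit 78) (nat_lit 0) (nat_lit 0) (XT.lf (nat_lit 0) (nat_lit 7759863495) (nat_lit 228) (nat_lit 21136323401) (nat_lit 304) (nat_lit 16247899989) (nat_lit 37) (nat_lit 5) (nat_lit 40) (nat_lit 5) (nat_lit 41) (nat_lit 5) (nat_lit 365) (nat_lit 300) (nat_lit 115)) (XT.lf (nat_lit 0) (nat_lit 24050446682) (nat_lit 228) (nat_lit 10994585665) (nat_lit 304) (nat_lit 11118492509) (nat_lit 37) (nat_lit 5) (nat_lit 40) (nat_lit 5) (nat_lit 41) (nat_lit 5) (nat_lit 366) (nat_lit 300) (nat_lit 114))))) (XT.nd (nat_lit 234) (nat_lit 228) (nat_lit 0) (XT.nd (nat_lit 78) (nat_lit 228) (nat_lit 0) (XT.lf (nat_lit 0) (nat_lit 40825944881) (nat_lit 228) (nat_lit 549809097) (nat_lit 304) (nat_lit 5837873968) (nat_lit 37) (nat_lit 5) (nat_lit 40) (nat_lit 5) (nat_lit 41) (nat_lit 5) (nat_lit 367) (nat_lit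 300) (nat_lit 113)) (XT.nd (nat_lit 78) (nat_lit 76) (nat_lit 0) (XT.lf (nat_lit 0) (nat_lit 9900785350) (nat_lit 152) (nat_lit 38186387749) (nat_lit 228) (nat_lit 202341934) (nat_lit 35) (nat_lit 5) (nat_lit 37) (nat_lit 5) (nat_lit 38) (nat_lit 5) (nat_lit 368) (nat_lit 300) (nat_lit 112)) (XT.lf (nat_lit 0) (nat_lit 5561005296) (nat_lit 228) (nat_lit 22650606341) (nat_lit 76) (nat_lit 21182413381) (nat_lit 34) (nat_lit 5) (nat_lit 37) (nat_lit 5) (nat_lit 35) (nat_lit 5) (nat_lit 369) (nat_lit 300) (nat_lit 111)))) (XT.nd (nat_lit 78) (nat_lit 228) (nat_lit 0) (XT.lf (nat_lit 0) (nat_lit 11490743411) (nat_lit 228) (nat_lit 6446009819) (nat_lit 76) (nat_lit 32594934077) (nat_lit 34) (nat_lit 5) (nat_lit 37) (nat_lit 5) (nat_lit 35) (nat_lit 5) (nat_lit 370) (nat_lit 300) (nat_lit 110)) (XT.nd (nat_lit 78) (nat_lit 0) (nat_lit 0) (XT.lf (nat_lit 0) (nat_lit 10444983523) (nat_lit 228) (nat_lit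 7251422201) (nat_lit 304) (nat_lit 34004136490) (nat_lit 31) (nat_lit 5) (nat_lit 34) (nat_lit 5) (nat_lit 35) (nat_lit 5) (nat_lit 371) (nat_lit 300) (nat_lit 109)) (XT.lf (nat_lit 0) (nat_lit 24187716932) (nat_lit 304) (nat_lit 24967988870) (nat_lit 76) (nat_lit 3745776201) (nat_lit 31) (nat_lit 5) (nat_lit 35) (nat_lit 5) (nat_lit 32) (nat_lit 5) (nat_lit 372) (nat_lit 300) (nat_lit 108)))))) (XT.nd (nat_lit 468) (nat_lit 152) (nat_lit 0) (XT.nd (nat_lit 234) (nat_lit 228) (nat_lit 0) (XT.nd (nat_lit 78) (nat_lit 152) (nat_lit 0) (XT.lf (nat_lit 0) (nat_lit 30943284355) (nat_lit 304) (nat_lit 8267071403) (nat_lit 76) (nat_lit 14926012221) (nat_lit 31) (nat_lit 5) (nat_lit 35) (nat_lit 5) (nat_lit 32) (nat_lit 5) (nat_lit 373) (nat_lit 300) (nat_lit 107)) (XT.nd (nat_lit 78) (nat_lit 0) (nat_lit 0) (XT.lf (nat_lit 0) (nat_lit 9109246052) (nat_lit 152) (nat_lit 28877623404) (nat_lit 228) (nat_lit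 17418873956) (nat_lit 29) (nat_lit 5) (nat_lit 31) (nat_lit 5) (nat_lit 32) (nat_lit 5) (nat_lit 374) (nat_lit 300) (nat_lit 106)) (XT.lf (nat_lit 0) (nat_lit 27172971307) (nat_lit 152) (nat_lit 18150091290) (nat_lit 228) (nat_lit 11387701794) (nat_lit 29) (nat_lit 5) (nat_lit 31) (nat_lit 5) (nat_lit 32) (nat_lit 5) (nat_lit 375) (nat_lit 300) (nat_lit 105)))) (XT.nd (nat_lit 78) (nat_lit 228) (nat_lit 0) (XT.lf (nat_lit 0) (nat_lit 45775357269) (nat_lit 152) (nat_lit 7101867057) (nat_lit 228) (nat_lit 5177778393) (nat_lit 29) (nat_lit 5) (nat_lit 31) (nat_lit 5) (nat_lit 32) (nat_lit 5) (nat_lit 376) (nat_lit 300) (nat_lit 104)) (XT.nd (nat_lit 78) (nat_lit 0) (nat_lit 0) (XT.lf (nat_lit 0) (nat_lit 1288084239) (nat_lit 228) (nat_lit 53889005447) (nat_lit 76) (nat_lit 4259327627) (nat_lit 26) (nat_lit 5) (nat_lit 29) (nat_lit 5) (nat_lit 27) (nat_lit 5) (nat_lit 377) (nat_lit 300) (nat_lit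 103)) (XT.lf (nat_lit 0) (nat_lit 8037338488) (nat_lit 228) (nat_lit 36820584110) (nat_lit 76) (nat_lit 15994012203) (nat_lit 26) (nat_lit 5) (nat_lit 29) (nat_lit 5) (nat_lit 27) (nat_lit 5) (nat_lit 378) (nat_lit 300) (nat_lit 102))))) (XT.nd (nat_lit 234) (nat_lit 0) (nat_lit 0) (XT.nd (nat_lit 78) (nat_lit 152) (nat_lit 0) (XT.lf (nat_lit 0) (nat_lit 14987070727) (nat_lit 228) (nat_lit 19243239259) (nat_lit 76) (nat_lit 28079670663) (nat_lit 26) (nat_lit 5) (nat_lit 29) (nat_lit 5) (nat_lit 27) (nat_lit 5) (nat_lit 379) (nat_lit 300) (nat_lit 101)) (XT.nd (nat_lit 78) (nat_lit 152) (nat_lit 0) (XT.lf (nat_lit 0) (nat_lit 22143353537) (nat_lit 228) (nat_lit 1141612048) (nat_lit 76) (nat_lit 40526863291) (nat_lit 26) (nat_lit 5) (nat_lit 29) (nat_lit 5) (nat_lit 27) (nat_lit 5) (nat_lit 380) (nat_lit 300) (nat_lit 100)) (XT.lf (nat_lit 0) (nat_lit 17848401069) (nat_lit 152) (nat_lit 11835608663)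 (nat_lit 228) (nat_lit 35669634956) (nat_lit 24) (nat_lit 5) (nat_lit 26) (nat_lit 5) (nat_lit 27) (nat_lit 5) (nat_lit 381) (nat_lit 300) (nat_lit 99)))) (XT.nd (nat_lit 34320) (nat_lit 0) (nat_lit 9956) (XT.lf (nat_lit 0) (nat_lit 37428595923) (nat_lit 152) (nat_lit 31959706) (nat_lit 228) (nat_lit 29480871846) (nat_lit 24) (nat_lit 5) (nat_lit 26) (nat_lit 5) (nat_lit 27) (nat_lit 5) (nat_lit 382) (nat_lit 300) (nat_lit 98)) (XT.nd (nat_lit 78) (nat_lit 0) (nat_lit 0) (XT.lf (nat_lit 0) (nat_lit 3392030107) (nat_lit 0) (nat_lit 3392030107) (nat_lit 988) (nat_lit 248683886) (nat_lit 155) (nat_lit 5) (nat_lit 155) (nat_lit 3) (nat_lit 168) (nat_lit 3) (nat_lit 301) (nat_lit 301) (nat_lit 178)) (XT.lf (nat_lit 0) (nat_lit 12733971095) (nat_lit 0) (nat_lit 1339827847) (nat_lit 988) (nat_lit 192759086) (nat_lit 155) (nat_lit 5) (nat_lit 155) (nat_lit 3) (nat_lit 168) (nat_lit 3) (nat_lit 302)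 (nat_lit 301) (nat_lit 177))))))) (XT.nd (nat_lit 858) (nat_lit 1824) (nat_lit 0) (XT.nd (nat_lit 390) (nat_lit 0) (nat_lit 152) (XT.nd (nat_lit 156) (nat_lit 0) (nat_lit 76) (XT.nd (nat_lit 78) (nat_lit 0) (nat_lit 0) (XT.lf (nat_lit 0) (nat_lit 191156604) (nat_lit 1064) (nat_lit 10045654510) (nat_lit 1140) (nat_lit 4234670182) (nat_lit 141) (nat_lit 5) (nat_lit 155) (nat_lit 5) (nat_lit 156) (nat_lit 5) (nat_lit 303) (nat_lit 301) (nat_lit 176)) (XT.lf (nat_lit 0) (nat_lit 600011386) (nat_lit 1064) (nat_lit 4109545465) (nat_lit 1140) (nat_lit 9972450465) (nat_lit 141) (nat_lit 5) (nat_lit 155) (nat_lit 5) (nat_lit 156) (nat_lit 5) (nat_lit 304) (nat_lit 301) (nat_lit 175))) (XT.nd (nat_lit 78) (nat_lit 0) (nat_lit 0) (XT.lf (nat_lit 0) (nat_lit 1039157056) (nat_lit 1064) (nat_lit 12870257051) (nat_lit 1140) (nat_lit 988924533) (nat_lit 142) (nat_lit 5) (nat_lit 156) (nat_lit 5) (nat_lit 157)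 (nat_lit 5) (nat_lit 305) (nat_lit 301) (nat_lit 174)) (XT.nd (nat_lit 78) (nat_lit 0) (nat_lit 0) (XT.lf (nat_lit 0) (nat_lit 1569067159) (nat_lit 1064) (nat_lit 6739567305) (nat_lit 1140) (nat_lit 6810227134) (nat_lit 142) (nat_lit 5) (nat_lit 156) (nat_lit 5) (nat_lit 157) (nat_lit 5) (nat_lit 306) (nat_lit 301) (nat_lit 173)) (XT.lf (nat_lit 0) (nat_lit 2104245011) (nat_lit 1064) (nat_lit 431453287) (nat_lit 1140) (nat_lit 12810649376) (nat_lit 142) (nat_lit 5) (nat_lit 156) (nat_lit 5) (nat_lit 157) (nat_lit 5) (nat_lit 307) (nat_lit 301) (nat_lit 172))))) (XT.nd (nat_lit 234) (nat_lit 0) (nat_lit 76) (XT.nd (nat_lit 78) (nat_lit 0) (nat_lit 0) (XT.lf (nat_lit 0) (nat_lit 2737975927) (nat_lit 1064) (nat_lit 9432428467) (nat_lit 1140) (nat_lit 3407806715) (nat_lit 143) (nat_lit 5) (nat_lit 157) (nat_lit 5) (nat_lit 158) (nat_lit 5) (nat_lit 308) (nat_lit 301) (nat_lit 171)) (XT.nd (nat_lit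 78) (nat_lit 0) (nat_lit 0) (XT.lf (nat_lit 0) (nat_lit 3410182111) (nat_lit 1064) (nat_lit 2919480291) (nat_lit 1140) (nat_lit 9486811048) (nat_lit 143) (nat_lit 5) (nat_lit 157) (nat_lit 5) (nat_lit 158) (nat_lit 5) (nat_lit 309) (nat_lit 301) (nat_lit 170)) (XT.lf (nat_lit 76) (nat_lit 3857715310) (nat_lit 0) (nat_lit 272171839) (nat_lit 1140) (nat_lit 11931202651) (nat_lit 144) (nat_lit 5) (nat_lit 143) (nat_lit 5) (nat_lit 158) (nat_lit 5) (nat_lit 310) (nat_lit 301) (nat_lit 169)))) (XT.nd (nat_lit 78) (nat_lit 0) (nat_lit 0) (XT.lf (nat_lit 0) (nat_lit 4948818445) (nat_lit 1064) (nat_lit 5478435376) (nat_lit 1140) (nat_lit 5883487125) (nat_lit 144) (nat_lit 5) (nat_lit 158) (nat_lit 5) (nat_lit 159) (nat_lit 5) (nat_lit 311) (nat_lit 301) (nat_lit 168)) (XT.nd (nat_lit 78) (nat_lit 0) (nat_lit 76) (XT.lf (nat_lit 76) (nat_lit 1467694559) (nat_lit 0) (nat_lit 4332206186) (nat_lit 1140)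 (nat_lit 10767778008) (nat_lit 145) (nat_lit 5) (nat_lit 144) (nat_lit 5) (nat_lit 159) (nat_lit 5) (nat_lit 312) (nat_lit 301) (nat_lit 167)) (XT.lf (nat_lit 0) (nat_lit 6742099219) (nat_lit 1064) (nat_lit 8122162924) (nat_lit 1140) (nat_lit 1966118945) (nat_lit 145) (nat_lit 5) (nat_lit 159) (nat_lit 5) (nat_lit 160) (nat_lit 5) (nat_lit 313) (nat_lit 301) (nat_lit 166)))))) (XT.nd (nat_lit 468) (nat_lit 1216) (nat_lit 0) (XT.nd (nat_lit 234) (nat_lit 912) (nat_lit 0) (XT.nd (nat_lit 78) (nat_lit 0) (nat_lit 0) (XT.lf (nat_lit 0) (nat_lit 7746729903) (nat_lit 1064) (nat_lit 984461204) (nat_lit 1140) (nat_lit 8368771604) (nat_lit 145) (nat_lit 5) (nat_lit 159) (nat_lit 5) (nat_lit 160) (nat_lit 5) (nat_lit 314) (nat_lit 301) (nat_lit 165)) (XT.nd (nat_lit 78) (nat_lit 0) (nat_lit 76) (XT.lf (nat_lit 76) (nat_lit 6487598010) (nat_lit 0) (nat_lit 2347791564) (nat_lit 1140) (nat_lit 8540648038)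 (nat_lit 146) (nat_lit 5) (nat_lit 145) (nat_lit 5) (nat_lit 160) (nat_lit 5) (nat_lit 315) (nat_lit 301) (nat_lit 164)) (XT.lf (nat_lit 0) (nat_lit 9999114632) (nat_lit 1064) (nat_lit 3503426034) (nat_lit 1140) (nat_lit 4156603799) (nat_lit 146) (nat_lit 5) (nat_lit 160) (nat_lit 5) (nat_lit 161) (nat_lit 5) (nat_lit 316) (nat_lit 301) (nat_lit 163)))) (XT.nd (nat_lit 78) (nat_lit 988) (nat_lit 0) (XT.lf (nat_lit 76) (nat_lit 4154558012) (nat_lit 0) (nat_lit 7098348323) (nat_lit 1140) (nat_lit 6696204781) (nat_lit 147) (nat_lit 5) (nat_lit 146) (nat_lit 5) (nat_lit 161) (nat_lit 5) (nat_lit 317) (nat_lit 301) (nat_lit 162)) (XT.nd (nat_lit 78) (nat_lit 988) (nat_lit 0) (XT.lf (nat_lit 76) (nat_lit 12107756313) (nat_lit 0) (nat_lit 464079311) (nat_lit 1140) (nat_lit 5675136045) (nat_lit 147) (nat_lit 5) (nat_lit 146) (nat_lit 5) (nat_lit 161) (nat_lit 5) (nat_lit 318) (nat_lit 301) (nat_lit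 161)) (XT.lf (nat_lit 0) (nat_lit 1711535704) (nat_lit 1064) (nat_lit 12288863198) (nat_lit 1140) (nat_lit 4551287171) (nat_lit 133) (nat_lit 5) (nat_lit 147) (nat_lit 5) (nat_lit 148) (nat_lit 5) (nat_lit 319) (nat_lit 301) (nat_lit 160))))) (XT.nd (nat_lit 234) (nat_lit 608) (nat_lit 0) (XT.nd (nat_lit 78) (nat_lit 608) (nat_lit 0) (XT.lf (nat_lit 0) (nat_lit 9912613618) (nat_lit 1064) (nat_lit 5618298832) (nat_lit 1140) (nat_lit 3332876093) (nat_lit 133) (nat_lit 5) (nat_lit 147) (nat_lit 5) (nat_lit 148) (nat_lit 5) (nat_lit 320) (nat_lit 301) (nat_lit 159)) (XT.nd (nat_lit 78) (nat_lit 608) (nat_lit 0) (XT.lf (nat_lit 0) (nat_lit 17112156814) (nat_lit 1140) (nat_lit 843987082) (nat_lit 76) (nat_lit 1228984600) (nat_lit 133) (nat_lit 5) (nat_lit 148) (nat_lit 5) (nat_lit 134) (nat_lit 5) (nat_lit 321) (nat_lit 301) (nat_lit 158)) (XT.lf (nat_lit 0) (nat_lit 7592719727) (nat_lit 608) (nat_lit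 11269718496) (nat_lit 684) (nat_lit 650040750) (nat_lit 125) (nat_lit 5) (nat_lit 133) (nat_lit 5) (nat_lit 134) (nat_lit 5) (nat_lit 322) (nat_lit 301) (nat_lit 157)))) (XT.nd (nat_lit 78) (nat_lit 532) (nat_lit 0) (XT.lf (nat_lit 0) (nat_lit 801316876) (nat_lit 684) (nat_lit 3563815677) (nat_lit 76) (nat_lit 15484249876) (nat_lit 124) (nat_lit 5) (nat_lit 133) (nat_lit 5) (nat_lit 125) (nat_lit 5) (nat_lit 323) (nat_lit 301) (nat_lit 156)) (XT.nd (nat_lit 78) (nat_lit 0) (nat_lit 0) (XT.lf (nat_lit 0) (nat_lit 2352674955) (nat_lit 608) (nat_lit 15091559499) (nat_lit 76) (nat_lit 2749896472) (nat_lit 117) (nat_lit 5) (nat_lit 125) (nat_lit 5) (nat_lit 118) (nat_lit 5) (nat_lit 324) (nat_lit 301) (nat_lit 155)) (XT.lf (nat_lit 0) (nat_lit 4023529212) (nat_lit 608) (nat_lit 6496013950) (nat_lit 76) (nat_lit 10027506329) (nat_lit 117) (nat_lit 5) (nat_lit 125) (nat_lit 5) (nat_lit 118) (nat_lit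 5) (nat_lit 325) (nat_lit 301) (nat_lit 154))))))))
noncomputable def xc212 : XT := (XT.nd (nat_lit 1716) (nat_lit 2432) (nat_lit 0) (XT.nd (nat_lit 858) (nat_lit 1520) (nat_lit 0) (XT.nd (nat_lit 390) (nat_lit 1368) (nat_lit 0) (XT.nd (nat_lit 156) (nat_lit 456) (nat_lit 0) (XT.nd (nat_lit 78) (nat_lit 0) (nat_lit 0) (XT.lf (nat_lit 0) (nat_lit 2398075456) (nat_lit 532) (nat_lit 3363070299) (nat_lit 608) (nat_lit 15148926560) (nat_lit 110) (nat_lit 5) (nat_lit 117) (nat_lit 5) (nat_lit 118) (nat_lit 5) (nat_lit 326) (nat_lit 301) (nat_lit 153)) (XT.lf (nat_lit 0) (nat_lit 7649381262) (nat_lit 608) (nat_lit 9635309964) (nat_lit 76) (nat_lit 3996355227) (nat_lit 110) (nat_lit 5) (nat_lit 118) (nat_lit 5) (nat_lit 111) (nat_lit 5) (nat_lit 327) (nat_lit 301) (nat_lit 152))) (XT.nd (nat_lit 78) (nat_lit 456) (nat_lit 0) (XT.lf (nat_lit 0) (nat_lit 9621460307) (nat_lit 608) (nat_lit 531701506) (nat_lit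 76) (nat_lit 11509187003) (nat_lit 110) (nat_lit 5) (nat_lit 118) (nat_lit 5) (nat_lit 111) (nat_lit 5) (nat_lit 328) (nat_lit 301) (nat_lit 151)) (XT.nd (nat_lit 78) (nat_lit 0) (nat_lit 0) (XT.lf (nat_lit 0) (nat_lit 9015026652) (nat_lit 456) (nat_lit 2718409475) (nat_lit 532) (nat_lit 10319246552) (nat_lit 104) (nat_lit 5) (nat_lit 110) (nat_lit 5) (nat_lit 111) (nat_lit 5) (nat_lit 329) (nat_lit 301) (nat_lit 150)) (XT.lf (nat_lit 0) (nat_lit 13955866330) (nat_lit 532) (nat_lit 3649077213) (nat_lit 76) (nat_lit 4848384203) (nat_lit 104) (nat_lit 5) (nat_lit 111) (nat_lit 5) (nat_lit 105) (nat_lit 5) (nat_lit 330) (nat_lit 301) (nat_lit 149))))) (XT.nd (nat_lit 234) (nat_lit 532) (nat_lit 0) (XT.nd (nat_lit 78) (nat_lit 380) (nat_lit 0) (XT.lf (nat_lit 0) (nat_lit 6107566198) (nat_lit 456) (nat_lit 10217389411) (nat_lit 532) (nat_lit 6538650601) (nat_lit 98) (nat_lit 5) (nat_lit 104) (nat_lit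 5) (nat_lit 105) (nat_lit 5) (nat_lit 331) (nat_lit 301) (nat_lit 148)) (XT.nd (nat_lit 78) (nat_lit 380) (nat_lit 0) (XT.lf (nat_lit 0) (nat_lit 16225910417) (nat_lit 456) (nat_lit 2570525701) (nat_lit 532) (nat_lit 4488830588) (nat_lit 98) (nat_lit 5) (nat_lit 104) (nat_lit 5) (nat_lit 105) (nat_lit 5) (nat_lit 332) (nat_lit 301) (nat_lit 147)) (XT.lf (nat_lit 0) (nat_lit 2928569397) (nat_lit 380) (nat_lit 18487273467) (nat_lit 456) (nat_lit 2301533548) (nat_lit 93) (nat_lit 5) (nat_lit 98) (nat_lit 5) (nat_lit 99) (nat_lit 5) (nat_lit 333) (nat_lit 301) (nat_lit 146)))) (XT.nd (nat_lit 78) (nat_lit 456) (nat_lit 0) (XT.lf (nat_lit 0) (nat_lit 44438675) (nat_lit 456) (nat_lit 10831022117) (nat_lit 76) (nat_lit 13284251521) (nat_lit 92) (nat_lit 5) (nat_lit 98) (nat_lit 5) (nat_lit 93) (nat_lit 5) (nat_lit 334) (nat_lit 301) (nat_lit 145)) (XT.nd (nat_lit 78) (nat_lit 456) (nat_lit 0) (XT.lf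 (nat_lit 0) (nat_lit 2409352261) (nat_lit 456) (nat_lit 602985125) (nat_lit 76) (nat_lit 21602464418) (nat_lit 92) (nat_lit 5) (nat_lit 98) (nat_lit 5) (nat_lit 93) (nat_lit 5) (nat_lit 335) (nat_lit 301) (nat_lit 144)) (XT.lf (nat_lit 0) (nat_lit 4987357162) (nat_lit 532) (nat_lit 15006722787) (nat_lit 76) (nat_lit 5085211129) (nat_lit 86) (nat_lit 5) (nat_lit 93) (nat_lit 5) (nat_lit 87) (nat_lit 5) (nat_lit 336) (nat_lit 301) (nat_lit 143)))))) (XT.nd (nat_lit 390) (nat_lit 760) (nat_lit 0) (XT.nd (nat_lit 156) (nat_lit 380) (nat_lit 0) (XT.nd (nat_lit 78) (nat_lit 380) (nat_lit 0) (XT.lf (nat_lit 0) (nat_lit 7673736834) (nat_lit 532) (nat_lit 4512296742) (nat_lit 76) (nat_lit 13370761500) (nat_lit 86) (nat_lit 5) (nat_lit 93) (nat_lit 5) (nat_lit 87) (nat_lit 5) (nat_lit 337) (nat_lit 301) (nat_lit 142)) (XT.lf (nat_lit 0) (nat_lit 6416711266) (nat_lit 380) (nat_lit 4080882107) (nat_lit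 456) (nat_lit 15549335016) (nat_lit 81) (nat_lit 5) (nat_lit 86) (nat_lit 5) (nat_lit 87) (nat_lit 5) (nat_lit 338) (nat_lit 301) (nat_lit 141))) (XT.nd (nat_lit 78) (nat_lit 380) (nat_lit 0) (XT.lf (nat_lit 0) (nat_lit 13488488243) (nat_lit 456) (nat_lit 8831339141) (nat_lit 76) (nat_lit 4229479088) (nat_lit 81) (nat_lit 5) (nat_lit 87) (nat_lit 5) (nat_lit 82) (nat_lit 5) (nat_lit 339) (nat_lit 301) (nat_lit 140)) (XT.nd (nat_lit 78) (nat_lit 0) (nat_lit 0) (XT.lf (nat_lit 0) (nat_lit 2290400843) (nat_lit 380) (nat_lit 14336553002) (nat_lit 456) (nat_lit 10438076877) (nat_lit 76) (nat_lit 5) (nat_lit 81) (nat_lit 5) (nat_lit 82) (nat_lit 5) (nat_lit 340) (nat_lit 301) (nat_lit 139)) (XT.lf (nat_lit 0) (nat_lit 13921486163) (nat_lit 380) (nat_lit 6022770832) (nat_lit 456) (nat_lit 7649439044) (nat_lit 76) (nat_lit 5) (nat_lit 81) (nat_lit 5) (nat_lit 82) (nat_lit 5) (nat_lit 341) (nat_lit 301)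 (nat_lit 138))))) (XT.nd (nat_lit 234) (nat_lit 380) (nat_lit 0) (XT.nd (nat_lit 78) (nat_lit 380) (nat_lit 0) (XT.lf (nat_lit 0) (nat_lit 23381126785) (nat_lit 456) (nat_lit 2266455111) (nat_lit 76) (nat_lit 2490047556) (nat_lit 76) (nat_lit 5) (nat_lit 82) (nat_lit 5) (nat_lit 77) (nat_lit 5) (nat_lit 342) (nat_lit 301) (nat_lit 137)) (XT.nd (nat_lit 78) (nat_lit 76) (nat_lit 0) (XT.lf (nat_lit 0) (nat_lit 9604088426) (nat_lit 304) (nat_lit 17464720790) (nat_lit 380) (nat_lit 1624649736) (nat_lit 72) (nat_lit 5) (nat_lit 76) (nat_lit 5) (nat_lit 77) (nat_lit 5) (nat_lit 343) (nat_lit 301) (nat_lit 136)) (XT.lf (nat_lit 0) (nat_lit 1588806919) (nat_lit 380) (nat_lit 7408891248) (nat_lit 76) (nat_lit 20267245405) (nat_lit 71) (nat_lit 5) (nat_lit 76) (nat_lit 5) (nat_lit 72) (nat_lit 5) (nat_lit 344) (nat_lit 301) (nat_lit 135)))) (XT.nd (nat_lit 78) (nat_lit 0) (nat_lit 0) (XT.lf (nat_lit 0)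 (nat_lit 4692429600) (nat_lit 380) (nat_lit 214592422) (nat_lit 456) (nat_lit 24944846376) (nat_lit 66) (nat_lit 5) (nat_lit 71) (nat_lit 5) (nat_lit 72) (nat_lit 5) (nat_lit 345) (nat_lit 301) (nat_lit 134)) (XT.nd (nat_lit 78) (nat_lit 0) (nat_lit 0) (XT.lf (nat_lit 0) (nat_lit 8481202205) (nat_lit 456) (nat_lit 13236254305) (nat_lit 76) (nat_lit 8734260147) (nat_lit 66) (nat_lit 5) (nat_lit 72) (nat_lit 5) (nat_lit 67) (nat_lit 5) (nat_lit 346) (nat_lit 301) (nat_lit 133)) (XT.lf (nat_lit 0) (nat_lit 12160813983) (nat_lit 456) (nat_lit 962473207) (nat_lit 76) (nat_lit 17946334996) (nat_lit 66) (nat_lit 5) (nat_lit 72) (nat_lit 5) (nat_lit 67) (nat_lit 5) (nat_lit 347) (nat_lit 301) (nat_lit 132))))))) (XT.nd (nat_lit 858) (nat_lit 988) (nat_lit 0) (XT.nd (nat_lit 390) (nat_lit 836) (nat_lit 0) (XT.nd (nat_lit 156) (nat_lit 304) (nat_lit 0) (XT.nd (nat_lit 78) (nat_lit 0) (nat_lit 0) (XT.lf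 (nat_lit 0) (nat_lit 11907041213) (nat_lit 304) (nat_lit 4154426308) (nat_lit 380) (nat_lit 15641285529) (nat_lit 62) (nat_lit 5) (nat_lit 66) (nat_lit 5) (nat_lit 67) (nat_lit 5) (nat_lit 348) (nat_lit 301) (nat_lit 131)) (XT.lf (nat_lit 0) (nat_lit 20134072165) (nat_lit 380) (nat_lit 7226069128) (nat_lit 76) (nat_lit 4993096153) (nat_lit 62) (nat_lit 5) (nat_lit 67) (nat_lit 5) (nat_lit 63) (nat_lit 5) (nat_lit 349) (nat_lit 301) (nat_lit 130))) (XT.nd (nat_lit 78) (nat_lit 0) (nat_lit 0) (XT.lf (nat_lit 0) (nat_lit 5787719933) (nat_lit 304) (nat_lit 18634262722) (nat_lit 380) (nat_lit 8598467213) (nat_lit 58) (nat_lit 5) (nat_lit 62) (nat_lit 5) (nat_lit 63) (nat_lit 5) (nat_lit 350) (nat_lit 301) (nat_lit 129)) (XT.nd (nat_lit 78) (nat_lit 0) (nat_lit 0) (XT.lf (nat_lit 0) (nat_lit 19335347302) (nat_lit 304) (nat_lit 9572572782) (nat_lit 380) (nat_lit 4797684004) (nat_lit 58) (nat_lit 5)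 (nat_lit 62) (nat_lit 5) (nat_lit 63) (nat_lit 5) (nat_lit 351) (nat_lit 301) (nat_lit 128)) (XT.lf (nat_lit 0) (nat_lit 33284837766) (nat_lit 304) (nat_lit 240122622) (nat_lit 380) (nat_lit 886463712) (nat_lit 58) (nat_lit 5) (nat_lit 62) (nat_lit 5) (nat_lit 63) (nat_lit 5) (nat_lit 352) (nat_lit 301) (nat_lit 127))))) (XT.nd (nat_lit 234) (nat_lit 228) (nat_lit 0) (XT.nd (nat_lit 78) (nat_lit 304) (nat_lit 0) (XT.lf (nat_lit 0) (nat_lit 3291307675) (nat_lit 304) (nat_lit 22497489771) (nat_lit 76) (nat_lit 9342405822) (nat_lit 54) (nat_lit 5) (nat_lit 58) (nat_lit 5) (nat_lit 55) (nat_lit 5) (nat_lit 353) (nat_lit 301) (nat_lit 126)) (XT.nd (nat_lit 78) (nat_lit 304) (nat_lit 0) (XT.lf (nat_lit 0) (nat_lit 7587093463) (nat_lit 304) (nat_lit 9058144669) (nat_lit 76) (nat_lit 19226765746) (nat_lit 54) (nat_lit 5) (nat_lit 58) (nat_lit 5) (nat_lit 55) (nat_lit 5) (nat_lit 354) (nat_lit 301) (nat_lit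 125)) (XT.lf (nat_lit 0) (nat_lit 4875084615) (nat_lit 304) (nat_lit 7180260505) (nat_lit 380) (nat_lit 24578381754) (nat_lit 50) (nat_lit 5) (nat_lit 54) (nat_lit 5) (nat_lit 55) (nat_lit 5) (nat_lit 355) (nat_lit 301) (nat_lit 124)))) (XT.nd (nat_lit 78) (nat_lit 228) (nat_lit 0) (XT.lf (nat_lit 0) (nat_lit 16771482958) (nat_lit 380) (nat_lit 18033635328) (nat_lit 76) (nat_lit 2609774073) (nat_lit 50) (nat_lit 5) (nat_lit 55) (nat_lit 5) (nat_lit 51) (nat_lit 5) (nat_lit 356) (nat_lit 301) (nat_lit 123)) (XT.nd (nat_lit 78) (nat_lit 228) (nat_lit 0) (XT.lf (nat_lit 0) (nat_lit 21697062538) (nat_lit 380) (nat_lit 3972314037) (nat_lit 76) (nat_lit 12548083290) (nat_lit 50) (nat_lit 5) (nat_lit 55) (nat_lit 5) (nat_lit 51) (nat_lit 5) (nat_lit 357) (nat_lit 301) (nat_lit 122)) (XT.lf (nat_lit 0) (nat_lit 10715731784) (nat_lit 228) (nat_lit 16154641093) (nat_lit 304) (nat_lit 12170738234) (nat_lit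 47) (nat_lit 5) (nat_lit 50) (nat_lit 5) (nat_lit 51) (nat_lit 5) (nat_lit 358) (nat_lit 301) (nat_lit 121)))))) (XT.nd (nat_lit 468) (nat_lit 456) (nat_lit 0) (XT.nd (nat_lit 234) (nat_lit 228) (nat_lit 0) (XT.nd (nat_lit 78) (nat_lit 304) (nat_lit 0) (XT.lf (nat_lit 0) (nat_lit 25921671242) (nat_lit 228) (nat_lit 6314329552) (nat_lit 304) (nat_lit 7652363005) (nat_lit 47) (nat_lit 5) (nat_lit 50) (nat_lit 5) (nat_lit 51) (nat_lit 5) (nat_lit 359) (nat_lit 301) (nat_lit 120)) (XT.nd (nat_lit 78) (nat_lit 76) (nat_lit 0) (XT.lf (nat_lit 0) (nat_lit 797448154) (nat_lit 228) (nat_lit 37006628448) (nat_lit 304) (nat_lit 2955718387) (nat_lit 44) (nat_lit 5) (nat_lit 47) (nat_lit 5) (nat_lit 48) (nat_lit 5) (nat_lit 360) (nat_lit 301) (nat_lit 119)) (XT.lf (nat_lit 0) (nat_lit 2047149107) (nat_lit 304) (nat_lit 25448483600) (nat_lit 76) (nat_lit 14155137378) (nat_lit 43) (nat_lit 5) (nat_lit 47)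 (nat_lit 5) (nat_lit 44) (nat_lit 5) (nat_lit 361) (nat_lit 301) (nat_lit 118)))) (XT.nd (nat_lit 78) (nat_lit 228) (nat_lit 0) (XT.lf (nat_lit 0) (nat_lit 7137874265) (nat_lit 304) (nat_lit 10532506281) (nat_lit 76) (nat_lit 24897305437) (nat_lit 43) (nat_lit 5) (nat_lit 47) (nat_lit 5) (nat_lit 44) (nat_lit 5) (nat_lit 362) (nat_lit 301) (nat_lit 117)) (XT.nd (nat_lit 78) (nat_lit 0) (nat_lit 0) (XT.lf (nat_lit 0) (nat_lit 4923098048) (nat_lit 228) (nat_lit 7502807786) (nat_lit 304) (nat_lit 31084870686) (nat_lit 40) (nat_lit 5) (nat_lit 43) (nat_lit 5) (nat_lit 44) (nat_lit 5) (nat_lit 363) (nat_lit 301) (nat_lit 116)) (XT.lf (nat_lit 0) (nat_lit 18005828431) (nat_lit 304) (nat_lit 23454248325) (nat_lit 76) (nat_lit 3018090081) (nat_lit 40) (nat_lit 5) (nat_lit 44) (nat_lit 5) (nat_lit 41) (nat_lit 5) (nat_lit 364) (nat_lit 301) (nat_lit 115))))) (XT.nd (nat_lit 234) (nat_lit 228) (nat_lit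 0) (XT.nd (nat_lit 78) (nat_lit 228) (nat_lit 0) (XT.lf (nat_lit 0) (nat_lit 23824804720) (nat_lit 304) (nat_lit 7944940632) (nat_lit 76) (nat_lit 13702688266) (nat_lit 40) (nat_lit 5) (nat_lit 44) (nat_lit 5) (nat_lit 41) (nat_lit 5) (nat_lit 365) (nat_lit 301) (nat_lit 114)) (XT.nd (nat_lit 78) (nat_lit 0) (nat_lit 0) (XT.lf (nat_lit 0) (nat_lit 8185649513) (nat_lit 228) (nat_lit 21708833624) (nat_lit 304) (nat_lit 16599765584) (nat_lit 37) (nat_lit 5) (nat_lit 40) (nat_lit 5) (nat_lit 41) (nat_lit 5) (nat_lit 366) (nat_lit 301) (nat_lit 113)) (XT.lf (nat_lit 0) (nat_lit 24959329125) (nat_lit 228) (nat_lit 11264637332) (nat_lit 304) (nat_lit 11320424562) (nat_lit 37) (nat_lit 5) (nat_lit 40) (nat_lit 5) (nat_lit 41) (nat_lit 5) (nat_lit 367) (nat_lit 301) (nat_lit 112)))) (XT.nd (nat_lit 78) (nat_lit 228) (nat_lit 0) (XT.lf (nat_lit 0) (nat_lit 42232634919) (nat_lit 228) (nat_lit 508258805)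 (nat_lit 304) (nat_lit 5885221136) (nat_lit 37) (nat_lit 5) (nat_lit 40) (nat_lit 5) (nat_lit 41) (nat_lit 5) (nat_lit 368) (nat_lit 301) (nat_lit 111)) (XT.nd (nat_lit 78) (nat_lit 76) (nat_lit 0) (XT.lf (nat_lit 0) (nat_lit 10381268140) (nat_lit 152) (nat_lit 39271084728) (nat_lit 228) (nat_lit 81970764) (nat_lit 35) (nat_lit 5) (nat_lit 37) (nat_lit 5) (nat_lit 38) (nat_lit 5) (nat_lit 369) (nat_lit 301) (nat_lit 110)) (XT.lf (nat_lit 0) (nat_lit 5848198660) (nat_lit 228) (nat_lit 23149424872) (nat_lit 76) (nat_lit 21874422903) (nat_lit 34) (nat_lit 5) (nat_lit 37) (nat_lit 5) (nat_lit 35) (nat_lit 5) (nat_lit 370) (nat_lit 301) (nat_lit 109))))))))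
noncomputable def xc213 : XT := (XT.nd (nat_lit 36114) (nat_lit 0) (nat_lit 5016) (XT.nd (nat_lit 35256) (nat_lit 0) (nat_lit 8664) (XT.nd (nat_lit 390) (nat_lit 228) (nat_lit 0) (XT.nd (nat_lit 156) (nat_lit 152) (nat_lit 0) (XT.nd (nat_lit 78) (nat_lit 228) (nat_lit 0) (XT.lf (nat_lit 0) (nat_lit 11952323193) (nat_lit 228) (nat_lit 6463953551) (nat_lit 76) (nat_lit 33627672507) (nat_lit 34) (nat_lit 5) (nat_lit 37) (nat_lit 5) (nat_lit 35) (nat_lit 5) (nat_lit 371) (nat_lit 301) (nat_lit 108)) (XT.lf (nat_lit 0) (nat_lit 10932049625) (nat_lit 228) (nat_lit 7410372005) (nat_lit 304) (nat_lit 34905505517) (nat_lit 31) (nat_lit 5) (nat_lit 34) (nat_lit 5) (nat_lit 35) (nat_lit 5) (nat_lit 372) (nat_lit 301) (nat_lit 107))) (XT.nd (nat_lit 78) (nat_lit 152) (nat_lit 0) (XT.lf (nat_lit 0) (nat_lit 25025665881) (nat_lit 304) (nat_lit 25545392906) (nat_lit 76) (nat_lit 3913925704) (nat_lit 31) (nat_lit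 5) (nat_lit 35) (nat_lit 5) (nat_lit 32) (nat_lit 5) (nat_lit 373) (nat_lit 301) (nat_lit 106)) (XT.nd (nat_lit 78) (nat_lit 152) (nat_lit 0) (XT.lf (nat_lit 0) (nat_lit 31980628945) (nat_lit 304) (nat_lit 8348447011) (nat_lit 76) (nat_lit 15427944255) (nat_lit 31) (nat_lit 5) (nat_lit 35) (nat_lit 5) (nat_lit 32) (nat_lit 5) (nat_lit 374) (nat_lit 301) (nat_lit 105)) (XT.lf (nat_lit 0) (nat_lit 9547526276) (nat_lit 152) (nat_lit 29686405332) (nat_lit 228) (nat_lit 17830597875) (nat_lit 29) (nat_lit 5) (nat_lit 31) (nat_lit 5) (nat_lit 32) (nat_lit 5) (nat_lit 375) (nat_lit 301) (nat_lit 104))))) (XT.nd (nat_lit 234) (nat_lit 0) (nat_lit 0) (XT.nd (nat_lit 78) (nat_lit 228) (nat_lit 0) (XT.lf (nat_lit 0) (nat_lit 28148357381) (nat_lit 152) (nat_lit 18638723374) (nat_lit 228) (nat_lit 11621718965) (nat_lit 29) (nat_lit 5) (nat_lit 31) (nat_lit 5) (nat_lit 32) (nat_lit 5) (nat_lit 376) (nat_lit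 301) (nat_lit 103)) (XT.nd (nat_lit 78) (nat_lit 228) (nat_lit 0) (XT.lf (nat_lit 0) (nat_lit 47304148992) (nat_lit 152) (nat_lit 7260679715) (nat_lit 228) (nat_lit 5228632247) (nat_lit 29) (nat_lit 5) (nat_lit 31) (nat_lit 5) (nat_lit 32) (nat_lit 5) (nat_lit 377) (nat_lit 301) (nat_lit 102)) (XT.lf (nat_lit 0) (nat_lit 1428215757) (nat_lit 228) (nat_lit 55346860920) (nat_lit 76) (nat_lit 4441244062) (nat_lit 26) (nat_lit 5) (nat_lit 29) (nat_lit 5) (nat_lit 27) (nat_lit 5) (nat_lit 378) (nat_lit 301) (nat_lit 101)))) (XT.nd (nat_lit 78) (nat_lit 0) (nat_lit 0) (XT.lf (nat_lit 0) (nat_lit 8376991643) (nat_lit 228) (nat_lit 37771012614) (nat_lit 76) (nat_lit 16526392382) (nat_lit 26) (nat_lit 5) (nat_lit 29) (nat_lit 5) (nat_lit 27) (nat_lit 5) (nat_lit 379) (nat_lit 301) (nat_lit 100)) (XT.nd (nat_lit 78) (nat_lit 0) (nat_lit 0) (XT.lf (nat_lit 0) (nat_lit 15532345956) (nat_lit 228) (nat_lit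 19670838360) (nat_lit 76) (nat_lit 28973089727) (nat_lit 26) (nat_lit 5) (nat_lit 29) (nat_lit 5) (nat_lit 27) (nat_lit 5) (nat_lit 380) (nat_lit 301) (nat_lit 99)) (XT.lf (nat_lit 0) (nat_lit 22900530947) (nat_lit 228) (nat_lit 1030522471) (nat_lit 76) (nat_lit 41792211854) (nat_lit 26) (nat_lit 5) (nat_lit 29) (nat_lit 5) (nat_lit 27) (nat_lit 5) (nat_lit 381) (nat_lit 301) (nat_lit 98)))))) (XT.nd (nat_lit 390) (nat_lit 0) (nat_lit 152) (XT.nd (nat_lit 156) (nat_lit 0) (nat_lit 76) (XT.nd (nat_lit 78) (nat_lit 0) (nat_lit 0) (XT.lf (nat_lit 0) (nat_lit 51892242) (nat_lit 1140) (nat_lit 3591000854) (nat_lit 1140) (nat_lit 3591000854) (nat_lit 140) (nat_lit 3) (nat_lit 155) (nat_lit 3) (nat_lit 155) (nat_lit 5) (nat_lit 302) (nat_lit 302) (nat_lit 176)) (XT.lf (nat_lit 0) (nat_lit 393756378) (nat_lit 1140) (nat_lit 1272826246) (nat_lit 1140) (nat_lit 13008793792) (nat_lit 140) (nat_lit 3) (nat_lit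 155) (nat_lit 3) (nat_lit 155) (nat_lit 5) (nat_lit 303) (nat_lit 302) (nat_lit 175))) (XT.nd (nat_lit 78) (nat_lit 0) (nat_lit 0) (XT.lf (nat_lit 0) (nat_lit 768441295) (nat_lit 1064) (nat_lit 10024783593) (nat_lit 1140) (nat_lit 4093717561) (nat_lit 141) (nat_lit 5) (nat_lit 155) (nat_lit 5) (nat_lit 156) (nat_lit 5) (nat_lit 304) (nat_lit 302) (nat_lit 174)) (XT.nd (nat_lit 78) (nat_lit 0) (nat_lit 76) (XT.lf (nat_lit 0) (nat_lit 1172914634) (nat_lit 1064) (nat_lit 3919976924) (nat_lit 1140) (nat_lit 10011436866) (nat_lit 141) (nat_lit 5) (nat_lit 155) (nat_lit 5) (nat_lit 156) (nat_lit 5) (nat_lit 305) (nat_lit 302) (nat_lit 173)) (XT.lf (nat_lit 0) (nat_lit 1609820861) (nat_lit 1064) (nat_lit 12926647476) (nat_lit 1140) (nat_lit 791187221) (nat_lit 142) (nat_lit 5) (nat_lit 156) (nat_lit 5) (nat_lit 157) (nat_lit 5) (nat_lit 306) (nat_lit 302) (nat_lit 172))))) (XT.nd (nat_lit 234) (nat_lit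 0) (nat_lit 76) (XT.nd (nat_lit 78) (nat_lit 0) (nat_lit 0) (XT.lf (nat_lit 0) (nat_lit 2139914992) (nat_lit 1064) (nat_lit 6621640454) (nat_lit 1140) (nat_lit 6793752349) (nat_lit 142) (nat_lit 5) (nat_lit 156) (nat_lit 5) (nat_lit 157) (nat_lit 5) (nat_lit 307) (nat_lit 302) (nat_lit 171)) (XT.nd (nat_lit 78) (nat_lit 0) (nat_lit 76) (XT.lf (nat_lit 0) (nat_lit 2675892573) (nat_lit 1064) (nat_lit 133606720) (nat_lit 1140) (nat_lit 12980617789) (nat_lit 142) (nat_lit 5) (nat_lit 156) (nat_lit 5) (nat_lit 157) (nat_lit 5) (nat_lit 308) (nat_lit 302) (nat_lit 170)) (XT.lf (nat_lit 0) (nat_lit 3314966312) (nat_lit 1064) (nat_lit 9389616405) (nat_lit 1140) (nat_lit 3324803547) (nat_lit 143) (nat_lit 5) (nat_lit 157) (nat_lit 5) (nat_lit 158) (nat_lit 5) (nat_lit 309) (nat_lit 302) (nat_lit 169)))) (XT.nd (nat_lit 78) (nat_lit 0) (nat_lit 0) (XT.lf (nat_lit 0) (nat_lit 3992925543) (nat_lit 1064)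 (nat_lit 2690768665) (nat_lit 1140) (nat_lit 9591573272) (nat_lit 143) (nat_lit 5) (nat_lit 157) (nat_lit 5) (nat_lit 158) (nat_lit 5) (nat_lit 310) (nat_lit 302) (nat_lit 168)) (XT.nd (nat_lit 78) (nat_lit 0) (nat_lit 76) (XT.lf (nat_lit 76) (nat_lit 4286641862) (nat_lit 0) (nat_lit 436597154) (nat_lit 1140) (nat_lit 11804350273) (nat_lit 144) (nat_lit 5) (nat_lit 143) (nat_lit 5) (nat_lit 158) (nat_lit 5) (nat_lit 311) (nat_lit 302) (nat_lit 167)) (XT.lf (nat_lit 0) (nat_lit 5551606478) (nat_lit 1064) (nat_lit 5322370606) (nat_lit 1140) (nat_lit 5911243233) (nat_lit 144) (nat_lit 5) (nat_lit 158) (nat_lit 5) (nat_lit 159) (nat_lit 5) (nat_lit 312) (nat_lit 302) (nat_lit 166))))))) (XT.nd (nat_lit 858) (nat_lit 2508) (nat_lit 0) (XT.nd (nat_lit 390) (nat_lit 1444) (nat_lit 0) (XT.nd (nat_lit 156) (nat_lit 0) (nat_lit 76) (XT.nd (nat_lit 78) (nat_lit 0) (nat_lit 76) (XT.lf (nat_lit 76) (nat_lit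 1829001876) (nat_lit 0) (nat_lit 4589036505) (nat_lit 1140) (nat_lit 10632168699) (nat_lit 145) (nat_lit 5) (nat_lit 144) (nat_lit 5) (nat_lit 159) (nat_lit 5) (nat_lit 313) (nat_lit 302) (nat_lit 165)) (XT.lf (nat_lit 0) (nat_lit 7374382698) (nat_lit 1064) (nat_lit 8042528770) (nat_lit 1140) (nat_lit 1904336925) (nat_lit 145) (nat_lit 5) (nat_lit 159) (nat_lit 5) (nat_lit 160) (nat_lit 5) (nat_lit 314) (nat_lit 302) (nat_lit 164))) (XT.nd (nat_lit 78) (nat_lit 0) (nat_lit 0) (XT.lf (nat_lit 0) (nat_lit 8396627432) (nat_lit 1064) (nat_lit 700112476) (nat_lit 1140) (nat_lit 8502586608) (nat_lit 145) (nat_lit 5) (nat_lit 159) (nat_lit 5) (nat_lit 160) (nat_lit 5) (nat_lit 315) (nat_lit 302) (nat_lit 163)) (XT.nd (nat_lit 78) (nat_lit 0) (nat_lit 76) (XT.lf (nat_lit 76) (nat_lit 6993031234) (nat_lit 0) (nat_lit 2515743243) (nat_lit 1140) (nat_lit 8375216696) (nat_lit 146) (nat_lit 5) (nat_lit 145)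 (nat_lit 5) (nat_lit 160) (nat_lit 5) (nat_lit 316) (nat_lit 302) (nat_lit 162)) (XT.lf (nat_lit 0) (nat_lit 10694608280) (nat_lit 1064) (nat_lit 3292926627) (nat_lit 1140) (nat_lit 4188471810) (nat_lit 146) (nat_lit 5) (nat_lit 160) (nat_lit 5) (nat_lit 161) (nat_lit 5) (nat_lit 317) (nat_lit 302) (nat_lit 161))))) (XT.nd (nat_lit 234) (nat_lit 608) (nat_lit 0) (XT.nd (nat_lit 78) (nat_lit 988) (nat_lit 0) (XT.lf (nat_lit 76) (nat_lit 4591702801) (nat_lit 0) (nat_lit 7385794944) (nat_lit 1140) (nat_lit 6497460581) (nat_lit 147) (nat_lit 5) (nat_lit 146) (nat_lit 5) (nat_lit 161) (nat_lit 5) (nat_lit 318) (nat_lit 302) (nat_lit 160)) (XT.nd (nat_lit 78) (nat_lit 988) (nat_lit 0) (XT.lf (nat_lit 76) (nat_lit 12774394874) (nat_lit 0) (nat_lit 550328071) (nat_lit 1140) (nat_lit 5457399501) (nat_lit 147) (nat_lit 5) (nat_lit 146) (nat_lit 5) (nat_lit 161) (nat_lit 5) (nat_lit 319) (nat_lit 302)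 (nat_lit 159)) (XT.lf (nat_lit 0) (nat_lit 2076139701) (nat_lit 1064) (nat_lit 12711395995) (nat_lit 1140) (nat_lit 4308729540) (nat_lit 133) (nat_lit 5) (nat_lit 147) (nat_lit 5) (nat_lit 148) (nat_lit 5) (nat_lit 320) (nat_lit 302) (nat_lit 158)))) (XT.nd (nat_lit 78) (nat_lit 608) (nat_lit 0) (XT.lf (nat_lit 0) (nat_lit 10514125935) (nat_lit 1064) (nat_lit 5839145759) (nat_lit 1140) (nat_lit 3064807769) (nat_lit 133) (nat_lit 5) (nat_lit 147) (nat_lit 5) (nat_lit 148) (nat_lit 5) (nat_lit 321) (nat_lit 302) (nat_lit 157)) (XT.nd (nat_lit 78) (nat_lit 608) (nat_lit 0) (XT.lf (nat_lit 0) (nat_lit 17971083800) (nat_lit 1140) (nat_lit 562258767) (nat_lit 76) (nat_lit 1216070215) (nat_lit 133) (nat_lit 5) (nat_lit 148) (nat_lit 5) (nat_lit 134) (nat_lit 5) (nat_lit 322) (nat_lit 302) (nat_lit 156)) (XT.lf (nat_lit 0) (nat_lit 8124538973) (nat_lit 608) (nat_lit 11642192354) (nat_lit 684) (nat_lit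 320093010) (nat_lit 125) (nat_lit 5) (nat_lit 133) (nat_lit 5) (nat_lit 134) (nat_lit 5) (nat_lit 323) (nat_lit 302) (nat_lit 155)))))) (XT.nd (nat_lit 468) (nat_lit 1368) (nat_lit 0) (XT.nd (nat_lit 234) (nat_lit 532) (nat_lit 0) (XT.nd (nat_lit 78) (nat_lit 532) (nat_lit 0) (XT.lf (nat_lit 0) (nat_lit 1158006825) (nat_lit 684) (nat_lit 3368101465) (nat_lit 76) (nat_lit 15907950001) (nat_lit 124) (nat_lit 5) (nat_lit 133) (nat_lit 5) (nat_lit 125) (nat_lit 5) (nat_lit 324) (nat_lit 302) (nat_lit 154)) (XT.nd (nat_lit 78) (nat_lit 0) (nat_lit 0) (XT.lf (nat_lit 0) (nat_lit 2748845668) (nat_lit 608) (nat_lit 15233815587) (nat_lit 76) (nat_lit 2806723848) (nat_lit 117) (nat_lit 5) (nat_lit 125) (nat_lit 5) (nat_lit 118) (nat_lit 5) (nat_lit 325) (nat_lit 302) (nat_lit 153)) (XT.lf (nat_lit 0) (nat_lit 4460342335) (nat_lit 608) (nat_lit 6389447090) (nat_lit 76) (nat_lit 10303409657) (nat_lit 117)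 (nat_lit 5) (nat_lit 125) (nat_lit 5) (nat_lit 118) (nat_lit 5) (nat_lit 326) (nat_lit 302) (nat_lit 152)))) (XT.nd (nat_lit 78) (nat_lit 0) (nat_lit 0) (XT.lf (nat_lit 0) (nat_lit 2768509633) (nat_lit 532) (nat_lit 3475240021) (nat_lit 608) (nat_lit 15283575748) (nat_lit 110) (nat_lit 5) (nat_lit 117) (nat_lit 5) (nat_lit 118) (nat_lit 5) (nat_lit 327) (nat_lit 302) (nat_lit 151)) (XT.nd (nat_lit 78) (nat_lit 0) (nat_lit 0) (XT.lf (nat_lit 0) (nat_lit 8179504563) (nat_lit 608) (nat_lit 9624709648) (nat_lit 76) (nat_lit 4105510402) (nat_lit 110) (nat_lit 5) (nat_lit 118) (nat_lit 5) (nat_lit 111) (nat_lit 5) (nat_lit 328) (nat_lit 302) (nat_lit 150)) (XT.lf (nat_lit 0) (nat_lit 10201989420) (nat_lit 608) (nat_lit 256720887) (nat_lit 76) (nat_lit 11844039815) (nat_lit 110) (nat_lit 5) (nat_lit 118) (nat_lit 5) (nat_lit 111) (nat_lit 5) (nat_lit 329) (nat_lit 302) (nat_lit 149))))) (XT.nd (nat_lit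 234) (nat_lit 456) (nat_lit 0) (XT.nd (nat_lit 78) (nat_lit 456) (nat_lit 0) (XT.lf (nat_lit 0) (nat_lit 9573556845) (nat_lit 456) (nat_lit 2798035351) (nat_lit 532) (nat_lit 10333394529) (nat_lit 104) (nat_lit 5) (nat_lit 110) (nat_lit 5) (nat_lit 111) (nat_lit 5) (nat_lit 330) (nat_lit 302) (nat_lit 148)) (XT.nd (nat_lit 78) (nat_lit 456) (nat_lit 0) (XT.lf (nat_lit 0) (nat_lit 14652378731) (nat_lit 532) (nat_lit 3469872530) (nat_lit 76) (nat_lit 4995669531) (nat_lit 104) (nat_lit 5) (nat_lit 111) (nat_lit 5) (nat_lit 105) (nat_lit 5) (nat_lit 331) (nat_lit 302) (nat_lit 147)) (XT.lf (nat_lit 0) (nat_lit 6576640017) (nat_lit 456) (nat_lit 10510556083) (nat_lit 532) (nat_lit 6453491412) (nat_lit 98) (nat_lit 5) (nat_lit 104) (nat_lit 5) (nat_lit 105) (nat_lit 5) (nat_lit 332) (nat_lit 302) (nat_lit 146)))) (XT.nd (nat_lit 78) (nat_lit 456) (nat_lit 0) (XT.lf (nat_lit 0) (nat_lit 16990208926)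 (nat_lit 456) (nat_lit 2634675444) (nat_lit 532) (nat_lit 4350370547) (nat_lit 98) (nat_lit 5) (nat_lit 104) (nat_lit 5) (nat_lit 105) (nat_lit 5) (nat_lit 333) (nat_lit 302) (nat_lit 145)) (XT.nd (nat_lit 78) (nat_lit 76) (nat_lit 0) (XT.lf (nat_lit 0) (nat_lit 3299589238) (nat_lit 380) (nat_lit 19018421531) (nat_lit 456) (nat_lit 2102481462) (nat_lit 93) (nat_lit 5) (nat_lit 98) (nat_lit 5) (nat_lit 99) (nat_lit 5) (nat_lit 334) (nat_lit 302) (nat_lit 144)) (XT.lf (nat_lit 0) (nat_lit 300982061) (nat_lit 456) (nat_lit 10875378889) (nat_lit 76) (nat_lit 13699907017) (nat_lit 92) (nat_lit 5) (nat_lit 98) (nat_lit 5) (nat_lit 93) (nat_lit 5) (nat_lit 335) (nat_lit 302) (nat_lit 143))))))))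
noncomputable def xc214 : XT := (XT.nd (nat_lit 1716) (nat_lit 1824) (nat_lit 0) (XT.nd (nat_lit 858) (nat_lit 1216) (nat_lit 0) (XT.nd (nat_lit 390) (nat_lit 1140) (nat_lit 0) (XT.nd (nat_lit 156) (nat_lit 380) (nat_lit 0) (XT.nd (nat_lit 78) (nat_lit 456) (nat_lit 0) (XT.lf (nat_lit 0) (nat_lit 2729409747) (nat_lit 456) (nat_lit 348672842) (nat_lit 76) (nat_lit 22267167429) (nat_lit 92) (nat_lit 5) (nat_lit 98) (nat_lit 5) (nat_lit 93) (nat_lit 5) (nat_lit 336) (nat_lit 302) (nat_lit 142)) (XT.lf (nat_lit 0) (nat_lit 5380386299) (nat_lit 532) (nat_lit 15179607991) (nat_lit 76) (nat_lit 5263827119) (nat_lit 86) (nat_lit 5) (nat_lit 93) (nat_lit 5) (nat_lit 87) (nat_lit 5) (nat_lit 337) (nat_lit 302) (nat_lit 141))) (XT.nd (nat_lit 78) (nat_lit 380) (nat_lit 0) (XT.lf (nat_lit 0) (nat_lit 8140267796) (nat_lit 532) (nat_lit 4378426344) (nat_lit 76) (nat_lit 13797184982) (nat_lit 86) (nat_lit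 5) (nat_lit 93) (nat_lit 5) (nat_lit 87) (nat_lit 5) (nat_lit 338) (nat_lit 302) (nat_lit 140)) (XT.nd (nat_lit 78) (nat_lit 0) (nat_lit 0) (XT.lf (nat_lit 0) (nat_lit 6875812304) (nat_lit 380) (nat_lit 4168707374) (nat_lit 456) (nat_lit 15776341811) (nat_lit 81) (nat_lit 5) (nat_lit 86) (nat_lit 5) (nat_lit 87) (nat_lit 5) (nat_lit 339) (nat_lit 302) (nat_lit 139)) (XT.lf (nat_lit 0) (nat_lit 14118707075) (nat_lit 456) (nat_lit 8830510534) (nat_lit 76) (nat_lit 4389301327) (nat_lit 81) (nat_lit 5) (nat_lit 87) (nat_lit 5) (nat_lit 82) (nat_lit 5) (nat_lit 340) (nat_lit 302) (nat_lit 138))))) (XT.nd (nat_lit 234) (nat_lit 760) (nat_lit 0) (XT.nd (nat_lit 78) (nat_lit 0) (nat_lit 0) (XT.lf (nat_lit 0) (nat_lit 2622276072) (nat_lit 380) (nat_lit 14725010428) (nat_lit 456) (nat_lit 10522564176) (nat_lit 76) (nat_lit 5) (nat_lit 81) (nat_lit 5) (nat_lit 82) (nat_lit 5) (nat_lit 341) (nat_lit 302)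 (nat_lit 137)) (XT.nd (nat_lit 78) (nat_lit 0) (nat_lit 0) (XT.lf (nat_lit 0) (nat_lit 14594629005) (nat_lit 380) (nat_lit 6163027585) (nat_lit 456) (nat_lit 7656927062) (nat_lit 76) (nat_lit 5) (nat_lit 81) (nat_lit 5) (nat_lit 82) (nat_lit 5) (nat_lit 342) (nat_lit 302) (nat_lit 136)) (XT.lf (nat_lit 0) (nat_lit 24291745527) (nat_lit 456) (nat_lit 2080047869) (nat_lit 76) (nat_lit 2603232001) (nat_lit 76) (nat_lit 5) (nat_lit 82) (nat_lit 5) (nat_lit 77) (nat_lit 5) (nat_lit 343) (nat_lit 302) (nat_lit 135)))) (XT.nd (nat_lit 78) (nat_lit 456) (nat_lit 0) (XT.lf (nat_lit 0) (nat_lit 10144117847) (nat_lit 304) (nat_lit 17942269301) (nat_lit 380) (nat_lit 1461266094) (nat_lit 72) (nat_lit 5) (nat_lit 76) (nat_lit 5) (nat_lit 77) (nat_lit 5) (nat_lit 344) (nat_lit 302) (nat_lit 134)) (XT.nd (nat_lit 78) (nat_lit 380) (nat_lit 0) (XT.lf (nat_lit 0) (nat_lit 1838397192) (nat_lit 380) (nat_lit 7382151005)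 (nat_lit 76) (nat_lit 20915867323) (nat_lit 71) (nat_lit 5) (nat_lit 76) (nat_lit 5) (nat_lit 72) (nat_lit 5) (nat_lit 345) (nat_lit 302) (nat_lit 133)) (XT.lf (nat_lit 0) (nat_lit 5079768223) (nat_lit 380) (nat_lit 172879323) (nat_lit 456) (nat_lit 25488418072) (nat_lit 66) (nat_lit 5) (nat_lit 71) (nat_lit 5) (nat_lit 72) (nat_lit 5) (nat_lit 346) (nat_lit 302) (nat_lit 132)))))) (XT.nd (nat_lit 390) (nat_lit 608) (nat_lit 0) (XT.nd (nat_lit 156) (nat_lit 608) (nat_lit 0) (XT.nd (nat_lit 78) (nat_lit 0) (nat_lit 0) (XT.lf (nat_lit 0) (nat_lit 8928723436) (nat_lit 456) (nat_lit 13388233477) (nat_lit 76) (nat_lit 9042124140) (nat_lit 66) (nat_lit 5) (nat_lit 72) (nat_lit 5) (nat_lit 67) (nat_lit 5) (nat_lit 347) (nat_lit 302) (nat_lit 131)) (XT.lf (nat_lit 0) (nat_lit 12713099728) (nat_lit 456) (nat_lit 753378027) (nat_lit 76) (nat_lit 18529226199) (nat_lit 66) (nat_lit 5) (nat_lit 72) (nat_lit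 5) (nat_lit 67) (nat_lit 5) (nat_lit 348) (nat_lit 302) (nat_lit 130))) (XT.nd (nat_lit 78) (nat_lit 304) (nat_lit 0) (XT.lf (nat_lit 0) (nat_lit 12499888793) (nat_lit 304) (nat_lit 4227689122) (nat_lit 380) (nat_lit 15920357837) (nat_lit 62) (nat_lit 5) (nat_lit 66) (nat_lit 5) (nat_lit 67) (nat_lit 5) (nat_lit 349) (nat_lit 302) (nat_lit 129)) (XT.nd (nat_lit 78) (nat_lit 304) (nat_lit 0) (XT.lf (nat_lit 0) (nat_lit 20917473132) (nat_lit 380) (nat_lit 7208829420) (nat_lit 76) (nat_lit 5191789584) (nat_lit 62) (nat_lit 5) (nat_lit 67) (nat_lit 5) (nat_lit 63) (nat_lit 5) (nat_lit 350) (nat_lit 302) (nat_lit 128)) (XT.lf (nat_lit 0) (nat_lit 6193078981) (nat_lit 304) (nat_lit 19137944837) (nat_lit 380) (nat_lit 8674397544) (nat_lit 58) (nat_lit 5) (nat_lit 62) (nat_lit 5) (nat_lit 63) (nat_lit 5) (nat_lit 351) (nat_lit 302) (nat_lit 127))))) (XT.nd (nat_lit 234) (nat_lit 304) (nat_lit 0) (XT.nd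 (nat_lit 78) (nat_lit 304) (nat_lit 0) (XT.lf (nat_lit 0) (nat_lit 20140385828) (nat_lit 304) (nat_lit 9806016211) (nat_lit 380) (nat_lit 4764892499) (nat_lit 58) (nat_lit 5) (nat_lit 62) (nat_lit 5) (nat_lit 63) (nat_lit 5) (nat_lit 352) (nat_lit 302) (nat_lit 126)) (XT.nd (nat_lit 78) (nat_lit 304) (nat_lit 0) (XT.lf (nat_lit 0) (nat_lit 34501808246) (nat_lit 304) (nat_lit 195157607) (nat_lit 380) (nat_lit 741482842) (nat_lit 58) (nat_lit 5) (nat_lit 62) (nat_lit 5) (nat_lit 63) (nat_lit 5) (nat_lit 353) (nat_lit 302) (nat_lit 125)) (XT.lf (nat_lit 0) (nat_lit 3556011467) (nat_lit 304) (nat_lit 22947746633) (nat_lit 76) (nat_lit 9676090869) (nat_lit 54) (nat_lit 5) (nat_lit 58) (nat_lit 5) (nat_lit 55) (nat_lit 5) (nat_lit 354) (nat_lit 302) (nat_lit 124)))) (XT.nd (nat_lit 78) (nat_lit 304) (nat_lit 0) (XT.lf (nat_lit 0) (nat_lit 7975836910) (nat_lit 304) (nat_lit 9111764901) (nat_lit 76)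 (nat_lit 19855425876) (nat_lit 54) (nat_lit 5) (nat_lit 58) (nat_lit 5) (nat_lit 55) (nat_lit 5) (nat_lit 355) (nat_lit 302) (nat_lit 123)) (XT.nd (nat_lit 78) (nat_lit 0) (nat_lit 0) (XT.lf (nat_lit 0) (nat_lit 5237322790) (nat_lit 304) (nat_lit 7338196387) (nat_lit 380) (nat_lit 25152170511) (nat_lit 50) (nat_lit 5) (nat_lit 54) (nat_lit 5) (nat_lit 55) (nat_lit 5) (nat_lit 356) (nat_lit 302) (nat_lit 122)) (XT.lf (nat_lit 0) (nat_lit 17429060610) (nat_lit 380) (nat_lit 18360584026) (nat_lit 76) (nat_lit 2742776469) (nat_lit 50) (nat_lit 5) (nat_lit 55) (nat_lit 5) (nat_lit 51) (nat_lit 5) (nat_lit 357) (nat_lit 302) (nat_lit 121))))))) (XT.nd (nat_lit 858) (nat_lit 836) (nat_lit 0) (XT.nd (nat_lit 390) (nat_lit 456) (nat_lit 0) (XT.nd (nat_lit 156) (nat_lit 304) (nat_lit 0) (XT.nd (nat_lit 78) (nat_lit 228) (nat_lit 0) (XT.lf (nat_lit 0) (nat_lit 22497909524) (nat_lit 380) (nat_lit 3883657864)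 (nat_lit 76) (nat_lit 12977641491) (nat_lit 50) (nat_lit 5) (nat_lit 55) (nat_lit 5) (nat_lit 51) (nat_lit 5) (nat_lit 358) (nat_lit 302) (nat_lit 120)) (XT.lf (nat_lit 0) (nat_lit 11242991826) (nat_lit 228) (nat_lit 16581038467) (nat_lit 304) (nat_lit 12383619096) (nat_lit 47) (nat_lit 5) (nat_lit 50) (nat_lit 5) (nat_lit 51) (nat_lit 5) (nat_lit 359) (nat_lit 302) (nat_lit 119))) (XT.nd (nat_lit 78) (nat_lit 304) (nat_lit 0) (XT.lf (nat_lit 0) (nat_lit 26899115640) (nat_lit 228) (nat_lit 6447213944) (nat_lit 304) (nat_lit 7734126823) (nat_lit 47) (nat_lit 5) (nat_lit 50) (nat_lit 5) (nat_lit 51) (nat_lit 5) (nat_lit 360) (nat_lit 302) (nat_lit 118)) (XT.nd (nat_lit 78) (nat_lit 76) (nat_lit 0) (XT.lf (nat_lit 0) (nat_lit 1023182489) (nat_lit 228) (nat_lit 38056560532) (nat_lit 304) (nat_lit 2898346249) (nat_lit 44) (nat_lit 5) (nat_lit 47) (nat_lit 5) (nat_lit 48) (nat_lit 5) (nat_lit 361)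 (nat_lit 302) (nat_lit 117)) (XT.lf (nat_lit 0) (nat_lit 2247586737) (nat_lit 304) (nat_lit 26012999663) (nat_lit 76) (nat_lit 14635297384) (nat_lit 43) (nat_lit 5) (nat_lit 47) (nat_lit 5) (nat_lit 44) (nat_lit 5) (nat_lit 362) (nat_lit 302) (nat_lit 116))))) (XT.nd (nat_lit 234) (nat_lit 228) (nat_lit 0) (XT.nd (nat_lit 78) (nat_lit 228) (nat_lit 0) (XT.lf (nat_lit 0) (nat_lit 7486984431) (nat_lit 304) (nat_lit 10655337348) (nat_lit 76) (nat_lit 25698113808) (nat_lit 43) (nat_lit 5) (nat_lit 47) (nat_lit 5) (nat_lit 44) (nat_lit 5) (nat_lit 363) (nat_lit 302) (nat_lit 115)) (XT.nd (nat_lit 78) (nat_lit 0) (nat_lit 0) (XT.lf (nat_lit 0) (nat_lit 5262041541) (nat_lit 228) (nat_lit 7669522544) (nat_lit 304) (nat_lit 31880324292) (nat_lit 40) (nat_lit 5) (nat_lit 43) (nat_lit 5) (nat_lit 44) (nat_lit 5) (nat_lit 364) (nat_lit 302) (nat_lit 114)) (XT.lf (nat_lit 0) (nat_lit 18675558778) (nat_lit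 304) (nat_lit 23968651594) (nat_lit 76) (nat_lit 3164196354) (nat_lit 40) (nat_lit 5) (nat_lit 44) (nat_lit 5) (nat_lit 41) (nat_lit 5) (nat_lit 365) (nat_lit 302) (nat_lit 113)))) (XT.nd (nat_lit 78) (nat_lit 228) (nat_lit 0) (XT.lf (nat_lit 0) (nat_lit 24665330895) (nat_lit 304) (nat_lit 7999576054) (nat_lit 76) (nat_lit 14167714127) (nat_lit 40) (nat_lit 5) (nat_lit 44) (nat_lit 5) (nat_lit 41) (nat_lit 5) (nat_lit 366) (nat_lit 302) (nat_lit 112)) (XT.nd (nat_lit 78) (nat_lit 0) (nat_lit 0) (XT.lf (nat_lit 0) (nat_lit 8613130690) (nat_lit 228) (nat_lit 22302054066) (nat_lit 304) (nat_lit 16969969500) (nat_lit 37) (nat_lit 5) (nat_lit 40) (nat_lit 5) (nat_lit 41) (nat_lit 5) (nat_lit 367) (nat_lit 302) (nat_lit 111)) (XT.lf (nat_lit 0) (nat_lit 25884722291) (nat_lit 228) (nat_lit 11546222505) (nat_lit 304) (nat_lit 11535970258) (nat_lit 37) (nat_lit 5) (nat_lit 40) (nat_lit 5) (nat_lit 41)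 (nat_lit 5) (nat_lit 368) (nat_lit 302) (nat_lit 110)))))) (XT.nd (nat_lit 468) (nat_lit 380) (nat_lit 0) (XT.nd (nat_lit 234) (nat_lit 228) (nat_lit 0) (XT.nd (nat_lit 78) (nat_lit 228) (nat_lit 0) (XT.lf (nat_lit 0) (nat_lit 43671083183) (nat_lit 228) (nat_lit 468793999) (nat_lit 304) (nat_lit 5941324333) (nat_lit 37) (nat_lit 5) (nat_lit 40) (nat_lit 5) (nat_lit 41) (nat_lit 5) (nat_lit 369) (nat_lit 302) (nat_lit 109)) (XT.nd (nat_lit 78) (nat_lit 0) (nat_lit 0) (XT.lf (nat_lit 0) (nat_lit 34075123) (nat_lit 228) (nat_lit 40357399004) (nat_lit 76) (nat_lit 10831214888) (nat_lit 34) (nat_lit 5) (nat_lit 37) (nat_lit 5) (nat_lit 35) (nat_lit 5) (nat_lit 370) (nat_lit 302) (nat_lit 108)) (XT.lf (nat_lit 0) (nat_lit 6137098484) (nat_lit 228) (nat_lit 23673580859) (nat_lit 76) (nat_lit 22583947248) (nat_lit 34) (nat_lit 5) (nat_lit 37) (nat_lit 5) (nat_lit 35) (nat_lit 5) (nat_lit 371) (nat_lit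 302) (nat_lit 107)))) (XT.nd (nat_lit 78) (nat_lit 228) (nat_lit 0) (XT.lf (nat_lit 0) (nat_lit 12421042272) (nat_lit 228) (nat_lit 6492506371) (nat_lit 76) (nat_lit 34688242156) (nat_lit 34) (nat_lit 5) (nat_lit 37) (nat_lit 5) (nat_lit 35) (nat_lit 5) (nat_lit 372) (nat_lit 302) (nat_lit 106)) (XT.nd (nat_lit 78) (nat_lit 0) (nat_lit 0) (XT.lf (nat_lit 0) (nat_lit 11423755667) (nat_lit 228) (nat_lit 7577453773) (nat_lit 304) (nat_lit 35840732641) (nat_lit 31) (nat_lit 5) (nat_lit 34) (nat_lit 5) (nat_lit 35) (nat_lit 5) (nat_lit 373) (nat_lit 302) (nat_lit 105)) (XT.lf (nat_lit 0) (nat_lit 25882305819) (nat_lit 304) (nat_lit 26149971650) (nat_lit 76) (nat_lit 4083917910) (nat_lit 31) (nat_lit 5) (nat_lit 35) (nat_lit 5) (nat_lit 32) (nat_lit 5) (nat_lit 374) (nat_lit 302) (nat_lit 104))))) (XT.nd (nat_lit 234) (nat_lit 228) (nat_lit 0) (XT.nd (nat_lit 78) (nat_lit 152) (nat_lit 0) (XT.lf (nat_lit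 0) (nat_lit 33042834183) (nat_lit 304) (nat_lit 8441829505) (nat_lit 76) (nat_lit 15941825723) (nat_lit 31) (nat_lit 5) (nat_lit 35) (nat_lit 5) (nat_lit 32) (nat_lit 5) (nat_lit 375) (nat_lit 302) (nat_lit 103)) (XT.nd (nat_lit 78) (nat_lit 0) (nat_lit 0) (XT.lf (nat_lit 0) (nat_lit 9989483069) (nat_lit 152) (nat_lit 30522754138) (nat_lit 228) (nat_lit 18261036313) (nat_lit 29) (nat_lit 5) (nat_lit 31) (nat_lit 5) (nat_lit 32) (nat_lit 5) (nat_lit 376) (nat_lit 302) (nat_lit 102)) (XT.lf (nat_lit 0) (nat_lit 29143809078) (nat_lit 152) (nat_lit 19145221626) (nat_lit 228) (nat_lit 11868934127) (nat_lit 29) (nat_lit 5) (nat_lit 31) (nat_lit 5) (nat_lit 32) (nat_lit 5) (nat_lit 377) (nat_lit 302) (nat_lit 101)))) (XT.nd (nat_lit 78) (nat_lit 228) (nat_lit 0) (XT.lf (nat_lit 0) (nat_lit 48869876351) (nat_lit 152) (nat_lit 7427370543) (nat_lit 228) (nat_lit 5287009266) (nat_lit 29) (nat_lit 5) (nat_lit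 31) (nat_lit 5) (nat_lit 32) (nat_lit 5) (nat_lit 378) (nat_lit 302) (nat_lit 100)) (XT.nd (nat_lit 78) (nat_lit 0) (nat_lit 0) (XT.lf (nat_lit 0) (nat_lit 1566725338) (nat_lit 228) (nat_lit 56857568671) (nat_lit 76) (nat_lit 4625510328) (nat_lit 26) (nat_lit 5) (nat_lit 29) (nat_lit 5) (nat_lit 27) (nat_lit 5) (nat_lit 379) (nat_lit 302) (nat_lit 99)) (XT.lf (nat_lit 0) (nat_lit 8721178197) (nat_lit 228) (nat_lit 38758805053) (nat_lit 76) (nat_lit 17071726817) (nat_lit 26) (nat_lit 5) (nat_lit 29) (nat_lit 5) (nat_lit 27) (nat_lit 5) (nat_lit 380) (nat_lit 302) (nat_lit 98))))))))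
noncomputable def xc215 : XT := (XT.nd (nat_lit 36270) (nat_lit 0) (nat_lit 3040) (XT.nd (nat_lit 35334) (nat_lit 0) (nat_lit 7524) (XT.nd (nat_lit 34866) (nat_lit 0) (nat_lit 8816) (XT.nd (nat_lit 34632) (nat_lit 0) (nat_lit 8664) (XT.nd (nat_lit 34554) (nat_lit 0) (nat_lit 8664) (XT.lf (nat_lit 0) (nat_lit 16088487989) (nat_lit 228) (nat_lit 20119858715) (nat_lit 76) (nat_lit 29890382093) (nat_lit 26) (nat_lit 5) (nat_lit 29) (nat_lit 5) (nat_lit 27) (nat_lit 5) (nat_lit 381) (nat_lit 302) (nat_lit 97)) (XT.lf (nat_lit 0) (nat_lit 339091713) (nat_lit 1140) (nat_lit 3551240691) (nat_lit 1140) (nat_lit 3551240691) (nat_lit 140) (nat_lit 3) (nat_lit 155) (nat_lit 3) (nat_lit 155) (nat_lit 5) (nat_lit 303) (nat_lit 303) (nat_lit 174))) (XT.nd (nat_lit 78) (nat_lit 0) (nat_lit 76) (XT.lf (nat_lit 0) (nat_lit 960215097) (nat_lit 1140) (nat_lit 1024622317) (nat_lit 1140) (nat_lit 13112668889) (nat_lit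 140) (nat_lit 3) (nat_lit 155) (nat_lit 3) (nat_lit 155) (nat_lit 5) (nat_lit 304) (nat_lit 303) (nat_lit 173)) (XT.nd (nat_lit 78) (nat_lit 0) (nat_lit 0) (XT.lf (nat_lit 0) (nat_lit 1330235220) (nat_lit 1064) (nat_lit 10021784474) (nat_lit 1140) (nat_lit 3963920240) (nat_lit 141) (nat_lit 5) (nat_lit 155) (nat_lit 5) (nat_lit 156) (nat_lit 5) (nat_lit 305) (nat_lit 303) (nat_lit 172)) (XT.lf (nat_lit 0) (nat_lit 1731151283) (nat_lit 1064) (nat_lit 3742680477) (nat_lit 1140) (nat_lit 10066528664) (nat_lit 141) (nat_lit 5) (nat_lit 155) (nat_lit 5) (nat_lit 156) (nat_lit 5) (nat_lit 306) (nat_lit 303) (nat_lit 171))))) (XT.nd (nat_lit 234) (nat_lit 0) (nat_lit 76) (XT.nd (nat_lit 78) (nat_lit 0) (nat_lit 0) (XT.lf (nat_lit 0) (nat_lit 2166635700) (nat_lit 1064) (nat_lit 13003656735) (nat_lit 1140) (nat_lit 600571770) (nat_lit 142) (nat_lit 5) (nat_lit 156) (nat_lit 5) (nat_lit 157) (nat_lit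 5) (nat_lit 307) (nat_lit 303) (nat_lit 170)) (XT.nd (nat_lit 78) (nat_lit 0) (nat_lit 0) (XT.lf (nat_lit 0) (nat_lit 2697821386) (nat_lit 1064) (nat_lit 6518551643) (nat_lit 1140) (nat_lit 6789457087) (nat_lit 142) (nat_lit 5) (nat_lit 156) (nat_lit 5) (nat_lit 157) (nat_lit 5) (nat_lit 308) (nat_lit 303) (nat_lit 169)) (XT.lf (nat_lit 76) (nat_lit 158426079) (nat_lit 0) (nat_lit 3078595231) (nat_lit 1140) (nat_lit 13011086692) (nat_lit 143) (nat_lit 5) (nat_lit 142) (nat_lit 5) (nat_lit 157) (nat_lit 5) (nat_lit 309) (nat_lit 303) (nat_lit 168)))) (XT.nd (nat_lit 78) (nat_lit 0) (nat_lit 0) (XT.lf (nat_lit 0) (nat_lit 3880859931) (nat_lit 1064) (nat_lit 9364221369) (nat_lit 1140) (nat_lit 3249943666) (nat_lit 143) (nat_lit 5) (nat_lit 157) (nat_lit 5) (nat_lit 158) (nat_lit 5) (nat_lit 310) (nat_lit 303) (nat_lit 167)) (XT.nd (nat_lit 78) (nat_lit 0) (nat_lit 0) (XT.lf (nat_lit 0) (nat_lit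 4565572173) (nat_lit 1064) (nat_lit 2473352377) (nat_lit 1140) (nat_lit 9709802036) (nat_lit 143) (nat_lit 5) (nat_lit 157) (nat_lit 5) (nat_lit 158) (nat_lit 5) (nat_lit 311) (nat_lit 303) (nat_lit 166)) (XT.lf (nat_lit 76) (nat_lit 4710457531) (nat_lit 0) (nat_lit 596985255) (nat_lit 1140) (nat_lit 11701521165) (nat_lit 144) (nat_lit 5) (nat_lit 143) (nat_lit 5) (nat_lit 158) (nat_lit 5) (nat_lit 312) (nat_lit 303) (nat_lit 165)))))) (XT.nd (nat_lit 468) (nat_lit 1444) (nat_lit 0) (XT.nd (nat_lit 234) (nat_lit 0) (nat_lit 76) (XT.nd (nat_lit 78) (nat_lit 0) (nat_lit 0) (XT.lf (nat_lit 0) (nat_lit 6146398125) (nat_lit 1064) (nat_lit 5180017188) (nat_lit 1140) (nat_lit 5948370797) (nat_lit 144) (nat_lit 5) (nat_lit 158) (nat_lit 5) (nat_lit 159) (nat_lit 5) (nat_lit 313) (nat_lit 303) (nat_lit 164)) (XT.nd (nat_lit 78) (nat_lit 0) (nat_lit 76) (XT.lf (nat_lit 76) (nat_lit 2182935444) (nat_lit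 0) (nat_lit 4846289212) (nat_lit 1140) (nat_lit 10518819075) (nat_lit 145) (nat_lit 5) (nat_lit 144) (nat_lit 5) (nat_lit 159) (nat_lit 5) (nat_lit 314) (nat_lit 303) (nat_lit 163)) (XT.lf (nat_lit 0) (nat_lit 8000949745) (nat_lit 1064) (nat_lit 7979064280) (nat_lit 1140) (nat_lit 1847633882) (nat_lit 145) (nat_lit 5) (nat_lit 159) (nat_lit 5) (nat_lit 160) (nat_lit 5) (nat_lit 315) (nat_lit 303) (nat_lit 162)))) (XT.nd (nat_lit 78) (nat_lit 0) (nat_lit 0) (XT.lf (nat_lit 0) (nat_lit 9042055931) (nat_lit 1064) (nat_lit 425251430) (nat_lit 1140) (nat_lit 8647146585) (nat_lit 145) (nat_lit 5) (nat_lit 159) (nat_lit 5) (nat_lit 160) (nat_lit 5) (nat_lit 316) (nat_lit 303) (nat_lit 161)) (XT.nd (nat_lit 78) (nat_lit 0) (nat_lit 76) (XT.lf (nat_lit 76) (nat_lit 7495785960) (nat_lit 0) (nat_lit 2683135544) (nat_lit 1140) (nat_lit 8229026893) (nat_lit 146) (nat_lit 5) (nat_lit 145) (nat_lit 5) (nat_lit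 160) (nat_lit 5) (nat_lit 317) (nat_lit 303) (nat_lit 160)) (XT.lf (nat_lit 0) (nat_lit 11388262258) (nat_lit 1064) (nat_lit 3094229095) (nat_lit 1140) (nat_lit 4226624689) (nat_lit 146) (nat_lit 5) (nat_lit 160) (nat_lit 5) (nat_lit 161) (nat_lit 5) (nat_lit 318) (nat_lit 303) (nat_lit 159))))) (XT.nd (nat_lit 234) (nat_lit 608) (nat_lit 0) (XT.nd (nat_lit 78) (nat_lit 988) (nat_lit 0) (XT.lf (nat_lit 76) (nat_lit 5024022693) (nat_lit 0) (nat_lit 7677588580) (nat_lit 1140) (nat_lit 6315694471) (nat_lit 147) (nat_lit 5) (nat_lit 146) (nat_lit 5) (nat_lit 161) (nat_lit 5) (nat_lit 319) (nat_lit 303) (nat_lit 158)) (XT.nd (nat_lit 78) (nat_lit 988) (nat_lit 0) (XT.lf (nat_lit 76) (nat_lit 13443615855) (nat_lit 0) (nat_lit 635012463) (nat_lit 1140) (nat_lit 5255403111) (nat_lit 147) (nat_lit 5) (nat_lit 146) (nat_lit 5) (nat_lit 161) (nat_lit 5) (nat_lit 320) (nat_lit 303) (nat_lit 157)) (XT.lf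 (nat_lit 0) (nat_lit 2433699532) (nat_lit 1064) (nat_lit 13143512595) (nat_lit 1140) (nat_lit 4080656857) (nat_lit 133) (nat_lit 5) (nat_lit 147) (nat_lit 5) (nat_lit 148) (nat_lit 5) (nat_lit 321) (nat_lit 303) (nat_lit 156)))) (XT.nd (nat_lit 78) (nat_lit 608) (nat_lit 0) (XT.lf (nat_lit 0) (nat_lit 11116225091) (nat_lit 1064) (nat_lit 6063615976) (nat_lit 1140) (nat_lit 2809825235) (nat_lit 133) (nat_lit 5) (nat_lit 147) (nat_lit 5) (nat_lit 148) (nat_lit 5) (nat_lit 322) (nat_lit 303) (nat_lit 155)) (XT.nd (nat_lit 78) (nat_lit 608) (nat_lit 0) (XT.lf (nat_lit 0) (nat_lit 18835941907) (nat_lit 1140) (nat_lit 289704409) (nat_lit 76) (nat_lit 1205626200) (nat_lit 133) (nat_lit 5) (nat_lit 148) (nat_lit 5) (nat_lit 134) (nat_lit 5) (nat_lit 323) (nat_lit 303) (nat_lit 154)) (XT.lf (nat_lit 0) (nat_lit 8654859791) (nat_lit 608) (nat_lit 12023866743) (nat_lit 684) (nat_lit 306637) (nat_lit 125)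 (nat_lit 5) (nat_lit 133) (nat_lit 5) (nat_lit 134) (nat_lit 5) (nat_lit 324) (nat_lit 303) (nat_lit 153))))))) (XT.nd (nat_lit 858) (nat_lit 2052) (nat_lit 0) (XT.nd (nat_lit 390) (nat_lit 1292) (nat_lit 0) (XT.nd (nat_lit 156) (nat_lit 532) (nat_lit 0) (XT.nd (nat_lit 78) (nat_lit 532) (nat_lit 0) (XT.lf (nat_lit 0) (nat_lit 1506301975) (nat_lit 684) (nat_lit 3183887951) (nat_lit 76) (nat_lit 16346704789) (nat_lit 124) (nat_lit 5) (nat_lit 133) (nat_lit 5) (nat_lit 125) (nat_lit 5) (nat_lit 325) (nat_lit 303) (nat_lit 152)) (XT.lf (nat_lit 0) (nat_lit 3138211278) (nat_lit 608) (nat_lit 15398162794) (nat_lit 76) (nat_lit 2866729581) (nat_lit 117) (nat_lit 5) (nat_lit 125) (nat_lit 5) (nat_lit 118) (nat_lit 5) (nat_lit 326) (nat_lit 303) (nat_lit 151))) (XT.nd (nat_lit 78) (nat_lit 532) (nat_lit 0) (XT.lf (nat_lit 0) (nat_lit 4892114002) (nat_lit 608) (nat_lit 6296987531) (nat_lit 76) (nat_lit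 10589020702) (nat_lit 117) (nat_lit 5) (nat_lit 125) (nat_lit 5) (nat_lit 118) (nat_lit 5) (nat_lit 327) (nat_lit 303) (nat_lit 150)) (XT.nd (nat_lit 78) (nat_lit 0) (nat_lit 0) (XT.lf (nat_lit 0) (nat_lit 3132922178) (nat_lit 532) (nat_lit 3590127454) (nat_lit 608) (nat_lit 15440623308) (nat_lit 110) (nat_lit 5) (nat_lit 117) (nat_lit 5) (nat_lit 118) (nat_lit 5) (nat_lit 328) (nat_lit 303) (nat_lit 149)) (XT.lf (nat_lit 0) (nat_lit 8708273490) (nat_lit 608) (nat_lit 9630993011) (nat_lit 76) (nat_lit 4218556493) (nat_lit 110) (nat_lit 5) (nat_lit 118) (nat_lit 5) (nat_lit 111) (nat_lit 5) (nat_lit 329) (nat_lit 303) (nat_lit 148))))) (XT.nd (nat_lit 234) (nat_lit 836) (nat_lit 0) (XT.nd (nat_lit 78) (nat_lit 0) (nat_lit 0) (XT.lf (nat_lit 0) (nat_lit 10003691) (nat_lit 456) (nat_lit 10773271467) (nat_lit 532) (nat_lit 12179628993) (nat_lit 104) (nat_lit 5) (nat_lit 110) (nat_lit 5) (nat_lit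 111) (nat_lit 5) (nat_lit 330) (nat_lit 303) (nat_lit 147)) (XT.nd (nat_lit 78) (nat_lit 0) (nat_lit 0) (XT.lf (nat_lit 0) (nat_lit 10132306008) (nat_lit 456) (nat_lit 2880160588) (nat_lit 532) (nat_lit 10364925803) (nat_lit 104) (nat_lit 5) (nat_lit 110) (nat_lit 5) (nat_lit 111) (nat_lit 5) (nat_lit 331) (nat_lit 303) (nat_lit 146)) (XT.lf (nat_lit 0) (nat_lit 15353837558) (nat_lit 532) (nat_lit 3301862947) (nat_lit 76) (nat_lit 5147268152) (nat_lit 104) (nat_lit 5) (nat_lit 111) (nat_lit 5) (nat_lit 105) (nat_lit 5) (nat_lit 332) (nat_lit 303) (nat_lit 145)))) (XT.nd (nat_lit 78) (nat_lit 380) (nat_lit 0) (XT.lf (nat_lit 0) (nat_lit 7043377273) (nat_lit 456) (nat_lit 10813284389) (nat_lit 532) (nat_lit 6381926292) (nat_lit 98) (nat_lit 5) (nat_lit 104) (nat_lit 5) (nat_lit 105) (nat_lit 5) (nat_lit 333) (nat_lit 303) (nat_lit 144)) (XT.nd (nat_lit 78) (nat_lit 380) (nat_lit 0) (XT.lf (nat_lit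 0) (nat_lit 17761505539) (nat_lit 456) (nat_lit 2701493981) (nat_lit 532) (nat_lit 4223435195) (nat_lit 98) (nat_lit 5) (nat_lit 104) (nat_lit 5) (nat_lit 105) (nat_lit 5) (nat_lit 334) (nat_lit 303) (nat_lit 143)) (XT.lf (nat_lit 0) (nat_lit 3665484972) (nat_lit 380) (nat_lit 19566851320) (nat_lit 456) (nat_lit 1912847742) (nat_lit 93) (nat_lit 5) (nat_lit 98) (nat_lit 5) (nat_lit 99) (nat_lit 5) (nat_lit 335) (nat_lit 303) (nat_lit 142)))))) (XT.nd (nat_lit 468) (nat_lit 1140) (nat_lit 0) (XT.nd (nat_lit 234) (nat_lit 380) (nat_lit 0) (XT.nd (nat_lit 78) (nat_lit 456) (nat_lit 0) (XT.lf (nat_lit 0) (nat_lit 550571637) (nat_lit 456) (nat_lit 10937172453) (nat_lit 76) (nat_lit 14127048964) (nat_lit 92) (nat_lit 5) (nat_lit 98) (nat_lit 5) (nat_lit 93) (nat_lit 5) (nat_lit 336) (nat_lit 303) (nat_lit 141)) (XT.nd (nat_lit 78) (nat_lit 456) (nat_lit 0) (XT.lf (nat_lit 0) (nat_lit 3044845549) (nat_lit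 456) (nat_lit 102368170) (nat_lit 76) (nat_lit 22950856953) (nat_lit 92) (nat_lit 5) (nat_lit 98) (nat_lit 5) (nat_lit 93) (nat_lit 5) (nat_lit 337) (nat_lit 303) (nat_lit 140)) (XT.lf (nat_lit 0) (nat_lit 5771233672) (nat_lit 532) (nat_lit 15373598852) (nat_lit 76) (nat_lit 5446305658) (nat_lit 86) (nat_lit 5) (nat_lit 93) (nat_lit 5) (nat_lit 87) (nat_lit 5) (nat_lit 338) (nat_lit 303) (nat_lit 139)))) (XT.nd (nat_lit 78) (nat_lit 380) (nat_lit 0) (XT.lf (nat_lit 0) (nat_lit 8607229018) (nat_lit 532) (nat_lit 4255995271) (nat_lit 76) (nat_lit 14234948808) (nat_lit 86) (nat_lit 5) (nat_lit 93) (nat_lit 5) (nat_lit 87) (nat_lit 5) (nat_lit 339) (nat_lit 303) (nat_lit 138)) (XT.nd (nat_lit 78) (nat_lit 0) (nat_lit 0) (XT.lf (nat_lit 0) (nat_lit 7333382459) (nat_lit 380) (nat_lit 4261153649) (nat_lit 456) (nat_lit 16023905555) (nat_lit 81) (nat_lit 5) (nat_lit 86) (nat_lit 5) (nat_lit 87) (nat_lit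 5) (nat_lit 340) (nat_lit 303) (nat_lit 137)) (XT.lf (nat_lit 0) (nat_lit 14754884166) (nat_lit 456) (nat_lit 8844913285) (nat_lit 76) (nat_lit 4552027465) (nat_lit 81) (nat_lit 5) (nat_lit 87) (nat_lit 5) (nat_lit 82) (nat_lit 5) (nat_lit 341) (nat_lit 303) (nat_lit 136))))) (XT.nd (nat_lit 234) (nat_lit 760) (nat_lit 0) (XT.nd (nat_lit 78) (nat_lit 0) (nat_lit 0) (XT.lf (nat_lit 0) (nat_lit 2949000914) (nat_lit 380) (nat_lit 15127511836) (nat_lit 456) (nat_lit 10622711827) (nat_lit 76) (nat_lit 5) (nat_lit 81) (nat_lit 5) (nat_lit 82) (nat_lit 5) (nat_lit 342) (nat_lit 303) (nat_lit 135)) (XT.nd (nat_lit 78) (nat_lit 0) (nat_lit 0) (XT.lf (nat_lit 0) (nat_lit 15273299486) (nat_lit 380) (nat_lit 6309812679) (nat_lit 456) (nat_lit 7677383152) (nat_lit 76) (nat_lit 5) (nat_lit 81) (nat_lit 5) (nat_lit 82) (nat_lit 5) (nat_lit 343) (nat_lit 303) (nat_lit 134)) (XT.lf (nat_lit 0) (nat_lit 25217674760)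 (nat_lit 456) (nat_lit 1902652062) (nat_lit 76) (nat_lit 2717602896) (nat_lit 76) (nat_lit 5) (nat_lit 82) (nat_lit 5) (nat_lit 77) (nat_lit 5) (nat_lit 344) (nat_lit 303) (nat_lit 133)))) (XT.nd (nat_lit 78) (nat_lit 456) (nat_lit 0) (XT.lf (nat_lit 0) (nat_lit 10685887673) (nat_lit 304) (nat_lit 18436807421) (nat_lit 380) (nat_lit 1305157679) (nat_lit 72) (nat_lit 5) (nat_lit 76) (nat_lit 5) (nat_lit 77) (nat_lit 5) (nat_lit 345) (nat_lit 303) (nat_lit 132)) (XT.nd (nat_lit 78) (nat_lit 380) (nat_lit 0) (XT.lf (nat_lit 0) (nat_lit 2083883791) (nat_lit 380) (nat_lit 7368902575) (nat_lit 76) (nat_lit 21581617031) (nat_lit 71) (nat_lit 5) (nat_lit 76) (nat_lit 5) (nat_lit 72) (nat_lit 5) (nat_lit 346) (nat_lit 303) (nat_lit 131)) (XT.lf (nat_lit 0) (nat_lit 5464573123) (nat_lit 380) (nat_lit 132678889) (nat_lit 456) (nat_lit 26060051766) (nat_lit 66) (nat_lit 5) (nat_lit 71) (nat_lit 5) (nat_lit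 72) (nat_lit 5) (nat_lit 347) (nat_lit 303) (nat_lit 130))))))))
noncomputable def xc216 : XT := (XT.nd (nat_lit 1716) (nat_lit 836) (nat_lit 0) (XT.nd (nat_lit 858) (nat_lit 988) (nat_lit 0) (XT.nd (nat_lit 390) (nat_lit 608) (nat_lit 0) (XT.nd (nat_lit 156) (nat_lit 608) (nat_lit 0) (XT.nd (nat_lit 78) (nat_lit 0) (nat_lit 0) (XT.lf (nat_lit 0) (nat_lit 9378586426) (nat_lit 456) (nat_lit 13558842252) (nat_lit 76) (nat_lit 9356592868) (nat_lit 66) (nat_lit 5) (nat_lit 72) (nat_lit 5) (nat_lit 67) (nat_lit 5) (nat_lit 348) (nat_lit 303) (nat_lit 129)) (XT.lf (nat_lit 0) (nat_lit 13271192998) (nat_lit 456) (nat_lit 551670407) (nat_lit 76) (nat_lit 19127049591) (nat_lit 66) (nat_lit 5) (nat_lit 72) (nat_lit 5) (nat_lit 67) (nat_lit 5) (nat_lit 349) (nat_lit 303) (nat_lit 128))) (XT.nd (nat_lit 78) (nat_lit 304) (nat_lit 0) (XT.lf (nat_lit 0) (nat_lit 13096995310) (nat_lit 304) (nat_lit 4306098667)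 (nat_lit 380) (nat_lit 16218718634) (nat_lit 62) (nat_lit 5) (nat_lit 66) (nat_lit 5) (nat_lit 67) (nat_lit 5) (nat_lit 350) (nat_lit 303) (nat_lit 127)) (XT.nd (nat_lit 78) (nat_lit 304) (nat_lit 0) (XT.lf (nat_lit 0) (nat_lit 21714079052) (nat_lit 380) (nat_lit 7204506329) (nat_lit 76) (nat_lit 5393636726) (nat_lit 62) (nat_lit 5) (nat_lit 67) (nat_lit 5) (nat_lit 63) (nat_lit 5) (nat_lit 351) (nat_lit 303) (nat_lit 126)) (XT.lf (nat_lit 0) (nat_lit 6597296697) (nat_lit 304) (nat_lit 19659914489) (nat_lit 380) (nat_lit 8763054688) (nat_lit 58) (nat_lit 5) (nat_lit 62) (nat_lit 5) (nat_lit 63) (nat_lit 5) (nat_lit 352) (nat_lit 303) (nat_lit 125))))) (XT.nd (nat_lit 234) (nat_lit 304) (nat_lit 0) (XT.nd (nat_lit 78) (nat_lit 304) (nat_lit 0) (XT.lf (nat_lit 0) (nat_lit 20956660846) (nat_lit 304) (nat_lit 10049547481) (nat_lit 380) (nat_lit 4741261817) (nat_lit 58) (nat_lit 5) (nat_lit 62) (nat_lit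 5) (nat_lit 63) (nat_lit 5) (nat_lit 353) (nat_lit 303) (nat_lit 124)) (XT.nd (nat_lit 78) (nat_lit 304) (nat_lit 0) (XT.lf (nat_lit 0) (nat_lit 35742749331) (nat_lit 304) (nat_lit 151838338) (nat_lit 380) (nat_lit 602001640) (nat_lit 58) (nat_lit 5) (nat_lit 62) (nat_lit 5) (nat_lit 63) (nat_lit 5) (nat_lit 354) (nat_lit 303) (nat_lit 123)) (XT.lf (nat_lit 0) (nat_lit 3819129328) (nat_lit 304) (nat_lit 23424408054) (nat_lit 76) (nat_lit 10016720349) (nat_lit 54) (nat_lit 5) (nat_lit 58) (nat_lit 5) (nat_lit 55) (nat_lit 5) (nat_lit 355) (nat_lit 303) (nat_lit 122)))) (XT.nd (nat_lit 78) (nat_lit 304) (nat_lit 0) (XT.lf (nat_lit 0) (nat_lit 8366993102) (nat_lit 304) (nat_lit 9179514956) (nat_lit 76) (nat_lit 20499968996) (nat_lit 54) (nat_lit 5) (nat_lit 58) (nat_lit 5) (nat_lit 55) (nat_lit 5) (nat_lit 356) (nat_lit 303) (nat_lit 121)) (XT.nd (nat_lit 78) (nat_lit 0) (nat_lit 0) (XT.lf (nat_lit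 0) (nat_lit 5598029651) (nat_lit 304) (nat_lit 7504169470) (nat_lit 380) (nat_lit 25752562098) (nat_lit 50) (nat_lit 5) (nat_lit 54) (nat_lit 5) (nat_lit 55) (nat_lit 5) (nat_lit 357) (nat_lit 303) (nat_lit 120)) (XT.lf (nat_lit 0) (nat_lit 18097500497) (nat_lit 380) (nat_lit 18709629124) (nat_lit 76) (nat_lit 2876628406) (nat_lit 50) (nat_lit 5) (nat_lit 55) (nat_lit 5) (nat_lit 51) (nat_lit 5) (nat_lit 358) (nat_lit 303) (nat_lit 119)))))) (XT.nd (nat_lit 390) (nat_lit 456) (nat_lit 0) (XT.nd (nat_lit 156) (nat_lit 304) (nat_lit 0) (XT.nd (nat_lit 78) (nat_lit 228) (nat_lit 0) (XT.lf (nat_lit 0) (nat_lit 23314175032) (nat_lit 380) (nat_lit 3804272044) (nat_lit 76) (nat_lit 13417037380) (nat_lit 50) (nat_lit 5) (nat_lit 55) (nat_lit 5) (nat_lit 51) (nat_lit 5) (nat_lit 359) (nat_lit 303) (nat_lit 118)) (XT.lf (nat_lit 0) (nat_lit 11774256592) (nat_lit 228) (nat_lit 17023571082) (nat_lit 304)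 (nat_lit 12611625657) (nat_lit 47) (nat_lit 5) (nat_lit 50) (nat_lit 5) (nat_lit 51) (nat_lit 5) (nat_lit 360) (nat_lit 303) (nat_lit 117))) (XT.nd (nat_lit 78) (nat_lit 304) (nat_lit 0) (XT.lf (nat_lit 0) (nat_lit 27894414363) (nat_lit 228) (nat_lit 6587330810) (nat_lit 304) (nat_lit 7826828285) (nat_lit 47) (nat_lit 5) (nat_lit 50) (nat_lit 5) (nat_lit 51) (nat_lit 5) (nat_lit 361) (nat_lit 303) (nat_lit 116)) (XT.nd (nat_lit 78) (nat_lit 76) (nat_lit 0) (XT.lf (nat_lit 0) (nat_lit 1244104083) (nat_lit 228) (nat_lit 39141450137) (nat_lit 304) (nat_lit 2847636451) (nat_lit 44) (nat_lit 5) (nat_lit 47) (nat_lit 5) (nat_lit 48) (nat_lit 5) (nat_lit 362) (nat_lit 303) (nat_lit 115)) (XT.lf (nat_lit 0) (nat_lit 2446056998) (nat_lit 304) (nat_lit 26605871089) (nat_lit 76) (nat_lit 15126675926) (nat_lit 43) (nat_lit 5) (nat_lit 47) (nat_lit 5) (nat_lit 44) (nat_lit 5) (nat_lit 363) (nat_lit 303)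 (nat_lit 114))))) (XT.nd (nat_lit 234) (nat_lit 228) (nat_lit 0) (XT.nd (nat_lit 78) (nat_lit 228) (nat_lit 0) (XT.lf (nat_lit 0) (nat_lit 7838819847) (nat_lit 304) (nat_lit 10792940610) (nat_lit 76) (nat_lit 26519852970) (nat_lit 43) (nat_lit 5) (nat_lit 47) (nat_lit 5) (nat_lit 44) (nat_lit 5) (nat_lit 364) (nat_lit 303) (nat_lit 113)) (XT.nd (nat_lit 78) (nat_lit 0) (nat_lit 0) (XT.lf (nat_lit 0) (nat_lit 5600174775) (nat_lit 228) (nat_lit 7844589392) (nat_lit 304) (nat_lit 32707511178) (nat_lit 40) (nat_lit 5) (nat_lit 43) (nat_lit 5) (nat_lit 44) (nat_lit 5) (nat_lit 365) (nat_lit 303) (nat_lit 112)) (XT.lf (nat_lit 0) (nat_lit 19357944021) (nat_lit 304) (nat_lit 24509349203) (nat_lit 76) (nat_lit 3311496237) (nat_lit 40) (nat_lit 5) (nat_lit 44) (nat_lit 5) (nat_lit 41) (nat_lit 5) (nat_lit 366) (nat_lit 303) (nat_lit 111)))) (XT.nd (nat_lit 78) (nat_lit 228) (nat_lit 0) (XT.lf (nat_lit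 0) (nat_lit 25523852452) (nat_lit 304) (nat_lit 8066396404) (nat_lit 76) (nat_lit 14643594088) (nat_lit 40) (nat_lit 5) (nat_lit 44) (nat_lit 5) (nat_lit 41) (nat_lit 5) (nat_lit 367) (nat_lit 303) (nat_lit 110)) (XT.nd (nat_lit 78) (nat_lit 0) (nat_lit 0) (XT.lf (nat_lit 0) (nat_lit 9042993826) (nat_lit 228) (nat_lit 22916403118) (nat_lit 304) (nat_lit 17358615148) (nat_lit 37) (nat_lit 5) (nat_lit 40) (nat_lit 5) (nat_lit 41) (nat_lit 5) (nat_lit 368) (nat_lit 303) (nat_lit 109)) (XT.lf (nat_lit 0) (nat_lit 26827738927) (nat_lit 228) (nat_lit 11839490180) (nat_lit 304) (nat_lit 11765104281) (nat_lit 37) (nat_lit 5) (nat_lit 40) (nat_lit 5) (nat_lit 41) (nat_lit 5) (nat_lit 369) (nat_lit 303) (nat_lit 108))))))) (XT.nd (nat_lit 35490) (nat_lit 0) (nat_lit 8664) (XT.nd (nat_lit 390) (nat_lit 380) (nat_lit 0) (XT.nd (nat_lit 156) (nat_lit 228) (nat_lit 0) (XT.nd (nat_lit 78) (nat_lit 228) (nat_lit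 0) (XT.lf (nat_lit 0) (nat_lit 45142841860) (nat_lit 228) (nat_lit 431285974) (nat_lit 304) (nat_lit 6006025145) (nat_lit 37) (nat_lit 5) (nat_lit 40) (nat_lit 5) (nat_lit 41) (nat_lit 5) (nat_lit 370) (nat_lit 303) (nat_lit 107)) (XT.lf (nat_lit 0) (nat_lit 145246759) (nat_lit 228) (nat_lit 41402755188) (nat_lit 76) (nat_lit 11207890808) (nat_lit 34) (nat_lit 5) (nat_lit 37) (nat_lit 5) (nat_lit 35) (nat_lit 5) (nat_lit 371) (nat_lit 303) (nat_lit 106))) (XT.nd (nat_lit 78) (nat_lit 228) (nat_lit 0) (XT.lf (nat_lit 0) (nat_lit 6428152586) (nat_lit 228) (nat_lit 24223238978) (nat_lit 76) (nat_lit 23311698164) (nat_lit 34) (nat_lit 5) (nat_lit 37) (nat_lit 5) (nat_lit 35) (nat_lit 5) (nat_lit 372) (nat_lit 303) (nat_lit 105)) (XT.nd (nat_lit 78) (nat_lit 228) (nat_lit 0) (XT.lf (nat_lit 0) (nat_lit 12897499897) (nat_lit 228) (nat_lit 6531408449) (nat_lit 76) (nat_lit 35777658837) (nat_lit 34)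 (nat_lit 5) (nat_lit 37) (nat_lit 5) (nat_lit 35) (nat_lit 5) (nat_lit 373) (nat_lit 303) (nat_lit 104)) (XT.lf (nat_lit 0) (nat_lit 11920813282) (nat_lit 228) (nat_lit 7752718387) (nat_lit 304) (nat_lit 36810442281) (nat_lit 31) (nat_lit 5) (nat_lit 34) (nat_lit 5) (nat_lit 35) (nat_lit 5) (nat_lit 374) (nat_lit 303) (nat_lit 103))))) (XT.nd (nat_lit 234) (nat_lit 228) (nat_lit 0) (XT.nd (nat_lit 78) (nat_lit 152) (nat_lit 0) (XT.lf (nat_lit 0) (nat_lit 26758567585) (nat_lit 304) (nat_lit 26781974765) (nat_lit 76) (nat_lit 4255991894) (nat_lit 31) (nat_lit 5) (nat_lit 35) (nat_lit 5) (nat_lit 32) (nat_lit 5) (nat_lit 375) (nat_lit 303) (nat_lit 102)) (XT.nd (nat_lit 78) (nat_lit 152) (nat_lit 0) (XT.lf (nat_lit 0) (nat_lit 34131005220) (nat_lit 304) (nat_lit 8547029988) (nat_lit 76) (nat_lit 16468193550) (nat_lit 31) (nat_lit 5) (nat_lit 35) (nat_lit 5) (nat_lit 32) (nat_lit 5) (nat_lit 376)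 (nat_lit 303) (nat_lit 101)) (XT.lf (nat_lit 0) (nat_lit 10435770450) (nat_lit 152) (nat_lit 31387307199) (nat_lit 228) (nat_lit 18710385454) (nat_lit 29) (nat_lit 5) (nat_lit 31) (nat_lit 5) (nat_lit 32) (nat_lit 5) (nat_lit 377) (nat_lit 303) (nat_lit 100)))) (XT.nd (nat_lit 78) (nat_lit 228) (nat_lit 0) (XT.lf (nat_lit 0) (nat_lit 30160456252) (nat_lit 152) (nat_lit 19669937922) (nat_lit 228) (nat_lit 12129388609) (nat_lit 29) (nat_lit 5) (nat_lit 31) (nat_lit 5) (nat_lit 32) (nat_lit 5) (nat_lit 378) (nat_lit 303) (nat_lit 99)) (XT.nd (nat_lit 78) (nat_lit 228) (nat_lit 0) (XT.lf (nat_lit 0) (nat_lit 50474159925) (nat_lit 152) (nat_lit 7601997143) (nat_lit 228) (nat_lit 5352790863) (nat_lit 29) (nat_lit 5) (nat_lit 31) (nat_lit 5) (nat_lit 32) (nat_lit 5) (nat_lit 379) (nat_lit 303) (nat_lit 98)) (XT.lf (nat_lit 0) (nat_lit 1703898752) (nat_lit 228) (nat_lit 58422190936) (nat_lit 76) (nat_lit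 4812375311) (nat_lit 26) (nat_lit 5) (nat_lit 29) (nat_lit 5) (nat_lit 27) (nat_lit 5) (nat_lit 380) (nat_lit 303) (nat_lit 97)))))) (XT.nd (nat_lit 468) (nat_lit 0) (nat_lit 152) (XT.nd (nat_lit 234) (nat_lit 0) (nat_lit 76) (XT.nd (nat_lit 78) (nat_lit 0) (nat_lit 0) (XT.lf (nat_lit 0) (nat_lit 618510109) (nat_lit 1140) (nat_lit 3518754263) (nat_lit 1140) (nat_lit 3518754263) (nat_lit 140) (nat_lit 3) (nat_lit 155) (nat_lit 3) (nat_lit 155) (nat_lit 5) (nat_lit 304) (nat_lit 304) (nat_lit 172)) (XT.nd (nat_lit 78) (nat_lit 0) (nat_lit 76) (XT.lf (nat_lit 0) (nat_lit 1511828627) (nat_lit 1140) (nat_lit 785412153) (nat_lit 1140) (nat_lit 13236100123) (nat_lit 140) (nat_lit 3) (nat_lit 155) (nat_lit 3) (nat_lit 155) (nat_lit 5) (nat_lit 305) (nat_lit 304) (nat_lit 171)) (XT.lf (nat_lit 0) (nat_lit 1877957043) (nat_lit 1064) (nat_lit 10036131450) (nat_lit 1140) (nat_lit 3844729781) (nat_lit 141)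 (nat_lit 5) (nat_lit 155) (nat_lit 5) (nat_lit 156) (nat_lit 5) (nat_lit 306) (nat_lit 304) (nat_lit 170)))) (XT.nd (nat_lit 78) (nat_lit 0) (nat_lit 76) (XT.lf (nat_lit 0) (nat_lit 2276109866) (nat_lit 1064) (nat_lit 3576993360) (nat_lit 1140) (nat_lit 10137351644) (nat_lit 141) (nat_lit 5) (nat_lit 155) (nat_lit 5) (nat_lit 156) (nat_lit 5) (nat_lit 307) (nat_lit 304) (nat_lit 169)) (XT.nd (nat_lit 78) (nat_lit 0) (nat_lit 0) (XT.lf (nat_lit 0) (nat_lit 2710963843) (nat_lit 1064) (nat_lit 13100816898) (nat_lit 1140) (nat_lit 416542484) (nat_lit 142) (nat_lit 5) (nat_lit 156) (nat_lit 5) (nat_lit 157) (nat_lit 5) (nat_lit 308) (nat_lit 304) (nat_lit 168)) (XT.lf (nat_lit 0) (nat_lit 3244124059) (nat_lit 1064) (nat_lit 6429691165) (nat_lit 1140) (nat_lit 6796979208) (nat_lit 142) (nat_lit 5) (nat_lit 156) (nat_lit 5) (nat_lit 157) (nat_lit 5) (nat_lit 309) (nat_lit 304) (nat_lit 167))))) (XT.nd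 (nat_lit 234) (nat_lit 0) (nat_lit 76) (XT.nd (nat_lit 78) (nat_lit 0) (nat_lit 76) (XT.lf (nat_lit 76) (nat_lit 444807487) (nat_lit 0) (nat_lit 3343845272) (nat_lit 1140) (nat_lit 12932049707) (nat_lit 143) (nat_lit 5) (nat_lit 142) (nat_lit 5) (nat_lit 157) (nat_lit 5) (nat_lit 310) (nat_lit 304) (nat_lit 166)) (XT.nd (nat_lit 78) (nat_lit 0) (nat_lit 0) (XT.lf (nat_lit 0) (nat_lit 4436954528) (nat_lit 1064) (nat_lit 9355692332) (nat_lit 1140) (nat_lit 3182860972) (nat_lit 143) (nat_lit 5) (nat_lit 157) (nat_lit 5) (nat_lit 158) (nat_lit 5) (nat_lit 311) (nat_lit 304) (nat_lit 165)) (XT.lf (nat_lit 0) (nat_lit 5129402250) (nat_lit 1064) (nat_lit 2266528019) (nat_lit 1140) (nat_lit 9841308715) (nat_lit 143) (nat_lit 5) (nat_lit 157) (nat_lit 5) (nat_lit 158) (nat_lit 5) (nat_lit 312) (nat_lit 304) (nat_lit 164)))) (XT.nd (nat_lit 78) (nat_lit 0) (nat_lit 76) (XT.lf (nat_lit 76) (nat_lit 5130041040)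 (nat_lit 0) (nat_lit 753729941) (nat_lit 1140) (nat_lit 11621838535) (nat_lit 144) (nat_lit 5) (nat_lit 143) (nat_lit 5) (nat_lit 158) (nat_lit 5) (nat_lit 313) (nat_lit 304) (nat_lit 163)) (XT.nd (nat_lit 78) (nat_lit 0) (nat_lit 0) (XT.lf (nat_lit 0) (nat_lit 6734450596) (nat_lit 1064) (nat_lit 5050730610) (nat_lit 1140) (nat_lit 5994660800) (nat_lit 144) (nat_lit 5) (nat_lit 158) (nat_lit 5) (nat_lit 159) (nat_lit 5) (nat_lit 314) (nat_lit 304) (nat_lit 162)) (XT.lf (nat_lit 76) (nat_lit 2530319551) (nat_lit 0) (nat_lit 5104395027) (nat_lit 1140) (nat_lit 10426885594) (nat_lit 145) (nat_lit 5) (nat_lit 144) (nat_lit 5) (nat_lit 159) (nat_lit 5) (nat_lit 315) (nat_lit 304) (nat_lit 161))))))))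
noncomputable def xc217 : XT := (XT.nd (nat_lit 1716) (nat_lit 3192) (nat_lit 0) (XT.nd (nat_lit 858) (nat_lit 2432) (nat_lit 0) (XT.nd (nat_lit 390) (nat_lit 1596) (nat_lit 0) (XT.nd (nat_lit 156) (nat_lit 0) (nat_lit 0) (XT.nd (nat_lit 78) (nat_lit 0) (nat_lit 0) (XT.lf (nat_lit 0) (nat_lit 8623045883) (nat_lit 1064) (nat_lit 7931189198) (nat_lit 1140) (nat_lit 1795764237) (nat_lit 145) (nat_lit 5) (nat_lit 159) (nat_lit 5) (nat_lit 160) (nat_lit 5) (nat_lit 316) (nat_lit 304) (nat_lit 160)) (XT.lf (nat_lit 0) (nat_lit 9684257071) (nat_lit 1064) (nat_lit 159128380) (nat_lit 1140) (nat_lit 8802387525) (nat_lit 145) (nat_lit 5) (nat_lit 159) (nat_lit 5) (nat_lit 160) (nat_lit 5) (nat_lit 317) (nat_lit 304) (nat_lit 159))) (XT.nd (nat_lit 78) (nat_lit 0) (nat_lit 76) (XT.lf (nat_lit 76) (nat_lit 7996806008) (nat_lit 0) (nat_lit 2850273030) (nat_lit 1140) (nat_lit 8101266440) (nat_lit 146) (nat_lit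 5) (nat_lit 145) (nat_lit 5) (nat_lit 160) (nat_lit 5) (nat_lit 318) (nat_lit 304) (nat_lit 158)) (XT.nd (nat_lit 78) (nat_lit 0) (nat_lit 0) (XT.lf (nat_lit 0) (nat_lit 12081324708) (nat_lit 1064) (nat_lit 2906647512) (nat_lit 1140) (nat_lit 4270945085) (nat_lit 146) (nat_lit 5) (nat_lit 160) (nat_lit 5) (nat_lit 161) (nat_lit 5) (nat_lit 319) (nat_lit 304) (nat_lit 157)) (XT.lf (nat_lit 76) (nat_lit 5452402727) (nat_lit 0) (nat_lit 7974105121) (nat_lit 1140) (nat_lit 6150098921) (nat_lit 147) (nat_lit 5) (nat_lit 146) (nat_lit 5) (nat_lit 161) (nat_lit 5) (nat_lit 320) (nat_lit 304) (nat_lit 156))))) (XT.nd (nat_lit 234) (nat_lit 684) (nat_lit 0) (XT.nd (nat_lit 78) (nat_lit 988) (nat_lit 0) (XT.lf (nat_lit 76) (nat_lit 14116496518) (nat_lit 0) (nat_lit 718323890) (nat_lit 1140) (nat_lit 5068340559) (nat_lit 147) (nat_lit 5) (nat_lit 146) (nat_lit 5) (nat_lit 161) (nat_lit 5) (nat_lit 321)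 (nat_lit 304) (nat_lit 155)) (XT.nd (nat_lit 78) (nat_lit 0) (nat_lit 0) (XT.lf (nat_lit 0) (nat_lit 2785036128) (nat_lit 1064) (nat_lit 13585678016) (nat_lit 1140) (nat_lit 3866254458) (nat_lit 133) (nat_lit 5) (nat_lit 147) (nat_lit 5) (nat_lit 148) (nat_lit 5) (nat_lit 322) (nat_lit 304) (nat_lit 154)) (XT.lf (nat_lit 0) (nat_lit 11719930883) (nat_lit 1064) (nat_lit 6291990517) (nat_lit 1140) (nat_lit 2567108241) (nat_lit 133) (nat_lit 5) (nat_lit 147) (nat_lit 5) (nat_lit 148) (nat_lit 5) (nat_lit 323) (nat_lit 304) (nat_lit 153)))) (XT.nd (nat_lit 78) (nat_lit 684) (nat_lit 0) (XT.lf (nat_lit 0) (nat_lit 19708047776) (nat_lit 1140) (nat_lit 25587435) (nat_lit 76) (nat_lit 1197562616) (nat_lit 133) (nat_lit 5) (nat_lit 148) (nat_lit 5) (nat_lit 134) (nat_lit 5) (nat_lit 324) (nat_lit 304) (nat_lit 152)) (XT.nd (nat_lit 78) (nat_lit 0) (nat_lit 0) (XT.lf (nat_lit 0) (nat_lit 304112604) (nat_lit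 684) (nat_lit 12107947431) (nat_lit 76) (nat_lit 8877455557) (nat_lit 124) (nat_lit 5) (nat_lit 133) (nat_lit 5) (nat_lit 125) (nat_lit 5) (nat_lit 325) (nat_lit 304) (nat_lit 151)) (XT.lf (nat_lit 0) (nat_lit 1847046643) (nat_lit 684) (nat_lit 3010522925) (nat_lit 76) (nat_lit 16800831342) (nat_lit 124) (nat_lit 5) (nat_lit 133) (nat_lit 5) (nat_lit 125) (nat_lit 5) (nat_lit 326) (nat_lit 304) (nat_lit 150)))))) (XT.nd (nat_lit 390) (nat_lit 912) (nat_lit 0) (XT.nd (nat_lit 156) (nat_lit 988) (nat_lit 0) (XT.nd (nat_lit 78) (nat_lit 0) (nat_lit 0) (XT.lf (nat_lit 0) (nat_lit 3521640526) (nat_lit 608) (nat_lit 15584240715) (nat_lit 76) (nat_lit 2929924434) (nat_lit 117) (nat_lit 5) (nat_lit 125) (nat_lit 5) (nat_lit 118) (nat_lit 5) (nat_lit 327) (nat_lit 304) (nat_lit 149)) (XT.lf (nat_lit 0) (nat_lit 5319734617) (nat_lit 608) (nat_lit 6218065154) (nat_lit 76) (nat_lit 10884548571) (nat_lit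 117) (nat_lit 5) (nat_lit 125) (nat_lit 5) (nat_lit 118) (nat_lit 5) (nat_lit 328) (nat_lit 304) (nat_lit 148))) (XT.nd (nat_lit 78) (nat_lit 456) (nat_lit 0) (XT.lf (nat_lit 0) (nat_lit 3492116043) (nat_lit 532) (nat_lit 3707851290) (nat_lit 608) (nat_lit 15619687316) (nat_lit 110) (nat_lit 5) (nat_lit 117) (nat_lit 5) (nat_lit 118) (nat_lit 5) (nat_lit 329) (nat_lit 304) (nat_lit 147)) (XT.nd (nat_lit 78) (nat_lit 456) (nat_lit 0) (XT.lf (nat_lit 0) (nat_lit 9236638097) (nat_lit 608) (nat_lit 9653679115) (nat_lit 76) (nat_lit 4335574851) (nat_lit 110) (nat_lit 5) (nat_lit 118) (nat_lit 5) (nat_lit 111) (nat_lit 5) (nat_lit 330) (nat_lit 304) (nat_lit 146)) (XT.lf (nat_lit 0) (nat_lit 273937256) (nat_lit 456) (nat_lit 11094706674) (nat_lit 532) (nat_lit 12274658094) (nat_lit 104) (nat_lit 5) (nat_lit 110) (nat_lit 5) (nat_lit 111) (nat_lit 5) (nat_lit 331) (nat_lit 304) (nat_lit 145))))) (XT.nd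 (nat_lit 234) (nat_lit 456) (nat_lit 0) (XT.nd (nat_lit 78) (nat_lit 456) (nat_lit 0) (XT.lf (nat_lit 0) (nat_lit 10692229999) (nat_lit 456) (nat_lit 2964853817) (nat_lit 532) (nat_lit 10413388365) (nat_lit 104) (nat_lit 5) (nat_lit 110) (nat_lit 5) (nat_lit 111) (nat_lit 5) (nat_lit 332) (nat_lit 304) (nat_lit 144)) (XT.nd (nat_lit 78) (nat_lit 456) (nat_lit 0) (XT.lf (nat_lit 0) (nat_lit 16061306737) (nat_lit 532) (nat_lit 3144433061) (nat_lit 76) (nat_lit 5303315506) (nat_lit 104) (nat_lit 5) (nat_lit 111) (nat_lit 5) (nat_lit 105) (nat_lit 5) (nat_lit 333) (nat_lit 304) (nat_lit 143)) (XT.lf (nat_lit 0) (nat_lit 7508649799) (nat_lit 456) (nat_lit 11125817167) (nat_lit 532) (nat_lit 6323436053) (nat_lit 98) (nat_lit 5) (nat_lit 104) (nat_lit 5) (nat_lit 105) (nat_lit 5) (nat_lit 334) (nat_lit 304) (nat_lit 142)))) (XT.nd (nat_lit 78) (nat_lit 456) (nat_lit 0) (XT.lf (nat_lit 0) (nat_lit 18540924694)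 (nat_lit 456) (nat_lit 2771018652) (nat_lit 532) (nat_lit 4107470263) (nat_lit 98) (nat_lit 5) (nat_lit 104) (nat_lit 5) (nat_lit 105) (nat_lit 5) (nat_lit 335) (nat_lit 304) (nat_lit 141)) (XT.nd (nat_lit 78) (nat_lit 76) (nat_lit 0) (XT.lf (nat_lit 0) (nat_lit 4027035964) (nat_lit 380) (nat_lit 20133003944) (nat_lit 456) (nat_lit 1732031492) (nat_lit 93) (nat_lit 5) (nat_lit 98) (nat_lit 5) (nat_lit 99) (nat_lit 5) (nat_lit 336) (nat_lit 304) (nat_lit 140)) (XT.lf (nat_lit 0) (nat_lit 793839766) (nat_lit 456) (nat_lit 11016001358) (nat_lit 76) (nat_lit 14566078395) (nat_lit 92) (nat_lit 5) (nat_lit 98) (nat_lit 5) (nat_lit 93) (nat_lit 5) (nat_lit 337) (nat_lit 304) (nat_lit 139))))))) (XT.nd (nat_lit 858) (nat_lit 1216) (nat_lit 0) (XT.nd (nat_lit 390) (nat_lit 1140) (nat_lit 0) (XT.nd (nat_lit 156) (nat_lit 380) (nat_lit 0) (XT.nd (nat_lit 78) (nat_lit 0) (nat_lit 0) (XT.lf (nat_lit 0) (nat_lit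 139304622) (nat_lit 456) (nat_lit 3218371957) (nat_lit 532) (nat_lit 23516191841) (nat_lit 86) (nat_lit 5) (nat_lit 92) (nat_lit 5) (nat_lit 93) (nat_lit 5) (nat_lit 338) (nat_lit 304) (nat_lit 138)) (XT.lf (nat_lit 0) (nat_lit 6160635914) (nat_lit 532) (nat_lit 15588414717) (nat_lit 76) (nat_lit 5632848494) (nat_lit 86) (nat_lit 5) (nat_lit 93) (nat_lit 5) (nat_lit 87) (nat_lit 5) (nat_lit 339) (nat_lit 304) (nat_lit 137))) (XT.nd (nat_lit 78) (nat_lit 380) (nat_lit 0) (XT.lf (nat_lit 0) (nat_lit 9075412132) (nat_lit 532) (nat_lit 4144459497) (nat_lit 76) (nat_lit 14684476560) (nat_lit 86) (nat_lit 5) (nat_lit 93) (nat_lit 5) (nat_lit 87) (nat_lit 5) (nat_lit 340) (nat_lit 304) (nat_lit 136)) (XT.nd (nat_lit 78) (nat_lit 0) (nat_lit 0) (XT.lf (nat_lit 0) (nat_lit 7790254313) (nat_lit 380) (nat_lit 4358245543) (nat_lit 456) (nat_lit 16291853836) (nat_lit 81) (nat_lit 5) (nat_lit 86) (nat_lit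 5) (nat_lit 87) (nat_lit 5) (nat_lit 341) (nat_lit 304) (nat_lit 135)) (XT.lf (nat_lit 0) (nat_lit 15397941548) (nat_lit 456) (nat_lit 8874128564) (nat_lit 76) (nat_lit 4717853157) (nat_lit 81) (nat_lit 5) (nat_lit 87) (nat_lit 5) (nat_lit 82) (nat_lit 5) (nat_lit 342) (nat_lit 304) (nat_lit 134))))) (XT.nd (nat_lit 234) (nat_lit 760) (nat_lit 0) (XT.nd (nat_lit 78) (nat_lit 0) (nat_lit 0) (XT.lf (nat_lit 0) (nat_lit 3271288040) (nat_lit 380) (nat_lit 15544341333) (nat_lit 456) (nat_lit 10738236169) (nat_lit 76) (nat_lit 5) (nat_lit 81) (nat_lit 5) (nat_lit 82) (nat_lit 5) (nat_lit 343) (nat_lit 304) (nat_lit 133)) (XT.nd (nat_lit 78) (nat_lit 0) (nat_lit 0) (XT.lf (nat_lit 0) (nat_lit 15958505363) (nat_lit 380) (nat_lit 6463188751) (nat_lit 456) (nat_lit 7710464828) (nat_lit 76) (nat_lit 5) (nat_lit 81) (nat_lit 5) (nat_lit 82) (nat_lit 5) (nat_lit 344) (nat_lit 304) (nat_lit 132)) (XT.lf (nat_lit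 0) (nat_lit 26160063112) (nat_lit 456) (nat_lit 1733699723) (nat_lit 76) (nat_lit 2833322646) (nat_lit 76) (nat_lit 5) (nat_lit 82) (nat_lit 5) (nat_lit 77) (nat_lit 5) (nat_lit 345) (nat_lit 304) (nat_lit 131)))) (XT.nd (nat_lit 78) (nat_lit 456) (nat_lit 0) (XT.lf (nat_lit 0) (nat_lit 11230280205) (nat_lit 304) (nat_lit 18948691963) (nat_lit 380) (nat_lit 1155843753) (nat_lit 72) (nat_lit 5) (nat_lit 76) (nat_lit 5) (nat_lit 77) (nat_lit 5) (nat_lit 346) (nat_lit 304) (nat_lit 130)) (XT.nd (nat_lit 78) (nat_lit 380) (nat_lit 0) (XT.lf (nat_lit 0) (nat_lit 2325808999) (nat_lit 380) (nat_lit 7368730175) (nat_lit 76) (nat_lit 22265142163) (nat_lit 71) (nat_lit 5) (nat_lit 76) (nat_lit 5) (nat_lit 72) (nat_lit 5) (nat_lit 347) (nat_lit 304) (nat_lit 129)) (XT.lf (nat_lit 0) (nat_lit 5847580780) (nat_lit 380) (nat_lit 93877830) (nat_lit 456) (nat_lit 26659914543) (nat_lit 66) (nat_lit 5) (nat_lit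 71) (nat_lit 5) (nat_lit 72) (nat_lit 5) (nat_lit 348) (nat_lit 304) (nat_lit 128)))))) (XT.nd (nat_lit 468) (nat_lit 608) (nat_lit 0) (XT.nd (nat_lit 234) (nat_lit 304) (nat_lit 0) (XT.nd (nat_lit 78) (nat_lit 304) (nat_lit 0) (XT.lf (nat_lit 0) (nat_lit 9831497687) (nat_lit 456) (nat_lit 13747831829) (nat_lit 76) (nat_lit 9678015514) (nat_lit 66) (nat_lit 5) (nat_lit 72) (nat_lit 5) (nat_lit 67) (nat_lit 5) (nat_lit 349) (nat_lit 304) (nat_lit 127)) (XT.nd (nat_lit 78) (nat_lit 304) (nat_lit 0) (XT.lf (nat_lit 0) (nat_lit 13835885748) (nat_lit 456) (nat_lit 356787811) (nat_lit 76) (nat_lit 19740399778) (nat_lit 66) (nat_lit 5) (nat_lit 72) (nat_lit 5) (nat_lit 67) (nat_lit 5) (nat_lit 350) (nat_lit 304) (nat_lit 126)) (XT.lf (nat_lit 0) (nat_lit 13699265008) (nat_lit 304) (nat_lit 4389640069) (nat_lit 380) (nat_lit 16536319936) (nat_lit 62) (nat_lit 5) (nat_lit 66) (nat_lit 5) (nat_lit 67)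 (nat_lit 5) (nat_lit 351) (nat_lit 304) (nat_lit 125)))) (XT.nd (nat_lit 78) (nat_lit 304) (nat_lit 0) (XT.lf (nat_lit 0) (nat_lit 22524877167) (nat_lit 380) (nat_lit 7212716197) (nat_lit 76) (nat_lit 5598893330) (nat_lit 62) (nat_lit 5) (nat_lit 67) (nat_lit 5) (nat_lit 63) (nat_lit 5) (nat_lit 352) (nat_lit 304) (nat_lit 124)) (XT.nd (nat_lit 78) (nat_lit 0) (nat_lit 0) (XT.lf (nat_lit 0) (nat_lit 7001102436) (nat_lit 304) (nat_lit 20200537926) (nat_lit 380) (nat_lit 8864220642) (nat_lit 58) (nat_lit 5) (nat_lit 62) (nat_lit 5) (nat_lit 63) (nat_lit 5) (nat_lit 353) (nat_lit 304) (nat_lit 123)) (XT.lf (nat_lit 0) (nat_lit 21785250805) (nat_lit 304) (nat_lit 10303292161) (nat_lit 380) (nat_lit 4726484441) (nat_lit 58) (nat_lit 5) (nat_lit 62) (nat_lit 5) (nat_lit 63) (nat_lit 5) (nat_lit 354) (nat_lit 304) (nat_lit 122))))) (XT.nd (nat_lit 234) (nat_lit 304) (nat_lit 0) (XT.nd (nat_lit 78)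 (nat_lit 304) (nat_lit 0) (XT.lf (nat_lit 0) (nat_lit 37009099902) (nat_lit 304) (nat_lit 110042280) (nat_lit 380) (nat_lit 467619718) (nat_lit 58) (nat_lit 5) (nat_lit 62) (nat_lit 5) (nat_lit 63) (nat_lit 5) (nat_lit 355) (nat_lit 304) (nat_lit 121)) (XT.nd (nat_lit 78) (nat_lit 0) (nat_lit 0) (XT.lf (nat_lit 0) (nat_lit 4081160572) (nat_lit 304) (nat_lit 23927525837) (nat_lit 76) (nat_lit 10364678604) (nat_lit 54) (nat_lit 5) (nat_lit 58) (nat_lit 5) (nat_lit 55) (nat_lit 5) (nat_lit 356) (nat_lit 304) (nat_lit 120)) (XT.lf (nat_lit 0) (nat_lit 8761165384) (nat_lit 304) (nat_lit 9261099960) (nat_lit 76) (nat_lit 21161042478) (nat_lit 54) (nat_lit 5) (nat_lit 58) (nat_lit 5) (nat_lit 55) (nat_lit 5) (nat_lit 357) (nat_lit 304) (nat_lit 119)))) (XT.nd (nat_lit 78) (nat_lit 0) (nat_lit 0) (XT.lf (nat_lit 0) (nat_lit 5957870981) (nat_lit 304) (nat_lit 7678231486) (nat_lit 380) (nat_lit 26379815624)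 (nat_lit 50) (nat_lit 5) (nat_lit 54) (nat_lit 5) (nat_lit 55) (nat_lit 5) (nat_lit 358) (nat_lit 304) (nat_lit 118)) (XT.nd (nat_lit 78) (nat_lit 0) (nat_lit 0) (XT.lf (nat_lit 0) (nat_lit 18777637378) (nat_lit 380) (nat_lit 19080728138) (nat_lit 76) (nat_lit 3011535650) (nat_lit 50) (nat_lit 5) (nat_lit 55) (nat_lit 5) (nat_lit 51) (nat_lit 5) (nat_lit 359) (nat_lit 304) (nat_lit 117)) (XT.lf (nat_lit 0) (nat_lit 24146815686) (nat_lit 380) (nat_lit 3733749856) (nat_lit 76) (nat_lit 13866741115) (nat_lit 50) (nat_lit 5) (nat_lit 55) (nat_lit 5) (nat_lit 51) (nat_lit 5) (nat_lit 360) (nat_lit 304) (nat_lit 116))))))))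
noncomputable def xc218 : XT := (XT.nd (nat_lit 36426) (nat_lit 0) (nat_lit 6688) (XT.nd (nat_lit 858) (nat_lit 608) (nat_lit 0) (XT.nd (nat_lit 390) (nat_lit 456) (nat_lit 0) (XT.nd (nat_lit 156) (nat_lit 304) (nat_lit 0) (XT.nd (nat_lit 78) (nat_lit 0) (nat_lit 0) (XT.lf (nat_lit 0) (nat_lit 12310324341) (nat_lit 228) (nat_lit 17482531077) (nat_lit 304) (nat_lit 12854710017) (nat_lit 47) (nat_lit 5) (nat_lit 50) (nat_lit 5) (nat_lit 51) (nat_lit 5) (nat_lit 361) (nat_lit 304) (nat_lit 115)) (XT.lf (nat_lit 0) (nat_lit 28908761407) (nat_lit 228) (nat_lit 6734710794) (nat_lit 304) (nat_lit 7930308464) (nat_lit 47) (nat_lit 5) (nat_lit 50) (nat_lit 5) (nat_lit 51) (nat_lit 5) (nat_lit 362) (nat_lit 304) (nat_lit 114))) (XT.nd (nat_lit 78) (nat_lit 76) (nat_lit 0) (XT.lf (nat_lit 0) (nat_lit 1460733567) (nat_lit 228) (nat_lit 40262147397) (nat_lit 304) (nat_lit 2803307618) (nat_lit 44) (nat_lit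 5) (nat_lit 47) (nat_lit 5) (nat_lit 48) (nat_lit 5) (nat_lit 363) (nat_lit 304) (nat_lit 113)) (XT.nd (nat_lit 78) (nat_lit 0) (nat_lit 0) (XT.lf (nat_lit 0) (nat_lit 2642958982) (nat_lit 304) (nat_lit 27227292990) (nat_lit 76) (nat_lit 15629792463) (nat_lit 43) (nat_lit 5) (nat_lit 47) (nat_lit 5) (nat_lit 44) (nat_lit 5) (nat_lit 364) (nat_lit 304) (nat_lit 112)) (XT.lf (nat_lit 0) (nat_lit 8193907039) (nat_lit 304) (nat_lit 10945122778) (nat_lit 76) (nat_lit 27363328423) (nat_lit 43) (nat_lit 5) (nat_lit 47) (nat_lit 5) (nat_lit 44) (nat_lit 5) (nat_lit 365) (nat_lit 304) (nat_lit 111))))) (XT.nd (nat_lit 234) (nat_lit 228) (nat_lit 0) (XT.nd (nat_lit 78) (nat_lit 0) (nat_lit 0) (XT.lf (nat_lit 0) (nat_lit 5938103656) (nat_lit 228) (nat_lit 8028066551) (nat_lit 304) (nat_lit 33566931590) (nat_lit 40) (nat_lit 5) (nat_lit 43) (nat_lit 5) (nat_lit 44) (nat_lit 5) (nat_lit 366) (nat_lit 304)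 (nat_lit 110)) (XT.nd (nat_lit 78) (nat_lit 0) (nat_lit 0) (XT.lf (nat_lit 0) (nat_lit 20053790720) (nat_lit 304) (nat_lit 25076506445) (nat_lit 76) (nat_lit 3460208637) (nat_lit 40) (nat_lit 5) (nat_lit 44) (nat_lit 5) (nat_lit 41) (nat_lit 5) (nat_lit 367) (nat_lit 304) (nat_lit 109)) (XT.lf (nat_lit 0) (nat_lit 26401323734) (nat_lit 304) (nat_lit 8145161856) (nat_lit 76) (nat_lit 15130831534) (nat_lit 40) (nat_lit 5) (nat_lit 44) (nat_lit 5) (nat_lit 41) (nat_lit 5) (nat_lit 368) (nat_lit 304) (nat_lit 108)))) (XT.nd (nat_lit 78) (nat_lit 0) (nat_lit 0) (XT.lf (nat_lit 0) (nat_lit 9475909823) (nat_lit 228) (nat_lit 23552323367) (nat_lit 304) (nat_lit 17765834686) (nat_lit 37) (nat_lit 5) (nat_lit 40) (nat_lit 5) (nat_lit 41) (nat_lit 5) (nat_lit 369) (nat_lit 304) (nat_lit 107)) (XT.nd (nat_lit 78) (nat_lit 0) (nat_lit 0) (XT.lf (nat_lit 0) (nat_lit 27789489718) (nat_lit 228) (nat_lit 12144605133)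 (nat_lit 304) (nat_lit 12007825451) (nat_lit 37) (nat_lit 5) (nat_lit 40) (nat_lit 5) (nat_lit 41) (nat_lit 5) (nat_lit 370) (nat_lit 304) (nat_lit 106)) (XT.lf (nat_lit 0) (nat_lit 46649475293) (nat_lit 228) (nat_lit 395613143) (nat_lit 304) (nat_lit 6079184581) (nat_lit 37) (nat_lit 5) (nat_lit 40) (nat_lit 5) (nat_lit 41) (nat_lit 5) (nat_lit 371) (nat_lit 304) (nat_lit 105)))))) (XT.nd (nat_lit 390) (nat_lit 152) (nat_lit 0) (XT.nd (nat_lit 156) (nat_lit 228) (nat_lit 0) (XT.nd (nat_lit 78) (nat_lit 0) (nat_lit 0) (XT.lf (nat_lit 0) (nat_lit 253430519) (nat_lit 228) (nat_lit 42488964730) (nat_lit 76) (nat_lit 11592896949) (nat_lit 34) (nat_lit 5) (nat_lit 37) (nat_lit 5) (nat_lit 35) (nat_lit 5) (nat_lit 372) (nat_lit 304) (nat_lit 104)) (XT.lf (nat_lit 0) (nat_lit 6721799453) (nat_lit 228) (nat_lit 24798603027) (nat_lit 76) (nat_lit 24058398057) (nat_lit 34) (nat_lit 5) (nat_lit 37) (nat_lit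 5) (nat_lit 35) (nat_lit 5) (nat_lit 373) (nat_lit 304) (nat_lit 103))) (XT.nd (nat_lit 78) (nat_lit 228) (nat_lit 0) (XT.lf (nat_lit 0) (nat_lit 13382291194) (nat_lit 228) (nat_lit 6580425343) (nat_lit 76) (nat_lit 36896958455) (nat_lit 34) (nat_lit 5) (nat_lit 37) (nat_lit 5) (nat_lit 35) (nat_lit 5) (nat_lit 374) (nat_lit 304) (nat_lit 102)) (XT.nd (nat_lit 78) (nat_lit 0) (nat_lit 0) (XT.lf (nat_lit 0) (nat_lit 12423922595) (nat_lit 228) (nat_lit 7936229340) (nat_lit 304) (nat_lit 37815300050) (nat_lit 31) (nat_lit 5) (nat_lit 34) (nat_lit 5) (nat_lit 35) (nat_lit 5) (nat_lit 375) (nat_lit 304) (nat_lit 101)) (XT.lf (nat_lit 0) (nat_lit 27655388702) (nat_lit 304) (nat_lit 27441691870) (nat_lit 76) (nat_lit 4430383355) (nat_lit 31) (nat_lit 5) (nat_lit 35) (nat_lit 5) (nat_lit 32) (nat_lit 5) (nat_lit 376) (nat_lit 304) (nat_lit 100))))) (XT.nd (nat_lit 234) (nat_lit 0) (nat_lit 0) (XT.nd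 (nat_lit 78) (nat_lit 152) (nat_lit 0) (XT.lf (nat_lit 0) (nat_lit 35246259735) (nat_lit 304) (nat_lit 8663885413) (nat_lit 76) (nat_lit 17007590525) (nat_lit 31) (nat_lit 5) (nat_lit 35) (nat_lit 5) (nat_lit 32) (nat_lit 5) (nat_lit 377) (nat_lit 304) (nat_lit 99)) (XT.nd (nat_lit 78) (nat_lit 0) (nat_lit 0) (XT.lf (nat_lit 0) (nat_lit 10887030847) (nat_lit 152) (nat_lit 32280731898) (nat_lit 228) (nat_lit 19178868336) (nat_lit 29) (nat_lit 5) (nat_lit 31) (nat_lit 5) (nat_lit 32) (nat_lit 5) (nat_lit 378) (nat_lit 304) (nat_lit 98)) (XT.lf (nat_lit 0) (nat_lit 31199432351) (nat_lit 152) (nat_lit 20213245266) (nat_lit 228) (nat_lit 12403145334) (nat_lit 29) (nat_lit 5) (nat_lit 31) (nat_lit 5) (nat_lit 32) (nat_lit 5) (nat_lit 379) (nat_lit 304) (nat_lit 97)))) (XT.nd (nat_lit 34788) (nat_lit 0) (nat_lit 8436) (XT.lf (nat_lit 0) (nat_lit 52118639490) (nat_lit 152) (nat_lit 7784629102) (nat_lit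 228) (nat_lit 5425874653) (nat_lit 29) (nat_lit 5) (nat_lit 31) (nat_lit 5) (nat_lit 32) (nat_lit 5) (nat_lit 380) (nat_lit 304) (nat_lit 96)) (XT.nd (nat_lit 78) (nat_lit 0) (nat_lit 0) (XT.lf (nat_lit 0) (nat_lit 890855256) (nat_lit 1140) (nat_lit 3493273768) (nat_lit 1140) (nat_lit 3493273768) (nat_lit 140) (nat_lit 3) (nat_lit 155) (nat_lit 3) (nat_lit 155) (nat_lit 5) (nat_lit 305) (nat_lit 305) (nat_lit 170)) (XT.lf (nat_lit 0) (nat_lit 2049979297) (nat_lit 1140) (nat_lit 554521852) (nat_lit 1140) (nat_lit 13378730461) (nat_lit 140) (nat_lit 3) (nat_lit 155) (nat_lit 3) (nat_lit 155) (nat_lit 5) (nat_lit 306) (nat_lit 305) (nat_lit 169))))))) (XT.nd (nat_lit 858) (nat_lit 1824) (nat_lit 0) (XT.nd (nat_lit 390) (nat_lit 0) (nat_lit 152) (XT.nd (nat_lit 156) (nat_lit 0) (nat_lit 76) (XT.nd (nat_lit 78) (nat_lit 0) (nat_lit 0) (XT.lf (nat_lit 0) (nat_lit 2412959876) (nat_lit 1064) (nat_lit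 10067344004) (nat_lit 1140) (nat_lit 3735631986) (nat_lit 141) (nat_lit 5) (nat_lit 155) (nat_lit 5) (nat_lit 156) (nat_lit 5) (nat_lit 307) (nat_lit 305) (nat_lit 168)) (XT.lf (nat_lit 0) (nat_lit 2809115610) (nat_lit 1064) (nat_lit 3422292102) (nat_lit 1140) (nat_lit 10223569583) (nat_lit 141) (nat_lit 5) (nat_lit 155) (nat_lit 5) (nat_lit 156) (nat_lit 5) (nat_lit 308) (nat_lit 305) (nat_lit 167))) (XT.nd (nat_lit 78) (nat_lit 0) (nat_lit 0) (XT.lf (nat_lit 0) (nat_lit 3244106380) (nat_lit 1064) (nat_lit 13217708368) (nat_lit 1140) (nat_lit 238590611) (nat_lit 142) (nat_lit 5) (nat_lit 156) (nat_lit 5) (nat_lit 157) (nat_lit 5) (nat_lit 309) (nat_lit 305) (nat_lit 166)) (XT.nd (nat_lit 78) (nat_lit 0) (nat_lit 0) (XT.lf (nat_lit 0) (nat_lit 3780101783) (nat_lit 1064) (nat_lit 6354491573) (nat_lit 1140) (nat_lit 6815987470) (nat_lit 142) (nat_lit 5) (nat_lit 156) (nat_lit 5) (nat_lit 157)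 (nat_lit 5) (nat_lit 310) (nat_lit 305) (nat_lit 165)) (XT.lf (nat_lit 76) (nat_lit 723613702) (nat_lit 0) (nat_lit 3607128095) (nat_lit 1140) (nat_lit 12877585346) (nat_lit 143) (nat_lit 5) (nat_lit 142) (nat_lit 5) (nat_lit 157) (nat_lit 5) (nat_lit 311) (nat_lit 305) (nat_lit 164))))) (XT.nd (nat_lit 234) (nat_lit 0) (nat_lit 76) (XT.nd (nat_lit 78) (nat_lit 0) (nat_lit 0) (XT.lf (nat_lit 0) (nat_lit 4984493176) (nat_lit 1064) (nat_lit 9363523365) (nat_lit 1140) (nat_lit 3123213419) (nat_lit 143) (nat_lit 5) (nat_lit 157) (nat_lit 5) (nat_lit 158) (nat_lit 5) (nat_lit 312) (nat_lit 305) (nat_lit 163)) (XT.nd (nat_lit 78) (nat_lit 0) (nat_lit 0) (XT.lf (nat_lit 0) (nat_lit 5685643552) (nat_lit 1064) (nat_lit 2069630910) (nat_lit 1140) (nat_lit 9985933043) (nat_lit 143) (nat_lit 5) (nat_lit 157) (nat_lit 5) (nat_lit 158) (nat_lit 5) (nat_lit 313) (nat_lit 305) (nat_lit 162)) (XT.lf (nat_lit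 76) (nat_lit 5546238231) (nat_lit 0) (nat_lit 907207263) (nat_lit 1140) (nat_lit 11564490990) (nat_lit 144) (nat_lit 5) (nat_lit 143) (nat_lit 5) (nat_lit 158) (nat_lit 5) (nat_lit 314) (nat_lit 305) (nat_lit 161)))) (XT.nd (nat_lit 78) (nat_lit 0) (nat_lit 0) (XT.lf (nat_lit 0) (nat_lit 7316972876) (nat_lit 1064) (nat_lit 4933907639) (nat_lit 1140) (nat_lit 6049926093) (nat_lit 144) (nat_lit 5) (nat_lit 158) (nat_lit 5) (nat_lit 159) (nat_lit 5) (nat_lit 315) (nat_lit 305) (nat_lit 160)) (XT.nd (nat_lit 78) (nat_lit 0) (nat_lit 76) (XT.lf (nat_lit 76) (nat_lit 2871943194) (nat_lit 0) (nat_lit 5363773592) (nat_lit 1140) (nat_lit 10355586164) (nat_lit 145) (nat_lit 5) (nat_lit 144) (nat_lit 5) (nat_lit 159) (nat_lit 5) (nat_lit 316) (nat_lit 305) (nat_lit 159)) (XT.lf (nat_lit 0) (nat_lit 9241872660) (nat_lit 1064) (nat_lit 7898367017) (nat_lit 1140) (nat_lit 1748497885) (nat_lit 145) (nat_lit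 5) (nat_lit 159) (nat_lit 5) (nat_lit 160) (nat_lit 5) (nat_lit 317) (nat_lit 305) (nat_lit 158)))))) (XT.nd (nat_lit 468) (nat_lit 1216) (nat_lit 0) (XT.nd (nat_lit 234) (nat_lit 912) (nat_lit 0) (XT.nd (nat_lit 78) (nat_lit 0) (nat_lit 0) (XT.lf (nat_lit 76) (nat_lit 100939160) (nat_lit 0) (nat_lit 10224461932) (nat_lit 1140) (nat_lit 8868296804) (nat_lit 146) (nat_lit 5) (nat_lit 145) (nat_lit 5) (nat_lit 160) (nat_lit 5) (nat_lit 318) (nat_lit 305) (nat_lit 157)) (XT.nd (nat_lit 78) (nat_lit 0) (nat_lit 76) (XT.lf (nat_lit 76) (nat_lit 8497004721) (nat_lit 0) (nat_lit 3017450955) (nat_lit 1140) (nat_lit 7991178540) (nat_lit 146) (nat_lit 5) (nat_lit 145) (nat_lit 5) (nat_lit 160) (nat_lit 5) (nat_lit 319) (nat_lit 305) (nat_lit 156)) (XT.lf (nat_lit 0) (nat_lit 12775006397) (nat_lit 1064) (nat_lit 2729535074) (nat_lit 1140) (nat_lit 4321329688) (nat_lit 146) (nat_lit 5) (nat_lit 160) (nat_lit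 5) (nat_lit 161) (nat_lit 5) (nat_lit 320) (nat_lit 305) (nat_lit 155)))) (XT.nd (nat_lit 78) (nat_lit 988) (nat_lit 0) (XT.lf (nat_lit 76) (nat_lit 5877695379) (nat_lit 0) (nat_lit 8275717647) (nat_lit 1140) (nat_lit 5999917767) (nat_lit 147) (nat_lit 5) (nat_lit 146) (nat_lit 5) (nat_lit 161) (nat_lit 5) (nat_lit 321) (nat_lit 305) (nat_lit 154)) (XT.nd (nat_lit 78) (nat_lit 988) (nat_lit 0) (XT.lf (nat_lit 76) (nat_lit 14794089055) (nat_lit 0) (nat_lit 800445812) (nat_lit 1140) (nat_lit 4895454736) (nat_lit 147) (nat_lit 5) (nat_lit 146) (nat_lit 5) (nat_lit 161) (nat_lit 5) (nat_lit 322) (nat_lit 305) (nat_lit 153)) (XT.lf (nat_lit 0) (nat_lit 3130935793) (nat_lit 1064) (nat_lit 14038361037) (nat_lit 1140) (nat_lit 3664754955) (nat_lit 133) (nat_lit 5) (nat_lit 147) (nat_lit 5) (nat_lit 148) (nat_lit 5) (nat_lit 323) (nat_lit 305) (nat_lit 152))))) (XT.nd (nat_lit 234) (nat_lit 532) (nat_lit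 0) (XT.nd (nat_lit 78) (nat_lit 684) (nat_lit 0) (XT.lf (nat_lit 0) (nat_lit 12326236170) (nat_lit 1064) (nat_lit 6524548952) (nat_lit 1140) (nat_lit 2335881549) (nat_lit 133) (nat_lit 5) (nat_lit 147) (nat_lit 5) (nat_lit 148) (nat_lit 5) (nat_lit 324) (nat_lit 305) (nat_lit 151)) (XT.nd (nat_lit 78) (nat_lit 76) (nat_lit 0) (XT.lf (nat_lit 0) (nat_lit 235385975) (nat_lit 608) (nat_lit 20355568879) (nat_lit 684) (nat_lit 958672942) (nat_lit 125) (nat_lit 5) (nat_lit 133) (nat_lit 5) (nat_lit 134) (nat_lit 5) (nat_lit 325) (nat_lit 305) (nat_lit 150)) (XT.lf (nat_lit 0) (nat_lit 600183175) (nat_lit 684) (nat_lit 12210135694) (nat_lit 76) (nat_lit 9108561175) (nat_lit 124) (nat_lit 5) (nat_lit 133) (nat_lit 5) (nat_lit 125) (nat_lit 5) (nat_lit 326) (nat_lit 305) (nat_lit 149)))) (XT.nd (nat_lit 78) (nat_lit 532) (nat_lit 0) (XT.lf (nat_lit 0) (nat_lit 2181047551) (nat_lit 684) (nat_lit 2847391856)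 (nat_lit 76) (nat_lit 17270664002) (nat_lit 124) (nat_lit 5) (nat_lit 133) (nat_lit 5) (nat_lit 125) (nat_lit 5) (nat_lit 327) (nat_lit 305) (nat_lit 148)) (XT.nd (nat_lit 78) (nat_lit 0) (nat_lit 0) (XT.lf (nat_lit 0) (nat_lit 3899966630) (nat_lit 608) (nat_lit 15791736865) (nat_lit 76) (nat_lit 2996324350) (nat_lit 117) (nat_lit 5) (nat_lit 125) (nat_lit 5) (nat_lit 118) (nat_lit 5) (nat_lit 328) (nat_lit 305) (nat_lit 147)) (XT.lf (nat_lit 0) (nat_lit 5744061498) (nat_lit 608) (nat_lit 6152149758) (nat_lit 76) (nat_lit 11190213361) (nat_lit 117) (nat_lit 5) (nat_lit 125) (nat_lit 5) (nat_lit 118) (nat_lit 5) (nat_lit 329) (nat_lit 305) (nat_lit 146))))))))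
noncomputable def xc219 : XT := (XT.nd (nat_lit 1794) (nat_lit 2128) (nat_lit 0) (XT.nd (nat_lit 858) (nat_lit 1824) (nat_lit 0) (XT.nd (nat_lit 390) (nat_lit 1368) (nat_lit 0) (XT.nd (nat_lit 156) (nat_lit 456) (nat_lit 0) (XT.nd (nat_lit 78) (nat_lit 0) (nat_lit 0) (XT.lf (nat_lit 0) (nat_lit 3846861802) (nat_lit 532) (nat_lit 3828531653) (nat_lit 608) (nat_lit 15820434886) (nat_lit 110) (nat_lit 5) (nat_lit 117) (nat_lit 5) (nat_lit 118) (nat_lit 5) (nat_lit 330) (nat_lit 305) (nat_lit 145)) (XT.lf (nat_lit 0) (nat_lit 9765520067) (nat_lit 608) (nat_lit 9692329279) (nat_lit 76) (nat_lit 4456651299) (nat_lit 110) (nat_lit 5) (nat_lit 118) (nat_lit 5) (nat_lit 111) (nat_lit 5) (nat_lit 331) (nat_lit 305) (nat_lit 144))) (XT.nd (nat_lit 78) (nat_lit 0) (nat_lit 0) (XT.lf (nat_lit 0) (nat_lit 530655189) (nat_lit 456) (nat_lit 11425886138) (nat_lit 532) (nat_lit 12388057825) (nat_lit 104) (nat_lit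 5) (nat_lit 110) (nat_lit 5) (nat_lit 111) (nat_lit 5) (nat_lit 332) (nat_lit 305) (nat_lit 143)) (XT.nd (nat_lit 78) (nat_lit 0) (nat_lit 0) (XT.lf (nat_lit 0) (nat_lit 11254258855) (nat_lit 456) (nat_lit 3052186095) (nat_lit 532) (nat_lit 10478372528) (nat_lit 104) (nat_lit 5) (nat_lit 110) (nat_lit 5) (nat_lit 111) (nat_lit 5) (nat_lit 333) (nat_lit 305) (nat_lit 142)) (XT.lf (nat_lit 0) (nat_lit 16775829559) (nat_lit 532) (nat_lit 2997003610) (nat_lit 76) (nat_lit 5463950752) (nat_lit 104) (nat_lit 5) (nat_lit 111) (nat_lit 5) (nat_lit 105) (nat_lit 5) (nat_lit 334) (nat_lit 305) (nat_lit 141))))) (XT.nd (nat_lit 234) (nat_lit 532) (nat_lit 0) (XT.nd (nat_lit 78) (nat_lit 380) (nat_lit 0) (XT.lf (nat_lit 0) (nat_lit 7973301516) (nat_lit 456) (nat_lit 11448407072) (nat_lit 532) (nat_lit 6277539146) (nat_lit 98) (nat_lit 5) (nat_lit 104) (nat_lit 5) (nat_lit 105) (nat_lit 5) (nat_lit 335)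 (nat_lit 305) (nat_lit 140)) (XT.nd (nat_lit 78) (nat_lit 380) (nat_lit 0) (XT.lf (nat_lit 0) (nat_lit 19329572068) (nat_lit 456) (nat_lit 2843290367) (nat_lit 532) (nat_lit 4001956518) (nat_lit 98) (nat_lit 5) (nat_lit 104) (nat_lit 5) (nat_lit 105) (nat_lit 5) (nat_lit 336) (nat_lit 305) (nat_lit 139)) (XT.lf (nat_lit 0) (nat_lit 4384991395) (nat_lit 380) (nat_lit 20717338190) (nat_lit 456) (nat_lit 1559464506) (nat_lit 93) (nat_lit 5) (nat_lit 98) (nat_lit 5) (nat_lit 99) (nat_lit 5) (nat_lit 337) (nat_lit 305) (nat_lit 138)))) (XT.nd (nat_lit 78) (nat_lit 456) (nat_lit 0) (XT.lf (nat_lit 0) (nat_lit 1031389506) (nat_lit 456) (nat_lit 11111505182) (nat_lit 76) (nat_lit 15017405136) (nat_lit 92) (nat_lit 5) (nat_lit 98) (nat_lit 5) (nat_lit 93) (nat_lit 5) (nat_lit 338) (nat_lit 305) (nat_lit 137)) (XT.nd (nat_lit 78) (nat_lit 0) (nat_lit 0) (XT.lf (nat_lit 0) (nat_lit 376156289) (nat_lit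 456) (nat_lit 3291996445) (nat_lit 532) (nat_lit 24005168250) (nat_lit 86) (nat_lit 5) (nat_lit 92) (nat_lit 5) (nat_lit 93) (nat_lit 5) (nat_lit 339) (nat_lit 305) (nat_lit 136)) (XT.lf (nat_lit 0) (nat_lit 6549305713) (nat_lit 532) (nat_lit 15823818972) (nat_lit 76) (nat_lit 5823658501) (nat_lit 86) (nat_lit 5) (nat_lit 93) (nat_lit 5) (nat_lit 87) (nat_lit 5) (nat_lit 340) (nat_lit 305) (nat_lit 135)))))) (XT.nd (nat_lit 468) (nat_lit 1064) (nat_lit 0) (XT.nd (nat_lit 234) (nat_lit 380) (nat_lit 0) (XT.nd (nat_lit 78) (nat_lit 380) (nat_lit 0) (XT.lf (nat_lit 0) (nat_lit 9545587819) (nat_lit 532) (nat_lit 4043309607) (nat_lit 76) (nat_lit 15146199742) (nat_lit 86) (nat_lit 5) (nat_lit 93) (nat_lit 5) (nat_lit 87) (nat_lit 5) (nat_lit 341) (nat_lit 305) (nat_lit 134)) (XT.nd (nat_lit 78) (nat_lit 0) (nat_lit 0) (XT.lf (nat_lit 0) (nat_lit 8247234994) (nat_lit 380) (nat_lit 4460014952) (nat_lit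 456) (nat_lit 16580054370) (nat_lit 81) (nat_lit 5) (nat_lit 86) (nat_lit 5) (nat_lit 87) (nat_lit 5) (nat_lit 342) (nat_lit 305) (nat_lit 133)) (XT.lf (nat_lit 0) (nat_lit 16048786249) (nat_lit 456) (nat_lit 8917775252) (nat_lit 76) (nat_lit 4886973696) (nat_lit 81) (nat_lit 5) (nat_lit 87) (nat_lit 5) (nat_lit 82) (nat_lit 5) (nat_lit 343) (nat_lit 305) (nat_lit 132)))) (XT.nd (nat_lit 78) (nat_lit 0) (nat_lit 0) (XT.lf (nat_lit 0) (nat_lit 3589821722) (nat_lit 380) (nat_lit 15975799429) (nat_lit 456) (nat_lit 10868888285) (nat_lit 76) (nat_lit 5) (nat_lit 81) (nat_lit 5) (nat_lit 82) (nat_lit 5) (nat_lit 344) (nat_lit 305) (nat_lit 131)) (XT.nd (nat_lit 78) (nat_lit 0) (nat_lit 0) (XT.lf (nat_lit 0) (nat_lit 16651236291) (nat_lit 380) (nat_lit 6623227963) (nat_lit 456) (nat_lit 7755861328) (nat_lit 76) (nat_lit 5) (nat_lit 81) (nat_lit 5) (nat_lit 82) (nat_lit 5) (nat_lit 345) (nat_lit 305)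 (nat_lit 130)) (XT.lf (nat_lit 0) (nat_lit 27120054098) (nat_lit 456) (nat_lit 1572653970) (nat_lit 76) (nat_lit 2950551247) (nat_lit 76) (nat_lit 5) (nat_lit 82) (nat_lit 5) (nat_lit 77) (nat_lit 5) (nat_lit 346) (nat_lit 305) (nat_lit 129))))) (XT.nd (nat_lit 234) (nat_lit 304) (nat_lit 0) (XT.nd (nat_lit 78) (nat_lit 456) (nat_lit 0) (XT.lf (nat_lit 0) (nat_lit 11778156564) (nat_lit 304) (nat_lit 19478299220) (nat_lit 380) (nat_lit 1012869280) (nat_lit 72) (nat_lit 5) (nat_lit 76) (nat_lit 5) (nat_lit 77) (nat_lit 5) (nat_lit 347) (nat_lit 305) (nat_lit 128)) (XT.nd (nat_lit 78) (nat_lit 380) (nat_lit 0) (XT.lf (nat_lit 0) (nat_lit 2564693169) (nat_lit 380) (nat_lit 7381252654) (nat_lit 76) (nat_lit 22967102105) (nat_lit 71) (nat_lit 5) (nat_lit 76) (nat_lit 5) (nat_lit 72) (nat_lit 5) (nat_lit 348) (nat_lit 305) (nat_lit 127)) (XT.lf (nat_lit 0) (nat_lit 6229503125) (nat_lit 380) (nat_lit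 56368569) (nat_lit 456) (nat_lit 27288217233) (nat_lit 66) (nat_lit 5) (nat_lit 71) (nat_lit 5) (nat_lit 72) (nat_lit 5) (nat_lit 349) (nat_lit 305) (nat_lit 126)))) (XT.nd (nat_lit 78) (nat_lit 304) (nat_lit 0) (XT.lf (nat_lit 0) (nat_lit 10288148403) (nat_lit 456) (nat_lit 13954992310) (nat_lit 76) (nat_lit 10006743066) (nat_lit 66) (nat_lit 5) (nat_lit 72) (nat_lit 5) (nat_lit 67) (nat_lit 5) (nat_lit 350) (nat_lit 305) (nat_lit 125)) (XT.nd (nat_lit 78) (nat_lit 304) (nat_lit 0) (XT.lf (nat_lit 0) (nat_lit 14407958229) (nat_lit 456) (nat_lit 168195839) (nat_lit 76) (nat_lit 20369880787) (nat_lit 66) (nat_lit 5) (nat_lit 72) (nat_lit 5) (nat_lit 67) (nat_lit 5) (nat_lit 351) (nat_lit 305) (nat_lit 124)) (XT.lf (nat_lit 0) (nat_lit 14307584686) (nat_lit 304) (nat_lit 4478307725) (nat_lit 380) (nat_lit 16873148286) (nat_lit 62) (nat_lit 5) (nat_lit 66) (nat_lit 5) (nat_lit 67) (nat_lit 5) (nat_lit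 352) (nat_lit 305) (nat_lit 123))))))) (XT.nd (nat_lit 858) (nat_lit 988) (nat_lit 0) (XT.nd (nat_lit 390) (nat_lit 532) (nat_lit 0) (XT.nd (nat_lit 156) (nat_lit 304) (nat_lit 0) (XT.nd (nat_lit 78) (nat_lit 304) (nat_lit 0) (XT.lf (nat_lit 0) (nat_lit 23350850405) (nat_lit 380) (nat_lit 7233108126) (nat_lit 76) (nat_lit 5807813567) (nat_lit 62) (nat_lit 5) (nat_lit 67) (nat_lit 5) (nat_lit 63) (nat_lit 5) (nat_lit 353) (nat_lit 305) (nat_lit 122)) (XT.lf (nat_lit 0) (nat_lit 7405203601) (nat_lit 304) (nat_lit 20760202856) (nat_lit 380) (nat_lit 8977705290) (nat_lit 58) (nat_lit 5) (nat_lit 62) (nat_lit 5) (nat_lit 63) (nat_lit 5) (nat_lit 354) (nat_lit 305) (nat_lit 121))) (XT.nd (nat_lit 78) (nat_lit 304) (nat_lit 0) (XT.lf (nat_lit 0) (nat_lit 22627223952) (nat_lit 304) (nat_lit 10567389753) (nat_lit 380) (nat_lit 4720277060) (nat_lit 58) (nat_lit 5) (nat_lit 62) (nat_lit 5) (nat_lit 63)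 (nat_lit 5) (nat_lit 355) (nat_lit 305) (nat_lit 120)) (XT.nd (nat_lit 78) (nat_lit 304) (nat_lit 0) (XT.lf (nat_lit 0) (nat_lit 38302300688) (nat_lit 304) (nat_lit 69653090) (nat_lit 380) (nat_lit 337957131) (nat_lit 58) (nat_lit 5) (nat_lit 62) (nat_lit 5) (nat_lit 63) (nat_lit 5) (nat_lit 356) (nat_lit 305) (nat_lit 119)) (XT.lf (nat_lit 0) (nat_lit 4342588097) (nat_lit 304) (nat_lit 24457195841) (nat_lit 76) (nat_lit 10720351401) (nat_lit 54) (nat_lit 5) (nat_lit 58) (nat_lit 5) (nat_lit 55) (nat_lit 5) (nat_lit 357) (nat_lit 305) (nat_lit 118))))) (XT.nd (nat_lit 234) (nat_lit 228) (nat_lit 0) (XT.nd (nat_lit 78) (nat_lit 304) (nat_lit 0) (XT.lf (nat_lit 0) (nat_lit 9158944722) (nat_lit 304) (nat_lit 9356257453) (nat_lit 76) (nat_lit 21839303305) (nat_lit 54) (nat_lit 5) (nat_lit 58) (nat_lit 5) (nat_lit 55) (nat_lit 5) (nat_lit 358) (nat_lit 305) (nat_lit 117)) (XT.nd (nat_lit 78) (nat_lit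 0) (nat_lit 0) (XT.lf (nat_lit 0) (nat_lit 6317491680) (nat_lit 304) (nat_lit 7860446592) (nat_lit 380) (nat_lit 27034228910) (nat_lit 50) (nat_lit 5) (nat_lit 54) (nat_lit 5) (nat_lit 55) (nat_lit 5) (nat_lit 359) (nat_lit 305) (nat_lit 116)) (XT.lf (nat_lit 0) (nat_lit 19470301843) (nat_lit 380) (nat_lit 19473877799) (nat_lit 76) (nat_lit 3147699791) (nat_lit 50) (nat_lit 5) (nat_lit 55) (nat_lit 5) (nat_lit 51) (nat_lit 5) (nat_lit 360) (nat_lit 305) (nat_lit 115)))) (XT.nd (nat_lit 78) (nat_lit 228) (nat_lit 0) (XT.lf (nat_lit 0) (nat_lit 24996788452) (nat_lit 380) (nat_lit 3671711688) (nat_lit 76) (nat_lit 14327226913) (nat_lit 50) (nat_lit 5) (nat_lit 55) (nat_lit 5) (nat_lit 51) (nat_lit 5) (nat_lit 361) (nat_lit 305) (nat_lit 114)) (XT.nd (nat_lit 78) (nat_lit 0) (nat_lit 0) (XT.lf (nat_lit 0) (nat_lit 12851978356) (nat_lit 228) (nat_lit 17958230368) (nat_lit 304) (nat_lit 13112851638)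 (nat_lit 47) (nat_lit 5) (nat_lit 50) (nat_lit 5) (nat_lit 51) (nat_lit 5) (nat_lit 362) (nat_lit 305) (nat_lit 113)) (XT.lf (nat_lit 0) (nat_lit 29943348798) (nat_lit 228) (nat_lit 6889396157) (nat_lit 304) (nat_lit 8044431621) (nat_lit 47) (nat_lit 5) (nat_lit 50) (nat_lit 5) (nat_lit 51) (nat_lit 5) (nat_lit 363) (nat_lit 305) (nat_lit 112)))))) (XT.nd (nat_lit 468) (nat_lit 456) (nat_lit 0) (XT.nd (nat_lit 234) (nat_lit 228) (nat_lit 0) (XT.nd (nat_lit 78) (nat_lit 76) (nat_lit 0) (XT.lf (nat_lit 0) (nat_lit 1673569018) (nat_lit 228) (nat_lit 41419539348) (nat_lit 304) (nat_lit 2765097556) (nat_lit 44) (nat_lit 5) (nat_lit 47) (nat_lit 5) (nat_lit 48) (nat_lit 5) (nat_lit 364) (nat_lit 305) (nat_lit 111)) (XT.nd (nat_lit 78) (nat_lit 0) (nat_lit 0) (XT.lf (nat_lit 0) (nat_lit 2838677457) (nat_lit 304) (nat_lit 27877503964) (nat_lit 76) (nat_lit 16145171542) (nat_lit 43) (nat_lit 5) (nat_lit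 47) (nat_lit 5) (nat_lit 44) (nat_lit 5) (nat_lit 365) (nat_lit 305) (nat_lit 110)) (XT.lf (nat_lit 0) (nat_lit 8552762798) (nat_lit 304) (nat_lit 11111721300) (nat_lit 76) (nat_lit 28229359639) (nat_lit 43) (nat_lit 5) (nat_lit 47) (nat_lit 5) (nat_lit 44) (nat_lit 5) (nat_lit 366) (nat_lit 305) (nat_lit 109)))) (XT.nd (nat_lit 78) (nat_lit 0) (nat_lit 0) (XT.lf (nat_lit 0) (nat_lit 6276416092) (nat_lit 228) (nat_lit 8220025031) (nat_lit 304) (nat_lit 34459126715) (nat_lit 40) (nat_lit 5) (nat_lit 43) (nat_lit 5) (nat_lit 44) (nat_lit 5) (nat_lit 367) (nat_lit 305) (nat_lit 108)) (XT.nd (nat_lit 78) (nat_lit 0) (nat_lit 0) (XT.lf (nat_lit 0) (nat_lit 20763905129) (nat_lit 304) (nat_lit 25670329366) (nat_lit 76) (nat_lit 3610548510) (nat_lit 40) (nat_lit 5) (nat_lit 44) (nat_lit 5) (nat_lit 41) (nat_lit 5) (nat_lit 368) (nat_lit 305) (nat_lit 107)) (XT.lf (nat_lit 0) (nat_lit 27298703918) (nat_lit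 304) (nat_lit 8235660136) (nat_lit 76) (nat_lit 15629934747) (nat_lit 40) (nat_lit 5) (nat_lit 44) (nat_lit 5) (nat_lit 41) (nat_lit 5) (nat_lit 369) (nat_lit 305) (nat_lit 106))))) (XT.nd (nat_lit 234) (nat_lit 228) (nat_lit 0) (XT.nd (nat_lit 78) (nat_lit 0) (nat_lit 0) (XT.lf (nat_lit 0) (nat_lit 9912535295) (nat_lit 228) (nat_lit 24210281658) (nat_lit 304) (nat_lit 18191788407) (nat_lit 37) (nat_lit 5) (nat_lit 40) (nat_lit 5) (nat_lit 41) (nat_lit 5) (nat_lit 370) (nat_lit 305) (nat_lit 105)) (XT.nd (nat_lit 78) (nat_lit 0) (nat_lit 0) (XT.lf (nat_lit 0) (nat_lit 28771085261) (nat_lit 228) (nat_lit 12461747743) (nat_lit 304) (nat_lit 12264156022) (nat_lit 37) (nat_lit 5) (nat_lit 40) (nat_lit 5) (nat_lit 41) (nat_lit 5) (nat_lit 371) (nat_lit 305) (nat_lit 104)) (XT.lf (nat_lit 0) (nat_lit 48192562321) (nat_lit 228) (nat_lit 361660621) (nat_lit 304) (nat_lit 6160682261) (nat_lit 37) (nat_lit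 5) (nat_lit 40) (nat_lit 5) (nat_lit 41) (nat_lit 5) (nat_lit 372) (nat_lit 305) (nat_lit 103)))) (XT.nd (nat_lit 78) (nat_lit 0) (nat_lit 0) (XT.lf (nat_lit 0) (nat_lit 358899735) (nat_lit 228) (nat_lit 43616708313) (nat_lit 76) (nat_lit 11986653710) (nat_lit 34) (nat_lit 5) (nat_lit 37) (nat_lit 5) (nat_lit 35) (nat_lit 5) (nat_lit 373) (nat_lit 305) (nat_lit 102)) (XT.nd (nat_lit 78) (nat_lit 0) (nat_lit 0) (XT.lf (nat_lit 0) (nat_lit 7018469261) (nat_lit 228) (nat_lit 25399915138) (nat_lit 76) (nat_lit 24824780923) (nat_lit 34) (nat_lit 5) (nat_lit 37) (nat_lit 5) (nat_lit 35) (nat_lit 5) (nat_lit 374) (nat_lit 305) (nat_lit 101)) (XT.lf (nat_lit 0) (nat_lit 13876008304) (nat_lit 228) (nat_lit 6639346861) (nat_lit 76) (nat_lit 38047198203) (nat_lit 34) (nat_lit 5) (nat_lit 37) (nat_lit 5) (nat_lit 35) (nat_lit 5) (nat_lit 375) (nat_lit 305) (nat_lit 100))))))))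
noncomputable def xc220 : XT := (XT.nd (nat_lit 36582) (nat_lit 0) (nat_lit 3572) (XT.nd (nat_lit 35724) (nat_lit 0) (nat_lit 8664) (XT.nd (nat_lit 35256) (nat_lit 0) (nat_lit 8436) (XT.nd (nat_lit 156) (nat_lit 152) (nat_lit 0) (XT.nd (nat_lit 78) (nat_lit 0) (nat_lit 0) (XT.lf (nat_lit 0) (nat_lit 12933773758) (nat_lit 228) (nat_lit 8128062474) (nat_lit 304) (nat_lit 38856012704) (nat_lit 31) (nat_lit 5) (nat_lit 34) (nat_lit 5) (nat_lit 35) (nat_lit 5) (nat_lit 376) (nat_lit 305) (nat_lit 99)) (XT.lf (nat_lit 0) (nat_lit 28573714788) (nat_lit 304) (nat_lit 28129451874) (nat_lit 76) (nat_lit 4607325117) (nat_lit 31) (nat_lit 5) (nat_lit 35) (nat_lit 5) (nat_lit 32) (nat_lit 5) (nat_lit 377) (nat_lit 305) (nat_lit 98))) (XT.nd (nat_lit 78) (nat_lit 152) (nat_lit 0) (XT.lf (nat_lit 0) (nat_lit 36389729494) (nat_lit 304) (nat_lit 8792257557) (nat_lit 76) (nat_lit 17560566068) (nat_lit 31) (nat_lit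 5) (nat_lit 35) (nat_lit 5) (nat_lit 32) (nat_lit 5) (nat_lit 378) (nat_lit 305) (nat_lit 97)) (XT.nd (nat_lit 34944) (nat_lit 0) (nat_lit 8436) (XT.lf (nat_lit 0) (nat_lit 11343896540) (nat_lit 152) (nat_lit 33203725900) (nat_lit 228) (nat_lit 19666734451) (nat_lit 29) (nat_lit 5) (nat_lit 31) (nat_lit 5) (nat_lit 32) (nat_lit 5) (nat_lit 379) (nat_lit 305) (nat_lit 96)) (XT.lf (nat_lit 0) (nat_lit 1156802181) (nat_lit 1140) (nat_lit 3474551269) (nat_lit 1140) (nat_lit 3474551269) (nat_lit 140) (nat_lit 3) (nat_lit 155) (nat_lit 3) (nat_lit 155) (nat_lit 5) (nat_lit 306) (nat_lit 306) (nat_lit 168))))) (XT.nd (nat_lit 234) (nat_lit 0) (nat_lit 152) (XT.nd (nat_lit 78) (nat_lit 0) (nat_lit 76) (XT.lf (nat_lit 0) (nat_lit 2575985993) (nat_lit 1140) (nat_lit 331311466) (nat_lit 1140) (nat_lit 13540246333) (nat_lit 140) (nat_lit 3) (nat_lit 155) (nat_lit 3) (nat_lit 155) (nat_lit 5) (nat_lit 307)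 (nat_lit 306) (nat_lit 167)) (XT.nd (nat_lit 78) (nat_lit 0) (nat_lit 0) (XT.lf (nat_lit 0) (nat_lit 2936535515) (nat_lit 1064) (nat_lit 10114984656) (nat_lit 1140) (nat_lit 3636145013) (nat_lit 141) (nat_lit 5) (nat_lit 155) (nat_lit 5) (nat_lit 156) (nat_lit 5) (nat_lit 308) (nat_lit 306) (nat_lit 166)) (XT.lf (nat_lit 0) (nat_lit 3331434557) (nat_lit 1064) (nat_lit 3277990314) (nat_lit 1140) (nat_lit 10324882561) (nat_lit 141) (nat_lit 5) (nat_lit 155) (nat_lit 5) (nat_lit 156) (nat_lit 5) (nat_lit 309) (nat_lit 306) (nat_lit 165)))) (XT.nd (nat_lit 78) (nat_lit 0) (nat_lit 0) (XT.lf (nat_lit 0) (nat_lit 3767307244) (nat_lit 1064) (nat_lit 13353957749) (nat_lit 1140) (nat_lit 66232685) (nat_lit 142) (nat_lit 5) (nat_lit 156) (nat_lit 5) (nat_lit 157) (nat_lit 5) (nat_lit 310) (nat_lit 306) (nat_lit 164)) (XT.nd (nat_lit 78) (nat_lit 0) (nat_lit 0) (XT.lf (nat_lit 0) (nat_lit 4306978304) (nat_lit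 1064) (nat_lit 6292425474) (nat_lit 1140) (nat_lit 6846180061) (nat_lit 142) (nat_lit 5) (nat_lit 156) (nat_lit 5) (nat_lit 157) (nat_lit 5) (nat_lit 311) (nat_lit 306) (nat_lit 163)) (XT.lf (nat_lit 76) (nat_lit 995545499) (nat_lit 0) (nat_lit 3868954403) (nat_lit 1140) (nat_lit 12846884109) (nat_lit 143) (nat_lit 5) (nat_lit 142) (nat_lit 5) (nat_lit 157) (nat_lit 5) (nat_lit 312) (nat_lit 306) (nat_lit 162)))))) (XT.nd (nat_lit 390) (nat_lit 0) (nat_lit 152) (XT.nd (nat_lit 156) (nat_lit 0) (nat_lit 0) (XT.nd (nat_lit 78) (nat_lit 0) (nat_lit 0) (XT.lf (nat_lit 0) (nat_lit 5524668005) (nat_lit 1064) (nat_lit 9387251445) (nat_lit 1140) (nat_lit 3070681732) (nat_lit 143) (nat_lit 5) (nat_lit 157) (nat_lit 5) (nat_lit 158) (nat_lit 5) (nat_lit 313) (nat_lit 306) (nat_lit 161)) (XT.lf (nat_lit 0) (nat_lit 6235475028) (nat_lit 1064) (nat_lit 1882032827) (nat_lit 1140) (nat_lit 10143542014) (nat_lit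 143) (nat_lit 5) (nat_lit 157) (nat_lit 5) (nat_lit 158) (nat_lit 5) (nat_lit 314) (nat_lit 306) (nat_lit 160))) (XT.nd (nat_lit 78) (nat_lit 0) (nat_lit 76) (XT.lf (nat_lit 76) (nat_lit 5959864477) (nat_lit 0) (nat_lit 1057776693) (nat_lit 1140) (nat_lit 11528729235) (nat_lit 144) (nat_lit 5) (nat_lit 143) (nat_lit 5) (nat_lit 158) (nat_lit 5) (nat_lit 315) (nat_lit 306) (nat_lit 159)) (XT.nd (nat_lit 78) (nat_lit 0) (nat_lit 0) (XT.lf (nat_lit 0) (nat_lit 7895129212) (nat_lit 1064) (nat_lit 4828984074) (nat_lit 1140) (nat_lit 6114000431) (nat_lit 144) (nat_lit 5) (nat_lit 158) (nat_lit 5) (nat_lit 159) (nat_lit 5) (nat_lit 316) (nat_lit 306) (nat_lit 158)) (XT.lf (nat_lit 76) (nat_lit 3208562473) (nat_lit 0) (nat_lit 5624834518) (nat_lit 1140) (nat_lit 10304197006) (nat_lit 145) (nat_lit 5) (nat_lit 144) (nat_lit 5) (nat_lit 159) (nat_lit 5) (nat_lit 317) (nat_lit 306) (nat_lit 157))))) (XT.nd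 (nat_lit 234) (nat_lit 0) (nat_lit 76) (XT.nd (nat_lit 78) (nat_lit 0) (nat_lit 0) (XT.lf (nat_lit 0) (nat_lit 9858590995) (nat_lit 1064) (nat_lit 7880102779) (nat_lit 1140) (nat_lit 1705619351) (nat_lit 145) (nat_lit 5) (nat_lit 159) (nat_lit 5) (nat_lit 160) (nat_lit 5) (nat_lit 318) (nat_lit 306) (nat_lit 156)) (XT.nd (nat_lit 78) (nat_lit 0) (nat_lit 0) (XT.lf (nat_lit 76) (nat_lit 356680473) (nat_lit 0) (nat_lit 10610486793) (nat_lit 1140) (nat_lit 8791505035) (nat_lit 146) (nat_lit 5) (nat_lit 145) (nat_lit 5) (nat_lit 160) (nat_lit 5) (nat_lit 319) (nat_lit 306) (nat_lit 155)) (XT.lf (nat_lit 76) (nat_lit 8997267424) (nat_lit 0) (nat_lit 3184956040) (nat_lit 1140) (nat_lit 7898058875) (nat_lit 146) (nat_lit 5) (nat_lit 145) (nat_lit 5) (nat_lit 160) (nat_lit 5) (nat_lit 320) (nat_lit 306) (nat_lit 154)))) (XT.nd (nat_lit 78) (nat_lit 0) (nat_lit 0) (XT.lf (nat_lit 0) (nat_lit 13470483893)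 (nat_lit 1064) (nat_lit 2562281845) (nat_lit 1140) (nat_lit 4377688638) (nat_lit 146) (nat_lit 5) (nat_lit 160) (nat_lit 5) (nat_lit 161) (nat_lit 5) (nat_lit 321) (nat_lit 306) (nat_lit 153)) (XT.nd (nat_lit 78) (nat_lit 0) (nat_lit 0) (XT.lf (nat_lit 76) (nat_lit 6300722980) (nat_lit 0) (nat_lit 8582797142) (nat_lit 1140) (nat_lit 5864443416) (nat_lit 147) (nat_lit 5) (nat_lit 146) (nat_lit 5) (nat_lit 161) (nat_lit 5) (nat_lit 322) (nat_lit 306) (nat_lit 152)) (XT.lf (nat_lit 76) (nat_lit 15477423124) (nat_lit 0) (nat_lit 881554299) (nat_lit 1140) (nat_lit 4736034996) (nat_lit 147) (nat_lit 5) (nat_lit 146) (nat_lit 5) (nat_lit 161) (nat_lit 5) (nat_lit 323) (nat_lit 306) (nat_lit 151))))))) (XT.nd (nat_lit 858) (nat_lit 2128) (nat_lit 0) (XT.nd (nat_lit 390) (nat_lit 1520) (nat_lit 0) (XT.nd (nat_lit 156) (nat_lit 684) (nat_lit 0) (XT.nd (nat_lit 78) (nat_lit 0) (nat_lit 0) (XT.lf (nat_lit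 0) (nat_lit 3472152566) (nat_lit 1064) (nat_lit 14502034897) (nat_lit 1140) (nat_lit 3475435527) (nat_lit 133) (nat_lit 5) (nat_lit 147) (nat_lit 5) (nat_lit 148) (nat_lit 5) (nat_lit 324) (nat_lit 306) (nat_lit 150)) (XT.lf (nat_lit 0) (nat_lit 12936109371) (nat_lit 1064) (nat_lit 6761569915) (nat_lit 1140) (nat_lit 2115412290) (nat_lit 133) (nat_lit 5) (nat_lit 147) (nat_lit 5) (nat_lit 148) (nat_lit 5) (nat_lit 325) (nat_lit 306) (nat_lit 149))) (XT.nd (nat_lit 78) (nat_lit 76) (nat_lit 0) (XT.lf (nat_lit 0) (nat_lit 489657989) (nat_lit 608) (nat_lit 20994191904) (nat_lit 684) (nat_lit 703299145) (nat_lit 125) (nat_lit 5) (nat_lit 133) (nat_lit 5) (nat_lit 134) (nat_lit 5) (nat_lit 326) (nat_lit 306) (nat_lit 148)) (XT.nd (nat_lit 78) (nat_lit 0) (nat_lit 0) (XT.lf (nat_lit 0) (nat_lit 888663921) (nat_lit 684) (nat_lit 12330374953) (nat_lit 76) (nat_lit 9348621621) (nat_lit 124) (nat_lit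 5) (nat_lit 133) (nat_lit 5) (nat_lit 125) (nat_lit 5) (nat_lit 327) (nat_lit 306) (nat_lit 147)) (XT.lf (nat_lit 0) (nat_lit 2509076308) (nat_lit 684) (nat_lit 2693915735) (nat_lit 76) (nat_lit 17756554418) (nat_lit 124) (nat_lit 5) (nat_lit 133) (nat_lit 5) (nat_lit 125) (nat_lit 5) (nat_lit 328) (nat_lit 306) (nat_lit 146))))) (XT.nd (nat_lit 234) (nat_lit 456) (nat_lit 0) (XT.nd (nat_lit 78) (nat_lit 532) (nat_lit 0) (XT.lf (nat_lit 0) (nat_lit 4273989748) (nat_lit 608) (nat_lit 16020384748) (nat_lit 76) (nat_lit 3065950326) (nat_lit 117) (nat_lit 5) (nat_lit 125) (nat_lit 5) (nat_lit 118) (nat_lit 5) (nat_lit 329) (nat_lit 306) (nat_lit 145)) (XT.nd (nat_lit 78) (nat_lit 532) (nat_lit 0) (XT.lf (nat_lit 0) (nat_lit 6165921322) (nat_lit 608) (nat_lit 6098748986) (nat_lit 76) (nat_lit 11506246214) (nat_lit 117) (nat_lit 5) (nat_lit 125) (nat_lit 5) (nat_lit 118) (nat_lit 5) (nat_lit 330)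 (nat_lit 306) (nat_lit 144)) (XT.lf (nat_lit 0) (nat_lit 4197899929) (nat_lit 532) (nat_lit 3952290254) (nat_lit 608) (nat_lit 16042580169) (nat_lit 110) (nat_lit 5) (nat_lit 117) (nat_lit 5) (nat_lit 118) (nat_lit 5) (nat_lit 331) (nat_lit 306) (nat_lit 143)))) (XT.nd (nat_lit 78) (nat_lit 456) (nat_lit 0) (XT.lf (nat_lit 0) (nat_lit 10295815132) (nat_lit 608) (nat_lit 9746545090) (nat_lit 76) (nat_lit 4581876150) (nat_lit 110) (nat_lit 5) (nat_lit 118) (nat_lit 5) (nat_lit 111) (nat_lit 5) (nat_lit 332) (nat_lit 306) (nat_lit 142)) (XT.nd (nat_lit 78) (nat_lit 0) (nat_lit 0) (XT.lf (nat_lit 0) (nat_lit 780809754) (nat_lit 456) (nat_lit 11767096377) (nat_lit 532) (nat_lit 12519488406) (nat_lit 104) (nat_lit 5) (nat_lit 110) (nat_lit 5) (nat_lit 111) (nat_lit 5) (nat_lit 333) (nat_lit 306) (nat_lit 141)) (XT.lf (nat_lit 0) (nat_lit 11819299154) (nat_lit 456) (nat_lit 3142230954) (nat_lit 532)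 (nat_lit 10559508992) (nat_lit 104) (nat_lit 5) (nat_lit 110) (nat_lit 5) (nat_lit 111) (nat_lit 5) (nat_lit 334) (nat_lit 306) (nat_lit 140)))))) (XT.nd (nat_lit 468) (nat_lit 760) (nat_lit 0) (XT.nd (nat_lit 234) (nat_lit 912) (nat_lit 0) (XT.nd (nat_lit 78) (nat_lit 456) (nat_lit 0) (XT.lf (nat_lit 0) (nat_lit 17498431075) (nat_lit 532) (nat_lit 2859029429) (nat_lit 76) (nat_lit 5629316896) (nat_lit 104) (nat_lit 5) (nat_lit 111) (nat_lit 5) (nat_lit 105) (nat_lit 5) (nat_lit 335) (nat_lit 306) (nat_lit 139)) (XT.nd (nat_lit 78) (nat_lit 0) (nat_lit 0) (XT.lf (nat_lit 0) (nat_lit 8438150690) (nat_lit 456) (nat_lit 11781316716) (nat_lit 532) (nat_lit 6243789735) (nat_lit 98) (nat_lit 5) (nat_lit 104) (nat_lit 5) (nat_lit 105) (nat_lit 5) (nat_lit 336) (nat_lit 306) (nat_lit 138)) (XT.lf (nat_lit 0) (nat_lit 20128537026) (nat_lit 456) (nat_lit 2918353575) (nat_lit 532) (nat_lit 3906407849)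 (nat_lit 98) (nat_lit 5) (nat_lit 104) (nat_lit 5) (nat_lit 105) (nat_lit 5) (nat_lit 337) (nat_lit 306) (nat_lit 137)))) (XT.nd (nat_lit 78) (nat_lit 532) (nat_lit 0) (XT.lf (nat_lit 0) (nat_lit 4740072433) (nat_lit 380) (nat_lit 21320330791) (nat_lit 456) (nat_lit 1394609332) (nat_lit 93) (nat_lit 5) (nat_lit 98) (nat_lit 5) (nat_lit 99) (nat_lit 5) (nat_lit 338) (nat_lit 306) (nat_lit 136)) (XT.nd (nat_lit 78) (nat_lit 456) (nat_lit 0) (XT.lf (nat_lit 0) (nat_lit 1263796499) (nat_lit 456) (nat_lit 11223362716) (nat_lit 76) (nat_lit 15481448253) (nat_lit 92) (nat_lit 5) (nat_lit 98) (nat_lit 5) (nat_lit 93) (nat_lit 5) (nat_lit 339) (nat_lit 306) (nat_lit 135)) (XT.lf (nat_lit 0) (nat_lit 606757152) (nat_lit 456) (nat_lit 3369145753) (nat_lit 532) (nat_lit 24521242473) (nat_lit 86) (nat_lit 5) (nat_lit 92) (nat_lit 5) (nat_lit 93) (nat_lit 5) (nat_lit 340) (nat_lit 306) (nat_lit 134))))) (XT.nd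 (nat_lit 234) (nat_lit 380) (nat_lit 0) (XT.nd (nat_lit 78) (nat_lit 380) (nat_lit 0) (XT.lf (nat_lit 0) (nat_lit 6937933741) (nat_lit 532) (nat_lit 16079617352) (nat_lit 76) (nat_lit 6018939989) (nat_lit 86) (nat_lit 5) (nat_lit 93) (nat_lit 5) (nat_lit 87) (nat_lit 5) (nat_lit 341) (nat_lit 306) (nat_lit 133)) (XT.nd (nat_lit 78) (nat_lit 380) (nat_lit 0) (XT.lf (nat_lit 0) (nat_lit 10018507741) (nat_lit 532) (nat_lit 3952068905) (nat_lit 76) (nat_lit 15620558291) (nat_lit 86) (nat_lit 5) (nat_lit 93) (nat_lit 5) (nat_lit 87) (nat_lit 5) (nat_lit 342) (nat_lit 306) (nat_lit 132)) (XT.lf (nat_lit 0) (nat_lit 8705108308) (nat_lit 380) (nat_lit 4566500897) (nat_lit 456) (nat_lit 16888413602) (nat_lit 81) (nat_lit 5) (nat_lit 86) (nat_lit 5) (nat_lit 87) (nat_lit 5) (nat_lit 343) (nat_lit 306) (nat_lit 131)))) (XT.nd (nat_lit 78) (nat_lit 380) (nat_lit 0) (XT.lf (nat_lit 0) (nat_lit 16708312287)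 (nat_lit 456) (nat_lit 8975508180) (nat_lit 76) (nat_lit 5059584363) (nat_lit 81) (nat_lit 5) (nat_lit 87) (nat_lit 5) (nat_lit 82) (nat_lit 5) (nat_lit 344) (nat_lit 306) (nat_lit 130)) (XT.nd (nat_lit 78) (nat_lit 0) (nat_lit 0) (XT.lf (nat_lit 0) (nat_lit 3905259837) (nat_lit 380) (nat_lit 16422203072) (nat_lit 456) (nat_lit 11014452560) (nat_lit 76) (nat_lit 5) (nat_lit 81) (nat_lit 5) (nat_lit 82) (nat_lit 5) (nat_lit 345) (nat_lit 306) (nat_lit 129)) (XT.lf (nat_lit 0) (nat_lit 17352466063) (nat_lit 380) (nat_lit 6790011850) (nat_lit 456) (nat_lit 7813292144) (nat_lit 76) (nat_lit 5) (nat_lit 81) (nat_lit 5) (nat_lit 82) (nat_lit 5) (nat_lit 346) (nat_lit 306) (nat_lit 128))))))))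
noncomputable def xc221 : XT := (XT.nd (nat_lit 1716) (nat_lit 684) (nat_lit 0) (XT.nd (nat_lit 858) (nat_lit 1368) (nat_lit 0) (XT.nd (nat_lit 390) (nat_lit 608) (nat_lit 0) (XT.nd (nat_lit 156) (nat_lit 456) (nat_lit 0) (XT.nd (nat_lit 78) (nat_lit 304) (nat_lit 0) (XT.lf (nat_lit 0) (nat_lit 28098788244) (nat_lit 456) (nat_lit 1419007173) (nat_lit 76) (nat_lit 3069446634) (nat_lit 76) (nat_lit 5) (nat_lit 82) (nat_lit 5) (nat_lit 77) (nat_lit 5) (nat_lit 347) (nat_lit 306) (nat_lit 127)) (XT.lf (nat_lit 0) (nat_lit 12330358790) (nat_lit 304) (nat_lit 20026025045) (nat_lit 380) (nat_lit 875803398) (nat_lit 72) (nat_lit 5) (nat_lit 76) (nat_lit 5) (nat_lit 77) (nat_lit 5) (nat_lit 348) (nat_lit 306) (nat_lit 126))) (XT.nd (nat_lit 78) (nat_lit 380) (nat_lit 0) (XT.lf (nat_lit 0) (nat_lit 2801036265) (nat_lit 380) (nat_lit 7406121824) (nat_lit 76) (nat_lit 23688168779) (nat_lit 71) (nat_lit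 5) (nat_lit 76) (nat_lit 5) (nat_lit 72) (nat_lit 5) (nat_lit 349) (nat_lit 306) (nat_lit 125)) (XT.nd (nat_lit 78) (nat_lit 0) (nat_lit 0) (XT.lf (nat_lit 0) (nat_lit 6611029487) (nat_lit 380) (nat_lit 20048884) (nat_lit 456) (nat_lit 27945213503) (nat_lit 66) (nat_lit 5) (nat_lit 71) (nat_lit 5) (nat_lit 72) (nat_lit 5) (nat_lit 350) (nat_lit 306) (nat_lit 124)) (XT.lf (nat_lit 0) (nat_lit 10749216068) (nat_lit 456) (nat_lit 14180151199) (nat_lit 76) (nat_lit 10343128868) (nat_lit 66) (nat_lit 5) (nat_lit 72) (nat_lit 5) (nat_lit 67) (nat_lit 5) (nat_lit 351) (nat_lit 306) (nat_lit 123))))) (XT.nd (nat_lit 234) (nat_lit 304) (nat_lit 0) (XT.nd (nat_lit 78) (nat_lit 0) (nat_lit 0) (XT.lf (nat_lit 0) (nat_lit 14904345) (nat_lit 304) (nat_lit 14973419600) (nat_lit 380) (nat_lit 21001345756) (nat_lit 62) (nat_lit 5) (nat_lit 66) (nat_lit 5) (nat_lit 67) (nat_lit 5) (nat_lit 352) (nat_lit 306)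 (nat_lit 122)) (XT.nd (nat_lit 78) (nat_lit 0) (nat_lit 0) (XT.lf (nat_lit 0) (nat_lit 14922825731) (nat_lit 304) (nat_lit 4572105023) (nat_lit 380) (nat_lit 17229223734) (nat_lit 62) (nat_lit 5) (nat_lit 66) (nat_lit 5) (nat_lit 67) (nat_lit 5) (nat_lit 353) (nat_lit 306) (nat_lit 121)) (XT.lf (nat_lit 0) (nat_lit 24192979201) (nat_lit 380) (nat_lit 7265362414) (nat_lit 76) (nat_lit 6020650517) (nat_lit 62) (nat_lit 5) (nat_lit 67) (nat_lit 5) (nat_lit 63) (nat_lit 5) (nat_lit 354) (nat_lit 306) (nat_lit 120)))) (XT.nd (nat_lit 78) (nat_lit 0) (nat_lit 0) (XT.lf (nat_lit 0) (nat_lit 7810287498) (nat_lit 304) (nat_lit 21339318483) (nat_lit 380) (nat_lit 9103345270) (nat_lit 58) (nat_lit 5) (nat_lit 62) (nat_lit 5) (nat_lit 63) (nat_lit 5) (nat_lit 355) (nat_lit 306) (nat_lit 119)) (XT.nd (nat_lit 78) (nat_lit 0) (nat_lit 0) (XT.lf (nat_lit 0) (nat_lit 23483640466) (nat_lit 304) (nat_lit 10841993524)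 (nat_lit 380) (nat_lit 4722379374) (nat_lit 58) (nat_lit 5) (nat_lit 62) (nat_lit 5) (nat_lit 63) (nat_lit 5) (nat_lit 356) (nat_lit 306) (nat_lit 118)) (XT.lf (nat_lit 0) (nat_lit 39623796695) (nat_lit 304) (nat_lit 30560234) (nat_lit 380) (nat_lit 212653128) (nat_lit 58) (nat_lit 5) (nat_lit 62) (nat_lit 5) (nat_lit 63) (nat_lit 5) (nat_lit 357) (nat_lit 306) (nat_lit 117)))))) (XT.nd (nat_lit 390) (nat_lit 760) (nat_lit 0) (XT.nd (nat_lit 156) (nat_lit 304) (nat_lit 0) (XT.nd (nat_lit 78) (nat_lit 0) (nat_lit 0) (XT.lf (nat_lit 0) (nat_lit 4603879698) (nat_lit 304) (nat_lit 25013556855) (nat_lit 76) (nat_lit 11084126558) (nat_lit 54) (nat_lit 5) (nat_lit 58) (nat_lit 5) (nat_lit 55) (nat_lit 5) (nat_lit 358) (nat_lit 306) (nat_lit 116)) (XT.lf (nat_lit 0) (nat_lit 9560911081) (nat_lit 304) (nat_lit 9464755991) (nat_lit 76) (nat_lit 22535418923) (nat_lit 54) (nat_lit 5) (nat_lit 58) (nat_lit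 5) (nat_lit 55) (nat_lit 5) (nat_lit 359) (nat_lit 306) (nat_lit 115))) (XT.nd (nat_lit 78) (nat_lit 0) (nat_lit 0) (XT.lf (nat_lit 0) (nat_lit 6677517487) (nat_lit 304) (nat_lit 8050891115) (nat_lit 380) (nat_lit 27716137875) (nat_lit 50) (nat_lit 5) (nat_lit 54) (nat_lit 5) (nat_lit 55) (nat_lit 5) (nat_lit 360) (nat_lit 306) (nat_lit 114)) (XT.nd (nat_lit 78) (nat_lit 0) (nat_lit 0) (XT.lf (nat_lit 0) (nat_lit 20176321864) (nat_lit 380) (nat_lit 19889112906) (nat_lit 76) (nat_lit 3285318711) (nat_lit 50) (nat_lit 5) (nat_lit 55) (nat_lit 5) (nat_lit 51) (nat_lit 5) (nat_lit 361) (nat_lit 306) (nat_lit 113)) (XT.lf (nat_lit 0) (nat_lit 25865052266) (nat_lit 380) (nat_lit 3617803595) (nat_lit 76) (nat_lit 14798973746) (nat_lit 50) (nat_lit 5) (nat_lit 55) (nat_lit 5) (nat_lit 51) (nat_lit 5) (nat_lit 362) (nat_lit 306) (nat_lit 112))))) (XT.nd (nat_lit 234) (nat_lit 304) (nat_lit 0) (XT.nd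 (nat_lit 78) (nat_lit 228) (nat_lit 0) (XT.lf (nat_lit 0) (nat_lit 13399988725) (nat_lit 228) (nat_lit 18451000618) (nat_lit 304) (nat_lit 13386056511) (nat_lit 47) (nat_lit 5) (nat_lit 50) (nat_lit 5) (nat_lit 51) (nat_lit 5) (nat_lit 363) (nat_lit 306) (nat_lit 111)) (XT.nd (nat_lit 78) (nat_lit 228) (nat_lit 0) (XT.lf (nat_lit 0) (nat_lit 30999368696) (nat_lit 228) (nat_lit 7051440506) (nat_lit 304) (nat_lit 8169084302) (nat_lit 47) (nat_lit 5) (nat_lit 50) (nat_lit 5) (nat_lit 51) (nat_lit 5) (nat_lit 364) (nat_lit 306) (nat_lit 110)) (XT.lf (nat_lit 0) (nat_lit 1883087468) (nat_lit 228) (nat_lit 42614550384) (nat_lit 304) (nat_lit 2732762245) (nat_lit 44) (nat_lit 5) (nat_lit 47) (nat_lit 5) (nat_lit 48) (nat_lit 5) (nat_lit 365) (nat_lit 306) (nat_lit 109)))) (XT.nd (nat_lit 78) (nat_lit 228) (nat_lit 0) (XT.lf (nat_lit 0) (nat_lit 3033583944) (nat_lit 304) (nat_lit 28556785237) (nat_lit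 76) (nat_lit 16673343546) (nat_lit 43) (nat_lit 5) (nat_lit 47) (nat_lit 5) (nat_lit 44) (nat_lit 5) (nat_lit 366) (nat_lit 306) (nat_lit 108)) (XT.nd (nat_lit 78) (nat_lit 228) (nat_lit 0) (XT.lf (nat_lit 0) (nat_lit 8915895356) (nat_lit 304) (nat_lit 11292603186) (nat_lit 76) (nat_lit 29118781068) (nat_lit 43) (nat_lit 5) (nat_lit 47) (nat_lit 5) (nat_lit 44) (nat_lit 5) (nat_lit 367) (nat_lit 306) (nat_lit 107)) (XT.lf (nat_lit 0) (nat_lit 6615683526) (nat_lit 228) (nat_lit 8420548379) (nat_lit 304) (nat_lit 35384678420) (nat_lit 40) (nat_lit 5) (nat_lit 43) (nat_lit 5) (nat_lit 44) (nat_lit 5) (nat_lit 368) (nat_lit 306) (nat_lit 106))))))) (XT.nd (nat_lit 35802) (nat_lit 0) (nat_lit 8284) (XT.nd (nat_lit 390) (nat_lit 456) (nat_lit 0) (XT.nd (nat_lit 156) (nat_lit 228) (nat_lit 0) (XT.nd (nat_lit 78) (nat_lit 0) (nat_lit 0) (XT.lf (nat_lit 0) (nat_lit 21489094587) (nat_lit 304) (nat_lit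 26291063931) (nat_lit 76) (nat_lit 3762727361) (nat_lit 40) (nat_lit 5) (nat_lit 44) (nat_lit 5) (nat_lit 41) (nat_lit 5) (nat_lit 369) (nat_lit 306) (nat_lit 105)) (XT.lf (nat_lit 0) (nat_lit 28216958535) (nat_lit 304) (nat_lit 8337705361) (nat_lit 76) (nat_lit 16141417639) (nat_lit 40) (nat_lit 5) (nat_lit 44) (nat_lit 5) (nat_lit 41) (nat_lit 5) (nat_lit 370) (nat_lit 306) (nat_lit 104))) (XT.nd (nat_lit 78) (nat_lit 0) (nat_lit 0) (XT.lf (nat_lit 0) (nat_lit 10353514123) (nat_lit 228) (nat_lit 24890769191) (nat_lit 304) (nat_lit 18636664202) (nat_lit 37) (nat_lit 5) (nat_lit 40) (nat_lit 5) (nat_lit 41) (nat_lit 5) (nat_lit 371) (nat_lit 306) (nat_lit 103)) (XT.nd (nat_lit 78) (nat_lit 0) (nat_lit 0) (XT.lf (nat_lit 0) (nat_lit 29773637983) (nat_lit 228) (nat_lit 12791113849) (nat_lit 304) (nat_lit 12534141035) (nat_lit 37) (nat_lit 5) (nat_lit 40) (nat_lit 5) (nat_lit 41) (nat_lit 5) (nat_lit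 372) (nat_lit 306) (nat_lit 102)) (XT.lf (nat_lit 0) (nat_lit 49773698573) (nat_lit 228) (nat_lit 329319831) (nat_lit 304) (nat_lit 6250415673) (nat_lit 37) (nat_lit 5) (nat_lit 40) (nat_lit 5) (nat_lit 41) (nat_lit 5) (nat_lit 373) (nat_lit 306) (nat_lit 101))))) (XT.nd (nat_lit 234) (nat_lit 228) (nat_lit 0) (XT.nd (nat_lit 78) (nat_lit 0) (nat_lit 0) (XT.lf (nat_lit 0) (nat_lit 461915101) (nat_lit 228) (nat_lit 44786718320) (nat_lit 76) (nat_lit 12389584316) (nat_lit 34) (nat_lit 5) (nat_lit 37) (nat_lit 5) (nat_lit 35) (nat_lit 5) (nat_lit 374) (nat_lit 306) (nat_lit 100)) (XT.nd (nat_lit 78) (nat_lit 0) (nat_lit 0) (XT.lf (nat_lit 0) (nat_lit 7318584867) (nat_lit 228) (nat_lit 26027455076) (nat_lit 76) (nat_lit 25611593278) (nat_lit 34) (nat_lit 5) (nat_lit 37) (nat_lit 5) (nat_lit 35) (nat_lit 5) (nat_lit 375) (nat_lit 306) (nat_lit 99)) (XT.lf (nat_lit 0) (nat_lit 14379241493) (nat_lit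 228) (nat_lit 6707985989) (nat_lit 76) (nat_lit 39229457767) (nat_lit 34) (nat_lit 5) (nat_lit 37) (nat_lit 5) (nat_lit 35) (nat_lit 5) (nat_lit 376) (nat_lit 306) (nat_lit 98)))) (XT.nd (nat_lit 78) (nat_lit 0) (nat_lit 0) (XT.lf (nat_lit 0) (nat_lit 13451048433) (nat_lit 228) (nat_lit 8328305756) (nat_lit 304) (nat_lit 39933328162) (nat_lit 31) (nat_lit 5) (nat_lit 34) (nat_lit 5) (nat_lit 35) (nat_lit 5) (nat_lit 377) (nat_lit 306) (nat_lit 97)) (XT.nd (nat_lit 78) (nat_lit 0) (nat_lit 0) (XT.lf (nat_lit 0) (nat_lit 29514500957) (nat_lit 304) (nat_lit 28845622402) (nat_lit 76) (nat_lit 4787047614) (nat_lit 31) (nat_lit 5) (nat_lit 35) (nat_lit 5) (nat_lit 32) (nat_lit 5) (nat_lit 378) (nat_lit 306) (nat_lit 96)) (XT.lf (nat_lit 0) (nat_lit 37562561888) (nat_lit 304) (nat_lit 8932032052) (nat_lit 76) (nat_lit 18127676976) (nat_lit 31) (nat_lit 5) (nat_lit 35) (nat_lit 5) (nat_lit 32) (nat_lit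 5) (nat_lit 379) (nat_lit 306) (nat_lit 95)))))) (XT.nd (nat_lit 468) (nat_lit 0) (nat_lit 152) (XT.nd (nat_lit 234) (nat_lit 0) (nat_lit 76) (XT.nd (nat_lit 78) (nat_lit 0) (nat_lit 0) (XT.lf (nat_lit 0) (nat_lit 1416995235) (nat_lit 1140) (nat_lit 3462357690) (nat_lit 1140) (nat_lit 3462357690) (nat_lit 140) (nat_lit 3) (nat_lit 155) (nat_lit 3) (nat_lit 155) (nat_lit 5) (nat_lit 307) (nat_lit 307) (nat_lit 166)) (XT.nd (nat_lit 78) (nat_lit 0) (nat_lit 76) (XT.lf (nat_lit 0) (nat_lit 3091108269) (nat_lit 1140) (nat_lit 115172913) (nat_lit 1140) (nat_lit 13720375826) (nat_lit 140) (nat_lit 3) (nat_lit 155) (nat_lit 3) (nat_lit 155) (nat_lit 5) (nat_lit 308) (nat_lit 307) (nat_lit 165)) (XT.lf (nat_lit 0) (nat_lit 3449918453) (nat_lit 1064) (nat_lit 10178656961) (nat_lit 1140) (nat_lit 3545817606) (nat_lit 141) (nat_lit 5) (nat_lit 155) (nat_lit 5) (nat_lit 156) (nat_lit 5) (nat_lit 309) (nat_lit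 307) (nat_lit 164)))) (XT.nd (nat_lit 78) (nat_lit 0) (nat_lit 0) (XT.lf (nat_lit 0) (nat_lit 3844277470) (nat_lit 1064) (nat_lit 3143536592) (nat_lit 1140) (nat_lit 10441025390) (nat_lit 141) (nat_lit 5) (nat_lit 155) (nat_lit 5) (nat_lit 156) (nat_lit 5) (nat_lit 310) (nat_lit 307) (nat_lit 163)) (XT.nd (nat_lit 78) (nat_lit 0) (nat_lit 76) (XT.lf (nat_lit 76) (nat_lit 4179746155) (nat_lit 0) (nat_lit 103000965) (nat_lit 1140) (nat_lit 13407224997) (nat_lit 142) (nat_lit 5) (nat_lit 141) (nat_lit 5) (nat_lit 156) (nat_lit 5) (nat_lit 311) (nat_lit 307) (nat_lit 162)) (XT.lf (nat_lit 0) (nat_lit 4825926053) (nat_lit 1064) (nat_lit 6243003456) (nat_lit 1140) (nat_lit 6887283218) (nat_lit 142) (nat_lit 5) (nat_lit 156) (nat_lit 5) (nat_lit 157) (nat_lit 5) (nat_lit 312) (nat_lit 307) (nat_lit 161))))) (XT.nd (nat_lit 234) (nat_lit 0) (nat_lit 76) (XT.nd (nat_lit 78) (nat_lit 0) (nat_lit 76) (XT.lf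 (nat_lit 76) (nat_lit 1261271404) (nat_lit 0) (nat_lit 4129817517) (nat_lit 1140) (nat_lit 12839200993) (nat_lit 143) (nat_lit 5) (nat_lit 142) (nat_lit 5) (nat_lit 157) (nat_lit 5) (nat_lit 313) (nat_lit 307) (nat_lit 160)) (XT.nd (nat_lit 78) (nat_lit 0) (nat_lit 0) (XT.lf (nat_lit 0) (nat_lit 6058623743) (nat_lit 1064) (nat_lit 9426454415) (nat_lit 1140) (nat_lit 3024968184) (nat_lit 143) (nat_lit 5) (nat_lit 157) (nat_lit 5) (nat_lit 158) (nat_lit 5) (nat_lit 314) (nat_lit 307) (nat_lit 159)) (XT.lf (nat_lit 0) (nat_lit 6780030247) (nat_lit 1064) (nat_lit 1703139857) (nat_lit 1140) (nat_lit 10314028857) (nat_lit 143) (nat_lit 5) (nat_lit 157) (nat_lit 5) (nat_lit 158) (nat_lit 5) (nat_lit 315) (nat_lit 307) (nat_lit 158)))) (XT.nd (nat_lit 78) (nat_lit 0) (nat_lit 76) (XT.lf (nat_lit 76) (nat_lit 6371706974) (nat_lit 0) (nat_lit 1205782228) (nat_lit 1140) (nat_lit 11513862971) (nat_lit 144)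 (nat_lit 5) (nat_lit 143) (nat_lit 5) (nat_lit 158) (nat_lit 5) (nat_lit 316) (nat_lit 307) (nat_lit 157)) (XT.nd (nat_lit 78) (nat_lit 0) (nat_lit 0) (XT.lf (nat_lit 0) (nat_lit 8470042425) (nat_lit 1064) (nat_lit 4735432638) (nat_lit 1140) (nat_lit 6186737586) (nat_lit 144) (nat_lit 5) (nat_lit 158) (nat_lit 5) (nat_lit 159) (nat_lit 5) (nat_lit 317) (nat_lit 307) (nat_lit 156)) (XT.lf (nat_lit 76) (nat_lit 3540902845) (nat_lit 0) (nat_lit 5887978383) (nat_lit 1140) (nat_lit 10272049712) (nat_lit 145) (nat_lit 5) (nat_lit 144) (nat_lit 5) (nat_lit 159) (nat_lit 5) (nat_lit 318) (nat_lit 307) (nat_lit 155))))))))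
noncomputable def xc222 : XT := (XT.nd (nat_lit 1716) (nat_lit 3192) (nat_lit 0) (XT.nd (nat_lit 858) (nat_lit 2432) (nat_lit 0) (XT.nd (nat_lit 390) (nat_lit 1596) (nat_lit 0) (XT.nd (nat_lit 156) (nat_lit 0) (nat_lit 0) (XT.nd (nat_lit 78) (nat_lit 0) (nat_lit 0) (XT.lf (nat_lit 0) (nat_lit 10474324364) (nat_lit 1064) (nat_lit 7875941013) (nat_lit 1140) (nat_lit 1666926991) (nat_lit 145) (nat_lit 5) (nat_lit 159) (nat_lit 5) (nat_lit 160) (nat_lit 5) (nat_lit 319) (nat_lit 307) (nat_lit 154)) (XT.lf (nat_lit 76) (nat_lit 605587257) (nat_lit 0) (nat_lit 11003540772) (nat_lit 1140) (nat_lit 8732089970) (nat_lit 146) (nat_lit 5) (nat_lit 145) (nat_lit 5) (nat_lit 160) (nat_lit 5) (nat_lit 320) (nat_lit 307) (nat_lit 153))) (XT.nd (nat_lit 78) (nat_lit 0) (nat_lit 76) (XT.lf (nat_lit 76) (nat_lit 9498453767) (nat_lit 0) (nat_lit 3353067221) (nat_lit 1140) (nat_lit 7821252859) (nat_lit 146) (nat_lit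 5) (nat_lit 145) (nat_lit 5) (nat_lit 160) (nat_lit 5) (nat_lit 321) (nat_lit 307) (nat_lit 152)) (XT.nd (nat_lit 78) (nat_lit 0) (nat_lit 0) (XT.lf (nat_lit 0) (nat_lit 14168902590) (nat_lit 1064) (nat_lit 2404312633) (nat_lit 1140) (nat_lit 4439944982) (nat_lit 146) (nat_lit 5) (nat_lit 160) (nat_lit 5) (nat_lit 161) (nat_lit 5) (nat_lit 322) (nat_lit 307) (nat_lit 151)) (XT.lf (nat_lit 76) (nat_lit 6722280007) (nat_lit 0) (nat_lit 8895713205) (nat_lit 1140) (nat_lit 5743014212) (nat_lit 147) (nat_lit 5) (nat_lit 146) (nat_lit 5) (nat_lit 161) (nat_lit 5) (nat_lit 323) (nat_lit 307) (nat_lit 150))))) (XT.nd (nat_lit 234) (nat_lit 684) (nat_lit 0) (XT.nd (nat_lit 78) (nat_lit 988) (nat_lit 0) (XT.lf (nat_lit 76) (nat_lit 16167508281) (nat_lit 0) (nat_lit 961818548) (nat_lit 1140) (nat_lit 4589414582) (nat_lit 147) (nat_lit 5) (nat_lit 146) (nat_lit 5) (nat_lit 161) (nat_lit 5) (nat_lit 324)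 (nat_lit 307) (nat_lit 149)) (XT.nd (nat_lit 78) (nat_lit 0) (nat_lit 0) (XT.lf (nat_lit 0) (nat_lit 3809410459) (nat_lit 1064) (nat_lit 14977177977) (nat_lit 1140) (nat_lit 3297615383) (nat_lit 133) (nat_lit 5) (nat_lit 147) (nat_lit 5) (nat_lit 148) (nat_lit 5) (nat_lit 325) (nat_lit 307) (nat_lit 148)) (XT.lf (nat_lit 0) (nat_lit 13550496843) (nat_lit 1064) (nat_lit 7003331607) (nat_lit 1140) (nat_lit 1905007465) (nat_lit 133) (nat_lit 5) (nat_lit 147) (nat_lit 5) (nat_lit 148) (nat_lit 5) (nat_lit 326) (nat_lit 307) (nat_lit 147)))) (XT.nd (nat_lit 78) (nat_lit 76) (nat_lit 0) (XT.lf (nat_lit 0) (nat_lit 737367274) (nat_lit 608) (nat_lit 21650368834) (nat_lit 684) (nat_lit 456574587) (nat_lit 125) (nat_lit 5) (nat_lit 133) (nat_lit 5) (nat_lit 134) (nat_lit 5) (nat_lit 327) (nat_lit 307) (nat_lit 146)) (XT.nd (nat_lit 78) (nat_lit 0) (nat_lit 0) (XT.lf (nat_lit 0) (nat_lit 1170272703) (nat_lit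 684) (nat_lit 12468346515) (nat_lit 76) (nat_lit 9597789490) (nat_lit 124) (nat_lit 5) (nat_lit 133) (nat_lit 5) (nat_lit 125) (nat_lit 5) (nat_lit 328) (nat_lit 307) (nat_lit 145)) (XT.lf (nat_lit 0) (nat_lit 2831871767) (nat_lit 684) (nat_lit 2549549046) (nat_lit 76) (nat_lit 18258871652) (nat_lit 124) (nat_lit 5) (nat_lit 133) (nat_lit 5) (nat_lit 125) (nat_lit 5) (nat_lit 329) (nat_lit 307) (nat_lit 144)))))) (XT.nd (nat_lit 390) (nat_lit 912) (nat_lit 0) (XT.nd (nat_lit 156) (nat_lit 988) (nat_lit 0) (XT.nd (nat_lit 78) (nat_lit 0) (nat_lit 0) (XT.lf (nat_lit 0) (nat_lit 4644479323) (nat_lit 608) (nat_lit 16269962052) (nat_lit 76) (nat_lit 3138828304) (nat_lit 117) (nat_lit 5) (nat_lit 125) (nat_lit 5) (nat_lit 118) (nat_lit 5) (nat_lit 330) (nat_lit 307) (nat_lit 143)) (XT.lf (nat_lit 0) (nat_lit 6586112441) (nat_lit 608) (nat_lit 6057406370) (nat_lit 76) (nat_lit 11832889394) (nat_lit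 117) (nat_lit 5) (nat_lit 125) (nat_lit 5) (nat_lit 118) (nat_lit 5) (nat_lit 331) (nat_lit 307) (nat_lit 142))) (XT.nd (nat_lit 78) (nat_lit 456) (nat_lit 0) (XT.lf (nat_lit 0) (nat_lit 4545942943) (nat_lit 532) (nat_lit 4079250565) (nat_lit 608) (nat_lit 16285882493) (nat_lit 110) (nat_lit 5) (nat_lit 117) (nat_lit 5) (nat_lit 118) (nat_lit 5) (nat_lit 332) (nat_lit 307) (nat_lit 141)) (XT.nd (nat_lit 78) (nat_lit 456) (nat_lit 0) (XT.lf (nat_lit 0) (nat_lit 10828395367) (nat_lit 608) (nat_lit 9815966547) (nat_lit 76) (nat_lit 4711344228) (nat_lit 110) (nat_lit 5) (nat_lit 118) (nat_lit 5) (nat_lit 111) (nat_lit 5) (nat_lit 333) (nat_lit 307) (nat_lit 140)) (XT.lf (nat_lit 0) (nat_lit 1025022914) (nat_lit 456) (nat_lit 12118632837) (nat_lit 532) (nat_lit 12668651008) (nat_lit 104) (nat_lit 5) (nat_lit 110) (nat_lit 5) (nat_lit 111) (nat_lit 5) (nat_lit 334) (nat_lit 307) (nat_lit 139)))))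 (XT.nd (nat_lit 234) (nat_lit 456) (nat_lit 0) (XT.nd (nat_lit 78) (nat_lit 456) (nat_lit 0) (XT.lf (nat_lit 0) (nat_lit 12388236253) (nat_lit 456) (nat_lit 3235064455) (nat_lit 532) (nat_lit 10656467028) (nat_lit 104) (nat_lit 5) (nat_lit 110) (nat_lit 5) (nat_lit 111) (nat_lit 5) (nat_lit 335) (nat_lit 307) (nat_lit 138)) (XT.nd (nat_lit 78) (nat_lit 456) (nat_lit 0) (XT.lf (nat_lit 0) (nat_lit 18230120390) (nat_lit 532) (nat_lit 2729997514) (nat_lit 76) (nat_lit 5799560924) (nat_lit 104) (nat_lit 5) (nat_lit 111) (nat_lit 5) (nat_lit 105) (nat_lit 5) (nat_lit 336) (nat_lit 307) (nat_lit 137)) (XT.lf (nat_lit 0) (nat_lit 8903992100) (nat_lit 456) (nat_lit 12124818836) (nat_lit 532) (nat_lit 6221775889) (nat_lit 98) (nat_lit 5) (nat_lit 104) (nat_lit 5) (nat_lit 105) (nat_lit 5) (nat_lit 337) (nat_lit 307) (nat_lit 136)))) (XT.nd (nat_lit 78) (nat_lit 456) (nat_lit 0) (XT.lf (nat_lit 0) (nat_lit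 20938894970) (nat_lit 456) (nat_lit 2996256239) (nat_lit 532) (nat_lit 3820369465) (nat_lit 98) (nat_lit 5) (nat_lit 104) (nat_lit 5) (nat_lit 105) (nat_lit 5) (nat_lit 338) (nat_lit 307) (nat_lit 135)) (XT.nd (nat_lit 78) (nat_lit 76) (nat_lit 0) (XT.lf (nat_lit 0) (nat_lit 5092974292) (nat_lit 380) (nat_lit 21942476727) (nat_lit 456) (nat_lit 1236957453) (nat_lit 93) (nat_lit 5) (nat_lit 98) (nat_lit 5) (nat_lit 99) (nat_lit 5) (nat_lit 339) (nat_lit 307) (nat_lit 134)) (XT.lf (nat_lit 0) (nat_lit 1491610770) (nat_lit 456) (nat_lit 11351290272) (nat_lit 76) (nat_lit 15958636505) (nat_lit 92) (nat_lit 5) (nat_lit 98) (nat_lit 5) (nat_lit 93) (nat_lit 5) (nat_lit 340) (nat_lit 307) (nat_lit 133))))))) (XT.nd (nat_lit 858) (nat_lit 1216) (nat_lit 0) (XT.nd (nat_lit 390) (nat_lit 1140) (nat_lit 0) (XT.nd (nat_lit 156) (nat_lit 380) (nat_lit 0) (XT.nd (nat_lit 78) (nat_lit 0) (nat_lit 0) (XT.lf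 (nat_lit 0) (nat_lit 831686394) (nat_lit 456) (nat_lit 3449850077) (nat_lit 532) (nat_lit 25064513997) (nat_lit 86) (nat_lit 5) (nat_lit 92) (nat_lit 5) (nat_lit 93) (nat_lit 5) (nat_lit 341) (nat_lit 307) (nat_lit 132)) (XT.lf (nat_lit 0) (nat_lit 7327190480) (nat_lit 532) (nat_lit 16355656367) (nat_lit 76) (nat_lit 6218899020) (nat_lit 86) (nat_lit 5) (nat_lit 93) (nat_lit 5) (nat_lit 87) (nat_lit 5) (nat_lit 342) (nat_lit 307) (nat_lit 131))) (XT.nd (nat_lit 78) (nat_lit 380) (nat_lit 0) (XT.lf (nat_lit 0) (nat_lit 10494906397) (nat_lit 532) (nat_lit 3870291646) (nat_lit 76) (nat_lit 16108001090) (nat_lit 86) (nat_lit 5) (nat_lit 93) (nat_lit 5) (nat_lit 87) (nat_lit 5) (nat_lit 343) (nat_lit 307) (nat_lit 130)) (XT.nd (nat_lit 78) (nat_lit 0) (nat_lit 0) (XT.lf (nat_lit 0) (nat_lit 9164636772) (nat_lit 380) (nat_lit 4677749384) (nat_lit 456) (nat_lit 17216875418) (nat_lit 81) (nat_lit 5)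 (nat_lit 86) (nat_lit 5) (nat_lit 87) (nat_lit 5) (nat_lit 344) (nat_lit 307) (nat_lit 129)) (XT.lf (nat_lit 0) (nat_lit 17377402594) (nat_lit 456) (nat_lit 9047016493) (nat_lit 76) (nat_lit 5235880760) (nat_lit 81) (nat_lit 5) (nat_lit 87) (nat_lit 5) (nat_lit 82) (nat_lit 5) (nat_lit 345) (nat_lit 307) (nat_lit 128))))) (XT.nd (nat_lit 234) (nat_lit 760) (nat_lit 0) (XT.nd (nat_lit 78) (nat_lit 0) (nat_lit 0) (XT.lf (nat_lit 0) (nat_lit 4218235771) (nat_lit 380) (nat_lit 16883885715) (nat_lit 456) (nat_lit 11174745337) (nat_lit 76) (nat_lit 5) (nat_lit 81) (nat_lit 5) (nat_lit 82) (nat_lit 5) (nat_lit 346) (nat_lit 307) (nat_lit 127)) (XT.nd (nat_lit 78) (nat_lit 0) (nat_lit 0) (XT.lf (nat_lit 0) (nat_lit 18063154743) (nat_lit 380) (nat_lit 6963631188) (nat_lit 456) (nat_lit 7882505666) (nat_lit 76) (nat_lit 5) (nat_lit 81) (nat_lit 5) (nat_lit 82) (nat_lit 5) (nat_lit 347) (nat_lit 307) (nat_lit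 126)) (XT.lf (nat_lit 0) (nat_lit 29097405131) (nat_lit 456) (nat_lit 1272279230) (nat_lit 76) (nat_lit 3190165012) (nat_lit 76) (nat_lit 5) (nat_lit 82) (nat_lit 5) (nat_lit 77) (nat_lit 5) (nat_lit 348) (nat_lit 307) (nat_lit 125)))) (XT.nd (nat_lit 78) (nat_lit 456) (nat_lit 0) (XT.lf (nat_lit 0) (nat_lit 12887711848) (nat_lit 304) (nat_lit 20592284963) (nat_lit 380) (nat_lit 744237967) (nat_lit 72) (nat_lit 5) (nat_lit 76) (nat_lit 5) (nat_lit 77) (nat_lit 5) (nat_lit 349) (nat_lit 307) (nat_lit 124)) (XT.nd (nat_lit 78) (nat_lit 380) (nat_lit 0) (XT.lf (nat_lit 0) (nat_lit 3035319309) (nat_lit 380) (nat_lit 7443020900) (nat_lit 76) (nat_lit 24429027446) (nat_lit 71) (nat_lit 5) (nat_lit 76) (nat_lit 5) (nat_lit 72) (nat_lit 5) (nat_lit 350) (nat_lit 307) (nat_lit 123)) (XT.lf (nat_lit 0) (nat_lit 6977795919) (nat_lit 456) (nat_lit 28616166532) (nat_lit 76) (nat_lit 14882233) (nat_lit 66)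 (nat_lit 5) (nat_lit 72) (nat_lit 5) (nat_lit 67) (nat_lit 5) (nat_lit 351) (nat_lit 307) (nat_lit 122)))))) (XT.nd (nat_lit 468) (nat_lit 608) (nat_lit 0) (XT.nd (nat_lit 234) (nat_lit 304) (nat_lit 0) (XT.nd (nat_lit 78) (nat_lit 304) (nat_lit 0) (XT.lf (nat_lit 0) (nat_lit 11215366046) (nat_lit 456) (nat_lit 14423172024) (nat_lit 76) (nat_lit 10687529163) (nat_lit 66) (nat_lit 5) (nat_lit 72) (nat_lit 5) (nat_lit 67) (nat_lit 5) (nat_lit 352) (nat_lit 307) (nat_lit 121)) (XT.nd (nat_lit 78) (nat_lit 0) (nat_lit 0) (XT.lf (nat_lit 0) (nat_lit 195947112) (nat_lit 304) (nat_lit 15383251380) (nat_lit 380) (nat_lit 21485639526) (nat_lit 62) (nat_lit 5) (nat_lit 66) (nat_lit 5) (nat_lit 67) (nat_lit 5) (nat_lit 353) (nat_lit 307) (nat_lit 120)) (XT.lf (nat_lit 0) (nat_lit 15545846072) (nat_lit 304) (nat_lit 4671044088) (nat_lit 380) (nat_lit 17604598890) (nat_lit 62) (nat_lit 5) (nat_lit 66) (nat_lit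 5) (nat_lit 67) (nat_lit 5) (nat_lit 354) (nat_lit 307) (nat_lit 119)))) (XT.nd (nat_lit 78) (nat_lit 304) (nat_lit 0) (XT.lf (nat_lit 0) (nat_lit 25052243252) (nat_lit 380) (nat_lit 7309189103) (nat_lit 76) (nat_lit 6237656631) (nat_lit 62) (nat_lit 5) (nat_lit 67) (nat_lit 5) (nat_lit 63) (nat_lit 5) (nat_lit 355) (nat_lit 307) (nat_lit 118)) (XT.nd (nat_lit 78) (nat_lit 0) (nat_lit 0) (XT.lf (nat_lit 0) (nat_lit 8217023108) (nat_lit 304) (nat_lit 21938315589) (nat_lit 380) (nat_lit 9241002912) (nat_lit 58) (nat_lit 5) (nat_lit 62) (nat_lit 5) (nat_lit 63) (nat_lit 5) (nat_lit 356) (nat_lit 307) (nat_lit 117)) (XT.lf (nat_lit 0) (nat_lit 24355554520) (nat_lit 304) (nat_lit 11127270370) (nat_lit 380) (nat_lit 4732552971) (nat_lit 58) (nat_lit 5) (nat_lit 62) (nat_lit 5) (nat_lit 63) (nat_lit 5) (nat_lit 357) (nat_lit 307) (nat_lit 116))))) (XT.nd (nat_lit 234) (nat_lit 304) (nat_lit 0) (XT.nd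 (nat_lit 78) (nat_lit 304) (nat_lit 0) (XT.lf (nat_lit 0) (nat_lit 40967768771) (nat_lit 380) (nat_lit 84094175) (nat_lit 76) (nat_lit 7198108) (nat_lit 58) (nat_lit 5) (nat_lit 63) (nat_lit 5) (nat_lit 59) (nat_lit 5) (nat_lit 358) (nat_lit 307) (nat_lit 115)) (XT.nd (nat_lit 78) (nat_lit 0) (nat_lit 0) (XT.lf (nat_lit 0) (nat_lit 4865489310) (nat_lit 304) (nat_lit 25596789595) (nat_lit 76) (nat_lit 11456394547) (nat_lit 54) (nat_lit 5) (nat_lit 58) (nat_lit 5) (nat_lit 55) (nat_lit 5) (nat_lit 359) (nat_lit 307) (nat_lit 114)) (XT.lf (nat_lit 0) (nat_lit 9967634744) (nat_lit 304) (nat_lit 9586393850) (nat_lit 76) (nat_lit 23250068085) (nat_lit 54) (nat_lit 5) (nat_lit 58) (nat_lit 5) (nat_lit 55) (nat_lit 5) (nat_lit 360) (nat_lit 307) (nat_lit 113)))) (XT.nd (nat_lit 78) (nat_lit 0) (nat_lit 0) (XT.lf (nat_lit 0) (nat_lit 7038556609) (nat_lit 304) (nat_lit 8249653333) (nat_lit 380) (nat_lit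 28425916004) (nat_lit 50) (nat_lit 5) (nat_lit 54) (nat_lit 5) (nat_lit 55) (nat_lit 5) (nat_lit 361) (nat_lit 307) (nat_lit 112)) (XT.nd (nat_lit 78) (nat_lit 0) (nat_lit 0) (XT.lf (nat_lit 0) (nat_lit 20896524297) (nat_lit 380) (nat_lit 20326505280) (nat_lit 76) (nat_lit 3424587036) (nat_lit 50) (nat_lit 5) (nat_lit 55) (nat_lit 5) (nat_lit 51) (nat_lit 5) (nat_lit 362) (nat_lit 307) (nat_lit 111)) (XT.lf (nat_lit 0) (nat_lit 26752569637) (nat_lit 380) (nat_lit 3571695943) (nat_lit 76) (nat_lit 15282466029) (nat_lit 50) (nat_lit 5) (nat_lit 55) (nat_lit 5) (nat_lit 51) (nat_lit 5) (nat_lit 363) (nat_lit 307) (nat_lit 110))))))))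
noncomputable def xc223 : XT := (XT.nd (nat_lit 36894) (nat_lit 0) (nat_lit 5092) (XT.nd (nat_lit 858) (nat_lit 456) (nat_lit 0) (XT.nd (nat_lit 390) (nat_lit 456) (nat_lit 0) (XT.nd (nat_lit 156) (nat_lit 304) (nat_lit 0) (XT.nd (nat_lit 78) (nat_lit 0) (nat_lit 0) (XT.lf (nat_lit 0) (nat_lit 13955114051) (nat_lit 228) (nat_lit 18961193223) (nat_lit 304) (nat_lit 13674356392) (nat_lit 47) (nat_lit 5) (nat_lit 50) (nat_lit 5) (nat_lit 51) (nat_lit 5) (nat_lit 364) (nat_lit 307) (nat_lit 109)) (XT.lf (nat_lit 0) (nat_lit 32078015451) (nat_lit 228) (nat_lit 7220908562) (nat_lit 304) (nat_lit 8304174487) (nat_lit 47) (nat_lit 5) (nat_lit 50) (nat_lit 5) (nat_lit 51) (nat_lit 5) (nat_lit 365) (nat_lit 307) (nat_lit 108))) (XT.nd (nat_lit 78) (nat_lit 76) (nat_lit 0) (XT.lf (nat_lit 0) (nat_lit 2089746348) (nat_lit 228) (nat_lit 43848142759) (nat_lit 304) (nat_lit 2706074891) (nat_lit 44) (nat_lit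 5) (nat_lit 47) (nat_lit 5) (nat_lit 48) (nat_lit 5) (nat_lit 366) (nat_lit 307) (nat_lit 107)) (XT.nd (nat_lit 78) (nat_lit 0) (nat_lit 0) (XT.lf (nat_lit 0) (nat_lit 3228037747) (nat_lit 304) (nat_lit 29265459908) (nat_lit 76) (nat_lit 17214845444) (nat_lit 43) (nat_lit 5) (nat_lit 47) (nat_lit 5) (nat_lit 44) (nat_lit 5) (nat_lit 367) (nat_lit 307) (nat_lit 106)) (XT.lf (nat_lit 0) (nat_lit 9283805503) (nat_lit 304) (nat_lit 11487663917) (nat_lit 76) (nat_lit 30032443132) (nat_lit 43) (nat_lit 5) (nat_lit 47) (nat_lit 5) (nat_lit 44) (nat_lit 5) (nat_lit 368) (nat_lit 307) (nat_lit 105))))) (XT.nd (nat_lit 234) (nat_lit 228) (nat_lit 0) (XT.nd (nat_lit 78) (nat_lit 0) (nat_lit 0) (XT.lf (nat_lit 0) (nat_lit 6956462403) (nat_lit 228) (nat_lit 8629732459) (nat_lit 304) (nat_lit 36344209067) (nat_lit 40) (nat_lit 5) (nat_lit 43) (nat_lit 5) (nat_lit 44) (nat_lit 5) (nat_lit 369) (nat_lit 307)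 (nat_lit 104)) (XT.nd (nat_lit 78) (nat_lit 0) (nat_lit 0) (XT.lf (nat_lit 0) (nat_lit 22230168879) (nat_lit 304) (nat_lit 26938995287) (nat_lit 76) (nat_lit 3916953695) (nat_lit 40) (nat_lit 5) (nat_lit 44) (nat_lit 5) (nat_lit 41) (nat_lit 5) (nat_lit 370) (nat_lit 307) (nat_lit 103)) (XT.lf (nat_lit 0) (nat_lit 29157060936) (nat_lit 304) (nat_lit 8451136948) (nat_lit 76) (nat_lit 16665800473) (nat_lit 40) (nat_lit 5) (nat_lit 44) (nat_lit 5) (nat_lit 41) (nat_lit 5) (nat_lit 371) (nat_lit 307) (nat_lit 102)))) (XT.nd (nat_lit 78) (nat_lit 0) (nat_lit 0) (XT.lf (nat_lit 0) (nat_lit 10799478929) (nat_lit 228) (nat_lit 25594301659) (nat_lit 304) (nat_lit 19100677073) (nat_lit 37) (nat_lit 5) (nat_lit 40) (nat_lit 5) (nat_lit 41) (nat_lit 5) (nat_lit 372) (nat_lit 307) (nat_lit 101)) (XT.nd (nat_lit 78) (nat_lit 0) (nat_lit 0) (XT.lf (nat_lit 0) (nat_lit 30798263999) (nat_lit 228) (nat_lit 13132914635)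 (nat_lit 304) (nat_lit 12817847737) (nat_lit 37) (nat_lit 5) (nat_lit 40) (nat_lit 5) (nat_lit 41) (nat_lit 5) (nat_lit 373) (nat_lit 307) (nat_lit 100)) (XT.lf (nat_lit 0) (nat_lit 51394498731) (nat_lit 228) (nat_lit 298488136) (nat_lit 304) (nat_lit 6348299474) (nat_lit 37) (nat_lit 5) (nat_lit 40) (nat_lit 5) (nat_lit 41) (nat_lit 5) (nat_lit 374) (nat_lit 307) (nat_lit 99)))))) (XT.nd (nat_lit 35568) (nat_lit 0) (nat_lit 8360) (XT.nd (nat_lit 234) (nat_lit 228) (nat_lit 0) (XT.nd (nat_lit 78) (nat_lit 0) (nat_lit 0) (XT.lf (nat_lit 0) (nat_lit 562725493) (nat_lit 228) (nat_lit 45999778591) (nat_lit 76) (nat_lit 12802115463) (nat_lit 34) (nat_lit 5) (nat_lit 37) (nat_lit 5) (nat_lit 35) (nat_lit 5) (nat_lit 375) (nat_lit 307) (nat_lit 98)) (XT.nd (nat_lit 78) (nat_lit 0) (nat_lit 0) (XT.lf (nat_lit 0) (nat_lit 7622562743) (nat_lit 228) (nat_lit 26681539623) (nat_lit 76) (nat_lit 26419595075)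 (nat_lit 34) (nat_lit 5) (nat_lit 37) (nat_lit 5) (nat_lit 35) (nat_lit 5) (nat_lit 376) (nat_lit 307) (nat_lit 97)) (XT.lf (nat_lit 0) (nat_lit 14892580223) (nat_lit 228) (nat_lit 6786177893) (nat_lit 76) (nat_lit 40444840528) (nat_lit 34) (nat_lit 5) (nat_lit 37) (nat_lit 5) (nat_lit 35) (nat_lit 5) (nat_lit 377) (nat_lit 307) (nat_lit 96)))) (XT.nd (nat_lit 35178) (nat_lit 0) (nat_lit 8284) (XT.lf (nat_lit 0) (nat_lit 13976421211) (nat_lit 228) (nat_lit 8537059074) (nat_lit 304) (nat_lit 41048035591) (nat_lit 31) (nat_lit 5) (nat_lit 34) (nat_lit 5) (nat_lit 35) (nat_lit 5) (nat_lit 378) (nat_lit 307) (nat_lit 95)) (XT.nd (nat_lit 78) (nat_lit 0) (nat_lit 0) (XT.lf (nat_lit 0) (nat_lit 1672050090) (nat_lit 1140) (nat_lit 3456481869) (nat_lit 1140) (nat_lit 3456481869) (nat_lit 140) (nat_lit 3) (nat_lit 155) (nat_lit 3) (nat_lit 155) (nat_lit 5) (nat_lit 308) (nat_lit 308) (nat_lit 164)) (XT.lf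 (nat_lit 76) (nat_lit 96352178) (nat_lit 0) (nat_lit 3501124268) (nat_lit 1140) (nat_lit 13823461016) (nat_lit 141) (nat_lit 5) (nat_lit 140) (nat_lit 3) (nat_lit 155) (nat_lit 5) (nat_lit 309) (nat_lit 308) (nat_lit 163))))) (XT.nd (nat_lit 234) (nat_lit 0) (nat_lit 76) (XT.nd (nat_lit 78) (nat_lit 0) (nat_lit 0) (XT.lf (nat_lit 0) (nat_lit 3954289672) (nat_lit 1064) (nat_lit 10258003630) (nat_lit 1140) (nat_lit 3464227428) (nat_lit 141) (nat_lit 5) (nat_lit 155) (nat_lit 5) (nat_lit 156) (nat_lit 5) (nat_lit 310) (nat_lit 308) (nat_lit 162)) (XT.nd (nat_lit 78) (nat_lit 0) (nat_lit 0) (XT.lf (nat_lit 0) (nat_lit 4348803528) (nat_lit 1064) (nat_lit 3018412553) (nat_lit 1140) (nat_lit 10571766146) (nat_lit 141) (nat_lit 5) (nat_lit 155) (nat_lit 5) (nat_lit 156) (nat_lit 5) (nat_lit 311) (nat_lit 308) (nat_lit 161)) (XT.lf (nat_lit 76) (nat_lit 4522417400) (nat_lit 0) (nat_lit 268762629) (nat_lit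 1140) (nat_lit 13417076741) (nat_lit 142) (nat_lit 5) (nat_lit 141) (nat_lit 5) (nat_lit 156) (nat_lit 5) (nat_lit 312) (nat_lit 308) (nat_lit 160)))) (XT.nd (nat_lit 78) (nat_lit 0) (nat_lit 0) (XT.lf (nat_lit 0) (nat_lit 5338069656) (nat_lit 1064) (nat_lit 6205772131) (nat_lit 1140) (nat_lit 6939049943) (nat_lit 142) (nat_lit 5) (nat_lit 156) (nat_lit 5) (nat_lit 157) (nat_lit 5) (nat_lit 313) (nat_lit 308) (nat_lit 159)) (XT.nd (nat_lit 78) (nat_lit 0) (nat_lit 76) (XT.lf (nat_lit 76) (nat_lit 1521429784) (nat_lit 0) (nat_lit 4390194729) (nat_lit 1140) (nat_lit 12853852337) (nat_lit 143) (nat_lit 5) (nat_lit 142) (nat_lit 5) (nat_lit 157) (nat_lit 5) (nat_lit 314) (nat_lit 308) (nat_lit 158)) (XT.lf (nat_lit 0) (nat_lit 6587461066) (nat_lit 1064) (nat_lit 9480749063) (nat_lit 1140) (nat_lit 2985795465) (nat_lit 143) (nat_lit 5) (nat_lit 157) (nat_lit 5) (nat_lit 158) (nat_lit 5) (nat_lit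 315) (nat_lit 308) (nat_lit 157))))))) (XT.nd (nat_lit 858) (nat_lit 2660) (nat_lit 0) (XT.nd (nat_lit 390) (nat_lit 760) (nat_lit 0) (XT.nd (nat_lit 156) (nat_lit 0) (nat_lit 76) (XT.nd (nat_lit 78) (nat_lit 0) (nat_lit 0) (XT.lf (nat_lit 0) (nat_lit 7320400679) (nat_lit 1064) (nat_lit 1532390378) (nat_lit 1140) (nat_lit 10497312088) (nat_lit 143) (nat_lit 5) (nat_lit 157) (nat_lit 5) (nat_lit 158) (nat_lit 5) (nat_lit 316) (nat_lit 308) (nat_lit 156)) (XT.lf (nat_lit 76) (nat_lit 6782526920) (nat_lit 0) (nat_lit 1351553427) (nat_lit 1140) (nat_lit 11519257990) (nat_lit 144) (nat_lit 5) (nat_lit 143) (nat_lit 5) (nat_lit 158) (nat_lit 5) (nat_lit 317) (nat_lit 308) (nat_lit 155))) (XT.nd (nat_lit 78) (nat_lit 0) (nat_lit 0) (XT.lf (nat_lit 0) (nat_lit 9042797046) (nat_lit 1064) (nat_lit 4652760997) (nat_lit 1140) (nat_lit 6268010505) (nat_lit 144) (nat_lit 5) (nat_lit 158) (nat_lit 5) (nat_lit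 159) (nat_lit 5) (nat_lit 318) (nat_lit 308) (nat_lit 154)) (XT.nd (nat_lit 78) (nat_lit 0) (nat_lit 76) (XT.lf (nat_lit 76) (nat_lit 3869661270) (nat_lit 0) (nat_lit 6153597684) (nat_lit 1140) (nat_lit 10258528477) (nat_lit 145) (nat_lit 5) (nat_lit 144) (nat_lit 5) (nat_lit 159) (nat_lit 5) (nat_lit 319) (nat_lit 308) (nat_lit 153)) (XT.lf (nat_lit 0) (nat_lit 11090161823) (nat_lit 1064) (nat_lit 7885463801) (nat_lit 1140) (nat_lit 1632232247) (nat_lit 145) (nat_lit 5) (nat_lit 159) (nat_lit 5) (nat_lit 160) (nat_lit 5) (nat_lit 320) (nat_lit 308) (nat_lit 152))))) (XT.nd (nat_lit 234) (nat_lit 912) (nat_lit 0) (XT.nd (nat_lit 78) (nat_lit 0) (nat_lit 0) (XT.lf (nat_lit 76) (nat_lit 848287225) (nat_lit 0) (nat_lit 11404096024) (nat_lit 1140) (nat_lit 8689443172) (nat_lit 146) (nat_lit 5) (nat_lit 145) (nat_lit 5) (nat_lit 160) (nat_lit 5) (nat_lit 321) (nat_lit 308) (nat_lit 151)) (XT.nd (nat_lit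 78) (nat_lit 0) (nat_lit 76) (XT.lf (nat_lit 76) (nat_lit 10001399953) (nat_lit 0) (nat_lit 3522056353) (nat_lit 1140) (nat_lit 7760153068) (nat_lit 146) (nat_lit 5) (nat_lit 145) (nat_lit 5) (nat_lit 160) (nat_lit 5) (nat_lit 322) (nat_lit 308) (nat_lit 150)) (XT.lf (nat_lit 0) (nat_lit 14871379584) (nat_lit 1064) (nat_lit 2255084988) (nat_lit 1140) (nat_lit 4508034165) (nat_lit 146) (nat_lit 5) (nat_lit 160) (nat_lit 5) (nat_lit 161) (nat_lit 5) (nat_lit 323) (nat_lit 308) (nat_lit 149)))) (XT.nd (nat_lit 78) (nat_lit 988) (nat_lit 0) (XT.lf (nat_lit 76) (nat_lit 7143135264) (nat_lit 0) (nat_lit 9214834717) (nat_lit 1140) (nat_lit 5635011956) (nat_lit 147) (nat_lit 5) (nat_lit 146) (nat_lit 5) (nat_lit 161) (nat_lit 5) (nat_lit 324) (nat_lit 308) (nat_lit 148)) (XT.nd (nat_lit 78) (nat_lit 988) (nat_lit 0) (XT.lf (nat_lit 76) (nat_lit 16865336304) (nat_lit 0) (nat_lit 1041401373) (nat_lit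 1140) (nat_lit 4454968202) (nat_lit 147) (nat_lit 5) (nat_lit 146) (nat_lit 5) (nat_lit 161) (nat_lit 5) (nat_lit 325) (nat_lit 308) (nat_lit 147)) (XT.lf (nat_lit 0) (nat_lit 4143405580) (nat_lit 1064) (nat_lit 15464274477) (nat_lit 1140) (nat_lit 3130653366) (nat_lit 133) (nat_lit 5) (nat_lit 147) (nat_lit 5) (nat_lit 148) (nat_lit 5) (nat_lit 326) (nat_lit 308) (nat_lit 146)))))) (XT.nd (nat_lit 468) (nat_lit 1444) (nat_lit 0) (XT.nd (nat_lit 234) (nat_lit 532) (nat_lit 0) (XT.nd (nat_lit 78) (nat_lit 684) (nat_lit 0) (XT.lf (nat_lit 0) (nat_lit 14170325152) (nat_lit 1064) (nat_lit 7250112294) (nat_lit 1140) (nat_lit 1704011593) (nat_lit 133) (nat_lit 5) (nat_lit 147) (nat_lit 5) (nat_lit 148) (nat_lit 5) (nat_lit 327) (nat_lit 308) (nat_lit 145)) (XT.nd (nat_lit 78) (nat_lit 76) (nat_lit 0) (XT.lf (nat_lit 0) (nat_lit 979131562) (nat_lit 608) (nat_lit 22324718406) (nat_lit 684) (nat_lit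 217822458) (nat_lit 125) (nat_lit 5) (nat_lit 133) (nat_lit 5) (nat_lit 134) (nat_lit 5) (nat_lit 328) (nat_lit 308) (nat_lit 144)) (XT.lf (nat_lit 0) (nat_lit 1445694641) (nat_lit 684) (nat_lit 12623771512) (nat_lit 76) (nat_lit 9856228613) (nat_lit 124) (nat_lit 5) (nat_lit 133) (nat_lit 5) (nat_lit 125) (nat_lit 5) (nat_lit 329) (nat_lit 308) (nat_lit 143)))) (XT.nd (nat_lit 78) (nat_lit 532) (nat_lit 0) (XT.lf (nat_lit 0) (nat_lit 3150142247) (nat_lit 684) (nat_lit 2413777849) (nat_lit 76) (nat_lit 18778002305) (nat_lit 124) (nat_lit 5) (nat_lit 133) (nat_lit 5) (nat_lit 125) (nat_lit 5) (nat_lit 330) (nat_lit 308) (nat_lit 142)) (XT.nd (nat_lit 78) (nat_lit 0) (nat_lit 0) (XT.lf (nat_lit 0) (nat_lit 5012176304) (nat_lit 608) (nat_lit 16540288986) (nat_lit 76) (nat_lit 3214989070) (nat_lit 117) (nat_lit 5) (nat_lit 125) (nat_lit 5) (nat_lit 118) (nat_lit 5) (nat_lit 331) (nat_lit 308) (nat_lit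 141)) (XT.lf (nat_lit 0) (nat_lit 7005407077) (nat_lit 608) (nat_lit 6027699504) (nat_lit 76) (nat_lit 12170396384) (nat_lit 117) (nat_lit 5) (nat_lit 125) (nat_lit 5) (nat_lit 118) (nat_lit 5) (nat_lit 332) (nat_lit 308) (nat_lit 140))))) (XT.nd (nat_lit 234) (nat_lit 456) (nat_lit 0) (XT.nd (nat_lit 78) (nat_lit 456) (nat_lit 0) (XT.lf (nat_lit 0) (nat_lit 4891677453) (nat_lit 532) (nat_lit 4209537973) (nat_lit 608) (nat_lit 16550144631) (nat_lit 110) (nat_lit 5) (nat_lit 117) (nat_lit 5) (nat_lit 118) (nat_lit 5) (nat_lit 333) (nat_lit 308) (nat_lit 139)) (XT.nd (nat_lit 78) (nat_lit 456) (nat_lit 0) (XT.lf (nat_lit 0) (nat_lit 11364111382) (nat_lit 608) (nat_lit 9900270319) (nat_lit 76) (nat_lit 4845154904) (nat_lit 110) (nat_lit 5) (nat_lit 118) (nat_lit 5) (nat_lit 111) (nat_lit 5) (nat_lit 334) (nat_lit 308) (nat_lit 138)) (XT.lf (nat_lit 0) (nat_lit 1263888285) (nat_lit 456) (nat_lit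 12480800144) (nat_lit 532) (nat_lit 12835286040) (nat_lit 104) (nat_lit 5) (nat_lit 110) (nat_lit 5) (nat_lit 111) (nat_lit 5) (nat_lit 335) (nat_lit 308) (nat_lit 137)))) (XT.nd (nat_lit 78) (nat_lit 456) (nat_lit 0) (XT.lf (nat_lit 0) (nat_lit 12961936431) (nat_lit 456) (nat_lit 3330765245) (nat_lit 532) (nat_lit 10768952789) (nat_lit 104) (nat_lit 5) (nat_lit 110) (nat_lit 5) (nat_lit 111) (nat_lit 5) (nat_lit 336) (nat_lit 308) (nat_lit 136)) (XT.nd (nat_lit 78) (nat_lit 456) (nat_lit 0) (XT.lf (nat_lit 0) (nat_lit 18971892871) (nat_lit 532) (nat_lit 2609425200) (nat_lit 76) (nat_lit 5974833944) (nat_lit 104) (nat_lit 5) (nat_lit 111) (nat_lit 5) (nat_lit 105) (nat_lit 5) (nat_lit 337) (nat_lit 308) (nat_lit 135)) (XT.lf (nat_lit 0) (nat_lit 9371599080) (nat_lit 456) (nat_lit 12479196466) (nat_lit 532) (nat_lit 6211117884) (nat_lit 98) (nat_lit 5) (nat_lit 104) (nat_lit 5) (nat_lit 105)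 (nat_lit 5) (nat_lit 338) (nat_lit 308) (nat_lit 134))))))))
noncomputable def xc224 : XT := (XT.nd (nat_lit 1716) (nat_lit 1520) (nat_lit 0) (XT.nd (nat_lit 858) (nat_lit 1672) (nat_lit 0) (XT.nd (nat_lit 390) (nat_lit 760) (nat_lit 0) (XT.nd (nat_lit 156) (nat_lit 532) (nat_lit 0) (XT.nd (nat_lit 78) (nat_lit 380) (nat_lit 0) (XT.lf (nat_lit 0) (nat_lit 21761709603) (nat_lit 456) (nat_lit 3077049815) (nat_lit 532) (nat_lit 3743416198) (nat_lit 98) (nat_lit 5) (nat_lit 104) (nat_lit 5) (nat_lit 105) (nat_lit 5) (nat_lit 339) (nat_lit 308) (nat_lit 133)) (XT.lf (nat_lit 0) (nat_lit 5444368182) (nat_lit 380) (nat_lit 22584289545) (nat_lit 456) (nat_lit 1086027569) (nat_lit 93) (nat_lit 5) (nat_lit 98) (nat_lit 5) (nat_lit 99) (nat_lit 5) (nat_lit 340) (nat_lit 308) (nat_lit 132))) (XT.nd (nat_lit 78) (nat_lit 456) (nat_lit 0) (XT.lf (nat_lit 0) (nat_lit 1715358411) (nat_lit 456) (nat_lit 11495040098)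 (nat_lit 76) (nat_lit 16449408800) (nat_lit 92) (nat_lit 5) (nat_lit 98) (nat_lit 5) (nat_lit 93) (nat_lit 5) (nat_lit 341) (nat_lit 308) (nat_lit 131)) (XT.nd (nat_lit 78) (nat_lit 0) (nat_lit 0) (XT.lf (nat_lit 0) (nat_lit 1051496566) (nat_lit 456) (nat_lit 3534144854) (nat_lit 532) (nat_lit 25635126248) (nat_lit 86) (nat_lit 5) (nat_lit 92) (nat_lit 5) (nat_lit 93) (nat_lit 5) (nat_lit 342) (nat_lit 308) (nat_lit 130)) (XT.lf (nat_lit 0) (nat_lit 7717727965) (nat_lit 532) (nat_lit 16651821859) (nat_lit 76) (nat_lit 6423743709) (nat_lit 86) (nat_lit 5) (nat_lit 93) (nat_lit 5) (nat_lit 87) (nat_lit 5) (nat_lit 343) (nat_lit 308) (nat_lit 129))))) (XT.nd (nat_lit 234) (nat_lit 380) (nat_lit 0) (XT.nd (nat_lit 78) (nat_lit 380) (nat_lit 0) (XT.lf (nat_lit 0) (nat_lit 10975502881) (nat_lit 532) (nat_lit 3797561367) (nat_lit 76) (nat_lit 16608986480) (nat_lit 86) (nat_lit 5) (nat_lit 93) (nat_lit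 5) (nat_lit 87) (nat_lit 5) (nat_lit 344) (nat_lit 308) (nat_lit 128)) (XT.nd (nat_lit 78) (nat_lit 0) (nat_lit 0) (XT.lf (nat_lit 0) (nat_lit 9626563540) (nat_lit 380) (nat_lit 4793813282) (nat_lit 456) (nat_lit 17565419958) (nat_lit 81) (nat_lit 5) (nat_lit 86) (nat_lit 5) (nat_lit 87) (nat_lit 5) (nat_lit 345) (nat_lit 308) (nat_lit 127)) (XT.lf (nat_lit 0) (nat_lit 18056930853) (nat_lit 456) (nat_lit 9132022112) (nat_lit 76) (nat_lit 5416059140) (nat_lit 81) (nat_lit 5) (nat_lit 87) (nat_lit 5) (nat_lit 82) (nat_lit 5) (nat_lit 346) (nat_lit 308) (nat_lit 126)))) (XT.nd (nat_lit 78) (nat_lit 0) (nat_lit 0) (XT.lf (nat_lit 0) (nat_lit 4529360221) (nat_lit 380) (nat_lit 17361197415) (nat_lit 456) (nat_lit 11349613675) (nat_lit 76) (nat_lit 5) (nat_lit 81) (nat_lit 5) (nat_lit 82) (nat_lit 5) (nat_lit 347) (nat_lit 308) (nat_lit 125)) (XT.nd (nat_lit 78) (nat_lit 0) (nat_lit 0) (XT.lf (nat_lit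 0) (nat_lit 18784250722) (nat_lit 380) (nat_lit 7144185879) (nat_lit 456) (nat_lit 7963277903) (nat_lit 76) (nat_lit 5) (nat_lit 81) (nat_lit 5) (nat_lit 82) (nat_lit 5) (nat_lit 348) (nat_lit 308) (nat_lit 124)) (XT.lf (nat_lit 0) (nat_lit 30117045393) (nat_lit 456) (nat_lit 1132015937) (nat_lit 76) (nat_lit 3312861177) (nat_lit 76) (nat_lit 5) (nat_lit 82) (nat_lit 5) (nat_lit 77) (nat_lit 5) (nat_lit 349) (nat_lit 308) (nat_lit 123)))))) (XT.nd (nat_lit 390) (nat_lit 608) (nat_lit 0) (XT.nd (nat_lit 156) (nat_lit 684) (nat_lit 0) (XT.nd (nat_lit 78) (nat_lit 76) (nat_lit 0) (XT.lf (nat_lit 0) (nat_lit 13451025543) (nat_lit 304) (nat_lit 21177514315) (nat_lit 380) (nat_lit 617786208) (nat_lit 72) (nat_lit 5) (nat_lit 76) (nat_lit 5) (nat_lit 77) (nat_lit 5) (nat_lit 350) (nat_lit 308) (nat_lit 122)) (XT.lf (nat_lit 0) (nat_lit 3268005768) (nat_lit 380) (nat_lit 7491663041) (nat_lit 76) (nat_lit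 25190377488) (nat_lit 71) (nat_lit 5) (nat_lit 76) (nat_lit 5) (nat_lit 72) (nat_lit 5) (nat_lit 351) (nat_lit 308) (nat_lit 121))) (XT.nd (nat_lit 78) (nat_lit 304) (nat_lit 0) (XT.lf (nat_lit 0) (nat_lit 7326618628) (nat_lit 456) (nat_lit 29297579963) (nat_lit 76) (nat_lit 48441738) (nat_lit 66) (nat_lit 5) (nat_lit 72) (nat_lit 5) (nat_lit 67) (nat_lit 5) (nat_lit 352) (nat_lit 308) (nat_lit 120)) (XT.nd (nat_lit 78) (nat_lit 304) (nat_lit 0) (XT.lf (nat_lit 0) (nat_lit 11687253077) (nat_lit 456) (nat_lit 14683953044) (nat_lit 76) (nat_lit 11040303618) (nat_lit 66) (nat_lit 5) (nat_lit 72) (nat_lit 5) (nat_lit 67) (nat_lit 5) (nat_lit 353) (nat_lit 308) (nat_lit 119)) (XT.lf (nat_lit 0) (nat_lit 372054233) (nat_lit 304) (nat_lit 15807638157) (nat_lit 380) (nat_lit 21992828560) (nat_lit 62) (nat_lit 5) (nat_lit 66) (nat_lit 5) (nat_lit 67) (nat_lit 5) (nat_lit 354) (nat_lit 308) (nat_lit 118)))))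 (XT.nd (nat_lit 234) (nat_lit 304) (nat_lit 0) (XT.nd (nat_lit 78) (nat_lit 304) (nat_lit 0) (XT.lf (nat_lit 0) (nat_lit 16177492044) (nat_lit 304) (nat_lit 4775145543) (nat_lit 380) (nat_lit 17999358069) (nat_lit 62) (nat_lit 5) (nat_lit 66) (nat_lit 5) (nat_lit 67) (nat_lit 5) (nat_lit 355) (nat_lit 308) (nat_lit 117)) (XT.nd (nat_lit 78) (nat_lit 304) (nat_lit 0) (XT.lf (nat_lit 0) (nat_lit 25929623233) (nat_lit 380) (nat_lit 7364326608) (nat_lit 76) (nat_lit 6459084189) (nat_lit 62) (nat_lit 5) (nat_lit 67) (nat_lit 5) (nat_lit 63) (nat_lit 5) (nat_lit 356) (nat_lit 308) (nat_lit 116)) (XT.lf (nat_lit 0) (nat_lit 8626062773) (nat_lit 304) (nat_lit 22557646649) (nat_lit 380) (nat_lit 9390565248) (nat_lit 58) (nat_lit 5) (nat_lit 62) (nat_lit 5) (nat_lit 63) (nat_lit 5) (nat_lit 357) (nat_lit 308) (nat_lit 115)))) (XT.nd (nat_lit 78) (nat_lit 304) (nat_lit 0) (XT.lf (nat_lit 0) (nat_lit 25244016274)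 (nat_lit 304) (nat_lit 11423400707) (nat_lit 380) (nat_lit 4750580288) (nat_lit 58) (nat_lit 5) (nat_lit 62) (nat_lit 5) (nat_lit 63) (nat_lit 5) (nat_lit 358) (nat_lit 308) (nat_lit 114)) (XT.nd (nat_lit 78) (nat_lit 0) (nat_lit 0) (XT.lf (nat_lit 0) (nat_lit 26842568) (nat_lit 304) (nat_lit 42215982099) (nat_lit 76) (nat_lit 44239168) (nat_lit 54) (nat_lit 5) (nat_lit 58) (nat_lit 5) (nat_lit 55) (nat_lit 5) (nat_lit 359) (nat_lit 308) (nat_lit 113)) (XT.lf (nat_lit 0) (nat_lit 5127858194) (nat_lit 304) (nat_lit 26207115786) (nat_lit 76) (nat_lit 11837549097) (nat_lit 54) (nat_lit 5) (nat_lit 58) (nat_lit 5) (nat_lit 55) (nat_lit 5) (nat_lit 360) (nat_lit 308) (nat_lit 112))))))) (XT.nd (nat_lit 858) (nat_lit 456) (nat_lit 0) (XT.nd (nat_lit 390) (nat_lit 532) (nat_lit 0) (XT.nd (nat_lit 156) (nat_lit 228) (nat_lit 0) (XT.nd (nat_lit 78) (nat_lit 304) (nat_lit 0) (XT.lf (nat_lit 0) (nat_lit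 10379677578) (nat_lit 304) (nat_lit 9720997805) (nat_lit 76) (nat_lit 23983941694) (nat_lit 54) (nat_lit 5) (nat_lit 58) (nat_lit 5) (nat_lit 55) (nat_lit 5) (nat_lit 361) (nat_lit 308) (nat_lit 111)) (XT.lf (nat_lit 0) (nat_lit 7401201287) (nat_lit 304) (nat_lit 8456833275) (nat_lit 380) (nat_lit 29163973900) (nat_lit 50) (nat_lit 5) (nat_lit 54) (nat_lit 5) (nat_lit 55) (nat_lit 5) (nat_lit 362) (nat_lit 308) (nat_lit 110))) (XT.nd (nat_lit 78) (nat_lit 228) (nat_lit 0) (XT.lf (nat_lit 0) (nat_lit 21631736340) (nat_lit 380) (nat_lit 20786162807) (nat_lit 76) (nat_lit 3565696560) (nat_lit 50) (nat_lit 5) (nat_lit 55) (nat_lit 5) (nat_lit 51) (nat_lit 5) (nat_lit 363) (nat_lit 308) (nat_lit 109)) (XT.nd (nat_lit 78) (nat_lit 228) (nat_lit 0) (XT.lf (nat_lit 0) (nat_lit 27660308196) (nat_lit 380) (nat_lit 3533082130) (nat_lit 76) (nat_lit 15778194295) (nat_lit 50) (nat_lit 5) (nat_lit 55) (nat_lit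 5) (nat_lit 51) (nat_lit 5) (nat_lit 364) (nat_lit 308) (nat_lit 108)) (XT.lf (nat_lit 0) (nat_lit 14518103098) (nat_lit 228) (nat_lit 19489179351) (nat_lit 304) (nat_lit 13977808110) (nat_lit 47) (nat_lit 5) (nat_lit 50) (nat_lit 5) (nat_lit 51) (nat_lit 5) (nat_lit 365) (nat_lit 308) (nat_lit 107))))) (XT.nd (nat_lit 234) (nat_lit 228) (nat_lit 0) (XT.nd (nat_lit 78) (nat_lit 304) (nat_lit 0) (XT.lf (nat_lit 0) (nat_lit 33180487590) (nat_lit 228) (nat_lit 7397875947) (nat_lit 304) (nat_lit 8449630815) (nat_lit 47) (nat_lit 5) (nat_lit 50) (nat_lit 5) (nat_lit 51) (nat_lit 5) (nat_lit 366) (nat_lit 308) (nat_lit 106)) (XT.nd (nat_lit 78) (nat_lit 76) (nat_lit 0) (XT.lf (nat_lit 0) (nat_lit 2293984836) (nat_lit 228) (nat_lit 45121317142) (nat_lit 304) (nat_lit 2684825032) (nat_lit 44) (nat_lit 5) (nat_lit 47) (nat_lit 5) (nat_lit 48) (nat_lit 5) (nat_lit 367) (nat_lit 308) (nat_lit 105)) (XT.lf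 (nat_lit 0) (nat_lit 3422386925) (nat_lit 304) (nat_lit 30003892282) (nat_lit 76) (nat_lit 17770221518) (nat_lit 43) (nat_lit 5) (nat_lit 47) (nat_lit 5) (nat_lit 44) (nat_lit 5) (nat_lit 368) (nat_lit 308) (nat_lit 104)))) (XT.nd (nat_lit 78) (nat_lit 228) (nat_lit 0) (XT.lf (nat_lit 0) (nat_lit 9656987673) (nat_lit 304) (nat_lit 11696826433) (nat_lit 76) (nat_lit 30971213232) (nat_lit 43) (nat_lit 5) (nat_lit 47) (nat_lit 5) (nat_lit 44) (nat_lit 5) (nat_lit 369) (nat_lit 308) (nat_lit 103)) (XT.nd (nat_lit 78) (nat_lit 0) (nat_lit 0) (XT.lf (nat_lit 0) (nat_lit 7299295564) (nat_lit 228) (nat_lit 8847685257) (nat_lit 304) (nat_lit 37338381408) (nat_lit 40) (nat_lit 5) (nat_lit 43) (nat_lit 5) (nat_lit 44) (nat_lit 5) (nat_lit 370) (nat_lit 308) (nat_lit 102)) (XT.lf (nat_lit 0) (nat_lit 22987941563) (nat_lit 304) (nat_lit 27614447112) (nat_lit 76) (nat_lit 4073433476) (nat_lit 40) (nat_lit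 5) (nat_lit 44) (nat_lit 5) (nat_lit 41) (nat_lit 5) (nat_lit 371) (nat_lit 308) (nat_lit 101)))))) (XT.nd (nat_lit 35724) (nat_lit 0) (nat_lit 8056) (XT.nd (nat_lit 234) (nat_lit 228) (nat_lit 0) (XT.nd (nat_lit 78) (nat_lit 228) (nat_lit 0) (XT.lf (nat_lit 0) (nat_lit 30119993752) (nat_lit 304) (nat_lit 8575818597) (nat_lit 76) (nat_lit 17203610574) (nat_lit 40) (nat_lit 5) (nat_lit 44) (nat_lit 5) (nat_lit 41) (nat_lit 5) (nat_lit 372) (nat_lit 308) (nat_lit 100)) (XT.nd (nat_lit 78) (nat_lit 0) (nat_lit 0) (XT.lf (nat_lit 0) (nat_lit 11251052497) (nat_lit 228) (nat_lit 26321419418) (nat_lit 304) (nat_lit 19584068715) (nat_lit 37) (nat_lit 5) (nat_lit 40) (nat_lit 5) (nat_lit 41) (nat_lit 5) (nat_lit 373) (nat_lit 308) (nat_lit 99)) (XT.lf (nat_lit 0) (nat_lit 31846084929) (nat_lit 228) (nat_lit 13487376550) (nat_lit 304) (nat_lit 13115365043) (nat_lit 37) (nat_lit 5) (nat_lit 40) (nat_lit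 5) (nat_lit 41) (nat_lit 5) (nat_lit 374) (nat_lit 308) (nat_lit 98)))) (XT.nd (nat_lit 78) (nat_lit 228) (nat_lit 0) (XT.lf (nat_lit 0) (nat_lit 53056598751) (nat_lit 228) (nat_lit 269068484) (nat_lit 304) (nat_lit 6454264841) (nat_lit 37) (nat_lit 5) (nat_lit 40) (nat_lit 5) (nat_lit 41) (nat_lit 5) (nat_lit 375) (nat_lit 308) (nat_lit 97)) (XT.nd (nat_lit 78) (nat_lit 0) (nat_lit 0) (XT.lf (nat_lit 0) (nat_lit 661568743) (nat_lit 228) (nat_lit 47256724274) (nat_lit 76) (nat_lit 13224677955) (nat_lit 34) (nat_lit 5) (nat_lit 37) (nat_lit 5) (nat_lit 35) (nat_lit 5) (nat_lit 376) (nat_lit 308) (nat_lit 96)) (XT.lf (nat_lit 0) (nat_lit 7930813883) (nat_lit 228) (nat_lit 27362522049) (nat_lit 76) (nat_lit 27249560624) (nat_lit 34) (nat_lit 5) (nat_lit 37) (nat_lit 5) (nat_lit 35) (nat_lit 5) (nat_lit 377) (nat_lit 308) (nat_lit 95))))) (XT.nd (nat_lit 234) (nat_lit 0) (nat_lit 76) (XT.nd (nat_lit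 78) (nat_lit 0) (nat_lit 0) (XT.lf (nat_lit 0) (nat_lit 1922555639) (nat_lit 1140) (nat_lit 3456729674) (nat_lit 1140) (nat_lit 3456729674) (nat_lit 140) (nat_lit 3) (nat_lit 155) (nat_lit 3) (nat_lit 155) (nat_lit 5) (nat_lit 309) (nat_lit 309) (nat_lit 162)) (XT.nd (nat_lit 78) (nat_lit 0) (nat_lit 76) (XT.lf (nat_lit 76) (nat_lit 304107681) (nat_lit 0) (nat_lit 3792279911) (nat_lit 1140) (nat_lit 13834401913) (nat_lit 141) (nat_lit 5) (nat_lit 140) (nat_lit 3) (nat_lit 155) (nat_lit 5) (nat_lit 310) (nat_lit 309) (nat_lit 161)) (XT.lf (nat_lit 0) (nat_lit 4450780240) (nat_lit 1064) (nat_lit 10352704771) (nat_lit 1140) (nat_lit 3390979488) (nat_lit 141) (nat_lit 5) (nat_lit 155) (nat_lit 5) (nat_lit 156) (nat_lit 5) (nat_lit 311) (nat_lit 309) (nat_lit 160)))) (XT.nd (nat_lit 78) (nat_lit 0) (nat_lit 0) (XT.lf (nat_lit 0) (nat_lit 4846123826) (nat_lit 1064) (nat_lit 2902130981) (nat_lit 1140)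 (nat_lit 10716904797) (nat_lit 141) (nat_lit 5) (nat_lit 155) (nat_lit 5) (nat_lit 156) (nat_lit 5) (nat_lit 312) (nat_lit 309) (nat_lit 159)) (XT.nd (nat_lit 78) (nat_lit 0) (nat_lit 76) (XT.lf (nat_lit 76) (nat_lit 4862896087) (nat_lit 0) (nat_lit 430159125) (nat_lit 1140) (nat_lit 13449747393) (nat_lit 142) (nat_lit 5) (nat_lit 141) (nat_lit 5) (nat_lit 156) (nat_lit 5) (nat_lit 313) (nat_lit 309) (nat_lit 158)) (XT.lf (nat_lit 0) (nat_lit 5844489266) (nat_lit 1064) (nat_lit 6180312315) (nat_lit 1140) (nat_lit 7001258794) (nat_lit 142) (nat_lit 5) (nat_lit 156) (nat_lit 5) (nat_lit 157) (nat_lit 5) (nat_lit 314) (nat_lit 309) (nat_lit 157))))))))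
noncomputable def xc225 : XT := (XT.nd (nat_lit 1716) (nat_lit 3496) (nat_lit 0) (XT.nd (nat_lit 858) (nat_lit 2888) (nat_lit 0) (XT.nd (nat_lit 390) (nat_lit 0) (nat_lit 152) (XT.nd (nat_lit 156) (nat_lit 0) (nat_lit 76) (XT.nd (nat_lit 78) (nat_lit 0) (nat_lit 76) (XT.lf (nat_lit 76) (nat_lit 1776630824) (nat_lit 0) (nat_lit 4650548592) (nat_lit 1140) (nat_lit 12890212855) (nat_lit 143) (nat_lit 5) (nat_lit 142) (nat_lit 5) (nat_lit 157) (nat_lit 5) (nat_lit 315) (nat_lit 309) (nat_lit 156)) (XT.lf (nat_lit 0) (nat_lit 7112239776) (nat_lit 1064) (nat_lit 9549789326) (nat_lit 1140) (nat_lit 2952905605) (nat_lit 143) (nat_lit 5) (nat_lit 157) (nat_lit 5) (nat_lit 158) (nat_lit 5) (nat_lit 316) (nat_lit 309) (nat_lit 155))) (XT.nd (nat_lit 78) (nat_lit 0) (nat_lit 0) (XT.lf (nat_lit 0) (nat_lit 7857638795) (nat_lit 1064) (nat_lit 1369253150) (nat_lit 1140) (nat_lit 10693334631) (nat_lit 143)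 (nat_lit 5) (nat_lit 157) (nat_lit 5) (nat_lit 158) (nat_lit 5) (nat_lit 317) (nat_lit 309) (nat_lit 154)) (XT.nd (nat_lit 78) (nat_lit 0) (nat_lit 76) (XT.lf (nat_lit 76) (nat_lit 7193061580) (nat_lit 0) (nat_lit 1495406403) (nat_lit 1140) (nat_lit 11544333448) (nat_lit 144) (nat_lit 5) (nat_lit 143) (nat_lit 5) (nat_lit 158) (nat_lit 5) (nat_lit 318) (nat_lit 309) (nat_lit 153)) (XT.lf (nat_lit 0) (nat_lit 9614442299) (nat_lit 1064) (nat_lit 4580509893) (nat_lit 1140) (nat_lit 6357710534) (nat_lit 144) (nat_lit 5) (nat_lit 158) (nat_lit 5) (nat_lit 159) (nat_lit 5) (nat_lit 319) (nat_lit 309) (nat_lit 152))))) (XT.nd (nat_lit 234) (nat_lit 0) (nat_lit 76) (XT.nd (nat_lit 78) (nat_lit 0) (nat_lit 76) (XT.lf (nat_lit 76) (nat_lit 4195508239) (nat_lit 0) (nat_lit 6422077752) (nat_lit 1140) (nat_lit 10263067509) (nat_lit 145) (nat_lit 5) (nat_lit 144) (nat_lit 5) (nat_lit 159) (nat_lit 5) (nat_lit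 320) (nat_lit 309) (nat_lit 151)) (XT.nd (nat_lit 78) (nat_lit 0) (nat_lit 0) (XT.lf (nat_lit 0) (nat_lit 11707160888) (nat_lit 1064) (nat_lit 7908288962) (nat_lit 1140) (nat_lit 1601358933) (nat_lit 145) (nat_lit 5) (nat_lit 159) (nat_lit 5) (nat_lit 160) (nat_lit 5) (nat_lit 321) (nat_lit 309) (nat_lit 150)) (XT.lf (nat_lit 76) (nat_lit 1085379117) (nat_lit 0) (nat_lit 11812623871) (nat_lit 1140) (nat_lit 8663002801) (nat_lit 146) (nat_lit 5) (nat_lit 145) (nat_lit 5) (nat_lit 160) (nat_lit 5) (nat_lit 322) (nat_lit 309) (nat_lit 149)))) (XT.nd (nat_lit 78) (nat_lit 0) (nat_lit 76) (XT.lf (nat_lit 76) (nat_lit 10506920859) (nat_lit 0) (nat_lit 3692188885) (nat_lit 1140) (nat_lit 7714196820) (nat_lit 146) (nat_lit 5) (nat_lit 145) (nat_lit 5) (nat_lit 160) (nat_lit 5) (nat_lit 323) (nat_lit 309) (nat_lit 148)) (XT.nd (nat_lit 78) (nat_lit 0) (nat_lit 0) (XT.lf (nat_lit 0) (nat_lit 15579006424)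 (nat_lit 1064) (nat_lit 2114087312) (nat_lit 1140) (nat_lit 4581903555) (nat_lit 146) (nat_lit 5) (nat_lit 160) (nat_lit 5) (nat_lit 161) (nat_lit 5) (nat_lit 324) (nat_lit 309) (nat_lit 147)) (XT.lf (nat_lit 76) (nat_lit 7564033958) (nat_lit 0) (nat_lit 9540530505) (nat_lit 1140) (nat_lit 5539859579) (nat_lit 147) (nat_lit 5) (nat_lit 146) (nat_lit 5) (nat_lit 161) (nat_lit 5) (nat_lit 325) (nat_lit 309) (nat_lit 146)))))) (XT.nd (nat_lit 390) (nat_lit 1520) (nat_lit 0) (XT.nd (nat_lit 156) (nat_lit 684) (nat_lit 0) (XT.nd (nat_lit 78) (nat_lit 988) (nat_lit 0) (XT.lf (nat_lit 76) (nat_lit 17571883418) (nat_lit 0) (nat_lit 1120459672) (nat_lit 1140) (nat_lit 4332109737) (nat_lit 147) (nat_lit 5) (nat_lit 146) (nat_lit 5) (nat_lit 161) (nat_lit 5) (nat_lit 326) (nat_lit 309) (nat_lit 145)) (XT.lf (nat_lit 0) (nat_lit 4474808140) (nat_lit 1064) (nat_lit 15963815078) (nat_lit 1140) (nat_lit 2973945689)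 (nat_lit 133) (nat_lit 5) (nat_lit 147) (nat_lit 5) (nat_lit 148) (nat_lit 5) (nat_lit 327) (nat_lit 309) (nat_lit 144))) (XT.nd (nat_lit 78) (nat_lit 684) (nat_lit 0) (XT.lf (nat_lit 0) (nat_lit 14796503249) (nat_lit 1064) (nat_lit 7502190776) (nat_lit 1140) (nat_lit 1511804486) (nat_lit 133) (nat_lit 5) (nat_lit 147) (nat_lit 5) (nat_lit 148) (nat_lit 5) (nat_lit 328) (nat_lit 309) (nat_lit 143)) (XT.nd (nat_lit 78) (nat_lit 0) (nat_lit 0) (XT.lf (nat_lit 0) (nat_lit 13335210) (nat_lit 684) (nat_lit 23004402764) (nat_lit 76) (nat_lit 1202070487) (nat_lit 124) (nat_lit 5) (nat_lit 133) (nat_lit 5) (nat_lit 125) (nat_lit 5) (nat_lit 329) (nat_lit 309) (nat_lit 142)) (XT.lf (nat_lit 0) (nat_lit 1715584245) (nat_lit 684) (nat_lit 12796409250) (nat_lit 76) (nat_lit 10124114018) (nat_lit 124) (nat_lit 5) (nat_lit 133) (nat_lit 5) (nat_lit 125) (nat_lit 5) (nat_lit 330) (nat_lit 309) (nat_lit 141)))))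 (XT.nd (nat_lit 234) (nat_lit 988) (nat_lit 0) (XT.nd (nat_lit 78) (nat_lit 532) (nat_lit 0) (XT.lf (nat_lit 0) (nat_lit 3464567645) (nat_lit 684) (nat_lit 2286117974) (nat_lit 76) (nat_lit 19314350673) (nat_lit 124) (nat_lit 5) (nat_lit 133) (nat_lit 5) (nat_lit 125) (nat_lit 5) (nat_lit 331) (nat_lit 309) (nat_lit 140)) (XT.nd (nat_lit 78) (nat_lit 0) (nat_lit 0) (XT.lf (nat_lit 0) (nat_lit 5377795246) (nat_lit 608) (nat_lit 16831226727) (nat_lit 76) (nat_lit 3294468167) (nat_lit 117) (nat_lit 5) (nat_lit 125) (nat_lit 5) (nat_lit 118) (nat_lit 5) (nat_lit 332) (nat_lit 309) (nat_lit 139)) (XT.lf (nat_lit 0) (nat_lit 7424553418) (nat_lit 608) (nat_lit 6009238326) (nat_lit 76) (nat_lit 12519031989) (nat_lit 117) (nat_lit 5) (nat_lit 125) (nat_lit 5) (nat_lit 118) (nat_lit 5) (nat_lit 333) (nat_lit 309) (nat_lit 138)))) (XT.nd (nat_lit 78) (nat_lit 456) (nat_lit 0) (XT.lf (nat_lit 0) (nat_lit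 5235766096) (nat_lit 532) (nat_lit 4343279943) (nat_lit 608) (nat_lit 16835211192) (nat_lit 110) (nat_lit 5) (nat_lit 117) (nat_lit 5) (nat_lit 118) (nat_lit 5) (nat_lit 334) (nat_lit 309) (nat_lit 137)) (XT.nd (nat_lit 78) (nat_lit 456) (nat_lit 0) (XT.lf (nat_lit 0) (nat_lit 11903794412) (nat_lit 608) (nat_lit 9999168122) (nat_lit 76) (nat_lit 4983412133) (nat_lit 110) (nat_lit 5) (nat_lit 118) (nat_lit 5) (nat_lit 111) (nat_lit 5) (nat_lit 335) (nat_lit 309) (nat_lit 136)) (XT.lf (nat_lit 0) (nat_lit 1497972982) (nat_lit 456) (nat_lit 12853912358) (nat_lit 532) (nat_lit 13019171563) (nat_lit 104) (nat_lit 5) (nat_lit 110) (nat_lit 5) (nat_lit 111) (nat_lit 5) (nat_lit 336) (nat_lit 309) (nat_lit 135))))))) (XT.nd (nat_lit 858) (nat_lit 1748) (nat_lit 0) (XT.nd (nat_lit 390) (nat_lit 912) (nat_lit 0) (XT.nd (nat_lit 156) (nat_lit 836) (nat_lit 0) (XT.nd (nat_lit 78) (nat_lit 0) (nat_lit 0)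 (XT.lf (nat_lit 0) (nat_lit 13541248940) (nat_lit 456) (nat_lit 3429414619) (nat_lit 532) (nat_lit 10896707723) (nat_lit 104) (nat_lit 5) (nat_lit 110) (nat_lit 5) (nat_lit 111) (nat_lit 5) (nat_lit 337) (nat_lit 309) (nat_lit 134)) (XT.lf (nat_lit 0) (nat_lit 19724732255) (nat_lit 532) (nat_lit 2496858452) (nat_lit 76) (nat_lit 6155291322) (nat_lit 104) (nat_lit 5) (nat_lit 111) (nat_lit 5) (nat_lit 105) (nat_lit 5) (nat_lit 338) (nat_lit 309) (nat_lit 133))) (XT.nd (nat_lit 78) (nat_lit 380) (nat_lit 0) (XT.lf (nat_lit 0) (nat_lit 9841725484) (nat_lit 456) (nat_lit 12844743126) (nat_lit 532) (nat_lit 6211466614) (nat_lit 98) (nat_lit 5) (nat_lit 104) (nat_lit 5) (nat_lit 105) (nat_lit 5) (nat_lit 339) (nat_lit 309) (nat_lit 132)) (XT.nd (nat_lit 78) (nat_lit 380) (nat_lit 0) (XT.lf (nat_lit 0) (nat_lit 22598035096) (nat_lit 456) (nat_lit 3160789237) (nat_lit 532) (nat_lit 3675150911) (nat_lit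 98) (nat_lit 5) (nat_lit 104) (nat_lit 5) (nat_lit 105) (nat_lit 5) (nat_lit 340) (nat_lit 309) (nat_lit 131)) (XT.lf (nat_lit 0) (nat_lit 5794903169) (nat_lit 380) (nat_lit 23246301704) (nat_lit 456) (nat_lit 941363974) (nat_lit 93) (nat_lit 5) (nat_lit 98) (nat_lit 5) (nat_lit 99) (nat_lit 5) (nat_lit 341) (nat_lit 309) (nat_lit 130))))) (XT.nd (nat_lit 234) (nat_lit 380) (nat_lit 0) (XT.nd (nat_lit 78) (nat_lit 456) (nat_lit 0) (XT.lf (nat_lit 0) (nat_lit 1935543187) (nat_lit 456) (nat_lit 11654398905) (nat_lit 76) (nat_lit 16954214657) (nat_lit 92) (nat_lit 5) (nat_lit 98) (nat_lit 5) (nat_lit 93) (nat_lit 5) (nat_lit 342) (nat_lit 309) (nat_lit 129)) (XT.nd (nat_lit 78) (nat_lit 0) (nat_lit 0) (XT.lf (nat_lit 0) (nat_lit 1266715306) (nat_lit 456) (nat_lit 3622070674) (nat_lit 532) (nat_lit 26233265557) (nat_lit 86) (nat_lit 5) (nat_lit 92) (nat_lit 5) (nat_lit 93) (nat_lit 5) (nat_lit 343)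 (nat_lit 309) (nat_lit 128)) (XT.lf (nat_lit 0) (nat_lit 8110181446) (nat_lit 532) (nat_lit 16968037652) (nat_lit 76) (nat_lit 6633684523) (nat_lit 86) (nat_lit 5) (nat_lit 93) (nat_lit 5) (nat_lit 87) (nat_lit 5) (nat_lit 344) (nat_lit 309) (nat_lit 127)))) (XT.nd (nat_lit 78) (nat_lit 380) (nat_lit 0) (XT.lf (nat_lit 0) (nat_lit 11461002572) (nat_lit 532) (nat_lit 3733489313) (nat_lit 76) (nat_lit 17123982776) (nat_lit 86) (nat_lit 5) (nat_lit 93) (nat_lit 5) (nat_lit 87) (nat_lit 5) (nat_lit 345) (nat_lit 309) (nat_lit 126)) (XT.nd (nat_lit 78) (nat_lit 0) (nat_lit 0) (XT.lf (nat_lit 0) (nat_lit 10091614255) (nat_lit 380) (nat_lit 4914752214) (nat_lit 456) (nat_lit 17934062523) (nat_lit 81) (nat_lit 5) (nat_lit 86) (nat_lit 5) (nat_lit 87) (nat_lit 5) (nat_lit 346) (nat_lit 309) (nat_lit 125)) (XT.lf (nat_lit 0) (nat_lit 18747763278) (nat_lit 456) (nat_lit 9230278303) (nat_lit 76) (nat_lit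 5600316725) (nat_lit 81) (nat_lit 5) (nat_lit 87) (nat_lit 5) (nat_lit 82) (nat_lit 5) (nat_lit 347) (nat_lit 309) (nat_lit 124)))))) (XT.nd (nat_lit 468) (nat_lit 608) (nat_lit 0) (XT.nd (nat_lit 234) (nat_lit 760) (nat_lit 0) (XT.nd (nat_lit 78) (nat_lit 0) (nat_lit 0) (XT.lf (nat_lit 0) (nat_lit 4839222908) (nat_lit 380) (nat_lit 17854504945) (nat_lit 456) (nat_lit 11538934189) (nat_lit 76) (nat_lit 5) (nat_lit 81) (nat_lit 5) (nat_lit 82) (nat_lit 5) (nat_lit 348) (nat_lit 309) (nat_lit 123)) (XT.nd (nat_lit 78) (nat_lit 0) (nat_lit 0) (XT.lf (nat_lit 0) (nat_lit 19516692690) (nat_lit 380) (nat_lit 7331784861) (nat_lit 456) (nat_lit 8055411291) (nat_lit 76) (nat_lit 5) (nat_lit 81) (nat_lit 5) (nat_lit 82) (nat_lit 5) (nat_lit 349) (nat_lit 309) (nat_lit 122)) (XT.lf (nat_lit 0) (nat_lit 31158852642) (nat_lit 456) (nat_lit 997787454) (nat_lit 76) (nat_lit 3437688821) (nat_lit 76) (nat_lit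 5) (nat_lit 82) (nat_lit 5) (nat_lit 77) (nat_lit 5) (nat_lit 350) (nat_lit 309) (nat_lit 121)))) (XT.nd (nat_lit 78) (nat_lit 456) (nat_lit 0) (XT.lf (nat_lit 0) (nat_lit 14021096359) (nat_lit 304) (nat_lit 21782168432) (nat_lit 380) (nat_lit 496081414) (nat_lit 72) (nat_lit 5) (nat_lit 76) (nat_lit 5) (nat_lit 77) (nat_lit 5) (nat_lit 351) (nat_lit 309) (nat_lit 120)) (XT.nd (nat_lit 78) (nat_lit 380) (nat_lit 0) (XT.lf (nat_lit 0) (nat_lit 3499542859) (nat_lit 380) (nat_lit 7551789984) (nat_lit 76) (nat_lit 25972933207) (nat_lit 71) (nat_lit 5) (nat_lit 76) (nat_lit 5) (nat_lit 72) (nat_lit 5) (nat_lit 352) (nat_lit 309) (nat_lit 119)) (XT.lf (nat_lit 0) (nat_lit 7677898789) (nat_lit 456) (nat_lit 30009600430) (nat_lit 76) (nat_lit 81107204) (nat_lit 66) (nat_lit 5) (nat_lit 72) (nat_lit 5) (nat_lit 67) (nat_lit 5) (nat_lit 353) (nat_lit 309) (nat_lit 118))))) (XT.nd (nat_lit 234) (nat_lit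 304) (nat_lit 0) (XT.nd (nat_lit 78) (nat_lit 304) (nat_lit 0) (XT.lf (nat_lit 0) (nat_lit 12165522710) (nat_lit 456) (nat_lit 14962426070) (nat_lit 76) (nat_lit 11401815847) (nat_lit 66) (nat_lit 5) (nat_lit 72) (nat_lit 5) (nat_lit 67) (nat_lit 5) (nat_lit 354) (nat_lit 309) (nat_lit 117)) (XT.nd (nat_lit 78) (nat_lit 0) (nat_lit 0) (XT.lf (nat_lit 0) (nat_lit 543672744) (nat_lit 304) (nat_lit 16246886848) (nat_lit 380) (nat_lit 22523119449) (nat_lit 62) (nat_lit 5) (nat_lit 66) (nat_lit 5) (nat_lit 67) (nat_lit 5) (nat_lit 355) (nat_lit 309) (nat_lit 116)) (XT.lf (nat_lit 0) (nat_lit 16818600188) (nat_lit 304) (nat_lit 4884438303) (nat_lit 380) (nat_lit 18413616512) (nat_lit 62) (nat_lit 5) (nat_lit 66) (nat_lit 5) (nat_lit 67) (nat_lit 5) (nat_lit 356) (nat_lit 309) (nat_lit 115)))) (XT.nd (nat_lit 78) (nat_lit 304) (nat_lit 0) (XT.lf (nat_lit 0) (nat_lit 26826102451) (nat_lit 380) (nat_lit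 7430540439) (nat_lit 76) (nat_lit 6685185737) (nat_lit 62) (nat_lit 5) (nat_lit 67) (nat_lit 5) (nat_lit 63) (nat_lit 5) (nat_lit 357) (nat_lit 309) (nat_lit 114)) (XT.nd (nat_lit 78) (nat_lit 0) (nat_lit 0) (XT.lf (nat_lit 0) (nat_lit 9038043799) (nat_lit 304) (nat_lit 23197785977) (nat_lit 380) (nat_lit 9551943106) (nat_lit 58) (nat_lit 5) (nat_lit 62) (nat_lit 5) (nat_lit 63) (nat_lit 5) (nat_lit 358) (nat_lit 309) (nat_lit 113)) (XT.lf (nat_lit 0) (nat_lit 26150073794) (nat_lit 304) (nat_lit 11730578387) (nat_lit 380) (nat_lit 4776263619) (nat_lit 58) (nat_lit 5) (nat_lit 62) (nat_lit 5) (nat_lit 63) (nat_lit 5) (nat_lit 359) (nat_lit 309) (nat_lit 112))))))))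
noncomputable def xc226 : XT := (XT.nd (nat_lit 37050) (nat_lit 0) (nat_lit 5776) (XT.nd (nat_lit 858) (nat_lit 684) (nat_lit 0) (XT.nd (nat_lit 390) (nat_lit 532) (nat_lit 0) (XT.nd (nat_lit 156) (nat_lit 304) (nat_lit 0) (XT.nd (nat_lit 78) (nat_lit 0) (nat_lit 0) (XT.lf (nat_lit 0) (nat_lit 140661636) (nat_lit 304) (nat_lit 43329473701) (nat_lit 76) (nat_lit 81937910) (nat_lit 54) (nat_lit 5) (nat_lit 58) (nat_lit 5) (nat_lit 55) (nat_lit 5) (nat_lit 360) (nat_lit 309) (nat_lit 111)) (XT.lf (nat_lit 0) (nat_lit 5391416067) (nat_lit 304) (nat_lit 26844797356) (nat_lit 76) (nat_lit 12227987770) (nat_lit 54) (nat_lit 5) (nat_lit 58) (nat_lit 5) (nat_lit 55) (nat_lit 5) (nat_lit 361) (nat_lit 309) (nat_lit 110))) (XT.nd (nat_lit 78) (nat_lit 304) (nat_lit 0) (XT.lf (nat_lit 0) (nat_lit 10797594242) (nat_lit 304) (nat_lit 9868422007) (nat_lit 76) (nat_lit 24737743635) (nat_lit 54) (nat_lit 5)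 (nat_lit 58) (nat_lit 5) (nat_lit 55) (nat_lit 5) (nat_lit 362) (nat_lit 309) (nat_lit 109)) (XT.nd (nat_lit 78) (nat_lit 0) (nat_lit 0) (XT.lf (nat_lit 0) (nat_lit 7766029275) (nat_lit 304) (nat_lit 8672542555) (nat_lit 380) (nat_lit 29930758907) (nat_lit 50) (nat_lit 5) (nat_lit 54) (nat_lit 5) (nat_lit 55) (nat_lit 5) (nat_lit 363) (nat_lit 309) (nat_lit 108)) (XT.lf (nat_lit 0) (nat_lit 22382786944) (nat_lit 380) (nat_lit 21268228574) (nat_lit 76) (nat_lit 3708836666) (nat_lit 50) (nat_lit 5) (nat_lit 55) (nat_lit 5) (nat_lit 51) (nat_lit 5) (nat_lit 364) (nat_lit 309) (nat_lit 107))))) (XT.nd (nat_lit 234) (nat_lit 304) (nat_lit 0) (XT.nd (nat_lit 78) (nat_lit 228) (nat_lit 0) (XT.lf (nat_lit 0) (nat_lit 28589242213) (nat_lit 380) (nat_lit 3501677393) (nat_lit 76) (nat_lit 16286655860) (nat_lit 50) (nat_lit 5) (nat_lit 55) (nat_lit 5) (nat_lit 51) (nat_lit 5) (nat_lit 365) (nat_lit 309)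 (nat_lit 106)) (XT.nd (nat_lit 78) (nat_lit 0) (nat_lit 0) (XT.lf (nat_lit 0) (nat_lit 15089696361) (nat_lit 228) (nat_lit 20035350001) (nat_lit 304) (nat_lit 14296492929) (nat_lit 47) (nat_lit 5) (nat_lit 50) (nat_lit 5) (nat_lit 51) (nat_lit 5) (nat_lit 366) (nat_lit 309) (nat_lit 105)) (XT.lf (nat_lit 0) (nat_lit 34307989761) (nat_lit 228) (nat_lit 7582428992) (nat_lit 304) (nat_lit 8605401852) (nat_lit 47) (nat_lit 5) (nat_lit 50) (nat_lit 5) (nat_lit 51) (nat_lit 5) (nat_lit 367) (nat_lit 309) (nat_lit 104)))) (XT.nd (nat_lit 78) (nat_lit 76) (nat_lit 0) (XT.lf (nat_lit 0) (nat_lit 2496225154) (nat_lit 228) (nat_lit 46435113221) (nat_lit 304) (nat_lit 2668817699) (nat_lit 44) (nat_lit 5) (nat_lit 47) (nat_lit 5) (nat_lit 48) (nat_lit 5) (nat_lit 368) (nat_lit 309) (nat_lit 103)) (XT.nd (nat_lit 78) (nat_lit 0) (nat_lit 0) (XT.lf (nat_lit 0) (nat_lit 3616969217) (nat_lit 304) (nat_lit 30772487302)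 (nat_lit 76) (nat_lit 18340024092) (nat_lit 43) (nat_lit 5) (nat_lit 47) (nat_lit 5) (nat_lit 44) (nat_lit 5) (nat_lit 369) (nat_lit 309) (nat_lit 102)) (XT.lf (nat_lit 0) (nat_lit 10035930977) (nat_lit 304) (nat_lit 11920040209) (nat_lit 76) (nat_lit 31935976745) (nat_lit 43) (nat_lit 5) (nat_lit 47) (nat_lit 5) (nat_lit 44) (nat_lit 5) (nat_lit 370) (nat_lit 309) (nat_lit 101)))))) (XT.nd (nat_lit 390) (nat_lit 228) (nat_lit 0) (XT.nd (nat_lit 156) (nat_lit 228) (nat_lit 0) (XT.nd (nat_lit 78) (nat_lit 0) (nat_lit 0) (XT.lf (nat_lit 0) (nat_lit 7644713576) (nat_lit 228) (nat_lit 9074526715) (nat_lit 304) (nat_lit 38367898548) (nat_lit 40) (nat_lit 5) (nat_lit 43) (nat_lit 5) (nat_lit 44) (nat_lit 5) (nat_lit 371) (nat_lit 309) (nat_lit 100)) (XT.lf (nat_lit 0) (nat_lit 23763231254) (nat_lit 304) (nat_lit 28317781050) (nat_lit 76) (nat_lit 4232370546) (nat_lit 40) (nat_lit 5) (nat_lit 44) (nat_lit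 5) (nat_lit 41) (nat_lit 5) (nat_lit 372) (nat_lit 309) (nat_lit 99))) (XT.nd (nat_lit 78) (nat_lit 228) (nat_lit 0) (XT.lf (nat_lit 0) (nat_lit 31106750307) (nat_lit 304) (nat_lit 8711637353) (nat_lit 76) (nat_lit 17755383032) (nat_lit 40) (nat_lit 5) (nat_lit 44) (nat_lit 5) (nat_lit 41) (nat_lit 5) (nat_lit 373) (nat_lit 309) (nat_lit 98)) (XT.nd (nat_lit 78) (nat_lit 0) (nat_lit 0) (XT.lf (nat_lit 0) (nat_lit 11708849131) (nat_lit 228) (nat_lit 27072687705) (nat_lit 304) (nat_lit 20087107160) (nat_lit 37) (nat_lit 5) (nat_lit 40) (nat_lit 5) (nat_lit 41) (nat_lit 5) (nat_lit 374) (nat_lit 309) (nat_lit 97)) (XT.lf (nat_lit 0) (nat_lit 32918229669) (nat_lit 228) (nat_lit 13854741248) (nat_lit 304) (nat_lit 13426803065) (nat_lit 37) (nat_lit 5) (nat_lit 40) (nat_lit 5) (nat_lit 41) (nat_lit 5) (nat_lit 375) (nat_lit 309) (nat_lit 96))))) (XT.nd (nat_lit 35568) (nat_lit 0) (nat_lit 8056) (XT.nd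 (nat_lit 78) (nat_lit 228) (nat_lit 0) (XT.lf (nat_lit 0) (nat_lit 54761658065) (nat_lit 228) (nat_lit 240969084) (nat_lit 304) (nat_lit 6568258874) (nat_lit 37) (nat_lit 5) (nat_lit 40) (nat_lit 5) (nat_lit 41) (nat_lit 5) (nat_lit 376) (nat_lit 309) (nat_lit 95)) (XT.nd (nat_lit 35412) (nat_lit 0) (nat_lit 8056) (XT.lf (nat_lit 0) (nat_lit 758672367) (nat_lit 228) (nat_lit 48558441767) (nat_lit 76) (nat_lit 13657707320) (nat_lit 34) (nat_lit 5) (nat_lit 37) (nat_lit 5) (nat_lit 35) (nat_lit 5) (nat_lit 377) (nat_lit 309) (nat_lit 94)) (XT.lf (nat_lit 0) (nat_lit 2169075786) (nat_lit 1140) (nat_lit 3462923174) (nat_lit 1140) (nat_lit 3462923174) (nat_lit 140) (nat_lit 3) (nat_lit 155) (nat_lit 3) (nat_lit 155) (nat_lit 5) (nat_lit 310) (nat_lit 310) (nat_lit 160)))) (XT.nd (nat_lit 78) (nat_lit 0) (nat_lit 76) (XT.lf (nat_lit 76) (nat_lit 506335762) (nat_lit 0) (nat_lit 4081486064) (nat_lit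 1140) (nat_lit 13868848681) (nat_lit 141) (nat_lit 5) (nat_lit 140) (nat_lit 3) (nat_lit 155) (nat_lit 5) (nat_lit 311) (nat_lit 310) (nat_lit 159)) (XT.nd (nat_lit 78) (nat_lit 0) (nat_lit 0) (XT.lf (nat_lit 0) (nat_lit 4940474707) (nat_lit 1064) (nat_lit 10462476255) (nat_lit 1140) (nat_lit 3325704666) (nat_lit 141) (nat_lit 5) (nat_lit 155) (nat_lit 5) (nat_lit 156) (nat_lit 5) (nat_lit 312) (nat_lit 310) (nat_lit 158)) (XT.lf (nat_lit 0) (nat_lit 5337304686) (nat_lit 1064) (nat_lit 2794234077) (nat_lit 1140) (nat_lit 10876271934) (nat_lit 141) (nat_lit 5) (nat_lit 155) (nat_lit 5) (nat_lit 156) (nat_lit 5) (nat_lit 313) (nat_lit 310) (nat_lit 157))))))) (XT.nd (nat_lit 858) (nat_lit 2356) (nat_lit 0) (XT.nd (nat_lit 390) (nat_lit 0) (nat_lit 152) (XT.nd (nat_lit 156) (nat_lit 0) (nat_lit 76) (XT.nd (nat_lit 78) (nat_lit 0) (nat_lit 76) (XT.lf (nat_lit 76) (nat_lit 5201832423) (nat_lit 0)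 (nat_lit 587595539) (nat_lit 1140) (nat_lit 13504628589) (nat_lit 142) (nat_lit 5) (nat_lit 141) (nat_lit 5) (nat_lit 156) (nat_lit 5) (nat_lit 314) (nat_lit 310) (nat_lit 156)) (XT.lf (nat_lit 0) (nat_lit 6346223717) (nat_lit 1064) (nat_lit 6166237304) (nat_lit 1140) (nat_lit 7073712764) (nat_lit 142) (nat_lit 5) (nat_lit 156) (nat_lit 5) (nat_lit 157) (nat_lit 5) (nat_lit 315) (nat_lit 310) (nat_lit 155))) (XT.nd (nat_lit 78) (nat_lit 0) (nat_lit 76) (XT.lf (nat_lit 76) (nat_lit 2027458401) (nat_lit 0) (nat_lit 4911328149) (nat_lit 1140) (nat_lit 12947712856) (nat_lit 143) (nat_lit 5) (nat_lit 142) (nat_lit 5) (nat_lit 157) (nat_lit 5) (nat_lit 316) (nat_lit 310) (nat_lit 154)) (XT.nd (nat_lit 78) (nat_lit 0) (nat_lit 0) (XT.lf (nat_lit 0) (nat_lit 7633981820) (nat_lit 1064) (nat_lit 9633264617) (nat_lit 1140) (nat_lit 2926058968) (nat_lit 143) (nat_lit 5) (nat_lit 157) (nat_lit 5) (nat_lit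 158) (nat_lit 5) (nat_lit 317) (nat_lit 310) (nat_lit 153)) (XT.lf (nat_lit 0) (nat_lit 8392761017) (nat_lit 1064) (nat_lit 1213225512) (nat_lit 1140) (nat_lit 10902063015) (nat_lit 143) (nat_lit 5) (nat_lit 157) (nat_lit 5) (nat_lit 158) (nat_lit 5) (nat_lit 318) (nat_lit 310) (nat_lit 152))))) (XT.nd (nat_lit 234) (nat_lit 0) (nat_lit 152) (XT.nd (nat_lit 78) (nat_lit 0) (nat_lit 76) (XT.lf (nat_lit 76) (nat_lit 7604026255) (nat_lit 0) (nat_lit 1637644760) (nat_lit 1140) (nat_lit 11588559313) (nat_lit 144) (nat_lit 5) (nat_lit 143) (nat_lit 5) (nat_lit 158) (nat_lit 5) (nat_lit 319) (nat_lit 310) (nat_lit 151)) (XT.nd (nat_lit 78) (nat_lit 0) (nat_lit 0) (XT.lf (nat_lit 0) (nat_lit 10185994941) (nat_lit 1064) (nat_lit 4518251391) (nat_lit 1140) (nat_lit 6455746699) (nat_lit 144) (nat_lit 5) (nat_lit 158) (nat_lit 5) (nat_lit 159) (nat_lit 5) (nat_lit 320) (nat_lit 310) (nat_lit 150)) (XT.lf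 (nat_lit 76) (nat_lit 4519089699) (nat_lit 0) (nat_lit 6693797618) (nat_lit 1140) (nat_lit 10285148598) (nat_lit 145) (nat_lit 5) (nat_lit 144) (nat_lit 5) (nat_lit 159) (nat_lit 5) (nat_lit 321) (nat_lit 310) (nat_lit 149)))) (XT.nd (nat_lit 78) (nat_lit 0) (nat_lit 0) (XT.lf (nat_lit 0) (nat_lit 12326350275) (nat_lit 1064) (nat_lit 7944068358) (nat_lit 1140) (nat_lit 1574142579) (nat_lit 145) (nat_lit 5) (nat_lit 159) (nat_lit 5) (nat_lit 160) (nat_lit 5) (nat_lit 322) (nat_lit 310) (nat_lit 148)) (XT.nd (nat_lit 78) (nat_lit 0) (nat_lit 0) (XT.lf (nat_lit 76) (nat_lit 1317434575) (nat_lit 0) (nat_lit 12229595638) (nat_lit 1140) (nat_lit 8652251292) (nat_lit 146) (nat_lit 5) (nat_lit 145) (nat_lit 5) (nat_lit 160) (nat_lit 5) (nat_lit 323) (nat_lit 310) (nat_lit 147)) (XT.lf (nat_lit 76) (nat_lit 11015812062) (nat_lit 0) (nat_lit 3863724503) (nat_lit 1140) (nat_lit 7682863896) (nat_lit 146)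 (nat_lit 5) (nat_lit 145) (nat_lit 5) (nat_lit 160) (nat_lit 5) (nat_lit 324) (nat_lit 310) (nat_lit 146)))))) (XT.nd (nat_lit 468) (nat_lit 1064) (nat_lit 0) (XT.nd (nat_lit 234) (nat_lit 1672) (nat_lit 0) (XT.nd (nat_lit 78) (nat_lit 0) (nat_lit 0) (XT.lf (nat_lit 0) (nat_lit 16292851734) (nat_lit 1064) (nat_lit 1980837082) (nat_lit 1140) (nat_lit 4661512011) (nat_lit 146) (nat_lit 5) (nat_lit 160) (nat_lit 5) (nat_lit 161) (nat_lit 5) (nat_lit 325) (nat_lit 310) (nat_lit 145)) (XT.nd (nat_lit 78) (nat_lit 0) (nat_lit 0) (XT.lf (nat_lit 76) (nat_lit 7985699660) (nat_lit 0) (nat_lit 9873169972) (nat_lit 1140) (nat_lit 5457018948) (nat_lit 147) (nat_lit 5) (nat_lit 146) (nat_lit 5) (nat_lit 161) (nat_lit 5) (nat_lit 326) (nat_lit 310) (nat_lit 144)) (XT.lf (nat_lit 76) (nat_lit 18288112429) (nat_lit 0) (nat_lit 1199144872) (nat_lit 1140) (nat_lit 4220290099) (nat_lit 147) (nat_lit 5) (nat_lit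 146) (nat_lit 5) (nat_lit 161) (nat_lit 5) (nat_lit 327) (nat_lit 310) (nat_lit 143)))) (XT.nd (nat_lit 78) (nat_lit 684) (nat_lit 0) (XT.lf (nat_lit 0) (nat_lit 4804264367) (nat_lit 1064) (nat_lit 16476297602) (nat_lit 1140) (nat_lit 2826923813) (nat_lit 133) (nat_lit 5) (nat_lit 147) (nat_lit 5) (nat_lit 148) (nat_lit 5) (nat_lit 328) (nat_lit 310) (nat_lit 142)) (XT.nd (nat_lit 78) (nat_lit 684) (nat_lit 0) (XT.lf (nat_lit 0) (nat_lit 15429924544) (nat_lit 1064) (nat_lit 7759846860) (nat_lit 1140) (nat_lit 1327799158) (nat_lit 133) (nat_lit 5) (nat_lit 147) (nat_lit 5) (nat_lit 148) (nat_lit 5) (nat_lit 329) (nat_lit 310) (nat_lit 141)) (XT.lf (nat_lit 0) (nat_lit 233656397) (nat_lit 684) (nat_lit 23494461636) (nat_lit 76) (nat_lit 1211140900) (nat_lit 124) (nat_lit 5) (nat_lit 133) (nat_lit 5) (nat_lit 125) (nat_lit 5) (nat_lit 330) (nat_lit 310) (nat_lit 140))))) (XT.nd (nat_lit 234) (nat_lit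 532) (nat_lit 0) (XT.nd (nat_lit 78) (nat_lit 532) (nat_lit 0) (XT.lf (nat_lit 0) (nat_lit 1980567433) (nat_lit 684) (nat_lit 12986055693) (nat_lit 76) (nat_lit 10401631903) (nat_lit 124) (nat_lit 5) (nat_lit 133) (nat_lit 5) (nat_lit 125) (nat_lit 5) (nat_lit 331) (nat_lit 310) (nat_lit 139)) (XT.nd (nat_lit 78) (nat_lit 532) (nat_lit 0) (XT.lf (nat_lit 0) (nat_lit 3775801432) (nat_lit 684) (nat_lit 2166113324) (nat_lit 76) (nat_lit 19868338925) (nat_lit 124) (nat_lit 5) (nat_lit 133) (nat_lit 5) (nat_lit 125) (nat_lit 5) (nat_lit 332) (nat_lit 310) (nat_lit 138)) (XT.lf (nat_lit 0) (nat_lit 5742026316) (nat_lit 608) (nat_lit 17142675991) (nat_lit 76) (nat_lit 3377305817) (nat_lit 117) (nat_lit 5) (nat_lit 125) (nat_lit 5) (nat_lit 118) (nat_lit 5) (nat_lit 333) (nat_lit 310) (nat_lit 137)))) (XT.nd (nat_lit 78) (nat_lit 532) (nat_lit 0) (XT.lf (nat_lit 0) (nat_lit 7844277606) (nat_lit 608)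 (nat_lit 6001663498) (nat_lit 76) (nat_lit 12879072468) (nat_lit 117) (nat_lit 5) (nat_lit 125) (nat_lit 5) (nat_lit 118) (nat_lit 5) (nat_lit 334) (nat_lit 310) (nat_lit 136)) (XT.nd (nat_lit 78) (nat_lit 0) (nat_lit 0) (XT.lf (nat_lit 0) (nat_lit 5578849371) (nat_lit 532) (nat_lit 4480606177) (nat_lit 608) (nat_lit 17140967145) (nat_lit 110) (nat_lit 5) (nat_lit 117) (nat_lit 5) (nat_lit 118) (nat_lit 5) (nat_lit 335) (nat_lit 310) (nat_lit 135)) (XT.lf (nat_lit 0) (nat_lit 12448258314) (nat_lit 608) (nat_lit 10112405200) (nat_lit 76) (nat_lit 5126224499) (nat_lit 110) (nat_lit 5) (nat_lit 118) (nat_lit 5) (nat_lit 111) (nat_lit 5) (nat_lit 336) (nat_lit 310) (nat_lit 134))))))))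
noncomputable def xc227 : XT := (XT.nd (nat_lit 1794) (nat_lit 1596) (nat_lit 0) (XT.nd (nat_lit 858) (nat_lit 1748) (nat_lit 0) (XT.nd (nat_lit 390) (nat_lit 1292) (nat_lit 0) (XT.nd (nat_lit 156) (nat_lit 456) (nat_lit 0) (XT.nd (nat_lit 78) (nat_lit 0) (nat_lit 0) (XT.lf (nat_lit 0) (nat_lit 1727819372) (nat_lit 456) (nat_lit 13238293241) (nat_lit 532) (nat_lit 13220121807) (nat_lit 104) (nat_lit 5) (nat_lit 110) (nat_lit 5) (nat_lit 111) (nat_lit 5) (nat_lit 337) (nat_lit 310) (nat_lit 133)) (XT.lf (nat_lit 0) (nat_lit 14127007962) (nat_lit 456) (nat_lit 3531096584) (nat_lit 532) (nat_lit 11039507107) (nat_lit 104) (nat_lit 5) (nat_lit 110) (nat_lit 5) (nat_lit 111) (nat_lit 5) (nat_lit 338) (nat_lit 310) (nat_lit 132))) (XT.nd (nat_lit 78) (nat_lit 456) (nat_lit 0) (XT.lf (nat_lit 0) (nat_lit 20489612689) (nat_lit 532) (nat_lit 2391870243) (nat_lit 76) (nat_lit 6341092827) (nat_lit 104)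 (nat_lit 5) (nat_lit 111) (nat_lit 5) (nat_lit 105) (nat_lit 5) (nat_lit 339) (nat_lit 310) (nat_lit 131)) (XT.nd (nat_lit 78) (nat_lit 0) (nat_lit 0) (XT.lf (nat_lit 0) (nat_lit 10315107544) (nat_lit 456) (nat_lit 13221763019) (nat_lit 532) (nat_lit 6222502095) (nat_lit 98) (nat_lit 5) (nat_lit 104) (nat_lit 5) (nat_lit 105) (nat_lit 5) (nat_lit 340) (nat_lit 310) (nat_lit 130)) (XT.lf (nat_lit 0) (nat_lit 23448918184) (nat_lit 456) (nat_lit 3247532913) (nat_lit 532) (nat_lit 3615202994) (nat_lit 98) (nat_lit 5) (nat_lit 104) (nat_lit 5) (nat_lit 105) (nat_lit 5) (nat_lit 341) (nat_lit 310) (nat_lit 129))))) (XT.nd (nat_lit 234) (nat_lit 380) (nat_lit 0) (XT.nd (nat_lit 78) (nat_lit 532) (nat_lit 0) (XT.lf (nat_lit 0) (nat_lit 6145207933) (nat_lit 380) (nat_lit 23929064940) (nat_lit 456) (nat_lit 802535026) (nat_lit 93) (nat_lit 5) (nat_lit 98) (nat_lit 5) (nat_lit 99) (nat_lit 5) (nat_lit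 342) (nat_lit 310) (nat_lit 128)) (XT.nd (nat_lit 78) (nat_lit 456) (nat_lit 0) (XT.lf (nat_lit 0) (nat_lit 2152648058) (nat_lit 456) (nat_lit 11829186499) (nat_lit 76) (nat_lit 17473514670) (nat_lit 92) (nat_lit 5) (nat_lit 98) (nat_lit 5) (nat_lit 93) (nat_lit 5) (nat_lit 343) (nat_lit 310) (nat_lit 127)) (XT.lf (nat_lit 0) (nat_lit 1477846978) (nat_lit 456) (nat_lit 3713673199) (nat_lit 532) (nat_lit 26859160237) (nat_lit 86) (nat_lit 5) (nat_lit 92) (nat_lit 5) (nat_lit 93) (nat_lit 5) (nat_lit 344) (nat_lit 310) (nat_lit 126)))) (XT.nd (nat_lit 78) (nat_lit 380) (nat_lit 0) (XT.lf (nat_lit 0) (nat_lit 8505170972) (nat_lit 532) (nat_lit 17304264320) (nat_lit 76) (nat_lit 6848934574) (nat_lit 86) (nat_lit 5) (nat_lit 93) (nat_lit 5) (nat_lit 87) (nat_lit 5) (nat_lit 345) (nat_lit 310) (nat_lit 125)) (XT.nd (nat_lit 78) (nat_lit 380) (nat_lit 0) (XT.lf (nat_lit 0) (nat_lit 11952098748) (nat_lit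 532) (nat_lit 3677712961) (nat_lit 76) (nat_lit 17653468780) (nat_lit 86) (nat_lit 5) (nat_lit 93) (nat_lit 5) (nat_lit 87) (nat_lit 5) (nat_lit 346) (nat_lit 310) (nat_lit 124)) (XT.lf (nat_lit 0) (nat_lit 10560498802) (nat_lit 380) (nat_lit 5040632458) (nat_lit 456) (nat_lit 18322852584) (nat_lit 81) (nat_lit 5) (nat_lit 86) (nat_lit 5) (nat_lit 87) (nat_lit 5) (nat_lit 347) (nat_lit 310) (nat_lit 123)))))) (XT.nd (nat_lit 468) (nat_lit 988) (nat_lit 0) (XT.nd (nat_lit 234) (nat_lit 380) (nat_lit 0) (XT.nd (nat_lit 78) (nat_lit 380) (nat_lit 0) (XT.lf (nat_lit 0) (nat_lit 19450760319) (nat_lit 456) (nat_lit 9341568334) (nat_lit 76) (nat_lit 5788852016) (nat_lit 81) (nat_lit 5) (nat_lit 87) (nat_lit 5) (nat_lit 82) (nat_lit 5) (nat_lit 348) (nat_lit 310) (nat_lit 122)) (XT.nd (nat_lit 78) (nat_lit 0) (nat_lit 0) (XT.lf (nat_lit 0) (nat_lit 5148394203) (nat_lit 380) (nat_lit 18364191943) (nat_lit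 456) (nat_lit 11742611974) (nat_lit 76) (nat_lit 5) (nat_lit 81) (nat_lit 5) (nat_lit 82) (nat_lit 5) (nat_lit 349) (nat_lit 310) (nat_lit 121)) (XT.lf (nat_lit 0) (nat_lit 20261411537) (nat_lit 380) (nat_lit 7526546028) (nat_lit 456) (nat_lit 8158733590) (nat_lit 76) (nat_lit 5) (nat_lit 81) (nat_lit 5) (nat_lit 82) (nat_lit 5) (nat_lit 350) (nat_lit 310) (nat_lit 120)))) (XT.nd (nat_lit 78) (nat_lit 380) (nat_lit 0) (XT.lf (nat_lit 0) (nat_lit 32223975359) (nat_lit 456) (nat_lit 869186850) (nat_lit 76) (nat_lit 3564800830) (nat_lit 76) (nat_lit 5) (nat_lit 82) (nat_lit 5) (nat_lit 77) (nat_lit 5) (nat_lit 351) (nat_lit 310) (nat_lit 119)) (XT.nd (nat_lit 78) (nat_lit 76) (nat_lit 0) (XT.lf (nat_lit 0) (nat_lit 14598709220) (nat_lit 304) (nat_lit 22406722830) (nat_lit 380) (nat_lit 378775732) (nat_lit 72) (nat_lit 5) (nat_lit 76) (nat_lit 5) (nat_lit 77) (nat_lit 5) (nat_lit 352) (nat_lit 310)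 (nat_lit 118)) (XT.lf (nat_lit 0) (nat_lit 3730362792) (nat_lit 380) (nat_lit 7623170766) (nat_lit 76) (nat_lit 26777424620) (nat_lit 71) (nat_lit 5) (nat_lit 76) (nat_lit 5) (nat_lit 72) (nat_lit 5) (nat_lit 353) (nat_lit 310) (nat_lit 117))))) (XT.nd (nat_lit 234) (nat_lit 304) (nat_lit 0) (XT.nd (nat_lit 78) (nat_lit 304) (nat_lit 0) (XT.lf (nat_lit 0) (nat_lit 8032169773) (nat_lit 456) (nat_lit 30752562651) (nat_lit 76) (nat_lit 112960926) (nat_lit 66) (nat_lit 5) (nat_lit 72) (nat_lit 5) (nat_lit 67) (nat_lit 5) (nat_lit 354) (nat_lit 310) (nat_lit 116)) (XT.nd (nat_lit 78) (nat_lit 304) (nat_lit 0) (XT.lf (nat_lit 0) (nat_lit 12650812683) (nat_lit 456) (nat_lit 15258555365) (nat_lit 76) (nat_lit 11772433920) (nat_lit 66) (nat_lit 5) (nat_lit 72) (nat_lit 5) (nat_lit 67) (nat_lit 5) (nat_lit 355) (nat_lit 310) (nat_lit 115)) (XT.lf (nat_lit 0) (nat_lit 711228928) (nat_lit 304) (nat_lit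 16701321021) (nat_lit 380) (nat_lit 23076752547) (nat_lit 62) (nat_lit 5) (nat_lit 66) (nat_lit 5) (nat_lit 67) (nat_lit 5) (nat_lit 356) (nat_lit 310) (nat_lit 114)))) (XT.nd (nat_lit 78) (nat_lit 304) (nat_lit 0) (XT.lf (nat_lit 0) (nat_lit 17469998972) (nat_lit 304) (nat_lit 4998959382) (nat_lit 380) (nat_lit 18847519682) (nat_lit 62) (nat_lit 5) (nat_lit 66) (nat_lit 5) (nat_lit 67) (nat_lit 5) (nat_lit 357) (nat_lit 310) (nat_lit 113)) (XT.nd (nat_lit 78) (nat_lit 304) (nat_lit 0) (XT.lf (nat_lit 0) (nat_lit 27742668464) (nat_lit 380) (nat_lit 7507622015) (nat_lit 76) (nat_lit 6916214512) (nat_lit 62) (nat_lit 5) (nat_lit 67) (nat_lit 5) (nat_lit 63) (nat_lit 5) (nat_lit 358) (nat_lit 310) (nat_lit 112)) (XT.lf (nat_lit 0) (nat_lit 9453589999) (nat_lit 304) (nat_lit 23859229905) (nat_lit 380) (nat_lit 9725070256) (nat_lit 58) (nat_lit 5) (nat_lit 62) (nat_lit 5) (nat_lit 63) (nat_lit 5)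 (nat_lit 359) (nat_lit 310) (nat_lit 111))))))) (XT.nd (nat_lit 858) (nat_lit 456) (nat_lit 0) (XT.nd (nat_lit 390) (nat_lit 532) (nat_lit 0) (XT.nd (nat_lit 156) (nat_lit 304) (nat_lit 0) (XT.nd (nat_lit 78) (nat_lit 304) (nat_lit 0) (XT.lf (nat_lit 0) (nat_lit 27074774926) (nat_lit 304) (nat_lit 12049010640) (nat_lit 380) (nat_lit 4809424204) (nat_lit 58) (nat_lit 5) (nat_lit 62) (nat_lit 5) (nat_lit 63) (nat_lit 5) (nat_lit 360) (nat_lit 310) (nat_lit 110)) (XT.lf (nat_lit 0) (nat_lit 251407822) (nat_lit 304) (nat_lit 44485152180) (nat_lit 76) (nat_lit 118679737) (nat_lit 54) (nat_lit 5) (nat_lit 58) (nat_lit 5) (nat_lit 55) (nat_lit 5) (nat_lit 361) (nat_lit 310) (nat_lit 109))) (XT.nd (nat_lit 78) (nat_lit 304) (nat_lit 0) (XT.lf (nat_lit 0) (nat_lit 5656582177) (nat_lit 304) (nat_lit 27510135712) (nat_lit 76) (nat_lit 12628112539) (nat_lit 54) (nat_lit 5) (nat_lit 58) (nat_lit 5) (nat_lit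 55) (nat_lit 5) (nat_lit 362) (nat_lit 310) (nat_lit 108)) (XT.nd (nat_lit 78) (nat_lit 304) (nat_lit 0) (XT.lf (nat_lit 0) (nat_lit 11221933359) (nat_lit 304) (nat_lit 10028546935) (nat_lit 76) (nat_lit 25512191610) (nat_lit 54) (nat_lit 5) (nat_lit 58) (nat_lit 5) (nat_lit 55) (nat_lit 5) (nat_lit 363) (nat_lit 310) (nat_lit 107)) (XT.lf (nat_lit 0) (nat_lit 8133605262) (nat_lit 304) (nat_lit 8896904223) (nat_lit 380) (nat_lit 30726754809) (nat_lit 50) (nat_lit 5) (nat_lit 54) (nat_lit 5) (nat_lit 55) (nat_lit 5) (nat_lit 364) (nat_lit 310) (nat_lit 106))))) (XT.nd (nat_lit 234) (nat_lit 304) (nat_lit 0) (XT.nd (nat_lit 78) (nat_lit 228) (nat_lit 0) (XT.lf (nat_lit 0) (nat_lit 23150508195) (nat_lit 380) (nat_lit 21772880090) (nat_lit 76) (nat_lit 3854194714) (nat_lit 50) (nat_lit 5) (nat_lit 55) (nat_lit 5) (nat_lit 51) (nat_lit 5) (nat_lit 365) (nat_lit 310) (nat_lit 105)) (XT.nd (nat_lit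 78) (nat_lit 228) (nat_lit 0) (XT.lf (nat_lit 0) (nat_lit 29540354084) (nat_lit 380) (nat_lit 3477217675) (nat_lit 76) (nat_lit 16808355486) (nat_lit 50) (nat_lit 5) (nat_lit 55) (nat_lit 5) (nat_lit 51) (nat_lit 5) (nat_lit 366) (nat_lit 310) (nat_lit 104)) (XT.lf (nat_lit 0) (nat_lit 15670627585) (nat_lit 228) (nat_lit 20600116100) (nat_lit 304) (nat_lit 14630515981) (nat_lit 47) (nat_lit 5) (nat_lit 50) (nat_lit 5) (nat_lit 51) (nat_lit 5) (nat_lit 367) (nat_lit 310) (nat_lit 103)))) (XT.nd (nat_lit 78) (nat_lit 304) (nat_lit 0) (XT.lf (nat_lit 0) (nat_lit 35461734632) (nat_lit 228) (nat_lit 7774664579) (nat_lit 304) (nat_lit 8771455426) (nat_lit 47) (nat_lit 5) (nat_lit 50) (nat_lit 5) (nat_lit 51) (nat_lit 5) (nat_lit 368) (nat_lit 310) (nat_lit 102)) (XT.nd (nat_lit 78) (nat_lit 76) (nat_lit 0) (XT.lf (nat_lit 0) (nat_lit 2696873783) (nat_lit 228) (nat_lit 47790610360) (nat_lit 304) (nat_lit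 2657872631) (nat_lit 44) (nat_lit 5) (nat_lit 47) (nat_lit 5) (nat_lit 48) (nat_lit 5) (nat_lit 369) (nat_lit 310) (nat_lit 101)) (XT.lf (nat_lit 0) (nat_lit 3812112929) (nat_lit 304) (nat_lit 31571690060) (nat_lit 76) (nat_lit 18924814247) (nat_lit 43) (nat_lit 5) (nat_lit 47) (nat_lit 5) (nat_lit 44) (nat_lit 5) (nat_lit 370) (nat_lit 310) (nat_lit 100)))))) (XT.nd (nat_lit 35958) (nat_lit 0) (nat_lit 7828) (XT.nd (nat_lit 234) (nat_lit 228) (nat_lit 0) (XT.nd (nat_lit 78) (nat_lit 228) (nat_lit 0) (XT.lf (nat_lit 0) (nat_lit 10421120203) (nat_lit 304) (nat_lit 12157280384) (nat_lit 76) (nat_lit 32927638020) (nat_lit 43) (nat_lit 5) (nat_lit 47) (nat_lit 5) (nat_lit 44) (nat_lit 5) (nat_lit 371) (nat_lit 310) (nat_lit 99)) (XT.nd (nat_lit 78) (nat_lit 0) (nat_lit 0) (XT.lf (nat_lit 0) (nat_lit 7993236005) (nat_lit 228) (nat_lit 9310388589) (nat_lit 304) (nat_lit 39433503982) (nat_lit 40) (nat_lit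 5) (nat_lit 43) (nat_lit 5) (nat_lit 44) (nat_lit 5) (nat_lit 372) (nat_lit 310) (nat_lit 98)) (XT.lf (nat_lit 0) (nat_lit 24556862892) (nat_lit 304) (nat_lit 29049396228) (nat_lit 76) (nat_lit 4393967042) (nat_lit 40) (nat_lit 5) (nat_lit 44) (nat_lit 5) (nat_lit 41) (nat_lit 5) (nat_lit 373) (nat_lit 310) (nat_lit 97)))) (XT.nd (nat_lit 78) (nat_lit 228) (nat_lit 0) (XT.lf (nat_lit 0) (nat_lit 32118336021) (nat_lit 304) (nat_lit 8858502732) (nat_lit 76) (nat_lit 18321661397) (nat_lit 40) (nat_lit 5) (nat_lit 44) (nat_lit 5) (nat_lit 41) (nat_lit 5) (nat_lit 374) (nat_lit 310) (nat_lit 96)) (XT.nd (nat_lit 78) (nat_lit 0) (nat_lit 0) (XT.lf (nat_lit 0) (nat_lit 12173475956) (nat_lit 228) (nat_lit 27848696882) (nat_lit 304) (nat_lit 20610086462) (nat_lit 37) (nat_lit 5) (nat_lit 40) (nat_lit 5) (nat_lit 41) (nat_lit 5) (nat_lit 375) (nat_lit 310) (nat_lit 95)) (XT.lf (nat_lit 0) (nat_lit 34015836124)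 (nat_lit 228) (nat_lit 14235265569) (nat_lit 304) (nat_lit 13752292679) (nat_lit 37) (nat_lit 5) (nat_lit 40) (nat_lit 5) (nat_lit 41) (nat_lit 5) (nat_lit 376) (nat_lit 310) (nat_lit 94))))) (XT.nd (nat_lit 234) (nat_lit 0) (nat_lit 76) (XT.nd (nat_lit 78) (nat_lit 0) (nat_lit 0) (XT.lf (nat_lit 0) (nat_lit 2412151149) (nat_lit 1140) (nat_lit 3474899859) (nat_lit 1140) (nat_lit 3474899859) (nat_lit 140) (nat_lit 3) (nat_lit 155) (nat_lit 3) (nat_lit 155) (nat_lit 5) (nat_lit 311) (nat_lit 311) (nat_lit 158)) (XT.nd (nat_lit 78) (nat_lit 0) (nat_lit 76) (XT.lf (nat_lit 76) (nat_lit 703545678) (nat_lit 0) (nat_lit 4369297557) (nat_lit 1140) (nat_lit 13926176005) (nat_lit 141) (nat_lit 5) (nat_lit 140) (nat_lit 3) (nat_lit 155) (nat_lit 5) (nat_lit 312) (nat_lit 311) (nat_lit 157)) (XT.lf (nat_lit 0) (nat_lit 5424414333) (nat_lit 1064) (nat_lit 10587068180) (nat_lit 1140) (nat_lit 3268058323)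 (nat_lit 141) (nat_lit 5) (nat_lit 155) (nat_lit 5) (nat_lit 156) (nat_lit 5) (nat_lit 313) (nat_lit 311) (nat_lit 156)))) (XT.nd (nat_lit 78) (nat_lit 0) (nat_lit 0) (XT.lf (nat_lit 0) (nat_lit 5823370802) (nat_lit 1064) (nat_lit 2694291814) (nat_lit 1140) (nat_lit 11049727585) (nat_lit 141) (nat_lit 5) (nat_lit 155) (nat_lit 5) (nat_lit 156) (nat_lit 5) (nat_lit 314) (nat_lit 311) (nat_lit 155)) (XT.nd (nat_lit 78) (nat_lit 0) (nat_lit 76) (XT.lf (nat_lit 76) (nat_lit 5539855021) (nat_lit 0) (nat_lit 741458338) (nat_lit 1140) (nat_lit 13581167931) (nat_lit 142) (nat_lit 5) (nat_lit 141) (nat_lit 5) (nat_lit 156) (nat_lit 5) (nat_lit 315) (nat_lit 311) (nat_lit 154)) (XT.lf (nat_lit 0) (nat_lit 6844273520) (nat_lit 1064) (nat_lit 6163191262) (nat_lit 1140) (nat_lit 7156238226) (nat_lit 142) (nat_lit 5) (nat_lit 156) (nat_lit 5) (nat_lit 157) (nat_lit 5) (nat_lit 316) (nat_lit 311) (nat_lit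 153))))))))
noncomputable def xc228 : XT := (XT.nd (nat_lit 1716) (nat_lit 3496) (nat_lit 0) (XT.nd (nat_lit 858) (nat_lit 2888) (nat_lit 0) (XT.nd (nat_lit 390) (nat_lit 0) (nat_lit 152) (XT.nd (nat_lit 156) (nat_lit 0) (nat_lit 76) (XT.nd (nat_lit 78) (nat_lit 0) (nat_lit 76) (XT.lf (nat_lit 76) (nat_lit 2274471852) (nat_lit 0) (nat_lit 5172970095) (nat_lit 1140) (nat_lit 13025835651) (nat_lit 143) (nat_lit 5) (nat_lit 142) (nat_lit 5) (nat_lit 157) (nat_lit 5) (nat_lit 317) (nat_lit 311) (nat_lit 152)) (XT.lf (nat_lit 0) (nat_lit 8153674146) (nat_lit 1064) (nat_lit 9730898253) (nat_lit 1140) (nat_lit 2905033305) (nat_lit 143) (nat_lit 5) (nat_lit 157) (nat_lit 5) (nat_lit 158) (nat_lit 5) (nat_lit 318) (nat_lit 311) (nat_lit 151))) (XT.nd (nat_lit 78) (nat_lit 0) (nat_lit 0) (XT.lf (nat_lit 0) (nat_lit 8926750520) (nat_lit 1064) (nat_lit 1063831693) (nat_lit 1140) (nat_lit 11123486621) (nat_lit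 143) (nat_lit 5) (nat_lit 157) (nat_lit 5) (nat_lit 158) (nat_lit 5) (nat_lit 319) (nat_lit 311) (nat_lit 150)) (XT.nd (nat_lit 78) (nat_lit 0) (nat_lit 76) (XT.lf (nat_lit 76) (nat_lit 8016116151) (nat_lit 0) (nat_lit 1778560478) (nat_lit 1140) (nat_lit 11651453966) (nat_lit 144) (nat_lit 5) (nat_lit 143) (nat_lit 5) (nat_lit 158) (nat_lit 5) (nat_lit 320) (nat_lit 311) (nat_lit 149)) (XT.lf (nat_lit 0) (nat_lit 10758441951) (nat_lit 1064) (nat_lit 4465587226) (nat_lit 1140) (nat_lit 6562045030) (nat_lit 144) (nat_lit 5) (nat_lit 158) (nat_lit 5) (nat_lit 159) (nat_lit 5) (nat_lit 321) (nat_lit 311) (nat_lit 148))))) (XT.nd (nat_lit 234) (nat_lit 0) (nat_lit 76) (XT.nd (nat_lit 78) (nat_lit 0) (nat_lit 76) (XT.lf (nat_lit 76) (nat_lit 4841028883) (nat_lit 0) (nat_lit 6969130854) (nat_lit 1140) (nat_lit 10324298837) (nat_lit 145) (nat_lit 5) (nat_lit 144) (nat_lit 5) (nat_lit 159) (nat_lit 5)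 (nat_lit 322) (nat_lit 311) (nat_lit 147)) (XT.nd (nat_lit 78) (nat_lit 0) (nat_lit 0) (XT.lf (nat_lit 0) (nat_lit 12948732507) (nat_lit 1064) (nat_lit 7992486295) (nat_lit 1140) (nat_lit 1550429801) (nat_lit 145) (nat_lit 5) (nat_lit 159) (nat_lit 5) (nat_lit 160) (nat_lit 5) (nat_lit 323) (nat_lit 311) (nat_lit 146)) (XT.lf (nat_lit 76) (nat_lit 1544999921) (nat_lit 0) (nat_lit 12655483460) (nat_lit 1140) (nat_lit 8656713173) (nat_lit 146) (nat_lit 5) (nat_lit 145) (nat_lit 5) (nat_lit 160) (nat_lit 5) (nat_lit 324) (nat_lit 311) (nat_lit 145)))) (XT.nd (nat_lit 78) (nat_lit 0) (nat_lit 76) (XT.lf (nat_lit 76) (nat_lit 11528851772) (nat_lit 0) (nat_lit 4036917746) (nat_lit 1140) (nat_lit 7665674416) (nat_lit 146) (nat_lit 5) (nat_lit 145) (nat_lit 5) (nat_lit 160) (nat_lit 5) (nat_lit 325) (nat_lit 311) (nat_lit 144)) (XT.nd (nat_lit 78) (nat_lit 0) (nat_lit 0) (XT.lf (nat_lit 0) (nat_lit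 17013963724) (nat_lit 1064) (nat_lit 1854879171) (nat_lit 1140) (nat_lit 4746829469) (nat_lit 146) (nat_lit 5) (nat_lit 160) (nat_lit 5) (nat_lit 161) (nat_lit 5) (nat_lit 326) (nat_lit 311) (nat_lit 143)) (XT.lf (nat_lit 76) (nat_lit 8408836193) (nat_lit 0) (nat_lit 10213123721) (nat_lit 1140) (nat_lit 5385988807) (nat_lit 147) (nat_lit 5) (nat_lit 146) (nat_lit 5) (nat_lit 161) (nat_lit 5) (nat_lit 327) (nat_lit 311) (nat_lit 142)))))) (XT.nd (nat_lit 390) (nat_lit 1520) (nat_lit 0) (XT.nd (nat_lit 156) (nat_lit 684) (nat_lit 0) (XT.nd (nat_lit 78) (nat_lit 988) (nat_lit 0) (XT.lf (nat_lit 76) (nat_lit 19014974775) (nat_lit 0) (nat_lit 1277603344) (nat_lit 1140) (nat_lit 4118995201) (nat_lit 147) (nat_lit 5) (nat_lit 146) (nat_lit 5) (nat_lit 161) (nat_lit 5) (nat_lit 328) (nat_lit 311) (nat_lit 141)) (XT.lf (nat_lit 0) (nat_lit 5132398315) (nat_lit 1064) (nat_lit 17002227657) (nat_lit 1140)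 (nat_lit 2689052437) (nat_lit 133) (nat_lit 5) (nat_lit 147) (nat_lit 5) (nat_lit 148) (nat_lit 5) (nat_lit 329) (nat_lit 311) (nat_lit 140))) (XT.nd (nat_lit 78) (nat_lit 684) (nat_lit 0) (XT.lf (nat_lit 0) (nat_lit 16071468898) (nat_lit 1064) (nat_lit 8023361807) (nat_lit 1140) (nat_lit 1151439841) (nat_lit 133) (nat_lit 5) (nat_lit 147) (nat_lit 5) (nat_lit 148) (nat_lit 5) (nat_lit 330) (nat_lit 311) (nat_lit 139)) (XT.nd (nat_lit 78) (nat_lit 0) (nat_lit 0) (XT.lf (nat_lit 0) (nat_lit 447962846) (nat_lit 684) (nat_lit 24010707296) (nat_lit 76) (nat_lit 1222032859) (nat_lit 124) (nat_lit 5) (nat_lit 133) (nat_lit 5) (nat_lit 125) (nat_lit 5) (nat_lit 331) (nat_lit 311) (nat_lit 138)) (XT.lf (nat_lit 0) (nat_lit 2241243444) (nat_lit 684) (nat_lit 13192542034) (nat_lit 76) (nat_lit 10688979629) (nat_lit 124) (nat_lit 5) (nat_lit 133) (nat_lit 5) (nat_lit 125) (nat_lit 5) (nat_lit 332) (nat_lit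 311) (nat_lit 137))))) (XT.nd (nat_lit 234) (nat_lit 988) (nat_lit 0) (XT.nd (nat_lit 78) (nat_lit 532) (nat_lit 0) (XT.lf (nat_lit 0) (nat_lit 4084472551) (nat_lit 684) (nat_lit 2053334267) (nat_lit 76) (nat_lit 20440407315) (nat_lit 124) (nat_lit 5) (nat_lit 133) (nat_lit 5) (nat_lit 125) (nat_lit 5) (nat_lit 333) (nat_lit 311) (nat_lit 136)) (XT.nd (nat_lit 78) (nat_lit 0) (nat_lit 0) (XT.lf (nat_lit 0) (nat_lit 6105537189) (nat_lit 608) (nat_lit 17474575710) (nat_lit 76) (nat_lit 3463546855) (nat_lit 117) (nat_lit 5) (nat_lit 125) (nat_lit 5) (nat_lit 118) (nat_lit 5) (nat_lit 334) (nat_lit 311) (nat_lit 135)) (XT.lf (nat_lit 0) (nat_lit 8265285627) (nat_lit 608) (nat_lit 6004644897) (nat_lit 76) (nat_lit 13250805674) (nat_lit 117) (nat_lit 5) (nat_lit 125) (nat_lit 5) (nat_lit 118) (nat_lit 5) (nat_lit 335) (nat_lit 311) (nat_lit 134)))) (XT.nd (nat_lit 78) (nat_lit 456) (nat_lit 0) (XT.lf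 (nat_lit 0) (nat_lit 5921547392) (nat_lit 532) (nat_lit 4621648772) (nat_lit 608) (nat_lit 17467336433) (nat_lit 110) (nat_lit 5) (nat_lit 117) (nat_lit 5) (nat_lit 118) (nat_lit 5) (nat_lit 336) (nat_lit 311) (nat_lit 133)) (XT.nd (nat_lit 78) (nat_lit 456) (nat_lit 0) (XT.lf (nat_lit 0) (nat_lit 12998301473) (nat_lit 608) (nat_lit 10239758915) (nat_lit 76) (nat_lit 5273705270) (nat_lit 110) (nat_lit 5) (nat_lit 118) (nat_lit 5) (nat_lit 111) (nat_lit 5) (nat_lit 337) (nat_lit 311) (nat_lit 132)) (XT.lf (nat_lit 0) (nat_lit 1953946724) (nat_lit 456) (nat_lit 13634276530) (nat_lit 532) (nat_lit 13437985804) (nat_lit 104) (nat_lit 5) (nat_lit 110) (nat_lit 5) (nat_lit 111) (nat_lit 5) (nat_lit 338) (nat_lit 311) (nat_lit 131))))))) (XT.nd (nat_lit 858) (nat_lit 1748) (nat_lit 0) (XT.nd (nat_lit 390) (nat_lit 912) (nat_lit 0) (XT.nd (nat_lit 156) (nat_lit 836) (nat_lit 0) (XT.nd (nat_lit 78) (nat_lit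 0) (nat_lit 0) (XT.lf (nat_lit 0) (nat_lit 14720034484) (nat_lit 456) (nat_lit 3635897920) (nat_lit 532) (nat_lit 11197158673) (nat_lit 104) (nat_lit 5) (nat_lit 110) (nat_lit 5) (nat_lit 111) (nat_lit 5) (nat_lit 339) (nat_lit 311) (nat_lit 130)) (XT.lf (nat_lit 0) (nat_lit 21267500679) (nat_lit 532) (nat_lit 2294059037) (nat_lit 76) (nat_lit 6532402777) (nat_lit 104) (nat_lit 5) (nat_lit 111) (nat_lit 5) (nat_lit 105) (nat_lit 5) (nat_lit 340) (nat_lit 311) (nat_lit 129))) (XT.nd (nat_lit 78) (nat_lit 380) (nat_lit 0) (XT.lf (nat_lit 0) (nat_lit 10792465658) (nat_lit 456) (nat_lit 13610571249) (nat_lit 532) (nat_lit 6243932066) (nat_lit 98) (nat_lit 5) (nat_lit 104) (nat_lit 5) (nat_lit 105) (nat_lit 5) (nat_lit 341) (nat_lit 311) (nat_lit 128)) (XT.nd (nat_lit 78) (nat_lit 380) (nat_lit 0) (XT.lf (nat_lit 0) (nat_lit 24315400184) (nat_lit 456) (nat_lit 3337342725) (nat_lit 532) (nat_lit 3563226956)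 (nat_lit 98) (nat_lit 5) (nat_lit 104) (nat_lit 5) (nat_lit 105) (nat_lit 5) (nat_lit 342) (nat_lit 311) (nat_lit 127)) (XT.lf (nat_lit 0) (nat_lit 6495892448) (nat_lit 380) (nat_lit 24633150655) (nat_lit 456) (nat_lit 669131704) (nat_lit 93) (nat_lit 5) (nat_lit 98) (nat_lit 5) (nat_lit 99) (nat_lit 5) (nat_lit 343) (nat_lit 311) (nat_lit 126))))) (XT.nd (nat_lit 234) (nat_lit 380) (nat_lit 0) (XT.nd (nat_lit 78) (nat_lit 456) (nat_lit 0) (XT.lf (nat_lit 0) (nat_lit 2367136610) (nat_lit 456) (nat_lit 12019254503) (nat_lit 76) (nat_lit 18007780976) (nat_lit 92) (nat_lit 5) (nat_lit 98) (nat_lit 5) (nat_lit 93) (nat_lit 5) (nat_lit 344) (nat_lit 311) (nat_lit 125)) (XT.nd (nat_lit 78) (nat_lit 0) (nat_lit 0) (XT.lf (nat_lit 0) (nat_lit 1685374217) (nat_lit 456) (nat_lit 3809003090) (nat_lit 532) (nat_lit 27513079744) (nat_lit 86) (nat_lit 5) (nat_lit 92) (nat_lit 5) (nat_lit 93) (nat_lit 5) (nat_lit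 345) (nat_lit 311) (nat_lit 124)) (XT.lf (nat_lit 0) (nat_lit 8903302896) (nat_lit 532) (nat_lit 17660498045) (nat_lit 76) (nat_lit 7069709913) (nat_lit 86) (nat_lit 5) (nat_lit 93) (nat_lit 5) (nat_lit 87) (nat_lit 5) (nat_lit 346) (nat_lit 311) (nat_lit 123)))) (XT.nd (nat_lit 78) (nat_lit 380) (nat_lit 0) (XT.lf (nat_lit 0) (nat_lit 12449474133) (nat_lit 532) (nat_lit 3629894637) (nat_lit 76) (nat_lit 18197934301) (nat_lit 86) (nat_lit 5) (nat_lit 93) (nat_lit 5) (nat_lit 87) (nat_lit 5) (nat_lit 347) (nat_lit 311) (nat_lit 122)) (XT.nd (nat_lit 78) (nat_lit 0) (nat_lit 0) (XT.lf (nat_lit 0) (nat_lit 11033912992) (nat_lit 380) (nat_lit 5171526876) (nat_lit 456) (nat_lit 18731872862) (nat_lit 81) (nat_lit 5) (nat_lit 86) (nat_lit 5) (nat_lit 87) (nat_lit 5) (nat_lit 348) (nat_lit 311) (nat_lit 121)) (XT.lf (nat_lit 0) (nat_lit 20166778315) (nat_lit 456) (nat_lit 9465704236) (nat_lit 76) (nat_lit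 5981865102) (nat_lit 81) (nat_lit 5) (nat_lit 87) (nat_lit 5) (nat_lit 82) (nat_lit 5) (nat_lit 349) (nat_lit 311) (nat_lit 120)))))) (XT.nd (nat_lit 468) (nat_lit 608) (nat_lit 0) (XT.nd (nat_lit 234) (nat_lit 760) (nat_lit 0) (XT.nd (nat_lit 78) (nat_lit 0) (nat_lit 0) (XT.lf (nat_lit 0) (nat_lit 5457426677) (nat_lit 380) (nat_lit 18890659081) (nat_lit 456) (nat_lit 11960579615) (nat_lit 76) (nat_lit 5) (nat_lit 81) (nat_lit 5) (nat_lit 82) (nat_lit 5) (nat_lit 350) (nat_lit 311) (nat_lit 119)) (XT.nd (nat_lit 78) (nat_lit 0) (nat_lit 0) (XT.lf (nat_lit 0) (nat_lit 21019332181) (nat_lit 380) (nat_lit 7728596175) (nat_lit 456) (nat_lit 8273096842) (nat_lit 76) (nat_lit 5) (nat_lit 81) (nat_lit 5) (nat_lit 82) (nat_lit 5) (nat_lit 351) (nat_lit 311) (nat_lit 118)) (XT.lf (nat_lit 0) (nat_lit 33313568725) (nat_lit 456) (nat_lit 745828742) (nat_lit 76) (nat_lit 3694349572) (nat_lit 76) (nat_lit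 5) (nat_lit 82) (nat_lit 5) (nat_lit 77) (nat_lit 5) (nat_lit 352) (nat_lit 311) (nat_lit 117)))) (XT.nd (nat_lit 78) (nat_lit 456) (nat_lit 0) (XT.lf (nat_lit 0) (nat_lit 15184639175) (nat_lit 304) (nat_lit 23051673450) (nat_lit 380) (nat_lit 265539019) (nat_lit 72) (nat_lit 5) (nat_lit 76) (nat_lit 5) (nat_lit 77) (nat_lit 5) (nat_lit 353) (nat_lit 311) (nat_lit 116)) (XT.nd (nat_lit 78) (nat_lit 380) (nat_lit 0) (XT.lf (nat_lit 0) (nat_lit 3960883958) (nat_lit 380) (nat_lit 7705600532) (nat_lit 76) (nat_lit 27604598256) (nat_lit 71) (nat_lit 5) (nat_lit 76) (nat_lit 5) (nat_lit 72) (nat_lit 5) (nat_lit 354) (nat_lit 311) (nat_lit 115)) (XT.lf (nat_lit 0) (nat_lit 8389954566) (nat_lit 456) (nat_lit 31526844883) (nat_lit 76) (nat_lit 144081401) (nat_lit 66) (nat_lit 5) (nat_lit 72) (nat_lit 5) (nat_lit 67) (nat_lit 5) (nat_lit 355) (nat_lit 311) (nat_lit 114))))) (XT.nd (nat_lit 234) (nat_lit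 304) (nat_lit 0) (XT.nd (nat_lit 78) (nat_lit 304) (nat_lit 0) (XT.lf (nat_lit 0) (nat_lit 13143754248) (nat_lit 456) (nat_lit 15572336639) (nat_lit 76) (nat_lit 12152530868) (nat_lit 66) (nat_lit 5) (nat_lit 72) (nat_lit 5) (nat_lit 67) (nat_lit 5) (nat_lit 356) (nat_lit 311) (nat_lit 113)) (XT.nd (nat_lit 78) (nat_lit 0) (nat_lit 0) (XT.lf (nat_lit 0) (nat_lit 875129659) (nat_lit 304) (nat_lit 17171280972) (nat_lit 380) (nat_lit 23654001409) (nat_lit 62) (nat_lit 5) (nat_lit 66) (nat_lit 5) (nat_lit 67) (nat_lit 5) (nat_lit 357) (nat_lit 311) (nat_lit 112)) (XT.lf (nat_lit 0) (nat_lit 18132510459) (nat_lit 304) (nat_lit 5118753717) (nat_lit 380) (nat_lit 19301242637) (nat_lit 62) (nat_lit 5) (nat_lit 66) (nat_lit 5) (nat_lit 67) (nat_lit 5) (nat_lit 358) (nat_lit 311) (nat_lit 111)))) (XT.nd (nat_lit 78) (nat_lit 304) (nat_lit 0) (XT.lf (nat_lit 0) (nat_lit 28680314659) (nat_lit 380) (nat_lit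 7595387543) (nat_lit 76) (nat_lit 7152424865) (nat_lit 62) (nat_lit 5) (nat_lit 67) (nat_lit 5) (nat_lit 63) (nat_lit 5) (nat_lit 359) (nat_lit 311) (nat_lit 110)) (XT.nd (nat_lit 78) (nat_lit 0) (nat_lit 0) (XT.lf (nat_lit 0) (nat_lit 9873313154) (nat_lit 304) (nat_lit 24542496997) (nat_lit 380) (nat_lit 9909902632) (nat_lit 58) (nat_lit 5) (nat_lit 62) (nat_lit 5) (nat_lit 63) (nat_lit 5) (nat_lit 360) (nat_lit 311) (nat_lit 109)) (XT.lf (nat_lit 0) (nat_lit 28019169101) (nat_lit 304) (nat_lit 12378918042) (nat_lit 380) (nat_lit 4849901366) (nat_lit 58) (nat_lit 5) (nat_lit 62) (nat_lit 5) (nat_lit 63) (nat_lit 5) (nat_lit 361) (nat_lit 311) (nat_lit 108))))))))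
noncomputable def xc229 : XT := (XT.nd (nat_lit 37284) (nat_lit 0) (nat_lit 5092) (XT.nd (nat_lit 858) (nat_lit 456) (nat_lit 0) (XT.nd (nat_lit 390) (nat_lit 532) (nat_lit 0) (XT.nd (nat_lit 156) (nat_lit 304) (nat_lit 0) (XT.nd (nat_lit 78) (nat_lit 0) (nat_lit 0) (XT.lf (nat_lit 0) (nat_lit 359361346) (nat_lit 304) (nat_lit 45683779013) (nat_lit 76) (nat_lit 154555795) (nat_lit 54) (nat_lit 5) (nat_lit 58) (nat_lit 5) (nat_lit 55) (nat_lit 5) (nat_lit 362) (nat_lit 311) (nat_lit 107)) (XT.lf (nat_lit 0) (nat_lit 5923766331) (nat_lit 304) (nat_lit 28203471111) (nat_lit 76) (nat_lit 13038330348) (nat_lit 54) (nat_lit 5) (nat_lit 58) (nat_lit 5) (nat_lit 55) (nat_lit 5) (nat_lit 363) (nat_lit 311) (nat_lit 106))) (XT.nd (nat_lit 78) (nat_lit 304) (nat_lit 0) (XT.lf (nat_lit 0) (nat_lit 11653238630) (nat_lit 304) (nat_lit 10201278418) (nat_lit 76) (nat_lit 26308017972) (nat_lit 54) (nat_lit 5)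 (nat_lit 58) (nat_lit 5) (nat_lit 55) (nat_lit 5) (nat_lit 364) (nat_lit 311) (nat_lit 105)) (XT.nd (nat_lit 78) (nat_lit 0) (nat_lit 0) (XT.lf (nat_lit 0) (nat_lit 8504482218) (nat_lit 304) (nat_lit 9130052647) (nat_lit 380) (nat_lit 31552481608) (nat_lit 50) (nat_lit 5) (nat_lit 54) (nat_lit 5) (nat_lit 55) (nat_lit 5) (nat_lit 365) (nat_lit 311) (nat_lit 104)) (XT.lf (nat_lit 0) (nat_lit 23935736648) (nat_lit 380) (nat_lit 22300328590) (nat_lit 76) (nat_lit 4001956429) (nat_lit 50) (nat_lit 5) (nat_lit 55) (nat_lit 5) (nat_lit 51) (nat_lit 5) (nat_lit 366) (nat_lit 311) (nat_lit 103))))) (XT.nd (nat_lit 234) (nat_lit 304) (nat_lit 0) (XT.nd (nat_lit 78) (nat_lit 228) (nat_lit 0) (XT.lf (nat_lit 0) (nat_lit 30514635781) (nat_lit 380) (nat_lit 3459458571) (nat_lit 76) (nat_lit 17343806028) (nat_lit 50) (nat_lit 5) (nat_lit 55) (nat_lit 5) (nat_lit 51) (nat_lit 5) (nat_lit 367) (nat_lit 311)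 (nat_lit 102)) (XT.nd (nat_lit 78) (nat_lit 0) (nat_lit 0) (XT.lf (nat_lit 0) (nat_lit 16261625227) (nat_lit 228) (nat_lit 21183908629) (nat_lit 304) (nat_lit 14980005751) (nat_lit 47) (nat_lit 5) (nat_lit 50) (nat_lit 5) (nat_lit 51) (nat_lit 5) (nat_lit 368) (nat_lit 311) (nat_lit 101)) (XT.lf (nat_lit 0) (nat_lit 36642944743) (nat_lit 228) (nat_lit 7974689998) (nat_lit 304) (nat_lit 8947778011) (nat_lit 47) (nat_lit 5) (nat_lit 50) (nat_lit 5) (nat_lit 51) (nat_lit 5) (nat_lit 369) (nat_lit 311) (nat_lit 100)))) (XT.nd (nat_lit 78) (nat_lit 76) (nat_lit 0) (XT.lf (nat_lit 0) (nat_lit 2896322625) (nat_lit 228) (nat_lit 49188928295) (nat_lit 304) (nat_lit 2651823534) (nat_lit 44) (nat_lit 5) (nat_lit 47) (nat_lit 5) (nat_lit 48) (nat_lit 5) (nat_lit 370) (nat_lit 311) (nat_lit 99)) (XT.nd (nat_lit 78) (nat_lit 0) (nat_lit 0) (XT.lf (nat_lit 0) (nat_lit 4008137769) (nat_lit 304) (nat_lit 32401985392)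 (nat_lit 76) (nat_lit 19525162532) (nat_lit 43) (nat_lit 5) (nat_lit 47) (nat_lit 5) (nat_lit 44) (nat_lit 5) (nat_lit 371) (nat_lit 311) (nat_lit 98)) (XT.lf (nat_lit 0) (nat_lit 10813036773) (nat_lit 304) (nat_lit 12408546980) (nat_lit 76) (nat_lit 33947121391) (nat_lit 43) (nat_lit 5) (nat_lit 47) (nat_lit 5) (nat_lit 44) (nat_lit 5) (nat_lit 372) (nat_lit 311) (nat_lit 97)))))) (XT.nd (nat_lit 35958) (nat_lit 0) (nat_lit 7828) (XT.nd (nat_lit 156) (nat_lit 228) (nat_lit 0) (XT.nd (nat_lit 78) (nat_lit 0) (nat_lit 0) (XT.lf (nat_lit 0) (nat_lit 8345372627) (nat_lit 228) (nat_lit 9555414332) (nat_lit 304) (nat_lit 40535981698) (nat_lit 40) (nat_lit 5) (nat_lit 43) (nat_lit 5) (nat_lit 44) (nat_lit 5) (nat_lit 373) (nat_lit 311) (nat_lit 96)) (XT.lf (nat_lit 0) (nat_lit 25369668978) (nat_lit 304) (nat_lit 29809728851) (nat_lit 76) (nat_lit 4558423794) (nat_lit 40) (nat_lit 5) (nat_lit 44) (nat_lit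 5) (nat_lit 41) (nat_lit 5) (nat_lit 374) (nat_lit 311) (nat_lit 95))) (XT.nd (nat_lit 78) (nat_lit 228) (nat_lit 0) (XT.lf (nat_lit 0) (nat_lit 33155769789) (nat_lit 304) (nat_lit 9016345908) (nat_lit 76) (nat_lit 18902998366) (nat_lit 40) (nat_lit 5) (nat_lit 44) (nat_lit 5) (nat_lit 41) (nat_lit 5) (nat_lit 375) (nat_lit 311) (nat_lit 94)) (XT.nd (nat_lit 35646) (nat_lit 0) (nat_lit 7828) (XT.lf (nat_lit 0) (nat_lit 12645534182) (nat_lit 228) (nat_lit 28650062723) (nat_lit 304) (nat_lit 21153326456) (nat_lit 37) (nat_lit 5) (nat_lit 40) (nat_lit 5) (nat_lit 41) (nat_lit 5) (nat_lit 376) (nat_lit 311) (nat_lit 93)) (XT.lf (nat_lit 0) (nat_lit 2652300668) (nat_lit 1140) (nat_lit 3492511913) (nat_lit 1140) (nat_lit 3492511913) (nat_lit 140) (nat_lit 3) (nat_lit 155) (nat_lit 3) (nat_lit 155) (nat_lit 5) (nat_lit 312) (nat_lit 312) (nat_lit 156))))) (XT.nd (nat_lit 234) (nat_lit 0) (nat_lit 76)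 (XT.nd (nat_lit 78) (nat_lit 0) (nat_lit 76) (XT.lf (nat_lit 76) (nat_lit 896223208) (nat_lit 0) (nat_lit 4656250657) (nat_lit 1140) (nat_lit 14005816185) (nat_lit 141) (nat_lit 5) (nat_lit 140) (nat_lit 3) (nat_lit 155) (nat_lit 5) (nat_lit 313) (nat_lit 312) (nat_lit 155)) (XT.nd (nat_lit 78) (nat_lit 0) (nat_lit 0) (XT.lf (nat_lit 0) (nat_lit 5903600136) (nat_lit 1064) (nat_lit 10726263444) (nat_lit 1140) (nat_lit 3217718998) (nat_lit 141) (nat_lit 5) (nat_lit 155) (nat_lit 5) (nat_lit 156) (nat_lit 5) (nat_lit 314) (nat_lit 312) (nat_lit 154)) (XT.lf (nat_lit 0) (nat_lit 6305308211) (nat_lit 1064) (nat_lit 2601900393) (nat_lit 1140) (nat_lit 11237160117) (nat_lit 141) (nat_lit 5) (nat_lit 155) (nat_lit 5) (nat_lit 156) (nat_lit 5) (nat_lit 315) (nat_lit 312) (nat_lit 153)))) (XT.nd (nat_lit 78) (nat_lit 0) (nat_lit 76) (XT.lf (nat_lit 76) (nat_lit 5877572610) (nat_lit 0) (nat_lit 892116579)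 (nat_lit 1140) (nat_lit 13678866410) (nat_lit 142) (nat_lit 5) (nat_lit 141) (nat_lit 5) (nat_lit 156) (nat_lit 5) (nat_lit 316) (nat_lit 312) (nat_lit 152)) (XT.nd (nat_lit 78) (nat_lit 0) (nat_lit 0) (XT.lf (nat_lit 0) (nat_lit 7339603698) (nat_lit 1064) (nat_lit 6170847711) (nat_lit 1140) (nat_lit 7248683954) (nat_lit 142) (nat_lit 5) (nat_lit 156) (nat_lit 5) (nat_lit 157) (nat_lit 5) (nat_lit 317) (nat_lit 312) (nat_lit 151)) (XT.lf (nat_lit 76) (nat_lit 2518207656) (nat_lit 0) (nat_lit 5435899890) (nat_lit 1140) (nat_lit 13124115112) (nat_lit 143) (nat_lit 5) (nat_lit 142) (nat_lit 5) (nat_lit 157) (nat_lit 5) (nat_lit 318) (nat_lit 312) (nat_lit 150))))))) (XT.nd (nat_lit 858) (nat_lit 2964) (nat_lit 0) (XT.nd (nat_lit 390) (nat_lit 0) (nat_lit 152) (XT.nd (nat_lit 156) (nat_lit 0) (nat_lit 0) (XT.nd (nat_lit 78) (nat_lit 0) (nat_lit 0) (XT.lf (nat_lit 0) (nat_lit 8672271431) (nat_lit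 1064) (nat_lit 9842445992) (nat_lit 1140) (nat_lit 2889622864) (nat_lit 143) (nat_lit 5) (nat_lit 157) (nat_lit 5) (nat_lit 158) (nat_lit 5) (nat_lit 319) (nat_lit 312) (nat_lit 149)) (XT.lf (nat_lit 0) (nat_lit 9460559890) (nat_lit 1064) (nat_lit 920621198) (nat_lit 1140) (nat_lit 11357617006) (nat_lit 143) (nat_lit 5) (nat_lit 157) (nat_lit 5) (nat_lit 158) (nat_lit 5) (nat_lit 320) (nat_lit 312) (nat_lit 148))) (XT.nd (nat_lit 78) (nat_lit 0) (nat_lit 76) (XT.lf (nat_lit 76) (nat_lit 8430008165) (nat_lit 0) (nat_lit 1918434754) (nat_lit 1140) (nat_lit 11732581971) (nat_lit 144) (nat_lit 5) (nat_lit 143) (nat_lit 5) (nat_lit 158) (nat_lit 5) (nat_lit 321) (nat_lit 312) (nat_lit 147)) (XT.nd (nat_lit 78) (nat_lit 0) (nat_lit 0) (XT.lf (nat_lit 0) (nat_lit 11332743105) (nat_lit 1064) (nat_lit 4422147259) (nat_lit 1140) (nat_lit 6676547940) (nat_lit 144) (nat_lit 5) (nat_lit 158) (nat_lit 5)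 (nat_lit 159) (nat_lit 5) (nat_lit 322) (nat_lit 312) (nat_lit 146)) (XT.lf (nat_lit 76) (nat_lit 5161928044) (nat_lit 0) (nat_lit 7248446374) (nat_lit 1140) (nat_lit 10380088488) (nat_lit 145) (nat_lit 5) (nat_lit 144) (nat_lit 5) (nat_lit 159) (nat_lit 5) (nat_lit 323) (nat_lit 312) (nat_lit 145))))) (XT.nd (nat_lit 234) (nat_lit 0) (nat_lit 76) (XT.nd (nat_lit 78) (nat_lit 0) (nat_lit 0) (XT.lf (nat_lit 0) (nat_lit 13575286408) (nat_lit 1064) (nat_lit 8053258043) (nat_lit 1140) (nat_lit 1530077716) (nat_lit 145) (nat_lit 5) (nat_lit 159) (nat_lit 5) (nat_lit 160) (nat_lit 5) (nat_lit 324) (nat_lit 312) (nat_lit 144)) (XT.nd (nat_lit 78) (nat_lit 0) (nat_lit 0) (XT.lf (nat_lit 76) (nat_lit 1768597829) (nat_lit 0) (nat_lit 13090761078) (nat_lit 1140) (nat_lit 8675953018) (nat_lit 146) (nat_lit 5) (nat_lit 145) (nat_lit 5) (nat_lit 160) (nat_lit 5) (nat_lit 325) (nat_lit 312) (nat_lit 143))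 (XT.lf (nat_lit 76) (nat_lit 12046802675) (nat_lit 0) (nat_lit 4212018593) (nat_lit 1140) (nat_lit 7662186833) (nat_lit 146) (nat_lit 5) (nat_lit 145) (nat_lit 5) (nat_lit 160) (nat_lit 5) (nat_lit 326) (nat_lit 312) (nat_lit 142)))) (XT.nd (nat_lit 78) (nat_lit 0) (nat_lit 0) (XT.lf (nat_lit 0) (nat_lit 17743372585) (nat_lit 1064) (nat_lit 1735784267) (nat_lit 1140) (nat_lit 4837836576) (nat_lit 146) (nat_lit 5) (nat_lit 160) (nat_lit 5) (nat_lit 161) (nat_lit 5) (nat_lit 327) (nat_lit 312) (nat_lit 141)) (XT.nd (nat_lit 78) (nat_lit 0) (nat_lit 0) (XT.lf (nat_lit 76) (nat_lit 8834129408) (nat_lit 0) (nat_lit 10560764157) (nat_lit 1140) (nat_lit 5326302840) (nat_lit 147) (nat_lit 5) (nat_lit 146) (nat_lit 5) (nat_lit 161) (nat_lit 5) (nat_lit 328) (nat_lit 312) (nat_lit 140)) (XT.lf (nat_lit 76) (nat_lit 19753412493) (nat_lit 0) (nat_lit 1355976808) (nat_lit 1140) (nat_lit 4027744056) (nat_lit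 147) (nat_lit 5) (nat_lit 146) (nat_lit 5) (nat_lit 161) (nat_lit 5) (nat_lit 329) (nat_lit 312) (nat_lit 139)))))) (XT.nd (nat_lit 468) (nat_lit 988) (nat_lit 0) (XT.nd (nat_lit 234) (nat_lit 532) (nat_lit 0) (XT.nd (nat_lit 78) (nat_lit 684) (nat_lit 0) (XT.lf (nat_lit 0) (nat_lit 5459813582) (nat_lit 1064) (nat_lit 17542119283) (nat_lit 1140) (nat_lit 2559827610) (nat_lit 133) (nat_lit 5) (nat_lit 147) (nat_lit 5) (nat_lit 148) (nat_lit 5) (nat_lit 330) (nat_lit 312) (nat_lit 138)) (XT.nd (nat_lit 78) (nat_lit 684) (nat_lit 0) (XT.lf (nat_lit 0) (nat_lit 16722004536) (nat_lit 1064) (nat_lit 8293018774) (nat_lit 1140) (nat_lit 982200124) (nat_lit 133) (nat_lit 5) (nat_lit 147) (nat_lit 5) (nat_lit 148) (nat_lit 5) (nat_lit 331) (nat_lit 312) (nat_lit 137)) (XT.lf (nat_lit 0) (nat_lit 656798807) (nat_lit 684) (nat_lit 24553266059) (nat_lit 76) (nat_lit 1234712067) (nat_lit 124) (nat_lit 5)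 (nat_lit 133) (nat_lit 5) (nat_lit 125) (nat_lit 5) (nat_lit 332) (nat_lit 312) (nat_lit 136)))) (XT.nd (nat_lit 78) (nat_lit 532) (nat_lit 0) (XT.lf (nat_lit 0) (nat_lit 2498186646) (nat_lit 684) (nat_lit 13415733386) (nat_lit 76) (nat_lit 10986365739) (nat_lit 124) (nat_lit 5) (nat_lit 133) (nat_lit 5) (nat_lit 125) (nat_lit 5) (nat_lit 333) (nat_lit 312) (nat_lit 135)) (XT.nd (nat_lit 78) (nat_lit 532) (nat_lit 0) (XT.lf (nat_lit 0) (nat_lit 4391187212) (nat_lit 684) (nat_lit 1947376131) (nat_lit 76) (nat_lit 21031014409) (nat_lit 124) (nat_lit 5) (nat_lit 133) (nat_lit 5) (nat_lit 125) (nat_lit 5) (nat_lit 334) (nat_lit 312) (nat_lit 134)) (XT.lf (nat_lit 0) (nat_lit 6468974850) (nat_lit 608) (nat_lit 17826901810) (nat_lit 76) (nat_lit 3553240671) (nat_lit 117) (nat_lit 5) (nat_lit 125) (nat_lit 5) (nat_lit 118) (nat_lit 5) (nat_lit 335) (nat_lit 312) (nat_lit 133))))) (XT.nd (nat_lit 234)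 (nat_lit 456) (nat_lit 0) (XT.nd (nat_lit 78) (nat_lit 532) (nat_lit 0) (XT.lf (nat_lit 0) (nat_lit 8688265114) (nat_lit 608) (nat_lit 6017880194) (nat_lit 76) (nat_lit 13634531214) (nat_lit 117) (nat_lit 5) (nat_lit 125) (nat_lit 5) (nat_lit 118) (nat_lit 5) (nat_lit 336) (nat_lit 312) (nat_lit 132)) (XT.nd (nat_lit 78) (nat_lit 0) (nat_lit 0) (XT.lf (nat_lit 0) (nat_lit 6264461549) (nat_lit 532) (nat_lit 4766542376) (nat_lit 608) (nat_lit 17814280716) (nat_lit 110) (nat_lit 5) (nat_lit 117) (nat_lit 5) (nat_lit 118) (nat_lit 5) (nat_lit 337) (nat_lit 312) (nat_lit 131)) (XT.lf (nat_lit 0) (nat_lit 13554708627) (nat_lit 608) (nat_lit 10381037419) (nat_lit 76) (nat_lit 5425972452) (nat_lit 110) (nat_lit 5) (nat_lit 118) (nat_lit 5) (nat_lit 111) (nat_lit 5) (nat_lit 338) (nat_lit 312) (nat_lit 130)))) (XT.nd (nat_lit 78) (nat_lit 0) (nat_lit 0) (XT.lf (nat_lit 0) (nat_lit 2176852779) (nat_lit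 456) (nat_lit 14042206223) (nat_lit 532) (nat_lit 13672646108) (nat_lit 104) (nat_lit 5) (nat_lit 110) (nat_lit 5) (nat_lit 111) (nat_lit 5) (nat_lit 339) (nat_lit 312) (nat_lit 129)) (XT.nd (nat_lit 78) (nat_lit 0) (nat_lit 0) (XT.lf (nat_lit 0) (nat_lit 15321138094) (nat_lit 456) (nat_lit 3743908253) (nat_lit 532) (nat_lit 11369501326) (nat_lit 104) (nat_lit 5) (nat_lit 110) (nat_lit 5) (nat_lit 111) (nat_lit 5) (nat_lit 340) (nat_lit 312) (nat_lit 128)) (XT.lf (nat_lit 0) (nat_lit 22059356984) (nat_lit 532) (nat_lit 2203047353) (nat_lit 76) (nat_lit 6729390192) (nat_lit 104) (nat_lit 5) (nat_lit 111) (nat_lit 5) (nat_lit 105) (nat_lit 5) (nat_lit 341) (nat_lit 312) (nat_lit 127))))))))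
noncomputable def xc230 : XT := (XT.nd (nat_lit 1716) (nat_lit 1064) (nat_lit 0) (XT.nd (nat_lit 858) (nat_lit 1672) (nat_lit 0) (XT.nd (nat_lit 390) (nat_lit 760) (nat_lit 0) (XT.nd (nat_lit 156) (nat_lit 912) (nat_lit 0) (XT.nd (nat_lit 78) (nat_lit 0) (nat_lit 0) (XT.lf (nat_lit 0) (nat_lit 11274506089) (nat_lit 456) (nat_lit 14011494042) (nat_lit 532) (nat_lit 6275490681) (nat_lit 98) (nat_lit 5) (nat_lit 104) (nat_lit 5) (nat_lit 105) (nat_lit 5) (nat_lit 342) (nat_lit 312) (nat_lit 126)) (XT.lf (nat_lit 0) (nat_lit 25198518947) (nat_lit 456) (nat_lit 3430284031) (nat_lit 532) (nat_lit 3518901097) (nat_lit 98) (nat_lit 5) (nat_lit 104) (nat_lit 5) (nat_lit 105) (nat_lit 5) (nat_lit 343) (nat_lit 312) (nat_lit 125))) (XT.nd (nat_lit 78) (nat_lit 532) (nat_lit 0) (XT.lf (nat_lit 0) (nat_lit 6847549576) (nat_lit 380) (nat_lit 25359150327) (nat_lit 456) (nat_lit 540766242) (nat_lit 93) (nat_lit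 5) (nat_lit 98) (nat_lit 5) (nat_lit 99) (nat_lit 5) (nat_lit 344) (nat_lit 312) (nat_lit 124)) (XT.nd (nat_lit 78) (nat_lit 456) (nat_lit 0) (XT.lf (nat_lit 0) (nat_lit 2579454423) (nat_lit 456) (nat_lit 12224485177) (nat_lit 76) (nat_lit 18557497736) (nat_lit 92) (nat_lit 5) (nat_lit 98) (nat_lit 5) (nat_lit 93) (nat_lit 5) (nat_lit 345) (nat_lit 312) (nat_lit 123)) (XT.lf (nat_lit 0) (nat_lit 1889759396) (nat_lit 456) (nat_lit 3908115953) (nat_lit 532) (nat_lit 28195333953) (nat_lit 86) (nat_lit 5) (nat_lit 92) (nat_lit 5) (nat_lit 93) (nat_lit 5) (nat_lit 346) (nat_lit 312) (nat_lit 122))))) (XT.nd (nat_lit 234) (nat_lit 380) (nat_lit 0) (XT.nd (nat_lit 78) (nat_lit 380) (nat_lit 0) (XT.lf (nat_lit 0) (nat_lit 9305171325) (nat_lit 532) (nat_lit 18036769575) (nat_lit 76) (nat_lit 7296229810) (nat_lit 86) (nat_lit 5) (nat_lit 93) (nat_lit 5) (nat_lit 87) (nat_lit 5) (nat_lit 347) (nat_lit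 312) (nat_lit 121)) (XT.nd (nat_lit 78) (nat_lit 380) (nat_lit 0) (XT.lf (nat_lit 0) (nat_lit 12953802378) (nat_lit 532) (nat_lit 3589720203) (nat_lit 76) (nat_lit 18757880679) (nat_lit 86) (nat_lit 5) (nat_lit 93) (nat_lit 5) (nat_lit 87) (nat_lit 5) (nat_lit 348) (nat_lit 312) (nat_lit 120)) (XT.lf (nat_lit 0) (nat_lit 11512540171) (nat_lit 380) (nat_lit 5307514838) (nat_lit 456) (nat_lit 19161238513) (nat_lit 81) (nat_lit 5) (nat_lit 86) (nat_lit 5) (nat_lit 87) (nat_lit 5) (nat_lit 349) (nat_lit 312) (nat_lit 119)))) (XT.nd (nat_lit 78) (nat_lit 380) (nat_lit 0) (XT.lf (nat_lit 0) (nat_lit 20896671085) (nat_lit 456) (nat_lit 9602525633) (nat_lit 76) (nat_lit 6179557953) (nat_lit 81) (nat_lit 5) (nat_lit 87) (nat_lit 5) (nat_lit 82) (nat_lit 5) (nat_lit 350) (nat_lit 312) (nat_lit 118)) (XT.nd (nat_lit 78) (nat_lit 0) (nat_lit 0) (XT.lf (nat_lit 0) (nat_lit 5766856563) (nat_lit 380) (nat_lit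 19434324258) (nat_lit 456) (nat_lit 12192796270) (nat_lit 76) (nat_lit 5) (nat_lit 81) (nat_lit 5) (nat_lit 82) (nat_lit 5) (nat_lit 351) (nat_lit 312) (nat_lit 117)) (XT.lf (nat_lit 0) (nat_lit 21791375337) (nat_lit 380) (nat_lit 7938070958) (nat_lit 456) (nat_lit 8398376414) (nat_lit 76) (nat_lit 5) (nat_lit 81) (nat_lit 5) (nat_lit 82) (nat_lit 5) (nat_lit 352) (nat_lit 312) (nat_lit 116)))))) (XT.nd (nat_lit 390) (nat_lit 912) (nat_lit 0) (XT.nd (nat_lit 156) (nat_lit 456) (nat_lit 0) (XT.nd (nat_lit 78) (nat_lit 304) (nat_lit 0) (XT.lf (nat_lit 0) (nat_lit 34428796416) (nat_lit 456) (nat_lit 627347996) (nat_lit 76) (nat_lit 3826487173) (nat_lit 76) (nat_lit 5) (nat_lit 82) (nat_lit 5) (nat_lit 77) (nat_lit 5) (nat_lit 353) (nat_lit 312) (nat_lit 115)) (XT.lf (nat_lit 0) (nat_lit 15779653020) (nat_lit 304) (nat_lit 23717536912) (nat_lit 380) (nat_lit 156057754) (nat_lit 72) (nat_lit 5) (nat_lit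 76) (nat_lit 5) (nat_lit 77) (nat_lit 5) (nat_lit 354) (nat_lit 312) (nat_lit 114))) (XT.nd (nat_lit 78) (nat_lit 380) (nat_lit 0) (XT.lf (nat_lit 0) (nat_lit 4191512043) (nat_lit 380) (nat_lit 7798899420) (nat_lit 76) (nat_lit 28455217962) (nat_lit 71) (nat_lit 5) (nat_lit 76) (nat_lit 5) (nat_lit 72) (nat_lit 5) (nat_lit 355) (nat_lit 312) (nat_lit 113)) (XT.nd (nat_lit 78) (nat_lit 0) (nat_lit 0) (XT.lf (nat_lit 0) (nat_lit 8751766975) (nat_lit 456) (nat_lit 32332868301) (nat_lit 76) (nat_lit 174543581) (nat_lit 66) (nat_lit 5) (nat_lit 72) (nat_lit 5) (nat_lit 67) (nat_lit 5) (nat_lit 356) (nat_lit 312) (nat_lit 112)) (XT.lf (nat_lit 0) (nat_lit 13644973450) (nat_lit 456) (nat_lit 15903796129) (nat_lit 76) (nat_lit 12542485180) (nat_lit 66) (nat_lit 5) (nat_lit 72) (nat_lit 5) (nat_lit 67) (nat_lit 5) (nat_lit 357) (nat_lit 312) (nat_lit 111))))) (XT.nd (nat_lit 234) (nat_lit 608) (nat_lit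 0) (XT.nd (nat_lit 78) (nat_lit 0) (nat_lit 0) (XT.lf (nat_lit 0) (nat_lit 1035763662) (nat_lit 304) (nat_lit 17657123821) (nat_lit 380) (nat_lit 24255172292) (nat_lit 62) (nat_lit 5) (nat_lit 66) (nat_lit 5) (nat_lit 67) (nat_lit 5) (nat_lit 358) (nat_lit 312) (nat_lit 110)) (XT.nd (nat_lit 78) (nat_lit 0) (nat_lit 0) (XT.lf (nat_lit 0) (nat_lit 18806951902) (nat_lit 304) (nat_lit 5243874018) (nat_lit 380) (nat_lit 19774989470) (nat_lit 62) (nat_lit 5) (nat_lit 66) (nat_lit 5) (nat_lit 67) (nat_lit 5) (nat_lit 359) (nat_lit 312) (nat_lit 109)) (XT.lf (nat_lit 0) (nat_lit 29640041793) (nat_lit 380) (nat_lit 7693676983) (nat_lit 76) (nat_lit 7394072658) (nat_lit 62) (nat_lit 5) (nat_lit 67) (nat_lit 5) (nat_lit 63) (nat_lit 5) (nat_lit 360) (nat_lit 312) (nat_lit 108)))) (XT.nd (nat_lit 78) (nat_lit 304) (nat_lit 0) (XT.lf (nat_lit 0) (nat_lit 10297814419) (nat_lit 304) (nat_lit 25248128298)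 (nat_lit 380) (nat_lit 10106417609) (nat_lit 58) (nat_lit 5) (nat_lit 62) (nat_lit 5) (nat_lit 63) (nat_lit 5) (nat_lit 361) (nat_lit 312) (nat_lit 107)) (XT.nd (nat_lit 78) (nat_lit 304) (nat_lit 0) (XT.lf (nat_lit 0) (nat_lit 28984309097) (nat_lit 304) (nat_lit 12720534506) (nat_lit 380) (nat_lit 4897551706) (nat_lit 58) (nat_lit 5) (nat_lit 62) (nat_lit 5) (nat_lit 63) (nat_lit 5) (nat_lit 362) (nat_lit 312) (nat_lit 106)) (XT.lf (nat_lit 0) (nat_lit 464789457) (nat_lit 304) (nat_lit 46926167459) (nat_lit 76) (nat_lit 189653083) (nat_lit 54) (nat_lit 5) (nat_lit 58) (nat_lit 5) (nat_lit 55) (nat_lit 5) (nat_lit 363) (nat_lit 312) (nat_lit 105))))))) (XT.nd (nat_lit 858) (nat_lit 0) (nat_lit 0) (XT.nd (nat_lit 390) (nat_lit 760) (nat_lit 0) (XT.nd (nat_lit 156) (nat_lit 304) (nat_lit 0) (XT.nd (nat_lit 78) (nat_lit 0) (nat_lit 0) (XT.lf (nat_lit 0) (nat_lit 6193369875) (nat_lit 304) (nat_lit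 28925182114) (nat_lit 76) (nat_lit 13459053671) (nat_lit 54) (nat_lit 5) (nat_lit 58) (nat_lit 5) (nat_lit 55) (nat_lit 5) (nat_lit 364) (nat_lit 312) (nat_lit 104)) (XT.lf (nat_lit 0) (nat_lit 12092049919) (nat_lit 304) (nat_lit 10386546740) (nat_lit 76) (nat_lit 27125970562) (nat_lit 54) (nat_lit 5) (nat_lit 58) (nat_lit 5) (nat_lit 55) (nat_lit 5) (nat_lit 365) (nat_lit 312) (nat_lit 103))) (XT.nd (nat_lit 78) (nat_lit 0) (nat_lit 0) (XT.lf (nat_lit 0) (nat_lit 8879202694) (nat_lit 304) (nat_lit 9372133410) (nat_lit 380) (nat_lit 32408495357) (nat_lit 50) (nat_lit 5) (nat_lit 54) (nat_lit 5) (nat_lit 55) (nat_lit 5) (nat_lit 366) (nat_lit 312) (nat_lit 102)) (XT.nd (nat_lit 78) (nat_lit 0) (nat_lit 0) (XT.lf (nat_lit 0) (nat_lit 24739314646) (nat_lit 380) (nat_lit 22850818415) (nat_lit 76) (nat_lit 4152306264) (nat_lit 50) (nat_lit 5) (nat_lit 55) (nat_lit 5) (nat_lit 51) (nat_lit 5) (nat_lit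 367) (nat_lit 312) (nat_lit 101)) (XT.lf (nat_lit 0) (nat_lit 31513090290) (nat_lit 380) (nat_lit 3448174336) (nat_lit 76) (nat_lit 17893529085) (nat_lit 50) (nat_lit 5) (nat_lit 55) (nat_lit 5) (nat_lit 51) (nat_lit 5) (nat_lit 368) (nat_lit 312) (nat_lit 100))))) (XT.nd (nat_lit 234) (nat_lit 304) (nat_lit 0) (XT.nd (nat_lit 78) (nat_lit 228) (nat_lit 0) (XT.lf (nat_lit 0) (nat_lit 16863413859) (nat_lit 228) (nat_lit 21787178782) (nat_lit 304) (nat_lit 15345113615) (nat_lit 47) (nat_lit 5) (nat_lit 50) (nat_lit 5) (nat_lit 51) (nat_lit 5) (nat_lit 369) (nat_lit 312) (nat_lit 99)) (XT.nd (nat_lit 78) (nat_lit 228) (nat_lit 0) (XT.lf (nat_lit 0) (nat_lit 37852854323) (nat_lit 228) (nat_lit 8182622828) (nat_lit 304) (nat_lit 9134374159) (nat_lit 47) (nat_lit 5) (nat_lit 50) (nat_lit 5) (nat_lit 51) (nat_lit 5) (nat_lit 370) (nat_lit 312) (nat_lit 98)) (XT.lf (nat_lit 0) (nat_lit 3094950101) (nat_lit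 228) (nat_lit 50631227895) (nat_lit 304) (nat_lit 2650517390) (nat_lit 44) (nat_lit 5) (nat_lit 47) (nat_lit 5) (nat_lit 48) (nat_lit 5) (nat_lit 371) (nat_lit 312) (nat_lit 97)))) (XT.nd (nat_lit 78) (nat_lit 228) (nat_lit 0) (XT.lf (nat_lit 0) (nat_lit 4205355653) (nat_lit 304) (nat_lit 33263897560) (nat_lit 76) (nat_lit 20141649671) (nat_lit 43) (nat_lit 5) (nat_lit 47) (nat_lit 5) (nat_lit 44) (nat_lit 5) (nat_lit 372) (nat_lit 312) (nat_lit 96)) (XT.nd (nat_lit 78) (nat_lit 228) (nat_lit 0) (XT.lf (nat_lit 0) (nat_lit 11212159673) (nat_lit 304) (nat_lit 12673864172) (nat_lit 76) (nat_lit 34995372181) (nat_lit 43) (nat_lit 5) (nat_lit 47) (nat_lit 5) (nat_lit 44) (nat_lit 5) (nat_lit 373) (nat_lit 312) (nat_lit 95)) (XT.lf (nat_lit 0) (nat_lit 8701624600) (nat_lit 228) (nat_lit 9809758999) (nat_lit 304) (nat_lit 41676156347) (nat_lit 40) (nat_lit 5) (nat_lit 43) (nat_lit 5) (nat_lit 44)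 (nat_lit 5) (nat_lit 374) (nat_lit 312) (nat_lit 94)))))) (XT.nd (nat_lit 36192) (nat_lit 0) (nat_lit 7752) (XT.nd (nat_lit 35958) (nat_lit 0) (nat_lit 7676) (XT.nd (nat_lit 35802) (nat_lit 0) (nat_lit 7600) (XT.lf (nat_lit 0) (nat_lit 26202490784) (nat_lit 304) (nat_lit 30599251875) (nat_lit 76) (nat_lit 4725940709) (nat_lit 40) (nat_lit 5) (nat_lit 44) (nat_lit 5) (nat_lit 41) (nat_lit 5) (nat_lit 375) (nat_lit 312) (nat_lit 93)) (XT.nd (nat_lit 78) (nat_lit 0) (nat_lit 0) (XT.lf (nat_lit 0) (nat_lit 2890023128) (nat_lit 1140) (nat_lit 3515625529) (nat_lit 1140) (nat_lit 3515625529) (nat_lit 140) (nat_lit 3) (nat_lit 155) (nat_lit 3) (nat_lit 155) (nat_lit 5) (nat_lit 313) (nat_lit 313) (nat_lit 154)) (XT.lf (nat_lit 76) (nat_lit 1084832177) (nat_lit 0) (nat_lit 4942864535) (nat_lit 1140) (nat_lit 14107256482) (nat_lit 141) (nat_lit 5) (nat_lit 140) (nat_lit 3) (nat_lit 155) (nat_lit 5) (nat_lit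 314) (nat_lit 313) (nat_lit 153)))) (XT.nd (nat_lit 78) (nat_lit 0) (nat_lit 0) (XT.lf (nat_lit 0) (nat_lit 6378995796) (nat_lit 1064) (nat_lit 10879876420) (nat_lit 1140) (nat_lit 3174387174) (nat_lit 141) (nat_lit 5) (nat_lit 155) (nat_lit 5) (nat_lit 156) (nat_lit 5) (nat_lit 315) (nat_lit 313) (nat_lit 152)) (XT.nd (nat_lit 78) (nat_lit 0) (nat_lit 0) (XT.lf (nat_lit 0) (nat_lit 6784067123) (nat_lit 1064) (nat_lit 2516680775) (nat_lit 1140) (nat_lit 11438485217) (nat_lit 141) (nat_lit 5) (nat_lit 155) (nat_lit 5) (nat_lit 156) (nat_lit 5) (nat_lit 316) (nat_lit 313) (nat_lit 151)) (XT.lf (nat_lit 76) (nat_lit 6215575667) (nat_lit 0) (nat_lit 1039923050) (nat_lit 1140) (nat_lit 13797275989) (nat_lit 142) (nat_lit 5) (nat_lit 141) (nat_lit 5) (nat_lit 156) (nat_lit 5) (nat_lit 317) (nat_lit 313) (nat_lit 150))))) (XT.nd (nat_lit 234) (nat_lit 0) (nat_lit 76) (XT.nd (nat_lit 78) (nat_lit 0)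 (nat_lit 0) (XT.lf (nat_lit 0) (nat_lit 7833146481) (nat_lit 1064) (nat_lit 6188908114) (nat_lit 1140) (nat_lit 7350920212) (nat_lit 142) (nat_lit 5) (nat_lit 156) (nat_lit 5) (nat_lit 157) (nat_lit 5) (nat_lit 318) (nat_lit 313) (nat_lit 149)) (XT.nd (nat_lit 78) (nat_lit 0) (nat_lit 76) (XT.lf (nat_lit 76) (nat_lit 2759181021) (nat_lit 0) (nat_lit 5700532823) (nat_lit 1140) (nat_lit 13242133402) (nat_lit 143) (nat_lit 5) (nat_lit 142) (nat_lit 5) (nat_lit 157) (nat_lit 5) (nat_lit 319) (nat_lit 313) (nat_lit 148)) (XT.lf (nat_lit 0) (nat_lit 9190698656) (nat_lit 1064) (nat_lit 9967694668) (nat_lit 1140) (nat_lit 2879637555) (nat_lit 143) (nat_lit 5) (nat_lit 157) (nat_lit 5) (nat_lit 158) (nat_lit 5) (nat_lit 320) (nat_lit 313) (nat_lit 147)))) (XT.nd (nat_lit 78) (nat_lit 0) (nat_lit 0) (XT.lf (nat_lit 0) (nat_lit 9995113659) (nat_lit 1064) (nat_lit 783167306) (nat_lit 1140) (nat_lit 11604487269)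 (nat_lit 143) (nat_lit 5) (nat_lit 157) (nat_lit 5) (nat_lit 158) (nat_lit 5) (nat_lit 321) (nat_lit 313) (nat_lit 146)) (XT.nd (nat_lit 78) (nat_lit 0) (nat_lit 76) (XT.lf (nat_lit 76) (nat_lit 8846362580) (nat_lit 0) (nat_lit 2057538802) (nat_lit 1140) (nat_lit 11831551969) (nat_lit 144) (nat_lit 5) (nat_lit 143) (nat_lit 5) (nat_lit 158) (nat_lit 5) (nat_lit 322) (nat_lit 313) (nat_lit 145)) (XT.lf (nat_lit 0) (nat_lit 11909833415) (nat_lit 1064) (nat_lit 4387588013) (nat_lit 1140) (nat_lit 6799213649) (nat_lit 144) (nat_lit 5) (nat_lit 158) (nat_lit 5) (nat_lit 159) (nat_lit 5) (nat_lit 323) (nat_lit 313) (nat_lit 144))))))))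
noncomputable def xc231 : XT := (XT.nd (nat_lit 1794) (nat_lit 3192) (nat_lit 0) (XT.nd (nat_lit 858) (nat_lit 2432) (nat_lit 0) (XT.nd (nat_lit 390) (nat_lit 1520) (nat_lit 0) (XT.nd (nat_lit 156) (nat_lit 0) (nat_lit 76) (XT.nd (nat_lit 78) (nat_lit 0) (nat_lit 76) (XT.lf (nat_lit 76) (nat_lit 5482370101) (nat_lit 0) (nat_lit 7532109204) (nat_lit 1140) (nat_lit 10452128983) (nat_lit 145) (nat_lit 5) (nat_lit 144) (nat_lit 5) (nat_lit 159) (nat_lit 5) (nat_lit 324) (nat_lit 313) (nat_lit 143)) (XT.lf (nat_lit 0) (nat_lit 14206969475) (nat_lit 1064) (nat_lit 8126128440) (nat_lit 1140) (nat_lit 1512953393) (nat_lit 145) (nat_lit 5) (nat_lit 159) (nat_lit 5) (nat_lit 160) (nat_lit 5) (nat_lit 325) (nat_lit 313) (nat_lit 142))) (XT.nd (nat_lit 78) (nat_lit 0) (nat_lit 0) (XT.lf (nat_lit 76) (nat_lit 1988728919) (nat_lit 0) (nat_lit 13535904604) (nat_lit 1140) (nat_lit 8709573535) (nat_lit 146)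 (nat_lit 5) (nat_lit 145) (nat_lit 5) (nat_lit 160) (nat_lit 5) (nat_lit 326) (nat_lit 313) (nat_lit 141)) (XT.nd (nat_lit 78) (nat_lit 0) (nat_lit 76) (XT.lf (nat_lit 76) (nat_lit 12570413703) (nat_lit 0) (nat_lit 4389273029) (nat_lit 1140) (nat_lit 7671996056) (nat_lit 146) (nat_lit 5) (nat_lit 145) (nat_lit 5) (nat_lit 160) (nat_lit 5) (nat_lit 327) (nat_lit 313) (nat_lit 140)) (XT.lf (nat_lit 0) (nat_lit 18482092793) (nat_lit 1064) (nat_lit 1623147380) (nat_lit 1140) (nat_lit 4934524338) (nat_lit 146) (nat_lit 5) (nat_lit 160) (nat_lit 5) (nat_lit 161) (nat_lit 5) (nat_lit 328) (nat_lit 313) (nat_lit 139))))) (XT.nd (nat_lit 234) (nat_lit 684) (nat_lit 0) (XT.nd (nat_lit 78) (nat_lit 988) (nat_lit 0) (XT.lf (nat_lit 76) (nat_lit 9262248897) (nat_lit 0) (nat_lit 10916466075) (nat_lit 1140) (nat_lit 5277527845) (nat_lit 147) (nat_lit 5) (nat_lit 146) (nat_lit 5) (nat_lit 161) (nat_lit 5) (nat_lit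 329) (nat_lit 313) (nat_lit 138)) (XT.nd (nat_lit 78) (nat_lit 988) (nat_lit 0) (XT.lf (nat_lit 76) (nat_lit 20504360118) (nat_lit 0) (nat_lit 1434402708) (nat_lit 1140) (nat_lit 3946086980) (nat_lit 147) (nat_lit 5) (nat_lit 146) (nat_lit 5) (nat_lit 161) (nat_lit 5) (nat_lit 330) (nat_lit 313) (nat_lit 137)) (XT.lf (nat_lit 0) (nat_lit 5787094952) (nat_lit 1064) (nat_lit 18096495593) (nat_lit 1140) (nat_lit 2438774951) (nat_lit 133) (nat_lit 5) (nat_lit 147) (nat_lit 5) (nat_lit 148) (nat_lit 5) (nat_lit 331) (nat_lit 313) (nat_lit 136)))) (XT.nd (nat_lit 78) (nat_lit 684) (nat_lit 0) (XT.lf (nat_lit 0) (nat_lit 17382389879) (nat_lit 1064) (nat_lit 8569103252) (nat_lit 1140) (nat_lit 819581189) (nat_lit 133) (nat_lit 5) (nat_lit 147) (nat_lit 5) (nat_lit 148) (nat_lit 5) (nat_lit 332) (nat_lit 313) (nat_lit 135)) (XT.nd (nat_lit 78) (nat_lit 0) (nat_lit 0) (XT.lf (nat_lit 0) (nat_lit 860683256)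 (nat_lit 684) (nat_lit 25122305877) (nat_lit 76) (nat_lit 1249148304) (nat_lit 124) (nat_lit 5) (nat_lit 133) (nat_lit 5) (nat_lit 125) (nat_lit 5) (nat_lit 333) (nat_lit 313) (nat_lit 134)) (XT.lf (nat_lit 0) (nat_lit 2751948249) (nat_lit 684) (nat_lit 13655527559) (nat_lit 76) (nat_lit 11294009987) (nat_lit 124) (nat_lit 5) (nat_lit 133) (nat_lit 5) (nat_lit 125) (nat_lit 5) (nat_lit 334) (nat_lit 313) (nat_lit 133)))))) (XT.nd (nat_lit 468) (nat_lit 912) (nat_lit 0) (XT.nd (nat_lit 234) (nat_lit 988) (nat_lit 0) (XT.nd (nat_lit 78) (nat_lit 532) (nat_lit 0) (XT.lf (nat_lit 0) (nat_lit 4696530599) (nat_lit 684) (nat_lit 1847857776) (nat_lit 76) (nat_lit 21640637343) (nat_lit 124) (nat_lit 5) (nat_lit 133) (nat_lit 5) (nat_lit 125) (nat_lit 5) (nat_lit 335) (nat_lit 313) (nat_lit 132)) (XT.nd (nat_lit 78) (nat_lit 0) (nat_lit 0) (XT.lf (nat_lit 0) (nat_lit 6832967317) (nat_lit 608) (nat_lit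 18199666098) (nat_lit 76) (nat_lit 3646441162) (nat_lit 117) (nat_lit 5) (nat_lit 125) (nat_lit 5) (nat_lit 118) (nat_lit 5) (nat_lit 336) (nat_lit 313) (nat_lit 131)) (XT.lf (nat_lit 0) (nat_lit 9113887069) (nat_lit 608) (nat_lit 6041093526) (nat_lit 76) (nat_lit 14030560617) (nat_lit 117) (nat_lit 5) (nat_lit 125) (nat_lit 5) (nat_lit 118) (nat_lit 5) (nat_lit 337) (nat_lit 313) (nat_lit 130)))) (XT.nd (nat_lit 78) (nat_lit 456) (nat_lit 0) (XT.lf (nat_lit 0) (nat_lit 6608176087) (nat_lit 532) (nat_lit 4915424349) (nat_lit 608) (nat_lit 18181798204) (nat_lit 110) (nat_lit 5) (nat_lit 117) (nat_lit 5) (nat_lit 118) (nat_lit 5) (nat_lit 338) (nat_lit 313) (nat_lit 129)) (XT.nd (nat_lit 78) (nat_lit 456) (nat_lit 0) (XT.lf (nat_lit 0) (nat_lit 14118252620) (nat_lit 608) (nat_lit 10536078436) (nat_lit 76) (nat_lit 5583148858) (nat_lit 110) (nat_lit 5) (nat_lit 118) (nat_lit 5) (nat_lit 111) (nat_lit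 5) (nat_lit 339) (nat_lit 313) (nat_lit 128)) (XT.lf (nat_lit 0) (nat_lit 2397015231) (nat_lit 456) (nat_lit 14462436870) (nat_lit 532) (nat_lit 13924017621) (nat_lit 104) (nat_lit 5) (nat_lit 110) (nat_lit 5) (nat_lit 111) (nat_lit 5) (nat_lit 340) (nat_lit 313) (nat_lit 127))))) (XT.nd (nat_lit 234) (nat_lit 456) (nat_lit 0) (XT.nd (nat_lit 78) (nat_lit 456) (nat_lit 0) (XT.lf (nat_lit 0) (nat_lit 15931118711) (nat_lit 456) (nat_lit 3855220122) (nat_lit 532) (nat_lit 11556403968) (nat_lit 104) (nat_lit 5) (nat_lit 110) (nat_lit 5) (nat_lit 111) (nat_lit 5) (nat_lit 341) (nat_lit 313) (nat_lit 126)) (XT.nd (nat_lit 78) (nat_lit 456) (nat_lit 0) (XT.lf (nat_lit 0) (nat_lit 22866138433) (nat_lit 532) (nat_lit 2118480413) (nat_lit 76) (nat_lit 6932228946) (nat_lit 104) (nat_lit 5) (nat_lit 111) (nat_lit 5) (nat_lit 105) (nat_lit 5) (nat_lit 342) (nat_lit 313) (nat_lit 125)) (XT.lf (nat_lit 0)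 (nat_lit 11761922590) (nat_lit 456) (nat_lit 14424868983) (nat_lit 532) (nat_lit 6316937278) (nat_lit 98) (nat_lit 5) (nat_lit 104) (nat_lit 5) (nat_lit 105) (nat_lit 5) (nat_lit 343) (nat_lit 313) (nat_lit 124)))) (XT.nd (nat_lit 78) (nat_lit 456) (nat_lit 0) (XT.lf (nat_lit 0) (nat_lit 26099310747) (nat_lit 456) (nat_lit 3526425679) (nat_lit 532) (nat_lit 3481926263) (nat_lit 98) (nat_lit 5) (nat_lit 104) (nat_lit 5) (nat_lit 105) (nat_lit 5) (nat_lit 344) (nat_lit 313) (nat_lit 123)) (XT.nd (nat_lit 78) (nat_lit 76) (nat_lit 0) (XT.lf (nat_lit 0) (nat_lit 7200756583) (nat_lit 380) (nat_lit 26107675947) (nat_lit 456) (nat_lit 417070845) (nat_lit 93) (nat_lit 5) (nat_lit 98) (nat_lit 5) (nat_lit 99) (nat_lit 5) (nat_lit 345) (nat_lit 313) (nat_lit 122)) (XT.lf (nat_lit 0) (nat_lit 2790030358) (nat_lit 456) (nat_lit 12444790322) (nat_lit 76) (nat_lit 19123161617) (nat_lit 92) (nat_lit 5) (nat_lit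 98) (nat_lit 5) (nat_lit 93) (nat_lit 5) (nat_lit 346) (nat_lit 313) (nat_lit 121))))))) (XT.nd (nat_lit 858) (nat_lit 1216) (nat_lit 0) (XT.nd (nat_lit 390) (nat_lit 1140) (nat_lit 0) (XT.nd (nat_lit 156) (nat_lit 380) (nat_lit 0) (XT.nd (nat_lit 78) (nat_lit 0) (nat_lit 0) (XT.lf (nat_lit 0) (nat_lit 2091446005) (nat_lit 456) (nat_lit 4011072288) (nat_lit 532) (nat_lit 28906272504) (nat_lit 86) (nat_lit 5) (nat_lit 92) (nat_lit 5) (nat_lit 93) (nat_lit 5) (nat_lit 347) (nat_lit 313) (nat_lit 120)) (XT.lf (nat_lit 0) (nat_lit 9711359495) (nat_lit 532) (nat_lit 18433143271) (nat_lit 76) (nat_lit 7528717043) (nat_lit 86) (nat_lit 5) (nat_lit 93) (nat_lit 5) (nat_lit 87) (nat_lit 5) (nat_lit 348) (nat_lit 313) (nat_lit 119))) (XT.nd (nat_lit 78) (nat_lit 380) (nat_lit 0) (XT.lf (nat_lit 0) (nat_lit 13465749489) (nat_lit 532) (nat_lit 3556897837) (nat_lit 76) (nat_lit 19333821312) (nat_lit 86)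 (nat_lit 5) (nat_lit 93) (nat_lit 5) (nat_lit 87) (nat_lit 5) (nat_lit 349) (nat_lit 313) (nat_lit 118)) (XT.nd (nat_lit 78) (nat_lit 0) (nat_lit 0) (XT.lf (nat_lit 0) (nat_lit 11997052761) (nat_lit 380) (nat_lit 5448682179) (nat_lit 456) (nat_lit 19611096373) (nat_lit 81) (nat_lit 5) (nat_lit 86) (nat_lit 5) (nat_lit 87) (nat_lit 5) (nat_lit 350) (nat_lit 313) (nat_lit 117)) (XT.lf (nat_lit 0) (nat_lit 21641291474) (nat_lit 456) (nat_lit 9751898668) (nat_lit 76) (nat_lit 6382134717) (nat_lit 81) (nat_lit 5) (nat_lit 87) (nat_lit 5) (nat_lit 82) (nat_lit 5) (nat_lit 351) (nat_lit 313) (nat_lit 116))))) (XT.nd (nat_lit 234) (nat_lit 760) (nat_lit 0) (XT.nd (nat_lit 78) (nat_lit 0) (nat_lit 0) (XT.lf (nat_lit 0) (nat_lit 6077205162) (nat_lit 380) (nat_lit 19995622819) (nat_lit 456) (nat_lit 12439246824) (nat_lit 76) (nat_lit 5) (nat_lit 81) (nat_lit 5) (nat_lit 82) (nat_lit 5) (nat_lit 352) (nat_lit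 313) (nat_lit 115)) (XT.nd (nat_lit 78) (nat_lit 0) (nat_lit 0) (XT.lf (nat_lit 0) (nat_lit 22578459221) (nat_lit 380) (nat_lit 8155114866) (nat_lit 456) (nat_lit 8534470101) (nat_lit 76) (nat_lit 5) (nat_lit 81) (nat_lit 5) (nat_lit 82) (nat_lit 5) (nat_lit 353) (nat_lit 313) (nat_lit 114)) (XT.lf (nat_lit 0) (nat_lit 35570832359) (nat_lit 456) (nat_lit 513398517) (nat_lit 76) (nat_lit 3961365787) (nat_lit 76) (nat_lit 5) (nat_lit 82) (nat_lit 5) (nat_lit 77) (nat_lit 5) (nat_lit 354) (nat_lit 313) (nat_lit 113)))) (XT.nd (nat_lit 78) (nat_lit 456) (nat_lit 0) (XT.lf (nat_lit 0) (nat_lit 16384510864) (nat_lit 304) (nat_lit 24404850801) (nat_lit 380) (nat_lit 50034014) (nat_lit 72) (nat_lit 5) (nat_lit 76) (nat_lit 5) (nat_lit 77) (nat_lit 5) (nat_lit 355) (nat_lit 313) (nat_lit 112)) (XT.nd (nat_lit 78) (nat_lit 380) (nat_lit 0) (XT.lf (nat_lit 0) (nat_lit 4422641104) (nat_lit 380) (nat_lit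 7902911527) (nat_lit 76) (nat_lit 29330065714) (nat_lit 71) (nat_lit 5) (nat_lit 76) (nat_lit 5) (nat_lit 72) (nat_lit 5) (nat_lit 356) (nat_lit 313) (nat_lit 111)) (XT.lf (nat_lit 0) (nat_lit 9118112775) (nat_lit 456) (nat_lit 33171096476) (nat_lit 76) (nat_lit 204419098) (nat_lit 66) (nat_lit 5) (nat_lit 72) (nat_lit 5) (nat_lit 67) (nat_lit 5) (nat_lit 357) (nat_lit 313) (nat_lit 110)))))) (XT.nd (nat_lit 468) (nat_lit 608) (nat_lit 0) (XT.nd (nat_lit 234) (nat_lit 304) (nat_lit 0) (XT.nd (nat_lit 78) (nat_lit 304) (nat_lit 0) (XT.lf (nat_lit 0) (nat_lit 14155092353) (nat_lit 456) (nat_lit 16252989747) (nat_lit 76) (nat_lit 12942681298) (nat_lit 66) (nat_lit 5) (nat_lit 72) (nat_lit 5) (nat_lit 67) (nat_lit 5) (nat_lit 358) (nat_lit 313) (nat_lit 109)) (XT.nd (nat_lit 78) (nat_lit 0) (nat_lit 0) (XT.lf (nat_lit 0) (nat_lit 1193502718) (nat_lit 304) (nat_lit 18159223643) (nat_lit 380) (nat_lit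 24880603726) (nat_lit 62) (nat_lit 5) (nat_lit 66) (nat_lit 5) (nat_lit 67) (nat_lit 5) (nat_lit 359) (nat_lit 313) (nat_lit 108)) (XT.lf (nat_lit 0) (nat_lit 19494137300) (nat_lit 304) (nat_lit 5374380634) (nat_lit 380) (nat_lit 20268992809) (nat_lit 62) (nat_lit 5) (nat_lit 66) (nat_lit 5) (nat_lit 67) (nat_lit 5) (nat_lit 360) (nat_lit 313) (nat_lit 107)))) (XT.nd (nat_lit 78) (nat_lit 304) (nat_lit 0) (XT.lf (nat_lit 0) (nat_lit 30622859499) (nat_lit 380) (nat_lit 7802353080) (nat_lit 76) (nat_lit 7641415666) (nat_lit 62) (nat_lit 5) (nat_lit 67) (nat_lit 5) (nat_lit 63) (nat_lit 5) (nat_lit 361) (nat_lit 313) (nat_lit 106)) (XT.nd (nat_lit 78) (nat_lit 0) (nat_lit 0) (XT.lf (nat_lit 0) (nat_lit 10727685670) (nat_lit 304) (nat_lit 25976687606) (nat_lit 380) (nat_lit 10314613341) (nat_lit 58) (nat_lit 5) (nat_lit 62) (nat_lit 5) (nat_lit 63) (nat_lit 5) (nat_lit 362) (nat_lit 313) (nat_lit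 105)) (XT.lf (nat_lit 0) (nat_lit 29971252757) (nat_lit 304) (nat_lit 13074107298) (nat_lit 380) (nat_lit 4952248358) (nat_lit 58) (nat_lit 5) (nat_lit 62) (nat_lit 5) (nat_lit 63) (nat_lit 5) (nat_lit 363) (nat_lit 313) (nat_lit 104))))) (XT.nd (nat_lit 234) (nat_lit 304) (nat_lit 0) (XT.nd (nat_lit 78) (nat_lit 0) (nat_lit 0) (XT.lf (nat_lit 0) (nat_lit 567947271) (nat_lit 304) (nat_lit 48213182452) (nat_lit 76) (nat_lit 224054726) (nat_lit 54) (nat_lit 5) (nat_lit 58) (nat_lit 5) (nat_lit 55) (nat_lit 5) (nat_lit 364) (nat_lit 313) (nat_lit 103)) (XT.nd (nat_lit 78) (nat_lit 0) (nat_lit 0) (XT.lf (nat_lit 0) (nat_lit 6465786631) (nat_lit 304) (nat_lit 29675685121) (nat_lit 76) (nat_lit 13890701058) (nat_lit 54) (nat_lit 5) (nat_lit 58) (nat_lit 5) (nat_lit 55) (nat_lit 5) (nat_lit 365) (nat_lit 313) (nat_lit 102)) (XT.lf (nat_lit 0) (nat_lit 12538904291) (nat_lit 304) (nat_lit 10584305806)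 (nat_lit 76) (nat_lit 27966813540) (nat_lit 54) (nat_lit 5) (nat_lit 58) (nat_lit 5) (nat_lit 55) (nat_lit 5) (nat_lit 366) (nat_lit 313) (nat_lit 101)))) (XT.nd (nat_lit 78) (nat_lit 0) (nat_lit 0) (XT.lf (nat_lit 0) (nat_lit 9258300059) (nat_lit 304) (nat_lit 9623303242) (nat_lit 380) (nat_lit 33295388073) (nat_lit 50) (nat_lit 5) (nat_lit 54) (nat_lit 5) (nat_lit 55) (nat_lit 5) (nat_lit 367) (nat_lit 313) (nat_lit 100)) (XT.nd (nat_lit 78) (nat_lit 0) (nat_lit 0) (XT.lf (nat_lit 0) (nat_lit 25562091595) (nat_lit 380) (nat_lit 23424626469) (nat_lit 76) (nat_lit 4305427760) (nat_lit 50) (nat_lit 5) (nat_lit 55) (nat_lit 5) (nat_lit 51) (nat_lit 5) (nat_lit 368) (nat_lit 313) (nat_lit 99)) (XT.lf (nat_lit 0) (nat_lit 32536733009) (nat_lit 380) (nat_lit 3443156946) (nat_lit 76) (nat_lit 18458055644) (nat_lit 50) (nat_lit 5) (nat_lit 55) (nat_lit 5) (nat_lit 51) (nat_lit 5) (nat_lit 369) (nat_lit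 313) (nat_lit 98))))))))
noncomputable def xc232 : XT := (XT.nd (nat_lit 37596) (nat_lit 0) (nat_lit 2508) (XT.nd (nat_lit 36738) (nat_lit 0) (nat_lit 7524) (XT.nd (nat_lit 36270) (nat_lit 0) (nat_lit 7372) (XT.nd (nat_lit 156) (nat_lit 304) (nat_lit 0) (XT.nd (nat_lit 78) (nat_lit 0) (nat_lit 0) (XT.lf (nat_lit 0) (nat_lit 17476715535) (nat_lit 228) (nat_lit 22410398156) (nat_lit 304) (nat_lit 15726013439) (nat_lit 47) (nat_lit 5) (nat_lit 50) (nat_lit 5) (nat_lit 51) (nat_lit 5) (nat_lit 370) (nat_lit 313) (nat_lit 97)) (XT.lf (nat_lit 0) (nat_lit 39092711079) (nat_lit 228) (nat_lit 8398590843) (nat_lit 304) (nat_lit 9331265981) (nat_lit 47) (nat_lit 5) (nat_lit 50) (nat_lit 5) (nat_lit 51) (nat_lit 5) (nat_lit 371) (nat_lit 313) (nat_lit 96))) (XT.nd (nat_lit 78) (nat_lit 76) (nat_lit 0) (XT.lf (nat_lit 0) (nat_lit 3293122194) (nat_lit 228) (nat_lit 52118711956) (nat_lit 304) (nat_lit 2653813805)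 (nat_lit 44) (nat_lit 5) (nat_lit 47) (nat_lit 5) (nat_lit 48) (nat_lit 5) (nat_lit 372) (nat_lit 313) (nat_lit 95)) (XT.nd (nat_lit 78) (nat_lit 0) (nat_lit 0) (XT.lf (nat_lit 0) (nat_lit 4404071466) (nat_lit 304) (nat_lit 34157990004) (nat_lit 76) (nat_lit 20774867266) (nat_lit 43) (nat_lit 5) (nat_lit 47) (nat_lit 5) (nat_lit 44) (nat_lit 5) (nat_lit 373) (nat_lit 313) (nat_lit 94)) (XT.lf (nat_lit 0) (nat_lit 11618966350) (nat_lit 304) (nat_lit 12953279629) (nat_lit 76) (nat_lit 36073357721) (nat_lit 43) (nat_lit 5) (nat_lit 47) (nat_lit 5) (nat_lit 44) (nat_lit 5) (nat_lit 374) (nat_lit 313) (nat_lit 93))))) (XT.nd (nat_lit 234) (nat_lit 0) (nat_lit 76) (XT.nd (nat_lit 78) (nat_lit 0) (nat_lit 0) (XT.lf (nat_lit 0) (nat_lit 3125798607) (nat_lit 1140) (nat_lit 3544120271) (nat_lit 1140) (nat_lit 3544120271) (nat_lit 140) (nat_lit 3) (nat_lit 155) (nat_lit 3) (nat_lit 155) (nat_lit 5) (nat_lit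 314) (nat_lit 314) (nat_lit 152)) (XT.nd (nat_lit 78) (nat_lit 0) (nat_lit 76) (XT.lf (nat_lit 76) (nat_lit 1269815895) (nat_lit 0) (nat_lit 5229642656) (nat_lit 1140) (nat_lit 14230036635) (nat_lit 141) (nat_lit 5) (nat_lit 140) (nat_lit 3) (nat_lit 155) (nat_lit 5) (nat_lit 315) (nat_lit 314) (nat_lit 151)) (XT.lf (nat_lit 0) (nat_lit 6851530394) (nat_lit 1064) (nat_lit 11047751713) (nat_lit 1140) (nat_lit 3137784126) (nat_lit 141) (nat_lit 5) (nat_lit 155) (nat_lit 5) (nat_lit 156) (nat_lit 5) (nat_lit 316) (nat_lit 314) (nat_lit 150)))) (XT.nd (nat_lit 78) (nat_lit 0) (nat_lit 0) (XT.lf (nat_lit 0) (nat_lit 7260564596) (nat_lit 1064) (nat_lit 2438277316) (nat_lit 1140) (nat_lit 11653644955) (nat_lit 141) (nat_lit 5) (nat_lit 155) (nat_lit 5) (nat_lit 156) (nat_lit 5) (nat_lit 317) (nat_lit 314) (nat_lit 149)) (XT.nd (nat_lit 78) (nat_lit 0) (nat_lit 76) (XT.lf (nat_lit 76) (nat_lit 6554437958)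 (nat_lit 0) (nat_lit 1185215353) (nat_lit 1140) (nat_lit 13935997347) (nat_lit 142) (nat_lit 5) (nat_lit 141) (nat_lit 5) (nat_lit 156) (nat_lit 5) (nat_lit 318) (nat_lit 314) (nat_lit 148)) (XT.lf (nat_lit 0) (nat_lit 8325803871) (nat_lit 1064) (nat_lit 6217100545) (nat_lit 1140) (nat_lit 7462837901) (nat_lit 142) (nat_lit 5) (nat_lit 156) (nat_lit 5) (nat_lit 157) (nat_lit 5) (nat_lit 319) (nat_lit 314) (nat_lit 147)))))) (XT.nd (nat_lit 390) (nat_lit 0) (nat_lit 152) (XT.nd (nat_lit 156) (nat_lit 0) (nat_lit 76) (XT.nd (nat_lit 78) (nat_lit 0) (nat_lit 76) (XT.lf (nat_lit 76) (nat_lit 2997887394) (nat_lit 0) (nat_lit 5967275018) (nat_lit 1140) (nat_lit 13379518844) (nat_lit 143) (nat_lit 5) (nat_lit 142) (nat_lit 5) (nat_lit 157) (nat_lit 5) (nat_lit 320) (nat_lit 314) (nat_lit 146)) (XT.lf (nat_lit 0) (nat_lit 9709853570) (nat_lit 1064) (nat_lit 10106460917) (nat_lit 1140) (nat_lit 2874902170)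 (nat_lit 143) (nat_lit 5) (nat_lit 157) (nat_lit 5) (nat_lit 158) (nat_lit 5) (nat_lit 321) (nat_lit 314) (nat_lit 145))) (XT.nd (nat_lit 78) (nat_lit 0) (nat_lit 0) (XT.lf (nat_lit 0) (nat_lit 10531310714) (nat_lit 1064) (nat_lit 651065635) (nat_lit 1140) (nat_lit 11864151488) (nat_lit 143) (nat_lit 5) (nat_lit 157) (nat_lit 5) (nat_lit 158) (nat_lit 5) (nat_lit 322) (nat_lit 314) (nat_lit 144)) (XT.nd (nat_lit 78) (nat_lit 0) (nat_lit 76) (XT.lf (nat_lit 76) (nat_lit 9265824690) (nat_lit 0) (nat_lit 2196134611) (nat_lit 1140) (nat_lit 11948014731) (nat_lit 144) (nat_lit 5) (nat_lit 143) (nat_lit 5) (nat_lit 158) (nat_lit 5) (nat_lit 323) (nat_lit 314) (nat_lit 143)) (XT.lf (nat_lit 0) (nat_lit 12490625464) (nat_lit 1064) (nat_lit 4361591313) (nat_lit 1140) (nat_lit 6930015650) (nat_lit 144) (nat_lit 5) (nat_lit 158) (nat_lit 5) (nat_lit 159) (nat_lit 5) (nat_lit 324) (nat_lit 314) (nat_lit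 142))))) (XT.nd (nat_lit 234) (nat_lit 0) (nat_lit 76) (XT.nd (nat_lit 78) (nat_lit 0) (nat_lit 76) (XT.lf (nat_lit 76) (nat_lit 5802920208) (nat_lit 0) (nat_lit 7820481227) (nat_lit 1140) (nat_lit 10540071061) (nat_lit 145) (nat_lit 5) (nat_lit 144) (nat_lit 5) (nat_lit 159) (nat_lit 5) (nat_lit 325) (nat_lit 314) (nat_lit 141)) (XT.nd (nat_lit 78) (nat_lit 0) (nat_lit 0) (XT.lf (nat_lit 0) (nat_lit 14844720152) (nat_lit 1064) (nat_lit 8210870588) (nat_lit 1140) (nat_lit 1498933327) (nat_lit 145) (nat_lit 5) (nat_lit 159) (nat_lit 5) (nat_lit 160) (nat_lit 5) (nat_lit 326) (nat_lit 314) (nat_lit 140)) (XT.lf (nat_lit 76) (nat_lit 2205873259) (nat_lit 0) (nat_lit 13991393274) (nat_lit 1140) (nat_lit 8757213768) (nat_lit 146) (nat_lit 5) (nat_lit 145) (nat_lit 5) (nat_lit 160) (nat_lit 5) (nat_lit 327) (nat_lit 314) (nat_lit 139)))) (XT.nd (nat_lit 78) (nat_lit 0) (nat_lit 76) (XT.lf (nat_lit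 76) (nat_lit 13100421718) (nat_lit 0) (nat_lit 4568923580) (nat_lit 1140) (nat_lit 7694731693) (nat_lit 146) (nat_lit 5) (nat_lit 145) (nat_lit 5) (nat_lit 160) (nat_lit 5) (nat_lit 328) (nat_lit 314) (nat_lit 138)) (XT.nd (nat_lit 78) (nat_lit 0) (nat_lit 0) (XT.lf (nat_lit 0) (nat_lit 19231125311) (nat_lit 1064) (nat_lit 1516586438) (nat_lit 1140) (nat_lit 5036893809) (nat_lit 146) (nat_lit 5) (nat_lit 160) (nat_lit 5) (nat_lit 161) (nat_lit 5) (nat_lit 329) (nat_lit 314) (nat_lit 137)) (XT.lf (nat_lit 76) (nat_lit 9693849616) (nat_lit 0) (nat_lit 11280607238) (nat_lit 1140) (nat_lit 5239262033) (nat_lit 147) (nat_lit 5) (nat_lit 146) (nat_lit 5) (nat_lit 161) (nat_lit 5) (nat_lit 330) (nat_lit 314) (nat_lit 136))))))) (XT.nd (nat_lit 858) (nat_lit 2128) (nat_lit 0) (XT.nd (nat_lit 390) (nat_lit 1520) (nat_lit 0) (XT.nd (nat_lit 156) (nat_lit 684) (nat_lit 0) (XT.nd (nat_lit 78) (nat_lit 988)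 (nat_lit 0) (XT.lf (nat_lit 76) (nat_lit 21268746506) (nat_lit 0) (nat_lit 1513014576) (nat_lit 1140) (nat_lit 3873603911) (nat_lit 147) (nat_lit 5) (nat_lit 146) (nat_lit 5) (nat_lit 161) (nat_lit 5) (nat_lit 331) (nat_lit 314) (nat_lit 135)) (XT.lf (nat_lit 0) (nat_lit 6114809943) (nat_lit 1064) (nat_lit 18665889407) (nat_lit 1140) (nat_lit 2325447967) (nat_lit 133) (nat_lit 5) (nat_lit 147) (nat_lit 5) (nat_lit 148) (nat_lit 5) (nat_lit 332) (nat_lit 314) (nat_lit 134))) (XT.nd (nat_lit 78) (nat_lit 684) (nat_lit 0) (XT.lf (nat_lit 0) (nat_lit 18053475305) (nat_lit 1064) (nat_lit 8851903481) (nat_lit 1140) (nat_lit 663110146) (nat_lit 133) (nat_lit 5) (nat_lit 147) (nat_lit 5) (nat_lit 148) (nat_lit 5) (nat_lit 333) (nat_lit 314) (nat_lit 133)) (XT.nd (nat_lit 78) (nat_lit 0) (nat_lit 0) (XT.lf (nat_lit 0) (nat_lit 1060111525) (nat_lit 684) (nat_lit 25718035413) (nat_lit 76) (nat_lit 1265315254)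 (nat_lit 124) (nat_lit 5) (nat_lit 133) (nat_lit 5) (nat_lit 125) (nat_lit 5) (nat_lit 334) (nat_lit 314) (nat_lit 132)) (XT.lf (nat_lit 0) (nat_lit 3003057931) (nat_lit 684) (nat_lit 13911853929) (nat_lit 76) (nat_lit 11612143395) (nat_lit 124) (nat_lit 5) (nat_lit 133) (nat_lit 5) (nat_lit 125) (nat_lit 5) (nat_lit 335) (nat_lit 314) (nat_lit 131))))) (XT.nd (nat_lit 234) (nat_lit 988) (nat_lit 0) (XT.nd (nat_lit 78) (nat_lit 532) (nat_lit 0) (XT.lf (nat_lit 0) (nat_lit 5001068492) (nat_lit 684) (nat_lit 1754420250) (nat_lit 76) (nat_lit 22269772102) (nat_lit 124) (nat_lit 5) (nat_lit 133) (nat_lit 5) (nat_lit 125) (nat_lit 5) (nat_lit 336) (nat_lit 314) (nat_lit 130)) (XT.nd (nat_lit 78) (nat_lit 0) (nat_lit 0) (XT.lf (nat_lit 0) (nat_lit 7198125270) (nat_lit 608) (nat_lit 18592915233) (nat_lit 76) (nat_lit 3743206695) (nat_lit 117) (nat_lit 5) (nat_lit 125) (nat_lit 5) (nat_lit 118) (nat_lit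 5) (nat_lit 337) (nat_lit 314) (nat_lit 129)) (XT.lf (nat_lit 0) (nat_lit 9542807500) (nat_lit 608) (nat_lit 6074034246) (nat_lit 76) (nat_lit 14439217531) (nat_lit 117) (nat_lit 5) (nat_lit 125) (nat_lit 5) (nat_lit 118) (nat_lit 5) (nat_lit 338) (nat_lit 314) (nat_lit 128)))) (XT.nd (nat_lit 78) (nat_lit 456) (nat_lit 0) (XT.lf (nat_lit 0) (nat_lit 6953259611) (nat_lit 532) (nat_lit 5068434918) (nat_lit 608) (nat_lit 18569922587) (nat_lit 110) (nat_lit 5) (nat_lit 117) (nat_lit 5) (nat_lit 118) (nat_lit 5) (nat_lit 339) (nat_lit 314) (nat_lit 127)) (XT.nd (nat_lit 78) (nat_lit 456) (nat_lit 0) (XT.lf (nat_lit 0) (nat_lit 14689696074) (nat_lit 608) (nat_lit 10704748115) (nat_lit 76) (nat_lit 5745362178) (nat_lit 110) (nat_lit 5) (nat_lit 118) (nat_lit 5) (nat_lit 111) (nat_lit 5) (nat_lit 340) (nat_lit 314) (nat_lit 126)) (XT.lf (nat_lit 0) (nat_lit 2614893140) (nat_lit 456) (nat_lit 14895333881)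 (nat_lit 532) (nat_lit 14192046501) (nat_lit 104) (nat_lit 5) (nat_lit 110) (nat_lit 5) (nat_lit 111) (nat_lit 5) (nat_lit 341) (nat_lit 314) (nat_lit 125)))))) (XT.nd (nat_lit 468) (nat_lit 1216) (nat_lit 0) (XT.nd (nat_lit 234) (nat_lit 456) (nat_lit 0) (XT.nd (nat_lit 78) (nat_lit 456) (nat_lit 0) (XT.lf (nat_lit 0) (nat_lit 16550768245) (nat_lit 456) (nat_lit 3969929061) (nat_lit 532) (nat_lit 11757764389) (nat_lit 104) (nat_lit 5) (nat_lit 110) (nat_lit 5) (nat_lit 111) (nat_lit 5) (nat_lit 342) (nat_lit 314) (nat_lit 124)) (XT.nd (nat_lit 78) (nat_lit 456) (nat_lit 0) (XT.lf (nat_lit 0) (nat_lit 23688799690) (nat_lit 532) (nat_lit 2040024870) (nat_lit 76) (nat_lit 7141097924) (nat_lit 104) (nat_lit 5) (nat_lit 111) (nat_lit 5) (nat_lit 105) (nat_lit 5) (nat_lit 343) (nat_lit 314) (nat_lit 123)) (XT.lf (nat_lit 0) (nat_lit 12255397968) (nat_lit 456) (nat_lit 14851045273) (nat_lit 532) (nat_lit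 6368055233) (nat_lit 98) (nat_lit 5) (nat_lit 104) (nat_lit 5) (nat_lit 105) (nat_lit 5) (nat_lit 344) (nat_lit 314) (nat_lit 122)))) (XT.nd (nat_lit 78) (nat_lit 456) (nat_lit 0) (XT.lf (nat_lit 0) (nat_lit 27018812109) (nat_lit 456) (nat_lit 3625840023) (nat_lit 532) (nat_lit 3452024669) (nat_lit 98) (nat_lit 5) (nat_lit 104) (nat_lit 5) (nat_lit 105) (nat_lit 5) (nat_lit 345) (nat_lit 314) (nat_lit 121)) (XT.nd (nat_lit 78) (nat_lit 76) (nat_lit 0) (XT.lf (nat_lit 0) (nat_lit 7556076594) (nat_lit 380) (nat_lit 26879360472) (nat_lit 456) (nat_lit 297696475) (nat_lit 93) (nat_lit 5) (nat_lit 98) (nat_lit 5) (nat_lit 99) (nat_lit 5) (nat_lit 346) (nat_lit 314) (nat_lit 120)) (XT.lf (nat_lit 0) (nat_lit 2999277789) (nat_lit 456) (nat_lit 12680110269) (nat_lit 76) (nat_lit 19705282283) (nat_lit 92) (nat_lit 5) (nat_lit 98) (nat_lit 5) (nat_lit 93) (nat_lit 5) (nat_lit 347) (nat_lit 314) (nat_lit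 119))))) (XT.nd (nat_lit 234) (nat_lit 760) (nat_lit 0) (XT.nd (nat_lit 78) (nat_lit 0) (nat_lit 0) (XT.lf (nat_lit 0) (nat_lit 2290859974) (nat_lit 456) (nat_lit 4117937455) (nat_lit 532) (nat_lit 29646284257) (nat_lit 86) (nat_lit 5) (nat_lit 92) (nat_lit 5) (nat_lit 93) (nat_lit 5) (nat_lit 348) (nat_lit 314) (nat_lit 118)) (XT.nd (nat_lit 78) (nat_lit 0) (nat_lit 0) (XT.lf (nat_lit 0) (nat_lit 10122441095) (nat_lit 532) (nat_lit 18849716237) (nat_lit 76) (nat_lit 7767398179) (nat_lit 86) (nat_lit 5) (nat_lit 93) (nat_lit 5) (nat_lit 87) (nat_lit 5) (nat_lit 349) (nat_lit 314) (nat_lit 117)) (XT.lf (nat_lit 0) (nat_lit 13985975192) (nat_lit 532) (nat_lit 3531156877) (nat_lit 76) (nat_lit 19926282188) (nat_lit 86) (nat_lit 5) (nat_lit 93) (nat_lit 5) (nat_lit 87) (nat_lit 5) (nat_lit 350) (nat_lit 314) (nat_lit 116)))) (XT.nd (nat_lit 78) (nat_lit 380) (nat_lit 0) (XT.lf (nat_lit 0) (nat_lit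 12488113730) (nat_lit 380) (nat_lit 5595121148) (nat_lit 456) (nat_lit 20081624291) (nat_lit 81) (nat_lit 5) (nat_lit 86) (nat_lit 5) (nat_lit 87) (nat_lit 5) (nat_lit 351) (nat_lit 314) (nat_lit 115)) (XT.nd (nat_lit 78) (nat_lit 380) (nat_lit 0) (XT.lf (nat_lit 0) (nat_lit 22401492851) (nat_lit 456) (nat_lit 9913714999) (nat_lit 76) (nat_lit 6589802006) (nat_lit 81) (nat_lit 5) (nat_lit 87) (nat_lit 5) (nat_lit 82) (nat_lit 5) (nat_lit 352) (nat_lit 314) (nat_lit 114)) (XT.lf (nat_lit 0) (nat_lit 6388980175) (nat_lit 380) (nat_lit 20575007794) (nat_lit 456) (nat_lit 12699941117) (nat_lit 76) (nat_lit 5) (nat_lit 81) (nat_lit 5) (nat_lit 82) (nat_lit 5) (nat_lit 353) (nat_lit 314) (nat_lit 113))))))))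
noncomputable def xc233 : XT := (XT.nd (nat_lit 37674) (nat_lit 0) (nat_lit 5624) (XT.nd (nat_lit 858) (nat_lit 1140) (nat_lit 0) (XT.nd (nat_lit 390) (nat_lit 608) (nat_lit 0) (XT.nd (nat_lit 156) (nat_lit 760) (nat_lit 0) (XT.nd (nat_lit 78) (nat_lit 0) (nat_lit 0) (XT.lf (nat_lit 0) (nat_lit 23381501210) (nat_lit 380) (nat_lit 8379881216) (nat_lit 456) (nat_lit 8681297299) (nat_lit 76) (nat_lit 5) (nat_lit 81) (nat_lit 5) (nat_lit 82) (nat_lit 5) (nat_lit 354) (nat_lit 314) (nat_lit 112)) (XT.lf (nat_lit 0) (nat_lit 36740862459) (nat_lit 456) (nat_lit 403652089) (nat_lit 76) (nat_lit 4099137855) (nat_lit 76) (nat_lit 5) (nat_lit 82) (nat_lit 5) (nat_lit 77) (nat_lit 5) (nat_lit 355) (nat_lit 314) (nat_lit 111))) (XT.nd (nat_lit 78) (nat_lit 380) (nat_lit 0) (XT.lf (nat_lit 0) (nat_lit 51784870) (nat_lit 380) (nat_lit 25061866191) (nat_lit 76) (nat_lit 16947659832) (nat_lit 71) (nat_lit 5)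 (nat_lit 76) (nat_lit 5) (nat_lit 72) (nat_lit 5) (nat_lit 356) (nat_lit 314) (nat_lit 110)) (XT.nd (nat_lit 78) (nat_lit 380) (nat_lit 0) (XT.lf (nat_lit 0) (nat_lit 4654654581) (nat_lit 380) (nat_lit 8017503938) (nat_lit 76) (nat_lit 30229942436) (nat_lit 71) (nat_lit 5) (nat_lit 76) (nat_lit 5) (nat_lit 72) (nat_lit 5) (nat_lit 357) (nat_lit 314) (nat_lit 109)) (XT.lf (nat_lit 0) (nat_lit 9489490818) (nat_lit 456) (nat_lit 34042034937) (nat_lit 76) (nat_lit 233776490) (nat_lit 66) (nat_lit 5) (nat_lit 72) (nat_lit 5) (nat_lit 67) (nat_lit 5) (nat_lit 358) (nat_lit 314) (nat_lit 108))))) (XT.nd (nat_lit 234) (nat_lit 304) (nat_lit 0) (XT.nd (nat_lit 78) (nat_lit 304) (nat_lit 0) (XT.lf (nat_lit 0) (nat_lit 14674730230) (nat_lit 456) (nat_lit 16620002320) (nat_lit 76) (nat_lit 13353510105) (nat_lit 66) (nat_lit 5) (nat_lit 72) (nat_lit 5) (nat_lit 67) (nat_lit 5) (nat_lit 359) (nat_lit 314)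 (nat_lit 107)) (XT.nd (nat_lit 78) (nat_lit 0) (nat_lit 0) (XT.lf (nat_lit 0) (nat_lit 1348702790) (nat_lit 304) (nat_lit 18677971609) (nat_lit 380) (nat_lit 25530666163) (nat_lit 62) (nat_lit 5) (nat_lit 66) (nat_lit 5) (nat_lit 67) (nat_lit 5) (nat_lit 360) (nat_lit 314) (nat_lit 106)) (XT.lf (nat_lit 0) (nat_lit 20194878886) (nat_lit 304) (nat_lit 5510341428) (nat_lit 380) (nat_lit 20783513396) (nat_lit 62) (nat_lit 5) (nat_lit 66) (nat_lit 5) (nat_lit 67) (nat_lit 5) (nat_lit 361) (nat_lit 314) (nat_lit 105)))) (XT.nd (nat_lit 78) (nat_lit 304) (nat_lit 0) (XT.lf (nat_lit 0) (nat_lit 31629787769) (nat_lit 380) (nat_lit 7921300463) (nat_lit 76) (nat_lit 7894713964) (nat_lit 62) (nat_lit 5) (nat_lit 67) (nat_lit 5) (nat_lit 63) (nat_lit 5) (nat_lit 362) (nat_lit 314) (nat_lit 104)) (XT.nd (nat_lit 78) (nat_lit 0) (nat_lit 0) (XT.lf (nat_lit 0) (nat_lit 11163510790) (nat_lit 304) (nat_lit 26728761785)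 (nat_lit 380) (nat_lit 10534508150) (nat_lit 58) (nat_lit 5) (nat_lit 62) (nat_lit 5) (nat_lit 63) (nat_lit 5) (nat_lit 363) (nat_lit 314) (nat_lit 103)) (XT.lf (nat_lit 0) (nat_lit 30981064660) (nat_lit 304) (nat_lit 13439897071) (nat_lit 380) (nat_lit 5013880283) (nat_lit 58) (nat_lit 5) (nat_lit 62) (nat_lit 5) (nat_lit 63) (nat_lit 5) (nat_lit 364) (nat_lit 314) (nat_lit 102)))))) (XT.nd (nat_lit 390) (nat_lit 532) (nat_lit 0) (XT.nd (nat_lit 156) (nat_lit 304) (nat_lit 0) (XT.nd (nat_lit 78) (nat_lit 0) (nat_lit 0) (XT.lf (nat_lit 0) (nat_lit 669078563) (nat_lit 304) (nat_lit 49545740590) (nat_lit 76) (nat_lit 257840229) (nat_lit 54) (nat_lit 5) (nat_lit 58) (nat_lit 5) (nat_lit 55) (nat_lit 5) (nat_lit 365) (nat_lit 314) (nat_lit 101)) (XT.lf (nat_lit 0) (nat_lit 6741403798) (nat_lit 304) (nat_lit 30455433989) (nat_lit 76) (nat_lit 14333697683) (nat_lit 54) (nat_lit 5) (nat_lit 58) (nat_lit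 5) (nat_lit 55) (nat_lit 5) (nat_lit 366) (nat_lit 314) (nat_lit 100))) (XT.nd (nat_lit 78) (nat_lit 304) (nat_lit 0) (XT.lf (nat_lit 0) (nat_lit 12994337019) (nat_lit 304) (nat_lit 10794532373) (nat_lit 76) (nat_lit 28831328231) (nat_lit 54) (nat_lit 5) (nat_lit 58) (nat_lit 5) (nat_lit 55) (nat_lit 5) (nat_lit 367) (nat_lit 314) (nat_lit 99)) (XT.nd (nat_lit 78) (nat_lit 0) (nat_lit 0) (XT.lf (nat_lit 0) (nat_lit 9642299682) (nat_lit 304) (nat_lit 9883729956) (nat_lit 380) (nat_lit 34213787708) (nat_lit 50) (nat_lit 5) (nat_lit 54) (nat_lit 5) (nat_lit 55) (nat_lit 5) (nat_lit 368) (nat_lit 314) (nat_lit 98)) (XT.lf (nat_lit 0) (nat_lit 26404925227) (nat_lit 380) (nat_lit 24022061749) (nat_lit 76) (nat_lit 4461503881) (nat_lit 50) (nat_lit 5) (nat_lit 55) (nat_lit 5) (nat_lit 51) (nat_lit 5) (nat_lit 369) (nat_lit 314) (nat_lit 97))))) (XT.nd (nat_lit 234) (nat_lit 304) (nat_lit 0) (XT.nd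 (nat_lit 78) (nat_lit 228) (nat_lit 0) (XT.lf (nat_lit 0) (nat_lit 33586593138) (nat_lit 380) (nat_lit 3444215233) (nat_lit 76) (nat_lit 19037926720) (nat_lit 50) (nat_lit 5) (nat_lit 55) (nat_lit 5) (nat_lit 51) (nat_lit 5) (nat_lit 370) (nat_lit 314) (nat_lit 96)) (XT.nd (nat_lit 78) (nat_lit 0) (nat_lit 0) (XT.lf (nat_lit 0) (nat_lit 18102251105) (nat_lit 228) (nat_lit 23054058965) (nat_lit 304) (nat_lit 16122901218) (nat_lit 47) (nat_lit 5) (nat_lit 50) (nat_lit 5) (nat_lit 51) (nat_lit 5) (nat_lit 371) (nat_lit 314) (nat_lit 95)) (XT.lf (nat_lit 0) (nat_lit 40363777949) (nat_lit 228) (nat_lit 8622731932) (nat_lit 304) (nat_lit 9538492675) (nat_lit 47) (nat_lit 5) (nat_lit 50) (nat_lit 5) (nat_lit 51) (nat_lit 5) (nat_lit 372) (nat_lit 314) (nat_lit 94)))) (XT.nd (nat_lit 78) (nat_lit 76) (nat_lit 0) (XT.lf (nat_lit 0) (nat_lit 3491193445) (nat_lit 228) (nat_lit 53652626058) (nat_lit 304)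 (nat_lit 2661584401) (nat_lit 44) (nat_lit 5) (nat_lit 47) (nat_lit 5) (nat_lit 48) (nat_lit 5) (nat_lit 373) (nat_lit 314) (nat_lit 93)) (XT.nd (nat_lit 36036) (nat_lit 0) (nat_lit 7372) (XT.lf (nat_lit 0) (nat_lit 4604583791) (nat_lit 304) (nat_lit 35084865172) (nat_lit 76) (nat_lit 21425418501) (nat_lit 43) (nat_lit 5) (nat_lit 47) (nat_lit 5) (nat_lit 44) (nat_lit 5) (nat_lit 374) (nat_lit 314) (nat_lit 92)) (XT.lf (nat_lit 0) (nat_lit 3360089848) (nat_lit 1140) (nat_lit 3577888479) (nat_lit 1140) (nat_lit 3577888479) (nat_lit 140) (nat_lit 3) (nat_lit 155) (nat_lit 3) (nat_lit 155) (nat_lit 5) (nat_lit 315) (nat_lit 315) (nat_lit 150))))))) (XT.nd (nat_lit 858) (nat_lit 1748) (nat_lit 0) (XT.nd (nat_lit 390) (nat_lit 0) (nat_lit 152) (XT.nd (nat_lit 156) (nat_lit 0) (nat_lit 76) (XT.nd (nat_lit 78) (nat_lit 0) (nat_lit 76) (XT.lf (nat_lit 76) (nat_lit 1451598516) (nat_lit 0) (nat_lit 5517074102)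 (nat_lit 1140) (nat_lit 14373746536) (nat_lit 141) (nat_lit 5) (nat_lit 140) (nat_lit 3) (nat_lit 155) (nat_lit 5) (nat_lit 316) (nat_lit 315) (nat_lit 149)) (XT.lf (nat_lit 0) (nat_lit 7322101024) (nat_lit 1064) (nat_lit 11229763019) (nat_lit 1140) (nat_lit 3107650836) (nat_lit 141) (nat_lit 5) (nat_lit 155) (nat_lit 5) (nat_lit 156) (nat_lit 5) (nat_lit 317) (nat_lit 315) (nat_lit 148))) (XT.nd (nat_lit 78) (nat_lit 0) (nat_lit 0) (XT.lf (nat_lit 0) (nat_lit 7735687086) (nat_lit 1064) (nat_lit 2366356465) (nat_lit 1140) (nat_lit 11882606912) (nat_lit 141) (nat_lit 5) (nat_lit 155) (nat_lit 5) (nat_lit 156) (nat_lit 5) (nat_lit 318) (nat_lit 315) (nat_lit 147)) (XT.nd (nat_lit 78) (nat_lit 0) (nat_lit 76) (XT.lf (nat_lit 76) (nat_lit 6894718020) (nat_lit 0) (nat_lit 1328316927) (nat_lit 1140) (nat_lit 14094677776) (nat_lit 142) (nat_lit 5) (nat_lit 141) (nat_lit 5) (nat_lit 156) (nat_lit 5)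 (nat_lit 319) (nat_lit 315) (nat_lit 146)) (XT.lf (nat_lit 0) (nat_lit 8818450072) (nat_lit 1064) (nat_lit 6255178448) (nat_lit 1140) (nat_lit 7584347774) (nat_lit 142) (nat_lit 5) (nat_lit 156) (nat_lit 5) (nat_lit 157) (nat_lit 5) (nat_lit 320) (nat_lit 315) (nat_lit 145))))) (XT.nd (nat_lit 234) (nat_lit 0) (nat_lit 76) (XT.nd (nat_lit 78) (nat_lit 0) (nat_lit 76) (XT.lf (nat_lit 76) (nat_lit 3234803883) (nat_lit 0) (nat_lit 6236524403) (nat_lit 1140) (nat_lit 13535943943) (nat_lit 143) (nat_lit 5) (nat_lit 142) (nat_lit 5) (nat_lit 157) (nat_lit 5) (nat_lit 321) (nat_lit 315) (nat_lit 144)) (XT.nd (nat_lit 78) (nat_lit 0) (nat_lit 0) (XT.lf (nat_lit 0) (nat_lit 10230609026) (nat_lit 1064) (nat_lit 10258589997) (nat_lit 1140) (nat_lit 2875255643) (nat_lit 143) (nat_lit 5) (nat_lit 157) (nat_lit 5) (nat_lit 158) (nat_lit 5) (nat_lit 322) (nat_lit 315) (nat_lit 143)) (XT.lf (nat_lit 0) (nat_lit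 11070026588) (nat_lit 1064) (nat_lit 523932801) (nat_lit 1140) (nat_lit 12136684196) (nat_lit 143) (nat_lit 5) (nat_lit 157) (nat_lit 5) (nat_lit 158) (nat_lit 5) (nat_lit 323) (nat_lit 315) (nat_lit 142)))) (XT.nd (nat_lit 78) (nat_lit 0) (nat_lit 76) (XT.lf (nat_lit 76) (nat_lit 9689026344) (nat_lit 0) (nat_lit 2334475661) (nat_lit 1140) (nat_lit 12081661322) (nat_lit 144) (nat_lit 5) (nat_lit 143) (nat_lit 5) (nat_lit 158) (nat_lit 5) (nat_lit 324) (nat_lit 315) (nat_lit 141)) (XT.nd (nat_lit 78) (nat_lit 0) (nat_lit 0) (XT.lf (nat_lit 0) (nat_lit 13076011630) (nat_lit 1064) (nat_lit 4343862993) (nat_lit 1140) (nat_lit 7068942222) (nat_lit 144) (nat_lit 5) (nat_lit 158) (nat_lit 5) (nat_lit 159) (nat_lit 5) (nat_lit 325) (nat_lit 315) (nat_lit 140)) (XT.lf (nat_lit 76) (nat_lit 6124127245) (nat_lit 0) (nat_lit 8113921893) (nat_lit 1140) (nat_lit 10643603014) (nat_lit 145) (nat_lit 5) (nat_lit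 144) (nat_lit 5) (nat_lit 159) (nat_lit 5) (nat_lit 326) (nat_lit 315) (nat_lit 139)))))) (XT.nd (nat_lit 468) (nat_lit 2128) (nat_lit 0) (XT.nd (nat_lit 234) (nat_lit 0) (nat_lit 76) (XT.nd (nat_lit 78) (nat_lit 0) (nat_lit 0) (XT.lf (nat_lit 0) (nat_lit 15489459996) (nat_lit 1064) (nat_lit 8307284645) (nat_lit 1140) (nat_lit 1487902960) (nat_lit 145) (nat_lit 5) (nat_lit 159) (nat_lit 5) (nat_lit 160) (nat_lit 5) (nat_lit 327) (nat_lit 315) (nat_lit 138)) (XT.nd (nat_lit 78) (nat_lit 0) (nat_lit 0) (XT.lf (nat_lit 76) (nat_lit 2420491792) (nat_lit 0) (nat_lit 14457710180) (nat_lit 1140) (nat_lit 8818547419) (nat_lit 146) (nat_lit 5) (nat_lit 145) (nat_lit 5) (nat_lit 160) (nat_lit 5) (nat_lit 328) (nat_lit 315) (nat_lit 137)) (XT.lf (nat_lit 76) (nat_lit 13637553141) (nat_lit 0) (nat_lit 4751209839) (nat_lit 1140) (nat_lit 7730056398) (nat_lit 146) (nat_lit 5) (nat_lit 145) (nat_lit 5) (nat_lit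 160) (nat_lit 5) (nat_lit 329) (nat_lit 315) (nat_lit 136)))) (XT.nd (nat_lit 78) (nat_lit 0) (nat_lit 0) (XT.lf (nat_lit 0) (nat_lit 19991459705) (nat_lit 1064) (nat_lit 1415740961) (nat_lit 1140) (nat_lit 5144955794) (nat_lit 146) (nat_lit 5) (nat_lit 160) (nat_lit 5) (nat_lit 161) (nat_lit 5) (nat_lit 330) (nat_lit 315) (nat_lit 135)) (XT.nd (nat_lit 78) (nat_lit 0) (nat_lit 0) (XT.lf (nat_lit 76) (nat_lit 10129573439) (nat_lit 0) (nat_lit 11653568937) (nat_lit 1140) (nat_lit 5211133410) (nat_lit 147) (nat_lit 5) (nat_lit 146) (nat_lit 5) (nat_lit 161) (nat_lit 5) (nat_lit 331) (nat_lit 315) (nat_lit 134)) (XT.lf (nat_lit 76) (nat_lit 22047496604) (nat_lit 0) (nat_lit 1591942374) (nat_lit 1140) (nat_lit 3809902822) (nat_lit 147) (nat_lit 5) (nat_lit 146) (nat_lit 5) (nat_lit 161) (nat_lit 5) (nat_lit 332) (nat_lit 315) (nat_lit 133))))) (XT.nd (nat_lit 234) (nat_lit 532) (nat_lit 0) (XT.nd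 (nat_lit 78) (nat_lit 684) (nat_lit 0) (XT.lf (nat_lit 0) (nat_lit 6443510290) (nat_lit 1064) (nat_lit 19250843887) (nat_lit 1140) (nat_lit 2219426476) (nat_lit 133) (nat_lit 5) (nat_lit 147) (nat_lit 5) (nat_lit 148) (nat_lit 5) (nat_lit 333) (nat_lit 315) (nat_lit 132)) (XT.nd (nat_lit 78) (nat_lit 684) (nat_lit 0) (XT.lf (nat_lit 0) (nat_lit 18736104854) (nat_lit 1064) (nat_lit 9141710874) (nat_lit 1140) (nat_lit 512338470) (nat_lit 133) (nat_lit 5) (nat_lit 147) (nat_lit 5) (nat_lit 148) (nat_lit 5) (nat_lit 334) (nat_lit 315) (nat_lit 131)) (XT.lf (nat_lit 0) (nat_lit 1255556845) (nat_lit 684) (nat_lit 26340703217) (nat_lit 76) (nat_lit 1283190351) (nat_lit 124) (nat_lit 5) (nat_lit 133) (nat_lit 5) (nat_lit 125) (nat_lit 5) (nat_lit 335) (nat_lit 315) (nat_lit 130)))) (XT.nd (nat_lit 78) (nat_lit 532) (nat_lit 0) (XT.lf (nat_lit 0) (nat_lit 3252025373) (nat_lit 684) (nat_lit 14184672403)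 (nat_lit 76) (nat_lit 11941008317) (nat_lit 124) (nat_lit 5) (nat_lit 133) (nat_lit 5) (nat_lit 125) (nat_lit 5) (nat_lit 336) (nat_lit 315) (nat_lit 129)) (XT.nd (nat_lit 78) (nat_lit 532) (nat_lit 0) (XT.lf (nat_lit 0) (nat_lit 5305348803) (nat_lit 684) (nat_lit 1666725534) (nat_lit 76) (nat_lit 22918933828) (nat_lit 124) (nat_lit 5) (nat_lit 133) (nat_lit 5) (nat_lit 125) (nat_lit 5) (nat_lit 337) (nat_lit 315) (nat_lit 128)) (XT.lf (nat_lit 0) (nat_lit 7565043610) (nat_lit 608) (nat_lit 19006729790) (nat_lit 76) (nat_lit 3843600076) (nat_lit 117) (nat_lit 5) (nat_lit 125) (nat_lit 5) (nat_lit 118) (nat_lit 5) (nat_lit 338) (nat_lit 315) (nat_lit 127))))))))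
noncomputable def xc234 : XT := (XT.nd (nat_lit 1716) (nat_lit 1444) (nat_lit 0) (XT.nd (nat_lit 858) (nat_lit 1520) (nat_lit 0) (XT.nd (nat_lit 390) (nat_lit 1368) (nat_lit 0) (XT.nd (nat_lit 156) (nat_lit 456) (nat_lit 0) (XT.nd (nat_lit 78) (nat_lit 532) (nat_lit 0) (XT.lf (nat_lit 0) (nat_lit 9975668988) (nat_lit 608) (nat_lit 6116475759) (nat_lit 76) (nat_lit 14860837921) (nat_lit 117) (nat_lit 5) (nat_lit 125) (nat_lit 5) (nat_lit 118) (nat_lit 5) (nat_lit 339) (nat_lit 315) (nat_lit 126)) (XT.lf (nat_lit 0) (nat_lit 7300266526) (nat_lit 532) (nat_lit 5225717335) (nat_lit 608) (nat_lit 18978722062) (nat_lit 110) (nat_lit 5) (nat_lit 117) (nat_lit 5) (nat_lit 118) (nat_lit 5) (nat_lit 340) (nat_lit 315) (nat_lit 125))) (XT.nd (nat_lit 78) (nat_lit 456) (nat_lit 0) (XT.lf (nat_lit 0) (nat_lit 15269793003) (nat_lit 608) (nat_lit 10886939975) (nat_lit 76) (nat_lit 5912745058) (nat_lit 110)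 (nat_lit 5) (nat_lit 118) (nat_lit 5) (nat_lit 111) (nat_lit 5) (nat_lit 341) (nat_lit 315) (nat_lit 124)) (XT.nd (nat_lit 78) (nat_lit 0) (nat_lit 0) (XT.lf (nat_lit 0) (nat_lit 2830928257) (nat_lit 456) (nat_lit 15341273835) (nat_lit 532) (nat_lit 14476709160) (nat_lit 104) (nat_lit 5) (nat_lit 110) (nat_lit 5) (nat_lit 111) (nat_lit 5) (nat_lit 342) (nat_lit 315) (nat_lit 123)) (XT.lf (nat_lit 0) (nat_lit 17180872188) (nat_lit 456) (nat_lit 4088133668) (nat_lit 532) (nat_lit 11973508256) (nat_lit 104) (nat_lit 5) (nat_lit 110) (nat_lit 5) (nat_lit 111) (nat_lit 5) (nat_lit 343) (nat_lit 315) (nat_lit 122))))) (XT.nd (nat_lit 234) (nat_lit 912) (nat_lit 0) (XT.nd (nat_lit 78) (nat_lit 456) (nat_lit 0) (XT.lf (nat_lit 0) (nat_lit 24528294960) (nat_lit 532) (nat_lit 1967367614) (nat_lit 76) (nat_lit 7356181186) (nat_lit 104) (nat_lit 5) (nat_lit 111) (nat_lit 5) (nat_lit 105) (nat_lit 5) (nat_lit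 344) (nat_lit 315) (nat_lit 121)) (XT.nd (nat_lit 78) (nat_lit 0) (nat_lit 0) (XT.lf (nat_lit 0) (nat_lit 12755605576) (nat_lit 456) (nat_lit 15290383984) (nat_lit 532) (nat_lit 6428650889) (nat_lit 98) (nat_lit 5) (nat_lit 104) (nat_lit 5) (nat_lit 105) (nat_lit 5) (nat_lit 345) (nat_lit 315) (nat_lit 120)) (XT.lf (nat_lit 0) (nat_lit 27958061588) (nat_lit 456) (nat_lit 3728602944) (nat_lit 532) (nat_lit 3428938806) (nat_lit 98) (nat_lit 5) (nat_lit 104) (nat_lit 5) (nat_lit 105) (nat_lit 5) (nat_lit 346) (nat_lit 315) (nat_lit 119)))) (XT.nd (nat_lit 78) (nat_lit 532) (nat_lit 0) (XT.lf (nat_lit 0) (nat_lit 7914059970) (nat_lit 380) (nat_lit 27674858306) (nat_lit 456) (nat_lit 182311698) (nat_lit 93) (nat_lit 5) (nat_lit 98) (nat_lit 5) (nat_lit 99) (nat_lit 5) (nat_lit 347) (nat_lit 315) (nat_lit 118)) (XT.nd (nat_lit 78) (nat_lit 456) (nat_lit 0) (XT.lf (nat_lit 0) (nat_lit 3207595758) (nat_lit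 456) (nat_lit 12930412943) (nat_lit 76) (nat_lit 20304382892) (nat_lit 92) (nat_lit 5) (nat_lit 98) (nat_lit 5) (nat_lit 93) (nat_lit 5) (nat_lit 348) (nat_lit 315) (nat_lit 117)) (XT.lf (nat_lit 0) (nat_lit 2488410911) (nat_lit 456) (nat_lit 4228781637) (nat_lit 532) (nat_lit 30415796809) (nat_lit 86) (nat_lit 5) (nat_lit 92) (nat_lit 5) (nat_lit 93) (nat_lit 5) (nat_lit 349) (nat_lit 315) (nat_lit 116)))))) (XT.nd (nat_lit 390) (nat_lit 760) (nat_lit 0) (XT.nd (nat_lit 156) (nat_lit 760) (nat_lit 0) (XT.nd (nat_lit 78) (nat_lit 0) (nat_lit 0) (XT.lf (nat_lit 0) (nat_lit 10538981530) (nat_lit 532) (nat_lit 19286617535) (nat_lit 76) (nat_lit 8012503849) (nat_lit 86) (nat_lit 5) (nat_lit 93) (nat_lit 5) (nat_lit 87) (nat_lit 5) (nat_lit 350) (nat_lit 315) (nat_lit 115)) (XT.lf (nat_lit 0) (nat_lit 14515134256) (nat_lit 532) (nat_lit 3512246739) (nat_lit 76) (nat_lit 20535802426) (nat_lit 86)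 (nat_lit 5) (nat_lit 93) (nat_lit 5) (nat_lit 87) (nat_lit 5) (nat_lit 351) (nat_lit 315) (nat_lit 114))) (XT.nd (nat_lit 78) (nat_lit 380) (nat_lit 0) (XT.lf (nat_lit 0) (nat_lit 12986378017) (nat_lit 380) (nat_lit 5746930390) (nat_lit 456) (nat_lit 20573030533) (nat_lit 81) (nat_lit 5) (nat_lit 86) (nat_lit 5) (nat_lit 87) (nat_lit 5) (nat_lit 352) (nat_lit 315) (nat_lit 113)) (XT.nd (nat_lit 78) (nat_lit 380) (nat_lit 0) (XT.lf (nat_lit 0) (nat_lit 23178130560) (nat_lit 456) (nat_lit 10087890867) (nat_lit 76) (nat_lit 6802769182) (nat_lit 81) (nat_lit 5) (nat_lit 87) (nat_lit 5) (nat_lit 82) (nat_lit 5) (nat_lit 353) (nat_lit 315) (nat_lit 112)) (XT.lf (nat_lit 0) (nat_lit 6702676971) (nat_lit 380) (nat_lit 21172950167) (nat_lit 456) (nat_lit 12974913229) (nat_lit 76) (nat_lit 5) (nat_lit 81) (nat_lit 5) (nat_lit 82) (nat_lit 5) (nat_lit 354) (nat_lit 315) (nat_lit 111))))) (XT.nd (nat_lit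 234) (nat_lit 380) (nat_lit 0) (XT.nd (nat_lit 78) (nat_lit 380) (nat_lit 0) (XT.lf (nat_lit 0) (nat_lit 24201419440) (nat_lit 380) (nat_lit 8612532156) (nat_lit 456) (nat_lit 8838798237) (nat_lit 76) (nat_lit 5) (nat_lit 81) (nat_lit 5) (nat_lit 82) (nat_lit 5) (nat_lit 355) (nat_lit 315) (nat_lit 110)) (XT.nd (nat_lit 78) (nat_lit 380) (nat_lit 0) (XT.lf (nat_lit 0) (nat_lit 37940086286) (nat_lit 456) (nat_lit 297797298) (nat_lit 76) (nat_lit 4239956364) (nat_lit 76) (nat_lit 5) (nat_lit 82) (nat_lit 5) (nat_lit 77) (nat_lit 5) (nat_lit 356) (nat_lit 315) (nat_lit 109)) (XT.lf (nat_lit 0) (nat_lit 149779430) (nat_lit 380) (nat_lit 25694795057) (nat_lit 76) (nat_lit 17475482589) (nat_lit 71) (nat_lit 5) (nat_lit 76) (nat_lit 5) (nat_lit 72) (nat_lit 5) (nat_lit 357) (nat_lit 315) (nat_lit 108)))) (XT.nd (nat_lit 78) (nat_lit 380) (nat_lit 0) (XT.lf (nat_lit 0) (nat_lit 4887926270) (nat_lit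 380) (nat_lit 8142565833) (nat_lit 76) (nat_lit 31155668828) (nat_lit 71) (nat_lit 5) (nat_lit 76) (nat_lit 5) (nat_lit 72) (nat_lit 5) (nat_lit 358) (nat_lit 315) (nat_lit 107)) (XT.nd (nat_lit 78) (nat_lit 0) (nat_lit 0) (XT.lf (nat_lit 0) (nat_lit 9866394093) (nat_lit 456) (nat_lit 34946230821) (nat_lit 76) (nat_lit 262681403) (nat_lit 66) (nat_lit 5) (nat_lit 72) (nat_lit 5) (nat_lit 67) (nat_lit 5) (nat_lit 359) (nat_lit 315) (nat_lit 106)) (XT.lf (nat_lit 0) (nat_lit 15204504710) (nat_lit 456) (nat_lit 17004946890) (nat_lit 76) (nat_lit 13775369407) (nat_lit 66) (nat_lit 5) (nat_lit 72) (nat_lit 5) (nat_lit 67) (nat_lit 5) (nat_lit 360) (nat_lit 315) (nat_lit 105))))))) (XT.nd (nat_lit 858) (nat_lit 228) (nat_lit 0) (XT.nd (nat_lit 390) (nat_lit 608) (nat_lit 0) (XT.nd (nat_lit 156) (nat_lit 304) (nat_lit 0) (XT.nd (nat_lit 78) (nat_lit 0) (nat_lit 0) (XT.lf (nat_lit 0) (nat_lit 1501705103)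 (nat_lit 304) (nat_lit 19213776171) (nat_lit 380) (nat_lit 26205761684) (nat_lit 62) (nat_lit 5) (nat_lit 66) (nat_lit 5) (nat_lit 67) (nat_lit 5) (nat_lit 361) (nat_lit 315) (nat_lit 104)) (XT.lf (nat_lit 0) (nat_lit 20909988582) (nat_lit 304) (nat_lit 5651831684) (nat_lit 380) (nat_lit 21318839706) (nat_lit 62) (nat_lit 5) (nat_lit 66) (nat_lit 5) (nat_lit 67) (nat_lit 5) (nat_lit 362) (nat_lit 315) (nat_lit 103))) (XT.nd (nat_lit 78) (nat_lit 304) (nat_lit 0) (XT.lf (nat_lit 0) (nat_lit 32661858407) (nat_lit 380) (nat_lit 8050424811) (nat_lit 76) (nat_lit 8154230308) (nat_lit 62) (nat_lit 5) (nat_lit 67) (nat_lit 5) (nat_lit 63) (nat_lit 5) (nat_lit 363) (nat_lit 315) (nat_lit 102)) (XT.nd (nat_lit 78) (nat_lit 0) (nat_lit 0) (XT.lf (nat_lit 0) (nat_lit 11605866911) (nat_lit 304) (nat_lit 27504961098) (nat_lit 380) (nat_lit 10766139971) (nat_lit 58) (nat_lit 5) (nat_lit 62) (nat_lit 5) (nat_lit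 63) (nat_lit 5) (nat_lit 364) (nat_lit 315) (nat_lit 101)) (XT.lf (nat_lit 0) (nat_lit 32014817762) (nat_lit 304) (nat_lit 13818177925) (nat_lit 380) (nat_lit 5082351620) (nat_lit 58) (nat_lit 5) (nat_lit 62) (nat_lit 5) (nat_lit 63) (nat_lit 5) (nat_lit 365) (nat_lit 315) (nat_lit 100))))) (XT.nd (nat_lit 234) (nat_lit 304) (nat_lit 0) (XT.nd (nat_lit 78) (nat_lit 0) (nat_lit 0) (XT.lf (nat_lit 0) (nat_lit 768416519) (nat_lit 304) (nat_lit 50924810200) (nat_lit 76) (nat_lit 291085721) (nat_lit 54) (nat_lit 5) (nat_lit 58) (nat_lit 5) (nat_lit 55) (nat_lit 5) (nat_lit 366) (nat_lit 315) (nat_lit 99)) (XT.nd (nat_lit 78) (nat_lit 0) (nat_lit 0) (XT.lf (nat_lit 0) (nat_lit 7020602804) (nat_lit 304) (nat_lit 31264919720) (nat_lit 76) (nat_lit 14788475881) (nat_lit 54) (nat_lit 5) (nat_lit 58) (nat_lit 5) (nat_lit 55) (nat_lit 5) (nat_lit 367) (nat_lit 315) (nat_lit 98)) (XT.lf (nat_lit 0) (nat_lit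 13458882559) (nat_lit 304) (nat_lit 11017225346) (nat_lit 76) (nat_lit 29720313969) (nat_lit 54) (nat_lit 5) (nat_lit 58) (nat_lit 5) (nat_lit 55) (nat_lit 5) (nat_lit 368) (nat_lit 315) (nat_lit 97)))) (XT.nd (nat_lit 78) (nat_lit 0) (nat_lit 0) (XT.lf (nat_lit 0) (nat_lit 10031720073) (nat_lit 304) (nat_lit 10153592423) (nat_lit 380) (nat_lit 35164358179) (nat_lit 50) (nat_lit 5) (nat_lit 54) (nat_lit 5) (nat_lit 55) (nat_lit 5) (nat_lit 369) (nat_lit 315) (nat_lit 96)) (XT.nd (nat_lit 78) (nat_lit 0) (nat_lit 0) (XT.lf (nat_lit 0) (nat_lit 27268682827) (nat_lit 380) (nat_lit 24643464940) (nat_lit 76) (nat_lit 4620717352) (nat_lit 50) (nat_lit 5) (nat_lit 55) (nat_lit 5) (nat_lit 51) (nat_lit 5) (nat_lit 370) (nat_lit 315) (nat_lit 95)) (XT.lf (nat_lit 0) (nat_lit 34663715053) (nat_lit 380) (nat_lit 3451174058) (nat_lit 76) (nat_lit 19633693992) (nat_lit 50) (nat_lit 5) (nat_lit 55) (nat_lit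 5) (nat_lit 51) (nat_lit 5) (nat_lit 371) (nat_lit 315) (nat_lit 94)))))) (XT.nd (nat_lit 36582) (nat_lit 0) (nat_lit 7144) (XT.nd (nat_lit 36348) (nat_lit 0) (nat_lit 7068) (XT.nd (nat_lit 78) (nat_lit 0) (nat_lit 0) (XT.lf (nat_lit 0) (nat_lit 18740741490) (nat_lit 228) (nat_lit 23718674291) (nat_lit 304) (nat_lit 16535994773) (nat_lit 47) (nat_lit 5) (nat_lit 50) (nat_lit 5) (nat_lit 51) (nat_lit 5) (nat_lit 372) (nat_lit 315) (nat_lit 93)) (XT.nd (nat_lit 36192) (nat_lit 0) (nat_lit 7068) (XT.lf (nat_lit 0) (nat_lit 41667334833) (nat_lit 228) (nat_lit 8855194042) (nat_lit 304) (nat_lit 9756110095) (nat_lit 47) (nat_lit 5) (nat_lit 50) (nat_lit 5) (nat_lit 51) (nat_lit 5) (nat_lit 373) (nat_lit 315) (nat_lit 92)) (XT.lf (nat_lit 0) (nat_lit 3593343559) (nat_lit 1140) (nat_lit 3616834711) (nat_lit 1140) (nat_lit 3616834711) (nat_lit 140) (nat_lit 3) (nat_lit 155) (nat_lit 3) (nat_lit 155)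 (nat_lit 5) (nat_lit 316) (nat_lit 316) (nat_lit 148)))) (XT.nd (nat_lit 78) (nat_lit 0) (nat_lit 76) (XT.lf (nat_lit 76) (nat_lit 1630586329) (nat_lit 0) (nat_lit 5805634837) (nat_lit 1140) (nat_lit 14538024067) (nat_lit 141) (nat_lit 5) (nat_lit 140) (nat_lit 3) (nat_lit 155) (nat_lit 5) (nat_lit 317) (nat_lit 316) (nat_lit 147)) (XT.nd (nat_lit 78) (nat_lit 0) (nat_lit 0) (XT.lf (nat_lit 0) (nat_lit 7791575270) (nat_lit 1064) (nat_lit 11425812055) (nat_lit 1140) (nat_lit 3083746971) (nat_lit 141) (nat_lit 5) (nat_lit 155) (nat_lit 5) (nat_lit 156) (nat_lit 5) (nat_lit 318) (nat_lit 316) (nat_lit 146)) (XT.lf (nat_lit 0) (nat_lit 8210292859) (nat_lit 1064) (nat_lit 2300605553) (nat_lit 1140) (nat_lit 12125363381) (nat_lit 141) (nat_lit 5) (nat_lit 155) (nat_lit 5) (nat_lit 156) (nat_lit 5) (nat_lit 319) (nat_lit 316) (nat_lit 145))))) (XT.nd (nat_lit 234) (nat_lit 0) (nat_lit 152) (XT.nd (nat_lit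 78) (nat_lit 0) (nat_lit 76) (XT.lf (nat_lit 76) (nat_lit 7236960563) (nat_lit 0) (nat_lit 1469538020) (nat_lit 1140) (nat_lit 14273009209) (nat_lit 142) (nat_lit 5) (nat_lit 141) (nat_lit 5) (nat_lit 156) (nat_lit 5) (nat_lit 320) (nat_lit 316) (nat_lit 144)) (XT.nd (nat_lit 78) (nat_lit 0) (nat_lit 0) (XT.lf (nat_lit 0) (nat_lit 9311933809) (nat_lit 1064) (nat_lit 6302919470) (nat_lit 1140) (nat_lit 7715379703) (nat_lit 142) (nat_lit 5) (nat_lit 156) (nat_lit 5) (nat_lit 157) (nat_lit 5) (nat_lit 321) (nat_lit 316) (nat_lit 143)) (XT.lf (nat_lit 76) (nat_lit 3470390622) (nat_lit 0) (nat_lit 6508671633) (nat_lit 1140) (nat_lit 13711123527) (nat_lit 143) (nat_lit 5) (nat_lit 142) (nat_lit 5) (nat_lit 157) (nat_lit 5) (nat_lit 322) (nat_lit 316) (nat_lit 142)))) (XT.nd (nat_lit 78) (nat_lit 0) (nat_lit 0) (XT.lf (nat_lit 0) (nat_lit 10753815212) (nat_lit 1064) (nat_lit 10423954684) (nat_lit 1140)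 (nat_lit 2880550365) (nat_lit 143) (nat_lit 5) (nat_lit 157) (nat_lit 5) (nat_lit 158) (nat_lit 5) (nat_lit 323) (nat_lit 316) (nat_lit 141)) (XT.nd (nat_lit 78) (nat_lit 0) (nat_lit 0) (XT.lf (nat_lit 0) (nat_lit 11612115653) (nat_lit 1064) (nat_lit 401405141) (nat_lit 1140) (nat_lit 12422179917) (nat_lit 143) (nat_lit 5) (nat_lit 157) (nat_lit 5) (nat_lit 158) (nat_lit 5) (nat_lit 324) (nat_lit 316) (nat_lit 140)) (XT.lf (nat_lit 76) (nat_lit 10116587428) (nat_lit 0) (nat_lit 2472807614) (nat_lit 1140) (nat_lit 12232221396) (nat_lit 144) (nat_lit 5) (nat_lit 143) (nat_lit 5) (nat_lit 158) (nat_lit 5) (nat_lit 325) (nat_lit 316) (nat_lit 139))))))))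
noncomputable def xc235 : XT := (XT.nd (nat_lit 1794) (nat_lit 3268) (nat_lit 0) (XT.nd (nat_lit 858) (nat_lit 2356) (nat_lit 0) (XT.nd (nat_lit 390) (nat_lit 1520) (nat_lit 0) (XT.nd (nat_lit 156) (nat_lit 0) (nat_lit 76) (XT.nd (nat_lit 78) (nat_lit 0) (nat_lit 0) (XT.lf (nat_lit 0) (nat_lit 13666866211) (nat_lit 1064) (nat_lit 4334131698) (nat_lit 1140) (nat_lit 7215995974) (nat_lit 144) (nat_lit 5) (nat_lit 158) (nat_lit 5) (nat_lit 159) (nat_lit 5) (nat_lit 326) (nat_lit 316) (nat_lit 138)) (XT.lf (nat_lit 76) (nat_lit 6446525236) (nat_lit 0) (nat_lit 8412788913) (nat_lit 1140) (nat_lit 10762449065) (nat_lit 145) (nat_lit 5) (nat_lit 144) (nat_lit 5) (nat_lit 159) (nat_lit 5) (nat_lit 327) (nat_lit 316) (nat_lit 137))) (XT.nd (nat_lit 78) (nat_lit 0) (nat_lit 0) (XT.lf (nat_lit 0) (nat_lit 16142095760) (nat_lit 1064) (nat_lit 8415196689) (nat_lit 1140) (nat_lit 1479756217) (nat_lit 145)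 (nat_lit 5) (nat_lit 159) (nat_lit 5) (nat_lit 160) (nat_lit 5) (nat_lit 328) (nat_lit 316) (nat_lit 136)) (XT.nd (nat_lit 78) (nat_lit 0) (nat_lit 0) (XT.lf (nat_lit 76) (nat_lit 2633027683) (nat_lit 0) (nat_lit 14935342991) (nat_lit 1140) (nat_lit 8893281273) (nat_lit 146) (nat_lit 5) (nat_lit 145) (nat_lit 5) (nat_lit 160) (nat_lit 5) (nat_lit 329) (nat_lit 316) (nat_lit 135)) (XT.lf (nat_lit 76) (nat_lit 14182525500) (nat_lit 0) (nat_lit 4936368955) (nat_lit 1140) (nat_lit 7777664335) (nat_lit 146) (nat_lit 5) (nat_lit 145) (nat_lit 5) (nat_lit 160) (nat_lit 5) (nat_lit 330) (nat_lit 316) (nat_lit 134))))) (XT.nd (nat_lit 234) (nat_lit 1672) (nat_lit 0) (XT.nd (nat_lit 78) (nat_lit 0) (nat_lit 0) (XT.lf (nat_lit 0) (nat_lit 20764076185) (nat_lit 1064) (nat_lit 1320270811) (nat_lit 1140) (nat_lit 5258730588) (nat_lit 146) (nat_lit 5) (nat_lit 160) (nat_lit 5) (nat_lit 161) (nat_lit 5) (nat_lit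 331) (nat_lit 316) (nat_lit 133)) (XT.nd (nat_lit 78) (nat_lit 0) (nat_lit 0) (XT.lf (nat_lit 76) (nat_lit 10570050645) (nat_lit 0) (nat_lit 12035736550) (nat_lit 1140) (nat_lit 5192798280) (nat_lit 147) (nat_lit 5) (nat_lit 146) (nat_lit 5) (nat_lit 161) (nat_lit 5) (nat_lit 332) (nat_lit 316) (nat_lit 132)) (XT.lf (nat_lit 76) (nat_lit 22841533156) (nat_lit 0) (nat_lit 1671312825) (nat_lit 1140) (nat_lit 3754618224) (nat_lit 147) (nat_lit 5) (nat_lit 146) (nat_lit 5) (nat_lit 161) (nat_lit 5) (nat_lit 333) (nat_lit 316) (nat_lit 131)))) (XT.nd (nat_lit 78) (nat_lit 684) (nat_lit 0) (XT.lf (nat_lit 0) (nat_lit 6773733356) (nat_lit 1064) (nat_lit 19851913173) (nat_lit 1140) (nat_lit 2120315115) (nat_lit 133) (nat_lit 5) (nat_lit 147) (nat_lit 5) (nat_lit 148) (nat_lit 5) (nat_lit 334) (nat_lit 316) (nat_lit 130)) (XT.nd (nat_lit 78) (nat_lit 684) (nat_lit 0) (XT.lf (nat_lit 0) (nat_lit 19431117861)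 (nat_lit 1064) (nat_lit 9438820424) (nat_lit 1140) (nat_lit 366840511) (nat_lit 133) (nat_lit 5) (nat_lit 147) (nat_lit 5) (nat_lit 148) (nat_lit 5) (nat_lit 335) (nat_lit 316) (nat_lit 129)) (XT.lf (nat_lit 0) (nat_lit 1447471807) (nat_lit 684) (nat_lit 26990596989) (nat_lit 76) (nat_lit 1302754625) (nat_lit 124) (nat_lit 5) (nat_lit 133) (nat_lit 5) (nat_lit 125) (nat_lit 5) (nat_lit 336) (nat_lit 316) (nat_lit 128)))))) (XT.nd (nat_lit 468) (nat_lit 1292) (nat_lit 0) (XT.nd (nat_lit 234) (nat_lit 532) (nat_lit 0) (XT.nd (nat_lit 78) (nat_lit 532) (nat_lit 0) (XT.lf (nat_lit 0) (nat_lit 3499341722) (nat_lit 684) (nat_lit 14473972454) (nat_lit 76) (nat_lit 12280858531) (nat_lit 124) (nat_lit 5) (nat_lit 133) (nat_lit 5) (nat_lit 125) (nat_lit 5) (nat_lit 337) (nat_lit 316) (nat_lit 127)) (XT.nd (nat_lit 78) (nat_lit 532) (nat_lit 0) (XT.lf (nat_lit 0) (nat_lit 5609903042) (nat_lit 684) (nat_lit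 1584455338) (nat_lit 76) (nat_lit 23588657149) (nat_lit 124) (nat_lit 5) (nat_lit 133) (nat_lit 5) (nat_lit 125) (nat_lit 5) (nat_lit 338) (nat_lit 316) (nat_lit 126)) (XT.lf (nat_lit 0) (nat_lit 7934302941) (nat_lit 608) (nat_lit 19441223418) (nat_lit 76) (nat_lit 3947688529) (nat_lit 117) (nat_lit 5) (nat_lit 125) (nat_lit 5) (nat_lit 118) (nat_lit 5) (nat_lit 339) (nat_lit 316) (nat_lit 125)))) (XT.nd (nat_lit 78) (nat_lit 532) (nat_lit 0) (XT.lf (nat_lit 0) (nat_lit 10413102187) (nat_lit 608) (nat_lit 6168214434) (nat_lit 76) (nat_lit 15295770292) (nat_lit 117) (nat_lit 5) (nat_lit 125) (nat_lit 5) (nat_lit 118) (nat_lit 5) (nat_lit 340) (nat_lit 316) (nat_lit 124)) (XT.nd (nat_lit 78) (nat_lit 0) (nat_lit 0) (XT.lf (nat_lit 0) (nat_lit 7649738398) (nat_lit 532) (nat_lit 5387418037) (nat_lit 608) (nat_lit 19408298445) (nat_lit 110) (nat_lit 5) (nat_lit 117) (nat_lit 5) (nat_lit 118) (nat_lit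 5) (nat_lit 341) (nat_lit 316) (nat_lit 123)) (XT.lf (nat_lit 0) (nat_lit 15859290362) (nat_lit 608) (nat_lit 11082573923) (nat_lit 76) (nat_lit 6085435180) (nat_lit 110) (nat_lit 5) (nat_lit 118) (nat_lit 5) (nat_lit 111) (nat_lit 5) (nat_lit 342) (nat_lit 316) (nat_lit 122))))) (XT.nd (nat_lit 234) (nat_lit 836) (nat_lit 0) (XT.nd (nat_lit 78) (nat_lit 0) (nat_lit 0) (XT.lf (nat_lit 0) (nat_lit 3045546295) (nat_lit 456) (nat_lit 15800644802) (nat_lit 532) (nat_lit 14778011343) (nat_lit 104) (nat_lit 5) (nat_lit 110) (nat_lit 5) (nat_lit 111) (nat_lit 5) (nat_lit 343) (nat_lit 316) (nat_lit 121)) (XT.nd (nat_lit 78) (nat_lit 0) (nat_lit 0) (XT.lf (nat_lit 0) (nat_lit 17822211160) (nat_lit 456) (nat_lit 4209935690) (nat_lit 532) (nat_lit 12203588172) (nat_lit 104) (nat_lit 5) (nat_lit 110) (nat_lit 5) (nat_lit 111) (nat_lit 5) (nat_lit 344) (nat_lit 316) (nat_lit 120)) (XT.lf (nat_lit 0) (nat_lit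 25385579645) (nat_lit 532) (nat_lit 1900214637) (nat_lit 76) (nat_lit 7577668134) (nat_lit 104) (nat_lit 5) (nat_lit 111) (nat_lit 5) (nat_lit 105) (nat_lit 5) (nat_lit 345) (nat_lit 316) (nat_lit 119)))) (XT.nd (nat_lit 78) (nat_lit 380) (nat_lit 0) (XT.lf (nat_lit 0) (nat_lit 13263210749) (nat_lit 456) (nat_lit 15743258339) (nat_lit 532) (nat_lit 6498552548) (nat_lit 98) (nat_lit 5) (nat_lit 104) (nat_lit 5) (nat_lit 105) (nat_lit 5) (nat_lit 346) (nat_lit 316) (nat_lit 118)) (XT.nd (nat_lit 78) (nat_lit 380) (nat_lit 0) (XT.lf (nat_lit 0) (nat_lit 28918101499) (nat_lit 456) (nat_lit 3834793883) (nat_lit 532) (nat_lit 3412430400) (nat_lit 98) (nat_lit 5) (nat_lit 104) (nat_lit 5) (nat_lit 105) (nat_lit 5) (nat_lit 347) (nat_lit 316) (nat_lit 117)) (XT.lf (nat_lit 0) (nat_lit 8275245628) (nat_lit 380) (nat_lit 28494845803) (nat_lit 456) (nat_lit 70601605) (nat_lit 93) (nat_lit 5) (nat_lit 98)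 (nat_lit 5) (nat_lit 99) (nat_lit 5) (nat_lit 348) (nat_lit 316) (nat_lit 116))))))) (XT.nd (nat_lit 858) (nat_lit 1596) (nat_lit 0) (XT.nd (nat_lit 390) (nat_lit 760) (nat_lit 0) (XT.nd (nat_lit 156) (nat_lit 380) (nat_lit 0) (XT.nd (nat_lit 78) (nat_lit 456) (nat_lit 0) (XT.lf (nat_lit 0) (nat_lit 3415370088) (nat_lit 456) (nat_lit 13195693006) (nat_lit 76) (nat_lit 20921000608) (nat_lit 92) (nat_lit 5) (nat_lit 98) (nat_lit 5) (nat_lit 93) (nat_lit 5) (nat_lit 349) (nat_lit 316) (nat_lit 115)) (XT.lf (nat_lit 0) (nat_lit 2684493286) (nat_lit 456) (nat_lit 4343679829) (nat_lit 532) (nat_lit 31215276109) (nat_lit 86) (nat_lit 5) (nat_lit 92) (nat_lit 5) (nat_lit 93) (nat_lit 5) (nat_lit 350) (nat_lit 316) (nat_lit 114))) (XT.nd (nat_lit 78) (nat_lit 380) (nat_lit 0) (XT.lf (nat_lit 0) (nat_lit 10961539139) (nat_lit 532) (nat_lit 19744007474) (nat_lit 76) (nat_lit 8264269034) (nat_lit 86) (nat_lit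 5) (nat_lit 93) (nat_lit 5) (nat_lit 87) (nat_lit 5) (nat_lit 351) (nat_lit 316) (nat_lit 113)) (XT.nd (nat_lit 78) (nat_lit 380) (nat_lit 0) (XT.lf (nat_lit 0) (nat_lit 15053877762) (nat_lit 532) (nat_lit 3499935902) (nat_lit 76) (nat_lit 21162934819) (nat_lit 86) (nat_lit 5) (nat_lit 93) (nat_lit 5) (nat_lit 87) (nat_lit 5) (nat_lit 352) (nat_lit 316) (nat_lit 112)) (XT.lf (nat_lit 0) (nat_lit 13492493888) (nat_lit 380) (nat_lit 5904214923) (nat_lit 456) (nat_lit 21085553257) (nat_lit 81) (nat_lit 5) (nat_lit 86) (nat_lit 5) (nat_lit 87) (nat_lit 5) (nat_lit 353) (nat_lit 316) (nat_lit 111))))) (XT.nd (nat_lit 234) (nat_lit 380) (nat_lit 0) (XT.nd (nat_lit 78) (nat_lit 380) (nat_lit 0) (XT.lf (nat_lit 0) (nat_lit 23972063339) (nat_lit 456) (nat_lit 10274366237) (nat_lit 76) (nat_lit 7021248633) (nat_lit 81) (nat_lit 5) (nat_lit 87) (nat_lit 5) (nat_lit 82) (nat_lit 5) (nat_lit 354) (nat_lit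 316) (nat_lit 110)) (XT.nd (nat_lit 78) (nat_lit 0) (nat_lit 0) (XT.lf (nat_lit 0) (nat_lit 7018779799) (nat_lit 380) (nat_lit 21789939162) (nat_lit 456) (nat_lit 13264220838) (nat_lit 76) (nat_lit 5) (nat_lit 81) (nat_lit 5) (nat_lit 82) (nat_lit 5) (nat_lit 355) (nat_lit 316) (nat_lit 109)) (XT.lf (nat_lit 0) (nat_lit 25039134372) (nat_lit 380) (nat_lit 8853238693) (nat_lit 456) (nat_lit 9006933263) (nat_lit 76) (nat_lit 5) (nat_lit 81) (nat_lit 5) (nat_lit 82) (nat_lit 5) (nat_lit 356) (nat_lit 316) (nat_lit 108)))) (XT.nd (nat_lit 78) (nat_lit 380) (nat_lit 0) (XT.lf (nat_lit 0) (nat_lit 39169718748) (nat_lit 456) (nat_lit 195538500) (nat_lit 76) (nat_lit 4383975087) (nat_lit 76) (nat_lit 5) (nat_lit 82) (nat_lit 5) (nat_lit 77) (nat_lit 5) (nat_lit 357) (nat_lit 316) (nat_lit 107)) (XT.nd (nat_lit 78) (nat_lit 0) (nat_lit 0) (XT.lf (nat_lit 0) (nat_lit 245177717) (nat_lit 380) (nat_lit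 26353538691) (nat_lit 76) (nat_lit 18018026793) (nat_lit 71) (nat_lit 5) (nat_lit 76) (nat_lit 5) (nat_lit 72) (nat_lit 5) (nat_lit 358) (nat_lit 316) (nat_lit 106)) (XT.lf (nat_lit 0) (nat_lit 5122821247) (nat_lit 380) (nat_lit 8278007645) (nat_lit 76) (nat_lit 32108086200) (nat_lit 71) (nat_lit 5) (nat_lit 76) (nat_lit 5) (nat_lit 72) (nat_lit 5) (nat_lit 359) (nat_lit 316) (nat_lit 105)))))) (XT.nd (nat_lit 468) (nat_lit 608) (nat_lit 0) (XT.nd (nat_lit 234) (nat_lit 304) (nat_lit 0) (XT.nd (nat_lit 78) (nat_lit 304) (nat_lit 0) (XT.lf (nat_lit 0) (nat_lit 10249310743) (nat_lit 456) (nat_lit 35884272601) (nat_lit 76) (nat_lit 291196796) (nat_lit 66) (nat_lit 5) (nat_lit 72) (nat_lit 5) (nat_lit 67) (nat_lit 5) (nat_lit 360) (nat_lit 316) (nat_lit 104)) (XT.nd (nat_lit 78) (nat_lit 304) (nat_lit 0) (XT.lf (nat_lit 0) (nat_lit 15745032889) (nat_lit 456) (nat_lit 17407964088) (nat_lit 76) (nat_lit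 14208664422) (nat_lit 66) (nat_lit 5) (nat_lit 72) (nat_lit 5) (nat_lit 67) (nat_lit 5) (nat_lit 361) (nat_lit 316) (nat_lit 103)) (XT.lf (nat_lit 0) (nat_lit 1652837159) (nat_lit 304) (nat_lit 19767063255) (nat_lit 380) (nat_lit 26906323766) (nat_lit 62) (nat_lit 5) (nat_lit 66) (nat_lit 5) (nat_lit 67) (nat_lit 5) (nat_lit 362) (nat_lit 316) (nat_lit 102)))) (XT.nd (nat_lit 78) (nat_lit 304) (nat_lit 0) (XT.lf (nat_lit 0) (nat_lit 21640279407) (nat_lit 304) (nat_lit 5798934013) (nat_lit 380) (nat_lit 21875287646) (nat_lit 62) (nat_lit 5) (nat_lit 66) (nat_lit 5) (nat_lit 67) (nat_lit 5) (nat_lit 363) (nat_lit 316) (nat_lit 101)) (XT.nd (nat_lit 78) (nat_lit 304) (nat_lit 0) (XT.lf (nat_lit 0) (nat_lit 33720116464) (nat_lit 380) (nat_lit 8189652075) (nat_lit 76) (nat_lit 8420230510) (nat_lit 62) (nat_lit 5) (nat_lit 67) (nat_lit 5) (nat_lit 63) (nat_lit 5) (nat_lit 364) (nat_lit 316) (nat_lit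 100)) (XT.lf (nat_lit 0) (nat_lit 12055325600) (nat_lit 304) (nat_lit 28305919583) (nat_lit 380) (nat_lit 11009565848) (nat_lit 58) (nat_lit 5) (nat_lit 62) (nat_lit 5) (nat_lit 63) (nat_lit 5) (nat_lit 365) (nat_lit 316) (nat_lit 99))))) (XT.nd (nat_lit 234) (nat_lit 304) (nat_lit 0) (XT.nd (nat_lit 78) (nat_lit 304) (nat_lit 0) (XT.lf (nat_lit 0) (nat_lit 33073594996) (nat_lit 304) (nat_lit 14209237488) (nat_lit 380) (nat_lit 5157581080) (nat_lit 58) (nat_lit 5) (nat_lit 62) (nat_lit 5) (nat_lit 63) (nat_lit 5) (nat_lit 366) (nat_lit 316) (nat_lit 98)) (XT.nd (nat_lit 78) (nat_lit 0) (nat_lit 0) (XT.lf (nat_lit 0) (nat_lit 866184444) (nat_lit 304) (nat_lit 52351411507) (nat_lit 76) (nat_lit 323864183) (nat_lit 54) (nat_lit 5) (nat_lit 58) (nat_lit 5) (nat_lit 55) (nat_lit 5) (nat_lit 367) (nat_lit 316) (nat_lit 97)) (XT.lf (nat_lit 0) (nat_lit 7303760140) (nat_lit 304) (nat_lit 32104670225)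 (nat_lit 76) (nat_lit 15255475681) (nat_lit 54) (nat_lit 5) (nat_lit 58) (nat_lit 5) (nat_lit 55) (nat_lit 5) (nat_lit 368) (nat_lit 316) (nat_lit 96)))) (XT.nd (nat_lit 78) (nat_lit 304) (nat_lit 0) (XT.lf (nat_lit 0) (nat_lit 13933075494) (nat_lit 304) (nat_lit 11252405129) (nat_lit 76) (nat_lit 30634588945) (nat_lit 54) (nat_lit 5) (nat_lit 58) (nat_lit 5) (nat_lit 55) (nat_lit 5) (nat_lit 369) (nat_lit 316) (nat_lit 95)) (XT.nd (nat_lit 78) (nat_lit 0) (nat_lit 0) (XT.lf (nat_lit 0) (nat_lit 10427073976) (nat_lit 304) (nat_lit 10433080550) (nat_lit 380) (nat_lit 36147799472) (nat_lit 50) (nat_lit 5) (nat_lit 54) (nat_lit 5) (nat_lit 55) (nat_lit 5) (nat_lit 370) (nat_lit 316) (nat_lit 94)) (XT.lf (nat_lit 0) (nat_lit 28154242458) (nat_lit 380) (nat_lit 25289208080) (nat_lit 76) (nat_lit 4783250981) (nat_lit 50) (nat_lit 5) (nat_lit 55) (nat_lit 5) (nat_lit 51) (nat_lit 5) (nat_lit 371) (nat_lit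 316) (nat_lit 93))))))))
noncomputable def xc236 : XT := (XT.nd (nat_lit 1716) (nat_lit 4408) (nat_lit 0) (XT.nd (nat_lit 858) (nat_lit 1216) (nat_lit 0) (XT.nd (nat_lit 390) (nat_lit 0) (nat_lit 152) (XT.nd (nat_lit 156) (nat_lit 0) (nat_lit 76) (XT.nd (nat_lit 78) (nat_lit 0) (nat_lit 0) (XT.lf (nat_lit 0) (nat_lit 3825991652) (nat_lit 1140) (nat_lit 3660875219) (nat_lit 1140) (nat_lit 3660875219) (nat_lit 140) (nat_lit 3) (nat_lit 155) (nat_lit 3) (nat_lit 155) (nat_lit 5) (nat_lit 317) (nat_lit 317) (nat_lit 146)) (XT.lf (nat_lit 76) (nat_lit 1807168975) (nat_lit 0) (nat_lit 6095788906) (nat_lit 1140) (nat_lit 14722553078) (nat_lit 141) (nat_lit 5) (nat_lit 140) (nat_lit 3) (nat_lit 155) (nat_lit 5) (nat_lit 318) (nat_lit 317) (nat_lit 145))) (XT.nd (nat_lit 78) (nat_lit 0) (nat_lit 0) (XT.lf (nat_lit 0) (nat_lit 8260793558) (nat_lit 1064) (nat_lit 11635827576) (nat_lit 1140) (nat_lit 3065849925)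 (nat_lit 141) (nat_lit 5) (nat_lit 155) (nat_lit 5) (nat_lit 156) (nat_lit 5) (nat_lit 319) (nat_lit 317) (nat_lit 144)) (XT.nd (nat_lit 78) (nat_lit 0) (nat_lit 0) (XT.lf (nat_lit 0) (nat_lit 8685214295) (nat_lit 1064) (nat_lit 2240731641) (nat_lit 1140) (nat_lit 12381930636) (nat_lit 141) (nat_lit 5) (nat_lit 155) (nat_lit 5) (nat_lit 156) (nat_lit 5) (nat_lit 320) (nat_lit 317) (nat_lit 143)) (XT.lf (nat_lit 76) (nat_lit 7581697811) (nat_lit 0) (nat_lit 1609176601) (nat_lit 1140) (nat_lit 14470726396) (nat_lit 142) (nat_lit 5) (nat_lit 141) (nat_lit 5) (nat_lit 156) (nat_lit 5) (nat_lit 321) (nat_lit 317) (nat_lit 142))))) (XT.nd (nat_lit 234) (nat_lit 0) (nat_lit 76) (XT.nd (nat_lit 78) (nat_lit 0) (nat_lit 0) (XT.lf (nat_lit 0) (nat_lit 9807080525) (nat_lit 1064) (nat_lit 6360124378) (nat_lit 1140) (nat_lit 7855881998) (nat_lit 142) (nat_lit 5) (nat_lit 156) (nat_lit 5) (nat_lit 157) (nat_lit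 5) (nat_lit 322) (nat_lit 317) (nat_lit 141)) (XT.nd (nat_lit 78) (nat_lit 0) (nat_lit 76) (XT.lf (nat_lit 76) (nat_lit 3705092049) (nat_lit 0) (nat_lit 6784100975) (nat_lit 1140) (nat_lit 13904813030) (nat_lit 143) (nat_lit 5) (nat_lit 142) (nat_lit 5) (nat_lit 157) (nat_lit 5) (nat_lit 323) (nat_lit 317) (nat_lit 140)) (XT.lf (nat_lit 0) (nat_lit 11280301773) (nat_lit 1064) (nat_lit 10602454253) (nat_lit 1140) (nat_lit 2890651532) (nat_lit 143) (nat_lit 5) (nat_lit 157) (nat_lit 5) (nat_lit 158) (nat_lit 5) (nat_lit 324) (nat_lit 317) (nat_lit 139)))) (XT.nd (nat_lit 78) (nat_lit 0) (nat_lit 0) (XT.lf (nat_lit 0) (nat_lit 12158413205) (nat_lit 1064) (nat_lit 283137517) (nat_lit 1140) (nat_lit 12720752748) (nat_lit 143) (nat_lit 5) (nat_lit 157) (nat_lit 5) (nat_lit 158) (nat_lit 5) (nat_lit 325) (nat_lit 317) (nat_lit 138)) (XT.nd (nat_lit 78) (nat_lit 0) (nat_lit 76) (XT.lf (nat_lit 76) (nat_lit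 10549117282) (nat_lit 0) (nat_lit 2611368959) (nat_lit 1140) (nat_lit 12399461613) (nat_lit 144) (nat_lit 5) (nat_lit 143) (nat_lit 5) (nat_lit 158) (nat_lit 5) (nat_lit 326) (nat_lit 317) (nat_lit 137)) (XT.lf (nat_lit 0) (nat_lit 14264047455) (nat_lit 1064) (nat_lit 4332147745) (nat_lit 1140) (nat_lit 7371193439) (nat_lit 144) (nat_lit 5) (nat_lit 158) (nat_lit 5) (nat_lit 159) (nat_lit 5) (nat_lit 327) (nat_lit 317) (nat_lit 136)))))) (XT.nd (nat_lit 390) (nat_lit 1520) (nat_lit 0) (XT.nd (nat_lit 156) (nat_lit 0) (nat_lit 76) (XT.nd (nat_lit 78) (nat_lit 0) (nat_lit 76) (XT.lf (nat_lit 76) (nat_lit 6770634702) (nat_lit 0) (nat_lit 8717438924) (nat_lit 1140) (nat_lit 10896367838) (nat_lit 145) (nat_lit 5) (nat_lit 144) (nat_lit 5) (nat_lit 159) (nat_lit 5) (nat_lit 328) (nat_lit 317) (nat_lit 135)) (XT.lf (nat_lit 0) (nat_lit 16803521386) (nat_lit 1064) (nat_lit 8534457665) (nat_lit 1140)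 (nat_lit 1474395080) (nat_lit 145) (nat_lit 5) (nat_lit 159) (nat_lit 5) (nat_lit 160) (nat_lit 5) (nat_lit 329) (nat_lit 317) (nat_lit 134))) (XT.nd (nat_lit 78) (nat_lit 0) (nat_lit 0) (XT.lf (nat_lit 76) (nat_lit 2843907605) (nat_lit 0) (nat_lit 15424784660) (nat_lit 1140) (nat_lit 8981153735) (nat_lit 146) (nat_lit 5) (nat_lit 145) (nat_lit 5) (nat_lit 160) (nat_lit 5) (nat_lit 330) (nat_lit 317) (nat_lit 133)) (XT.nd (nat_lit 78) (nat_lit 0) (nat_lit 76) (XT.lf (nat_lit 76) (nat_lit 14736048927) (nat_lit 0) (nat_lit 5124636121) (nat_lit 1140) (nat_lit 7837279725) (nat_lit 146) (nat_lit 5) (nat_lit 145) (nat_lit 5) (nat_lit 160) (nat_lit 5) (nat_lit 331) (nat_lit 317) (nat_lit 132)) (XT.lf (nat_lit 0) (nat_lit 21549947559) (nat_lit 1064) (nat_lit 1229855013) (nat_lit 1140) (nat_lit 5378247732) (nat_lit 146) (nat_lit 5) (nat_lit 160) (nat_lit 5) (nat_lit 161) (nat_lit 5) (nat_lit 332) (nat_lit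 317) (nat_lit 131))))) (XT.nd (nat_lit 234) (nat_lit 684) (nat_lit 0) (XT.nd (nat_lit 78) (nat_lit 988) (nat_lit 0) (XT.lf (nat_lit 76) (nat_lit 11015901343) (nat_lit 0) (nat_lit 12427500083) (nat_lit 1140) (nat_lit 5183939818) (nat_lit 147) (nat_lit 5) (nat_lit 146) (nat_lit 5) (nat_lit 161) (nat_lit 5) (nat_lit 333) (nat_lit 317) (nat_lit 130)) (XT.nd (nat_lit 78) (nat_lit 988) (nat_lit 0) (XT.lf (nat_lit 76) (nat_lit 23651778353) (nat_lit 0) (nat_lit 1751249721) (nat_lit 1140) (nat_lit 3707409770) (nat_lit 147) (nat_lit 5) (nat_lit 146) (nat_lit 5) (nat_lit 161) (nat_lit 5) (nat_lit 334) (nat_lit 317) (nat_lit 129)) (XT.lf (nat_lit 0) (nat_lit 7106003474) (nat_lit 1064) (nat_lit 20469663018) (nat_lit 1140) (nat_lit 2027741934) (nat_lit 133) (nat_lit 5) (nat_lit 147) (nat_lit 5) (nat_lit 148) (nat_lit 5) (nat_lit 335) (nat_lit 317) (nat_lit 128)))) (XT.nd (nat_lit 78) (nat_lit 684) (nat_lit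 0) (XT.lf (nat_lit 0) (nat_lit 20139350541) (nat_lit 1064) (nat_lit 9743531104) (nat_lit 1140) (nat_lit 226212102) (nat_lit 133) (nat_lit 5) (nat_lit 147) (nat_lit 5) (nat_lit 148) (nat_lit 5) (nat_lit 336) (nat_lit 317) (nat_lit 127)) (XT.nd (nat_lit 78) (nat_lit 0) (nat_lit 0) (XT.lf (nat_lit 0) (nat_lit 1636289736) (nat_lit 684) (nat_lit 27668042937) (nat_lit 76) (nat_lit 1323992569) (nat_lit 124) (nat_lit 5) (nat_lit 133) (nat_lit 5) (nat_lit 125) (nat_lit 5) (nat_lit 337) (nat_lit 317) (nat_lit 126)) (XT.lf (nat_lit 0) (nat_lit 3745480979) (nat_lit 684) (nat_lit 14779772248) (nat_lit 76) (nat_lit 12631959341) (nat_lit 124) (nat_lit 5) (nat_lit 133) (nat_lit 5) (nat_lit 125) (nat_lit 5) (nat_lit 338) (nat_lit 317) (nat_lit 125))))))) (XT.nd (nat_lit 858) (nat_lit 1976) (nat_lit 0) (XT.nd (nat_lit 390) (nat_lit 1368) (nat_lit 0) (XT.nd (nat_lit 156) (nat_lit 532) (nat_lit 0) (XT.nd (nat_lit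 78) (nat_lit 532) (nat_lit 0) (XT.lf (nat_lit 0) (nat_lit 5915247711) (nat_lit 684) (nat_lit 1507309988) (nat_lit 76) (nat_lit 24279496527) (nat_lit 124) (nat_lit 5) (nat_lit 133) (nat_lit 5) (nat_lit 125) (nat_lit 5) (nat_lit 339) (nat_lit 317) (nat_lit 124)) (XT.lf (nat_lit 0) (nat_lit 8306470989) (nat_lit 608) (nat_lit 19896542065) (nat_lit 76) (nat_lit 4055543683) (nat_lit 117) (nat_lit 5) (nat_lit 125) (nat_lit 5) (nat_lit 118) (nat_lit 5) (nat_lit 340) (nat_lit 317) (nat_lit 123))) (XT.nd (nat_lit 78) (nat_lit 532) (nat_lit 0) (XT.lf (nat_lit 0) (nat_lit 10855727253) (nat_lit 608) (nat_lit 6229068580) (nat_lit 76) (nat_lit 15744375924) (nat_lit 117) (nat_lit 5) (nat_lit 125) (nat_lit 5) (nat_lit 118) (nat_lit 5) (nat_lit 341) (nat_lit 317) (nat_lit 122)) (XT.nd (nat_lit 78) (nat_lit 0) (nat_lit 0) (XT.lf (nat_lit 0) (nat_lit 8002205266) (nat_lit 532) (nat_lit 5553686806) (nat_lit 608)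 (nat_lit 19858786366) (nat_lit 110) (nat_lit 5) (nat_lit 117) (nat_lit 5) (nat_lit 118) (nat_lit 5) (nat_lit 342) (nat_lit 317) (nat_lit 121)) (XT.lf (nat_lit 0) (nat_lit 16458929540) (nat_lit 608) (nat_lit 11291595347) (nat_lit 76) (nat_lit 6263575359) (nat_lit 110) (nat_lit 5) (nat_lit 118) (nat_lit 5) (nat_lit 111) (nat_lit 5) (nat_lit 343) (nat_lit 317) (nat_lit 120))))) (XT.nd (nat_lit 234) (nat_lit 912) (nat_lit 0) (XT.nd (nat_lit 78) (nat_lit 0) (nat_lit 0) (XT.lf (nat_lit 0) (nat_lit 3259158126) (nat_lit 456) (nat_lit 16273846682) (nat_lit 532) (nat_lit 15095987284) (nat_lit 104) (nat_lit 5) (nat_lit 110) (nat_lit 5) (nat_lit 111) (nat_lit 5) (nat_lit 344) (nat_lit 317) (nat_lit 119)) (XT.nd (nat_lit 78) (nat_lit 0) (nat_lit 0) (XT.lf (nat_lit 0) (nat_lit 18475562391) (nat_lit 456) (nat_lit 4335440106) (nat_lit 532) (nat_lit 12447982808) (nat_lit 104) (nat_lit 5) (nat_lit 110) (nat_lit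 5) (nat_lit 111) (nat_lit 5) (nat_lit 345) (nat_lit 317) (nat_lit 118)) (XT.lf (nat_lit 0) (nat_lit 26261611957) (nat_lit 532) (nat_lit 1838289974) (nat_lit 76) (nat_lit 7805753681) (nat_lit 104) (nat_lit 5) (nat_lit 111) (nat_lit 5) (nat_lit 105) (nat_lit 5) (nat_lit 346) (nat_lit 317) (nat_lit 117)))) (XT.nd (nat_lit 78) (nat_lit 456) (nat_lit 0) (XT.lf (nat_lit 0) (nat_lit 13778872182) (nat_lit 456) (nat_lit 16210054002) (nat_lit 532) (nat_lit 6577609542) (nat_lit 98) (nat_lit 5) (nat_lit 104) (nat_lit 5) (nat_lit 105) (nat_lit 5) (nat_lit 347) (nat_lit 317) (nat_lit 116)) (XT.nd (nat_lit 78) (nat_lit 456) (nat_lit 0) (XT.lf (nat_lit 0) (nat_lit 29899979603) (nat_lit 456) (nat_lit 3944495867) (nat_lit 532) (nat_lit 3402279446) (nat_lit 98) (nat_lit 5) (nat_lit 104) (nat_lit 5) (nat_lit 105) (nat_lit 5) (nat_lit 348) (nat_lit 317) (nat_lit 115)) (XT.lf (nat_lit 0) (nat_lit 36996899) (nat_lit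 456) (nat_lit 29302651295) (nat_lit 76) (nat_lit 8602791808) (nat_lit 92) (nat_lit 5) (nat_lit 98) (nat_lit 5) (nat_lit 93) (nat_lit 5) (nat_lit 349) (nat_lit 317) (nat_lit 114)))))) (XT.nd (nat_lit 468) (nat_lit 1140) (nat_lit 0) (XT.nd (nat_lit 234) (nat_lit 380) (nat_lit 0) (XT.nd (nat_lit 78) (nat_lit 456) (nat_lit 0) (XT.lf (nat_lit 0) (nat_lit 3622974424) (nat_lit 456) (nat_lit 13475971068) (nat_lit 76) (nat_lit 21555687115) (nat_lit 92) (nat_lit 5) (nat_lit 98) (nat_lit 5) (nat_lit 93) (nat_lit 5) (nat_lit 350) (nat_lit 317) (nat_lit 113)) (XT.nd (nat_lit 78) (nat_lit 0) (nat_lit 0) (XT.lf (nat_lit 0) (nat_lit 2879487551) (nat_lit 456) (nat_lit 4462711821) (nat_lit 532) (nat_lit 32045226140) (nat_lit 86) (nat_lit 5) (nat_lit 92) (nat_lit 5) (nat_lit 93) (nat_lit 5) (nat_lit 351) (nat_lit 317) (nat_lit 112)) (XT.lf (nat_lit 0) (nat_lit 11390666361) (nat_lit 532) (nat_lit 20222076981) (nat_lit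 76) (nat_lit 8522933339) (nat_lit 86) (nat_lit 5) (nat_lit 93) (nat_lit 5) (nat_lit 87) (nat_lit 5) (nat_lit 352) (nat_lit 317) (nat_lit 111)))) (XT.nd (nat_lit 78) (nat_lit 380) (nat_lit 0) (XT.lf (nat_lit 0) (nat_lit 15602854336) (nat_lit 532) (nat_lit 3494010952) (nat_lit 76) (nat_lit 21808246391) (nat_lit 86) (nat_lit 5) (nat_lit 93) (nat_lit 5) (nat_lit 87) (nat_lit 5) (nat_lit 353) (nat_lit 317) (nat_lit 110)) (XT.nd (nat_lit 78) (nat_lit 0) (nat_lit 0) (XT.lf (nat_lit 0) (nat_lit 14007104252) (nat_lit 380) (nat_lit 6067086136) (nat_lit 456) (nat_lit 21619460044) (nat_lit 81) (nat_lit 5) (nat_lit 86) (nat_lit 5) (nat_lit 87) (nat_lit 5) (nat_lit 354) (nat_lit 317) (nat_lit 109)) (XT.lf (nat_lit 0) (nat_lit 24784154697) (nat_lit 456) (nat_lit 10473104006) (nat_lit 76) (nat_lit 7245456057) (nat_lit 81) (nat_lit 5) (nat_lit 87) (nat_lit 5) (nat_lit 82) (nat_lit 5) (nat_lit 355) (nat_lit 317)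 (nat_lit 108))))) (XT.nd (nat_lit 234) (nat_lit 760) (nat_lit 0) (XT.nd (nat_lit 78) (nat_lit 0) (nat_lit 0) (XT.lf (nat_lit 0) (nat_lit 7337762949) (nat_lit 380) (nat_lit 22426482552) (nat_lit 456) (nat_lit 13567944627) (nat_lit 76) (nat_lit 5) (nat_lit 81) (nat_lit 5) (nat_lit 82) (nat_lit 5) (nat_lit 356) (nat_lit 317) (nat_lit 107)) (XT.nd (nat_lit 78) (nat_lit 0) (nat_lit 0) (XT.lf (nat_lit 0) (nat_lit 25895570302) (nat_lit 380) (nat_lit 9102180724) (nat_lit 456) (nat_lit 9185682197) (nat_lit 76) (nat_lit 5) (nat_lit 81) (nat_lit 5) (nat_lit 82) (nat_lit 5) (nat_lit 357) (nat_lit 317) (nat_lit 106)) (XT.lf (nat_lit 0) (nat_lit 40430991736) (nat_lit 456) (nat_lit 96594854) (nat_lit 76) (nat_lit 4531348833) (nat_lit 76) (nat_lit 5) (nat_lit 82) (nat_lit 5) (nat_lit 77) (nat_lit 5) (nat_lit 358) (nat_lit 317) (nat_lit 105)))) (XT.nd (nat_lit 78) (nat_lit 380) (nat_lit 0) (XT.lf (nat_lit 0)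 (nat_lit 338219640) (nat_lit 380) (nat_lit 27038479645) (nat_lit 76) (nat_lit 18575797993) (nat_lit 71) (nat_lit 5) (nat_lit 76) (nat_lit 5) (nat_lit 72) (nat_lit 5) (nat_lit 359) (nat_lit 317) (nat_lit 104)) (XT.nd (nat_lit 78) (nat_lit 380) (nat_lit 0) (XT.lf (nat_lit 0) (nat_lit 5359696750) (nat_lit 380) (nat_lit 8423760296) (nat_lit 76) (nat_lit 33088057326) (nat_lit 71) (nat_lit 5) (nat_lit 76) (nat_lit 5) (nat_lit 72) (nat_lit 5) (nat_lit 360) (nat_lit 317) (nat_lit 103)) (XT.lf (nat_lit 0) (nat_lit 10638725053) (nat_lit 456) (nat_lit 36856789897) (nat_lit 76) (nat_lit 319383120) (nat_lit 66) (nat_lit 5) (nat_lit 72) (nat_lit 5) (nat_lit 67) (nat_lit 5) (nat_lit 361) (nat_lit 317) (nat_lit 102))))))))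
noncomputable def xc237 : XT := (XT.nd (nat_lit 38064) (nat_lit 0) (nat_lit 3192) (XT.nd (nat_lit 37206) (nat_lit 0) (nat_lit 6840) (XT.nd (nat_lit 390) (nat_lit 608) (nat_lit 0) (XT.nd (nat_lit 156) (nat_lit 304) (nat_lit 0) (XT.nd (nat_lit 78) (nat_lit 304) (nat_lit 0) (XT.lf (nat_lit 0) (nat_lit 16296932407) (nat_lit 456) (nat_lit 17829221571) (nat_lit 76) (nat_lit 14653808257) (nat_lit 66) (nat_lit 5) (nat_lit 72) (nat_lit 5) (nat_lit 67) (nat_lit 5) (nat_lit 362) (nat_lit 317) (nat_lit 101)) (XT.lf (nat_lit 0) (nat_lit 1802413699) (nat_lit 304) (nat_lit 20338276491) (nat_lit 380) (nat_lit 27632817119) (nat_lit 62) (nat_lit 5) (nat_lit 66) (nat_lit 5) (nat_lit 67) (nat_lit 5) (nat_lit 363) (nat_lit 317) (nat_lit 100))) (XT.nd (nat_lit 78) (nat_lit 304) (nat_lit 0) (XT.lf (nat_lit 0) (nat_lit 22386566843) (nat_lit 304) (nat_lit 5951738283) (nat_lit 380) (nat_lit 22453200295) (nat_lit 62)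 (nat_lit 5) (nat_lit 66) (nat_lit 5) (nat_lit 67) (nat_lit 5) (nat_lit 364) (nat_lit 317) (nat_lit 99)) (XT.nd (nat_lit 78) (nat_lit 304) (nat_lit 0) (XT.lf (nat_lit 0) (nat_lit 34805621649) (nat_lit 380) (nat_lit 8338927762) (nat_lit 76) (nat_lit 8692983802) (nat_lit 62) (nat_lit 5) (nat_lit 67) (nat_lit 5) (nat_lit 63) (nat_lit 5) (nat_lit 365) (nat_lit 317) (nat_lit 98)) (XT.lf (nat_lit 0) (nat_lit 12512454009) (nat_lit 304) (nat_lit 29132295447) (nat_lit 380) (nat_lit 11264861475) (nat_lit 58) (nat_lit 5) (nat_lit 62) (nat_lit 5) (nat_lit 63) (nat_lit 5) (nat_lit 366) (nat_lit 317) (nat_lit 97))))) (XT.nd (nat_lit 234) (nat_lit 304) (nat_lit 0) (XT.nd (nat_lit 78) (nat_lit 304) (nat_lit 0) (XT.lf (nat_lit 0) (nat_lit 34158490847) (nat_lit 304) (nat_lit 14613377017) (nat_lit 380) (nat_lit 5239501378) (nat_lit 58) (nat_lit 5) (nat_lit 62) (nat_lit 5) (nat_lit 63) (nat_lit 5) (nat_lit 367)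 (nat_lit 317) (nat_lit 96)) (XT.nd (nat_lit 78) (nat_lit 0) (nat_lit 0) (XT.lf (nat_lit 0) (nat_lit 962596436) (nat_lit 304) (nat_lit 53826616876) (nat_lit 76) (nat_lit 356245666) (nat_lit 54) (nat_lit 5) (nat_lit 58) (nat_lit 5) (nat_lit 55) (nat_lit 5) (nat_lit 368) (nat_lit 317) (nat_lit 95)) (XT.lf (nat_lit 0) (nat_lit 7591248146) (nat_lit 304) (nat_lit 32975250160) (nat_lit 76) (nat_lit 15735145348) (nat_lit 54) (nat_lit 5) (nat_lit 58) (nat_lit 5) (nat_lit 55) (nat_lit 5) (nat_lit 369) (nat_lit 317) (nat_lit 94)))) (XT.nd (nat_lit 78) (nat_lit 304) (nat_lit 0) (XT.lf (nat_lit 0) (nat_lit 14417451450) (nat_lit 304) (nat_lit 11500113039) (nat_lit 76) (nat_lit 31574991076) (nat_lit 54) (nat_lit 5) (nat_lit 58) (nat_lit 5) (nat_lit 55) (nat_lit 5) (nat_lit 370) (nat_lit 317) (nat_lit 93)) (XT.nd (nat_lit 78) (nat_lit 0) (nat_lit 0) (XT.lf (nat_lit 0) (nat_lit 10828869417) (nat_lit 304) (nat_lit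 10722395291) (nat_lit 380) (nat_lit 37164847791) (nat_lit 50) (nat_lit 5) (nat_lit 54) (nat_lit 5) (nat_lit 55) (nat_lit 5) (nat_lit 371) (nat_lit 317) (nat_lit 92)) (XT.lf (nat_lit 0) (nat_lit 29062494150) (nat_lit 380) (nat_lit 25959694287) (nat_lit 76) (nat_lit 4949287965) (nat_lit 50) (nat_lit 5) (nat_lit 55) (nat_lit 5) (nat_lit 51) (nat_lit 5) (nat_lit 372) (nat_lit 317) (nat_lit 91)))))) (XT.nd (nat_lit 390) (nat_lit 0) (nat_lit 152) (XT.nd (nat_lit 156) (nat_lit 0) (nat_lit 76) (XT.nd (nat_lit 78) (nat_lit 0) (nat_lit 0) (XT.lf (nat_lit 0) (nat_lit 4058452414) (nat_lit 1140) (nat_lit 3709937470) (nat_lit 1140) (nat_lit 3709937470) (nat_lit 140) (nat_lit 3) (nat_lit 155) (nat_lit 3) (nat_lit 155) (nat_lit 5) (nat_lit 318) (nat_lit 318) (nat_lit 144)) (XT.lf (nat_lit 76) (nat_lit 1981720603) (nat_lit 0) (nat_lit 6387989583) (nat_lit 1140) (nat_lit 14927061500) (nat_lit 141) (nat_lit 5)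 (nat_lit 140) (nat_lit 3) (nat_lit 155) (nat_lit 5) (nat_lit 319) (nat_lit 318) (nat_lit 143))) (XT.nd (nat_lit 78) (nat_lit 0) (nat_lit 0) (XT.lf (nat_lit 0) (nat_lit 8730571394) (nat_lit 1064) (nat_lit 11859764462) (nat_lit 1140) (nat_lit 3053753922) (nat_lit 141) (nat_lit 5) (nat_lit 155) (nat_lit 5) (nat_lit 156) (nat_lit 5) (nat_lit 320) (nat_lit 318) (nat_lit 142)) (XT.nd (nat_lit 78) (nat_lit 0) (nat_lit 0) (XT.lf (nat_lit 0) (nat_lit 9161260073) (nat_lit 1064) (nat_lit 2186460444) (nat_lit 1140) (nat_lit 12652348264) (nat_lit 141) (nat_lit 5) (nat_lit 155) (nat_lit 5) (nat_lit 156) (nat_lit 5) (nat_lit 321) (nat_lit 318) (nat_lit 141)) (XT.lf (nat_lit 76) (nat_lit 7929450782) (nat_lit 0) (nat_lit 1747519239) (nat_lit 1140) (nat_lit 14687605197) (nat_lit 142) (nat_lit 5) (nat_lit 141) (nat_lit 5) (nat_lit 156) (nat_lit 5) (nat_lit 322) (nat_lit 318) (nat_lit 140))))) (XT.nd (nat_lit 234)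 (nat_lit 0) (nat_lit 76) (XT.nd (nat_lit 78) (nat_lit 0) (nat_lit 0) (XT.lf (nat_lit 0) (nat_lit 10304694489) (nat_lit 1064) (nat_lit 6426616038) (nat_lit 1140) (nat_lit 8005820787) (nat_lit 142) (nat_lit 5) (nat_lit 156) (nat_lit 5) (nat_lit 157) (nat_lit 5) (nat_lit 323) (nat_lit 318) (nat_lit 139)) (XT.nd (nat_lit 78) (nat_lit 0) (nat_lit 76) (XT.lf (nat_lit 76) (nat_lit 3939338136) (nat_lit 0) (nat_lit 7063191159) (nat_lit 1140) (nat_lit 14116806886) (nat_lit 143) (nat_lit 5) (nat_lit 142) (nat_lit 5) (nat_lit 157) (nat_lit 5) (nat_lit 324) (nat_lit 318) (nat_lit 138)) (XT.lf (nat_lit 0) (nat_lit 11810879837) (nat_lit 1064) (nat_lit 10794013532) (nat_lit 1140) (nat_lit 2905436547) (nat_lit 143) (nat_lit 5) (nat_lit 157) (nat_lit 5) (nat_lit 158) (nat_lit 5) (nat_lit 325) (nat_lit 318) (nat_lit 137)))) (XT.nd (nat_lit 78) (nat_lit 0) (nat_lit 0) (XT.lf (nat_lit 0) (nat_lit 12709737456) (nat_lit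 1064) (nat_lit 168802178) (nat_lit 1140) (nat_lit 13032535980) (nat_lit 143) (nat_lit 5) (nat_lit 157) (nat_lit 5) (nat_lit 158) (nat_lit 5) (nat_lit 326) (nat_lit 318) (nat_lit 136)) (XT.nd (nat_lit 78) (nat_lit 0) (nat_lit 76) (XT.lf (nat_lit 76) (nat_lit 10987216054) (nat_lit 0) (nat_lit 2750391635) (nat_lit 1140) (nat_lit 12583184149) (nat_lit 144) (nat_lit 5) (nat_lit 143) (nat_lit 5) (nat_lit 158) (nat_lit 5) (nat_lit 327) (nat_lit 318) (nat_lit 135)) (XT.lf (nat_lit 0) (nat_lit 14868399511) (nat_lit 1064) (nat_lit 4337682067) (nat_lit 1140) (nat_lit 7534564688) (nat_lit 144) (nat_lit 5) (nat_lit 158) (nat_lit 5) (nat_lit 159) (nat_lit 5) (nat_lit 328) (nat_lit 318) (nat_lit 134))))))) (XT.nd (nat_lit 858) (nat_lit 2432) (nat_lit 0) (XT.nd (nat_lit 390) (nat_lit 1520) (nat_lit 0) (XT.nd (nat_lit 156) (nat_lit 0) (nat_lit 76) (XT.nd (nat_lit 78) (nat_lit 0) (nat_lit 76) (XT.lf (nat_lit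 76) (nat_lit 7096963950) (nat_lit 0) (nat_lit 9028228133) (nat_lit 1140) (nat_lit 11045150947) (nat_lit 145) (nat_lit 5) (nat_lit 144) (nat_lit 5) (nat_lit 159) (nat_lit 5) (nat_lit 329) (nat_lit 318) (nat_lit 133)) (XT.lf (nat_lit 0) (nat_lit 17474619914) (nat_lit 1064) (nat_lit 8664942405) (nat_lit 1140) (nat_lit 1471729182) (nat_lit 145) (nat_lit 5) (nat_lit 159) (nat_lit 5) (nat_lit 160) (nat_lit 5) (nat_lit 330) (nat_lit 318) (nat_lit 132))) (XT.nd (nat_lit 78) (nat_lit 0) (nat_lit 0) (XT.lf (nat_lit 76) (nat_lit 3053542952) (nat_lit 0) (nat_lit 15926534120) (nat_lit 1140) (nat_lit 9081933454) (nat_lit 146) (nat_lit 5) (nat_lit 145) (nat_lit 5) (nat_lit 160) (nat_lit 5) (nat_lit 331) (nat_lit 318) (nat_lit 131)) (XT.nd (nat_lit 78) (nat_lit 0) (nat_lit 76) (XT.lf (nat_lit 76) (nat_lit 15298827597) (nat_lit 0) (nat_lit 5316245029) (nat_lit 1140) (nat_lit 7908655502) (nat_lit 146) (nat_lit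 5) (nat_lit 145) (nat_lit 5) (nat_lit 160) (nat_lit 5) (nat_lit 332) (nat_lit 318) (nat_lit 130)) (XT.lf (nat_lit 0) (nat_lit 22350041131) (nat_lit 1064) (nat_lit 1144190645) (nat_lit 1140) (nat_lit 5503545797) (nat_lit 146) (nat_lit 5) (nat_lit 160) (nat_lit 5) (nat_lit 161) (nat_lit 5) (nat_lit 333) (nat_lit 318) (nat_lit 129))))) (XT.nd (nat_lit 234) (nat_lit 684) (nat_lit 0) (XT.nd (nat_lit 78) (nat_lit 988) (nat_lit 0) (XT.lf (nat_lit 76) (nat_lit 11467736832) (nat_lit 0) (nat_lit 12829254708) (nat_lit 1140) (nat_lit 5184266750) (nat_lit 147) (nat_lit 5) (nat_lit 146) (nat_lit 5) (nat_lit 161) (nat_lit 5) (nat_lit 334) (nat_lit 318) (nat_lit 128)) (XT.nd (nat_lit 78) (nat_lit 988) (nat_lit 0) (XT.lf (nat_lit 76) (nat_lit 24479155440) (nat_lit 0) (nat_lit 1831874225) (nat_lit 1140) (nat_lit 3667960935) (nat_lit 147) (nat_lit 5) (nat_lit 146) (nat_lit 5) (nat_lit 161) (nat_lit 5) (nat_lit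 335) (nat_lit 318) (nat_lit 127)) (XT.lf (nat_lit 0) (nat_lit 7440833232) (nat_lit 1064) (nat_lit 21104671421) (nat_lit 1140) (nat_lit 1941357081) (nat_lit 133) (nat_lit 5) (nat_lit 147) (nat_lit 5) (nat_lit 148) (nat_lit 5) (nat_lit 336) (nat_lit 318) (nat_lit 126)))) (XT.nd (nat_lit 78) (nat_lit 684) (nat_lit 0) (XT.lf (nat_lit 0) (nat_lit 20861637517) (nat_lit 1064) (nat_lit 10056146273) (nat_lit 1140) (nat_lit 90069231) (nat_lit 133) (nat_lit 5) (nat_lit 147) (nat_lit 5) (nat_lit 148) (nat_lit 5) (nat_lit 337) (nat_lit 318) (nat_lit 125)) (XT.nd (nat_lit 78) (nat_lit 0) (nat_lit 0) (XT.lf (nat_lit 0) (nat_lit 1822426006) (nat_lit 684) (nat_lit 28373405215) (nat_lit 76) (nat_lit 1346892009) (nat_lit 124) (nat_lit 5) (nat_lit 133) (nat_lit 5) (nat_lit 125) (nat_lit 5) (nat_lit 338) (nat_lit 318) (nat_lit 124)) (XT.lf (nat_lit 0) (nat_lit 3990901309) (nat_lit 684) (nat_lit 15102117832) (nat_lit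 76) (nat_lit 12994587697) (nat_lit 124) (nat_lit 5) (nat_lit 133) (nat_lit 5) (nat_lit 125) (nat_lit 5) (nat_lit 339) (nat_lit 318) (nat_lit 123)))))) (XT.nd (nat_lit 468) (nat_lit 912) (nat_lit 0) (XT.nd (nat_lit 234) (nat_lit 988) (nat_lit 0) (XT.nd (nat_lit 78) (nat_lit 532) (nat_lit 0) (XT.lf (nat_lit 0) (nat_lit 6221885628) (nat_lit 684) (nat_lit 1435007362) (nat_lit 76) (nat_lit 24992026642) (nat_lit 124) (nat_lit 5) (nat_lit 133) (nat_lit 5) (nat_lit 125) (nat_lit 5) (nat_lit 340) (nat_lit 318) (nat_lit 122)) (XT.nd (nat_lit 78) (nat_lit 0) (nat_lit 0) (XT.lf (nat_lit 0) (nat_lit 8682103954) (nat_lit 608) (nat_lit 20372863290) (nat_lit 76) (nat_lit 4167241569) (nat_lit 117) (nat_lit 5) (nat_lit 125) (nat_lit 5) (nat_lit 118) (nat_lit 5) (nat_lit 341) (nat_lit 318) (nat_lit 121)) (XT.lf (nat_lit 0) (nat_lit 11304155221) (nat_lit 608) (nat_lit 6298877495) (nat_lit 76) (nat_lit 16207029120)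 (nat_lit 117) (nat_lit 5) (nat_lit 125) (nat_lit 5) (nat_lit 118) (nat_lit 5) (nat_lit 342) (nat_lit 318) (nat_lit 120)))) (XT.nd (nat_lit 78) (nat_lit 456) (nat_lit 0) (XT.lf (nat_lit 0) (nat_lit 8358186888) (nat_lit 532) (nat_lit 5724676925) (nat_lit 608) (nat_lit 20330352547) (nat_lit 110) (nat_lit 5) (nat_lit 117) (nat_lit 5) (nat_lit 118) (nat_lit 5) (nat_lit 343) (nat_lit 318) (nat_lit 119)) (XT.nd (nat_lit 78) (nat_lit 456) (nat_lit 0) (XT.lf (nat_lit 0) (nat_lit 17069447796) (nat_lit 608) (nat_lit 11513974281) (nat_lit 76) (nat_lit 6447313634) (nat_lit 110) (nat_lit 5) (nat_lit 118) (nat_lit 5) (nat_lit 111) (nat_lit 5) (nat_lit 344) (nat_lit 318) (nat_lit 118)) (XT.lf (nat_lit 0) (nat_lit 3472160924) (nat_lit 456) (nat_lit 16761291544) (nat_lit 532) (nat_lit 15430698932) (nat_lit 104) (nat_lit 5) (nat_lit 110) (nat_lit 5) (nat_lit 111) (nat_lit 5) (nat_lit 345) (nat_lit 318) (nat_lit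 117))))) (XT.nd (nat_lit 234) (nat_lit 456) (nat_lit 0) (XT.nd (nat_lit 78) (nat_lit 456) (nat_lit 0) (XT.lf (nat_lit 0) (nat_lit 19141701160) (nat_lit 456) (nat_lit 4464755214) (nat_lit 532) (nat_lit 12706696108) (nat_lit 104) (nat_lit 5) (nat_lit 110) (nat_lit 5) (nat_lit 111) (nat_lit 5) (nat_lit 346) (nat_lit 318) (nat_lit 116)) (XT.nd (nat_lit 78) (nat_lit 456) (nat_lit 0) (XT.lf (nat_lit 0) (nat_lit 27157354484) (nat_lit 532) (nat_lit 1781334704) (nat_lit 76) (nat_lit 8040638425) (nat_lit 104) (nat_lit 5) (nat_lit 111) (nat_lit 5) (nat_lit 105) (nat_lit 5) (nat_lit 347) (nat_lit 318) (nat_lit 115)) (XT.lf (nat_lit 0) (nat_lit 14303243259) (nat_lit 456) (nat_lit 16691169377) (nat_lit 532) (nat_lit 6665691356) (nat_lit 98) (nat_lit 5) (nat_lit 104) (nat_lit 5) (nat_lit 105) (nat_lit 5) (nat_lit 348) (nat_lit 318) (nat_lit 114)))) (XT.nd (nat_lit 78) (nat_lit 456) (nat_lit 0) (XT.lf (nat_lit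 0) (nat_lit 30904750749) (nat_lit 456) (nat_lit 4057795554) (nat_lit 532) (nat_lit 3398283293) (nat_lit 98) (nat_lit 5) (nat_lit 104) (nat_lit 5) (nat_lit 105) (nat_lit 5) (nat_lit 349) (nat_lit 318) (nat_lit 113)) (XT.nd (nat_lit 78) (nat_lit 0) (nat_lit 0) (XT.lf (nat_lit 0) (nat_lit 140187615) (nat_lit 456) (nat_lit 30069504884) (nat_lit 76) (nat_lit 8867726523) (nat_lit 92) (nat_lit 5) (nat_lit 98) (nat_lit 5) (nat_lit 93) (nat_lit 5) (nat_lit 350) (nat_lit 318) (nat_lit 112)) (XT.lf (nat_lit 0) (nat_lit 3830771239) (nat_lit 456) (nat_lit 13771292967) (nat_lit 76) (nat_lit 22209009146) (nat_lit 92) (nat_lit 5) (nat_lit 98) (nat_lit 5) (nat_lit 93) (nat_lit 5) (nat_lit 351) (nat_lit 318) (nat_lit 111))))))))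
noncomputable def xc238 : XT := (XT.nd (nat_lit 38298) (nat_lit 0) (nat_lit 4256) (XT.nd (nat_lit 858) (nat_lit 912) (nat_lit 0) (XT.nd (nat_lit 390) (nat_lit 1140) (nat_lit 0) (XT.nd (nat_lit 156) (nat_lit 380) (nat_lit 0) (XT.nd (nat_lit 78) (nat_lit 0) (nat_lit 0) (XT.lf (nat_lit 0) (nat_lit 3073761202) (nat_lit 456) (nat_lit 4585962200) (nat_lit 532) (nat_lit 32906188682) (nat_lit 86) (nat_lit 5) (nat_lit 92) (nat_lit 5) (nat_lit 93) (nat_lit 5) (nat_lit 352) (nat_lit 318) (nat_lit 110)) (XT.lf (nat_lit 0) (nat_lit 11826910857) (nat_lit 532) (nat_lit 20721047031) (nat_lit 76) (nat_lit 8788741268) (nat_lit 86) (nat_lit 5) (nat_lit 93) (nat_lit 5) (nat_lit 87) (nat_lit 5) (nat_lit 353) (nat_lit 318) (nat_lit 109))) (XT.nd (nat_lit 78) (nat_lit 380) (nat_lit 0) (XT.lf (nat_lit 0) (nat_lit 16162711330) (nat_lit 532) (nat_lit 3494275689) (nat_lit 76) (nat_lit 22472318957) (nat_lit 86) (nat_lit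 5) (nat_lit 93) (nat_lit 5) (nat_lit 87) (nat_lit 5) (nat_lit 354) (nat_lit 318) (nat_lit 108)) (XT.nd (nat_lit 78) (nat_lit 0) (nat_lit 0) (XT.lf (nat_lit 0) (nat_lit 14530847916) (nat_lit 380) (nat_lit 6235661794) (nat_lit 456) (nat_lit 22175047512) (nat_lit 81) (nat_lit 5) (nat_lit 86) (nat_lit 5) (nat_lit 87) (nat_lit 5) (nat_lit 355) (nat_lit 318) (nat_lit 107)) (XT.lf (nat_lit 0) (nat_lit 25615274264) (nat_lit 456) (nat_lit 10684089266) (nat_lit 76) (nat_lit 7475610732) (nat_lit 81) (nat_lit 5) (nat_lit 87) (nat_lit 5) (nat_lit 82) (nat_lit 5) (nat_lit 356) (nat_lit 318) (nat_lit 106))))) (XT.nd (nat_lit 234) (nat_lit 760) (nat_lit 0) (XT.nd (nat_lit 78) (nat_lit 0) (nat_lit 0) (XT.lf (nat_lit 0) (nat_lit 7660091855) (nat_lit 380) (nat_lit 23083107000) (nat_lit 456) (nat_lit 13886187759) (nat_lit 76) (nat_lit 5) (nat_lit 81) (nat_lit 5) (nat_lit 82) (nat_lit 5) (nat_lit 357) (nat_lit 318)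 (nat_lit 105)) (XT.nd (nat_lit 78) (nat_lit 0) (nat_lit 0) (XT.lf (nat_lit 0) (nat_lit 26771656846) (nat_lit 380) (nat_lit 9359547088) (nat_lit 456) (nat_lit 9375043724) (nat_lit 76) (nat_lit 5) (nat_lit 81) (nat_lit 5) (nat_lit 82) (nat_lit 5) (nat_lit 358) (nat_lit 318) (nat_lit 104)) (XT.lf (nat_lit 0) (nat_lit 41725155746) (nat_lit 456) (nat_lit 699411) (nat_lit 76) (nat_lit 4682233680) (nat_lit 76) (nat_lit 5) (nat_lit 82) (nat_lit 5) (nat_lit 77) (nat_lit 5) (nat_lit 359) (nat_lit 318) (nat_lit 103)))) (XT.nd (nat_lit 78) (nat_lit 380) (nat_lit 0) (XT.lf (nat_lit 0) (nat_lit 429134060) (nat_lit 380) (nat_lit 27750034444) (nat_lit 76) (nat_lit 19149313233) (nat_lit 71) (nat_lit 5) (nat_lit 76) (nat_lit 5) (nat_lit 72) (nat_lit 5) (nat_lit 360) (nat_lit 318) (nat_lit 102)) (XT.nd (nat_lit 78) (nat_lit 380) (nat_lit 0) (XT.lf (nat_lit 0) (nat_lit 5598903022) (nat_lit 380) (nat_lit 8579774472)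 (nat_lit 76) (nat_lit 34096467298) (nat_lit 71) (nat_lit 5) (nat_lit 76) (nat_lit 5) (nat_lit 72) (nat_lit 5) (nat_lit 361) (nat_lit 318) (nat_lit 101)) (XT.lf (nat_lit 0) (nat_lit 11035118389) (nat_lit 456) (nat_lit 37864453361) (nat_lit 76) (nat_lit 347298500) (nat_lit 66) (nat_lit 5) (nat_lit 72) (nat_lit 5) (nat_lit 67) (nat_lit 5) (nat_lit 362) (nat_lit 318) (nat_lit 100)))))) (XT.nd (nat_lit 390) (nat_lit 304) (nat_lit 0) (XT.nd (nat_lit 156) (nat_lit 304) (nat_lit 0) (XT.nd (nat_lit 78) (nat_lit 304) (nat_lit 0) (XT.lf (nat_lit 0) (nat_lit 16860822499) (nat_lit 456) (nat_lit 18268913527) (nat_lit 76) (nat_lit 15111222394) (nat_lit 66) (nat_lit 5) (nat_lit 72) (nat_lit 5) (nat_lit 67) (nat_lit 5) (nat_lit 363) (nat_lit 318) (nat_lit 99)) (XT.lf (nat_lit 0) (nat_lit 1950737618) (nat_lit 304) (nat_lit 20927877455) (nat_lit 380) (nat_lit 28385737574) (nat_lit 62) (nat_lit 5) (nat_lit 66)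 (nat_lit 5) (nat_lit 67) (nat_lit 5) (nat_lit 364) (nat_lit 318) (nat_lit 98))) (XT.nd (nat_lit 78) (nat_lit 304) (nat_lit 0) (XT.lf (nat_lit 0) (nat_lit 23149670167) (nat_lit 304) (nat_lit 6110341568) (nat_lit 380) (nat_lit 23052947703) (nat_lit 62) (nat_lit 5) (nat_lit 66) (nat_lit 5) (nat_lit 67) (nat_lit 5) (nat_lit 365) (nat_lit 318) (nat_lit 97)) (XT.nd (nat_lit 78) (nat_lit 304) (nat_lit 0) (XT.lf (nat_lit 0) (nat_lit 35919449731) (nat_lit 380) (nat_lit 8498216270) (nat_lit 76) (nat_lit 8972763210) (nat_lit 62) (nat_lit 5) (nat_lit 67) (nat_lit 5) (nat_lit 63) (nat_lit 5) (nat_lit 366) (nat_lit 318) (nat_lit 96)) (XT.lf (nat_lit 0) (nat_lit 12977815980) (nat_lit 304) (nat_lit 29984771500) (nat_lit 380) (nat_lit 11532120781) (nat_lit 58) (nat_lit 5) (nat_lit 62) (nat_lit 5) (nat_lit 63) (nat_lit 5) (nat_lit 367) (nat_lit 318) (nat_lit 95))))) (XT.nd (nat_lit 36816) (nat_lit 0) (nat_lit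 6536) (XT.nd (nat_lit 78) (nat_lit 304) (nat_lit 0) (XT.lf (nat_lit 0) (nat_lit 35270612903) (nat_lit 304) (nat_lit 15030911521) (nat_lit 380) (nat_lit 5328058712) (nat_lit 58) (nat_lit 5) (nat_lit 62) (nat_lit 5) (nat_lit 63) (nat_lit 5) (nat_lit 368) (nat_lit 318) (nat_lit 94)) (XT.nd (nat_lit 78) (nat_lit 0) (nat_lit 0) (XT.lf (nat_lit 0) (nat_lit 1057858020) (nat_lit 304) (nat_lit 55351551138) (nat_lit 76) (nat_lit 388297498) (nat_lit 54) (nat_lit 5) (nat_lit 58) (nat_lit 5) (nat_lit 55) (nat_lit 5) (nat_lit 369) (nat_lit 318) (nat_lit 93)) (XT.lf (nat_lit 0) (nat_lit 7883435776) (nat_lit 304) (nat_lit 33877260826) (nat_lit 76) (nat_lit 16227941904) (nat_lit 54) (nat_lit 5) (nat_lit 58) (nat_lit 5) (nat_lit 55) (nat_lit 5) (nat_lit 370) (nat_lit 318) (nat_lit 92)))) (XT.nd (nat_lit 78) (nat_lit 0) (nat_lit 0) (XT.lf (nat_lit 0) (nat_lit 4291131627) (nat_lit 1140) (nat_lit 3763959692) (nat_lit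 1140) (nat_lit 3763959692) (nat_lit 140) (nat_lit 3) (nat_lit 155) (nat_lit 3) (nat_lit 155) (nat_lit 5) (nat_lit 319) (nat_lit 319) (nat_lit 142)) (XT.nd (nat_lit 78) (nat_lit 0) (nat_lit 76) (XT.lf (nat_lit 76) (nat_lit 2154600970) (nat_lit 0) (nat_lit 6682680462) (nat_lit 1140) (nat_lit 15151319598) (nat_lit 141) (nat_lit 5) (nat_lit 140) (nat_lit 3) (nat_lit 155) (nat_lit 5) (nat_lit 320) (nat_lit 319) (nat_lit 141)) (XT.lf (nat_lit 0) (nat_lit 9201701496) (nat_lit 1064) (nat_lit 12097602885) (nat_lit 1140) (nat_lit 3047269169) (nat_lit 141) (nat_lit 5) (nat_lit 155) (nat_lit 5) (nat_lit 156) (nat_lit 5) (nat_lit 321) (nat_lit 319) (nat_lit 140))))))) (XT.nd (nat_lit 858) (nat_lit 2356) (nat_lit 0) (XT.nd (nat_lit 390) (nat_lit 0) (nat_lit 152) (XT.nd (nat_lit 156) (nat_lit 0) (nat_lit 76) (XT.nd (nat_lit 78) (nat_lit 0) (nat_lit 0) (XT.lf (nat_lit 0) (nat_lit 9639217254) (nat_lit 1064)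 (nat_lit 2137535315) (nat_lit 1140) (nat_lit 12936678546) (nat_lit 141) (nat_lit 5) (nat_lit 155) (nat_lit 5) (nat_lit 156) (nat_lit 5) (nat_lit 322) (nat_lit 319) (nat_lit 139)) (XT.lf (nat_lit 76) (nat_lit 8280730513) (nat_lit 0) (nat_lit 1884841923) (nat_lit 1140) (nat_lit 14923460999) (nat_lit 142) (nat_lit 5) (nat_lit 141) (nat_lit 5) (nat_lit 156) (nat_lit 5) (nat_lit 323) (nat_lit 319) (nat_lit 138))) (XT.nd (nat_lit 78) (nat_lit 0) (nat_lit 0) (XT.lf (nat_lit 0) (nat_lit 10805560791) (nat_lit 1064) (nat_lit 6502238470) (nat_lit 1140) (nat_lit 8165179432) (nat_lit 142) (nat_lit 5) (nat_lit 156) (nat_lit 5) (nat_lit 157) (nat_lit 5) (nat_lit 324) (nat_lit 319) (nat_lit 137)) (XT.nd (nat_lit 78) (nat_lit 0) (nat_lit 76) (XT.lf (nat_lit 76) (nat_lit 4173545545) (nat_lit 0) (nat_lit 7346316184) (nat_lit 1140) (nat_lit 14346937038) (nat_lit 143) (nat_lit 5) (nat_lit 142) (nat_lit 5) (nat_lit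 157) (nat_lit 5) (nat_lit 325) (nat_lit 319) (nat_lit 136)) (XT.lf (nat_lit 0) (nat_lit 12346343957) (nat_lit 1064) (nat_lit 10998582032) (nat_lit 1140) (nat_lit 2924794449) (nat_lit 143) (nat_lit 5) (nat_lit 157) (nat_lit 5) (nat_lit 158) (nat_lit 5) (nat_lit 326) (nat_lit 319) (nat_lit 135))))) (XT.nd (nat_lit 234) (nat_lit 0) (nat_lit 76) (XT.nd (nat_lit 78) (nat_lit 0) (nat_lit 0) (XT.lf (nat_lit 0) (nat_lit 13266891448) (nat_lit 1064) (nat_lit 58087694) (nat_lit 1140) (nat_lit 13357681774) (nat_lit 143) (nat_lit 5) (nat_lit 157) (nat_lit 5) (nat_lit 158) (nat_lit 5) (nat_lit 327) (nat_lit 319) (nat_lit 134)) (XT.nd (nat_lit 78) (nat_lit 0) (nat_lit 76) (XT.lf (nat_lit 76) (nat_lit 11431476002) (nat_lit 0) (nat_lit 2890101618) (nat_lit 1140) (nat_lit 12783225332) (nat_lit 144) (nat_lit 5) (nat_lit 143) (nat_lit 5) (nat_lit 158) (nat_lit 5) (nat_lit 328) (nat_lit 319) (nat_lit 133)) (XT.lf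 (nat_lit 0) (nat_lit 15480754289) (nat_lit 1064) (nat_lit 4350525216) (nat_lit 1140) (nat_lit 7706152997) (nat_lit 144) (nat_lit 5) (nat_lit 158) (nat_lit 5) (nat_lit 159) (nat_lit 5) (nat_lit 329) (nat_lit 319) (nat_lit 132)))) (XT.nd (nat_lit 78) (nat_lit 0) (nat_lit 76) (XT.lf (nat_lit 76) (nat_lit 7426010306) (nat_lit 0) (nat_lit 9345512945) (nat_lit 1140) (nat_lit 11208621673) (nat_lit 145) (nat_lit 5) (nat_lit 144) (nat_lit 5) (nat_lit 159) (nat_lit 5) (nat_lit 330) (nat_lit 319) (nat_lit 131)) (XT.nd (nat_lit 78) (nat_lit 0) (nat_lit 0) (XT.lf (nat_lit 0) (nat_lit 18156265323) (nat_lit 1064) (nat_lit 8806548712) (nat_lit 1140) (nat_lit 1471675430) (nat_lit 145) (nat_lit 5) (nat_lit 159) (nat_lit 5) (nat_lit 160) (nat_lit 5) (nat_lit 331) (nat_lit 319) (nat_lit 130)) (XT.lf (nat_lit 76) (nat_lit 3262330990) (nat_lit 0) (nat_lit 16441096963) (nat_lit 1140) (nat_lit 9195418046) (nat_lit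 146) (nat_lit 5) (nat_lit 145) (nat_lit 5) (nat_lit 160) (nat_lit 5) (nat_lit 332) (nat_lit 319) (nat_lit 129)))))) (XT.nd (nat_lit 468) (nat_lit 1672) (nat_lit 0) (XT.nd (nat_lit 234) (nat_lit 988) (nat_lit 0) (XT.nd (nat_lit 78) (nat_lit 0) (nat_lit 76) (XT.lf (nat_lit 76) (nat_lit 15871561114) (nat_lit 0) (nat_lit 5511428322) (nat_lit 1140) (nat_lit 7991572048) (nat_lit 146) (nat_lit 5) (nat_lit 145) (nat_lit 5) (nat_lit 160) (nat_lit 5) (nat_lit 333) (nat_lit 319) (nat_lit 128)) (XT.nd (nat_lit 78) (nat_lit 0) (nat_lit 0) (XT.lf (nat_lit 0) (nat_lit 23165320520) (nat_lit 1064) (nat_lit 1062991794) (nat_lit 1140) (nat_lit 5634672185) (nat_lit 146) (nat_lit 5) (nat_lit 160) (nat_lit 5) (nat_lit 161) (nat_lit 5) (nat_lit 334) (nat_lit 319) (nat_lit 127)) (XT.lf (nat_lit 76) (nat_lit 11926160914) (nat_lit 0) (nat_lit 13241401294) (nat_lit 1140) (nat_lit 5193512103) (nat_lit 147) (nat_lit 5)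 (nat_lit 146) (nat_lit 5) (nat_lit 161) (nat_lit 5) (nat_lit 335) (nat_lit 319) (nat_lit 126)))) (XT.nd (nat_lit 78) (nat_lit 1064) (nat_lit 0) (XT.lf (nat_lit 76) (nat_lit 25324590275) (nat_lit 0) (nat_lit 1913305155) (nat_lit 1140) (nat_lit 3635977773) (nat_lit 147) (nat_lit 5) (nat_lit 146) (nat_lit 5) (nat_lit 161) (nat_lit 5) (nat_lit 336) (nat_lit 319) (nat_lit 125)) (XT.nd (nat_lit 78) (nat_lit 76) (nat_lit 0) (XT.lf (nat_lit 0) (nat_lit 7778724695) (nat_lit 1064) (nat_lit 21757529268) (nat_lit 1140) (nat_lit 1860831546) (nat_lit 133) (nat_lit 5) (nat_lit 147) (nat_lit 5) (nat_lit 148) (nat_lit 5) (nat_lit 337) (nat_lit 319) (nat_lit 124)) (XT.lf (nat_lit 0) (nat_lit 41134545) (nat_lit 1140) (nat_lit 10335424139) (nat_lit 76) (nat_lit 21557263385) (nat_lit 132) (nat_lit 5) (nat_lit 147) (nat_lit 5) (nat_lit 133) (nat_lit 5) (nat_lit 338) (nat_lit 319) (nat_lit 123))))) (XT.nd (nat_lit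 234) (nat_lit 1064) (nat_lit 0) (XT.nd (nat_lit 78) (nat_lit 0) (nat_lit 0) (XT.lf (nat_lit 0) (nat_lit 2006279272) (nat_lit 684) (nat_lit 29107085447) (nat_lit 76) (nat_lit 1371443990) (nat_lit 124) (nat_lit 5) (nat_lit 133) (nat_lit 5) (nat_lit 125) (nat_lit 5) (nat_lit 339) (nat_lit 319) (nat_lit 122)) (XT.nd (nat_lit 78) (nat_lit 0) (nat_lit 0) (XT.lf (nat_lit 0) (nat_lit 4236046296) (nat_lit 684) (nat_lit 15441082411) (nat_lit 76) (nat_lit 13369032338) (nat_lit 124) (nat_lit 5) (nat_lit 133) (nat_lit 5) (nat_lit 125) (nat_lit 5) (nat_lit 340) (nat_lit 319) (nat_lit 121)) (XT.lf (nat_lit 0) (nat_lit 6530307195) (nat_lit 684) (nat_lit 1367281898) (nat_lit 76) (nat_lit 25726842791) (nat_lit 124) (nat_lit 5) (nat_lit 133) (nat_lit 5) (nat_lit 125) (nat_lit 5) (nat_lit 341) (nat_lit 319) (nat_lit 120)))) (XT.nd (nat_lit 78) (nat_lit 532) (nat_lit 0) (XT.lf (nat_lit 0) (nat_lit 9061747802) (nat_lit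 608) (nat_lit 20870395653) (nat_lit 76) (nat_lit 4282862620) (nat_lit 117) (nat_lit 5) (nat_lit 125) (nat_lit 5) (nat_lit 118) (nat_lit 5) (nat_lit 342) (nat_lit 319) (nat_lit 119)) (XT.nd (nat_lit 78) (nat_lit 532) (nat_lit 0) (XT.lf (nat_lit 0) (nat_lit 11758989323) (nat_lit 608) (nat_lit 6377500581) (nat_lit 76) (nat_lit 16684117473) (nat_lit 117) (nat_lit 5) (nat_lit 125) (nat_lit 5) (nat_lit 118) (nat_lit 5) (nat_lit 343) (nat_lit 319) (nat_lit 118)) (XT.lf (nat_lit 0) (nat_lit 8718193938) (nat_lit 532) (nat_lit 5900545345) (nat_lit 608) (nat_lit 20823195152) (nat_lit 110) (nat_lit 5) (nat_lit 117) (nat_lit 5) (nat_lit 118) (nat_lit 5) (nat_lit 344) (nat_lit 319) (nat_lit 117))))))))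
noncomputable def xc239 : XT := (XT.nd (nat_lit 1794) (nat_lit 608) (nat_lit 0) (XT.nd (nat_lit 858) (nat_lit 1824) (nat_lit 0) (XT.nd (nat_lit 390) (nat_lit 912) (nat_lit 0) (XT.nd (nat_lit 156) (nat_lit 456) (nat_lit 0) (XT.nd (nat_lit 78) (nat_lit 456) (nat_lit 0) (XT.lf (nat_lit 0) (nat_lit 17691579650) (nat_lit 608) (nat_lit 11749704636) (nat_lit 76) (nat_lit 6636803375) (nat_lit 110) (nat_lit 5) (nat_lit 118) (nat_lit 5) (nat_lit 111) (nat_lit 5) (nat_lit 345) (nat_lit 319) (nat_lit 116)) (XT.lf (nat_lit 0) (nat_lit 3684939244) (nat_lit 456) (nat_lit 17263403984) (nat_lit 532) (nat_lit 15782235255) (nat_lit 104) (nat_lit 5) (nat_lit 110) (nat_lit 5) (nat_lit 111) (nat_lit 5) (nat_lit 346) (nat_lit 319) (nat_lit 115))) (XT.nd (nat_lit 78) (nat_lit 456) (nat_lit 0) (XT.lf (nat_lit 0) (nat_lit 19821402187) (nat_lit 456) (nat_lit 4597992718) (nat_lit 532) (nat_lit 12979756559) (nat_lit 104)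 (nat_lit 5) (nat_lit 110) (nat_lit 5) (nat_lit 111) (nat_lit 5) (nat_lit 347) (nat_lit 319) (nat_lit 114)) (XT.nd (nat_lit 78) (nat_lit 456) (nat_lit 0) (XT.lf (nat_lit 0) (nat_lit 28073775719) (nat_lit 532) (nat_lit 1729106001) (nat_lit 76) (nat_lit 8282528831) (nat_lit 104) (nat_lit 5) (nat_lit 111) (nat_lit 5) (nat_lit 105) (nat_lit 5) (nat_lit 348) (nat_lit 319) (nat_lit 113)) (XT.lf (nat_lit 0) (nat_lit 14836973332) (nat_lit 456) (nat_lit 17187015926) (nat_lit 532) (nat_lit 6762686819) (nat_lit 98) (nat_lit 5) (nat_lit 104) (nat_lit 5) (nat_lit 105) (nat_lit 5) (nat_lit 349) (nat_lit 319) (nat_lit 112))))) (XT.nd (nat_lit 234) (nat_lit 456) (nat_lit 0) (XT.nd (nat_lit 78) (nat_lit 456) (nat_lit 0) (XT.lf (nat_lit 0) (nat_lit 31933478490) (nat_lit 456) (nat_lit 4174783272) (nat_lit 532) (nat_lit 3400255793) (nat_lit 98) (nat_lit 5) (nat_lit 104) (nat_lit 5) (nat_lit 105) (nat_lit 5) (nat_lit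 350) (nat_lit 319) (nat_lit 111)) (XT.nd (nat_lit 78) (nat_lit 0) (nat_lit 0) (XT.lf (nat_lit 0) (nat_lit 240614197) (nat_lit 456) (nat_lit 30865806309) (nat_lit 76) (nat_lit 9140216005) (nat_lit 92) (nat_lit 5) (nat_lit 98) (nat_lit 5) (nat_lit 93) (nat_lit 5) (nat_lit 351) (nat_lit 319) (nat_lit 110)) (XT.lf (nat_lit 0) (nat_lit 4039112778) (nat_lit 456) (nat_lit 14081729114) (nat_lit 76) (nat_lit 22881549019) (nat_lit 92) (nat_lit 5) (nat_lit 98) (nat_lit 5) (nat_lit 93) (nat_lit 5) (nat_lit 352) (nat_lit 319) (nat_lit 109)))) (XT.nd (nat_lit 78) (nat_lit 0) (nat_lit 0) (XT.lf (nat_lit 0) (nat_lit 3267669792) (nat_lit 456) (nat_lit 4713520352) (nat_lit 532) (nat_lit 33798743140) (nat_lit 86) (nat_lit 5) (nat_lit 92) (nat_lit 5) (nat_lit 93) (nat_lit 5) (nat_lit 353) (nat_lit 319) (nat_lit 108)) (XT.nd (nat_lit 78) (nat_lit 0) (nat_lit 0) (XT.lf (nat_lit 0) (nat_lit 12270816594) (nat_lit 532)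 (nat_lit 21241168159) (nat_lit 76) (nat_lit 9061942510) (nat_lit 86) (nat_lit 5) (nat_lit 93) (nat_lit 5) (nat_lit 87) (nat_lit 5) (nat_lit 354) (nat_lit 319) (nat_lit 107)) (XT.lf (nat_lit 0) (nat_lit 16734095982) (nat_lit 532) (nat_lit 3500550287) (nat_lit 76) (nat_lit 23155749694) (nat_lit 86) (nat_lit 5) (nat_lit 93) (nat_lit 5) (nat_lit 87) (nat_lit 5) (nat_lit 355) (nat_lit 319) (nat_lit 106)))))) (XT.nd (nat_lit 468) (nat_lit 684) (nat_lit 0) (XT.nd (nat_lit 234) (nat_lit 380) (nat_lit 0) (XT.nd (nat_lit 78) (nat_lit 380) (nat_lit 0) (XT.lf (nat_lit 0) (nat_lit 15064360814) (nat_lit 380) (nat_lit 6410066056) (nat_lit 456) (nat_lit 22752640973) (nat_lit 81) (nat_lit 5) (nat_lit 86) (nat_lit 5) (nat_lit 87) (nat_lit 5) (nat_lit 356) (nat_lit 319) (nat_lit 105)) (XT.nd (nat_lit 78) (nat_lit 380) (nat_lit 0) (XT.lf (nat_lit 0) (nat_lit 26466299112) (nat_lit 456) (nat_lit 10907328637) (nat_lit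 76) (nat_lit 7711935792) (nat_lit 81) (nat_lit 5) (nat_lit 87) (nat_lit 5) (nat_lit 82) (nat_lit 5) (nat_lit 357) (nat_lit 319) (nat_lit 104)) (XT.lf (nat_lit 0) (nat_lit 7986224160) (nat_lit 380) (nat_lit 23760358406) (nat_lit 456) (nat_lit 14219075392) (nat_lit 76) (nat_lit 5) (nat_lit 81) (nat_lit 5) (nat_lit 82) (nat_lit 5) (nat_lit 358) (nat_lit 319) (nat_lit 103)))) (XT.nd (nat_lit 78) (nat_lit 380) (nat_lit 0) (XT.lf (nat_lit 0) (nat_lit 27668330385) (nat_lit 380) (nat_lit 9625535633) (nat_lit 456) (nat_lit 9575034842) (nat_lit 76) (nat_lit 5) (nat_lit 81) (nat_lit 5) (nat_lit 82) (nat_lit 5) (nat_lit 359) (nat_lit 319) (nat_lit 102)) (XT.nd (nat_lit 78) (nat_lit 76) (nat_lit 0) (XT.lf (nat_lit 0) (nat_lit 94240732) (nat_lit 304) (nat_lit 42960146665) (nat_lit 380) (nat_lit 4743452369) (nat_lit 72) (nat_lit 5) (nat_lit 76) (nat_lit 5) (nat_lit 77) (nat_lit 5) (nat_lit 360) (nat_lit 319)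 (nat_lit 101)) (XT.lf (nat_lit 0) (nat_lit 518139508) (nat_lit 380) (nat_lit 28488653310) (nat_lit 76) (nat_lit 19739101613) (nat_lit 71) (nat_lit 5) (nat_lit 76) (nat_lit 5) (nat_lit 72) (nat_lit 5) (nat_lit 361) (nat_lit 319) (nat_lit 100))))) (XT.nd (nat_lit 234) (nat_lit 304) (nat_lit 0) (XT.nd (nat_lit 78) (nat_lit 380) (nat_lit 0) (XT.lf (nat_lit 0) (nat_lit 5840784119) (nat_lit 380) (nat_lit 8746019972) (nat_lit 76) (nat_lit 35134224408) (nat_lit 71) (nat_lit 5) (nat_lit 76) (nat_lit 5) (nat_lit 72) (nat_lit 5) (nat_lit 362) (nat_lit 319) (nat_lit 99)) (XT.nd (nat_lit 78) (nat_lit 0) (nat_lit 0) (XT.lf (nat_lit 0) (nat_lit 11438970115) (nat_lit 456) (nat_lit 38907974640) (nat_lit 76) (nat_lit 374998901) (nat_lit 66) (nat_lit 5) (nat_lit 72) (nat_lit 5) (nat_lit 67) (nat_lit 5) (nat_lit 363) (nat_lit 319) (nat_lit 98)) (XT.lf (nat_lit 0) (nat_lit 17437325014) (nat_lit 456) (nat_lit 18727260232)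 (nat_lit 76) (nat_lit 15581337169) (nat_lit 66) (nat_lit 5) (nat_lit 72) (nat_lit 5) (nat_lit 67) (nat_lit 5) (nat_lit 364) (nat_lit 319) (nat_lit 97)))) (XT.nd (nat_lit 78) (nat_lit 0) (nat_lit 0) (XT.lf (nat_lit 0) (nat_lit 2098100833) (nat_lit 304) (nat_lit 21536345950) (nat_lit 380) (nat_lit 29165612030) (nat_lit 62) (nat_lit 5) (nat_lit 66) (nat_lit 5) (nat_lit 67) (nat_lit 5) (nat_lit 365) (nat_lit 319) (nat_lit 96)) (XT.nd (nat_lit 78) (nat_lit 0) (nat_lit 0) (XT.lf (nat_lit 0) (nat_lit 23930413753) (nat_lit 304) (nat_lit 6274848097) (nat_lit 380) (nat_lit 23674926745) (nat_lit 62) (nat_lit 5) (nat_lit 66) (nat_lit 5) (nat_lit 67) (nat_lit 5) (nat_lit 366) (nat_lit 319) (nat_lit 95)) (XT.lf (nat_lit 0) (nat_lit 37062693919) (nat_lit 380) (nat_lit 8667500279) (nat_lit 76) (nat_lit 9259845901) (nat_lit 62) (nat_lit 5) (nat_lit 67) (nat_lit 5) (nat_lit 63) (nat_lit 5) (nat_lit 367) (nat_lit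 319) (nat_lit 94))))))) (XT.nd (nat_lit 37518) (nat_lit 0) (nat_lit 5928) (XT.nd (nat_lit 37050) (nat_lit 0) (nat_lit 6612) (XT.nd (nat_lit 156) (nat_lit 304) (nat_lit 0) (XT.nd (nat_lit 78) (nat_lit 0) (nat_lit 0) (XT.lf (nat_lit 0) (nat_lit 13451973111) (nat_lit 304) (nat_lit 30864055610) (nat_lit 380) (nat_lit 11811455563) (nat_lit 58) (nat_lit 5) (nat_lit 62) (nat_lit 5) (nat_lit 63) (nat_lit 5) (nat_lit 368) (nat_lit 319) (nat_lit 93)) (XT.lf (nat_lit 0) (nat_lit 36411083379) (nat_lit 304) (nat_lit 15462169900) (nat_lit 380) (nat_lit 5423212277) (nat_lit 58) (nat_lit 5) (nat_lit 62) (nat_lit 5) (nat_lit 63) (nat_lit 5) (nat_lit 369) (nat_lit 319) (nat_lit 92))) (XT.nd (nat_lit 36738) (nat_lit 0) (nat_lit 6536) (XT.lf (nat_lit 0) (nat_lit 1152166757) (nat_lit 304) (nat_lit 56927392003) (nat_lit 76) (nat_lit 420084478) (nat_lit 54) (nat_lit 5) (nat_lit 58) (nat_lit 5) (nat_lit 55) (nat_lit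 5) (nat_lit 370) (nat_lit 319) (nat_lit 91)) (XT.nd (nat_lit 78) (nat_lit 0) (nat_lit 0) (XT.lf (nat_lit 0) (nat_lit 4524423631) (nat_lit 1140) (nat_lit 3822890451) (nat_lit 1140) (nat_lit 3822890451) (nat_lit 140) (nat_lit 3) (nat_lit 155) (nat_lit 3) (nat_lit 155) (nat_lit 5) (nat_lit 320) (nat_lit 320) (nat_lit 140)) (XT.lf (nat_lit 76) (nat_lit 2326156473) (nat_lit 0) (nat_lit 6980296507) (nat_lit 1140) (nat_lit 15395138339) (nat_lit 141) (nat_lit 5) (nat_lit 140) (nat_lit 3) (nat_lit 155) (nat_lit 5) (nat_lit 321) (nat_lit 320) (nat_lit 139))))) (XT.nd (nat_lit 234) (nat_lit 0) (nat_lit 76) (XT.nd (nat_lit 78) (nat_lit 0) (nat_lit 0) (XT.lf (nat_lit 0) (nat_lit 9674955821) (nat_lit 1064) (nat_lit 12349347533) (nat_lit 1140) (nat_lit 3046221064) (nat_lit 141) (nat_lit 5) (nat_lit 155) (nat_lit 5) (nat_lit 156) (nat_lit 5) (nat_lit 322) (nat_lit 320) (nat_lit 138)) (XT.nd (nat_lit 78) (nat_lit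 0) (nat_lit 0) (XT.lf (nat_lit 0) (nat_lit 10119853267) (nat_lit 1064) (nat_lit 2093716287) (nat_lit 1140) (nat_lit 13235005912) (nat_lit 141) (nat_lit 5) (nat_lit 155) (nat_lit 5) (nat_lit 156) (nat_lit 5) (nat_lit 323) (nat_lit 320) (nat_lit 137)) (XT.lf (nat_lit 76) (nat_lit 8636039230) (nat_lit 0) (nat_lit 2021410845) (nat_lit 1140) (nat_lit 15178147246) (nat_lit 142) (nat_lit 5) (nat_lit 141) (nat_lit 5) (nat_lit 156) (nat_lit 5) (nat_lit 324) (nat_lit 320) (nat_lit 136)))) (XT.nd (nat_lit 78) (nat_lit 0) (nat_lit 0) (XT.lf (nat_lit 0) (nat_lit 11310447256) (nat_lit 1064) (nat_lit 6586855959) (nat_lit 1140) (nat_lit 8333958004) (nat_lit 142) (nat_lit 5) (nat_lit 156) (nat_lit 5) (nat_lit 157) (nat_lit 5) (nat_lit 325) (nat_lit 320) (nat_lit 135)) (XT.nd (nat_lit 78) (nat_lit 0) (nat_lit 76) (XT.lf (nat_lit 76) (nat_lit 4408118736) (nat_lit 0) (nat_lit 7633846107) (nat_lit 1140) (nat_lit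 14595071556) (nat_lit 143) (nat_lit 5) (nat_lit 142) (nat_lit 5) (nat_lit 157) (nat_lit 5) (nat_lit 326) (nat_lit 320) (nat_lit 134)) (XT.lf (nat_lit 0) (nat_lit 12887473953) (nat_lit 1064) (nat_lit 11216133133) (nat_lit 1140) (nat_lit 2948625383) (nat_lit 143) (nat_lit 5) (nat_lit 157) (nat_lit 5) (nat_lit 158) (nat_lit 5) (nat_lit 327) (nat_lit 320) (nat_lit 133)))))) (XT.nd (nat_lit 468) (nat_lit 836) (nat_lit 0) (XT.nd (nat_lit 234) (nat_lit 0) (nat_lit 76) (XT.nd (nat_lit 78) (nat_lit 0) (nat_lit 0) (XT.lf (nat_lit 76) (nat_lit 50283270) (nat_lit 0) (nat_lit 13780864952) (nat_lit 1140) (nat_lit 13646560952) (nat_lit 144) (nat_lit 5) (nat_lit 143) (nat_lit 5) (nat_lit 158) (nat_lit 5) (nat_lit 328) (nat_lit 320) (nat_lit 132)) (XT.nd (nat_lit 78) (nat_lit 0) (nat_lit 76) (XT.lf (nat_lit 76) (nat_lit 11882482745) (nat_lit 0) (nat_lit 3030719488) (nat_lit 1140) (nat_lit 12999454355) (nat_lit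 144) (nat_lit 5) (nat_lit 143) (nat_lit 5) (nat_lit 158) (nat_lit 5) (nat_lit 329) (nat_lit 320) (nat_lit 131)) (XT.lf (nat_lit 0) (nat_lit 16101933250) (nat_lit 1064) (nat_lit 4370486431) (nat_lit 1140) (nat_lit 7886014529) (nat_lit 144) (nat_lit 5) (nat_lit 158) (nat_lit 5) (nat_lit 159) (nat_lit 5) (nat_lit 330) (nat_lit 320) (nat_lit 130)))) (XT.nd (nat_lit 78) (nat_lit 0) (nat_lit 76) (XT.lf (nat_lit 76) (nat_lit 7758261289) (nat_lit 0) (nat_lit 9669650573) (nat_lit 1140) (nat_lit 11386633737) (nat_lit 145) (nat_lit 5) (nat_lit 144) (nat_lit 5) (nat_lit 159) (nat_lit 5) (nat_lit 331) (nat_lit 320) (nat_lit 129)) (XT.nd (nat_lit 78) (nat_lit 0) (nat_lit 0) (XT.lf (nat_lit 0) (nat_lit 18849324299) (nat_lit 1064) (nat_lit 8959196521) (nat_lit 1140) (nat_lit 1474157649) (nat_lit 145) (nat_lit 5) (nat_lit 159) (nat_lit 5) (nat_lit 160) (nat_lit 5) (nat_lit 332) (nat_lit 320) (nat_lit 128)) (XT.lf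 (nat_lit 76) (nat_lit 3470655958) (nat_lit 0) (nat_lit 16968986126) (nat_lit 1140) (nat_lit 9321432899) (nat_lit 146) (nat_lit 5) (nat_lit 145) (nat_lit 5) (nat_lit 160) (nat_lit 5) (nat_lit 333) (nat_lit 320) (nat_lit 127))))) (XT.nd (nat_lit 234) (nat_lit 988) (nat_lit 0) (XT.nd (nat_lit 78) (nat_lit 0) (nat_lit 76) (XT.lf (nat_lit 76) (nat_lit 16454945848) (nat_lit 0) (nat_lit 5710418020) (nat_lit 1140) (nat_lit 8085836017) (nat_lit 146) (nat_lit 5) (nat_lit 145) (nat_lit 5) (nat_lit 160) (nat_lit 5) (nat_lit 334) (nat_lit 320) (nat_lit 126)) (XT.nd (nat_lit 78) (nat_lit 0) (nat_lit 0) (XT.lf (nat_lit 0) (nat_lit 23996747432) (nat_lit 1064) (nat_lit 985988559) (nat_lit 1140) (nat_lit 5771682955) (nat_lit 146) (nat_lit 5) (nat_lit 160) (nat_lit 5) (nat_lit 161) (nat_lit 5) (nat_lit 335) (nat_lit 320) (nat_lit 125)) (XT.lf (nat_lit 76) (nat_lit 12391771151) (nat_lit 0) (nat_lit 13664346927)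 (nat_lit 1140) (nat_lit 5211432040) (nat_lit 147) (nat_lit 5) (nat_lit 146) (nat_lit 5) (nat_lit 161) (nat_lit 5) (nat_lit 336) (nat_lit 320) (nat_lit 124)))) (XT.nd (nat_lit 78) (nat_lit 1064) (nat_lit 0) (XT.lf (nat_lit 76) (nat_lit 26189012847) (nat_lit 0) (nat_lit 1995659256) (nat_lit 1140) (nat_lit 3611187760) (nat_lit 147) (nat_lit 5) (nat_lit 146) (nat_lit 5) (nat_lit 161) (nat_lit 5) (nat_lit 337) (nat_lit 320) (nat_lit 123)) (XT.nd (nat_lit 78) (nat_lit 76) (nat_lit 0) (XT.lf (nat_lit 0) (nat_lit 8120170578) (nat_lit 1064) (nat_lit 22428840974) (nat_lit 1140) (nat_lit 1785855996) (nat_lit 133) (nat_lit 5) (nat_lit 147) (nat_lit 5) (nat_lit 148) (nat_lit 5) (nat_lit 338) (nat_lit 320) (nat_lit 122)) (XT.lf (nat_lit 0) (nat_lit 166881308) (nat_lit 1140) (nat_lit 10537761295) (nat_lit 76) (nat_lit 22183147285) (nat_lit 132) (nat_lit 5) (nat_lit 147) (nat_lit 5) (nat_lit 133) (nat_lit 5)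 (nat_lit 339) (nat_lit 320) (nat_lit 121))))))))
noncomputable def xc240 : XT := (XT.nd (nat_lit 1716) (nat_lit 1064) (nat_lit 0) (XT.nd (nat_lit 858) (nat_lit 1976) (nat_lit 0) (XT.nd (nat_lit 390) (nat_lit 1444) (nat_lit 0) (XT.nd (nat_lit 156) (nat_lit 532) (nat_lit 0) (XT.nd (nat_lit 78) (nat_lit 0) (nat_lit 0) (XT.lf (nat_lit 0) (nat_lit 2188232648) (nat_lit 684) (nat_lit 29869522324) (nat_lit 76) (nat_lit 1397642658) (nat_lit 124) (nat_lit 5) (nat_lit 133) (nat_lit 5) (nat_lit 125) (nat_lit 5) (nat_lit 340) (nat_lit 320) (nat_lit 120)) (XT.lf (nat_lit 0) (nat_lit 4481346129) (nat_lit 684) (nat_lit 15796765674) (nat_lit 76) (nat_lit 13755593938) (nat_lit 124) (nat_lit 5) (nat_lit 133) (nat_lit 5) (nat_lit 125) (nat_lit 5) (nat_lit 341) (nat_lit 320) (nat_lit 119))) (XT.nd (nat_lit 78) (nat_lit 532) (nat_lit 0) (XT.lf (nat_lit 0) (nat_lit 6840991599) (nat_lit 684) (nat_lit 1303883647) (nat_lit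 76) (nat_lit 26484561308) (nat_lit 124) (nat_lit 5) (nat_lit 133) (nat_lit 5) (nat_lit 125) (nat_lit 5) (nat_lit 342) (nat_lit 320) (nat_lit 118)) (XT.nd (nat_lit 78) (nat_lit 0) (nat_lit 0) (XT.lf (nat_lit 0) (nat_lit 9445939503) (nat_lit 608) (nat_lit 21389378164) (nat_lit 76) (nat_lit 4402491683) (nat_lit 117) (nat_lit 5) (nat_lit 125) (nat_lit 5) (nat_lit 118) (nat_lit 5) (nat_lit 343) (nat_lit 320) (nat_lit 117)) (XT.lf (nat_lit 0) (nat_lit 12220826253) (nat_lit 608) (nat_lit 6464816513) (nat_lit 76) (nat_lit 17176042147) (nat_lit 117) (nat_lit 5) (nat_lit 125) (nat_lit 5) (nat_lit 118) (nat_lit 5) (nat_lit 344) (nat_lit 320) (nat_lit 116))))) (XT.nd (nat_lit 234) (nat_lit 456) (nat_lit 0) (XT.nd (nat_lit 78) (nat_lit 456) (nat_lit 0) (XT.lf (nat_lit 0) (nat_lit 9082729144) (nat_lit 532) (nat_lit 6081452848) (nat_lit 608) (nat_lit 21337543217) (nat_lit 110) (nat_lit 5) (nat_lit 117) (nat_lit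 5) (nat_lit 118) (nat_lit 5) (nat_lit 345) (nat_lit 320) (nat_lit 115)) (XT.nd (nat_lit 78) (nat_lit 456) (nat_lit 0) (XT.lf (nat_lit 0) (nat_lit 18326058231) (nat_lit 608) (nat_lit 11998803492) (nat_lit 76) (nat_lit 6832203387) (nat_lit 110) (nat_lit 5) (nat_lit 118) (nat_lit 5) (nat_lit 111) (nat_lit 5) (nat_lit 346) (nat_lit 320) (nat_lit 114)) (XT.lf (nat_lit 0) (nat_lit 3897866055) (nat_lit 456) (nat_lit 17780621490) (nat_lit 532) (nat_lit 16150711602) (nat_lit 104) (nat_lit 5) (nat_lit 110) (nat_lit 5) (nat_lit 111) (nat_lit 5) (nat_lit 347) (nat_lit 320) (nat_lit 113)))) (XT.nd (nat_lit 78) (nat_lit 456) (nat_lit 0) (XT.lf (nat_lit 0) (nat_lit 20515440985) (nat_lit 456) (nat_lit 4735267827) (nat_lit 532) (nat_lit 13267216527) (nat_lit 104) (nat_lit 5) (nat_lit 110) (nat_lit 5) (nat_lit 111) (nat_lit 5) (nat_lit 348) (nat_lit 320) (nat_lit 112)) (XT.nd (nat_lit 78) (nat_lit 456) (nat_lit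 0) (XT.lf (nat_lit 0) (nat_lit 29011851562) (nat_lit 532) (nat_lit 1681376256) (nat_lit 76) (nat_lit 8531637418) (nat_lit 104) (nat_lit 5) (nat_lit 111) (nat_lit 5) (nat_lit 105) (nat_lit 5) (nat_lit 349) (nat_lit 320) (nat_lit 111)) (XT.lf (nat_lit 0) (nat_lit 15380708958) (nat_lit 456) (nat_lit 17698018492) (nat_lit 532) (nat_lit 6868503348) (nat_lit 98) (nat_lit 5) (nat_lit 104) (nat_lit 5) (nat_lit 105) (nat_lit 5) (nat_lit 350) (nat_lit 320) (nat_lit 110)))))) (XT.nd (nat_lit 390) (nat_lit 1064) (nat_lit 0) (XT.nd (nat_lit 156) (nat_lit 456) (nat_lit 0) (XT.nd (nat_lit 78) (nat_lit 456) (nat_lit 0) (XT.lf (nat_lit 0) (nat_lit 32987236657) (nat_lit 456) (nat_lit 4295553070) (nat_lit 532) (nat_lit 3408026500) (nat_lit 98) (nat_lit 5) (nat_lit 104) (nat_lit 5) (nat_lit 105) (nat_lit 5) (nat_lit 351) (nat_lit 320) (nat_lit 109)) (XT.lf (nat_lit 0) (nat_lit 338530100) (nat_lit 456) (nat_lit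 31692069195) (nat_lit 76) (nat_lit 9420509475) (nat_lit 92) (nat_lit 5) (nat_lit 98) (nat_lit 5) (nat_lit 93) (nat_lit 5) (nat_lit 352) (nat_lit 320) (nat_lit 108))) (XT.nd (nat_lit 78) (nat_lit 456) (nat_lit 0) (XT.lf (nat_lit 0) (nat_lit 4248341964) (nat_lit 456) (nat_lit 14407373897) (nat_lit 76) (nat_lit 23573905188) (nat_lit 92) (nat_lit 5) (nat_lit 98) (nat_lit 5) (nat_lit 93) (nat_lit 5) (nat_lit 353) (nat_lit 320) (nat_lit 107)) (XT.nd (nat_lit 78) (nat_lit 0) (nat_lit 0) (XT.lf (nat_lit 0) (nat_lit 3461557887) (nat_lit 456) (nat_lit 4845480478) (nat_lit 532) (nat_lit 34723506450) (nat_lit 86) (nat_lit 5) (nat_lit 92) (nat_lit 5) (nat_lit 93) (nat_lit 5) (nat_lit 354) (nat_lit 320) (nat_lit 106)) (XT.lf (nat_lit 0) (nat_lit 12722924891) (nat_lit 532) (nat_lit 21782720026) (nat_lit 76) (nat_lit 9342792212) (nat_lit 86) (nat_lit 5) (nat_lit 93) (nat_lit 5) (nat_lit 87) (nat_lit 5) (nat_lit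 355) (nat_lit 320) (nat_lit 105))))) (XT.nd (nat_lit 234) (nat_lit 684) (nat_lit 0) (XT.nd (nat_lit 78) (nat_lit 380) (nat_lit 0) (XT.lf (nat_lit 0) (nat_lit 17317656530) (nat_lit 532) (nat_lit 3512670507) (nat_lit 76) (nat_lit 23859151725) (nat_lit 86) (nat_lit 5) (nat_lit 93) (nat_lit 5) (nat_lit 87) (nat_lit 5) (nat_lit 356) (nat_lit 320) (nat_lit 104)) (XT.nd (nat_lit 78) (nat_lit 0) (nat_lit 0) (XT.lf (nat_lit 0) (nat_lit 15608277179) (nat_lit 380) (nat_lit 6590429503) (nat_lit 456) (nat_lit 23352594164) (nat_lit 81) (nat_lit 5) (nat_lit 86) (nat_lit 5) (nat_lit 87) (nat_lit 5) (nat_lit 357) (nat_lit 320) (nat_lit 103)) (XT.lf (nat_lit 0) (nat_lit 27338115043) (nat_lit 456) (nat_lit 11142849649) (nat_lit 76) (nat_lit 7954658498) (nat_lit 81) (nat_lit 5) (nat_lit 87) (nat_lit 5) (nat_lit 82) (nat_lit 5) (nat_lit 358) (nat_lit 320) (nat_lit 102)))) (XT.nd (nat_lit 78) (nat_lit 304) (nat_lit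 0) (XT.lf (nat_lit 0) (nat_lit 8316610723) (nat_lit 380) (nat_lit 24458802297) (nat_lit 456) (nat_lit 14566754263) (nat_lit 76) (nat_lit 5) (nat_lit 81) (nat_lit 5) (nat_lit 82) (nat_lit 5) (nat_lit 359) (nat_lit 320) (nat_lit 101)) (XT.nd (nat_lit 78) (nat_lit 304) (nat_lit 0) (XT.lf (nat_lit 0) (nat_lit 28586535480) (nat_lit 380) (nat_lit 9900353293) (nat_lit 456) (nat_lit 9785690362) (nat_lit 76) (nat_lit 5) (nat_lit 81) (nat_lit 5) (nat_lit 82) (nat_lit 5) (nat_lit 360) (nat_lit 320) (nat_lit 100)) (XT.lf (nat_lit 0) (nat_lit 186591438) (nat_lit 304) (nat_lit 44232463723) (nat_lit 380) (nat_lit 4810370900) (nat_lit 72) (nat_lit 5) (nat_lit 76) (nat_lit 5) (nat_lit 77) (nat_lit 5) (nat_lit 361) (nat_lit 320) (nat_lit 99))))))) (XT.nd (nat_lit 37674) (nat_lit 0) (nat_lit 6308) (XT.nd (nat_lit 390) (nat_lit 304) (nat_lit 0) (XT.nd (nat_lit 156) (nat_lit 684) (nat_lit 0) (XT.nd (nat_lit 78)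 (nat_lit 0) (nat_lit 0) (XT.lf (nat_lit 0) (nat_lit 605444865) (nat_lit 380) (nat_lit 29254819962) (nat_lit 76) (nat_lit 20345704847) (nat_lit 71) (nat_lit 5) (nat_lit 76) (nat_lit 5) (nat_lit 72) (nat_lit 5) (nat_lit 362) (nat_lit 320) (nat_lit 98)) (XT.lf (nat_lit 0) (nat_lit 6085678682) (nat_lit 380) (nat_lit 8922485088) (nat_lit 76) (nat_lit 36202261028) (nat_lit 71) (nat_lit 5) (nat_lit 76) (nat_lit 5) (nat_lit 72) (nat_lit 5) (nat_lit 363) (nat_lit 320) (nat_lit 97))) (XT.nd (nat_lit 78) (nat_lit 304) (nat_lit 0) (XT.lf (nat_lit 0) (nat_lit 11850758481) (nat_lit 456) (nat_lit 39988106403) (nat_lit 76) (nat_lit 402538288) (nat_lit 66) (nat_lit 5) (nat_lit 72) (nat_lit 5) (nat_lit 67) (nat_lit 5) (nat_lit 364) (nat_lit 320) (nat_lit 96)) (XT.nd (nat_lit 78) (nat_lit 304) (nat_lit 0) (XT.lf (nat_lit 0) (nat_lit 18027065407) (nat_lit 456) (nat_lit 19204507674) (nat_lit 76) (nat_lit 16064592255)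 (nat_lit 66) (nat_lit 5) (nat_lit 72) (nat_lit 5) (nat_lit 67) (nat_lit 5) (nat_lit 365) (nat_lit 320) (nat_lit 95)) (XT.lf (nat_lit 0) (nat_lit 2244785102) (nat_lit 304) (nat_lit 22164180292) (nat_lit 380) (nat_lit 29972998460) (nat_lit 62) (nat_lit 5) (nat_lit 66) (nat_lit 5) (nat_lit 67) (nat_lit 5) (nat_lit 366) (nat_lit 320) (nat_lit 94))))) (XT.nd (nat_lit 37050) (nat_lit 0) (nat_lit 6232) (XT.nd (nat_lit 78) (nat_lit 304) (nat_lit 0) (XT.lf (nat_lit 0) (nat_lit 24729628345) (nat_lit 304) (nat_lit 6445369233) (nat_lit 380) (nat_lit 24319561022) (nat_lit 62) (nat_lit 5) (nat_lit 66) (nat_lit 5) (nat_lit 67) (nat_lit 5) (nat_lit 367) (nat_lit 320) (nat_lit 93)) (XT.nd (nat_lit 78) (nat_lit 304) (nat_lit 0) (XT.lf (nat_lit 0) (nat_lit 38236466240) (nat_lit 380) (nat_lit 8846780185) (nat_lit 76) (nat_lit 9554513552) (nat_lit 62) (nat_lit 5) (nat_lit 67) (nat_lit 5) (nat_lit 63) (nat_lit 5)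 (nat_lit 368) (nat_lit 320) (nat_lit 92)) (XT.lf (nat_lit 0) (nat_lit 13935485788) (nat_lit 304) (nat_lit 31770881194) (nat_lit 380) (nat_lit 12102995156) (nat_lit 58) (nat_lit 5) (nat_lit 62) (nat_lit 5) (nat_lit 63) (nat_lit 5) (nat_lit 369) (nat_lit 320) (nat_lit 91)))) (XT.nd (nat_lit 78) (nat_lit 0) (nat_lit 0) (XT.lf (nat_lit 0) (nat_lit 4758712335) (nat_lit 1140) (nat_lit 3886688267) (nat_lit 1140) (nat_lit 3886688267) (nat_lit 140) (nat_lit 3) (nat_lit 155) (nat_lit 3) (nat_lit 155) (nat_lit 5) (nat_lit 321) (nat_lit 321) (nat_lit 138)) (XT.nd (nat_lit 78) (nat_lit 0) (nat_lit 76) (XT.lf (nat_lit 76) (nat_lit 2496721141) (nat_lit 0) (nat_lit 7281265052) (nat_lit 1140) (nat_lit 15658367881) (nat_lit 141) (nat_lit 5) (nat_lit 140) (nat_lit 3) (nat_lit 155) (nat_lit 5) (nat_lit 322) (nat_lit 321) (nat_lit 137)) (XT.lf (nat_lit 0) (nat_lit 10151087501) (nat_lit 1064) (nat_lit 12615026903)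 (nat_lit 1140) (nat_lit 3050449453) (nat_lit 141) (nat_lit 5) (nat_lit 155) (nat_lit 5) (nat_lit 156) (nat_lit 5) (nat_lit 323) (nat_lit 321) (nat_lit 136)))))) (XT.nd (nat_lit 468) (nat_lit 0) (nat_lit 152) (XT.nd (nat_lit 234) (nat_lit 0) (nat_lit 76) (XT.nd (nat_lit 78) (nat_lit 0) (nat_lit 0) (XT.lf (nat_lit 0) (nat_lit 10603917802) (nat_lit 1064) (nat_lit 2054779179) (nat_lit 1140) (nat_lit 13547436436) (nat_lit 141) (nat_lit 5) (nat_lit 155) (nat_lit 5) (nat_lit 156) (nat_lit 5) (nat_lit 324) (nat_lit 321) (nat_lit 135)) (XT.nd (nat_lit 78) (nat_lit 0) (nat_lit 76) (XT.lf (nat_lit 76) (nat_lit 8995871469) (nat_lit 0) (nat_lit 2157483150) (nat_lit 1140) (nat_lit 15451554078) (nat_lit 142) (nat_lit 5) (nat_lit 141) (nat_lit 5) (nat_lit 156) (nat_lit 5) (nat_lit 325) (nat_lit 321) (nat_lit 134)) (XT.lf (nat_lit 0) (nat_lit 11820106268) (nat_lit 1064) (nat_lit 6680352235) (nat_lit 1140) (nat_lit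 8512172794) (nat_lit 142) (nat_lit 5) (nat_lit 156) (nat_lit 5) (nat_lit 157) (nat_lit 5) (nat_lit 326) (nat_lit 321) (nat_lit 133)))) (XT.nd (nat_lit 78) (nat_lit 0) (nat_lit 76) (XT.lf (nat_lit 76) (nat_lit 4643451020) (nat_lit 0) (nat_lit 7926147793) (nat_lit 1140) (nat_lit 14861113360) (nat_lit 143) (nat_lit 5) (nat_lit 142) (nat_lit 5) (nat_lit 157) (nat_lit 5) (nat_lit 327) (nat_lit 321) (nat_lit 132)) (XT.nd (nat_lit 78) (nat_lit 0) (nat_lit 0) (XT.lf (nat_lit 0) (nat_lit 13435036693) (nat_lit 1064) (nat_lit 11446663353) (nat_lit 1140) (nat_lit 2976840107) (nat_lit 143) (nat_lit 5) (nat_lit 157) (nat_lit 5) (nat_lit 158) (nat_lit 5) (nat_lit 328) (nat_lit 321) (nat_lit 131)) (XT.lf (nat_lit 76) (nat_lit 156706780) (nat_lit 0) (nat_lit 14246635388) (nat_lit 1140) (nat_lit 13893561919) (nat_lit 144) (nat_lit 5) (nat_lit 143) (nat_lit 5) (nat_lit 158) (nat_lit 5) (nat_lit 329) (nat_lit 321)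 (nat_lit 130))))) (XT.nd (nat_lit 234) (nat_lit 0) (nat_lit 152) (XT.nd (nat_lit 78) (nat_lit 0) (nat_lit 76) (XT.lf (nat_lit 76) (nat_lit 12340816462) (nat_lit 0) (nat_lit 3172460964) (nat_lit 1140) (nat_lit 13231772100) (nat_lit 144) (nat_lit 5) (nat_lit 143) (nat_lit 5) (nat_lit 158) (nat_lit 5) (nat_lit 330) (nat_lit 321) (nat_lit 129)) (XT.nd (nat_lit 78) (nat_lit 0) (nat_lit 0) (XT.lf (nat_lit 0) (nat_lit 16732749125) (nat_lit 1064) (nat_lit 4397392766) (nat_lit 1140) (nat_lit 8074218061) (nat_lit 144) (nat_lit 5) (nat_lit 158) (nat_lit 5) (nat_lit 159) (nat_lit 5) (nat_lit 331) (nat_lit 321) (nat_lit 128)) (XT.lf (nat_lit 76) (nat_lit 8094195736) (nat_lit 0) (nat_lit 10000999624) (nat_lit 1140) (nat_lit 11579070165) (nat_lit 145) (nat_lit 5) (nat_lit 144) (nat_lit 5) (nat_lit 159) (nat_lit 5) (nat_lit 332) (nat_lit 321) (nat_lit 127)))) (XT.nd (nat_lit 78) (nat_lit 0) (nat_lit 0) (XT.lf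 (nat_lit 0) (nat_lit 19554657941) (nat_lit 1064) (nat_lit 9122827113) (nat_lit 1140) (nat_lit 1479106250) (nat_lit 145) (nat_lit 5) (nat_lit 159) (nat_lit 5) (nat_lit 160) (nat_lit 5) (nat_lit 333) (nat_lit 321) (nat_lit 126)) (XT.nd (nat_lit 78) (nat_lit 0) (nat_lit 0) (XT.lf (nat_lit 76) (nat_lit 3678890103) (nat_lit 0) (nat_lit 17510722554) (nat_lit 1140) (nat_lit 9459830068) (nat_lit 146) (nat_lit 5) (nat_lit 145) (nat_lit 5) (nat_lit 160) (nat_lit 5) (nat_lit 334) (nat_lit 321) (nat_lit 125)) (XT.lf (nat_lit 76) (nat_lit 17049676230) (nat_lit 0) (nat_lit 5913445943) (nat_lit 1140) (nat_lit 8191279236) (nat_lit 146) (nat_lit 5) (nat_lit 145) (nat_lit 5) (nat_lit 160) (nat_lit 5) (nat_lit 335) (nat_lit 321) (nat_lit 124))))))))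
noncomputable def xc241 : XT := (XT.nd (nat_lit 1716) (nat_lit 1824) (nat_lit 0) (XT.nd (nat_lit 858) (nat_lit 1824) (nat_lit 0) (XT.nd (nat_lit 390) (nat_lit 1672) (nat_lit 0) (XT.nd (nat_lit 156) (nat_lit 1064) (nat_lit 0) (XT.nd (nat_lit 78) (nat_lit 0) (nat_lit 0) (XT.lf (nat_lit 0) (nat_lit 24845283370) (nat_lit 1064) (nat_lit 912926131) (nat_lit 1140) (nat_lit 5914642666) (nat_lit 146) (nat_lit 5) (nat_lit 160) (nat_lit 5) (nat_lit 161) (nat_lit 5) (nat_lit 336) (nat_lit 321) (nat_lit 123)) (XT.lf (nat_lit 76) (nat_lit 12865160076) (nat_lit 0) (nat_lit 14098505439) (nat_lit 1140) (nat_lit 5237804762) (nat_lit 147) (nat_lit 5) (nat_lit 146) (nat_lit 5) (nat_lit 161) (nat_lit 5) (nat_lit 337) (nat_lit 321) (nat_lit 122))) (XT.nd (nat_lit 78) (nat_lit 1064) (nat_lit 0) (XT.lf (nat_lit 76) (nat_lit 27073358757) (nat_lit 0) (nat_lit 2079051464) (nat_lit 1140) (nat_lit 3593338695) (nat_lit 147)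 (nat_lit 5) (nat_lit 146) (nat_lit 5) (nat_lit 161) (nat_lit 5) (nat_lit 338) (nat_lit 321) (nat_lit 121)) (XT.nd (nat_lit 78) (nat_lit 76) (nat_lit 0) (XT.lf (nat_lit 0) (nat_lit 8465655365) (nat_lit 1064) (nat_lit 23119225128) (nat_lit 1140) (nat_lit 1716139662) (nat_lit 133) (nat_lit 5) (nat_lit 147) (nat_lit 5) (nat_lit 148) (nat_lit 5) (nat_lit 339) (nat_lit 321) (nat_lit 120)) (XT.lf (nat_lit 0) (nat_lit 289252933) (nat_lit 1140) (nat_lit 10752352454) (nat_lit 76) (nat_lit 22829003660) (nat_lit 132) (nat_lit 5) (nat_lit 147) (nat_lit 5) (nat_lit 133) (nat_lit 5) (nat_lit 340) (nat_lit 321) (nat_lit 119))))) (XT.nd (nat_lit 234) (nat_lit 1064) (nat_lit 0) (XT.nd (nat_lit 78) (nat_lit 0) (nat_lit 0) (XT.lf (nat_lit 0) (nat_lit 2368654816) (nat_lit 684) (nat_lit 30661191286) (nat_lit 76) (nat_lit 1425485171) (nat_lit 124) (nat_lit 5) (nat_lit 133) (nat_lit 5) (nat_lit 125) (nat_lit 5) (nat_lit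 341) (nat_lit 321) (nat_lit 118)) (XT.nd (nat_lit 78) (nat_lit 0) (nat_lit 0) (XT.lf (nat_lit 0) (nat_lit 4727218735) (nat_lit 684) (nat_lit 16169293199) (nat_lit 76) (nat_lit 14154585284) (nat_lit 124) (nat_lit 5) (nat_lit 133) (nat_lit 5) (nat_lit 125) (nat_lit 5) (nat_lit 342) (nat_lit 321) (nat_lit 117)) (XT.lf (nat_lit 0) (nat_lit 7154407970) (nat_lit 684) (nat_lit 1244577394) (nat_lit 76) (nat_lit 27265820018) (nat_lit 124) (nat_lit 5) (nat_lit 133) (nat_lit 5) (nat_lit 125) (nat_lit 5) (nat_lit 343) (nat_lit 321) (nat_lit 116)))) (XT.nd (nat_lit 78) (nat_lit 532) (nat_lit 0) (XT.lf (nat_lit 0) (nat_lit 9835208222) (nat_lit 608) (nat_lit 21930079815) (nat_lit 76) (nat_lit 4526218035) (nat_lit 117) (nat_lit 5) (nat_lit 125) (nat_lit 5) (nat_lit 118) (nat_lit 5) (nat_lit 344) (nat_lit 321) (nat_lit 115)) (XT.nd (nat_lit 78) (nat_lit 532) (nat_lit 0) (XT.lf (nat_lit 0) (nat_lit 12690257384)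 (nat_lit 608) (nat_lit 6560722470) (nat_lit 76) (nat_lit 17683218170) (nat_lit 117) (nat_lit 5) (nat_lit 125) (nat_lit 5) (nat_lit 118) (nat_lit 5) (nat_lit 345) (nat_lit 321) (nat_lit 114)) (XT.lf (nat_lit 0) (nat_lit 9452288395) (nat_lit 532) (nat_lit 6267564208) (nat_lit 608) (nat_lit 21873656138) (nat_lit 110) (nat_lit 5) (nat_lit 117) (nat_lit 5) (nat_lit 118) (nat_lit 5) (nat_lit 346) (nat_lit 321) (nat_lit 113)))))) (XT.nd (nat_lit 390) (nat_lit 912) (nat_lit 0) (XT.nd (nat_lit 156) (nat_lit 456) (nat_lit 0) (XT.nd (nat_lit 78) (nat_lit 456) (nat_lit 0) (XT.lf (nat_lit 0) (nat_lit 18973616574) (nat_lit 608) (nat_lit 12261310453) (nat_lit 76) (nat_lit 7033678029) (nat_lit 110) (nat_lit 5) (nat_lit 118) (nat_lit 5) (nat_lit 111) (nat_lit 5) (nat_lit 347) (nat_lit 321) (nat_lit 112)) (XT.lf (nat_lit 0) (nat_lit 4111303718) (nat_lit 456) (nat_lit 18313394821) (nat_lit 532) (nat_lit 16536269136)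 (nat_lit 104) (nat_lit 5) (nat_lit 110) (nat_lit 5) (nat_lit 111) (nat_lit 5) (nat_lit 348) (nat_lit 321) (nat_lit 111))) (XT.nd (nat_lit 78) (nat_lit 456) (nat_lit 0) (XT.lf (nat_lit 0) (nat_lit 21224595167) (nat_lit 456) (nat_lit 4876699343) (nat_lit 532) (nat_lit 13569151650) (nat_lit 104) (nat_lit 5) (nat_lit 110) (nat_lit 5) (nat_lit 111) (nat_lit 5) (nat_lit 349) (nat_lit 321) (nat_lit 110)) (XT.nd (nat_lit 78) (nat_lit 456) (nat_lit 0) (XT.lf (nat_lit 0) (nat_lit 29972566775) (nat_lit 532) (nat_lit 1637932234) (nat_lit 76) (nat_lit 8788182941) (nat_lit 104) (nat_lit 5) (nat_lit 111) (nat_lit 5) (nat_lit 105) (nat_lit 5) (nat_lit 350) (nat_lit 321) (nat_lit 109)) (XT.lf (nat_lit 0) (nat_lit 15935095092) (nat_lit 456) (nat_lit 18224615649) (nat_lit 532) (nat_lit 6983066247) (nat_lit 98) (nat_lit 5) (nat_lit 104) (nat_lit 5) (nat_lit 105) (nat_lit 5) (nat_lit 351) (nat_lit 321) (nat_lit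 108))))) (XT.nd (nat_lit 234) (nat_lit 456) (nat_lit 0) (XT.nd (nat_lit 78) (nat_lit 456) (nat_lit 0) (XT.lf (nat_lit 0) (nat_lit 34067110907) (nat_lit 456) (nat_lit 4420202770) (nat_lit 532) (nat_lit 3421439916) (nat_lit 98) (nat_lit 5) (nat_lit 104) (nat_lit 5) (nat_lit 105) (nat_lit 5) (nat_lit 352) (nat_lit 321) (nat_lit 107)) (XT.nd (nat_lit 78) (nat_lit 0) (nat_lit 0) (XT.lf (nat_lit 0) (nat_lit 434177074) (nat_lit 456) (nat_lit 32548843805) (nat_lit 76) (nat_lit 9708862331) (nat_lit 92) (nat_lit 5) (nat_lit 98) (nat_lit 5) (nat_lit 93) (nat_lit 5) (nat_lit 353) (nat_lit 321) (nat_lit 106)) (XT.lf (nat_lit 0) (nat_lit 4458793263) (nat_lit 456) (nat_lit 14748345147) (nat_lit 76) (nat_lit 24286692802) (nat_lit 92) (nat_lit 5) (nat_lit 98) (nat_lit 5) (nat_lit 93) (nat_lit 5) (nat_lit 354) (nat_lit 321) (nat_lit 105)))) (XT.nd (nat_lit 78) (nat_lit 0) (nat_lit 0) (XT.lf (nat_lit 0) (nat_lit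 3655759983) (nat_lit 456) (nat_lit 4981941617) (nat_lit 532) (nat_lit 35681133046) (nat_lit 86) (nat_lit 5) (nat_lit 92) (nat_lit 5) (nat_lit 93) (nat_lit 5) (nat_lit 355) (nat_lit 321) (nat_lit 104)) (XT.nd (nat_lit 78) (nat_lit 0) (nat_lit 0) (XT.lf (nat_lit 0) (nat_lit 13183775422) (nat_lit 532) (nat_lit 22346011055) (nat_lit 76) (nat_lit 9631551260) (nat_lit 86) (nat_lit 5) (nat_lit 93) (nat_lit 5) (nat_lit 87) (nat_lit 5) (nat_lit 356) (nat_lit 321) (nat_lit 103)) (XT.lf (nat_lit 0) (nat_lit 17914043299) (nat_lit 532) (nat_lit 3530486960) (nat_lit 76) (nat_lit 24583154706) (nat_lit 86) (nat_lit 5) (nat_lit 93) (nat_lit 5) (nat_lit 87) (nat_lit 5) (nat_lit 357) (nat_lit 321) (nat_lit 102))))))) (XT.nd (nat_lit 858) (nat_lit 0) (nat_lit 0) (XT.nd (nat_lit 390) (nat_lit 760) (nat_lit 0) (XT.nd (nat_lit 156) (nat_lit 684) (nat_lit 0) (XT.nd (nat_lit 78) (nat_lit 0) (nat_lit 0) (XT.lf (nat_lit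 0) (nat_lit 16163230689) (nat_lit 380) (nat_lit 6776889174) (nat_lit 456) (nat_lit 23975289024) (nat_lit 81) (nat_lit 5) (nat_lit 86) (nat_lit 5) (nat_lit 87) (nat_lit 5) (nat_lit 358) (nat_lit 321) (nat_lit 101)) (XT.lf (nat_lit 0) (nat_lit 28231617867) (nat_lit 456) (nat_lit 11390700181) (nat_lit 76) (nat_lit 8204010508) (nat_lit 81) (nat_lit 5) (nat_lit 87) (nat_lit 5) (nat_lit 82) (nat_lit 5) (nat_lit 359) (nat_lit 321) (nat_lit 100))) (XT.nd (nat_lit 78) (nat_lit 304) (nat_lit 0) (XT.lf (nat_lit 0) (nat_lit 8651696601) (nat_lit 380) (nat_lit 25179024220) (nat_lit 456) (nat_lit 14929392302) (nat_lit 76) (nat_lit 5) (nat_lit 81) (nat_lit 5) (nat_lit 82) (nat_lit 5) (nat_lit 360) (nat_lit 321) (nat_lit 99)) (XT.nd (nat_lit 78) (nat_lit 304) (nat_lit 0) (XT.lf (nat_lit 0) (nat_lit 29527226259) (nat_lit 380) (nat_lit 10184216178) (nat_lit 456) (nat_lit 10007062443) (nat_lit 76) (nat_lit 5) (nat_lit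 81) (nat_lit 5) (nat_lit 82) (nat_lit 5) (nat_lit 361) (nat_lit 321) (nat_lit 98)) (XT.lf (nat_lit 0) (nat_lit 276573650) (nat_lit 304) (nat_lit 45543896733) (nat_lit 380) (nat_lit 4883624397) (nat_lit 72) (nat_lit 5) (nat_lit 76) (nat_lit 5) (nat_lit 77) (nat_lit 5) (nat_lit 362) (nat_lit 321) (nat_lit 97))))) (XT.nd (nat_lit 234) (nat_lit 304) (nat_lit 0) (XT.nd (nat_lit 78) (nat_lit 380) (nat_lit 0) (XT.lf (nat_lit 0) (nat_lit 691249997) (nat_lit 380) (nat_lit 30049051472) (nat_lit 76) (nat_lit 20969677826) (nat_lit 71) (nat_lit 5) (nat_lit 76) (nat_lit 5) (nat_lit 72) (nat_lit 5) (nat_lit 363) (nat_lit 321) (nat_lit 96)) (XT.nd (nat_lit 78) (nat_lit 380) (nat_lit 0) (XT.lf (nat_lit 0) (nat_lit 6333920680) (nat_lit 380) (nat_lit 9109176059) (nat_lit 76) (nat_lit 37301534523) (nat_lit 71) (nat_lit 5) (nat_lit 76) (nat_lit 5) (nat_lit 72) (nat_lit 5) (nat_lit 364) (nat_lit 321) (nat_lit 95))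 (XT.lf (nat_lit 0) (nat_lit 12270961471) (nat_lit 456) (nat_lit 41105642444) (nat_lit 76) (nat_lit 429968778) (nat_lit 66) (nat_lit 5) (nat_lit 72) (nat_lit 5) (nat_lit 67) (nat_lit 5) (nat_lit 365) (nat_lit 321) (nat_lit 94)))) (XT.nd (nat_lit 78) (nat_lit 304) (nat_lit 0) (XT.lf (nat_lit 0) (nat_lit 18630673715) (nat_lit 456) (nat_lit 19700927223) (nat_lit 76) (nat_lit 16561437150) (nat_lit 66) (nat_lit 5) (nat_lit 72) (nat_lit 5) (nat_lit 67) (nat_lit 5) (nat_lit 366) (nat_lit 321) (nat_lit 93)) (XT.nd (nat_lit 78) (nat_lit 0) (nat_lit 0) (XT.lf (nat_lit 0) (nat_lit 2391062809) (nat_lit 304) (nat_lit 22811897635) (nat_lit 380) (nat_lit 30808485962) (nat_lit 62) (nat_lit 5) (nat_lit 66) (nat_lit 5) (nat_lit 67) (nat_lit 5) (nat_lit 367) (nat_lit 321) (nat_lit 92)) (XT.lf (nat_lit 0) (nat_lit 25548152297) (nat_lit 304) (nat_lit 6622023450) (nat_lit 380) (nat_lit 24987300812) (nat_lit 62) (nat_lit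 5) (nat_lit 66) (nat_lit 5) (nat_lit 67) (nat_lit 5) (nat_lit 368) (nat_lit 321) (nat_lit 91)))))) (XT.nd (nat_lit 37362) (nat_lit 0) (nat_lit 6080) (XT.nd (nat_lit 37128) (nat_lit 0) (nat_lit 6004) (XT.nd (nat_lit 36972) (nat_lit 0) (nat_lit 5928) (XT.lf (nat_lit 0) (nat_lit 39441898905) (nat_lit 380) (nat_lit 9036073587) (nat_lit 76) (nat_lit 9857052696) (nat_lit 62) (nat_lit 5) (nat_lit 67) (nat_lit 5) (nat_lit 63) (nat_lit 5) (nat_lit 369) (nat_lit 321) (nat_lit 90)) (XT.nd (nat_lit 78) (nat_lit 0) (nat_lit 0) (XT.lf (nat_lit 0) (nat_lit 4994372182) (nat_lit 1140) (nat_lit 3955321248) (nat_lit 1140) (nat_lit 3955321248) (nat_lit 140) (nat_lit 3) (nat_lit 155) (nat_lit 3) (nat_lit 155) (nat_lit 5) (nat_lit 322) (nat_lit 322) (nat_lit 136)) (XT.lf (nat_lit 76) (nat_lit 2666617566) (nat_lit 0) (nat_lit 7586006754) (nat_lit 1140) (nat_lit 15940896174) (nat_lit 141) (nat_lit 5) (nat_lit 140)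 (nat_lit 3) (nat_lit 155) (nat_lit 5) (nat_lit 323) (nat_lit 322) (nat_lit 135)))) (XT.nd (nat_lit 78) (nat_lit 0) (nat_lit 0) (XT.lf (nat_lit 0) (nat_lit 10630832686) (nat_lit 1064) (nat_lit 12894692665) (nat_lit 1140) (nat_lit 3059807933) (nat_lit 141) (nat_lit 5) (nat_lit 155) (nat_lit 5) (nat_lit 156) (nat_lit 5) (nat_lit 324) (nat_lit 322) (nat_lit 134)) (XT.nd (nat_lit 78) (nat_lit 0) (nat_lit 0) (XT.lf (nat_lit 0) (nat_lit 11092144618) (nat_lit 1064) (nat_lit 2020514742) (nat_lit 1140) (nat_lit 13874097390) (nat_lit 141) (nat_lit 5) (nat_lit 155) (nat_lit 5) (nat_lit 156) (nat_lit 5) (nat_lit 325) (nat_lit 322) (nat_lit 133)) (XT.lf (nat_lit 76) (nat_lit 9360715152) (nat_lit 0) (nat_lit 2293307634) (nat_lit 1140) (nat_lit 15743607078) (nat_lit 142) (nat_lit 5) (nat_lit 141) (nat_lit 5) (nat_lit 156) (nat_lit 5) (nat_lit 326) (nat_lit 322) (nat_lit 132))))) (XT.nd (nat_lit 234) (nat_lit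 0) (nat_lit 76) (XT.nd (nat_lit 78) (nat_lit 0) (nat_lit 0) (XT.lf (nat_lit 0) (nat_lit 12335276516) (nat_lit 1064) (nat_lit 6782629705) (nat_lit 1140) (nat_lit 8699855868) (nat_lit 142) (nat_lit 5) (nat_lit 156) (nat_lit 5) (nat_lit 157) (nat_lit 5) (nat_lit 327) (nat_lit 322) (nat_lit 131)) (XT.nd (nat_lit 78) (nat_lit 0) (nat_lit 76) (XT.lf (nat_lit 76) (nat_lit 4879925559) (nat_lit 0) (nat_lit 8223585636) (nat_lit 1140) (nat_lit 15144999034) (nat_lit 143) (nat_lit 5) (nat_lit 142) (nat_lit 5) (nat_lit 157) (nat_lit 5) (nat_lit 328) (nat_lit 322) (nat_lit 130)) (XT.lf (nat_lit 0) (nat_lit 13989787786) (nat_lit 1064) (nat_lit 11690191659) (nat_lit 1140) (nat_lit 3009359528) (nat_lit 143) (nat_lit 5) (nat_lit 157) (nat_lit 5) (nat_lit 158) (nat_lit 5) (nat_lit 329) (nat_lit 322) (nat_lit 129)))) (XT.nd (nat_lit 78) (nat_lit 0) (nat_lit 0) (XT.lf (nat_lit 76) (nat_lit 260300445) (nat_lit 0)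 (nat_lit 14723374149) (nat_lit 1140) (nat_lit 14157295102) (nat_lit 144) (nat_lit 5) (nat_lit 143) (nat_lit 5) (nat_lit 158) (nat_lit 5) (nat_lit 330) (nat_lit 322) (nat_lit 128)) (XT.nd (nat_lit 78) (nat_lit 0) (nat_lit 76) (XT.lf (nat_lit 76) (nat_lit 12807053054) (nat_lit 0) (nat_lit 3315537413) (nat_lit 1140) (nat_lit 13480110046) (nat_lit 144) (nat_lit 5) (nat_lit 143) (nat_lit 5) (nat_lit 158) (nat_lit 5) (nat_lit 331) (nat_lit 322) (nat_lit 127)) (XT.lf (nat_lit 0) (nat_lit 17374007569) (nat_lit 1064) (nat_lit 4431088271) (nat_lit 1140) (nat_lit 8270844731) (nat_lit 144) (nat_lit 5) (nat_lit 158) (nat_lit 5) (nat_lit 159) (nat_lit 5) (nat_lit 332) (nat_lit 322) (nat_lit 126))))))))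
noncomputable def xc242 : XT := (XT.nd (nat_lit 1716) (nat_lit 2280) (nat_lit 0) (XT.nd (nat_lit 858) (nat_lit 2432) (nat_lit 0) (XT.nd (nat_lit 390) (nat_lit 1520) (nat_lit 0) (XT.nd (nat_lit 156) (nat_lit 0) (nat_lit 76) (XT.nd (nat_lit 78) (nat_lit 0) (nat_lit 76) (XT.lf (nat_lit 76) (nat_lit 8434284884) (nat_lit 0) (nat_lit 10339920680) (nat_lit 1140) (nat_lit 11785842229) (nat_lit 145) (nat_lit 5) (nat_lit 144) (nat_lit 5) (nat_lit 159) (nat_lit 5) (nat_lit 333) (nat_lit 322) (nat_lit 125)) (XT.lf (nat_lit 0) (nat_lit 20273123406) (nat_lit 1064) (nat_lit 9297402394) (nat_lit 1140) (nat_lit 1486457921) (nat_lit 145) (nat_lit 5) (nat_lit 159) (nat_lit 5) (nat_lit 160) (nat_lit 5) (nat_lit 334) (nat_lit 322) (nat_lit 124))) (XT.nd (nat_lit 78) (nat_lit 0) (nat_lit 0) (XT.lf (nat_lit 76) (nat_lit 3887394677) (nat_lit 0) (nat_lit 18066835863) (nat_lit 1140) (nat_lit 9610487240) (nat_lit 146)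 (nat_lit 5) (nat_lit 145) (nat_lit 5) (nat_lit 160) (nat_lit 5) (nat_lit 335) (nat_lit 322) (nat_lit 123)) (XT.nd (nat_lit 78) (nat_lit 0) (nat_lit 76) (XT.lf (nat_lit 76) (nat_lit 17656446003) (nat_lit 0) (nat_lit 6120744110) (nat_lit 1140) (nat_lit 8307757681) (nat_lit 146) (nat_lit 5) (nat_lit 145) (nat_lit 5) (nat_lit 160) (nat_lit 5) (nat_lit 336) (nat_lit 322) (nat_lit 122)) (XT.lf (nat_lit 0) (nat_lit 25711891297) (nat_lit 1064) (nat_lit 843563906) (nat_lit 1140) (nat_lit 6063624243) (nat_lit 146) (nat_lit 5) (nat_lit 160) (nat_lit 5) (nat_lit 161) (nat_lit 5) (nat_lit 337) (nat_lit 322) (nat_lit 121))))) (XT.nd (nat_lit 234) (nat_lit 684) (nat_lit 0) (XT.nd (nat_lit 78) (nat_lit 988) (nat_lit 0) (XT.lf (nat_lit 76) (nat_lit 13346916358) (nat_lit 0) (nat_lit 14544297913) (nat_lit 1140) (nat_lit 5272429489) (nat_lit 147) (nat_lit 5) (nat_lit 146) (nat_lit 5) (nat_lit 161) (nat_lit 5) (nat_lit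 338) (nat_lit 322) (nat_lit 120)) (XT.nd (nat_lit 78) (nat_lit 988) (nat_lit 0) (XT.lf (nat_lit 76) (nat_lit 27978570665) (nat_lit 0) (nat_lit 2163595155) (nat_lit 1140) (nat_lit 3582197676) (nat_lit 147) (nat_lit 5) (nat_lit 146) (nat_lit 5) (nat_lit 161) (nat_lit 5) (nat_lit 339) (nat_lit 322) (nat_lit 119)) (XT.lf (nat_lit 0) (nat_lit 8815656386) (nat_lit 1064) (nat_lit 23829315148) (nat_lit 1140) (nat_lit 1651409305) (nat_lit 133) (nat_lit 5) (nat_lit 147) (nat_lit 5) (nat_lit 148) (nat_lit 5) (nat_lit 340) (nat_lit 322) (nat_lit 118)))) (XT.nd (nat_lit 78) (nat_lit 608) (nat_lit 0) (XT.lf (nat_lit 0) (nat_lit 408558466) (nat_lit 1140) (nat_lit 10979210256) (nat_lit 76) (nat_lit 23495363030) (nat_lit 132) (nat_lit 5) (nat_lit 147) (nat_lit 5) (nat_lit 133) (nat_lit 5) (nat_lit 341) (nat_lit 322) (nat_lit 117)) (XT.nd (nat_lit 78) (nat_lit 0) (nat_lit 0) (XT.lf (nat_lit 0) (nat_lit 2547901084)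 (nat_lit 684) (nat_lit 31482604263) (nat_lit 76) (nat_lit 1454971598) (nat_lit 124) (nat_lit 5) (nat_lit 133) (nat_lit 5) (nat_lit 125) (nat_lit 5) (nat_lit 342) (nat_lit 322) (nat_lit 116)) (XT.lf (nat_lit 0) (nat_lit 4974070854) (nat_lit 684) (nat_lit 16558815916) (nat_lit 76) (nat_lit 14566331455) (nat_lit 124) (nat_lit 5) (nat_lit 133) (nat_lit 5) (nat_lit 125) (nat_lit 5) (nat_lit 343) (nat_lit 322) (nat_lit 115)))))) (XT.nd (nat_lit 390) (nat_lit 1368) (nat_lit 0) (XT.nd (nat_lit 156) (nat_lit 532) (nat_lit 0) (XT.nd (nat_lit 78) (nat_lit 532) (nat_lit 0) (XT.lf (nat_lit 0) (nat_lit 7471016478) (nat_lit 684) (nat_lit 1189141823) (nat_lit 76) (nat_lit 28071278709) (nat_lit 124) (nat_lit 5) (nat_lit 133) (nat_lit 5) (nat_lit 125) (nat_lit 5) (nat_lit 344) (nat_lit 322) (nat_lit 114)) (XT.lf (nat_lit 0) (nat_lit 10230076453) (nat_lit 608) (nat_lit 22492799162) (nat_lit 76) (nat_lit 4654135409)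 (nat_lit 117) (nat_lit 5) (nat_lit 125) (nat_lit 5) (nat_lit 118) (nat_lit 5) (nat_lit 345) (nat_lit 322) (nat_lit 113))) (XT.nd (nat_lit 78) (nat_lit 532) (nat_lit 0) (XT.lf (nat_lit 0) (nat_lit 13167869944) (nat_lit 608) (nat_lit 6665133418) (nat_lit 76) (nat_lit 18206074747) (nat_lit 117) (nat_lit 5) (nat_lit 125) (nat_lit 5) (nat_lit 118) (nat_lit 5) (nat_lit 346) (nat_lit 322) (nat_lit 112)) (XT.nd (nat_lit 78) (nat_lit 0) (nat_lit 0) (XT.lf (nat_lit 0) (nat_lit 9827361785) (nat_lit 532) (nat_lit 6459048364) (nat_lit 608) (nat_lit 22431823239) (nat_lit 110) (nat_lit 5) (nat_lit 117) (nat_lit 5) (nat_lit 118) (nat_lit 5) (nat_lit 347) (nat_lit 322) (nat_lit 111)) (XT.lf (nat_lit 0) (nat_lit 19634988891) (nat_lit 608) (nat_lit 12537287062) (nat_lit 76) (nat_lit 7241397335) (nat_lit 110) (nat_lit 5) (nat_lit 118) (nat_lit 5) (nat_lit 111) (nat_lit 5) (nat_lit 348) (nat_lit 322) (nat_lit 110)))))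 (XT.nd (nat_lit 234) (nat_lit 912) (nat_lit 0) (XT.nd (nat_lit 78) (nat_lit 0) (nat_lit 0) (XT.lf (nat_lit 0) (nat_lit 4325604920) (nat_lit 456) (nat_lit 18862188396) (nat_lit 532) (nat_lit 16939074323) (nat_lit 104) (nat_lit 5) (nat_lit 110) (nat_lit 5) (nat_lit 111) (nat_lit 5) (nat_lit 349) (nat_lit 322) (nat_lit 109)) (XT.nd (nat_lit 78) (nat_lit 0) (nat_lit 0) (XT.lf (nat_lit 0) (nat_lit 21949645731) (nat_lit 456) (nat_lit 5022409770) (nat_lit 532) (nat_lit 13885660290) (nat_lit 104) (nat_lit 5) (nat_lit 110) (nat_lit 5) (nat_lit 111) (nat_lit 5) (nat_lit 350) (nat_lit 322) (nat_lit 108)) (XT.lf (nat_lit 0) (nat_lit 30956916431) (nat_lit 532) (nat_lit 1598574292) (nat_lit 76) (nat_lit 9052390594) (nat_lit 104) (nat_lit 5) (nat_lit 111) (nat_lit 5) (nat_lit 105) (nat_lit 5) (nat_lit 351) (nat_lit 322) (nat_lit 107)))) (XT.nd (nat_lit 78) (nat_lit 456) (nat_lit 0) (XT.lf (nat_lit 0) (nat_lit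 16500776247) (nat_lit 456) (nat_lit 18767260048) (nat_lit 532) (nat_lit 7106318061) (nat_lit 98) (nat_lit 5) (nat_lit 104) (nat_lit 5) (nat_lit 105) (nat_lit 5) (nat_lit 352) (nat_lit 322) (nat_lit 106)) (XT.nd (nat_lit 78) (nat_lit 456) (nat_lit 0) (XT.lf (nat_lit 0) (nat_lit 35174200256) (nat_lit 456) (nat_lit 4548834029) (nat_lit 532) (nat_lit 3440354789) (nat_lit 98) (nat_lit 5) (nat_lit 104) (nat_lit 5) (nat_lit 105) (nat_lit 5) (nat_lit 353) (nat_lit 322) (nat_lit 105)) (XT.lf (nat_lit 0) (nat_lit 527785920) (nat_lit 456) (nat_lit 33436716918) (nat_lit 76) (nat_lit 10005536412) (nat_lit 92) (nat_lit 5) (nat_lit 98) (nat_lit 5) (nat_lit 93) (nat_lit 5) (nat_lit 354) (nat_lit 322) (nat_lit 104))))))) (XT.nd (nat_lit 858) (nat_lit 684) (nat_lit 0) (XT.nd (nat_lit 390) (nat_lit 760) (nat_lit 0) (XT.nd (nat_lit 156) (nat_lit 380) (nat_lit 0) (XT.nd (nat_lit 78) (nat_lit 456) (nat_lit 0) (XT.lf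 (nat_lit 0) (nat_lit 4670793501) (nat_lit 456) (nat_lit 15104783655) (nat_lit 76) (nat_lit 25020544276) (nat_lit 92) (nat_lit 5) (nat_lit 98) (nat_lit 5) (nat_lit 93) (nat_lit 5) (nat_lit 355) (nat_lit 322) (nat_lit 103)) (XT.lf (nat_lit 0) (nat_lit 3850601375) (nat_lit 456) (nat_lit 5123007675) (nat_lit 532) (nat_lit 36672314896) (nat_lit 86) (nat_lit 5) (nat_lit 92) (nat_lit 5) (nat_lit 93) (nat_lit 5) (nat_lit 356) (nat_lit 322) (nat_lit 102))) (XT.nd (nat_lit 78) (nat_lit 380) (nat_lit 0) (XT.lf (nat_lit 0) (nat_lit 13653907202) (nat_lit 532) (nat_lit 22931378123) (nat_lit 76) (nat_lit 9928486564) (nat_lit 86) (nat_lit 5) (nat_lit 93) (nat_lit 5) (nat_lit 87) (nat_lit 5) (nat_lit 357) (nat_lit 322) (nat_lit 101)) (XT.nd (nat_lit 78) (nat_lit 380) (nat_lit 0) (XT.lf (nat_lit 0) (nat_lit 18523909760) (nat_lit 532) (nat_lit 3553864420) (nat_lit 76) (nat_lit 25328405430) (nat_lit 86) (nat_lit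 5) (nat_lit 93) (nat_lit 5) (nat_lit 87) (nat_lit 5) (nat_lit 358) (nat_lit 322) (nat_lit 100)) (XT.lf (nat_lit 0) (nat_lit 16729855571) (nat_lit 380) (nat_lit 6969588616) (nat_lit 456) (nat_lit 24621135530) (nat_lit 81) (nat_lit 5) (nat_lit 86) (nat_lit 5) (nat_lit 87) (nat_lit 5) (nat_lit 359) (nat_lit 322) (nat_lit 99))))) (XT.nd (nat_lit 234) (nat_lit 380) (nat_lit 0) (XT.nd (nat_lit 78) (nat_lit 380) (nat_lit 0) (XT.lf (nat_lit 0) (nat_lit 29147714647) (nat_lit 456) (nat_lit 11650947949) (nat_lit 76) (nat_lit 8460228152) (nat_lit 81) (nat_lit 5) (nat_lit 87) (nat_lit 5) (nat_lit 82) (nat_lit 5) (nat_lit 360) (nat_lit 322) (nat_lit 98)) (XT.nd (nat_lit 78) (nat_lit 0) (nat_lit 0) (XT.lf (nat_lit 0) (nat_lit 8991921980) (nat_lit 380) (nat_lit 25921630177) (nat_lit 456) (nat_lit 15307178315) (nat_lit 76) (nat_lit 5) (nat_lit 81) (nat_lit 5) (nat_lit 82) (nat_lit 5) (nat_lit 361) (nat_lit 322)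 (nat_lit 97)) (XT.lf (nat_lit 0) (nat_lit 30491367785) (nat_lit 380) (nat_lit 10477349682) (nat_lit 456) (nat_lit 10239220184) (nat_lit 76) (nat_lit 5) (nat_lit 81) (nat_lit 5) (nat_lit 82) (nat_lit 5) (nat_lit 362) (nat_lit 322) (nat_lit 96)))) (XT.nd (nat_lit 78) (nat_lit 76) (nat_lit 0) (XT.lf (nat_lit 0) (nat_lit 364411315) (nat_lit 304) (nat_lit 46895564845) (nat_lit 380) (nat_lit 4963154497) (nat_lit 72) (nat_lit 5) (nat_lit 76) (nat_lit 5) (nat_lit 77) (nat_lit 5) (nat_lit 363) (nat_lit 322) (nat_lit 95)) (XT.nd (nat_lit 78) (nat_lit 0) (nat_lit 0) (XT.lf (nat_lit 0) (nat_lit 775746368) (nat_lit 380) (nat_lit 30871898179) (nat_lit 76) (nat_lit 21611589193) (nat_lit 71) (nat_lit 5) (nat_lit 76) (nat_lit 5) (nat_lit 72) (nat_lit 5) (nat_lit 364) (nat_lit 322) (nat_lit 94)) (XT.lf (nat_lit 0) (nat_lit 6585840117) (nat_lit 380) (nat_lit 9306116548) (nat_lit 76) (nat_lit 38433028163) (nat_lit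 71) (nat_lit 5) (nat_lit 76) (nat_lit 5) (nat_lit 72) (nat_lit 5) (nat_lit 365) (nat_lit 322) (nat_lit 93)))))) (XT.nd (nat_lit 37518) (nat_lit 0) (nat_lit 6004) (XT.nd (nat_lit 37284) (nat_lit 0) (nat_lit 5928) (XT.nd (nat_lit 78) (nat_lit 304) (nat_lit 0) (XT.lf (nat_lit 0) (nat_lit 12700057641) (nat_lit 456) (nat_lit 42261417853) (nat_lit 76) (nat_lit 457340780) (nat_lit 66) (nat_lit 5) (nat_lit 72) (nat_lit 5) (nat_lit 67) (nat_lit 5) (nat_lit 366) (nat_lit 322) (nat_lit 92)) (XT.nd (nat_lit 78) (nat_lit 304) (nat_lit 0) (XT.lf (nat_lit 0) (nat_lit 19248785505) (nat_lit 456) (nat_lit 20216815366) (nat_lit 76) (nat_lit 17072331662) (nat_lit 66) (nat_lit 5) (nat_lit 72) (nat_lit 5) (nat_lit 67) (nat_lit 5) (nat_lit 367) (nat_lit 322) (nat_lit 91)) (XT.lf (nat_lit 0) (nat_lit 2537197705) (nat_lit 304) (nat_lit 23480034312) (nat_lit 380) (nat_lit 31672694871) (nat_lit 62) (nat_lit 5) (nat_lit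 66) (nat_lit 5) (nat_lit 67) (nat_lit 5) (nat_lit 368) (nat_lit 322) (nat_lit 90)))) (XT.nd (nat_lit 78) (nat_lit 0) (nat_lit 0) (XT.lf (nat_lit 0) (nat_lit 5231769073) (nat_lit 1140) (nat_lit 4028766759) (nat_lit 1140) (nat_lit 4028766759) (nat_lit 140) (nat_lit 3) (nat_lit 155) (nat_lit 3) (nat_lit 155) (nat_lit 5) (nat_lit 323) (nat_lit 323) (nat_lit 134)) (XT.nd (nat_lit 78) (nat_lit 0) (nat_lit 76) (XT.lf (nat_lit 76) (nat_lit 2836157794) (nat_lit 0) (nat_lit 7894936519) (nat_lit 1140) (nat_lit 16242647667) (nat_lit 141) (nat_lit 5) (nat_lit 140) (nat_lit 3) (nat_lit 155) (nat_lit 5) (nat_lit 324) (nat_lit 323) (nat_lit 133)) (XT.lf (nat_lit 0) (nat_lit 11114912310) (nat_lit 1064) (nat_lit 13188419064) (nat_lit 1140) (nat_lit 3074163201) (nat_lit 141) (nat_lit 5) (nat_lit 155) (nat_lit 5) (nat_lit 156) (nat_lit 5) (nat_lit 325) (nat_lit 323) (nat_lit 132))))) (XT.nd (nat_lit 234) (nat_lit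 0) (nat_lit 76) (XT.nd (nat_lit 78) (nat_lit 0) (nat_lit 0) (XT.lf (nat_lit 0) (nat_lit 11585253270) (nat_lit 1064) (nat_lit 1990727874) (nat_lit 1140) (nat_lit 14215136845) (nat_lit 141) (nat_lit 5) (nat_lit 155) (nat_lit 5) (nat_lit 156) (nat_lit 5) (nat_lit 326) (nat_lit 323) (nat_lit 131)) (XT.nd (nat_lit 78) (nat_lit 0) (nat_lit 76) (XT.lf (nat_lit 76) (nat_lit 9731052621) (nat_lit 0) (nat_lit 2429125423) (nat_lit 1140) (nat_lit 16054266103) (nat_lit 142) (nat_lit 5) (nat_lit 141) (nat_lit 5) (nat_lit 156) (nat_lit 5) (nat_lit 327) (nat_lit 323) (nat_lit 130)) (XT.lf (nat_lit 0) (nat_lit 12856684665) (nat_lit 1064) (nat_lit 6893608741) (nat_lit 1140) (nat_lit 8897054665) (nat_lit 142) (nat_lit 5) (nat_lit 156) (nat_lit 5) (nat_lit 157) (nat_lit 5) (nat_lit 328) (nat_lit 323) (nat_lit 129)))) (XT.nd (nat_lit 78) (nat_lit 0) (nat_lit 76) (XT.lf (nat_lit 76) (nat_lit 5117916320) (nat_lit 0)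 (nat_lit 8526522264) (nat_lit 1140) (nat_lit 15446697741) (nat_lit 143) (nat_lit 5) (nat_lit 142) (nat_lit 5) (nat_lit 157) (nat_lit 5) (nat_lit 329) (nat_lit 323) (nat_lit 128)) (XT.nd (nat_lit 78) (nat_lit 0) (nat_lit 0) (XT.lf (nat_lit 0) (nat_lit 14552473212) (nat_lit 1064) (nat_lit 11946758852) (nat_lit 1140) (nat_lit 3046114267) (nat_lit 143) (nat_lit 5) (nat_lit 157) (nat_lit 5) (nat_lit 158) (nat_lit 5) (nat_lit 330) (nat_lit 323) (nat_lit 127)) (XT.lf (nat_lit 76) (nat_lit 361325087) (nat_lit 0) (nat_lit 15211582772) (nat_lit 1140) (nat_lit 14437727336) (nat_lit 144) (nat_lit 5) (nat_lit 143) (nat_lit 5) (nat_lit 158) (nat_lit 5) (nat_lit 331) (nat_lit 323) (nat_lit 126))))))))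
noncomputable def xc243 : XT := (XT.nd (nat_lit 1794) (nat_lit 2432) (nat_lit 0) (XT.nd (nat_lit 858) (nat_lit 2584) (nat_lit 0) (XT.nd (nat_lit 390) (nat_lit 836) (nat_lit 0) (XT.nd (nat_lit 156) (nat_lit 0) (nat_lit 76) (XT.nd (nat_lit 78) (nat_lit 0) (nat_lit 76) (XT.lf (nat_lit 76) (nat_lit 13281765257) (nat_lit 0) (nat_lit 3460156350) (nat_lit 1140) (nat_lit 13744429251) (nat_lit 144) (nat_lit 5) (nat_lit 143) (nat_lit 5) (nat_lit 158) (nat_lit 5) (nat_lit 332) (nat_lit 323) (nat_lit 125)) (XT.lf (nat_lit 0) (nat_lit 18026508756) (nat_lit 1064) (nat_lit 4471433231) (nat_lit 1140) (nat_lit 8475987820) (nat_lit 144) (nat_lit 5) (nat_lit 158) (nat_lit 5) (nat_lit 159) (nat_lit 5) (nat_lit 333) (nat_lit 323) (nat_lit 124))) (XT.nd (nat_lit 78) (nat_lit 0) (nat_lit 76) (XT.lf (nat_lit 76) (nat_lit 8778993396) (nat_lit 0) (nat_lit 10686776862) (nat_lit 1140) (nat_lit 12006888472) (nat_lit 145)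 (nat_lit 5) (nat_lit 144) (nat_lit 5) (nat_lit 159) (nat_lit 5) (nat_lit 334) (nat_lit 323) (nat_lit 123)) (XT.nd (nat_lit 78) (nat_lit 0) (nat_lit 0) (XT.lf (nat_lit 0) (nat_lit 21005575499) (nat_lit 1064) (nat_lit 9482904226) (nat_lit 1140) (nat_lit 1496155327) (nat_lit 145) (nat_lit 5) (nat_lit 159) (nat_lit 5) (nat_lit 160) (nat_lit 5) (nat_lit 335) (nat_lit 323) (nat_lit 122)) (XT.lf (nat_lit 76) (nat_lit 4096520872) (nat_lit 0) (nat_lit 18637865006) (nat_lit 1140) (nat_lit 9773306778) (nat_lit 146) (nat_lit 5) (nat_lit 145) (nat_lit 5) (nat_lit 160) (nat_lit 5) (nat_lit 336) (nat_lit 323) (nat_lit 121))))) (XT.nd (nat_lit 234) (nat_lit 988) (nat_lit 0) (XT.nd (nat_lit 78) (nat_lit 0) (nat_lit 76) (XT.lf (nat_lit 76) (nat_lit 18275949437) (nat_lit 0) (nat_lit 6332545140) (nat_lit 1140) (nat_lit 8435150528) (nat_lit 146) (nat_lit 5) (nat_lit 145) (nat_lit 5) (nat_lit 160) (nat_lit 5) (nat_lit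 337) (nat_lit 323) (nat_lit 120)) (XT.nd (nat_lit 78) (nat_lit 0) (nat_lit 0) (XT.lf (nat_lit 0) (nat_lit 26597537248) (nat_lit 1064) (nat_lit 777674659) (nat_lit 1140) (nat_lit 6218708856) (nat_lit 146) (nat_lit 5) (nat_lit 160) (nat_lit 5) (nat_lit 161) (nat_lit 5) (nat_lit 338) (nat_lit 323) (nat_lit 119)) (XT.lf (nat_lit 76) (nat_lit 13837625932) (nat_lit 0) (nat_lit 15002153206) (nat_lit 1140) (nat_lit 5315125500) (nat_lit 147) (nat_lit 5) (nat_lit 146) (nat_lit 5) (nat_lit 161) (nat_lit 5) (nat_lit 339) (nat_lit 323) (nat_lit 118)))) (XT.nd (nat_lit 78) (nat_lit 1064) (nat_lit 0) (XT.lf (nat_lit 76) (nat_lit 28905599711) (nat_lit 0) (nat_lit 2249402384) (nat_lit 1140) (nat_lit 3577550136) (nat_lit 147) (nat_lit 5) (nat_lit 146) (nat_lit 5) (nat_lit 161) (nat_lit 5) (nat_lit 340) (nat_lit 323) (nat_lit 117)) (XT.nd (nat_lit 78) (nat_lit 76) (nat_lit 0) (XT.lf (nat_lit 0) (nat_lit 9170644845)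 (nat_lit 1064) (nat_lit 24559759940) (nat_lit 1140) (nat_lit 1591408227) (nat_lit 133) (nat_lit 5) (nat_lit 147) (nat_lit 5) (nat_lit 148) (nat_lit 5) (nat_lit 341) (nat_lit 323) (nat_lit 116)) (XT.lf (nat_lit 0) (nat_lit 525092668) (nat_lit 1140) (nat_lit 11218368096) (nat_lit 76) (nat_lit 24182775774) (nat_lit 132) (nat_lit 5) (nat_lit 147) (nat_lit 5) (nat_lit 133) (nat_lit 5) (nat_lit 342) (nat_lit 323) (nat_lit 115)))))) (XT.nd (nat_lit 468) (nat_lit 912) (nat_lit 0) (XT.nd (nat_lit 234) (nat_lit 1064) (nat_lit 0) (XT.nd (nat_lit 78) (nat_lit 0) (nat_lit 0) (XT.lf (nat_lit 0) (nat_lit 2726314385) (nat_lit 684) (nat_lit 32334309498) (nat_lit 76) (nat_lit 1486104836) (nat_lit 124) (nat_lit 5) (nat_lit 133) (nat_lit 5) (nat_lit 125) (nat_lit 5) (nat_lit 343) (nat_lit 323) (nat_lit 114)) (XT.nd (nat_lit 78) (nat_lit 0) (nat_lit 0) (XT.lf (nat_lit 0) (nat_lit 5222299065) (nat_lit 684) (nat_lit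 16965509624) (nat_lit 76) (nat_lit 14991170030) (nat_lit 124) (nat_lit 5) (nat_lit 133) (nat_lit 5) (nat_lit 125) (nat_lit 5) (nat_lit 344) (nat_lit 323) (nat_lit 113)) (XT.lf (nat_lit 0) (nat_lit 7791269386) (nat_lit 684) (nat_lit 1137368729) (nat_lit 76) (nat_lit 28901619625) (nat_lit 124) (nat_lit 5) (nat_lit 133) (nat_lit 5) (nat_lit 125) (nat_lit 5) (nat_lit 345) (nat_lit 323) (nat_lit 112)))) (XT.nd (nat_lit 78) (nat_lit 532) (nat_lit 0) (XT.lf (nat_lit 0) (nat_lit 10631061114) (nat_lit 608) (nat_lit 23077863986) (nat_lit 76) (nat_lit 4786342028) (nat_lit 117) (nat_lit 5) (nat_lit 125) (nat_lit 5) (nat_lit 118) (nat_lit 5) (nat_lit 346) (nat_lit 323) (nat_lit 111)) (XT.nd (nat_lit 78) (nat_lit 532) (nat_lit 0) (XT.lf (nat_lit 0) (nat_lit 13654248147) (nat_lit 608) (nat_lit 6777981449) (nat_lit 76) (nat_lit 18745055588) (nat_lit 117) (nat_lit 5) (nat_lit 125) (nat_lit 5) (nat_lit 118) (nat_lit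 5) (nat_lit 347) (nat_lit 323) (nat_lit 110)) (XT.lf (nat_lit 0) (nat_lit 10208434630) (nat_lit 532) (nat_lit 6656078585) (nat_lit 608) (nat_lit 23012363400) (nat_lit 110) (nat_lit 5) (nat_lit 117) (nat_lit 5) (nat_lit 118) (nat_lit 5) (nat_lit 348) (nat_lit 323) (nat_lit 109))))) (XT.nd (nat_lit 234) (nat_lit 456) (nat_lit 0) (XT.nd (nat_lit 78) (nat_lit 456) (nat_lit 0) (XT.lf (nat_lit 0) (nat_lit 20310911797) (nat_lit 608) (nat_lit 12826816264) (nat_lit 76) (nat_lit 7455537138) (nat_lit 110) (nat_lit 5) (nat_lit 118) (nat_lit 5) (nat_lit 111) (nat_lit 5) (nat_lit 349) (nat_lit 323) (nat_lit 108)) (XT.nd (nat_lit 78) (nat_lit 0) (nat_lit 0) (XT.lf (nat_lit 0) (nat_lit 4541113562) (nat_lit 456) (nat_lit 19427480695) (nat_lit 532) (nat_lit 17359318485) (nat_lit 104) (nat_lit 5) (nat_lit 110) (nat_lit 5) (nat_lit 111) (nat_lit 5) (nat_lit 350) (nat_lit 323) (nat_lit 107)) (XT.lf (nat_lit 0) (nat_lit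 22691378301) (nat_lit 456) (nat_lit 5172525410) (nat_lit 532) (nat_lit 14216863043) (nat_lit 104) (nat_lit 5) (nat_lit 110) (nat_lit 5) (nat_lit 111) (nat_lit 5) (nat_lit 351) (nat_lit 323) (nat_lit 106)))) (XT.nd (nat_lit 78) (nat_lit 456) (nat_lit 0) (XT.lf (nat_lit 0) (nat_lit 31965907318) (nat_lit 532) (nat_lit 1563115639) (nat_lit 76) (nat_lit 9324492206) (nat_lit 104) (nat_lit 5) (nat_lit 111) (nat_lit 5) (nat_lit 105) (nat_lit 5) (nat_lit 352) (nat_lit 323) (nat_lit 105)) (XT.nd (nat_lit 78) (nat_lit 0) (nat_lit 0) (XT.lf (nat_lit 0) (nat_lit 17078397613) (nat_lit 456) (nat_lit 19326418797) (nat_lit 532) (nat_lit 7238217967) (nat_lit 98) (nat_lit 5) (nat_lit 104) (nat_lit 5) (nat_lit 105) (nat_lit 5) (nat_lit 353) (nat_lit 323) (nat_lit 104)) (XT.lf (nat_lit 0) (nat_lit 36309618573) (nat_lit 456) (nat_lit 4681552396) (nat_lit 532) (nat_lit 3464643457) (nat_lit 98) (nat_lit 5) (nat_lit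 104) (nat_lit 5) (nat_lit 105) (nat_lit 5) (nat_lit 354) (nat_lit 323) (nat_lit 103))))))) (XT.nd (nat_lit 858) (nat_lit 380) (nat_lit 0) (XT.nd (nat_lit 390) (nat_lit 1140) (nat_lit 0) (XT.nd (nat_lit 156) (nat_lit 456) (nat_lit 0) (XT.nd (nat_lit 78) (nat_lit 0) (nat_lit 0) (XT.lf (nat_lit 0) (nat_lit 619577207) (nat_lit 456) (nat_lit 34356311779) (nat_lit 76) (nat_lit 10310800262) (nat_lit 92) (nat_lit 5) (nat_lit 98) (nat_lit 5) (nat_lit 93) (nat_lit 5) (nat_lit 355) (nat_lit 323) (nat_lit 102)) (XT.lf (nat_lit 0) (nat_lit 4884662655) (nat_lit 456) (nat_lit 15476852751) (nat_lit 76) (nat_lit 25776109884) (nat_lit 92) (nat_lit 5) (nat_lit 98) (nat_lit 5) (nat_lit 93) (nat_lit 5) (nat_lit 356) (nat_lit 323) (nat_lit 101))) (XT.nd (nat_lit 78) (nat_lit 0) (nat_lit 0) (XT.lf (nat_lit 0) (nat_lit 4046398983) (nat_lit 456) (nat_lit 5268787460) (nat_lit 532) (nat_lit 37697781598) (nat_lit 86) (nat_lit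 5) (nat_lit 92) (nat_lit 5) (nat_lit 93) (nat_lit 5) (nat_lit 357) (nat_lit 323) (nat_lit 100)) (XT.nd (nat_lit 78) (nat_lit 0) (nat_lit 0) (XT.lf (nat_lit 0) (nat_lit 14133859527) (nat_lit 532) (nat_lit 23539186312) (nat_lit 76) (nat_lit 10233871339) (nat_lit 86) (nat_lit 5) (nat_lit 93) (nat_lit 5) (nat_lit 87) (nat_lit 5) (nat_lit 358) (nat_lit 323) (nat_lit 99)) (XT.lf (nat_lit 0) (nat_lit 19147913566) (nat_lit 532) (nat_lit 3582681173) (nat_lit 76) (nat_lit 26095568446) (nat_lit 86) (nat_lit 5) (nat_lit 93) (nat_lit 5) (nat_lit 87) (nat_lit 5) (nat_lit 359) (nat_lit 323) (nat_lit 98))))) (XT.nd (nat_lit 234) (nat_lit 380) (nat_lit 0) (XT.nd (nat_lit 78) (nat_lit 380) (nat_lit 0) (XT.lf (nat_lit 0) (nat_lit 17308787681) (nat_lit 380) (nat_lit 7168677940) (nat_lit 456) (nat_lit 25290571590) (nat_lit 81) (nat_lit 5) (nat_lit 86) (nat_lit 5) (nat_lit 87) (nat_lit 5) (nat_lit 360) (nat_lit 323)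 (nat_lit 97)) (XT.nd (nat_lit 78) (nat_lit 380) (nat_lit 0) (XT.lf (nat_lit 0) (nat_lit 30087324938) (nat_lit 456) (nat_lit 11923680047) (nat_lit 76) (nat_lit 8723552697) (nat_lit 81) (nat_lit 5) (nat_lit 87) (nat_lit 5) (nat_lit 82) (nat_lit 5) (nat_lit 361) (nat_lit 323) (nat_lit 96)) (XT.lf (nat_lit 0) (nat_lit 9337723074) (nat_lit 380) (nat_lit 26687247061) (nat_lit 456) (nat_lit 15700321691) (nat_lit 76) (nat_lit 5) (nat_lit 81) (nat_lit 5) (nat_lit 82) (nat_lit 5) (nat_lit 362) (nat_lit 323) (nat_lit 95)))) (XT.nd (nat_lit 78) (nat_lit 380) (nat_lit 0) (XT.lf (nat_lit 0) (nat_lit 31479937397) (nat_lit 380) (nat_lit 10779988600) (nat_lit 456) (nat_lit 10482249243) (nat_lit 76) (nat_lit 5) (nat_lit 81) (nat_lit 5) (nat_lit 82) (nat_lit 5) (nat_lit 363) (nat_lit 323) (nat_lit 94)) (XT.nd (nat_lit 78) (nat_lit 76) (nat_lit 0) (XT.lf (nat_lit 0) (nat_lit 450318163) (nat_lit 304) (nat_lit 48288623901)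 (nat_lit 380) (nat_lit 5048915348) (nat_lit 72) (nat_lit 5) (nat_lit 76) (nat_lit 5) (nat_lit 77) (nat_lit 5) (nat_lit 364) (nat_lit 323) (nat_lit 93)) (XT.lf (nat_lit 0) (nat_lit 859117610) (nat_lit 380) (nat_lit 31723943674) (nat_lit 76) (nat_lit 22272021922) (nat_lit 71) (nat_lit 5) (nat_lit 76) (nat_lit 5) (nat_lit 72) (nat_lit 5) (nat_lit 365) (nat_lit 323) (nat_lit 92)))))) (XT.nd (nat_lit 37674) (nat_lit 0) (nat_lit 5700) (XT.nd (nat_lit 37440) (nat_lit 0) (nat_lit 5624) (XT.nd (nat_lit 78) (nat_lit 380) (nat_lit 0) (XT.lf (nat_lit 0) (nat_lit 6841763720) (nat_lit 380) (nat_lit 9513347180) (nat_lit 76) (nat_lit 39597752069) (nat_lit 71) (nat_lit 5) (nat_lit 76) (nat_lit 5) (nat_lit 72) (nat_lit 5) (nat_lit 366) (nat_lit 323) (nat_lit 91)) (XT.nd (nat_lit 37284) (nat_lit 0) (nat_lit 5624) (XT.lf (nat_lit 0) (nat_lit 13138526922) (nat_lit 456) (nat_lit 43456309249) (nat_lit 76) (nat_lit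 484703137) (nat_lit 66) (nat_lit 5) (nat_lit 72) (nat_lit 5) (nat_lit 67) (nat_lit 5) (nat_lit 367) (nat_lit 323) (nat_lit 90)) (XT.lf (nat_lit 0) (nat_lit 5471261239) (nat_lit 1140) (nat_lit 4107011111) (nat_lit 1140) (nat_lit 4107011111) (nat_lit 140) (nat_lit 3) (nat_lit 155) (nat_lit 3) (nat_lit 155) (nat_lit 5) (nat_lit 324) (nat_lit 324) (nat_lit 132)))) (XT.nd (nat_lit 78) (nat_lit 0) (nat_lit 76) (XT.lf (nat_lit 76) (nat_lit 3005644170) (nat_lit 0) (nat_lit 8208464379) (nat_lit 1140) (nat_lit 16563582115) (nat_lit 141) (nat_lit 5) (nat_lit 140) (nat_lit 3) (nat_lit 155) (nat_lit 5) (nat_lit 325) (nat_lit 324) (nat_lit 131)) (XT.nd (nat_lit 78) (nat_lit 0) (nat_lit 0) (XT.lf (nat_lit 0) (nat_lit 11604033770) (nat_lit 1064) (nat_lit 13496302403) (nat_lit 1140) (nat_lit 3093394440) (nat_lit 141) (nat_lit 5) (nat_lit 155) (nat_lit 5) (nat_lit 156) (nat_lit 5) (nat_lit 326) (nat_lit 324)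 (nat_lit 130)) (XT.lf (nat_lit 0) (nat_lit 12083950762) (nat_lit 1064) (nat_lit 1965236862) (nat_lit 1140) (nat_lit 14570723323) (nat_lit 141) (nat_lit 5) (nat_lit 155) (nat_lit 5) (nat_lit 156) (nat_lit 5) (nat_lit 327) (nat_lit 324) (nat_lit 129))))) (XT.nd (nat_lit 234) (nat_lit 0) (nat_lit 152) (XT.nd (nat_lit 78) (nat_lit 0) (nat_lit 76) (XT.lf (nat_lit 76) (nat_lit 10107361627) (nat_lit 0) (nat_lit 2565170606) (nat_lit 1140) (nat_lit 16383524223) (nat_lit 142) (nat_lit 5) (nat_lit 141) (nat_lit 5) (nat_lit 156) (nat_lit 5) (nat_lit 328) (nat_lit 324) (nat_lit 128)) (XT.nd (nat_lit 78) (nat_lit 0) (nat_lit 0) (XT.lf (nat_lit 0) (nat_lit 13385046959) (nat_lit 1064) (nat_lit 7013227018) (nat_lit 1140) (nat_lit 9103831627) (nat_lit 142) (nat_lit 5) (nat_lit 156) (nat_lit 5) (nat_lit 157) (nat_lit 5) (nat_lit 329) (nat_lit 324) (nat_lit 127)) (XT.lf (nat_lit 76) (nat_lit 5357788991) (nat_lit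 0) (nat_lit 8835319214) (nat_lit 1140) (nat_lit 15766210215) (nat_lit 143) (nat_lit 5) (nat_lit 142) (nat_lit 5) (nat_lit 157) (nat_lit 5) (nat_lit 330) (nat_lit 324) (nat_lit 126)))) (XT.nd (nat_lit 78) (nat_lit 0) (nat_lit 0) (XT.lf (nat_lit 0) (nat_lit 15123830886) (nat_lit 1064) (nat_lit 12216427000) (nat_lit 1140) (nat_lit 3087044262) (nat_lit 143) (nat_lit 5) (nat_lit 157) (nat_lit 5) (nat_lit 158) (nat_lit 5) (nat_lit 331) (nat_lit 324) (nat_lit 125)) (XT.nd (nat_lit 78) (nat_lit 0) (nat_lit 0) (XT.lf (nat_lit 76) (nat_lit 460029511) (nat_lit 0) (nat_lit 15711767939) (nat_lit 1140) (nat_lit 14734855179) (nat_lit 144) (nat_lit 5) (nat_lit 143) (nat_lit 5) (nat_lit 158) (nat_lit 5) (nat_lit 332) (nat_lit 324) (nat_lit 124)) (XT.lf (nat_lit 76) (nat_lit 13765523721) (nat_lit 0) (nat_lit 3606521899) (nat_lit 1140) (nat_lit 14024719432) (nat_lit 144) (nat_lit 5) (nat_lit 143) (nat_lit 5) (nat_lit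 158) (nat_lit 5) (nat_lit 333) (nat_lit 324) (nat_lit 123))))))))
noncomputable def xc244 : XT := (XT.nd (nat_lit 1716) (nat_lit 2052) (nat_lit 0) (XT.nd (nat_lit 858) (nat_lit 1976) (nat_lit 0) (XT.nd (nat_lit 390) (nat_lit 1520) (nat_lit 0) (XT.nd (nat_lit 156) (nat_lit 0) (nat_lit 76) (XT.nd (nat_lit 78) (nat_lit 0) (nat_lit 0) (XT.lf (nat_lit 0) (nat_lit 18691048915) (nat_lit 1064) (nat_lit 4518303452) (nat_lit 1140) (nat_lit 8689752559) (nat_lit 144) (nat_lit 5) (nat_lit 158) (nat_lit 5) (nat_lit 159) (nat_lit 5) (nat_lit 334) (nat_lit 324) (nat_lit 122)) (XT.lf (nat_lit 76) (nat_lit 9128780358) (nat_lit 0) (nat_lit 11041934378) (nat_lit 1140) (nat_lit 12242173810) (nat_lit 145) (nat_lit 5) (nat_lit 144) (nat_lit 5) (nat_lit 159) (nat_lit 5) (nat_lit 335) (nat_lit 324) (nat_lit 121))) (XT.nd (nat_lit 78) (nat_lit 0) (nat_lit 0) (XT.lf (nat_lit 0) (nat_lit 21752868215) (nat_lit 1064) (nat_lit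 9679333817) (nat_lit 1140) (nat_lit 1508146848) (nat_lit 145) (nat_lit 5) (nat_lit 159) (nat_lit 5) (nat_lit 160) (nat_lit 5) (nat_lit 336) (nat_lit 324) (nat_lit 120)) (XT.nd (nat_lit 78) (nat_lit 0) (nat_lit 0) (XT.lf (nat_lit 76) (nat_lit 4306610725) (nat_lit 0) (nat_lit 19224358924) (nat_lit 1140) (nat_lit 9948214832) (nat_lit 146) (nat_lit 5) (nat_lit 145) (nat_lit 5) (nat_lit 160) (nat_lit 5) (nat_lit 337) (nat_lit 324) (nat_lit 119)) (XT.lf (nat_lit 76) (nat_lit 18908882509) (nat_lit 0) (nat_lit 6549082627) (nat_lit 1140) (nat_lit 8573359269) (nat_lit 146) (nat_lit 5) (nat_lit 145) (nat_lit 5) (nat_lit 160) (nat_lit 5) (nat_lit 338) (nat_lit 324) (nat_lit 118))))) (XT.nd (nat_lit 234) (nat_lit 1672) (nat_lit 0) (XT.nd (nat_lit 78) (nat_lit 0) (nat_lit 0) (XT.lf (nat_lit 0) (nat_lit 27503191910) (nat_lit 1064) (nat_lit 715043769) (nat_lit 1140) (nat_lit 6379985821) (nat_lit 146) (nat_lit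 5) (nat_lit 160) (nat_lit 5) (nat_lit 161) (nat_lit 5) (nat_lit 339) (nat_lit 324) (nat_lit 117)) (XT.nd (nat_lit 78) (nat_lit 0) (nat_lit 0) (XT.lf (nat_lit 76) (nat_lit 14337873084) (nat_lit 0) (nat_lit 15472508458) (nat_lit 1140) (nat_lit 5365731236) (nat_lit 147) (nat_lit 5) (nat_lit 146) (nat_lit 5) (nat_lit 161) (nat_lit 5) (nat_lit 340) (nat_lit 324) (nat_lit 116)) (XT.lf (nat_lit 76) (nat_lit 29855406900) (nat_lit 0) (nat_lit 2336584121) (nat_lit 1140) (nat_lit 3579198942) (nat_lit 147) (nat_lit 5) (nat_lit 146) (nat_lit 5) (nat_lit 161) (nat_lit 5) (nat_lit 341) (nat_lit 324) (nat_lit 115)))) (XT.nd (nat_lit 78) (nat_lit 684) (nat_lit 0) (XT.lf (nat_lit 0) (nat_lit 9531086810) (nat_lit 1064) (nat_lit 25311224562) (nat_lit 1140) (nat_lit 1535895354) (nat_lit 133) (nat_lit 5) (nat_lit 147) (nat_lit 5) (nat_lit 148) (nat_lit 5) (nat_lit 342) (nat_lit 324) (nat_lit 114)) (XT.nd (nat_lit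 78) (nat_lit 608) (nat_lit 0) (XT.lf (nat_lit 0) (nat_lit 639136944) (nat_lit 1140) (nat_lit 11469879581) (nat_lit 76) (nat_lit 24891812495) (nat_lit 132) (nat_lit 5) (nat_lit 147) (nat_lit 5) (nat_lit 133) (nat_lit 5) (nat_lit 343) (nat_lit 324) (nat_lit 113)) (XT.lf (nat_lit 0) (nat_lit 2904226230) (nat_lit 684) (nat_lit 33216891433) (nat_lit 76) (nat_lit 1518890535) (nat_lit 124) (nat_lit 5) (nat_lit 133) (nat_lit 5) (nat_lit 125) (nat_lit 5) (nat_lit 344) (nat_lit 324) (nat_lit 112)))))) (XT.nd (nat_lit 390) (nat_lit 912) (nat_lit 0) (XT.nd (nat_lit 156) (nat_lit 1064) (nat_lit 0) (XT.nd (nat_lit 78) (nat_lit 0) (nat_lit 0) (XT.lf (nat_lit 0) (nat_lit 5472290769) (nat_lit 684) (nat_lit 17389574573) (nat_lit 76) (nat_lit 15429451300) (nat_lit 124) (nat_lit 5) (nat_lit 133) (nat_lit 5) (nat_lit 125) (nat_lit 5) (nat_lit 345) (nat_lit 324) (nat_lit 111)) (XT.lf (nat_lit 0) (nat_lit 8115612061)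 (nat_lit 684) (nat_lit 1089062277) (nat_lit 76) (nat_lit 29757547990) (nat_lit 124) (nat_lit 5) (nat_lit 133) (nat_lit 5) (nat_lit 125) (nat_lit 5) (nat_lit 346) (nat_lit 324) (nat_lit 110))) (XT.nd (nat_lit 78) (nat_lit 532) (nat_lit 0) (XT.lf (nat_lit 0) (nat_lit 11038674603) (nat_lit 608) (nat_lit 23685631001) (nat_lit 76) (nat_lit 4922940636) (nat_lit 117) (nat_lit 5) (nat_lit 125) (nat_lit 5) (nat_lit 118) (nat_lit 5) (nat_lit 347) (nat_lit 324) (nat_lit 109)) (XT.nd (nat_lit 78) (nat_lit 532) (nat_lit 0) (XT.lf (nat_lit 0) (nat_lit 14149974286) (nat_lit 608) (nat_lit 6899215160) (nat_lit 76) (nat_lit 19300619244) (nat_lit 117) (nat_lit 5) (nat_lit 125) (nat_lit 5) (nat_lit 118) (nat_lit 5) (nat_lit 348) (nat_lit 324) (nat_lit 108)) (XT.lf (nat_lit 0) (nat_lit 10595988444) (nat_lit 532) (nat_lit 6858832646) (nat_lit 608) (nat_lit 23615624737) (nat_lit 110) (nat_lit 5) (nat_lit 117) (nat_lit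 5) (nat_lit 118) (nat_lit 5) (nat_lit 349) (nat_lit 324) (nat_lit 107))))) (XT.nd (nat_lit 234) (nat_lit 456) (nat_lit 0) (XT.nd (nat_lit 78) (nat_lit 456) (nat_lit 0) (XT.lf (nat_lit 0) (nat_lit 21002125511) (nat_lit 608) (nat_lit 13130001929) (nat_lit 76) (nat_lit 7676279210) (nat_lit 110) (nat_lit 5) (nat_lit 118) (nat_lit 5) (nat_lit 111) (nat_lit 5) (nat_lit 350) (nat_lit 324) (nat_lit 106)) (XT.nd (nat_lit 78) (nat_lit 0) (nat_lit 0) (XT.lf (nat_lit 0) (nat_lit 4758165607) (nat_lit 456) (nat_lit 20009764676) (nat_lit 532) (nat_lit 17797217403) (nat_lit 104) (nat_lit 5) (nat_lit 110) (nat_lit 5) (nat_lit 111) (nat_lit 5) (nat_lit 351) (nat_lit 324) (nat_lit 105)) (XT.lf (nat_lit 0) (nat_lit 23450584347) (nat_lit 456) (nat_lit 5327176473) (nat_lit 532) (nat_lit 14562902296) (nat_lit 104) (nat_lit 5) (nat_lit 110) (nat_lit 5) (nat_lit 111) (nat_lit 5) (nat_lit 352) (nat_lit 324) (nat_lit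 104)))) (XT.nd (nat_lit 78) (nat_lit 456) (nat_lit 0) (XT.lf (nat_lit 0) (nat_lit 33000559336) (nat_lit 532) (nat_lit 1531381640) (nat_lit 76) (nat_lit 9604726448) (nat_lit 104) (nat_lit 5) (nat_lit 111) (nat_lit 5) (nat_lit 105) (nat_lit 5) (nat_lit 353) (nat_lit 324) (nat_lit 103)) (XT.nd (nat_lit 78) (nat_lit 0) (nat_lit 0) (XT.lf (nat_lit 0) (nat_lit 17668606153) (nat_lit 456) (nat_lit 19902573833) (nat_lit 532) (nat_lit 7378741228) (nat_lit 98) (nat_lit 5) (nat_lit 104) (nat_lit 5) (nat_lit 105) (nat_lit 5) (nat_lit 354) (nat_lit 324) (nat_lit 102)) (XT.lf (nat_lit 0) (nat_lit 37474496074) (nat_lit 456) (nat_lit 4818467387) (nat_lit 532) (nat_lit 3494191229) (nat_lit 98) (nat_lit 5) (nat_lit 104) (nat_lit 5) (nat_lit 105) (nat_lit 5) (nat_lit 355) (nat_lit 324) (nat_lit 101))))))) (XT.nd (nat_lit 858) (nat_lit 0) (nat_lit 0) (XT.nd (nat_lit 390) (nat_lit 1140) (nat_lit 0) (XT.nd (nat_lit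 156) (nat_lit 456) (nat_lit 0) (XT.nd (nat_lit 78) (nat_lit 0) (nat_lit 0) (XT.lf (nat_lit 0) (nat_lit 709761949) (nat_lit 456) (nat_lit 35308288109) (nat_lit 76) (nat_lit 10624929395) (nat_lit 92) (nat_lit 5) (nat_lit 98) (nat_lit 5) (nat_lit 93) (nat_lit 5) (nat_lit 356) (nat_lit 324) (nat_lit 100)) (XT.lf (nat_lit 0) (nat_lit 5100714598) (nat_lit 456) (nat_lit 15864737922) (nat_lit 76) (nat_lit 26554058351) (nat_lit 92) (nat_lit 5) (nat_lit 98) (nat_lit 5) (nat_lit 93) (nat_lit 5) (nat_lit 357) (nat_lit 324) (nat_lit 99))) (XT.nd (nat_lit 78) (nat_lit 0) (nat_lit 0) (XT.lf (nat_lit 0) (nat_lit 4243462144) (nat_lit 456) (nat_lit 5419394732) (nat_lit 532) (nat_lit 38758300544) (nat_lit 86) (nat_lit 5) (nat_lit 92) (nat_lit 5) (nat_lit 93) (nat_lit 5) (nat_lit 358) (nat_lit 324) (nat_lit 98)) (XT.nd (nat_lit 78) (nat_lit 0) (nat_lit 0) (XT.lf (nat_lit 0) (nat_lit 14624172899) (nat_lit 532) (nat_lit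 24169828717) (nat_lit 76) (nat_lit 10547985394) (nat_lit 86) (nat_lit 5) (nat_lit 93) (nat_lit 5) (nat_lit 87) (nat_lit 5) (nat_lit 359) (nat_lit 324) (nat_lit 97)) (XT.lf (nat_lit 0) (nat_lit 19786717562) (nat_lit 532) (nat_lit 3616828420) (nat_lit 76) (nat_lit 26885326679) (nat_lit 86) (nat_lit 5) (nat_lit 93) (nat_lit 5) (nat_lit 87) (nat_lit 5) (nat_lit 360) (nat_lit 324) (nat_lit 96))))) (XT.nd (nat_lit 234) (nat_lit 380) (nat_lit 0) (XT.nd (nat_lit 78) (nat_lit 380) (nat_lit 0) (XT.lf (nat_lit 0) (nat_lit 17900665547) (nat_lit 380) (nat_lit 7374313888) (nat_lit 456) (nat_lit 25984062980) (nat_lit 81) (nat_lit 5) (nat_lit 86) (nat_lit 5) (nat_lit 87) (nat_lit 5) (nat_lit 361) (nat_lit 324) (nat_lit 95)) (XT.nd (nat_lit 78) (nat_lit 380) (nat_lit 0) (XT.lf (nat_lit 0) (nat_lit 31051382006) (nat_lit 456) (nat_lit 12209002532) (nat_lit 76) (nat_lit 8994230623) (nat_lit 81) (nat_lit 5) (nat_lit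 87) (nat_lit 5) (nat_lit 82) (nat_lit 5) (nat_lit 362) (nat_lit 324) (nat_lit 94)) (XT.lf (nat_lit 0) (nat_lit 9689532998) (nat_lit 380) (nat_lit 27476523140) (nat_lit 456) (nat_lit 16109052170) (nat_lit 76) (nat_lit 5) (nat_lit 81) (nat_lit 5) (nat_lit 82) (nat_lit 5) (nat_lit 363) (nat_lit 324) (nat_lit 93)))) (XT.nd (nat_lit 78) (nat_lit 380) (nat_lit 0) (XT.lf (nat_lit 0) (nat_lit 32493926034) (nat_lit 380) (nat_lit 11092377254) (nat_lit 456) (nat_lit 10736251504) (nat_lit 76) (nat_lit 5) (nat_lit 81) (nat_lit 5) (nat_lit 82) (nat_lit 5) (nat_lit 364) (nat_lit 324) (nat_lit 92)) (XT.nd (nat_lit 78) (nat_lit 76) (nat_lit 0) (XT.lf (nat_lit 0) (nat_lit 534498372) (nat_lit 304) (nat_lit 49724267358) (nat_lit 380) (nat_lit 5140873162) (nat_lit 72) (nat_lit 5) (nat_lit 76) (nat_lit 5) (nat_lit 77) (nat_lit 5) (nat_lit 365) (nat_lit 324) (nat_lit 91)) (XT.lf (nat_lit 0) (nat_lit 941540070) (nat_lit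 380) (nat_lit 32605804835) (nat_lit 76) (nat_lit 22951573901) (nat_lit 71) (nat_lit 5) (nat_lit 76) (nat_lit 5) (nat_lit 72) (nat_lit 5) (nat_lit 366) (nat_lit 324) (nat_lit 90)))))) (XT.nd (nat_lit 37752) (nat_lit 0) (nat_lit 5396) (XT.nd (nat_lit 37518) (nat_lit 0) (nat_lit 5320) (XT.nd (nat_lit 37362) (nat_lit 0) (nat_lit 5244) (XT.lf (nat_lit 0) (nat_lit 7102015594) (nat_lit 380) (nat_lit 9730925121) (nat_lit 76) (nat_lit 40796744166) (nat_lit 71) (nat_lit 5) (nat_lit 76) (nat_lit 5) (nat_lit 72) (nat_lit 5) (nat_lit 367) (nat_lit 324) (nat_lit 89)) (XT.nd (nat_lit 78) (nat_lit 0) (nat_lit 0) (XT.lf (nat_lit 0) (nat_lit 5713200089) (nat_lit 1140) (nat_lit 4190049279) (nat_lit 1140) (nat_lit 4190049279) (nat_lit 140) (nat_lit 3) (nat_lit 155) (nat_lit 3) (nat_lit 155) (nat_lit 5) (nat_lit 325) (nat_lit 325) (nat_lit 130)) (XT.lf (nat_lit 76) (nat_lit 3175370137) (nat_lit 0) (nat_lit 8526996343)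 (nat_lit 1140) (nat_lit 16903693478) (nat_lit 141) (nat_lit 5) (nat_lit 140) (nat_lit 3) (nat_lit 155) (nat_lit 5) (nat_lit 326) (nat_lit 325) (nat_lit 129)))) (XT.nd (nat_lit 78) (nat_lit 0) (nat_lit 0) (XT.lf (nat_lit 0) (nat_lit 12098892543) (nat_lit 1064) (nat_lit 13818460554) (nat_lit 1140) (nat_lit 3117392751) (nat_lit 141) (nat_lit 5) (nat_lit 155) (nat_lit 5) (nat_lit 156) (nat_lit 5) (nat_lit 327) (nat_lit 325) (nat_lit 128)) (XT.nd (nat_lit 78) (nat_lit 0) (nat_lit 0) (XT.lf (nat_lit 0) (nat_lit 12588933130) (nat_lit 1064) (nat_lit 1943872685) (nat_lit 1140) (nat_lit 14941045487) (nat_lit 141) (nat_lit 5) (nat_lit 155) (nat_lit 5) (nat_lit 156) (nat_lit 5) (nat_lit 328) (nat_lit 325) (nat_lit 127)) (XT.lf (nat_lit 76) (nat_lit 10490116295) (nat_lit 0) (nat_lit 2701670846) (nat_lit 1140) (nat_lit 16731406740) (nat_lit 142) (nat_lit 5) (nat_lit 141) (nat_lit 5) (nat_lit 156) (nat_lit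 5) (nat_lit 329) (nat_lit 325) (nat_lit 126))))) (XT.nd (nat_lit 234) (nat_lit 0) (nat_lit 76) (XT.nd (nat_lit 78) (nat_lit 0) (nat_lit 0) (XT.lf (nat_lit 0) (nat_lit 13921070753) (nat_lit 1064) (nat_lit 7141438905) (nat_lit 1140) (nat_lit 9320263874) (nat_lit 142) (nat_lit 5) (nat_lit 156) (nat_lit 5) (nat_lit 157) (nat_lit 5) (nat_lit 330) (nat_lit 325) (nat_lit 125)) (XT.nd (nat_lit 78) (nat_lit 0) (nat_lit 76) (XT.lf (nat_lit 76) (nat_lit 5599901850) (nat_lit 0) (nat_lit 9150337582) (nat_lit 1140) (nat_lit 16103567850) (nat_lit 143) (nat_lit 5) (nat_lit 142) (nat_lit 5) (nat_lit 157) (nat_lit 5) (nat_lit 331) (nat_lit 325) (nat_lit 124)) (XT.lf (nat_lit 0) (nat_lit 15704592168) (nat_lit 1064) (nat_lit 12499278922) (nat_lit 1140) (nat_lit 3132098391) (nat_lit 143) (nat_lit 5) (nat_lit 157) (nat_lit 5) (nat_lit 158) (nat_lit 5) (nat_lit 332) (nat_lit 325) (nat_lit 123)))) (XT.nd (nat_lit 78)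 (nat_lit 0) (nat_lit 0) (XT.lf (nat_lit 76) (nat_lit 556651276) (nat_lit 0) (nat_lit 16224442199) (nat_lit 1140) (nat_lit 15048704042) (nat_lit 144) (nat_lit 5) (nat_lit 143) (nat_lit 5) (nat_lit 158) (nat_lit 5) (nat_lit 333) (nat_lit 325) (nat_lit 122)) (XT.nd (nat_lit 78) (nat_lit 0) (nat_lit 76) (XT.lf (nat_lit 76) (nat_lit 14258898053) (nat_lit 0) (nat_lit 3754835247) (nat_lit 1140) (nat_lit 14320998109) (nat_lit 144) (nat_lit 5) (nat_lit 143) (nat_lit 5) (nat_lit 158) (nat_lit 5) (nat_lit 334) (nat_lit 325) (nat_lit 121)) (XT.lf (nat_lit 0) (nat_lit 19368421815) (nat_lit 1064) (nat_lit 4571589594) (nat_lit 1140) (nat_lit 8912255961) (nat_lit 144) (nat_lit 5) (nat_lit 158) (nat_lit 5) (nat_lit 159) (nat_lit 5) (nat_lit 335) (nat_lit 325) (nat_lit 120))))))))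
noncomputable def xc245 : XT := (XT.nd (nat_lit 1716) (nat_lit 1520) (nat_lit 0) (XT.nd (nat_lit 858) (nat_lit 2432) (nat_lit 0) (XT.nd (nat_lit 390) (nat_lit 1520) (nat_lit 0) (XT.nd (nat_lit 156) (nat_lit 0) (nat_lit 76) (XT.nd (nat_lit 78) (nat_lit 0) (nat_lit 76) (XT.lf (nat_lit 76) (nat_lit 9484100230) (nat_lit 0) (nat_lit 11405763066) (nat_lit 1140) (nat_lit 12491688703) (nat_lit 145) (nat_lit 5) (nat_lit 144) (nat_lit 5) (nat_lit 159) (nat_lit 5) (nat_lit 336) (nat_lit 325) (nat_lit 119)) (XT.lf (nat_lit 0) (nat_lit 22515856232) (nat_lit 1064) (nat_lit 9886711158) (nat_lit 1140) (nat_lit 1522386316) (nat_lit 145) (nat_lit 5) (nat_lit 159) (nat_lit 5) (nat_lit 160) (nat_lit 5) (nat_lit 337) (nat_lit 325) (nat_lit 118))) (XT.nd (nat_lit 78) (nat_lit 0) (nat_lit 0) (XT.lf (nat_lit 76) (nat_lit 4517997969) (nat_lit 0) (nat_lit 19826877199) (nat_lit 1140) (nat_lit 10135160524) (nat_lit 146)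 (nat_lit 5) (nat_lit 145) (nat_lit 5) (nat_lit 160) (nat_lit 5) (nat_lit 338) (nat_lit 325) (nat_lit 117)) (XT.nd (nat_lit 78) (nat_lit 0) (nat_lit 76) (XT.lf (nat_lit 76) (nat_lit 19555944054) (nat_lit 0) (nat_lit 6770591521) (nat_lit 1140) (nat_lit 8722306889) (nat_lit 146) (nat_lit 5) (nat_lit 145) (nat_lit 5) (nat_lit 160) (nat_lit 5) (nat_lit 339) (nat_lit 325) (nat_lit 116)) (XT.lf (nat_lit 0) (nat_lit 28429832152) (nat_lit 1064) (nat_lit 655468472) (nat_lit 1140) (nat_lit 6547552517) (nat_lit 146) (nat_lit 5) (nat_lit 160) (nat_lit 5) (nat_lit 161) (nat_lit 5) (nat_lit 340) (nat_lit 325) (nat_lit 115))))) (XT.nd (nat_lit 234) (nat_lit 684) (nat_lit 0) (XT.nd (nat_lit 78) (nat_lit 988) (nat_lit 0) (XT.lf (nat_lit 76) (nat_lit 14848241508) (nat_lit 0) (nat_lit 15955809600) (nat_lit 1140) (nat_lit 5424103466) (nat_lit 147) (nat_lit 5) (nat_lit 146) (nat_lit 5) (nat_lit 161) (nat_lit 5) (nat_lit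 341) (nat_lit 325) (nat_lit 114)) (XT.nd (nat_lit 78) (nat_lit 988) (nat_lit 0) (XT.lf (nat_lit 76) (nat_lit 30828964478) (nat_lit 0) (nat_lit 2425250469) (nat_lit 1140) (nat_lit 3586963544) (nat_lit 147) (nat_lit 5) (nat_lit 146) (nat_lit 5) (nat_lit 161) (nat_lit 5) (nat_lit 342) (nat_lit 325) (nat_lit 113)) (XT.lf (nat_lit 0) (nat_lit 9897444167) (nat_lit 1064) (nat_lit 26084390900) (nat_lit 1140) (nat_lit 1484644361) (nat_lit 133) (nat_lit 5) (nat_lit 147) (nat_lit 5) (nat_lit 148) (nat_lit 5) (nat_lit 343) (nat_lit 325) (nat_lit 112)))) (XT.nd (nat_lit 78) (nat_lit 608) (nat_lit 0) (XT.lf (nat_lit 0) (nat_lit 750960214) (nat_lit 1140) (nat_lit 11733818029) (nat_lit 76) (nat_lit 25623064416) (nat_lit 132) (nat_lit 5) (nat_lit 147) (nat_lit 5) (nat_lit 133) (nat_lit 5) (nat_lit 344) (nat_lit 325) (nat_lit 111)) (XT.nd (nat_lit 78) (nat_lit 0) (nat_lit 0) (XT.lf (nat_lit 0) (nat_lit 3081957611)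 (nat_lit 684) (nat_lit 34130970663) (nat_lit 76) (nat_lit 1553337028) (nat_lit 124) (nat_lit 5) (nat_lit 133) (nat_lit 5) (nat_lit 125) (nat_lit 5) (nat_lit 345) (nat_lit 325) (nat_lit 110)) (XT.lf (nat_lit 0) (nat_lit 5724425117) (nat_lit 684) (nat_lit 17831235098) (nat_lit 76) (nat_lit 15881538505) (nat_lit 124) (nat_lit 5) (nat_lit 133) (nat_lit 5) (nat_lit 125) (nat_lit 5) (nat_lit 346) (nat_lit 325) (nat_lit 109)))))) (XT.nd (nat_lit 390) (nat_lit 1368) (nat_lit 0) (XT.nd (nat_lit 156) (nat_lit 532) (nat_lit 0) (XT.nd (nat_lit 78) (nat_lit 532) (nat_lit 0) (XT.lf (nat_lit 0) (nat_lit 8444483943) (nat_lit 684) (nat_lit 1044038308) (nat_lit 76) (nat_lit 30639792552) (nat_lit 124) (nat_lit 5) (nat_lit 133) (nat_lit 5) (nat_lit 125) (nat_lit 5) (nat_lit 347) (nat_lit 325) (nat_lit 108)) (XT.lf (nat_lit 0) (nat_lit 11453425806) (nat_lit 608) (nat_lit 24316485627) (nat_lit 76) (nat_lit 5064038552)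 (nat_lit 117) (nat_lit 5) (nat_lit 125) (nat_lit 5) (nat_lit 118) (nat_lit 5) (nat_lit 348) (nat_lit 325) (nat_lit 107))) (XT.nd (nat_lit 78) (nat_lit 532) (nat_lit 0) (XT.lf (nat_lit 0) (nat_lit 14655629792) (nat_lit 608) (nat_lit 7028799087) (nat_lit 76) (nat_lit 19873239469) (nat_lit 117) (nat_lit 5) (nat_lit 125) (nat_lit 5) (nat_lit 118) (nat_lit 5) (nat_lit 349) (nat_lit 325) (nat_lit 106)) (XT.nd (nat_lit 78) (nat_lit 0) (nat_lit 0) (XT.lf (nat_lit 0) (nat_lit 10990501874) (nat_lit 532) (nat_lit 7067493001) (nat_lit 608) (nat_lit 24241984360) (nat_lit 110) (nat_lit 5) (nat_lit 117) (nat_lit 5) (nat_lit 118) (nat_lit 5) (nat_lit 350) (nat_lit 325) (nat_lit 105)) (XT.lf (nat_lit 0) (nat_lit 21709375025) (nat_lit 608) (nat_lit 13446968418) (nat_lit 76) (nat_lit 7903811396) (nat_lit 110) (nat_lit 5) (nat_lit 118) (nat_lit 5) (nat_lit 111) (nat_lit 5) (nat_lit 351) (nat_lit 325) (nat_lit 104)))))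 (XT.nd (nat_lit 234) (nat_lit 912) (nat_lit 0) (XT.nd (nat_lit 78) (nat_lit 0) (nat_lit 0) (XT.lf (nat_lit 0) (nat_lit 4977089894) (nat_lit 456) (nat_lit 20609548199) (nat_lit 532) (nat_lit 18253010976) (nat_lit 104) (nat_lit 5) (nat_lit 110) (nat_lit 5) (nat_lit 111) (nat_lit 5) (nat_lit 352) (nat_lit 325) (nat_lit 103)) (XT.nd (nat_lit 78) (nat_lit 0) (nat_lit 0) (XT.lf (nat_lit 0) (nat_lit 24228062381) (nat_lit 456) (nat_lit 5486497188) (nat_lit 532) (nat_lit 14923941842) (nat_lit 104) (nat_lit 5) (nat_lit 110) (nat_lit 5) (nat_lit 111) (nat_lit 5) (nat_lit 353) (nat_lit 325) (nat_lit 102)) (XT.lf (nat_lit 0) (nat_lit 34061906872) (nat_lit 532) (nat_lit 1503209158) (nat_lit 76) (nat_lit 9893339046) (nat_lit 104) (nat_lit 5) (nat_lit 111) (nat_lit 5) (nat_lit 105) (nat_lit 5) (nat_lit 354) (nat_lit 325) (nat_lit 101)))) (XT.nd (nat_lit 78) (nat_lit 456) (nat_lit 0) (XT.lf (nat_lit 0) (nat_lit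 18272051661) (nat_lit 456) (nat_lit 20496222329) (nat_lit 532) (nat_lit 7527878677) (nat_lit 98) (nat_lit 5) (nat_lit 104) (nat_lit 5) (nat_lit 105) (nat_lit 5) (nat_lit 355) (nat_lit 325) (nat_lit 100)) (XT.nd (nat_lit 78) (nat_lit 456) (nat_lit 0) (XT.lf (nat_lit 0) (nat_lit 38669980784) (nat_lit 456) (nat_lit 4959692556) (nat_lit 532) (nat_lit 3528895812) (nat_lit 98) (nat_lit 5) (nat_lit 104) (nat_lit 5) (nat_lit 105) (nat_lit 5) (nat_lit 356) (nat_lit 325) (nat_lit 99)) (XT.lf (nat_lit 0) (nat_lit 798542249) (nat_lit 456) (nat_lit 36293342179) (nat_lit 76) (nat_lit 10948206569) (nat_lit 92) (nat_lit 5) (nat_lit 98) (nat_lit 5) (nat_lit 93) (nat_lit 5) (nat_lit 357) (nat_lit 325) (nat_lit 98))))))) (XT.nd (nat_lit 38298) (nat_lit 0) (nat_lit 5244) (XT.nd (nat_lit 390) (nat_lit 684) (nat_lit 0) (XT.nd (nat_lit 156) (nat_lit 380) (nat_lit 0) (XT.nd (nat_lit 78) (nat_lit 456) (nat_lit 0) (XT.lf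 (nat_lit 0) (nat_lit 5319257824) (nat_lit 456) (nat_lit 16268646493) (nat_lit 76) (nat_lit 27355077472) (nat_lit 92) (nat_lit 5) (nat_lit 98) (nat_lit 5) (nat_lit 93) (nat_lit 5) (nat_lit 358) (nat_lit 325) (nat_lit 97)) (XT.lf (nat_lit 0) (nat_lit 4442093364) (nat_lit 456) (nat_lit 5574948246) (nat_lit 532) (nat_lit 39854677139) (nat_lit 86) (nat_lit 5) (nat_lit 92) (nat_lit 5) (nat_lit 93) (nat_lit 5) (nat_lit 359) (nat_lit 325) (nat_lit 96))) (XT.nd (nat_lit 78) (nat_lit 380) (nat_lit 0) (XT.lf (nat_lit 0) (nat_lit 15125389919) (nat_lit 532) (nat_lit 24823726309) (nat_lit 76) (nat_lit 10871115421) (nat_lit 86) (nat_lit 5) (nat_lit 93) (nat_lit 5) (nat_lit 87) (nat_lit 5) (nat_lit 360) (nat_lit 325) (nat_lit 95)) (XT.nd (nat_lit 78) (nat_lit 380) (nat_lit 0) (XT.lf (nat_lit 0) (nat_lit 20440990771) (nat_lit 532) (nat_lit 3656209709) (nat_lit 76) (nat_lit 27698382077) (nat_lit 86) (nat_lit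 5) (nat_lit 93) (nat_lit 5) (nat_lit 87) (nat_lit 5) (nat_lit 361) (nat_lit 325) (nat_lit 94)) (XT.lf (nat_lit 0) (nat_lit 18506131394) (nat_lit 380) (nat_lit 7586659914) (nat_lit 456) (nat_lit 26702103338) (nat_lit 81) (nat_lit 5) (nat_lit 86) (nat_lit 5) (nat_lit 87) (nat_lit 5) (nat_lit 362) (nat_lit 325) (nat_lit 93))))) (XT.nd (nat_lit 234) (nat_lit 304) (nat_lit 0) (XT.nd (nat_lit 78) (nat_lit 380) (nat_lit 0) (XT.lf (nat_lit 0) (nat_lit 32040834032) (nat_lit 456) (nat_lit 12507040054) (nat_lit 76) (nat_lit 9272513895) (nat_lit 81) (nat_lit 5) (nat_lit 87) (nat_lit 5) (nat_lit 82) (nat_lit 5) (nat_lit 363) (nat_lit 325) (nat_lit 92)) (XT.nd (nat_lit 78) (nat_lit 0) (nat_lit 0) (XT.lf (nat_lit 0) (nat_lit 10047782595) (nat_lit 380) (nat_lit 28290128540) (nat_lit 456) (nat_lit 16533619642) (nat_lit 76) (nat_lit 5) (nat_lit 81) (nat_lit 5) (nat_lit 82) (nat_lit 5) (nat_lit 364) (nat_lit 325)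 (nat_lit 91)) (XT.lf (nat_lit 0) (nat_lit 33534339551) (nat_lit 380) (nat_lit 11414769646) (nat_lit 456) (nat_lit 11001344785) (nat_lit 76) (nat_lit 5) (nat_lit 81) (nat_lit 5) (nat_lit 82) (nat_lit 5) (nat_lit 365) (nat_lit 325) (nat_lit 90)))) (XT.nd (nat_lit 37518) (nat_lit 0) (nat_lit 5168) (XT.lf (nat_lit 0) (nat_lit 617147203) (nat_lit 304) (nat_lit 51203727248) (nat_lit 380) (nat_lit 5239005807) (nat_lit 72) (nat_lit 5) (nat_lit 76) (nat_lit 5) (nat_lit 77) (nat_lit 5) (nat_lit 366) (nat_lit 325) (nat_lit 89)) (XT.nd (nat_lit 78) (nat_lit 0) (nat_lit 0) (XT.lf (nat_lit 0) (nat_lit 5957931008) (nat_lit 1140) (nat_lit 4277884638) (nat_lit 1140) (nat_lit 4277884638) (nat_lit 140) (nat_lit 3) (nat_lit 155) (nat_lit 3) (nat_lit 155) (nat_lit 5) (nat_lit 326) (nat_lit 326) (nat_lit 128)) (XT.lf (nat_lit 76) (nat_lit 3345621006) (nat_lit 0) (nat_lit 8850935211) (nat_lit 1140) (nat_lit 17263008920)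 (nat_lit 141) (nat_lit 5) (nat_lit 140) (nat_lit 3) (nat_lit 155) (nat_lit 5) (nat_lit 327) (nat_lit 326) (nat_lit 127)))))) (XT.nd (nat_lit 468) (nat_lit 0) (nat_lit 152) (XT.nd (nat_lit 234) (nat_lit 0) (nat_lit 76) (XT.nd (nat_lit 78) (nat_lit 0) (nat_lit 0) (XT.lf (nat_lit 0) (nat_lit 12600173733) (nat_lit 1064) (nat_lit 14155032543) (nat_lit 1140) (nat_lit 3146060616) (nat_lit 141) (nat_lit 5) (nat_lit 155) (nat_lit 5) (nat_lit 156) (nat_lit 5) (nat_lit 328) (nat_lit 326) (nat_lit 126)) (XT.nd (nat_lit 78) (nat_lit 0) (nat_lit 0) (XT.lf (nat_lit 0) (nat_lit 13100886962) (nat_lit 1064) (nat_lit 1926478354) (nat_lit 1140) (nat_lit 15326311882) (nat_lit 141) (nat_lit 5) (nat_lit 155) (nat_lit 5) (nat_lit 156) (nat_lit 5) (nat_lit 329) (nat_lit 326) (nat_lit 125)) (XT.lf (nat_lit 76) (nat_lit 10879788036) (nat_lit 0) (nat_lit 2838847960) (nat_lit 1140) (nat_lit 17097970293) (nat_lit 142) (nat_lit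 5) (nat_lit 141) (nat_lit 5) (nat_lit 156) (nat_lit 5) (nat_lit 330) (nat_lit 326) (nat_lit 124)))) (XT.nd (nat_lit 78) (nat_lit 0) (nat_lit 0) (XT.lf (nat_lit 0) (nat_lit 14465455996) (nat_lit 1064) (nat_lit 7278214899) (nat_lit 1140) (nat_lit 9546442908) (nat_lit 142) (nat_lit 5) (nat_lit 156) (nat_lit 5) (nat_lit 157) (nat_lit 5) (nat_lit 331) (nat_lit 326) (nat_lit 123)) (XT.nd (nat_lit 78) (nat_lit 0) (nat_lit 76) (XT.lf (nat_lit 76) (nat_lit 5844606596) (nat_lit 0) (nat_lit 9471938661) (nat_lit 1140) (nat_lit 16458831855) (nat_lit 143) (nat_lit 5) (nat_lit 142) (nat_lit 5) (nat_lit 157) (nat_lit 5) (nat_lit 332) (nat_lit 326) (nat_lit 122)) (XT.lf (nat_lit 0) (nat_lit 16295483308) (nat_lit 1064) (nat_lit 12795417731) (nat_lit 1140) (nat_lit 3181234121) (nat_lit 143) (nat_lit 5) (nat_lit 157) (nat_lit 5) (nat_lit 158) (nat_lit 5) (nat_lit 333) (nat_lit 326) (nat_lit 121))))) (XT.nd (nat_lit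 234) (nat_lit 0) (nat_lit 76) (XT.nd (nat_lit 78) (nat_lit 0) (nat_lit 0) (XT.lf (nat_lit 76) (nat_lit 651417436) (nat_lit 0) (nat_lit 16750124679) (nat_lit 1140) (nat_lit 15379327391) (nat_lit 144) (nat_lit 5) (nat_lit 143) (nat_lit 5) (nat_lit 158) (nat_lit 5) (nat_lit 334) (nat_lit 326) (nat_lit 120)) (XT.nd (nat_lit 78) (nat_lit 0) (nat_lit 76) (XT.lf (nat_lit 76) (nat_lit 14762457831) (nat_lit 0) (nat_lit 3905295075) (nat_lit 1140) (nat_lit 14633309827) (nat_lit 144) (nat_lit 5) (nat_lit 143) (nat_lit 5) (nat_lit 158) (nat_lit 5) (nat_lit 335) (nat_lit 326) (nat_lit 119)) (XT.lf (nat_lit 0) (nat_lit 20059420207) (nat_lit 1064) (nat_lit 4631196551) (nat_lit 1140) (nat_lit 9143626680) (nat_lit 144) (nat_lit 5) (nat_lit 158) (nat_lit 5) (nat_lit 159) (nat_lit 5) (nat_lit 336) (nat_lit 326) (nat_lit 118)))) (XT.nd (nat_lit 78) (nat_lit 0) (nat_lit 76) (XT.lf (nat_lit 76) (nat_lit 9845403765)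 (nat_lit 0) (nat_lit 11778636926) (nat_lit 1140) (nat_lit 12755448393) (nat_lit 145) (nat_lit 5) (nat_lit 144) (nat_lit 5) (nat_lit 159) (nat_lit 5) (nat_lit 337) (nat_lit 326) (nat_lit 117)) (XT.nd (nat_lit 78) (nat_lit 0) (nat_lit 0) (XT.lf (nat_lit 0) (nat_lit 23295396364) (nat_lit 1064) (nat_lit 10105074512) (nat_lit 1140) (nat_lit 1538832778) (nat_lit 145) (nat_lit 5) (nat_lit 159) (nat_lit 5) (nat_lit 160) (nat_lit 5) (nat_lit 338) (nat_lit 326) (nat_lit 116)) (XT.lf (nat_lit 76) (nat_lit 4731008849) (nat_lit 0) (nat_lit 20445990715) (nat_lit 1140) (nat_lit 10334115186) (nat_lit 146) (nat_lit 5) (nat_lit 145) (nat_lit 5) (nat_lit 160) (nat_lit 5) (nat_lit 339) (nat_lit 326) (nat_lit 115))))))))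
noncomputable def xc246 : XT := (XT.nd (nat_lit 1716) (nat_lit 760) (nat_lit 0) (XT.nd (nat_lit 858) (nat_lit 2356) (nat_lit 0) (XT.nd (nat_lit 390) (nat_lit 1216) (nat_lit 0) (XT.nd (nat_lit 156) (nat_lit 912) (nat_lit 0) (XT.nd (nat_lit 78) (nat_lit 0) (nat_lit 76) (XT.lf (nat_lit 76) (nat_lit 20217836882) (nat_lit 0) (nat_lit 6997308490) (nat_lit 1140) (nat_lit 8881937111) (nat_lit 146) (nat_lit 5) (nat_lit 145) (nat_lit 5) (nat_lit 160) (nat_lit 5) (nat_lit 340) (nat_lit 326) (nat_lit 114)) (XT.lf (nat_lit 0) (nat_lit 29378442533) (nat_lit 1064) (nat_lit 598757175) (nat_lit 1140) (nat_lit 6721514319) (nat_lit 146) (nat_lit 5) (nat_lit 160) (nat_lit 5) (nat_lit 161) (nat_lit 5) (nat_lit 341) (nat_lit 326) (nat_lit 113))) (XT.nd (nat_lit 78) (nat_lit 988) (nat_lit 0) (XT.lf (nat_lit 76) (nat_lit 15369315326) (nat_lit 0) (nat_lit 16452511873) (nat_lit 1140) (nat_lit 5490116506) (nat_lit 147)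 (nat_lit 5) (nat_lit 146) (nat_lit 5) (nat_lit 161) (nat_lit 5) (nat_lit 342) (nat_lit 326) (nat_lit 112)) (XT.nd (nat_lit 78) (nat_lit 988) (nat_lit 0) (XT.lf (nat_lit 76) (nat_lit 31827257269) (nat_lit 0) (nat_lit 2515510880) (nat_lit 1140) (nat_lit 3600679185) (nat_lit 147) (nat_lit 5) (nat_lit 146) (nat_lit 5) (nat_lit 161) (nat_lit 5) (nat_lit 343) (nat_lit 326) (nat_lit 111)) (XT.lf (nat_lit 0) (nat_lit 10270175534) (nat_lit 1064) (nat_lit 26879958353) (nat_lit 1140) (nat_lit 1437442855) (nat_lit 133) (nat_lit 5) (nat_lit 147) (nat_lit 5) (nat_lit 148) (nat_lit 5) (nat_lit 344) (nat_lit 326) (nat_lit 110))))) (XT.nd (nat_lit 234) (nat_lit 532) (nat_lit 0) (XT.nd (nat_lit 78) (nat_lit 608) (nat_lit 0) (XT.lf (nat_lit 0) (nat_lit 860819742) (nat_lit 1140) (nat_lit 12010276024) (nat_lit 76) (nat_lit 26377143800) (nat_lit 132) (nat_lit 5) (nat_lit 147) (nat_lit 5) (nat_lit 133) (nat_lit 5)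 (nat_lit 345) (nat_lit 326) (nat_lit 109)) (XT.nd (nat_lit 78) (nat_lit 0) (nat_lit 0) (XT.lf (nat_lit 0) (nat_lit 3259819859) (nat_lit 684) (nat_lit 35077203946) (nat_lit 76) (nat_lit 1589455261) (nat_lit 124) (nat_lit 5) (nat_lit 133) (nat_lit 5) (nat_lit 125) (nat_lit 5) (nat_lit 346) (nat_lit 326) (nat_lit 108)) (XT.lf (nat_lit 0) (nat_lit 5979073909) (nat_lit 684) (nat_lit 18290739300) (nat_lit 76) (nat_lit 16347808081) (nat_lit 124) (nat_lit 5) (nat_lit 133) (nat_lit 5) (nat_lit 125) (nat_lit 5) (nat_lit 347) (nat_lit 326) (nat_lit 107)))) (XT.nd (nat_lit 78) (nat_lit 532) (nat_lit 0) (XT.lf (nat_lit 0) (nat_lit 8778319469) (nat_lit 684) (nat_lit 1002123679) (nat_lit 76) (nat_lit 31549106154) (nat_lit 124) (nat_lit 5) (nat_lit 133) (nat_lit 5) (nat_lit 125) (nat_lit 5) (nat_lit 348) (nat_lit 326) (nat_lit 106)) (XT.nd (nat_lit 78) (nat_lit 0) (nat_lit 0) (XT.lf (nat_lit 0) (nat_lit 11875821082)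 (nat_lit 608) (nat_lit 24970841820) (nat_lit 76) (nat_lit 5209747717) (nat_lit 117) (nat_lit 5) (nat_lit 125) (nat_lit 5) (nat_lit 118) (nat_lit 5) (nat_lit 349) (nat_lit 326) (nat_lit 105)) (XT.lf (nat_lit 0) (nat_lit 15171796260) (nat_lit 608) (nat_lit 7166713180) (nat_lit 76) (nat_lit 20463405592) (nat_lit 117) (nat_lit 5) (nat_lit 125) (nat_lit 5) (nat_lit 118) (nat_lit 5) (nat_lit 350) (nat_lit 326) (nat_lit 104)))))) (XT.nd (nat_lit 390) (nat_lit 1368) (nat_lit 0) (XT.nd (nat_lit 156) (nat_lit 456) (nat_lit 0) (XT.nd (nat_lit 78) (nat_lit 0) (nat_lit 0) (XT.lf (nat_lit 0) (nat_lit 11392451616) (nat_lit 532) (nat_lit 7282246960) (nat_lit 608) (nat_lit 24891848171) (nat_lit 110) (nat_lit 5) (nat_lit 117) (nat_lit 5) (nat_lit 118) (nat_lit 5) (nat_lit 351) (nat_lit 326) (nat_lit 103)) (XT.lf (nat_lit 0) (nat_lit 22433411246) (nat_lit 608) (nat_lit 13777860203) (nat_lit 76) (nat_lit 8138327764)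 (nat_lit 110) (nat_lit 5) (nat_lit 118) (nat_lit 5) (nat_lit 111) (nat_lit 5) (nat_lit 352) (nat_lit 326) (nat_lit 102))) (XT.nd (nat_lit 78) (nat_lit 0) (nat_lit 0) (XT.lf (nat_lit 0) (nat_lit 5198208905) (nat_lit 456) (nat_lit 21227354471) (nat_lit 532) (nat_lit 18726962933) (nat_lit 104) (nat_lit 5) (nat_lit 110) (nat_lit 5) (nat_lit 111) (nat_lit 5) (nat_lit 353) (nat_lit 326) (nat_lit 101)) (XT.nd (nat_lit 78) (nat_lit 0) (nat_lit 0) (XT.lf (nat_lit 0) (nat_lit 25024619120) (nat_lit 456) (nat_lit 5650625916) (nat_lit 532) (nat_lit 15300166532) (nat_lit 104) (nat_lit 5) (nat_lit 110) (nat_lit 5) (nat_lit 111) (nat_lit 5) (nat_lit 354) (nat_lit 326) (nat_lit 100)) (XT.lf (nat_lit 0) (nat_lit 35151000156) (nat_lit 532) (nat_lit 1478445946) (nat_lit 76) (nat_lit 10190582995) (nat_lit 104) (nat_lit 5) (nat_lit 111) (nat_lit 5) (nat_lit 105) (nat_lit 5) (nat_lit 355) (nat_lit 326) (nat_lit 99)))))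 (XT.nd (nat_lit 234) (nat_lit 456) (nat_lit 0) (XT.nd (nat_lit 78) (nat_lit 456) (nat_lit 0) (XT.lf (nat_lit 0) (nat_lit 18889387801) (nat_lit 456) (nat_lit 21107877103) (nat_lit 532) (nat_lit 7685636248) (nat_lit 98) (nat_lit 5) (nat_lit 104) (nat_lit 5) (nat_lit 105) (nat_lit 5) (nat_lit 356) (nat_lit 326) (nat_lit 98)) (XT.nd (nat_lit 78) (nat_lit 456) (nat_lit 0) (XT.lf (nat_lit 0) (nat_lit 39897240005) (nat_lit 456) (nat_lit 5105345569) (nat_lit 532) (nat_lit 3568666774) (nat_lit 98) (nat_lit 5) (nat_lit 104) (nat_lit 5) (nat_lit 105) (nat_lit 5) (nat_lit 357) (nat_lit 326) (nat_lit 97)) (XT.lf (nat_lit 0) (nat_lit 886111902) (nat_lit 456) (nat_lit 37312206942) (nat_lit 76) (nat_lit 11280922058) (nat_lit 92) (nat_lit 5) (nat_lit 98) (nat_lit 5) (nat_lit 93) (nat_lit 5) (nat_lit 358) (nat_lit 326) (nat_lit 96)))) (XT.nd (nat_lit 78) (nat_lit 456) (nat_lit 0) (XT.lf (nat_lit 0) (nat_lit 5540596127)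 (nat_lit 456) (nat_lit 16688807343) (nat_lit 76) (nat_lit 28179874740) (nat_lit 92) (nat_lit 5) (nat_lit 98) (nat_lit 5) (nat_lit 93) (nat_lit 5) (nat_lit 359) (nat_lit 326) (nat_lit 95)) (XT.nd (nat_lit 78) (nat_lit 0) (nat_lit 0) (XT.lf (nat_lit 0) (nat_lit 4642589038) (nat_lit 456) (nat_lit 5735571821) (nat_lit 532) (nat_lit 40987755080) (nat_lit 86) (nat_lit 5) (nat_lit 92) (nat_lit 5) (nat_lit 93) (nat_lit 5) (nat_lit 360) (nat_lit 326) (nat_lit 94)) (XT.lf (nat_lit 0) (nat_lit 15638056164) (nat_lit 532) (nat_lit 25501327843) (nat_lit 76) (nat_lit 11203555289) (nat_lit 86) (nat_lit 5) (nat_lit 93) (nat_lit 5) (nat_lit 87) (nat_lit 5) (nat_lit 361) (nat_lit 326) (nat_lit 93))))))) (XT.nd (nat_lit 38454) (nat_lit 0) (nat_lit 4332) (XT.nd (nat_lit 37986) (nat_lit 0) (nat_lit 4864) (XT.nd (nat_lit 156) (nat_lit 380) (nat_lit 0) (XT.nd (nat_lit 78) (nat_lit 380) (nat_lit 0) (XT.lf (nat_lit 0)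 (nat_lit 21111409375) (nat_lit 532) (nat_lit 3700740412) (nat_lit 76) (nat_lit 28535456263) (nat_lit 86) (nat_lit 5) (nat_lit 93) (nat_lit 5) (nat_lit 87) (nat_lit 5) (nat_lit 362) (nat_lit 326) (nat_lit 92)) (XT.lf (nat_lit 0) (nat_lit 19125832144) (nat_lit 380) (nat_lit 7805886263) (nat_lit 456) (nat_lit 27445214197) (nat_lit 81) (nat_lit 5) (nat_lit 86) (nat_lit 5) (nat_lit 87) (nat_lit 5) (nat_lit 363) (nat_lit 326) (nat_lit 91))) (XT.nd (nat_lit 78) (nat_lit 380) (nat_lit 0) (XT.lf (nat_lit 0) (nat_lit 33056645315) (nat_lit 456) (nat_lit 12817935529) (nat_lit 76) (nat_lit 9558660237) (nat_lit 81) (nat_lit 5) (nat_lit 87) (nat_lit 5) (nat_lit 82) (nat_lit 5) (nat_lit 364) (nat_lit 326) (nat_lit 90)) (XT.nd (nat_lit 37674) (nat_lit 0) (nat_lit 4864) (XT.lf (nat_lit 0) (nat_lit 10412901253) (nat_lit 380) (nat_lit 29128755768) (nat_lit 456) (nat_lit 16974293994) (nat_lit 76) (nat_lit 5) (nat_lit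 81) (nat_lit 5) (nat_lit 82) (nat_lit 5) (nat_lit 365) (nat_lit 326) (nat_lit 89)) (XT.lf (nat_lit 0) (nat_lit 6205794130) (nat_lit 1140) (nat_lit 4370528729) (nat_lit 1140) (nat_lit 4370528729) (nat_lit 140) (nat_lit 3) (nat_lit 155) (nat_lit 3) (nat_lit 155) (nat_lit 5) (nat_lit 327) (nat_lit 327) (nat_lit 126))))) (XT.nd (nat_lit 234) (nat_lit 0) (nat_lit 76) (XT.nd (nat_lit 78) (nat_lit 0) (nat_lit 76) (XT.lf (nat_lit 76) (nat_lit 3516674682) (nat_lit 0) (nat_lit 9180681363) (nat_lit 1140) (nat_lit 17641587883) (nat_lit 141) (nat_lit 5) (nat_lit 140) (nat_lit 3) (nat_lit 155) (nat_lit 5) (nat_lit 328) (nat_lit 327) (nat_lit 125)) (XT.nd (nat_lit 78) (nat_lit 0) (nat_lit 0) (XT.lf (nat_lit 0) (nat_lit 13108553545) (nat_lit 1064) (nat_lit 14506178168) (nat_lit 1140) (nat_lit 3179311396) (nat_lit 141) (nat_lit 5) (nat_lit 155) (nat_lit 5) (nat_lit 156) (nat_lit 5) (nat_lit 329) (nat_lit 327)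 (nat_lit 124)) (XT.lf (nat_lit 0) (nat_lit 13620490853) (nat_lit 1064) (nat_lit 1912908286) (nat_lit 1140) (nat_lit 15726750716) (nat_lit 141) (nat_lit 5) (nat_lit 155) (nat_lit 5) (nat_lit 156) (nat_lit 5) (nat_lit 330) (nat_lit 327) (nat_lit 123)))) (XT.nd (nat_lit 78) (nat_lit 0) (nat_lit 76) (XT.lf (nat_lit 76) (nat_lit 11276846445) (nat_lit 0) (nat_lit 2976918469) (nat_lit 1140) (nat_lit 17483302040) (nat_lit 142) (nat_lit 5) (nat_lit 141) (nat_lit 5) (nat_lit 156) (nat_lit 5) (nat_lit 331) (nat_lit 327) (nat_lit 122)) (XT.nd (nat_lit 78) (nat_lit 0) (nat_lit 0) (XT.lf (nat_lit 0) (nat_lit 15018896648) (nat_lit 1064) (nat_lit 7423541106) (nat_lit 1140) (nat_lit 9782474349) (nat_lit 142) (nat_lit 5) (nat_lit 156) (nat_lit 5) (nat_lit 157) (nat_lit 5) (nat_lit 332) (nat_lit 327) (nat_lit 121)) (XT.lf (nat_lit 76) (nat_lit 6092249150) (nat_lit 0) (nat_lit 9800484560) (nat_lit 1140) (nat_lit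 16832092493) (nat_lit 143) (nat_lit 5) (nat_lit 142) (nat_lit 5) (nat_lit 157) (nat_lit 5) (nat_lit 333) (nat_lit 327) (nat_lit 120)))))) (XT.nd (nat_lit 468) (nat_lit 760) (nat_lit 0) (XT.nd (nat_lit 234) (nat_lit 0) (nat_lit 76) (XT.nd (nat_lit 78) (nat_lit 0) (nat_lit 0) (XT.lf (nat_lit 0) (nat_lit 16897226848) (nat_lit 1064) (nat_lit 13104966417) (nat_lit 1140) (nat_lit 3234417189) (nat_lit 143) (nat_lit 5) (nat_lit 157) (nat_lit 5) (nat_lit 158) (nat_lit 5) (nat_lit 334) (nat_lit 327) (nat_lit 119)) (XT.nd (nat_lit 78) (nat_lit 0) (nat_lit 0) (XT.lf (nat_lit 76) (nat_lit 744545238) (nat_lit 0) (nat_lit 17289341790) (nat_lit 1140) (nat_lit 15726806023) (nat_lit 144) (nat_lit 5) (nat_lit 143) (nat_lit 5) (nat_lit 158) (nat_lit 5) (nat_lit 335) (nat_lit 327) (nat_lit 118)) (XT.lf (nat_lit 76) (nat_lit 15276773584) (nat_lit 0) (nat_lit 4058097976) (nat_lit 1140) (nat_lit 14961725443) (nat_lit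 144) (nat_lit 5) (nat_lit 143) (nat_lit 5) (nat_lit 158) (nat_lit 5) (nat_lit 336) (nat_lit 327) (nat_lit 117)))) (XT.nd (nat_lit 78) (nat_lit 0) (nat_lit 0) (XT.lf (nat_lit 0) (nat_lit 20764837215) (nat_lit 1064) (nat_lit 4697042872) (nat_lit 1140) (nat_lit 9384004893) (nat_lit 144) (nat_lit 5) (nat_lit 158) (nat_lit 5) (nat_lit 159) (nat_lit 5) (nat_lit 337) (nat_lit 327) (nat_lit 116)) (XT.nd (nat_lit 78) (nat_lit 0) (nat_lit 76) (XT.lf (nat_lit 76) (nat_lit 10213138889) (nat_lit 0) (nat_lit 12160934641) (nat_lit 1140) (nat_lit 13033492209) (nat_lit 145) (nat_lit 5) (nat_lit 144) (nat_lit 5) (nat_lit 159) (nat_lit 5) (nat_lit 338) (nat_lit 327) (nat_lit 115)) (XT.lf (nat_lit 0) (nat_lit 24092348976) (nat_lit 1064) (nat_lit 10334479948) (nat_lit 1140) (nat_lit 1557450275) (nat_lit 145) (nat_lit 5) (nat_lit 159) (nat_lit 5) (nat_lit 160) (nat_lit 5) (nat_lit 339) (nat_lit 327) (nat_lit 114)))))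 (XT.nd (nat_lit 234) (nat_lit 912) (nat_lit 0) (XT.nd (nat_lit 78) (nat_lit 0) (nat_lit 0) (XT.lf (nat_lit 76) (nat_lit 4945962907) (nat_lit 0) (nat_lit 21082282303) (nat_lit 1140) (nat_lit 10545071667) (nat_lit 146) (nat_lit 5) (nat_lit 145) (nat_lit 5) (nat_lit 160) (nat_lit 5) (nat_lit 340) (nat_lit 327) (nat_lit 113)) (XT.nd (nat_lit 78) (nat_lit 0) (nat_lit 76) (XT.lf (nat_lit 76) (nat_lit 20895268874) (nat_lit 0) (nat_lit 7229472275) (nat_lit 1140) (nat_lit 9052213696) (nat_lit 146) (nat_lit 5) (nat_lit 145) (nat_lit 5) (nat_lit 160) (nat_lit 5) (nat_lit 341) (nat_lit 327) (nat_lit 112)) (XT.lf (nat_lit 0) (nat_lit 30350016769) (nat_lit 1064) (nat_lit 544728797) (nat_lit 1140) (nat_lit 6901984545) (nat_lit 146) (nat_lit 5) (nat_lit 160) (nat_lit 5) (nat_lit 161) (nat_lit 5) (nat_lit 342) (nat_lit 327) (nat_lit 111)))) (XT.nd (nat_lit 78) (nat_lit 988) (nat_lit 0) (XT.lf (nat_lit 76) (nat_lit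 15901680085) (nat_lit 0) (nat_lit 16963080333) (nat_lit 1140) (nat_lit 5563661491) (nat_lit 147) (nat_lit 5) (nat_lit 146) (nat_lit 5) (nat_lit 161) (nat_lit 5) (nat_lit 343) (nat_lit 327) (nat_lit 110)) (XT.nd (nat_lit 78) (nat_lit 988) (nat_lit 0) (XT.lf (nat_lit 76) (nat_lit 32851284015) (nat_lit 0) (nat_lit 2607474366) (nat_lit 1140) (nat_lit 3620196152) (nat_lit 147) (nat_lit 5) (nat_lit 146) (nat_lit 5) (nat_lit 161) (nat_lit 5) (nat_lit 344) (nat_lit 327) (nat_lit 109)) (XT.lf (nat_lit 0) (nat_lit 10649737151) (nat_lit 1064) (nat_lit 27698644525) (nat_lit 1140) (nat_lit 1394091603) (nat_lit 133) (nat_lit 5) (nat_lit 147) (nat_lit 5) (nat_lit 148) (nat_lit 5) (nat_lit 345) (nat_lit 327) (nat_lit 108))))))))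
noncomputable def xc247 : XT := (XT.nd (nat_lit 39468) (nat_lit 0) (nat_lit 2204) (XT.nd (nat_lit 858) (nat_lit 1748) (nat_lit 0) (XT.nd (nat_lit 390) (nat_lit 988) (nat_lit 0) (XT.nd (nat_lit 156) (nat_lit 532) (nat_lit 0) (XT.nd (nat_lit 78) (nat_lit 608) (nat_lit 0) (XT.lf (nat_lit 0) (nat_lit 968961914) (nat_lit 1140) (nat_lit 12299365013) (nat_lit 76) (nat_lit 27154684385) (nat_lit 132) (nat_lit 5) (nat_lit 147) (nat_lit 5) (nat_lit 133) (nat_lit 5) (nat_lit 346) (nat_lit 327) (nat_lit 107)) (XT.lf (nat_lit 0) (nat_lit 3438115462) (nat_lit 684) (nat_lit 36056284286) (nat_lit 76) (nat_lit 1627258744) (nat_lit 124) (nat_lit 5) (nat_lit 133) (nat_lit 5) (nat_lit 125) (nat_lit 5) (nat_lit 347) (nat_lit 327) (nat_lit 106))) (XT.nd (nat_lit 78) (nat_lit 532) (nat_lit 0) (XT.lf (nat_lit 0) (nat_lit 6236602445) (nat_lit 684) (nat_lit 18768358781) (nat_lit 76) (nat_lit 16828649920) (nat_lit 124)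 (nat_lit 5) (nat_lit 133) (nat_lit 5) (nat_lit 125) (nat_lit 5) (nat_lit 348) (nat_lit 327) (nat_lit 105)) (XT.nd (nat_lit 78) (nat_lit 532) (nat_lit 0) (XT.lf (nat_lit 0) (nat_lit 9117548974) (nat_lit 684) (nat_lit 963155644) (nat_lit 76) (nat_lit 32486266326) (nat_lit 124) (nat_lit 5) (nat_lit 133) (nat_lit 5) (nat_lit 125) (nat_lit 5) (nat_lit 349) (nat_lit 327) (nat_lit 104)) (XT.lf (nat_lit 0) (nat_lit 12306365205) (nat_lit 608) (nat_lit 25649141948) (nat_lit 76) (nat_lit 5360184749) (nat_lit 117) (nat_lit 5) (nat_lit 125) (nat_lit 5) (nat_lit 118) (nat_lit 5) (nat_lit 350) (nat_lit 327) (nat_lit 103))))) (XT.nd (nat_lit 234) (nat_lit 456) (nat_lit 0) (XT.nd (nat_lit 78) (nat_lit 532) (nat_lit 0) (XT.lf (nat_lit 0) (nat_lit 15699056449) (nat_lit 608) (nat_lit 7312952317) (nat_lit 76) (nat_lit 21071622907) (nat_lit 117) (nat_lit 5) (nat_lit 125) (nat_lit 5) (nat_lit 118) (nat_lit 5) (nat_lit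 351) (nat_lit 327) (nat_lit 102)) (XT.nd (nat_lit 78) (nat_lit 0) (nat_lit 0) (XT.lf (nat_lit 0) (nat_lit 11802313283) (nat_lit 532) (nat_lit 7503286872) (nat_lit 608) (nat_lit 25565650727) (nat_lit 110) (nat_lit 5) (nat_lit 117) (nat_lit 5) (nat_lit 118) (nat_lit 5) (nat_lit 352) (nat_lit 327) (nat_lit 101)) (XT.lf (nat_lit 0) (nat_lit 23174992121) (nat_lit 608) (nat_lit 14122841529) (nat_lit 76) (nat_lit 8380028758) (nat_lit 110) (nat_lit 5) (nat_lit 118) (nat_lit 5) (nat_lit 111) (nat_lit 5) (nat_lit 353) (nat_lit 327) (nat_lit 100)))) (XT.nd (nat_lit 78) (nat_lit 0) (nat_lit 0) (XT.lf (nat_lit 0) (nat_lit 5421839509) (nat_lit 456) (nat_lit 21863722495) (nat_lit 532) (nat_lit 19219360593) (nat_lit 104) (nat_lit 5) (nat_lit 110) (nat_lit 5) (nat_lit 111) (nat_lit 5) (nat_lit 354) (nat_lit 327) (nat_lit 99)) (XT.nd (nat_lit 78) (nat_lit 0) (nat_lit 0) (XT.lf (nat_lit 0) (nat_lit 25841070643)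 (nat_lit 456) (nat_lit 5819705266) (nat_lit 532) (nat_lit 15691781986) (nat_lit 104) (nat_lit 5) (nat_lit 110) (nat_lit 5) (nat_lit 111) (nat_lit 5) (nat_lit 355) (nat_lit 327) (nat_lit 98)) (XT.lf (nat_lit 0) (nat_lit 36268906613) (nat_lit 532) (nat_lit 1456950057) (nat_lit 76) (nat_lit 10496718788) (nat_lit 104) (nat_lit 5) (nat_lit 111) (nat_lit 5) (nat_lit 105) (nat_lit 5) (nat_lit 356) (nat_lit 327) (nat_lit 97)))))) (XT.nd (nat_lit 468) (nat_lit 380) (nat_lit 0) (XT.nd (nat_lit 234) (nat_lit 456) (nat_lit 0) (XT.nd (nat_lit 78) (nat_lit 456) (nat_lit 0) (XT.lf (nat_lit 0) (nat_lit 19521273122) (nat_lit 456) (nat_lit 21738067043) (nat_lit 532) (nat_lit 7852034546) (nat_lit 98) (nat_lit 5) (nat_lit 104) (nat_lit 5) (nat_lit 105) (nat_lit 5) (nat_lit 357) (nat_lit 327) (nat_lit 96)) (XT.nd (nat_lit 78) (nat_lit 456) (nat_lit 0) (XT.lf (nat_lit 0) (nat_lit 41157461755) (nat_lit 456) (nat_lit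 5255548293) (nat_lit 532) (nat_lit 3613425041) (nat_lit 98) (nat_lit 5) (nat_lit 104) (nat_lit 5) (nat_lit 105) (nat_lit 5) (nat_lit 358) (nat_lit 327) (nat_lit 95)) (XT.lf (nat_lit 0) (nat_lit 972656976) (nat_lit 456) (nat_lit 38365652233) (nat_lit 76) (nat_lit 11623373937) (nat_lit 92) (nat_lit 5) (nat_lit 98) (nat_lit 5) (nat_lit 93) (nat_lit 5) (nat_lit 359) (nat_lit 327) (nat_lit 94)))) (XT.nd (nat_lit 78) (nat_lit 456) (nat_lit 0) (XT.lf (nat_lit 0) (nat_lit 5765029270) (nat_lit 456) (nat_lit 17125470672) (nat_lit 76) (nat_lit 29029177989) (nat_lit 92) (nat_lit 5) (nat_lit 98) (nat_lit 5) (nat_lit 93) (nat_lit 5) (nat_lit 360) (nat_lit 327) (nat_lit 93)) (XT.nd (nat_lit 78) (nat_lit 0) (nat_lit 0) (XT.lf (nat_lit 0) (nat_lit 4845240140) (nat_lit 456) (nat_lit 5901394397) (nat_lit 532) (nat_lit 42158416696) (nat_lit 86) (nat_lit 5) (nat_lit 92) (nat_lit 5) (nat_lit 93) (nat_lit 5) (nat_lit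 361) (nat_lit 327) (nat_lit 92)) (XT.lf (nat_lit 0) (nat_lit 16162721033) (nat_lit 532) (nat_lit 26203109826) (nat_lit 76) (nat_lit 11545606340) (nat_lit 86) (nat_lit 5) (nat_lit 93) (nat_lit 5) (nat_lit 87) (nat_lit 5) (nat_lit 362) (nat_lit 327) (nat_lit 91))))) (XT.nd (nat_lit 37908) (nat_lit 0) (nat_lit 4484) (XT.nd (nat_lit 78) (nat_lit 380) (nat_lit 0) (XT.lf (nat_lit 0) (nat_lit 21798657660) (nat_lit 532) (nat_lit 3750347234) (nat_lit 76) (nat_lit 29397291205) (nat_lit 86) (nat_lit 5) (nat_lit 93) (nat_lit 5) (nat_lit 87) (nat_lit 5) (nat_lit 363) (nat_lit 327) (nat_lit 90)) (XT.nd (nat_lit 78) (nat_lit 0) (nat_lit 0) (XT.lf (nat_lit 0) (nat_lit 19760420387) (nat_lit 380) (nat_lit 8032170073) (nat_lit 456) (nat_lit 28213945078) (nat_lit 81) (nat_lit 5) (nat_lit 86) (nat_lit 5) (nat_lit 87) (nat_lit 5) (nat_lit 364) (nat_lit 327) (nat_lit 89)) (XT.lf (nat_lit 0) (nat_lit 34099797462) (nat_lit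 456) (nat_lit 13141849854) (nat_lit 76) (nat_lit 9852933404) (nat_lit 81) (nat_lit 5) (nat_lit 87) (nat_lit 5) (nat_lit 82) (nat_lit 5) (nat_lit 365) (nat_lit 327) (nat_lit 88)))) (XT.nd (nat_lit 78) (nat_lit 0) (nat_lit 0) (XT.lf (nat_lit 0) (nat_lit 6457125077) (nat_lit 1140) (nat_lit 4468001034) (nat_lit 1140) (nat_lit 4468001034) (nat_lit 140) (nat_lit 3) (nat_lit 155) (nat_lit 3) (nat_lit 155) (nat_lit 5) (nat_lit 328) (nat_lit 328) (nat_lit 124)) (XT.nd (nat_lit 78) (nat_lit 0) (nat_lit 76) (XT.lf (nat_lit 76) (nat_lit 3688802358) (nat_lit 0) (nat_lit 9516633518) (nat_lit 1140) (nat_lit 18039521254) (nat_lit 141) (nat_lit 5) (nat_lit 140) (nat_lit 3) (nat_lit 155) (nat_lit 5) (nat_lit 329) (nat_lit 328) (nat_lit 123)) (XT.lf (nat_lit 0) (nat_lit 13624700716) (nat_lit 1064) (nat_lit 14872077669) (nat_lit 1140) (nat_lit 3217068871) (nat_lit 141) (nat_lit 5) (nat_lit 155) (nat_lit 5) (nat_lit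 156) (nat_lit 5) (nat_lit 330) (nat_lit 328) (nat_lit 122))))))) (XT.nd (nat_lit 858) (nat_lit 2356) (nat_lit 0) (XT.nd (nat_lit 390) (nat_lit 0) (nat_lit 152) (XT.nd (nat_lit 156) (nat_lit 0) (nat_lit 76) (XT.nd (nat_lit 78) (nat_lit 0) (nat_lit 0) (XT.lf (nat_lit 0) (nat_lit 14148416806) (nat_lit 1064) (nat_lit 1903027725) (nat_lit 1140) (nat_lit 16142609678) (nat_lit 141) (nat_lit 5) (nat_lit 155) (nat_lit 5) (nat_lit 156) (nat_lit 5) (nat_lit 331) (nat_lit 328) (nat_lit 121)) (XT.lf (nat_lit 76) (nat_lit 11681760159) (nat_lit 0) (nat_lit 3116094125) (nat_lit 1140) (nat_lit 17887518925) (nat_lit 142) (nat_lit 5) (nat_lit 141) (nat_lit 5) (nat_lit 156) (nat_lit 5) (nat_lit 332) (nat_lit 328) (nat_lit 120))) (XT.nd (nat_lit 78) (nat_lit 0) (nat_lit 0) (XT.lf (nat_lit 0) (nat_lit 15582082053) (nat_lit 1064) (nat_lit 7577418759) (nat_lit 1140) (nat_lit 10028477710) (nat_lit 142) (nat_lit 5) (nat_lit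 156) (nat_lit 5) (nat_lit 157) (nat_lit 5) (nat_lit 333) (nat_lit 328) (nat_lit 119)) (XT.nd (nat_lit 78) (nat_lit 0) (nat_lit 76) (XT.lf (nat_lit 76) (nat_lit 6343170414) (nat_lit 0) (nat_lit 10136338798) (nat_lit 1140) (nat_lit 17223468391) (nat_lit 143) (nat_lit 5) (nat_lit 142) (nat_lit 5) (nat_lit 157) (nat_lit 5) (nat_lit 334) (nat_lit 328) (nat_lit 118)) (XT.lf (nat_lit 0) (nat_lit 17510542976) (nat_lit 1064) (nat_lit 13428067482) (nat_lit 1140) (nat_lit 3291621299) (nat_lit 143) (nat_lit 5) (nat_lit 157) (nat_lit 5) (nat_lit 158) (nat_lit 5) (nat_lit 335) (nat_lit 328) (nat_lit 117))))) (XT.nd (nat_lit 234) (nat_lit 0) (nat_lit 76) (XT.nd (nat_lit 78) (nat_lit 0) (nat_lit 0) (XT.lf (nat_lit 76) (nat_lit 836242777) (nat_lit 0) (nat_lit 17842627916) (nat_lit 1140) (nat_lit 16091247408) (nat_lit 144) (nat_lit 5) (nat_lit 143) (nat_lit 5) (nat_lit 158) (nat_lit 5) (nat_lit 336) (nat_lit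 328) (nat_lit 116)) (XT.nd (nat_lit 78) (nat_lit 0) (nat_lit 76) (XT.lf (nat_lit 76) (nat_lit 15802417746) (nat_lit 0) (nat_lit 4213438850) (nat_lit 1140) (nat_lit 15306341482) (nat_lit 144) (nat_lit 5) (nat_lit 143) (nat_lit 5) (nat_lit 158) (nat_lit 5) (nat_lit 337) (nat_lit 328) (nat_lit 115)) (XT.lf (nat_lit 0) (nat_lit 21485467695) (nat_lit 1064) (nat_lit 4769060223) (nat_lit 1140) (nat_lit 9633542207) (nat_lit 144) (nat_lit 5) (nat_lit 158) (nat_lit 5) (nat_lit 159) (nat_lit 5) (nat_lit 338) (nat_lit 328) (nat_lit 114)))) (XT.nd (nat_lit 78) (nat_lit 0) (nat_lit 76) (XT.lf (nat_lit 76) (nat_lit 10587751560) (nat_lit 0) (nat_lit 12553040093) (nat_lit 1140) (nat_lit 13325882935) (nat_lit 145) (nat_lit 5) (nat_lit 144) (nat_lit 5) (nat_lit 159) (nat_lit 5) (nat_lit 339) (nat_lit 328) (nat_lit 113)) (XT.nd (nat_lit 78) (nat_lit 0) (nat_lit 0) (XT.lf (nat_lit 0) (nat_lit 24907579358) (nat_lit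 1064) (nat_lit 10575000914) (nat_lit 1140) (nat_lit 1578207636) (nat_lit 145) (nat_lit 5) (nat_lit 159) (nat_lit 5) (nat_lit 160) (nat_lit 5) (nat_lit 340) (nat_lit 328) (nat_lit 112)) (XT.lf (nat_lit 76) (nat_lit 5163173722) (nat_lit 0) (nat_lit 21736347404) (nat_lit 1140) (nat_lit 10768043692) (nat_lit 146) (nat_lit 5) (nat_lit 145) (nat_lit 5) (nat_lit 160) (nat_lit 5) (nat_lit 341) (nat_lit 328) (nat_lit 111)))))) (XT.nd (nat_lit 468) (nat_lit 1672) (nat_lit 0) (XT.nd (nat_lit 234) (nat_lit 988) (nat_lit 0) (XT.nd (nat_lit 78) (nat_lit 0) (nat_lit 76) (XT.lf (nat_lit 76) (nat_lit 21588954055) (nat_lit 0) (nat_lit 7467324047) (nat_lit 1140) (nat_lit 9233119791) (nat_lit 146) (nat_lit 5) (nat_lit 145) (nat_lit 5) (nat_lit 160) (nat_lit 5) (nat_lit 342) (nat_lit 328) (nat_lit 110)) (XT.nd (nat_lit 78) (nat_lit 0) (nat_lit 0) (XT.lf (nat_lit 0) (nat_lit 31345559179) (nat_lit 1064) (nat_lit 493212151)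 (nat_lit 1140) (nat_lit 7089084421) (nat_lit 146) (nat_lit 5) (nat_lit 160) (nat_lit 5) (nat_lit 161) (nat_lit 5) (nat_lit 343) (nat_lit 328) (nat_lit 109)) (XT.lf (nat_lit 76) (nat_lit 16445923718) (nat_lit 0) (nat_lit 17487990374) (nat_lit 1140) (nat_lit 5644645696) (nat_lit 147) (nat_lit 5) (nat_lit 146) (nat_lit 5) (nat_lit 161) (nat_lit 5) (nat_lit 344) (nat_lit 328) (nat_lit 108)))) (XT.nd (nat_lit 78) (nat_lit 1064) (nat_lit 0) (XT.lf (nat_lit 76) (nat_lit 33902058682) (nat_lit 0) (nat_lit 2701249695) (nat_lit 1140) (nat_lit 3645379086) (nat_lit 147) (nat_lit 5) (nat_lit 146) (nat_lit 5) (nat_lit 161) (nat_lit 5) (nat_lit 345) (nat_lit 328) (nat_lit 107)) (XT.nd (nat_lit 78) (nat_lit 76) (nat_lit 0) (XT.lf (nat_lit 0) (nat_lit 11036583729) (nat_lit 1064) (nat_lit 28541185934) (nat_lit 1140) (nat_lit 1354403806) (nat_lit 133) (nat_lit 5) (nat_lit 147) (nat_lit 5) (nat_lit 148) (nat_lit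 5) (nat_lit 346) (nat_lit 328) (nat_lit 106)) (XT.lf (nat_lit 0) (nat_lit 1075622986) (nat_lit 1140) (nat_lit 12601214951) (nat_lit 76) (nat_lit 27956341857) (nat_lit 132) (nat_lit 5) (nat_lit 147) (nat_lit 5) (nat_lit 133) (nat_lit 5) (nat_lit 347) (nat_lit 328) (nat_lit 105))))) (XT.nd (nat_lit 234) (nat_lit 1064) (nat_lit 0) (XT.nd (nat_lit 78) (nat_lit 0) (nat_lit 0) (XT.lf (nat_lit 0) (nat_lit 3617138847) (nat_lit 684) (nat_lit 37068941069) (nat_lit 76) (nat_lit 1666763494) (nat_lit 124) (nat_lit 5) (nat_lit 133) (nat_lit 5) (nat_lit 125) (nat_lit 5) (nat_lit 348) (nat_lit 328) (nat_lit 104)) (XT.nd (nat_lit 78) (nat_lit 0) (nat_lit 0) (XT.lf (nat_lit 0) (nat_lit 6497370344) (nat_lit 684) (nat_lit 19264388433) (nat_lit 76) (nat_lit 17324467658) (nat_lit 124) (nat_lit 5) (nat_lit 133) (nat_lit 5) (nat_lit 125) (nat_lit 5) (nat_lit 349) (nat_lit 328) (nat_lit 103)) (XT.lf (nat_lit 0) (nat_lit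 9462599546) (nat_lit 684) (nat_lit 926981273) (nat_lit 76) (nat_lit 33452075908) (nat_lit 124) (nat_lit 5) (nat_lit 133) (nat_lit 5) (nat_lit 125) (nat_lit 5) (nat_lit 350) (nat_lit 328) (nat_lit 102)))) (XT.nd (nat_lit 78) (nat_lit 532) (nat_lit 0) (XT.lf (nat_lit 0) (nat_lit 12745562278) (nat_lit 608) (nat_lit 26351856732) (nat_lit 76) (nat_lit 5515471017) (nat_lit 117) (nat_lit 5) (nat_lit 125) (nat_lit 5) (nat_lit 118) (nat_lit 5) (nat_lit 351) (nat_lit 328) (nat_lit 101)) (XT.nd (nat_lit 78) (nat_lit 532) (nat_lit 0) (XT.lf (nat_lit 0) (nat_lit 16237995247) (nat_lit 608) (nat_lit 7467525863) (nat_lit 76) (nat_lit 21698413075) (nat_lit 117) (nat_lit 5) (nat_lit 125) (nat_lit 5) (nat_lit 118) (nat_lit 5) (nat_lit 352) (nat_lit 328) (nat_lit 100)) (XT.lf (nat_lit 0) (nat_lit 12220562263) (nat_lit 532) (nat_lit 7730810309) (nat_lit 608) (nat_lit 26263855154) (nat_lit 110) (nat_lit 5) (nat_lit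 117) (nat_lit 5) (nat_lit 118) (nat_lit 5) (nat_lit 353) (nat_lit 328) (nat_lit 99))))))))
noncomputable def xc248 : XT := (XT.nd (nat_lit 39624) (nat_lit 0) (nat_lit 0) (XT.nd (nat_lit 38766) (nat_lit 0) (nat_lit 4104) (XT.nd (nat_lit 390) (nat_lit 912) (nat_lit 0) (XT.nd (nat_lit 156) (nat_lit 456) (nat_lit 0) (XT.nd (nat_lit 78) (nat_lit 456) (nat_lit 0) (XT.lf (nat_lit 0) (nat_lit 23934883733) (nat_lit 608) (nat_lit 14482096122) (nat_lit 76) (nat_lit 8629121355) (nat_lit 110) (nat_lit 5) (nat_lit 118) (nat_lit 5) (nat_lit 111) (nat_lit 5) (nat_lit 354) (nat_lit 328) (nat_lit 98)) (XT.lf (nat_lit 0) (nat_lit 5648293674) (nat_lit 456) (nat_lit 22519207542) (nat_lit 532) (nat_lit 19730514671) (nat_lit 104) (nat_lit 5) (nat_lit 110) (nat_lit 5) (nat_lit 111) (nat_lit 5) (nat_lit 355) (nat_lit 328) (nat_lit 97))) (XT.nd (nat_lit 78) (nat_lit 456) (nat_lit 0) (XT.lf (nat_lit 0) (nat_lit 26678243520)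 (nat_lit 456) (nat_lit 5993882221) (nat_lit 532) (nat_lit 16099014338) (nat_lit 104) (nat_lit 5) (nat_lit 110) (nat_lit 5) (nat_lit 111) (nat_lit 5) (nat_lit 356) (nat_lit 328) (nat_lit 96)) (XT.nd (nat_lit 78) (nat_lit 456) (nat_lit 0) (XT.lf (nat_lit 0) (nat_lit 37416712197) (nat_lit 532) (nat_lit 1438589308) (nat_lit 76) (nat_lit 10812014643) (nat_lit 104) (nat_lit 5) (nat_lit 111) (nat_lit 5) (nat_lit 105) (nat_lit 5) (nat_lit 357) (nat_lit 328) (nat_lit 95)) (XT.lf (nat_lit 0) (nat_lit 20168372043) (nat_lit 456) (nat_lit 22387337557) (nat_lit 532) (nat_lit 8027108460) (nat_lit 98) (nat_lit 5) (nat_lit 104) (nat_lit 5) (nat_lit 105) (nat_lit 5) (nat_lit 358) (nat_lit 328) (nat_lit 94))))) (XT.nd (nat_lit 234) (nat_lit 456) (nat_lit 0) (XT.nd (nat_lit 78) (nat_lit 456) (nat_lit 0) (XT.lf (nat_lit 0) (nat_lit 42451856217) (nat_lit 456) (nat_lit 5410426880) (nat_lit 532) (nat_lit 3663102430)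 (nat_lit 98) (nat_lit 5) (nat_lit 104) (nat_lit 5) (nat_lit 105) (nat_lit 5) (nat_lit 359) (nat_lit 328) (nat_lit 93)) (XT.nd (nat_lit 78) (nat_lit 0) (nat_lit 0) (XT.lf (nat_lit 0) (nat_lit 1058356354) (nat_lit 456) (nat_lit 39454485012) (nat_lit 76) (nat_lit 11975868365) (nat_lit 92) (nat_lit 5) (nat_lit 98) (nat_lit 5) (nat_lit 93) (nat_lit 5) (nat_lit 360) (nat_lit 328) (nat_lit 92)) (XT.lf (nat_lit 0) (nat_lit 5992853613) (nat_lit 456) (nat_lit 17578907814) (nat_lit 76) (nat_lit 29903736057) (nat_lit 92) (nat_lit 5) (nat_lit 98) (nat_lit 5) (nat_lit 93) (nat_lit 5) (nat_lit 361) (nat_lit 328) (nat_lit 91)))) (XT.nd (nat_lit 78) (nat_lit 0) (nat_lit 0) (XT.lf (nat_lit 0) (nat_lit 5050332882) (nat_lit 456) (nat_lit 6072550116) (nat_lit 532) (nat_lit 43367583339) (nat_lit 86) (nat_lit 5) (nat_lit 92) (nat_lit 5) (nat_lit 93) (nat_lit 5) (nat_lit 362) (nat_lit 328) (nat_lit 90)) (XT.nd (nat_lit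 37986) (nat_lit 0) (nat_lit 4104) (XT.lf (nat_lit 0) (nat_lit 16699938591) (nat_lit 532) (nat_lit 26929576527) (nat_lit 76) (nat_lit 11897577690) (nat_lit 86) (nat_lit 5) (nat_lit 93) (nat_lit 5) (nat_lit 87) (nat_lit 5) (nat_lit 363) (nat_lit 328) (nat_lit 89)) (XT.lf (nat_lit 0) (nat_lit 6712255667) (nat_lit 1140) (nat_lit 4570328787) (nat_lit 1140) (nat_lit 4570328787) (nat_lit 140) (nat_lit 3) (nat_lit 155) (nat_lit 3) (nat_lit 155) (nat_lit 5) (nat_lit 329) (nat_lit 329) (nat_lit 122)))))) (XT.nd (nat_lit 390) (nat_lit 0) (nat_lit 152) (XT.nd (nat_lit 156) (nat_lit 0) (nat_lit 76) (XT.nd (nat_lit 78) (nat_lit 0) (nat_lit 76) (XT.lf (nat_lit 76) (nat_lit 3862269176) (nat_lit 0) (nat_lit 9859189470) (nat_lit 1140) (nat_lit 18456930603) (nat_lit 141) (nat_lit 5) (nat_lit 140) (nat_lit 3) (nat_lit 155) (nat_lit 5) (nat_lit 330) (nat_lit 329) (nat_lit 121)) (XT.lf (nat_lit 0) (nat_lit 14149277881)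 (nat_lit 1064) (nat_lit 15252931447) (nat_lit 1140) (nat_lit 3259266802) (nat_lit 141) (nat_lit 5) (nat_lit 155) (nat_lit 5) (nat_lit 156) (nat_lit 5) (nat_lit 331) (nat_lit 329) (nat_lit 120))) (XT.nd (nat_lit 78) (nat_lit 0) (nat_lit 0) (XT.lf (nat_lit 0) (nat_lit 14685331586) (nat_lit 1064) (nat_lit 1896712195) (nat_lit 1140) (nat_lit 16574155797) (nat_lit 141) (nat_lit 5) (nat_lit 155) (nat_lit 5) (nat_lit 156) (nat_lit 5) (nat_lit 332) (nat_lit 329) (nat_lit 119)) (XT.nd (nat_lit 78) (nat_lit 0) (nat_lit 76) (XT.lf (nat_lit 76) (nat_lit 12094997695) (nat_lit 0) (nat_lit 3256582418) (nat_lit 1140) (nat_lit 18310767005) (nat_lit 142) (nat_lit 5) (nat_lit 141) (nat_lit 5) (nat_lit 156) (nat_lit 5) (nat_lit 333) (nat_lit 329) (nat_lit 118)) (XT.lf (nat_lit 0) (nat_lit 16155698257) (nat_lit 1064) (nat_lit 7739863784) (nat_lit 1140) (nat_lit 10284586193) (nat_lit 142) (nat_lit 5) (nat_lit 156)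 (nat_lit 5) (nat_lit 157) (nat_lit 5) (nat_lit 334) (nat_lit 329) (nat_lit 117))))) (XT.nd (nat_lit 234) (nat_lit 0) (nat_lit 76) (XT.nd (nat_lit 78) (nat_lit 0) (nat_lit 76) (XT.lf (nat_lit 76) (nat_lit 6597707010) (nat_lit 0) (nat_lit 10479866893) (nat_lit 1140) (nat_lit 17633105917) (nat_lit 143) (nat_lit 5) (nat_lit 142) (nat_lit 5) (nat_lit 157) (nat_lit 5) (nat_lit 335) (nat_lit 329) (nat_lit 116)) (XT.nd (nat_lit 78) (nat_lit 0) (nat_lit 0) (XT.lf (nat_lit 0) (nat_lit 18136150831) (nat_lit 1064) (nat_lit 13764882618) (nat_lit 1140) (nat_lit 3352827846) (nat_lit 143) (nat_lit 5) (nat_lit 157) (nat_lit 5) (nat_lit 158) (nat_lit 5) (nat_lit 336) (nat_lit 329) (nat_lit 115)) (XT.lf (nat_lit 76) (nat_lit 926709628) (nat_lit 0) (nat_lit 18410526107) (nat_lit 1140) (nat_lit 16472785098) (nat_lit 144) (nat_lit 5) (nat_lit 143) (nat_lit 5) (nat_lit 158) (nat_lit 5) (nat_lit 337) (nat_lit 329)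 (nat_lit 114)))) (XT.nd (nat_lit 78) (nat_lit 0) (nat_lit 76) (XT.lf (nat_lit 76) (nat_lit 16339965586) (nat_lit 0) (nat_lit 4371511291) (nat_lit 1140) (nat_lit 15667279560) (nat_lit 144) (nat_lit 5) (nat_lit 143) (nat_lit 5) (nat_lit 158) (nat_lit 5) (nat_lit 338) (nat_lit 329) (nat_lit 113)) (XT.nd (nat_lit 78) (nat_lit 0) (nat_lit 0) (XT.lf (nat_lit 0) (nat_lit 22222109550) (nat_lit 1064) (nat_lit 4847192888) (nat_lit 1140) (nat_lit 9892401586) (nat_lit 144) (nat_lit 5) (nat_lit 158) (nat_lit 5) (nat_lit 159) (nat_lit 5) (nat_lit 339) (nat_lit 329) (nat_lit 112)) (XT.lf (nat_lit 76) (nat_lit 10969686590) (nat_lit 0) (nat_lit 12955342873) (nat_lit 1140) (nat_lit 13632706232) (nat_lit 145) (nat_lit 5) (nat_lit 144) (nat_lit 5) (nat_lit 159) (nat_lit 5) (nat_lit 340) (nat_lit 329) (nat_lit 111))))))) (XT.nd (nat_lit 858) (nat_lit 2888) (nat_lit 0) (XT.nd (nat_lit 390) (nat_lit 1596) (nat_lit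 0) (XT.nd (nat_lit 156) (nat_lit 0) (nat_lit 0) (XT.nd (nat_lit 78) (nat_lit 0) (nat_lit 0) (XT.lf (nat_lit 0) (nat_lit 25741959074) (nat_lit 1064) (nat_lit 10826727865) (nat_lit 1140) (nat_lit 1601078281) (nat_lit 145) (nat_lit 5) (nat_lit 159) (nat_lit 5) (nat_lit 160) (nat_lit 5) (nat_lit 341) (nat_lit 329) (nat_lit 110)) (XT.lf (nat_lit 76) (nat_lit 5382949627) (nat_lit 0) (nat_lit 22408794723) (nat_lit 1140) (nat_lit 11003065279) (nat_lit 146) (nat_lit 5) (nat_lit 145) (nat_lit 5) (nat_lit 160) (nat_lit 5) (nat_lit 342) (nat_lit 329) (nat_lit 109))) (XT.nd (nat_lit 78) (nat_lit 0) (nat_lit 76) (XT.lf (nat_lit 76) (nat_lit 22299613641) (nat_lit 0) (nat_lit 7711107746) (nat_lit 1140) (nat_lit 9424657342) (nat_lit 146) (nat_lit 5) (nat_lit 145) (nat_lit 5) (nat_lit 160) (nat_lit 5) (nat_lit 343) (nat_lit 329) (nat_lit 108)) (XT.nd (nat_lit 78) (nat_lit 0) (nat_lit 0) (XT.lf (nat_lit 0) (nat_lit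 32366086109) (nat_lit 1064) (nat_lit 444045362) (nat_lit 1140) (nat_lit 7282943059) (nat_lit 146) (nat_lit 5) (nat_lit 160) (nat_lit 5) (nat_lit 161) (nat_lit 5) (nat_lit 344) (nat_lit 329) (nat_lit 107)) (XT.lf (nat_lit 76) (nat_lit 17002637494) (nat_lit 0) (nat_lit 18027728238) (nat_lit 1140) (nat_lit 5732991911) (nat_lit 147) (nat_lit 5) (nat_lit 146) (nat_lit 5) (nat_lit 161) (nat_lit 5) (nat_lit 345) (nat_lit 329) (nat_lit 106))))) (XT.nd (nat_lit 234) (nat_lit 608) (nat_lit 0) (XT.nd (nat_lit 78) (nat_lit 1064) (nat_lit 0) (XT.lf (nat_lit 76) (nat_lit 34980611767) (nat_lit 0) (nat_lit 2796945587) (nat_lit 1140) (nat_lit 3676106326) (nat_lit 147) (nat_lit 5) (nat_lit 146) (nat_lit 5) (nat_lit 161) (nat_lit 5) (nat_lit 346) (nat_lit 329) (nat_lit 105)) (XT.nd (nat_lit 78) (nat_lit 76) (nat_lit 0) (XT.lf (nat_lit 0) (nat_lit 11431169283) (nat_lit 1064) (nat_lit 29408338726) (nat_lit 1140)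 (nat_lit 1318204414) (nat_lit 133) (nat_lit 5) (nat_lit 147) (nat_lit 5) (nat_lit 148) (nat_lit 5) (nat_lit 347) (nat_lit 329) (nat_lit 104)) (XT.lf (nat_lit 0) (nat_lit 1181029780) (nat_lit 1140) (nat_lit 12915973982) (nat_lit 76) (nat_lit 28782794333) (nat_lit 132) (nat_lit 5) (nat_lit 147) (nat_lit 5) (nat_lit 133) (nat_lit 5) (nat_lit 348) (nat_lit 329) (nat_lit 103)))) (XT.nd (nat_lit 78) (nat_lit 0) (nat_lit 0) (XT.lf (nat_lit 0) (nat_lit 3797177116) (nat_lit 684) (nat_lit 38115940261) (nat_lit 76) (nat_lit 1707987992) (nat_lit 124) (nat_lit 5) (nat_lit 133) (nat_lit 5) (nat_lit 125) (nat_lit 5) (nat_lit 349) (nat_lit 329) (nat_lit 102)) (XT.nd (nat_lit 78) (nat_lit 0) (nat_lit 0) (XT.lf (nat_lit 0) (nat_lit 6761732331) (nat_lit 684) (nat_lit 19779146261) (nat_lit 76) (nat_lit 17835678962) (nat_lit 124) (nat_lit 5) (nat_lit 133) (nat_lit 5) (nat_lit 125) (nat_lit 5) (nat_lit 350) (nat_lit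 329) (nat_lit 101)) (XT.lf (nat_lit 0) (nat_lit 9813895860) (nat_lit 684) (nat_lit 893456900) (nat_lit 76) (nat_lit 34447363695) (nat_lit 124) (nat_lit 5) (nat_lit 133) (nat_lit 5) (nat_lit 125) (nat_lit 5) (nat_lit 351) (nat_lit 329) (nat_lit 100)))))) (XT.nd (nat_lit 468) (nat_lit 1368) (nat_lit 0) (XT.nd (nat_lit 234) (nat_lit 456) (nat_lit 0) (XT.nd (nat_lit 78) (nat_lit 532) (nat_lit 0) (XT.lf (nat_lit 0) (nat_lit 13193916627) (nat_lit 608) (nat_lit 27079485227) (nat_lit 76) (nat_lit 5675732701) (nat_lit 117) (nat_lit 5) (nat_lit 125) (nat_lit 5) (nat_lit 118) (nat_lit 5) (nat_lit 352) (nat_lit 329) (nat_lit 99)) (XT.nd (nat_lit 78) (nat_lit 532) (nat_lit 0) (XT.lf (nat_lit 0) (nat_lit 16789200619) (nat_lit 608) (nat_lit 7630457263) (nat_lit 76) (nat_lit 22344314548) (nat_lit 117) (nat_lit 5) (nat_lit 125) (nat_lit 5) (nat_lit 118) (nat_lit 5) (nat_lit 353) (nat_lit 329) (nat_lit 98)) (XT.lf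 (nat_lit 0) (nat_lit 12647674543) (nat_lit 532) (nat_lit 7965020255) (nat_lit 608) (nat_lit 26986953112) (nat_lit 110) (nat_lit 5) (nat_lit 117) (nat_lit 5) (nat_lit 118) (nat_lit 5) (nat_lit 354) (nat_lit 329) (nat_lit 97)))) (XT.nd (nat_lit 78) (nat_lit 456) (nat_lit 0) (XT.lf (nat_lit 0) (nat_lit 24713861388) (nat_lit 608) (nat_lit 14855826936) (nat_lit 76) (nat_lit 8885819233) (nat_lit 110) (nat_lit 5) (nat_lit 118) (nat_lit 5) (nat_lit 111) (nat_lit 5) (nat_lit 355) (nat_lit 329) (nat_lit 96)) (XT.nd (nat_lit 78) (nat_lit 0) (nat_lit 0) (XT.lf (nat_lit 0) (nat_lit 5877879142) (nat_lit 456) (nat_lit 23194381630) (nat_lit 532) (nat_lit 20260759133) (nat_lit 104) (nat_lit 5) (nat_lit 110) (nat_lit 5) (nat_lit 111) (nat_lit 5) (nat_lit 356) (nat_lit 329) (nat_lit 95)) (XT.lf (nat_lit 0) (nat_lit 27536975930) (nat_lit 456) (nat_lit 6173308263) (nat_lit 532) (nat_lit 16522110033) (nat_lit 104)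 (nat_lit 5) (nat_lit 110) (nat_lit 5) (nat_lit 111) (nat_lit 5) (nat_lit 357) (nat_lit 329) (nat_lit 94))))) (XT.nd (nat_lit 234) (nat_lit 912) (nat_lit 0) (XT.nd (nat_lit 78) (nat_lit 456) (nat_lit 0) (XT.lf (nat_lit 0) (nat_lit 38595522720) (nat_lit 532) (nat_lit 1423240766) (nat_lit 76) (nat_lit 11136746739) (nat_lit 104) (nat_lit 5) (nat_lit 111) (nat_lit 5) (nat_lit 105) (nat_lit 5) (nat_lit 358) (nat_lit 329) (nat_lit 93)) (XT.nd (nat_lit 78) (nat_lit 0) (nat_lit 0) (XT.lf (nat_lit 0) (nat_lit 20831355835) (nat_lit 456) (nat_lit 23056251021) (nat_lit 532) (nat_lit 8210906799) (nat_lit 98) (nat_lit 5) (nat_lit 104) (nat_lit 5) (nat_lit 105) (nat_lit 5) (nat_lit 359) (nat_lit 329) (nat_lit 92)) (XT.lf (nat_lit 0) (nat_lit 43781657176) (nat_lit 456) (nat_lit 5570111859) (nat_lit 532) (nat_lit 3717641216) (nat_lit 98) (nat_lit 5) (nat_lit 104) (nat_lit 5) (nat_lit 105) (nat_lit 5) (nat_lit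 360) (nat_lit 329) (nat_lit 91)))) (XT.nd (nat_lit 78) (nat_lit 456) (nat_lit 0) (XT.lf (nat_lit 0) (nat_lit 1143382254) (nat_lit 456) (nat_lit 40579549681) (nat_lit 76) (nat_lit 12338719881) (nat_lit 92) (nat_lit 5) (nat_lit 98) (nat_lit 5) (nat_lit 93) (nat_lit 5) (nat_lit 361) (nat_lit 329) (nat_lit 90)) (XT.nd (nat_lit 156) (nat_lit 456) (nat_lit 0) (XT.lf (nat_lit 0) (nat_lit 6224362726) (nat_lit 456) (nat_lit 18049411086) (nat_lit 76) (nat_lit 30804319464) (nat_lit 92) (nat_lit 5) (nat_lit 98) (nat_lit 5) (nat_lit 93) (nat_lit 5) (nat_lit 362) (nat_lit 329) (nat_lit 89)) (XT.lf (nat_lit 0) (nat_lit 17250268379) (nat_lit 532) (nat_lit 27681260041) (nat_lit 76) (nat_lit 12259786536) (nat_lit 86) (nat_lit 5) (nat_lit 93) (nat_lit 5) (nat_lit 87) (nat_lit 5) (nat_lit 364) (nat_lit 329) (nat_lit 87))))))))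
noncomputable def xc249 : XT := (XT.nd (nat_lit 1716) (nat_lit 1976) (nat_lit 0) (XT.nd (nat_lit 858) (nat_lit 1216) (nat_lit 0) (XT.nd (nat_lit 390) (nat_lit 0) (nat_lit 152) (XT.nd (nat_lit 156) (nat_lit 0) (nat_lit 76) (XT.nd (nat_lit 78) (nat_lit 0) (nat_lit 0) (XT.lf (nat_lit 0) (nat_lit 6971514597) (nat_lit 1140) (nat_lit 4677546786) (nat_lit 1140) (nat_lit 4677546786) (nat_lit 140) (nat_lit 3) (nat_lit 155) (nat_lit 3) (nat_lit 155) (nat_lit 5) (nat_lit 330) (nat_lit 330) (nat_lit 120)) (XT.lf (nat_lit 76) (nat_lit 4037334865) (nat_lit 0) (nat_lit 10208746798) (nat_lit 1140) (nat_lit 18893967497) (nat_lit 141) (nat_lit 5) (nat_lit 140) (nat_lit 3) (nat_lit 155) (nat_lit 5) (nat_lit 331) (nat_lit 330) (nat_lit 119))) (XT.nd (nat_lit 78) (nat_lit 0) (nat_lit 0) (XT.lf (nat_lit 0) (nat_lit 14682942892) (nat_lit 1064) (nat_lit 15648959816) (nat_lit 1140) (nat_lit 3305848524) (nat_lit 141)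 (nat_lit 5) (nat_lit 155) (nat_lit 5) (nat_lit 156) (nat_lit 5) (nat_lit 332) (nat_lit 330) (nat_lit 118)) (XT.nd (nat_lit 78) (nat_lit 0) (nat_lit 0) (XT.lf (nat_lit 0) (nat_lit 15231898014) (nat_lit 1064) (nat_lit 1893846983) (nat_lit 1140) (nat_lit 17021675343) (nat_lit 141) (nat_lit 5) (nat_lit 155) (nat_lit 5) (nat_lit 156) (nat_lit 5) (nat_lit 333) (nat_lit 330) (nat_lit 117)) (XT.lf (nat_lit 76) (nat_lit 12517028256) (nat_lit 0) (nat_lit 3398587054) (nat_lit 1140) (nat_lit 18753220859) (nat_lit 142) (nat_lit 5) (nat_lit 141) (nat_lit 5) (nat_lit 156) (nat_lit 5) (nat_lit 334) (nat_lit 330) (nat_lit 116))))) (XT.nd (nat_lit 234) (nat_lit 0) (nat_lit 76) (XT.nd (nat_lit 78) (nat_lit 0) (nat_lit 0) (XT.lf (nat_lit 0) (nat_lit 16740429288) (nat_lit 1064) (nat_lit 7910906396) (nat_lit 1140) (nat_lit 10550946526) (nat_lit 142) (nat_lit 5) (nat_lit 156) (nat_lit 5) (nat_lit 157) (nat_lit 5)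 (nat_lit 335) (nat_lit 330) (nat_lit 115)) (XT.nd (nat_lit 78) (nat_lit 0) (nat_lit 76) (XT.lf (nat_lit 76) (nat_lit 6856191979) (nat_lit 0) (nat_lit 10831436932) (nat_lit 1140) (nat_lit 18061178625) (nat_lit 143) (nat_lit 5) (nat_lit 142) (nat_lit 5) (nat_lit 157) (nat_lit 5) (nat_lit 336) (nat_lit 330) (nat_lit 114)) (XT.lf (nat_lit 0) (nat_lit 18774769776) (nat_lit 1064) (nat_lit 14115592420) (nat_lit 1140) (nat_lit 3418025659) (nat_lit 143) (nat_lit 5) (nat_lit 157) (nat_lit 5) (nat_lit 158) (nat_lit 5) (nat_lit 337) (nat_lit 330) (nat_lit 113)))) (XT.nd (nat_lit 78) (nat_lit 0) (nat_lit 0) (XT.lf (nat_lit 76) (nat_lit 1016137429) (nat_lit 0) (nat_lit 18993588760) (nat_lit 1140) (nat_lit 16871578198) (nat_lit 144) (nat_lit 5) (nat_lit 143) (nat_lit 5) (nat_lit 158) (nat_lit 5) (nat_lit 338) (nat_lit 330) (nat_lit 112)) (XT.nd (nat_lit 78) (nat_lit 0) (nat_lit 76) (XT.lf (nat_lit 76) (nat_lit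 16889996119) (nat_lit 0) (nat_lit 4532507959) (nat_lit 1140) (nat_lit 16044685857) (nat_lit 144) (nat_lit 5) (nat_lit 143) (nat_lit 5) (nat_lit 158) (nat_lit 5) (nat_lit 339) (nat_lit 330) (nat_lit 111)) (XT.lf (nat_lit 0) (nat_lit 22975565017) (nat_lit 1064) (nat_lit 4931397306) (nat_lit 1140) (nat_lit 10160757301) (nat_lit 144) (nat_lit 5) (nat_lit 158) (nat_lit 5) (nat_lit 159) (nat_lit 5) (nat_lit 340) (nat_lit 330) (nat_lit 110)))))) (XT.nd (nat_lit 390) (nat_lit 1520) (nat_lit 0) (XT.nd (nat_lit 156) (nat_lit 0) (nat_lit 76) (XT.nd (nat_lit 78) (nat_lit 0) (nat_lit 76) (XT.lf (nat_lit 76) (nat_lit 11359388446) (nat_lit 0) (nat_lit 13368238787) (nat_lit 1140) (nat_lit 13954070121) (nat_lit 145) (nat_lit 5) (nat_lit 144) (nat_lit 5) (nat_lit 159) (nat_lit 5) (nat_lit 341) (nat_lit 330) (nat_lit 109)) (XT.lf (nat_lit 0) (nat_lit 26596367280) (nat_lit 1064) (nat_lit 11089767916) (nat_lit 1140)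 (nat_lit 1626040044) (nat_lit 145) (nat_lit 5) (nat_lit 159) (nat_lit 5) (nat_lit 160) (nat_lit 5) (nat_lit 342) (nat_lit 330) (nat_lit 108))) (XT.nd (nat_lit 78) (nat_lit 0) (nat_lit 0) (XT.lf (nat_lit 76) (nat_lit 5605594393) (nat_lit 0) (nat_lit 23100246892) (nat_lit 1140) (nat_lit 11250190206) (nat_lit 146) (nat_lit 5) (nat_lit 145) (nat_lit 5) (nat_lit 160) (nat_lit 5) (nat_lit 343) (nat_lit 330) (nat_lit 107)) (XT.nd (nat_lit 78) (nat_lit 0) (nat_lit 76) (XT.lf (nat_lit 76) (nat_lit 23027977076) (nat_lit 0) (nat_lit 7961070423) (nat_lit 1140) (nat_lit 9626846546) (nat_lit 146) (nat_lit 5) (nat_lit 145) (nat_lit 5) (nat_lit 160) (nat_lit 5) (nat_lit 344) (nat_lit 330) (nat_lit 106)) (XT.lf (nat_lit 0) (nat_lit 33412627325) (nat_lit 1064) (nat_lit 397075315) (nat_lit 1140) (nat_lit 7483697451) (nat_lit 146) (nat_lit 5) (nat_lit 160) (nat_lit 5) (nat_lit 161) (nat_lit 5) (nat_lit 345) (nat_lit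 330) (nat_lit 105))))) (XT.nd (nat_lit 234) (nat_lit 684) (nat_lit 0) (XT.nd (nat_lit 78) (nat_lit 988) (nat_lit 0) (XT.lf (nat_lit 76) (nat_lit 17572416934) (nat_lit 0) (nat_lit 18582791542) (nat_lit 1140) (nat_lit 5828637851) (nat_lit 147) (nat_lit 5) (nat_lit 146) (nat_lit 5) (nat_lit 161) (nat_lit 5) (nat_lit 346) (nat_lit 330) (nat_lit 104)) (XT.nd (nat_lit 78) (nat_lit 988) (nat_lit 0) (XT.lf (nat_lit 76) (nat_lit 36087991591) (nat_lit 0) (nat_lit 2894670903) (nat_lit 1140) (nat_lit 3712269305) (nat_lit 147) (nat_lit 5) (nat_lit 146) (nat_lit 5) (nat_lit 161) (nat_lit 5) (nat_lit 347) (nat_lit 330) (nat_lit 103)) (XT.lf (nat_lit 0) (nat_lit 11833947931) (nat_lit 1064) (nat_lit 30300879410) (nat_lit 1140) (nat_lit 1285329482) (nat_lit 133) (nat_lit 5) (nat_lit 147) (nat_lit 5) (nat_lit 148) (nat_lit 5) (nat_lit 348) (nat_lit 330) (nat_lit 102)))) (XT.nd (nat_lit 78) (nat_lit 608) (nat_lit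 0) (XT.lf (nat_lit 0) (nat_lit 1285400351) (nat_lit 1140) (nat_lit 13243808166) (nat_lit 76) (nat_lit 29634742882) (nat_lit 132) (nat_lit 5) (nat_lit 147) (nat_lit 5) (nat_lit 133) (nat_lit 5) (nat_lit 349) (nat_lit 330) (nat_lit 101)) (XT.nd (nat_lit 78) (nat_lit 0) (nat_lit 0) (XT.lf (nat_lit 0) (nat_lit 3978510756) (nat_lit 684) (nat_lit 39198084658) (nat_lit 76) (nat_lit 1750953140) (nat_lit 124) (nat_lit 5) (nat_lit 133) (nat_lit 5) (nat_lit 125) (nat_lit 5) (nat_lit 350) (nat_lit 330) (nat_lit 100)) (XT.lf (nat_lit 0) (nat_lit 7030038987) (nat_lit 684) (nat_lit 20312973259) (nat_lit 76) (nat_lit 18362715845) (nat_lit 124) (nat_lit 5) (nat_lit 133) (nat_lit 5) (nat_lit 125) (nat_lit 5) (nat_lit 351) (nat_lit 330) (nat_lit 99))))))) (XT.nd (nat_lit 39078) (nat_lit 0) (nat_lit 3192) (XT.nd (nat_lit 390) (nat_lit 912) (nat_lit 0) (XT.nd (nat_lit 156) (nat_lit 532) (nat_lit 0) (XT.nd (nat_lit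 78) (nat_lit 532) (nat_lit 0) (XT.lf (nat_lit 0) (nat_lit 10171860975) (nat_lit 684) (nat_lit 862447608) (nat_lit 76) (nat_lit 35472985104) (nat_lit 124) (nat_lit 5) (nat_lit 133) (nat_lit 5) (nat_lit 125) (nat_lit 5) (nat_lit 352) (nat_lit 330) (nat_lit 98)) (XT.lf (nat_lit 0) (nat_lit 13651933654) (nat_lit 608) (nat_lit 27832554856) (nat_lit 76) (nat_lit 5841100878) (nat_lit 117) (nat_lit 5) (nat_lit 125) (nat_lit 5) (nat_lit 118) (nat_lit 5) (nat_lit 353) (nat_lit 330) (nat_lit 97))) (XT.nd (nat_lit 78) (nat_lit 532) (nat_lit 0) (XT.lf (nat_lit 0) (nat_lit 17353264529) (nat_lit 608) (nat_lit 7801783672) (nat_lit 76) (nat_lit 23009883010) (nat_lit 117) (nat_lit 5) (nat_lit 125) (nat_lit 5) (nat_lit 118) (nat_lit 5) (nat_lit 354) (nat_lit 330) (nat_lit 96)) (XT.nd (nat_lit 78) (nat_lit 0) (nat_lit 0) (XT.lf (nat_lit 0) (nat_lit 13084127507) (nat_lit 532) (nat_lit 8206125293) (nat_lit 608) (nat_lit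 27735464809) (nat_lit 110) (nat_lit 5) (nat_lit 117) (nat_lit 5) (nat_lit 118) (nat_lit 5) (nat_lit 355) (nat_lit 330) (nat_lit 95)) (XT.lf (nat_lit 0) (nat_lit 25512710675) (nat_lit 608) (nat_lit 15244255944) (nat_lit 76) (nat_lit 9150342946) (nat_lit 110) (nat_lit 5) (nat_lit 118) (nat_lit 5) (nat_lit 111) (nat_lit 5) (nat_lit 356) (nat_lit 330) (nat_lit 94))))) (XT.nd (nat_lit 234) (nat_lit 456) (nat_lit 0) (XT.nd (nat_lit 78) (nat_lit 0) (nat_lit 0) (XT.lf (nat_lit 0) (nat_lit 6110900084) (nat_lit 456) (nat_lit 23889834025) (nat_lit 532) (nat_lit 20810451096) (nat_lit 104) (nat_lit 5) (nat_lit 110) (nat_lit 5) (nat_lit 111) (nat_lit 5) (nat_lit 357) (nat_lit 330) (nat_lit 93)) (XT.nd (nat_lit 78) (nat_lit 0) (nat_lit 0) (XT.lf (nat_lit 0) (nat_lit 28418118768) (nat_lit 456) (nat_lit 6358139497) (nat_lit 532) (nat_lit 16961335654) (nat_lit 104) (nat_lit 5) (nat_lit 110) (nat_lit 5) (nat_lit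 111) (nat_lit 5) (nat_lit 358) (nat_lit 330) (nat_lit 92)) (XT.lf (nat_lit 0) (nat_lit 39806465182) (nat_lit 532) (nat_lit 1410790265) (nat_lit 76) (nat_lit 11471199464) (nat_lit 104) (nat_lit 5) (nat_lit 111) (nat_lit 5) (nat_lit 105) (nat_lit 5) (nat_lit 359) (nat_lit 330) (nat_lit 91)))) (XT.nd (nat_lit 78) (nat_lit 0) (nat_lit 0) (XT.lf (nat_lit 0) (nat_lit 21510903571) (nat_lit 456) (nat_lit 23745387263) (nat_lit 532) (nat_lit 8403491977) (nat_lit 98) (nat_lit 5) (nat_lit 104) (nat_lit 5) (nat_lit 105) (nat_lit 5) (nat_lit 360) (nat_lit 330) (nat_lit 90)) (XT.nd (nat_lit 38298) (nat_lit 0) (nat_lit 3192) (XT.lf (nat_lit 0) (nat_lit 45148123455) (nat_lit 456) (nat_lit 5734738235) (nat_lit 532) (nat_lit 3776993729) (nat_lit 98) (nat_lit 5) (nat_lit 104) (nat_lit 5) (nat_lit 105) (nat_lit 5) (nat_lit 361) (nat_lit 330) (nat_lit 89)) (XT.lf (nat_lit 0) (nat_lit 7235228100) (nat_lit 1140) (nat_lit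 4789697241) (nat_lit 1140) (nat_lit 4789697241) (nat_lit 140) (nat_lit 3) (nat_lit 155) (nat_lit 3) (nat_lit 155) (nat_lit 5) (nat_lit 331) (nat_lit 331) (nat_lit 118)))))) (XT.nd (nat_lit 468) (nat_lit 0) (nat_lit 228) (XT.nd (nat_lit 234) (nat_lit 0) (nat_lit 76) (XT.nd (nat_lit 78) (nat_lit 0) (nat_lit 76) (XT.lf (nat_lit 76) (nat_lit 4214254339) (nat_lit 0) (nat_lit 10565703559) (nat_lit 1140) (nat_lit 19350812892) (nat_lit 141) (nat_lit 5) (nat_lit 140) (nat_lit 3) (nat_lit 155) (nat_lit 5) (nat_lit 332) (nat_lit 331) (nat_lit 117)) (XT.nd (nat_lit 78) (nat_lit 0) (nat_lit 0) (XT.lf (nat_lit 0) (nat_lit 15226350092) (nat_lit 1064) (nat_lit 16060402807) (nat_lit 1140) (nat_lit 3356766573) (nat_lit 141) (nat_lit 5) (nat_lit 155) (nat_lit 5) (nat_lit 156) (nat_lit 5) (nat_lit 333) (nat_lit 331) (nat_lit 116)) (XT.lf (nat_lit 0) (nat_lit 15788776229) (nat_lit 1064) (nat_lit 1894326662) (nat_lit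 1140) (nat_lit 17485473753) (nat_lit 141) (nat_lit 5) (nat_lit 155) (nat_lit 5) (nat_lit 156) (nat_lit 5) (nat_lit 334) (nat_lit 331) (nat_lit 115)))) (XT.nd (nat_lit 78) (nat_lit 0) (nat_lit 76) (XT.lf (nat_lit 76) (nat_lit 12948322524) (nat_lit 0) (nat_lit 3542308416) (nat_lit 1140) (nat_lit 19215083055) (nat_lit 142) (nat_lit 5) (nat_lit 141) (nat_lit 5) (nat_lit 156) (nat_lit 5) (nat_lit 335) (nat_lit 331) (nat_lit 114)) (XT.nd (nat_lit 78) (nat_lit 0) (nat_lit 0) (XT.lf (nat_lit 0) (nat_lit 17336958392) (nat_lit 1064) (nat_lit 8090590736) (nat_lit 1140) (nat_lit 10827718816) (nat_lit 142) (nat_lit 5) (nat_lit 156) (nat_lit 5) (nat_lit 157) (nat_lit 5) (nat_lit 336) (nat_lit 331) (nat_lit 113)) (XT.lf (nat_lit 76) (nat_lit 7118955465) (nat_lit 0) (nat_lit 11191420131) (nat_lit 1140) (nat_lit 18507886763) (nat_lit 143) (nat_lit 5) (nat_lit 142) (nat_lit 5) (nat_lit 157) (nat_lit 5) (nat_lit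 337) (nat_lit 331) (nat_lit 112))))) (XT.nd (nat_lit 234) (nat_lit 0) (nat_lit 76) (XT.nd (nat_lit 78) (nat_lit 0) (nat_lit 0) (XT.lf (nat_lit 0) (nat_lit 19427120626) (nat_lit 1064) (nat_lit 14480396157) (nat_lit 1140) (nat_lit 3487210766) (nat_lit 143) (nat_lit 5) (nat_lit 157) (nat_lit 5) (nat_lit 158) (nat_lit 5) (nat_lit 338) (nat_lit 331) (nat_lit 111)) (XT.nd (nat_lit 78) (nat_lit 0) (nat_lit 0) (XT.lf (nat_lit 76) (nat_lit 1104710450) (nat_lit 0) (nat_lit 19592378296) (nat_lit 1140) (nat_lit 17287810893) (nat_lit 144) (nat_lit 5) (nat_lit 143) (nat_lit 5) (nat_lit 158) (nat_lit 5) (nat_lit 339) (nat_lit 331) (nat_lit 110)) (XT.lf (nat_lit 76) (nat_lit 17453092991) (nat_lit 0) (nat_lit 4696620939) (nat_lit 1140) (nat_lit 16438730655) (nat_lit 144) (nat_lit 5) (nat_lit 143) (nat_lit 5) (nat_lit 158) (nat_lit 5) (nat_lit 340) (nat_lit 331) (nat_lit 109)))) (XT.nd (nat_lit 78) (nat_lit 0)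 (nat_lit 0) (XT.lf (nat_lit 0) (nat_lit 23746641922) (nat_lit 1064) (nat_lit 5021641639) (nat_lit 1140) (nat_lit 10438794901) (nat_lit 144) (nat_lit 5) (nat_lit 158) (nat_lit 5) (nat_lit 159) (nat_lit 5) (nat_lit 341) (nat_lit 331) (nat_lit 108)) (XT.nd (nat_lit 78) (nat_lit 0) (nat_lit 76) (XT.lf (nat_lit 76) (nat_lit 11757302023) (nat_lit 0) (nat_lit 13792130354) (nat_lit 1140) (nat_lit 14290104519) (nat_lit 145) (nat_lit 5) (nat_lit 144) (nat_lit 5) (nat_lit 159) (nat_lit 5) (nat_lit 342) (nat_lit 331) (nat_lit 107)) (XT.lf (nat_lit 0) (nat_lit 27471692020) (nat_lit 1064) (nat_lit 11364244549) (nat_lit 1140) (nat_lit 1653075005) (nat_lit 145) (nat_lit 5) (nat_lit 159) (nat_lit 5) (nat_lit 160) (nat_lit 5) (nat_lit 343) (nat_lit 331) (nat_lit 106))))))))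
noncomputable def xc250 : XT := (XT.nd (nat_lit 40014) (nat_lit 0) (nat_lit 912) (XT.nd (nat_lit 858) (nat_lit 1444) (nat_lit 0) (XT.nd (nat_lit 390) (nat_lit 2128) (nat_lit 0) (XT.nd (nat_lit 156) (nat_lit 0) (nat_lit 76) (XT.nd (nat_lit 78) (nat_lit 0) (nat_lit 0) (XT.lf (nat_lit 76) (nat_lit 5831407880) (nat_lit 0) (nat_lit 23811341138) (nat_lit 1140) (nat_lit 11509491527) (nat_lit 146) (nat_lit 5) (nat_lit 145) (nat_lit 5) (nat_lit 160) (nat_lit 5) (nat_lit 344) (nat_lit 331) (nat_lit 105)) (XT.lf (nat_lit 76) (nat_lit 23774783044) (nat_lit 0) (nat_lit 8217462573) (nat_lit 1140) (nat_lit 9839725355) (nat_lit 146) (nat_lit 5) (nat_lit 145) (nat_lit 5) (nat_lit 160) (nat_lit 5) (nat_lit 345) (nat_lit 331) (nat_lit 104))) (XT.nd (nat_lit 78) (nat_lit 0) (nat_lit 0) (XT.lf (nat_lit 0) (nat_lit 34486227404) (nat_lit 1064) (nat_lit 352157141) (nat_lit 1140) (nat_lit 7691492473) (nat_lit 146) (nat_lit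 5) (nat_lit 160) (nat_lit 5) (nat_lit 161) (nat_lit 5) (nat_lit 346) (nat_lit 331) (nat_lit 103)) (XT.nd (nat_lit 78) (nat_lit 0) (nat_lit 0) (XT.lf (nat_lit 76) (nat_lit 18155862714) (nat_lit 0) (nat_lit 19153689802) (nat_lit 1140) (nat_lit 5931535616) (nat_lit 147) (nat_lit 5) (nat_lit 146) (nat_lit 5) (nat_lit 161) (nat_lit 5) (nat_lit 347) (nat_lit 331) (nat_lit 102)) (XT.lf (nat_lit 76) (nat_lit 37225265584) (nat_lit 0) (nat_lit 2994534830) (nat_lit 1140) (nat_lit 3753771976) (nat_lit 147) (nat_lit 5) (nat_lit 146) (nat_lit 5) (nat_lit 161) (nat_lit 5) (nat_lit 348) (nat_lit 331) (nat_lit 101))))) (XT.nd (nat_lit 234) (nat_lit 532) (nat_lit 0) (XT.nd (nat_lit 78) (nat_lit 684) (nat_lit 0) (XT.lf (nat_lit 0) (nat_lit 12245374672) (nat_lit 1064) (nat_lit 31219605596) (nat_lit 1140) (nat_lit 1255625568) (nat_lit 133) (nat_lit 5) (nat_lit 147) (nat_lit 5) (nat_lit 148) (nat_lit 5) (nat_lit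 349) (nat_lit 331) (nat_lit 100)) (XT.nd (nat_lit 78) (nat_lit 608) (nat_lit 0) (XT.lf (nat_lit 0) (nat_lit 1388944620) (nat_lit 1140) (nat_lit 13584901245) (nat_lit 76) (nat_lit 30512912060) (nat_lit 132) (nat_lit 5) (nat_lit 147) (nat_lit 5) (nat_lit 133) (nat_lit 5) (nat_lit 350) (nat_lit 331) (nat_lit 99)) (XT.lf (nat_lit 0) (nat_lit 4161414318) (nat_lit 684) (nat_lit 40316214198) (nat_lit 76) (nat_lit 1795682233) (nat_lit 124) (nat_lit 5) (nat_lit 133) (nat_lit 5) (nat_lit 125) (nat_lit 5) (nat_lit 351) (nat_lit 331) (nat_lit 98)))) (XT.nd (nat_lit 78) (nat_lit 532) (nat_lit 0) (XT.lf (nat_lit 0) (nat_lit 7302637477) (nat_lit 684) (nat_lit 20866233331) (nat_lit 76) (nat_lit 18906024989) (nat_lit 124) (nat_lit 5) (nat_lit 133) (nat_lit 5) (nat_lit 125) (nat_lit 5) (nat_lit 352) (nat_lit 331) (nat_lit 97)) (XT.nd (nat_lit 78) (nat_lit 532) (nat_lit 0) (XT.lf (nat_lit 0) (nat_lit 10536917114)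 (nat_lit 684) (nat_lit 833826739) (nat_lit 76) (nat_lit 36529822880) (nat_lit 124) (nat_lit 5) (nat_lit 133) (nat_lit 5) (nat_lit 125) (nat_lit 5) (nat_lit 353) (nat_lit 331) (nat_lit 96)) (XT.lf (nat_lit 0) (nat_lit 14120120685) (nat_lit 608) (nat_lit 28611621493) (nat_lit 76) (nat_lit 6011711599) (nat_lit 117) (nat_lit 5) (nat_lit 125) (nat_lit 5) (nat_lit 118) (nat_lit 5) (nat_lit 354) (nat_lit 331) (nat_lit 95)))))) (XT.nd (nat_lit 390) (nat_lit 456) (nat_lit 0) (XT.nd (nat_lit 156) (nat_lit 456) (nat_lit 0) (XT.nd (nat_lit 78) (nat_lit 532) (nat_lit 0) (XT.lf (nat_lit 0) (nat_lit 17930783845) (nat_lit 608) (nat_lit 7981555620) (nat_lit 76) (nat_lit 23695691825) (nat_lit 117) (nat_lit 5) (nat_lit 125) (nat_lit 5) (nat_lit 118) (nat_lit 5) (nat_lit 355) (nat_lit 331) (nat_lit 94)) (XT.lf (nat_lit 0) (nat_lit 13530400721) (nat_lit 532) (nat_lit 8454339810) (nat_lit 608) (nat_lit 28509939069)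 (nat_lit 110) (nat_lit 5) (nat_lit 117) (nat_lit 5) (nat_lit 118) (nat_lit 5) (nat_lit 356) (nat_lit 331) (nat_lit 93))) (XT.nd (nat_lit 78) (nat_lit 456) (nat_lit 0) (XT.lf (nat_lit 0) (nat_lit 26332228526) (nat_lit 608) (nat_lit 15647623964) (nat_lit 76) (nat_lit 9422920098) (nat_lit 110) (nat_lit 5) (nat_lit 118) (nat_lit 5) (nat_lit 111) (nat_lit 5) (nat_lit 357) (nat_lit 331) (nat_lit 92)) (XT.nd (nat_lit 78) (nat_lit 0) (nat_lit 0) (XT.lf (nat_lit 0) (nat_lit 6347657727) (nat_lit 456) (nat_lit 24606171751) (nat_lit 532) (nat_lit 21379970765) (nat_lit 104) (nat_lit 5) (nat_lit 110) (nat_lit 5) (nat_lit 111) (nat_lit 5) (nat_lit 358) (nat_lit 331) (nat_lit 91)) (XT.lf (nat_lit 0) (nat_lit 29322536740) (nat_lit 456) (nat_lit 6548536794) (nat_lit 532) (nat_lit 17416977796) (nat_lit 104) (nat_lit 5) (nat_lit 110) (nat_lit 5) (nat_lit 111) (nat_lit 5) (nat_lit 359) (nat_lit 331) (nat_lit 90)))))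 (XT.nd (nat_lit 38532) (nat_lit 0) (nat_lit 3192) (XT.nd (nat_lit 78) (nat_lit 456) (nat_lit 0) (XT.lf (nat_lit 0) (nat_lit 41050689095) (nat_lit 532) (nat_lit 1401131953) (nat_lit 76) (nat_lit 11815665660) (nat_lit 104) (nat_lit 5) (nat_lit 111) (nat_lit 5) (nat_lit 105) (nat_lit 5) (nat_lit 360) (nat_lit 331) (nat_lit 89)) (XT.nd (nat_lit 38376) (nat_lit 0) (nat_lit 3192) (XT.lf (nat_lit 0) (nat_lit 22207703070) (nat_lit 456) (nat_lit 24455344047) (nat_lit 532) (nat_lit 8604939724) (nat_lit 98) (nat_lit 5) (nat_lit 104) (nat_lit 5) (nat_lit 105) (nat_lit 5) (nat_lit 361) (nat_lit 331) (nat_lit 88)) (XT.lf (nat_lit 0) (nat_lit 7503720578) (nat_lit 1140) (nat_lit 4906829624) (nat_lit 1140) (nat_lit 4906829624) (nat_lit 140) (nat_lit 3) (nat_lit 155) (nat_lit 3) (nat_lit 155) (nat_lit 5) (nat_lit 332) (nat_lit 332) (nat_lit 116)))) (XT.nd (nat_lit 78) (nat_lit 0) (nat_lit 76) (XT.lf (nat_lit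 76) (nat_lit 4393278281) (nat_lit 0) (nat_lit 10930458960) (nat_lit 1140) (nat_lit 19827676585) (nat_lit 141) (nat_lit 5) (nat_lit 140) (nat_lit 3) (nat_lit 155) (nat_lit 5) (nat_lit 333) (nat_lit 332) (nat_lit 115)) (XT.nd (nat_lit 78) (nat_lit 0) (nat_lit 0) (XT.lf (nat_lit 0) (nat_lit 15780151541) (nat_lit 1064) (nat_lit 16487520006) (nat_lit 1140) (nat_lit 3411982337) (nat_lit 141) (nat_lit 5) (nat_lit 155) (nat_lit 5) (nat_lit 156) (nat_lit 5) (nat_lit 334) (nat_lit 332) (nat_lit 114)) (XT.lf (nat_lit 0) (nat_lit 16356624901) (nat_lit 1064) (nat_lit 1898054632) (nat_lit 1140) (nat_lit 17965875603) (nat_lit 141) (nat_lit 5) (nat_lit 155) (nat_lit 5) (nat_lit 156) (nat_lit 5) (nat_lit 335) (nat_lit 332) (nat_lit 113))))))) (XT.nd (nat_lit 858) (nat_lit 2356) (nat_lit 0) (XT.nd (nat_lit 390) (nat_lit 0) (nat_lit 152) (XT.nd (nat_lit 156) (nat_lit 0) (nat_lit 76) (XT.nd (nat_lit 78) (nat_lit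 0) (nat_lit 76) (XT.lf (nat_lit 76) (nat_lit 13389353424) (nat_lit 0) (nat_lit 3687944009) (nat_lit 1140) (nat_lit 19696583686) (nat_lit 142) (nat_lit 5) (nat_lit 141) (nat_lit 5) (nat_lit 156) (nat_lit 5) (nat_lit 336) (nat_lit 332) (nat_lit 112)) (XT.lf (nat_lit 0) (nat_lit 17945969232) (nat_lit 1064) (nat_lit 8278974542) (nat_lit 1140) (nat_lit 11115076437) (nat_lit 142) (nat_lit 5) (nat_lit 156) (nat_lit 5) (nat_lit 157) (nat_lit 5) (nat_lit 337) (nat_lit 332) (nat_lit 111))) (XT.nd (nat_lit 78) (nat_lit 0) (nat_lit 76) (XT.lf (nat_lit 76) (nat_lit 7386325359) (nat_lit 0) (nat_lit 11560191382) (nat_lit 1140) (nat_lit 18973456836) (nat_lit 143) (nat_lit 5) (nat_lit 142) (nat_lit 5) (nat_lit 157) (nat_lit 5) (nat_lit 338) (nat_lit 332) (nat_lit 110)) (XT.nd (nat_lit 78) (nat_lit 0) (nat_lit 0) (XT.lf (nat_lit 0) (nat_lit 20093926853) (nat_lit 1064) (nat_lit 14859511561) (nat_lit 1140) (nat_lit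 3560386178) (nat_lit 143) (nat_lit 5) (nat_lit 157) (nat_lit 5) (nat_lit 158) (nat_lit 5) (nat_lit 339) (nat_lit 332) (nat_lit 109)) (XT.lf (nat_lit 76) (nat_lit 1192606122) (nat_lit 0) (nat_lit 20207467840) (nat_lit 1140) (nat_lit 17721692038) (nat_lit 144) (nat_lit 5) (nat_lit 143) (nat_lit 5) (nat_lit 158) (nat_lit 5) (nat_lit 340) (nat_lit 332) (nat_lit 108))))) (XT.nd (nat_lit 234) (nat_lit 0) (nat_lit 152) (XT.nd (nat_lit 78) (nat_lit 0) (nat_lit 76) (XT.lf (nat_lit 76) (nat_lit 18029845352) (nat_lit 0) (nat_lit 4864042087) (nat_lit 1140) (nat_lit 16849607931) (nat_lit 144) (nat_lit 5) (nat_lit 143) (nat_lit 5) (nat_lit 158) (nat_lit 5) (nat_lit 341) (nat_lit 332) (nat_lit 107)) (XT.nd (nat_lit 78) (nat_lit 0) (nat_lit 0) (XT.lf (nat_lit 0) (nat_lit 24536154908) (nat_lit 1064) (nat_lit 5117905380) (nat_lit 1140) (nat_lit 10726711204) (nat_lit 144) (nat_lit 5) (nat_lit 158) (nat_lit 5)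 (nat_lit 159) (nat_lit 5) (nat_lit 342) (nat_lit 332) (nat_lit 106)) (XT.lf (nat_lit 76) (nat_lit 12163873401) (nat_lit 0) (nat_lit 14227427305) (nat_lit 1140) (nat_lit 14640960820) (nat_lit 145) (nat_lit 5) (nat_lit 144) (nat_lit 5) (nat_lit 159) (nat_lit 5) (nat_lit 343) (nat_lit 332) (nat_lit 105)))) (XT.nd (nat_lit 78) (nat_lit 0) (nat_lit 0) (XT.lf (nat_lit 0) (nat_lit 28368831489) (nat_lit 1064) (nat_lit 11650297340) (nat_lit 1140) (nat_lit 1682169339) (nat_lit 145) (nat_lit 5) (nat_lit 159) (nat_lit 5) (nat_lit 160) (nat_lit 5) (nat_lit 344) (nat_lit 332) (nat_lit 104)) (XT.nd (nat_lit 78) (nat_lit 0) (nat_lit 0) (XT.lf (nat_lit 76) (nat_lit 6060686676) (nat_lit 0) (nat_lit 24542729953) (nat_lit 1140) (nat_lit 11781061140) (nat_lit 146) (nat_lit 5) (nat_lit 145) (nat_lit 5) (nat_lit 160) (nat_lit 5) (nat_lit 345) (nat_lit 332) (nat_lit 103)) (XT.lf (nat_lit 76) (nat_lit 24540780477) (nat_lit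 0) (nat_lit 8480538471) (nat_lit 1140) (nat_lit 10063349025) (nat_lit 146) (nat_lit 5) (nat_lit 145) (nat_lit 5) (nat_lit 160) (nat_lit 5) (nat_lit 346) (nat_lit 332) (nat_lit 102)))))) (XT.nd (nat_lit 468) (nat_lit 1064) (nat_lit 0) (XT.nd (nat_lit 234) (nat_lit 1672) (nat_lit 0) (XT.nd (nat_lit 78) (nat_lit 0) (nat_lit 0) (XT.lf (nat_lit 0) (nat_lit 35587947093) (nat_lit 1064) (nat_lit 309153720) (nat_lit 1140) (nat_lit 7906480907) (nat_lit 146) (nat_lit 5) (nat_lit 160) (nat_lit 5) (nat_lit 161) (nat_lit 5) (nat_lit 347) (nat_lit 332) (nat_lit 101)) (XT.nd (nat_lit 78) (nat_lit 0) (nat_lit 0) (XT.lf (nat_lit 76) (nat_lit 18753581552) (nat_lit 0) (nat_lit 19740944962) (nat_lit 1140) (nat_lit 6041651192) (nat_lit 147) (nat_lit 5) (nat_lit 146) (nat_lit 5) (nat_lit 161) (nat_lit 5) (nat_lit 348) (nat_lit 332) (nat_lit 100)) (XT.lf (nat_lit 76) (nat_lit 38393521567) (nat_lit 0) (nat_lit 3096647055)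 (nat_lit 1140) (nat_lit 3800530288) (nat_lit 147) (nat_lit 5) (nat_lit 146) (nat_lit 5) (nat_lit 161) (nat_lit 5) (nat_lit 349) (nat_lit 332) (nat_lit 99)))) (XT.nd (nat_lit 78) (nat_lit 684) (nat_lit 0) (XT.lf (nat_lit 0) (nat_lit 12665906148) (nat_lit 1064) (nat_lit 32165336760) (nat_lit 1140) (nat_lit 1228949158) (nat_lit 133) (nat_lit 5) (nat_lit 147) (nat_lit 5) (nat_lit 148) (nat_lit 5) (nat_lit 350) (nat_lit 332) (nat_lit 98)) (XT.nd (nat_lit 78) (nat_lit 608) (nat_lit 0) (XT.lf (nat_lit 0) (nat_lit 1491864969) (nat_lit 1140) (nat_lit 13939454441) (nat_lit 76) (nat_lit 31418050474) (nat_lit 132) (nat_lit 5) (nat_lit 147) (nat_lit 5) (nat_lit 133) (nat_lit 5) (nat_lit 351) (nat_lit 332) (nat_lit 97)) (XT.lf (nat_lit 0) (nat_lit 4346157058) (nat_lit 684) (nat_lit 41471206327) (nat_lit 76) (nat_lit 1842200922) (nat_lit 124) (nat_lit 5) (nat_lit 133) (nat_lit 5) (nat_lit 125) (nat_lit 5)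 (nat_lit 352) (nat_lit 332) (nat_lit 96))))) (XT.nd (nat_lit 234) (nat_lit 532) (nat_lit 0) (XT.nd (nat_lit 78) (nat_lit 532) (nat_lit 0) (XT.lf (nat_lit 0) (nat_lit 7579872242) (nat_lit 684) (nat_lit 21439313246) (nat_lit 76) (nat_lit 19466068090) (nat_lit 124) (nat_lit 5) (nat_lit 133) (nat_lit 5) (nat_lit 125) (nat_lit 5) (nat_lit 353) (nat_lit 332) (nat_lit 95)) (XT.nd (nat_lit 78) (nat_lit 532) (nat_lit 0) (XT.lf (nat_lit 0) (nat_lit 10909486415) (nat_lit 684) (nat_lit 807475440) (nat_lit 76) (nat_lit 37618787810) (nat_lit 124) (nat_lit 5) (nat_lit 133) (nat_lit 5) (nat_lit 125) (nat_lit 5) (nat_lit 354) (nat_lit 332) (nat_lit 94)) (XT.lf (nat_lit 0) (nat_lit 14598987781) (nat_lit 608) (nat_lit 29417269592) (nat_lit 76) (nat_lit 6187705980) (nat_lit 117) (nat_lit 5) (nat_lit 125) (nat_lit 5) (nat_lit 118) (nat_lit 5) (nat_lit 355) (nat_lit 332) (nat_lit 93)))) (XT.nd (nat_lit 78) (nat_lit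 532) (nat_lit 0) (XT.lf (nat_lit 0) (nat_lit 18522361220) (nat_lit 608) (nat_lit 8169836711) (nat_lit 76) (nat_lit 24402332515) (nat_lit 117) (nat_lit 5) (nat_lit 125) (nat_lit 5) (nat_lit 118) (nat_lit 5) (nat_lit 356) (nat_lit 332) (nat_lit 92)) (XT.nd (nat_lit 78) (nat_lit 0) (nat_lit 0) (XT.lf (nat_lit 0) (nat_lit 13986976698) (nat_lit 532) (nat_lit 8709884189) (nat_lit 608) (nat_lit 29310953441) (nat_lit 110) (nat_lit 5) (nat_lit 117) (nat_lit 5) (nat_lit 118) (nat_lit 5) (nat_lit 357) (nat_lit 332) (nat_lit 91)) (XT.lf (nat_lit 0) (nat_lit 27173224254) (nat_lit 608) (nat_lit 16066190531) (nat_lit 76) (nat_lit 9703785534) (nat_lit 110) (nat_lit 5) (nat_lit 118) (nat_lit 5) (nat_lit 111) (nat_lit 5) (nat_lit 358) (nat_lit 332) (nat_lit 90))))))))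
noncomputable def xc251 : XT := (XT.nd (nat_lit 40248) (nat_lit 0) (nat_lit 456) (XT.nd (nat_lit 39312) (nat_lit 0) (nat_lit 1520) (XT.nd (nat_lit 38844) (nat_lit 0) (nat_lit 2812) (XT.nd (nat_lit 38610) (nat_lit 0) (nat_lit 2736) (XT.nd (nat_lit 78) (nat_lit 0) (nat_lit 0) (XT.lf (nat_lit 0) (nat_lit 6588450963) (nat_lit 456) (nat_lit 25344020119) (nat_lit 532) (nat_lit 21969721415) (nat_lit 104) (nat_lit 5) (nat_lit 110) (nat_lit 5) (nat_lit 111) (nat_lit 5) (nat_lit 359) (nat_lit 332) (nat_lit 89)) (XT.lf (nat_lit 0) (nat_lit 30251109448) (nat_lit 456) (nat_lit 6744665923) (nat_lit 532) (nat_lit 17889342982) (nat_lit 104) (nat_lit 5) (nat_lit 110) (nat_lit 5) (nat_lit 111) (nat_lit 5) (nat_lit 360) (nat_lit 332) (nat_lit 88))) (XT.nd (nat_lit 78) (nat_lit 0) (nat_lit 0) (XT.lf (nat_lit 0) (nat_lit 7777315214) (nat_lit 1140) (nat_lit 5029000547) (nat_lit 1140) (nat_lit 5029000547) (nat_lit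 140) (nat_lit 3) (nat_lit 155) (nat_lit 3) (nat_lit 155) (nat_lit 5) (nat_lit 333) (nat_lit 333) (nat_lit 114)) (XT.nd (nat_lit 78) (nat_lit 0) (nat_lit 76) (XT.lf (nat_lit 76) (nat_lit 4574653699) (nat_lit 0) (nat_lit 11303414010) (nat_lit 1140) (nat_lit 20324796737) (nat_lit 141) (nat_lit 5) (nat_lit 140) (nat_lit 3) (nat_lit 155) (nat_lit 5) (nat_lit 334) (nat_lit 333) (nat_lit 113)) (XT.lf (nat_lit 0) (nat_lit 16344998209) (nat_lit 1064) (nat_lit 16930590432) (nat_lit 1140) (nat_lit 3471465727) (nat_lit 141) (nat_lit 5) (nat_lit 155) (nat_lit 5) (nat_lit 156) (nat_lit 5) (nat_lit 335) (nat_lit 333) (nat_lit 112))))) (XT.nd (nat_lit 234) (nat_lit 0) (nat_lit 76) (XT.nd (nat_lit 78) (nat_lit 0) (nat_lit 0) (XT.lf (nat_lit 0) (nat_lit 16936102406) (nat_lit 1064) (nat_lit 1904942703) (nat_lit 1140) (nat_lit 18463224609) (nat_lit 141) (nat_lit 5) (nat_lit 155) (nat_lit 5) (nat_lit 156) (nat_lit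 5) (nat_lit 336) (nat_lit 333) (nat_lit 111)) (XT.nd (nat_lit 78) (nat_lit 0) (nat_lit 76) (XT.lf (nat_lit 76) (nat_lit 13840596873) (nat_lit 0) (nat_lit 3835688881) (nat_lit 1140) (nat_lit 20197979961) (nat_lit 142) (nat_lit 5) (nat_lit 141) (nat_lit 5) (nat_lit 156) (nat_lit 5) (nat_lit 337) (nat_lit 333) (nat_lit 110)) (XT.lf (nat_lit 0) (nat_lit 18568147054) (nat_lit 1064) (nat_lit 8476128851) (nat_lit 1140) (nat_lit 11413205945) (nat_lit 142) (nat_lit 5) (nat_lit 156) (nat_lit 5) (nat_lit 157) (nat_lit 5) (nat_lit 338) (nat_lit 333) (nat_lit 109)))) (XT.nd (nat_lit 78) (nat_lit 0) (nat_lit 76) (XT.lf (nat_lit 76) (nat_lit 7658627940) (nat_lit 0) (nat_lit 11938129790) (nat_lit 1140) (nat_lit 19458141237) (nat_lit 143) (nat_lit 5) (nat_lit 142) (nat_lit 5) (nat_lit 157) (nat_lit 5) (nat_lit 339) (nat_lit 333) (nat_lit 108)) (XT.nd (nat_lit 78) (nat_lit 0) (nat_lit 0) (XT.lf (nat_lit 0) (nat_lit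 20775915747) (nat_lit 1064) (nat_lit 15253174672) (nat_lit 1140) (nat_lit 3637561689) (nat_lit 143) (nat_lit 5) (nat_lit 157) (nat_lit 5) (nat_lit 158) (nat_lit 5) (nat_lit 340) (nat_lit 333) (nat_lit 107)) (XT.lf (nat_lit 76) (nat_lit 1279995539) (nat_lit 0) (nat_lit 20839441895) (nat_lit 1140) (nat_lit 18173454796) (nat_lit 144) (nat_lit 5) (nat_lit 143) (nat_lit 5) (nat_lit 158) (nat_lit 5) (nat_lit 341) (nat_lit 333) (nat_lit 106)))))) (XT.nd (nat_lit 468) (nat_lit 1444) (nat_lit 0) (XT.nd (nat_lit 234) (nat_lit 0) (nat_lit 152) (XT.nd (nat_lit 78) (nat_lit 0) (nat_lit 76) (XT.lf (nat_lit 76) (nat_lit 18620848707) (nat_lit 0) (nat_lit 5034963368) (nat_lit 1140) (nat_lit 17277535002) (nat_lit 144) (nat_lit 5) (nat_lit 143) (nat_lit 5) (nat_lit 158) (nat_lit 5) (nat_lit 342) (nat_lit 333) (nat_lit 105)) (XT.nd (nat_lit 78) (nat_lit 0) (nat_lit 0) (XT.lf (nat_lit 0) (nat_lit 25344926640) (nat_lit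 1064) (nat_lit 5220178983) (nat_lit 1140) (nat_lit 11024714309) (nat_lit 144) (nat_lit 5) (nat_lit 158) (nat_lit 5) (nat_lit 159) (nat_lit 5) (nat_lit 343) (nat_lit 333) (nat_lit 104)) (XT.lf (nat_lit 76) (nat_lit 12579550577) (nat_lit 0) (nat_lit 14674547081) (nat_lit 1140) (nat_lit 15006811538) (nat_lit 145) (nat_lit 5) (nat_lit 144) (nat_lit 5) (nat_lit 159) (nat_lit 5) (nat_lit 344) (nat_lit 333) (nat_lit 103)))) (XT.nd (nat_lit 78) (nat_lit 0) (nat_lit 0) (XT.lf (nat_lit 0) (nat_lit 29288695292) (nat_lit 1064) (nat_lit 11948081739) (nat_lit 1140) (nat_lit 1713313167) (nat_lit 145) (nat_lit 5) (nat_lit 159) (nat_lit 5) (nat_lit 160) (nat_lit 5) (nat_lit 345) (nat_lit 333) (nat_lit 102)) (XT.nd (nat_lit 78) (nat_lit 0) (nat_lit 0) (XT.lf (nat_lit 76) (nat_lit 6293724695) (nat_lit 0) (nat_lit 25295081774) (nat_lit 1140) (nat_lit 12065009391) (nat_lit 146) (nat_lit 5) (nat_lit 145) (nat_lit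 5) (nat_lit 160) (nat_lit 5) (nat_lit 346) (nat_lit 333) (nat_lit 101)) (XT.lf (nat_lit 76) (nat_lit 25326729541) (nat_lit 0) (nat_lit 8750556491) (nat_lit 1140) (nat_lit 10297789707) (nat_lit 146) (nat_lit 5) (nat_lit 145) (nat_lit 5) (nat_lit 160) (nat_lit 5) (nat_lit 347) (nat_lit 333) (nat_lit 100))))) (XT.nd (nat_lit 234) (nat_lit 1672) (nat_lit 0) (XT.nd (nat_lit 78) (nat_lit 0) (nat_lit 0) (XT.lf (nat_lit 0) (nat_lit 36718864672) (nat_lit 1064) (nat_lit 267935228) (nat_lit 1140) (nat_lit 8128823473) (nat_lit 146) (nat_lit 5) (nat_lit 160) (nat_lit 5) (nat_lit 161) (nat_lit 5) (nat_lit 348) (nat_lit 333) (nat_lit 99)) (XT.nd (nat_lit 78) (nat_lit 0) (nat_lit 0) (XT.lf (nat_lit 76) (nat_lit 19366187073) (nat_lit 0) (nat_lit 20345091932) (nat_lit 1140) (nat_lit 6158963982) (nat_lit 147) (nat_lit 5) (nat_lit 146) (nat_lit 5) (nat_lit 161) (nat_lit 5) (nat_lit 349) (nat_lit 333) (nat_lit 98))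 (XT.lf (nat_lit 76) (nat_lit 39593869034) (nat_lit 0) (nat_lit 3201117943) (nat_lit 1140) (nat_lit 3852471686) (nat_lit 147) (nat_lit 5) (nat_lit 146) (nat_lit 5) (nat_lit 161) (nat_lit 5) (nat_lit 350) (nat_lit 333) (nat_lit 97)))) (XT.nd (nat_lit 78) (nat_lit 684) (nat_lit 0) (XT.lf (nat_lit 0) (nat_lit 13096001379) (nat_lit 1064) (nat_lit 33138915013) (nat_lit 1140) (nat_lit 1205166132) (nat_lit 133) (nat_lit 5) (nat_lit 147) (nat_lit 5) (nat_lit 148) (nat_lit 5) (nat_lit 351) (nat_lit 333) (nat_lit 96)) (XT.nd (nat_lit 78) (nat_lit 608) (nat_lit 0) (XT.lf (nat_lit 0) (nat_lit 1594356813) (nat_lit 1140) (nat_lit 14307686297) (nat_lit 76) (nat_lit 32350931372) (nat_lit 132) (nat_lit 5) (nat_lit 147) (nat_lit 5) (nat_lit 133) (nat_lit 5) (nat_lit 352) (nat_lit 333) (nat_lit 95)) (XT.lf (nat_lit 0) (nat_lit 4533003557) (nat_lit 684) (nat_lit 42663976415) (nat_lit 76) (nat_lit 1890537194) (nat_lit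 124) (nat_lit 5) (nat_lit 133) (nat_lit 5) (nat_lit 125) (nat_lit 5) (nat_lit 353) (nat_lit 333) (nat_lit 94))))))) (XT.nd (nat_lit 39468) (nat_lit 0) (nat_lit 2432) (XT.nd (nat_lit 390) (nat_lit 0) (nat_lit 0) (XT.nd (nat_lit 156) (nat_lit 1064) (nat_lit 0) (XT.nd (nat_lit 78) (nat_lit 0) (nat_lit 0) (XT.lf (nat_lit 0) (nat_lit 7862085678) (nat_lit 684) (nat_lit 22032622642) (nat_lit 76) (nat_lit 20043322215) (nat_lit 124) (nat_lit 5) (nat_lit 133) (nat_lit 5) (nat_lit 125) (nat_lit 5) (nat_lit 354) (nat_lit 333) (nat_lit 93)) (XT.lf (nat_lit 0) (nat_lit 11289991657) (nat_lit 684) (nat_lit 783282226) (nat_lit 76) (nat_lit 38740819485) (nat_lit 124) (nat_lit 5) (nat_lit 133) (nat_lit 5) (nat_lit 125) (nat_lit 5) (nat_lit 355) (nat_lit 333) (nat_lit 92))) (XT.nd (nat_lit 78) (nat_lit 532) (nat_lit 0) (XT.lf (nat_lit 0) (nat_lit 15089048540) (nat_lit 608) (nat_lit 30250112361) (nat_lit 76) (nat_lit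 6369230301) (nat_lit 117) (nat_lit 5) (nat_lit 125) (nat_lit 5) (nat_lit 118) (nat_lit 5) (nat_lit 356) (nat_lit 333) (nat_lit 91)) (XT.nd (nat_lit 78) (nat_lit 532) (nat_lit 0) (XT.lf (nat_lit 0) (nat_lit 19128605965) (nat_lit 608) (nat_lit 8366703347) (nat_lit 76) (nat_lit 25130415248) (nat_lit 117) (nat_lit 5) (nat_lit 125) (nat_lit 5) (nat_lit 118) (nat_lit 5) (nat_lit 357) (nat_lit 333) (nat_lit 90)) (XT.lf (nat_lit 0) (nat_lit 14454341635) (nat_lit 532) (nat_lit 8972985016) (nat_lit 608) (nat_lit 30139114355) (nat_lit 110) (nat_lit 5) (nat_lit 117) (nat_lit 5) (nat_lit 118) (nat_lit 5) (nat_lit 358) (nat_lit 333) (nat_lit 89))))) (XT.nd (nat_lit 38844) (nat_lit 0) (nat_lit 2356) (XT.nd (nat_lit 38688) (nat_lit 0) (nat_lit 2280) (XT.lf (nat_lit 0) (nat_lit 28036520588) (nat_lit 608) (nat_lit 16500233790) (nat_lit 76) (nat_lit 9993181533) (nat_lit 110) (nat_lit 5) (nat_lit 118) (nat_lit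 5) (nat_lit 111) (nat_lit 5) (nat_lit 359) (nat_lit 333) (nat_lit 88)) (XT.nd (nat_lit 78) (nat_lit 0) (nat_lit 0) (XT.lf (nat_lit 0) (nat_lit 8056334566) (nat_lit 1140) (nat_lit 5156273650) (nat_lit 1140) (nat_lit 5156273650) (nat_lit 140) (nat_lit 3) (nat_lit 155) (nat_lit 3) (nat_lit 155) (nat_lit 5) (nat_lit 334) (nat_lit 334) (nat_lit 112)) (XT.lf (nat_lit 76) (nat_lit 4758624452) (nat_lit 0) (nat_lit 11684972156) (nat_lit 1140) (nat_lit 20842439455) (nat_lit 141) (nat_lit 5) (nat_lit 140) (nat_lit 3) (nat_lit 155) (nat_lit 5) (nat_lit 335) (nat_lit 334) (nat_lit 111)))) (XT.nd (nat_lit 78) (nat_lit 0) (nat_lit 0) (XT.lf (nat_lit 0) (nat_lit 16921541125) (nat_lit 1064) (nat_lit 17389912448) (nat_lit 1140) (nat_lit 3535194881) (nat_lit 141) (nat_lit 5) (nat_lit 155) (nat_lit 5) (nat_lit 156) (nat_lit 5) (nat_lit 336) (nat_lit 334) (nat_lit 110)) (XT.nd (nat_lit 78) (nat_lit 0) (nat_lit 0)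 (XT.lf (nat_lit 0) (nat_lit 17527867973) (nat_lit 1064) (nat_lit 1914910696) (nat_lit 1140) (nat_lit 18977883660) (nat_lit 141) (nat_lit 5) (nat_lit 155) (nat_lit 5) (nat_lit 156) (nat_lit 5) (nat_lit 337) (nat_lit 334) (nat_lit 109)) (XT.lf (nat_lit 76) (nat_lit 14302532515) (nat_lit 0) (nat_lit 3985736031) (nat_lit 1140) (nat_lit 20719555861) (nat_lit 142) (nat_lit 5) (nat_lit 141) (nat_lit 5) (nat_lit 156) (nat_lit 5) (nat_lit 338) (nat_lit 334) (nat_lit 108)))))) (XT.nd (nat_lit 468) (nat_lit 0) (nat_lit 152) (XT.nd (nat_lit 234) (nat_lit 0) (nat_lit 76) (XT.nd (nat_lit 78) (nat_lit 0) (nat_lit 0) (XT.lf (nat_lit 0) (nat_lit 19204179819) (nat_lit 1064) (nat_lit 8682137736) (nat_lit 1140) (nat_lit 11722307010) (nat_lit 142) (nat_lit 5) (nat_lit 156) (nat_lit 5) (nat_lit 157) (nat_lit 5) (nat_lit 339) (nat_lit 334) (nat_lit 107)) (XT.nd (nat_lit 78) (nat_lit 0) (nat_lit 76) (XT.lf (nat_lit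 76) (nat_lit 7936188476) (nat_lit 0) (nat_lit 12325619208) (nat_lit 1140) (nat_lit 19962217924) (nat_lit 143) (nat_lit 5) (nat_lit 142) (nat_lit 5) (nat_lit 157) (nat_lit 5) (nat_lit 340) (nat_lit 334) (nat_lit 106)) (XT.lf (nat_lit 0) (nat_lit 21473819563) (nat_lit 1064) (nat_lit 15661639705) (nat_lit 1140) (nat_lit 3718753697) (nat_lit 143) (nat_lit 5) (nat_lit 157) (nat_lit 5) (nat_lit 158) (nat_lit 5) (nat_lit 341) (nat_lit 334) (nat_lit 105)))) (XT.nd (nat_lit 78) (nat_lit 0) (nat_lit 0) (XT.lf (nat_lit 76) (nat_lit 1367043943) (nat_lit 0) (nat_lit 21488897014) (nat_lit 1140) (nat_lit 18643356336) (nat_lit 144) (nat_lit 5) (nat_lit 143) (nat_lit 5) (nat_lit 158) (nat_lit 5) (nat_lit 342) (nat_lit 334) (nat_lit 104)) (XT.nd (nat_lit 78) (nat_lit 0) (nat_lit 76) (XT.lf (nat_lit 76) (nat_lit 19226705758) (nat_lit 0) (nat_lit 5209577185) (nat_lit 1140) (nat_lit 17722752212) (nat_lit 144) (nat_lit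 5) (nat_lit 143) (nat_lit 5) (nat_lit 158) (nat_lit 5) (nat_lit 343) (nat_lit 334) (nat_lit 103)) (XT.lf (nat_lit 0) (nat_lit 26173788987) (nat_lit 1064) (nat_lit 5328463533) (nat_lit 1140) (nat_lit 11333023623) (nat_lit 144) (nat_lit 5) (nat_lit 158) (nat_lit 5) (nat_lit 159) (nat_lit 5) (nat_lit 344) (nat_lit 334) (nat_lit 102))))) (XT.nd (nat_lit 234) (nat_lit 0) (nat_lit 76) (XT.nd (nat_lit 78) (nat_lit 0) (nat_lit 76) (XT.lf (nat_lit 76) (nat_lit 13004784180) (nat_lit 0) (nat_lit 15133915322) (nat_lit 1140) (nat_lit 15387849980) (nat_lit 145) (nat_lit 5) (nat_lit 144) (nat_lit 5) (nat_lit 159) (nat_lit 5) (nat_lit 345) (nat_lit 334) (nat_lit 101)) (XT.nd (nat_lit 78) (nat_lit 0) (nat_lit 0) (XT.lf (nat_lit 0) (nat_lit 30232205673) (nat_lit 1064) (nat_lit 12257768868) (nat_lit 1140) (nat_lit 1746500428) (nat_lit 145) (nat_lit 5) (nat_lit 159) (nat_lit 5) (nat_lit 160) (nat_lit 5) (nat_lit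 346) (nat_lit 334) (nat_lit 100)) (XT.lf (nat_lit 76) (nat_lit 6530813766) (nat_lit 0) (nat_lit 26069081670) (nat_lit 1140) (nat_lit 12361464732) (nat_lit 146) (nat_lit 5) (nat_lit 145) (nat_lit 5) (nat_lit 160) (nat_lit 5) (nat_lit 347) (nat_lit 334) (nat_lit 99)))) (XT.nd (nat_lit 78) (nat_lit 0) (nat_lit 76) (XT.lf (nat_lit 76) (nat_lit 26133402620) (nat_lit 0) (nat_lit 9027779441) (nat_lit 1140) (nat_lit 10543136077) (nat_lit 146) (nat_lit 5) (nat_lit 145) (nat_lit 5) (nat_lit 160) (nat_lit 5) (nat_lit 348) (nat_lit 334) (nat_lit 98)) (XT.nd (nat_lit 78) (nat_lit 0) (nat_lit 0) (XT.lf (nat_lit 0) (nat_lit 37880077295) (nat_lit 1064) (nat_lit 228378691) (nat_lit 1140) (nat_lit 8358688873) (nat_lit 146) (nat_lit 5) (nat_lit 160) (nat_lit 5) (nat_lit 161) (nat_lit 5) (nat_lit 349) (nat_lit 334) (nat_lit 97)) (XT.lf (nat_lit 76) (nat_lit 19994300665) (nat_lit 0) (nat_lit 20966679134) (nat_lit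 1140) (nat_lit 6283466387) (nat_lit 147) (nat_lit 5) (nat_lit 146) (nat_lit 5) (nat_lit 161) (nat_lit 5) (nat_lit 350) (nat_lit 334) (nat_lit 96))))))))
noncomputable def xc252 : XT := (XT.nd (nat_lit 40404) (nat_lit 0) (nat_lit 532) (XT.nd (nat_lit 39546) (nat_lit 0) (nat_lit 2356) (XT.nd (nat_lit 390) (nat_lit 1064) (nat_lit 0) (XT.nd (nat_lit 156) (nat_lit 684) (nat_lit 0) (XT.nd (nat_lit 78) (nat_lit 988) (nat_lit 0) (XT.lf (nat_lit 76) (nat_lit 40827440425) (nat_lit 0) (nat_lit 3308058709) (nat_lit 1140) (nat_lit 3909534658) (nat_lit 147) (nat_lit 5) (nat_lit 146) (nat_lit 5) (nat_lit 161) (nat_lit 5) (nat_lit 351) (nat_lit 334) (nat_lit 95)) (XT.lf (nat_lit 0) (nat_lit 13536122486) (nat_lit 1064) (nat_lit 34141205896) (nat_lit 1140) (nat_lit 1184151260) (nat_lit 133) (nat_lit 5) (nat_lit 147) (nat_lit 5) (nat_lit 148) (nat_lit 5) (nat_lit 352) (nat_lit 334) (nat_lit 94))) (XT.nd (nat_lit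 78) (nat_lit 608) (nat_lit 0) (XT.lf (nat_lit 0) (nat_lit 1696609135) (nat_lit 1140) (nat_lit 14689832544) (nat_lit 76) (nat_lit 33312353255) (nat_lit 132) (nat_lit 5) (nat_lit 147) (nat_lit 5) (nat_lit 133) (nat_lit 5) (nat_lit 353) (nat_lit 334) (nat_lit 93)) (XT.nd (nat_lit 78) (nat_lit 0) (nat_lit 0) (XT.lf (nat_lit 0) (nat_lit 4722214313) (nat_lit 684) (nat_lit 43895478231) (nat_lit 76) (nat_lit 1940721351) (nat_lit 124) (nat_lit 5) (nat_lit 133) (nat_lit 5) (nat_lit 125) (nat_lit 5) (nat_lit 354) (nat_lit 334) (nat_lit 92)) (XT.lf (nat_lit 0) (nat_lit 8149618783) (nat_lit 684) (nat_lit 22646594062) (nat_lit 76) (nat_lit 20638280173) (nat_lit 124) (nat_lit 5) (nat_lit 133) (nat_lit 5) (nat_lit 125) (nat_lit 5) (nat_lit 355) (nat_lit 334) (nat_lit 91))))) (XT.nd (nat_lit 234) (nat_lit 532) (nat_lit 0) (XT.nd (nat_lit 78) (nat_lit 532) (nat_lit 0) (XT.lf (nat_lit 0) (nat_lit 11678856974)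 (nat_lit 684) (nat_lit 761142577) (nat_lit 76) (nat_lit 39896887071) (nat_lit 124) (nat_lit 5) (nat_lit 133) (nat_lit 5) (nat_lit 125) (nat_lit 5) (nat_lit 356) (nat_lit 334) (nat_lit 90)) (XT.nd (nat_lit 78) (nat_lit 0) (nat_lit 0) (XT.lf (nat_lit 0) (nat_lit 15590820879) (nat_lit 608) (nat_lit 31110791980) (nat_lit 76) (nat_lit 6556436101) (nat_lit 117) (nat_lit 5) (nat_lit 125) (nat_lit 5) (nat_lit 118) (nat_lit 5) (nat_lit 357) (nat_lit 334) (nat_lit 89)) (XT.lf (nat_lit 0) (nat_lit 19750134904) (nat_lit 608) (nat_lit 8572244494) (nat_lit 76) (nat_lit 25880569348) (nat_lit 117) (nat_lit 5) (nat_lit 125) (nat_lit 5) (nat_lit 118) (nat_lit 5) (nat_lit 358) (nat_lit 334) (nat_lit 88)))) (XT.nd (nat_lit 38766) (nat_lit 0) (nat_lit 2280) (XT.lf (nat_lit 0) (nat_lit 14932986152) (nat_lit 532) (nat_lit 9243875295) (nat_lit 608) (nat_lit 30995057332) (nat_lit 110) (nat_lit 5) (nat_lit 117) (nat_lit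 5) (nat_lit 118) (nat_lit 5) (nat_lit 359) (nat_lit 334) (nat_lit 87)) (XT.nd (nat_lit 78) (nat_lit 0) (nat_lit 0) (XT.lf (nat_lit 0) (nat_lit 8341101137) (nat_lit 1140) (nat_lit 5288719506) (nat_lit 1140) (nat_lit 5288719506) (nat_lit 140) (nat_lit 3) (nat_lit 155) (nat_lit 3) (nat_lit 155) (nat_lit 5) (nat_lit 335) (nat_lit 335) (nat_lit 110)) (XT.lf (nat_lit 76) (nat_lit 4945431770) (nat_lit 0) (nat_lit 12075539915) (nat_lit 1140) (nat_lit 21380898440) (nat_lit 141) (nat_lit 5) (nat_lit 140) (nat_lit 3) (nat_lit 155) (nat_lit 5) (nat_lit 336) (nat_lit 335) (nat_lit 109)))))) (XT.nd (nat_lit 390) (nat_lit 0) (nat_lit 152) (XT.nd (nat_lit 156) (nat_lit 0) (nat_lit 0) (XT.nd (nat_lit 78) (nat_lit 0) (nat_lit 0) (XT.lf (nat_lit 0) (nat_lit 17510432499) (nat_lit 1064) (nat_lit 17865803717) (nat_lit 1140) (nat_lit 3603155886) (nat_lit 141) (nat_lit 5) (nat_lit 155) (nat_lit 5) (nat_lit 156) (nat_lit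 5) (nat_lit 337) (nat_lit 335) (nat_lit 108)) (XT.lf (nat_lit 0) (nat_lit 18132582790) (nat_lit 1064) (nat_lit 1927886070) (nat_lit 1140) (nat_lit 19510234886) (nat_lit 141) (nat_lit 5) (nat_lit 155) (nat_lit 5) (nat_lit 156) (nat_lit 5) (nat_lit 338) (nat_lit 335) (nat_lit 107))) (XT.nd (nat_lit 78) (nat_lit 0) (nat_lit 76) (XT.lf (nat_lit 76) (nat_lit 14775644438) (nat_lit 0) (nat_lit 4138276802) (nat_lit 1140) (nat_lit 21261621848) (nat_lit 142) (nat_lit 5) (nat_lit 141) (nat_lit 5) (nat_lit 156) (nat_lit 5) (nat_lit 339) (nat_lit 335) (nat_lit 106)) (XT.nd (nat_lit 78) (nat_lit 0) (nat_lit 0) (XT.lf (nat_lit 0) (nat_lit 19854759313) (nat_lit 1064) (nat_lit 8897098068) (nat_lit 1140) (nat_lit 12042592383) (nat_lit 142) (nat_lit 5) (nat_lit 156) (nat_lit 5) (nat_lit 157) (nat_lit 5) (nat_lit 340) (nat_lit 335) (nat_lit 105)) (XT.lf (nat_lit 76) (nat_lit 8219331814) (nat_lit 0) (nat_lit 12723048756)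 (nat_lit 1140) (nat_lit 20485990155) (nat_lit 143) (nat_lit 5) (nat_lit 142) (nat_lit 5) (nat_lit 157) (nat_lit 5) (nat_lit 341) (nat_lit 335) (nat_lit 104))))) (XT.nd (nat_lit 234) (nat_lit 0) (nat_lit 76) (XT.nd (nat_lit 78) (nat_lit 0) (nat_lit 0) (XT.lf (nat_lit 0) (nat_lit 22188376636) (nat_lit 1064) (nat_lit 16085178965) (nat_lit 1140) (nat_lit 3803985040) (nat_lit 143) (nat_lit 5) (nat_lit 157) (nat_lit 5) (nat_lit 158) (nat_lit 5) (nat_lit 342) (nat_lit 335) (nat_lit 103)) (XT.nd (nat_lit 78) (nat_lit 0) (nat_lit 0) (XT.lf (nat_lit 76) (nat_lit 1453911174) (nat_lit 0) (nat_lit 22156442483) (nat_lit 1140) (nat_lit 19131677570) (nat_lit 144) (nat_lit 5) (nat_lit 143) (nat_lit 5) (nat_lit 158) (nat_lit 5) (nat_lit 343) (nat_lit 335) (nat_lit 102)) (XT.lf (nat_lit 76) (nat_lit 19848027234) (nat_lit 0) (nat_lit 5388076693) (nat_lit 1140) (nat_lit 18185522686) (nat_lit 144) (nat_lit 5) (nat_lit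 143) (nat_lit 5) (nat_lit 158) (nat_lit 5) (nat_lit 344) (nat_lit 335) (nat_lit 101)))) (XT.nd (nat_lit 78) (nat_lit 0) (nat_lit 0) (XT.lf (nat_lit 0) (nat_lit 27023584190) (nat_lit 1064) (nat_lit 5442770431) (nat_lit 1140) (nat_lit 11651869912) (nat_lit 144) (nat_lit 5) (nat_lit 158) (nat_lit 5) (nat_lit 159) (nat_lit 5) (nat_lit 345) (nat_lit 335) (nat_lit 100)) (XT.nd (nat_lit 78) (nat_lit 0) (nat_lit 76) (XT.lf (nat_lit 76) (nat_lit 13440028174) (nat_lit 0) (nat_lit 15605966365) (nat_lit 1140) (nat_lit 15784289981) (nat_lit 145) (nat_lit 5) (nat_lit 144) (nat_lit 5) (nat_lit 159) (nat_lit 5) (nat_lit 346) (nat_lit 335) (nat_lit 99)) (XT.lf (nat_lit 0) (nat_lit 31200298737) (nat_lit 1064) (nat_lit 12579545366) (nat_lit 1140) (nat_lit 1781728759) (nat_lit 145) (nat_lit 5) (nat_lit 159) (nat_lit 5) (nat_lit 160) (nat_lit 5) (nat_lit 347) (nat_lit 335) (nat_lit 98))))))) (XT.nd (nat_lit 39702)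 (nat_lit 0) (nat_lit 1748) (XT.nd (nat_lit 390) (nat_lit 2128) (nat_lit 0) (XT.nd (nat_lit 156) (nat_lit 0) (nat_lit 76) (XT.nd (nat_lit 78) (nat_lit 0) (nat_lit 0) (XT.lf (nat_lit 76) (nat_lit 6772244192) (nat_lit 0) (nat_lit 26865432038) (nat_lit 1140) (nat_lit 12670573410) (nat_lit 146) (nat_lit 5) (nat_lit 145) (nat_lit 5) (nat_lit 160) (nat_lit 5) (nat_lit 348) (nat_lit 335) (nat_lit 97)) (XT.lf (nat_lit 76) (nat_lit 26961585294) (nat_lit 0) (nat_lit 9312474881) (nat_lit 1140) (nat_lit 10799493010) (nat_lit 146) (nat_lit 5) (nat_lit 145) (nat_lit 5) (nat_lit 160) (nat_lit 5) (nat_lit 349) (nat_lit 335) (nat_lit 96))) (XT.nd (nat_lit 78) (nat_lit 0) (nat_lit 0) (XT.lf (nat_lit 0) (nat_lit 39072702333) (nat_lit 1064) (nat_lit 190367582) (nat_lit 1140) (nat_lit 8596253852) (nat_lit 146) (nat_lit 5) (nat_lit 160) (nat_lit 5) (nat_lit 161) (nat_lit 5) (nat_lit 350) (nat_lit 335) (nat_lit 95))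 (XT.nd (nat_lit 78) (nat_lit 0) (nat_lit 0) (XT.lf (nat_lit 76) (nat_lit 20638552326) (nat_lit 0) (nat_lit 21606269049) (nat_lit 1140) (nat_lit 6415163408) (nat_lit 147) (nat_lit 5) (nat_lit 146) (nat_lit 5) (nat_lit 161) (nat_lit 5) (nat_lit 351) (nat_lit 335) (nat_lit 94)) (XT.lf (nat_lit 76) (nat_lit 42095392416) (nat_lit 0) (nat_lit 3417581578) (nat_lit 1140) (nat_lit 3971668299) (nat_lit 147) (nat_lit 5) (nat_lit 146) (nat_lit 5) (nat_lit 161) (nat_lit 5) (nat_lit 352) (nat_lit 335) (nat_lit 93))))) (XT.nd (nat_lit 234) (nat_lit 532) (nat_lit 0) (XT.nd (nat_lit 78) (nat_lit 684) (nat_lit 0) (XT.lf (nat_lit 0) (nat_lit 13986735396) (nat_lit 1064) (nat_lit 35173099188) (nat_lit 1140) (nat_lit 1165787725) (nat_lit 133) (nat_lit 5) (nat_lit 147) (nat_lit 5) (nat_lit 148) (nat_lit 5) (nat_lit 353) (nat_lit 335) (nat_lit 92)) (XT.nd (nat_lit 78) (nat_lit 608) (nat_lit 0) (XT.lf (nat_lit 0) (nat_lit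 1798805004) (nat_lit 1140) (nat_lit 15086146013) (nat_lit 76) (nat_lit 34303140521) (nat_lit 132) (nat_lit 5) (nat_lit 147) (nat_lit 5) (nat_lit 133) (nat_lit 5) (nat_lit 354) (nat_lit 335) (nat_lit 91)) (XT.lf (nat_lit 0) (nat_lit 4914046310) (nat_lit 684) (nat_lit 45166704462) (nat_lit 76) (nat_lit 1992785993) (nat_lit 124) (nat_lit 5) (nat_lit 133) (nat_lit 5) (nat_lit 125) (nat_lit 5) (nat_lit 355) (nat_lit 335) (nat_lit 90)))) (XT.nd (nat_lit 78) (nat_lit 532) (nat_lit 0) (XT.lf (nat_lit 0) (nat_lit 8442811780) (nat_lit 684) (nat_lit 23281683034) (nat_lit 76) (nat_lit 21251450910) (nat_lit 124) (nat_lit 5) (nat_lit 133) (nat_lit 5) (nat_lit 125) (nat_lit 5) (nat_lit 356) (nat_lit 335) (nat_lit 89)) (XT.nd (nat_lit 78) (nat_lit 532) (nat_lit 0) (XT.lf (nat_lit 0) (nat_lit 12076508541) (nat_lit 684) (nat_lit 740958553) (nat_lit 76) (nat_lit 41087990122) (nat_lit 124) (nat_lit 5) (nat_lit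 133) (nat_lit 5) (nat_lit 125) (nat_lit 5) (nat_lit 357) (nat_lit 335) (nat_lit 88)) (XT.lf (nat_lit 0) (nat_lit 16104827796) (nat_lit 608) (nat_lit 31999979862) (nat_lit 76) (nat_lit 6749480293) (nat_lit 117) (nat_lit 5) (nat_lit 125) (nat_lit 5) (nat_lit 118) (nat_lit 5) (nat_lit 358) (nat_lit 335) (nat_lit 87)))))) (XT.nd (nat_lit 468) (nat_lit 0) (nat_lit 152) (XT.nd (nat_lit 234) (nat_lit 0) (nat_lit 76) (XT.nd (nat_lit 78) (nat_lit 0) (nat_lit 0) (XT.lf (nat_lit 0) (nat_lit 8631937936) (nat_lit 1140) (nat_lit 5426415539) (nat_lit 1140) (nat_lit 5426415539) (nat_lit 140) (nat_lit 3) (nat_lit 155) (nat_lit 3) (nat_lit 155) (nat_lit 5) (nat_lit 336) (nat_lit 336) (nat_lit 108)) (XT.nd (nat_lit 78) (nat_lit 0) (nat_lit 76) (XT.lf (nat_lit 76) (nat_lit 5135314738) (nat_lit 0) (nat_lit 12475527476) (nat_lit 1140) (nat_lit 21940494684) (nat_lit 141) (nat_lit 5) (nat_lit 140) (nat_lit 3) (nat_lit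 155) (nat_lit 5) (nat_lit 337) (nat_lit 336) (nat_lit 107)) (XT.lf (nat_lit 0) (nat_lit 18112326811) (nat_lit 1064) (nat_lit 18358601181) (nat_lit 1140) (nat_lit 3675342520) (nat_lit 141) (nat_lit 5) (nat_lit 155) (nat_lit 5) (nat_lit 156) (nat_lit 5) (nat_lit 338) (nat_lit 336) (nat_lit 106)))) (XT.nd (nat_lit 78) (nat_lit 0) (nat_lit 0) (XT.lf (nat_lit 0) (nat_lit 18750911086) (nat_lit 1064) (nat_lit 1943803578) (nat_lit 1140) (nat_lit 20060679756) (nat_lit 141) (nat_lit 5) (nat_lit 155) (nat_lit 5) (nat_lit 156) (nat_lit 5) (nat_lit 339) (nat_lit 336) (nat_lit 105)) (XT.nd (nat_lit 78) (nat_lit 0) (nat_lit 76) (XT.lf (nat_lit 76) (nat_lit 15260421874) (nat_lit 0) (nat_lit 4293501259) (nat_lit 1140) (nat_lit 21824514627) (nat_lit 142) (nat_lit 5) (nat_lit 141) (nat_lit 5) (nat_lit 156) (nat_lit 5) (nat_lit 340) (nat_lit 336) (nat_lit 104)) (XT.lf (nat_lit 0) (nat_lit 20520582222) (nat_lit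 1064) (nat_lit 9121119315) (nat_lit 1140) (nat_lit 12374287878) (nat_lit 142) (nat_lit 5) (nat_lit 156) (nat_lit 5) (nat_lit 157) (nat_lit 5) (nat_lit 341) (nat_lit 336) (nat_lit 103))))) (XT.nd (nat_lit 234) (nat_lit 0) (nat_lit 76) (XT.nd (nat_lit 78) (nat_lit 0) (nat_lit 76) (XT.lf (nat_lit 76) (nat_lit 8508382957) (nat_lit 0) (nat_lit 13130813337) (nat_lit 1140) (nat_lit 21029786273) (nat_lit 143) (nat_lit 5) (nat_lit 142) (nat_lit 5) (nat_lit 157) (nat_lit 5) (nat_lit 342) (nat_lit 336) (nat_lit 102)) (XT.nd (nat_lit 78) (nat_lit 0) (nat_lit 0) (XT.lf (nat_lit 0) (nat_lit 22920332476) (nat_lit 1064) (nat_lit 16524082782) (nat_lit 1140) (nat_lit 3893284845) (nat_lit 143) (nat_lit 5) (nat_lit 157) (nat_lit 5) (nat_lit 158) (nat_lit 5) (nat_lit 343) (nat_lit 336) (nat_lit 101)) (XT.lf (nat_lit 76) (nat_lit 1540752106) (nat_lit 0) (nat_lit 22842700993) (nat_lit 1140) (nat_lit 19638722952) (nat_lit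 144) (nat_lit 5) (nat_lit 143) (nat_lit 5) (nat_lit 158) (nat_lit 5) (nat_lit 344) (nat_lit 336) (nat_lit 100)))) (XT.nd (nat_lit 78) (nat_lit 0) (nat_lit 76) (XT.lf (nat_lit 76) (nat_lit 20485432708) (nat_lit 0) (nat_lit 5570656116) (nat_lit 1140) (nat_lit 18666132109) (nat_lit 144) (nat_lit 5) (nat_lit 143) (nat_lit 5) (nat_lit 158) (nat_lit 5) (nat_lit 345) (nat_lit 336) (nat_lit 99)) (XT.nd (nat_lit 78) (nat_lit 0) (nat_lit 0) (XT.lf (nat_lit 0) (nat_lit 27895166005) (nat_lit 1064) (nat_lit 5563121122) (nat_lit 1140) (nat_lit 11981495365) (nat_lit 144) (nat_lit 5) (nat_lit 158) (nat_lit 5) (nat_lit 159) (nat_lit 5) (nat_lit 346) (nat_lit 336) (nat_lit 98)) (XT.lf (nat_lit 76) (nat_lit 13885740536) (nat_lit 0) (nat_lit 16091143737) (nat_lit 1140) (nat_lit 16196365671) (nat_lit 145) (nat_lit 5) (nat_lit 144) (nat_lit 5) (nat_lit 159) (nat_lit 5) (nat_lit 347) (nat_lit 336) (nat_lit 97))))))))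
noncomputable def xc253 : XT := (XT.nd (nat_lit 40794) (nat_lit 0) (nat_lit 0) (XT.nd (nat_lit 39858) (nat_lit 0) (nat_lit 1216) (XT.nd (nat_lit 390) (nat_lit 1596) (nat_lit 0) (XT.nd (nat_lit 156) (nat_lit 0) (nat_lit 0) (XT.nd (nat_lit 78) (nat_lit 0) (nat_lit 0) (XT.lf (nat_lit 0) (nat_lit 32193925660) (nat_lit 1064) (nat_lit 12913613255) (nat_lit 1140) (nat_lit 1818999377) (nat_lit 145) (nat_lit 5) (nat_lit 159) (nat_lit 5) (nat_lit 160) (nat_lit 5) (nat_lit 348) (nat_lit 336) (nat_lit 96)) (XT.lf (nat_lit 76) (nat_lit 7018305299) (nat_lit 0) (nat_lit 27684853306) (nat_lit 1140) (nat_lit 12992499206) (nat_lit 146) (nat_lit 5) (nat_lit 145) (nat_lit 5) (nat_lit 160) (nat_lit 5) (nat_lit 349) (nat_lit 336) (nat_lit 95))) (XT.nd (nat_lit 78) (nat_lit 0) (nat_lit 76) (XT.lf (nat_lit 76) (nat_lit 27812077302) (nat_lit 0) (nat_lit 9604915445) (nat_lit 1140) (nat_lit 11066981289) (nat_lit 146)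 (nat_lit 5) (nat_lit 145) (nat_lit 5) (nat_lit 160) (nat_lit 5) (nat_lit 350) (nat_lit 336) (nat_lit 94)) (XT.nd (nat_lit 78) (nat_lit 0) (nat_lit 0) (XT.lf (nat_lit 0) (nat_lit 40297878708) (nat_lit 1064) (nat_lit 153791430) (nat_lit 1140) (nat_lit 8841703267) (nat_lit 146) (nat_lit 5) (nat_lit 160) (nat_lit 5) (nat_lit 161) (nat_lit 5) (nat_lit 351) (nat_lit 336) (nat_lit 93)) (XT.lf (nat_lit 76) (nat_lit 21299581496) (nat_lit 0) (nat_lit 22264438778) (nat_lit 1140) (nat_lit 6554072293) (nat_lit 147) (nat_lit 5) (nat_lit 146) (nat_lit 5) (nat_lit 161) (nat_lit 5) (nat_lit 352) (nat_lit 336) (nat_lit 92))))) (XT.nd (nat_lit 234) (nat_lit 608) (nat_lit 0) (XT.nd (nat_lit 78) (nat_lit 1064) (nat_lit 0) (XT.lf (nat_lit 76) (nat_lit 43398907198) (nat_lit 0) (nat_lit 3529799955) (nat_lit 1140) (nat_lit 4038831924) (nat_lit 147) (nat_lit 5) (nat_lit 146) (nat_lit 5) (nat_lit 161) (nat_lit 5) (nat_lit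 353) (nat_lit 336) (nat_lit 91)) (XT.nd (nat_lit 78) (nat_lit 76) (nat_lit 0) (XT.lf (nat_lit 0) (nat_lit 14448310533) (nat_lit 1064) (nat_lit 36235509728) (nat_lit 1140) (nat_lit 1149966679) (nat_lit 133) (nat_lit 5) (nat_lit 147) (nat_lit 5) (nat_lit 148) (nat_lit 5) (nat_lit 354) (nat_lit 336) (nat_lit 90)) (XT.lf (nat_lit 0) (nat_lit 1901122057) (nat_lit 1140) (nat_lit 15496896565) (nat_lit 76) (nat_lit 35324144122) (nat_lit 132) (nat_lit 5) (nat_lit 147) (nat_lit 5) (nat_lit 133) (nat_lit 5) (nat_lit 355) (nat_lit 336) (nat_lit 89)))) (XT.nd (nat_lit 78) (nat_lit 0) (nat_lit 0) (XT.lf (nat_lit 0) (nat_lit 5108753557) (nat_lit 684) (nat_lit 46478687294) (nat_lit 76) (nat_lit 2046766011) (nat_lit 124) (nat_lit 5) (nat_lit 133) (nat_lit 5) (nat_lit 125) (nat_lit 5) (nat_lit 356) (nat_lit 336) (nat_lit 88)) (XT.nd (nat_lit 39078) (nat_lit 0) (nat_lit 1216) (XT.lf (nat_lit 0) (nat_lit 8742004733)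 (nat_lit 684) (nat_lit 23938368184) (nat_lit 76) (nat_lit 21883359912) (nat_lit 124) (nat_lit 5) (nat_lit 133) (nat_lit 5) (nat_lit 125) (nat_lit 5) (nat_lit 357) (nat_lit 336) (nat_lit 87)) (XT.lf (nat_lit 0) (nat_lit 8929169017) (nat_lit 1140) (nat_lit 5569445961) (nat_lit 1140) (nat_lit 5569445961) (nat_lit 140) (nat_lit 3) (nat_lit 155) (nat_lit 3) (nat_lit 155) (nat_lit 5) (nat_lit 337) (nat_lit 337) (nat_lit 106)))))) (XT.nd (nat_lit 468) (nat_lit 0) (nat_lit 228) (XT.nd (nat_lit 234) (nat_lit 0) (nat_lit 76) (XT.nd (nat_lit 78) (nat_lit 0) (nat_lit 76) (XT.lf (nat_lit 76) (nat_lit 5328510776) (nat_lit 0) (nat_lit 12885349303) (nat_lit 1140) (nat_lit 22521576234) (nat_lit 141) (nat_lit 5) (nat_lit 140) (nat_lit 3) (nat_lit 155) (nat_lit 5) (nat_lit 338) (nat_lit 337) (nat_lit 105)) (XT.nd (nat_lit 78) (nat_lit 0) (nat_lit 0) (XT.lf (nat_lit 0) (nat_lit 18727881870) (nat_lit 1064) (nat_lit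 18868661086) (nat_lit 1140) (nat_lit 3751756022) (nat_lit 141) (nat_lit 5) (nat_lit 155) (nat_lit 5) (nat_lit 156) (nat_lit 5) (nat_lit 339) (nat_lit 337) (nat_lit 104)) (XT.lf (nat_lit 0) (nat_lit 19383521190) (nat_lit 1064) (nat_lit 1962604936) (nat_lit 1140) (nat_lit 20629639203) (nat_lit 141) (nat_lit 5) (nat_lit 155) (nat_lit 5) (nat_lit 156) (nat_lit 5) (nat_lit 340) (nat_lit 337) (nat_lit 103)))) (XT.nd (nat_lit 78) (nat_lit 0) (nat_lit 76) (XT.lf (nat_lit 76) (nat_lit 15757359899) (nat_lit 0) (nat_lit 4451598551) (nat_lit 1140) (nat_lit 22408596964) (nat_lit 142) (nat_lit 5) (nat_lit 141) (nat_lit 5) (nat_lit 156) (nat_lit 5) (nat_lit 341) (nat_lit 337) (nat_lit 102)) (XT.nd (nat_lit 78) (nat_lit 0) (nat_lit 0) (XT.lf (nat_lit 0) (nat_lit 21202351192) (nat_lit 1064) (nat_lit 9354323358) (nat_lit 1140) (nat_lit 12717632381) (nat_lit 142) (nat_lit 5) (nat_lit 156) (nat_lit 5) (nat_lit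 157) (nat_lit 5) (nat_lit 342) (nat_lit 337) (nat_lit 101)) (XT.lf (nat_lit 76) (nat_lit 8803667614) (nat_lit 0) (nat_lit 13549314152) (nat_lit 1140) (nat_lit 21593959542) (nat_lit 143) (nat_lit 5) (nat_lit 142) (nat_lit 5) (nat_lit 157) (nat_lit 5) (nat_lit 343) (nat_lit 337) (nat_lit 100))))) (XT.nd (nat_lit 234) (nat_lit 0) (nat_lit 76) (XT.nd (nat_lit 78) (nat_lit 0) (nat_lit 0) (XT.lf (nat_lit 0) (nat_lit 23670440838) (nat_lit 1064) (nat_lit 16978659490) (nat_lit 1140) (nat_lit 3986688400) (nat_lit 143) (nat_lit 5) (nat_lit 157) (nat_lit 5) (nat_lit 158) (nat_lit 5) (nat_lit 344) (nat_lit 337) (nat_lit 99)) (XT.nd (nat_lit 78) (nat_lit 0) (nat_lit 0) (XT.lf (nat_lit 76) (nat_lit 1627717053) (nat_lit 0) (nat_lit 23548309326) (nat_lit 1140) (nat_lit 20164820314) (nat_lit 144) (nat_lit 5) (nat_lit 143) (nat_lit 5) (nat_lit 158) (nat_lit 5) (nat_lit 345) (nat_lit 337) (nat_lit 98)) (XT.lf (nat_lit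 76) (nat_lit 21139551402) (nat_lit 0) (nat_lit 5757511045) (nat_lit 1140) (nat_lit 19164888571) (nat_lit 144) (nat_lit 5) (nat_lit 143) (nat_lit 5) (nat_lit 158) (nat_lit 5) (nat_lit 346) (nat_lit 337) (nat_lit 97)))) (XT.nd (nat_lit 78) (nat_lit 0) (nat_lit 0) (XT.lf (nat_lit 0) (nat_lit 28789400841) (nat_lit 1064) (nat_lit 5689546829) (nat_lit 1140) (nat_lit 12322153683) (nat_lit 144) (nat_lit 5) (nat_lit 158) (nat_lit 5) (nat_lit 159) (nat_lit 5) (nat_lit 347) (nat_lit 337) (nat_lit 96)) (XT.nd (nat_lit 78) (nat_lit 0) (nat_lit 76) (XT.lf (nat_lit 76) (nat_lit 14342383933) (nat_lit 0) (nat_lit 16589900654) (nat_lit 1140) (nat_lit 16624331286) (nat_lit 145) (nat_lit 5) (nat_lit 144) (nat_lit 5) (nat_lit 159) (nat_lit 5) (nat_lit 348) (nat_lit 337) (nat_lit 95)) (XT.lf (nat_lit 0) (nat_lit 33214053884) (nat_lit 1064) (nat_lit 13260189837) (nat_lit 1140) (nat_lit 1858316983) (nat_lit 145) (nat_lit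 5) (nat_lit 159) (nat_lit 5) (nat_lit 160) (nat_lit 5) (nat_lit 349) (nat_lit 337) (nat_lit 94))))))) (XT.nd (nat_lit 39936) (nat_lit 0) (nat_lit 1292) (XT.nd (nat_lit 390) (nat_lit 1596) (nat_lit 0) (XT.nd (nat_lit 156) (nat_lit 0) (nat_lit 76) (XT.nd (nat_lit 78) (nat_lit 0) (nat_lit 0) (XT.lf (nat_lit 76) (nat_lit 7269285961) (nat_lit 0) (nat_lit 28528084650) (nat_lit 1140) (nat_lit 13327423200) (nat_lit 146) (nat_lit 5) (nat_lit 145) (nat_lit 5) (nat_lit 160) (nat_lit 5) (nat_lit 350) (nat_lit 337) (nat_lit 93)) (XT.lf (nat_lit 76) (nat_lit 28685693507) (nat_lit 0) (nat_lit 9905379165) (nat_lit 1140) (nat_lit 11345737347) (nat_lit 146) (nat_lit 5) (nat_lit 145) (nat_lit 5) (nat_lit 160) (nat_lit 5) (nat_lit 351) (nat_lit 337) (nat_lit 92))) (XT.nd (nat_lit 78) (nat_lit 0) (nat_lit 0) (XT.lf (nat_lit 0) (nat_lit 41556768227) (nat_lit 1064) (nat_lit 118545450) (nat_lit 1140) (nat_lit 9095230168)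 (nat_lit 146) (nat_lit 5) (nat_lit 160) (nat_lit 5) (nat_lit 161) (nat_lit 5) (nat_lit 352) (nat_lit 337) (nat_lit 91)) (XT.nd (nat_lit 78) (nat_lit 0) (nat_lit 0) (XT.lf (nat_lit 76) (nat_lit 21978037882) (nat_lit 0) (nat_lit 22941780611) (nat_lit 1140) (nat_lit 6700222205) (nat_lit 147) (nat_lit 5) (nat_lit 146) (nat_lit 5) (nat_lit 161) (nat_lit 5) (nat_lit 353) (nat_lit 337) (nat_lit 90)) (XT.lf (nat_lit 76) (nat_lit 44739193775) (nat_lit 0) (nat_lit 3644828585) (nat_lit 1140) (nat_lit 4110994690) (nat_lit 147) (nat_lit 5) (nat_lit 146) (nat_lit 5) (nat_lit 161) (nat_lit 5) (nat_lit 354) (nat_lit 337) (nat_lit 89))))) (XT.nd (nat_lit 39312) (nat_lit 0) (nat_lit 1216) (XT.nd (nat_lit 78) (nat_lit 684) (nat_lit 0) (XT.lf (nat_lit 0) (nat_lit 14921323498) (nat_lit 1064) (nat_lit 37329378268) (nat_lit 1140) (nat_lit 1136586825) (nat_lit 133) (nat_lit 5) (nat_lit 147) (nat_lit 5) (nat_lit 148)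 (nat_lit 5) (nat_lit 355) (nat_lit 337) (nat_lit 88)) (XT.nd (nat_lit 78) (nat_lit 608) (nat_lit 0) (XT.lf (nat_lit 0) (nat_lit 2003732967) (nat_lit 1140) (nat_lit 15922371067) (nat_lit 76) (nat_lit 36376242266) (nat_lit 132) (nat_lit 5) (nat_lit 147) (nat_lit 5) (nat_lit 133) (nat_lit 5) (nat_lit 356) (nat_lit 337) (nat_lit 87)) (XT.lf (nat_lit 0) (nat_lit 5306587620) (nat_lit 684) (nat_lit 47832499039) (nat_lit 76) (nat_lit 2102698578) (nat_lit 124) (nat_lit 5) (nat_lit 133) (nat_lit 5) (nat_lit 125) (nat_lit 5) (nat_lit 357) (nat_lit 337) (nat_lit 86)))) (XT.nd (nat_lit 78) (nat_lit 0) (nat_lit 0) (XT.lf (nat_lit 0) (nat_lit 9233120007) (nat_lit 1140) (nat_lit 5717901719) (nat_lit 1140) (nat_lit 5717901719) (nat_lit 140) (nat_lit 3) (nat_lit 155) (nat_lit 3) (nat_lit 155) (nat_lit 5) (nat_lit 338) (nat_lit 338) (nat_lit 104)) (XT.nd (nat_lit 78) (nat_lit 0) (nat_lit 76) (XT.lf (nat_lit 76)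 (nat_lit 5525256094) (nat_lit 0) (nat_lit 13305424724) (nat_lit 1140) (nat_lit 23124517996) (nat_lit 141) (nat_lit 5) (nat_lit 140) (nat_lit 3) (nat_lit 155) (nat_lit 5) (nat_lit 339) (nat_lit 338) (nat_lit 103)) (XT.lf (nat_lit 0) (nat_lit 19357759852) (nat_lit 1064) (nat_lit 19396359026) (nat_lit 1140) (nat_lit 3832404872) (nat_lit 141) (nat_lit 5) (nat_lit 155) (nat_lit 5) (nat_lit 156) (nat_lit 5) (nat_lit 340) (nat_lit 338) (nat_lit 102)))))) (XT.nd (nat_lit 468) (nat_lit 0) (nat_lit 152) (XT.nd (nat_lit 234) (nat_lit 0) (nat_lit 76) (XT.nd (nat_lit 78) (nat_lit 0) (nat_lit 0) (XT.lf (nat_lit 0) (nat_lit 20031086560) (nat_lit 1064) (nat_lit 1984238529) (nat_lit 1140) (nat_lit 21217553787) (nat_lit 141) (nat_lit 5) (nat_lit 155) (nat_lit 5) (nat_lit 156) (nat_lit 5) (nat_lit 341) (nat_lit 338) (nat_lit 101)) (XT.nd (nat_lit 78) (nat_lit 0) (nat_lit 76) (XT.lf (nat_lit 76) (nat_lit 16266960108)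 (nat_lit 0) (nat_lit 4612757267) (nat_lit 1140) (nat_lit 23014257548) (nat_lit 142) (nat_lit 5) (nat_lit 141) (nat_lit 5) (nat_lit 156) (nat_lit 5) (nat_lit 342) (nat_lit 338) (nat_lit 100)) (XT.lf (nat_lit 0) (nat_lit 21900775863) (nat_lit 1064) (nat_lit 9596844343) (nat_lit 1140) (nat_lit 13072877883) (nat_lit 142) (nat_lit 5) (nat_lit 156) (nat_lit 5) (nat_lit 157) (nat_lit 5) (nat_lit 343) (nat_lit 338) (nat_lit 99)))) (XT.nd (nat_lit 78) (nat_lit 0) (nat_lit 76) (XT.lf (nat_lit 76) (nat_lit 9105512743) (nat_lit 0) (nat_lit 13978959205) (nat_lit 1140) (nat_lit 22178888029) (nat_lit 143) (nat_lit 5) (nat_lit 142) (nat_lit 5) (nat_lit 157) (nat_lit 5) (nat_lit 344) (nat_lit 338) (nat_lit 98)) (XT.nd (nat_lit 78) (nat_lit 0) (nat_lit 0) (XT.lf (nat_lit 0) (nat_lit 24439464788) (nat_lit 1064) (nat_lit 17449235436) (nat_lit 1140) (nat_lit 4084237029) (nat_lit 143) (nat_lit 5) (nat_lit 157) (nat_lit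 5) (nat_lit 158) (nat_lit 5) (nat_lit 345) (nat_lit 338) (nat_lit 97)) (XT.lf (nat_lit 76) (nat_lit 1714952170) (nat_lit 0) (nat_lit 24273919038) (nat_lit 1140) (nat_lit 20710320747) (nat_lit 144) (nat_lit 5) (nat_lit 143) (nat_lit 5) (nat_lit 158) (nat_lit 5) (nat_lit 346) (nat_lit 338) (nat_lit 96))))) (XT.nd (nat_lit 234) (nat_lit 0) (nat_lit 152) (XT.nd (nat_lit 78) (nat_lit 0) (nat_lit 76) (XT.lf (nat_lit 76) (nat_lit 21811022998) (nat_lit 0) (nat_lit 5948838738) (nat_lit 1140) (nat_lit 19682122435) (nat_lit 144) (nat_lit 5) (nat_lit 143) (nat_lit 5) (nat_lit 158) (nat_lit 5) (nat_lit 347) (nat_lit 338) (nat_lit 95)) (XT.nd (nat_lit 78) (nat_lit 0) (nat_lit 0) (XT.lf (nat_lit 0) (nat_lit 29707168884) (nat_lit 1064) (nat_lit 5822088333) (nat_lit 1140) (nat_lit 12674110174) (nat_lit 144) (nat_lit 5) (nat_lit 158) (nat_lit 5) (nat_lit 159) (nat_lit 5) (nat_lit 348) (nat_lit 338) (nat_lit 94))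 (XT.lf (nat_lit 76) (nat_lit 14810426383) (nat_lit 0) (nat_lit 17102700516) (nat_lit 1140) (nat_lit 17068461021) (nat_lit 145) (nat_lit 5) (nat_lit 144) (nat_lit 5) (nat_lit 159) (nat_lit 5) (nat_lit 349) (nat_lit 338) (nat_lit 93)))) (XT.nd (nat_lit 78) (nat_lit 0) (nat_lit 0) (XT.lf (nat_lit 0) (nat_lit 34261668312) (nat_lit 1064) (nat_lit 13619507630) (nat_lit 1140) (nat_lit 1899689667) (nat_lit 145) (nat_lit 5) (nat_lit 159) (nat_lit 5) (nat_lit 160) (nat_lit 5) (nat_lit 350) (nat_lit 338) (nat_lit 92)) (XT.nd (nat_lit 78) (nat_lit 0) (nat_lit 0) (XT.lf (nat_lit 76) (nat_lit 7525475110) (nat_lit 0) (nat_lit 29395884721) (nat_lit 1140) (nat_lit 13675543585) (nat_lit 146) (nat_lit 5) (nat_lit 145) (nat_lit 5) (nat_lit 160) (nat_lit 5) (nat_lit 351) (nat_lit 338) (nat_lit 91)) (XT.lf (nat_lit 76) (nat_lit 29583264865) (nat_lit 0) (nat_lit 10214149794) (nat_lit 1140) (nat_lit 11635913049) (nat_lit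 146) (nat_lit 5) (nat_lit 145) (nat_lit 5) (nat_lit 160) (nat_lit 5) (nat_lit 352) (nat_lit 338) (nat_lit 90))))))))
noncomputable def xc254 : XT := (XT.nd (nat_lit 80340) (nat_lit 0) (nat_lit 532) (XT.nd (nat_lit 40092) (nat_lit 0) (nat_lit 532) (XT.nd (nat_lit 39624) (nat_lit 0) (nat_lit 532) (XT.nd (nat_lit 156) (nat_lit 988) (nat_lit 0) (XT.nd (nat_lit 78) (nat_lit 0) (nat_lit 0) (XT.lf (nat_lit 0) (nat_lit 42850556916) (nat_lit 1064) (nat_lit 84530201) (nat_lit 1140) (nat_lit 9357035893) (nat_lit 146) (nat_lit 5) (nat_lit 160) (nat_lit 5) (nat_lit 161) (nat_lit 5) (nat_lit 353) (nat_lit 338) (nat_lit 89)) (XT.lf (nat_lit 76) (nat_lit 22674582281) (nat_lit 0) (nat_lit 23638902603) (nat_lit 1140) (nat_lit 6853653928) (nat_lit 147) (nat_lit 5) (nat_lit 146) (nat_lit 5) (nat_lit 161) (nat_lit 5) (nat_lit 354) (nat_lit 338) (nat_lit 88))) (XT.nd (nat_lit 78) (nat_lit 988) (nat_lit 0) (XT.lf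 (nat_lit 76) (nat_lit 46117489260) (nat_lit 0) (nat_lit 3762783708) (nat_lit 1140) (nat_lit 4188135265) (nat_lit 147) (nat_lit 5) (nat_lit 146) (nat_lit 5) (nat_lit 161) (nat_lit 5) (nat_lit 355) (nat_lit 338) (nat_lit 87)) (XT.nd (nat_lit 39312) (nat_lit 0) (nat_lit 532) (XT.lf (nat_lit 0) (nat_lit 15406255736) (nat_lit 1064) (nat_lit 38455672329) (nat_lit 1140) (nat_lit 1125554017) (nat_lit 133) (nat_lit 5) (nat_lit 147) (nat_lit 5) (nat_lit 148) (nat_lit 5) (nat_lit 356) (nat_lit 338) (nat_lit 86)) (XT.lf (nat_lit 0) (nat_lit 9544118621) (nat_lit 1140) (nat_lit 5871880451) (nat_lit 1140) (nat_lit 5871880451) (nat_lit 140) (nat_lit 3) (nat_lit 155) (nat_lit 3) (nat_lit 155) (nat_lit 5) (nat_lit 339) (nat_lit 339) (nat_lit 102))))) (XT.nd (nat_lit 234) (nat_lit 0) (nat_lit 76) (XT.nd (nat_lit 78) (nat_lit 0) (nat_lit 76) (XT.lf (nat_lit 76) (nat_lit 5725786136) (nat_lit 0) (nat_lit 13736178514)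 (nat_lit 1140) (nat_lit 23749721605) (nat_lit 141) (nat_lit 5) (nat_lit 140) (nat_lit 3) (nat_lit 155) (nat_lit 5) (nat_lit 340) (nat_lit 339) (nat_lit 101)) (XT.nd (nat_lit 78) (nat_lit 0) (nat_lit 0) (XT.lf (nat_lit 0) (nat_lit 20002628312) (nat_lit 1064) (nat_lit 19942090035) (nat_lit 1140) (nat_lit 3917304598) (nat_lit 141) (nat_lit 5) (nat_lit 155) (nat_lit 5) (nat_lit 156) (nat_lit 5) (nat_lit 341) (nat_lit 339) (nat_lit 100)) (XT.lf (nat_lit 0) (nat_lit 20694286792) (nat_lit 1064) (nat_lit 2008659120) (nat_lit 1140) (nat_lit 21824883876) (nat_lit 141) (nat_lit 5) (nat_lit 155) (nat_lit 5) (nat_lit 156) (nat_lit 5) (nat_lit 342) (nat_lit 339) (nat_lit 99)))) (XT.nd (nat_lit 78) (nat_lit 0) (nat_lit 76) (XT.lf (nat_lit 76) (nat_lit 16789731295) (nat_lit 0) (nat_lit 4777165773) (nat_lit 1140) (nat_lit 23641910909) (nat_lit 142) (nat_lit 5) (nat_lit 141) (nat_lit 5) (nat_lit 156) (nat_lit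 5) (nat_lit 343) (nat_lit 339) (nat_lit 98)) (XT.nd (nat_lit 78) (nat_lit 0) (nat_lit 0) (XT.lf (nat_lit 0) (nat_lit 22616573893) (nat_lit 1064) (nat_lit 9848828553) (nat_lit 1140) (nat_lit 13440289528) (nat_lit 142) (nat_lit 5) (nat_lit 156) (nat_lit 5) (nat_lit 157) (nat_lit 5) (nat_lit 344) (nat_lit 339) (nat_lit 97)) (XT.lf (nat_lit 76) (nat_lit 9414247077) (nat_lit 0) (nat_lit 14420163807) (nat_lit 1140) (nat_lit 22784974530) (nat_lit 143) (nat_lit 5) (nat_lit 142) (nat_lit 5) (nat_lit 157) (nat_lit 5) (nat_lit 345) (nat_lit 339) (nat_lit 96)))))) (XT.nd (nat_lit 390) (nat_lit 228) (nat_lit 0) (XT.nd (nat_lit 156) (nat_lit 0) (nat_lit 0) (XT.nd (nat_lit 78) (nat_lit 0) (nat_lit 0) (XT.lf (nat_lit 0) (nat_lit 25228177740) (nat_lit 1064) (nat_lit 17936155012) (nat_lit 1140) (nat_lit 4185977994) (nat_lit 143) (nat_lit 5) (nat_lit 157) (nat_lit 5) (nat_lit 158) (nat_lit 5) (nat_lit 346) (nat_lit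 339) (nat_lit 95)) (XT.lf (nat_lit 76) (nat_lit 1802599816) (nat_lit 0) (nat_lit 25020197155) (nat_lit 1140) (nat_lit 21275598531) (nat_lit 144) (nat_lit 5) (nat_lit 143) (nat_lit 5) (nat_lit 158) (nat_lit 5) (nat_lit 347) (nat_lit 339) (nat_lit 94))) (XT.nd (nat_lit 78) (nat_lit 0) (nat_lit 76) (XT.lf (nat_lit 76) (nat_lit 22500498426) (nat_lit 0) (nat_lit 6144838410) (nat_lit 1140) (nat_lit 20218186265) (nat_lit 144) (nat_lit 5) (nat_lit 143) (nat_lit 5) (nat_lit 158) (nat_lit 5) (nat_lit 348) (nat_lit 339) (nat_lit 93)) (XT.nd (nat_lit 78) (nat_lit 0) (nat_lit 0) (XT.lf (nat_lit 0) (nat_lit 30649365209) (nat_lit 1064) (nat_lit 5960795755) (nat_lit 1140) (nat_lit 13037641879) (nat_lit 144) (nat_lit 5) (nat_lit 158) (nat_lit 5) (nat_lit 159) (nat_lit 5) (nat_lit 349) (nat_lit 339) (nat_lit 92)) (XT.lf (nat_lit 76) (nat_lit 15290341901) (nat_lit 0) (nat_lit 17630017408) (nat_lit 1140) (nat_lit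 17529048924) (nat_lit 145) (nat_lit 5) (nat_lit 144) (nat_lit 5) (nat_lit 159) (nat_lit 5) (nat_lit 350) (nat_lit 339) (nat_lit 91))))) (XT.nd (nat_lit 234) (nat_lit 380) (nat_lit 0) (XT.nd (nat_lit 78) (nat_lit 0) (nat_lit 0) (XT.lf (nat_lit 0) (nat_lit 35337772496) (nat_lit 1064) (nat_lit 13991814320) (nat_lit 1140) (nat_lit 1943128819) (nat_lit 145) (nat_lit 5) (nat_lit 159) (nat_lit 5) (nat_lit 160) (nat_lit 5) (nat_lit 351) (nat_lit 339) (nat_lit 90)) (XT.nd (nat_lit 78) (nat_lit 0) (nat_lit 0) (XT.lf (nat_lit 76) (nat_lit 7787162230) (nat_lit 0) (nat_lit 30289032383) (nat_lit 1140) (nat_lit 14037075505) (nat_lit 146) (nat_lit 5) (nat_lit 145) (nat_lit 5) (nat_lit 160) (nat_lit 5) (nat_lit 352) (nat_lit 339) (nat_lit 89)) (XT.lf (nat_lit 76) (nat_lit 30505639381) (nat_lit 0) (nat_lit 10531517123) (nat_lit 1140) (nat_lit 11937675502) (nat_lit 146) (nat_lit 5) (nat_lit 145) (nat_lit 5) (nat_lit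 160) (nat_lit 5) (nat_lit 353) (nat_lit 339) (nat_lit 88)))) (XT.nd (nat_lit 78) (nat_lit 456) (nat_lit 0) (XT.lf (nat_lit 0) (nat_lit 44180456358) (nat_lit 1064) (nat_lit 51651260) (nat_lit 1140) (nat_lit 9627330173) (nat_lit 146) (nat_lit 5) (nat_lit 160) (nat_lit 5) (nat_lit 161) (nat_lit 5) (nat_lit 354) (nat_lit 339) (nat_lit 87)) (XT.nd (nat_lit 39468) (nat_lit 456) (nat_lit 0) (XT.lf (nat_lit 76) (nat_lit 23389887393) (nat_lit 0) (nat_lit 24356429163) (nat_lit 1140) (nat_lit 7014419599) (nat_lit 147) (nat_lit 5) (nat_lit 146) (nat_lit 5) (nat_lit 161) (nat_lit 5) (nat_lit 355) (nat_lit 339) (nat_lit 86)) (XT.lf (nat_lit 0) (nat_lit 9862495166) (nat_lit 1140) (nat_lit 6031486464) (nat_lit 1140) (nat_lit 6031486464) (nat_lit 140) (nat_lit 3) (nat_lit 155) (nat_lit 3) (nat_lit 155) (nat_lit 5) (nat_lit 340) (nat_lit 340) (nat_lit 100))))))) (XT.nd (nat_lit 858) (nat_lit 0) (nat_lit 0) (XT.nd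 (nat_lit 390) (nat_lit 0) (nat_lit 152) (XT.nd (nat_lit 156) (nat_lit 0) (nat_lit 76) (XT.nd (nat_lit 78) (nat_lit 0) (nat_lit 76) (XT.lf (nat_lit 76) (nat_lit 5930336003) (nat_lit 0) (nat_lit 14178041462) (nat_lit 1140) (nat_lit 24397615336) (nat_lit 141) (nat_lit 5) (nat_lit 140) (nat_lit 3) (nat_lit 155) (nat_lit 5) (nat_lit 341) (nat_lit 340) (nat_lit 99)) (XT.lf (nat_lit 0) (nat_lit 20663161176) (nat_lit 1064) (nat_lit 20506268692) (nat_lit 1140) (nat_lit 4006477596) (nat_lit 141) (nat_lit 5) (nat_lit 155) (nat_lit 5) (nat_lit 156) (nat_lit 5) (nat_lit 342) (nat_lit 340) (nat_lit 98))) (XT.nd (nat_lit 78) (nat_lit 0) (nat_lit 0) (XT.lf (nat_lit 0) (nat_lit 21373808614) (nat_lit 1064) (nat_lit 2035827589) (nat_lit 1140) (nat_lit 22452109868) (nat_lit 141) (nat_lit 5) (nat_lit 155) (nat_lit 5) (nat_lit 156) (nat_lit 5) (nat_lit 343) (nat_lit 340) (nat_lit 97)) (XT.nd (nat_lit 78) (nat_lit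 0) (nat_lit 76) (XT.lf (nat_lit 76) (nat_lit 17326190114) (nat_lit 0) (nat_lit 4945012549) (nat_lit 1140) (nat_lit 24291997375) (nat_lit 142) (nat_lit 5) (nat_lit 141) (nat_lit 5) (nat_lit 156) (nat_lit 5) (nat_lit 344) (nat_lit 340) (nat_lit 96)) (XT.lf (nat_lit 0) (nat_lit 23350471952) (nat_lit 1064) (nat_lit 10110434310) (nat_lit 1140) (nat_lit 13820145692) (nat_lit 142) (nat_lit 5) (nat_lit 156) (nat_lit 5) (nat_lit 157) (nat_lit 5) (nat_lit 345) (nat_lit 340) (nat_lit 95))))) (XT.nd (nat_lit 234) (nat_lit 0) (nat_lit 76) (XT.nd (nat_lit 78) (nat_lit 0) (nat_lit 76) (XT.lf (nat_lit 76) (nat_lit 9730201638) (nat_lit 0) (nat_lit 14873351082) (nat_lit 1140) (nat_lit 23412646549) (nat_lit 143) (nat_lit 5) (nat_lit 142) (nat_lit 5) (nat_lit 157) (nat_lit 5) (nat_lit 346) (nat_lit 340) (nat_lit 94)) (XT.nd (nat_lit 78) (nat_lit 0) (nat_lit 0) (XT.lf (nat_lit 0) (nat_lit 26037364489) (nat_lit 1064)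 (nat_lit 18439780724) (nat_lit 1140) (nat_lit 4291964397) (nat_lit 143) (nat_lit 5) (nat_lit 157) (nat_lit 5) (nat_lit 158) (nat_lit 5) (nat_lit 347) (nat_lit 340) (nat_lit 93)) (XT.lf (nat_lit 76) (nat_lit 1890798916) (nat_lit 0) (nat_lit 25787826865) (nat_lit 1140) (nat_lit 21861051106) (nat_lit 144) (nat_lit 5) (nat_lit 143) (nat_lit 5) (nat_lit 158) (nat_lit 5) (nat_lit 348) (nat_lit 340) (nat_lit 92)))) (XT.nd (nat_lit 78) (nat_lit 0) (nat_lit 76) (XT.lf (nat_lit 76) (nat_lit 23208640666) (nat_lit 0) (nat_lit 6345711520) (nat_lit 1140) (nat_lit 20773454784) (nat_lit 144) (nat_lit 5) (nat_lit 143) (nat_lit 5) (nat_lit 158) (nat_lit 5) (nat_lit 349) (nat_lit 340) (nat_lit 91)) (XT.nd (nat_lit 78) (nat_lit 0) (nat_lit 0) (XT.lf (nat_lit 0) (nat_lit 31616900891) (nat_lit 1064) (nat_lit 6105728376) (nat_lit 1140) (nat_lit 13413037701) (nat_lit 144) (nat_lit 5) (nat_lit 158) (nat_lit 5) (nat_lit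 159) (nat_lit 5) (nat_lit 350) (nat_lit 340) (nat_lit 90)) (XT.lf (nat_lit 76) (nat_lit 15782611141) (nat_lit 0) (nat_lit 18172336610) (nat_lit 1140) (nat_lit 18006408818) (nat_lit 145) (nat_lit 5) (nat_lit 144) (nat_lit 5) (nat_lit 159) (nat_lit 5) (nat_lit 351) (nat_lit 340) (nat_lit 89)))))) (XT.nd (nat_lit 40014) (nat_lit 0) (nat_lit 76) (XT.nd (nat_lit 39780) (nat_lit 380) (nat_lit 0) (XT.nd (nat_lit 78) (nat_lit 0) (nat_lit 0) (XT.lf (nat_lit 0) (nat_lit 36443389821) (nat_lit 1064) (nat_lit 14377372748) (nat_lit 1140) (nat_lit 1988649060) (nat_lit 145) (nat_lit 5) (nat_lit 159) (nat_lit 5) (nat_lit 160) (nat_lit 5) (nat_lit 352) (nat_lit 340) (nat_lit 88)) (XT.nd (nat_lit 78) (nat_lit 0) (nat_lit 0) (XT.lf (nat_lit 76) (nat_lit 8054637845) (nat_lit 0) (nat_lit 31208327466) (nat_lit 1140) (nat_lit 14412250937) (nat_lit 146) (nat_lit 5) (nat_lit 145) (nat_lit 5) (nat_lit 160) (nat_lit 5)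 (nat_lit 353) (nat_lit 340) (nat_lit 87)) (XT.lf (nat_lit 76) (nat_lit 31453683075) (nat_lit 0) (nat_lit 10857777308) (nat_lit 1140) (nat_lit 12251206899) (nat_lit 146) (nat_lit 5) (nat_lit 145) (nat_lit 5) (nat_lit 160) (nat_lit 5) (nat_lit 354) (nat_lit 340) (nat_lit 86)))) (XT.nd (nat_lit 78) (nat_lit 0) (nat_lit 0) (XT.lf (nat_lit 0) (nat_lit 10188583036) (nat_lit 1140) (nat_lit 6196830718) (nat_lit 1140) (nat_lit 6196830718) (nat_lit 140) (nat_lit 3) (nat_lit 155) (nat_lit 3) (nat_lit 155) (nat_lit 5) (nat_lit 341) (nat_lit 341) (nat_lit 98)) (XT.nd (nat_lit 78) (nat_lit 0) (nat_lit 76) (XT.lf (nat_lit 76) (nat_lit 6139140874) (nat_lit 0) (nat_lit 14631450942) (nat_lit 1140) (nat_lit 25068654064) (nat_lit 141) (nat_lit 5) (nat_lit 140) (nat_lit 3) (nat_lit 155) (nat_lit 5) (nat_lit 342) (nat_lit 341) (nat_lit 97)) (XT.lf (nat_lit 0) (nat_lit 21340039718) (nat_lit 1064) (nat_lit 21089329273)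 (nat_lit 1140) (nat_lit 4099952968) (nat_lit 141) (nat_lit 5) (nat_lit 155) (nat_lit 5) (nat_lit 156) (nat_lit 5) (nat_lit 343) (nat_lit 341) (nat_lit 96))))) (XT.nd (nat_lit 234) (nat_lit 0) (nat_lit 76) (XT.nd (nat_lit 78) (nat_lit 0) (nat_lit 0) (XT.lf (nat_lit 0) (nat_lit 22070346859) (nat_lit 1064) (nat_lit 2065710688) (nat_lit 1140) (nat_lit 23099732430) (nat_lit 141) (nat_lit 5) (nat_lit 155) (nat_lit 5) (nat_lit 156) (nat_lit 5) (nat_lit 344) (nat_lit 341) (nat_lit 95)) (XT.nd (nat_lit 78) (nat_lit 0) (nat_lit 76) (XT.lf (nat_lit 76) (nat_lit 17876861745) (nat_lit 0) (nat_lit 5116486501) (nat_lit 1140) (nat_lit 24964983085) (nat_lit 142) (nat_lit 5) (nat_lit 141) (nat_lit 5) (nat_lit 156) (nat_lit 5) (nat_lit 345) (nat_lit 341) (nat_lit 94)) (XT.lf (nat_lit 0) (nat_lit 24103206718) (nat_lit 1064) (nat_lit 10381831889) (nat_lit 1140) (nat_lit 14212738070) (nat_lit 142) (nat_lit 5) (nat_lit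 156) (nat_lit 5) (nat_lit 157) (nat_lit 5) (nat_lit 346) (nat_lit 341) (nat_lit 93)))) (XT.nd (nat_lit 78) (nat_lit 0) (nat_lit 76) (XT.lf (nat_lit 76) (nat_lit 10053710240) (nat_lit 0) (nat_lit 15338952463) (nat_lit 1140) (nat_lit 24062356310) (nat_lit 143) (nat_lit 5) (nat_lit 142) (nat_lit 5) (nat_lit 157) (nat_lit 5) (nat_lit 347) (nat_lit 341) (nat_lit 92)) (XT.nd (nat_lit 78) (nat_lit 0) (nat_lit 0) (XT.lf (nat_lit 0) (nat_lit 26867822228) (nat_lit 1064) (nat_lit 18960493291) (nat_lit 1140) (nat_lit 4402255108) (nat_lit 143) (nat_lit 5) (nat_lit 157) (nat_lit 5) (nat_lit 158) (nat_lit 5) (nat_lit 348) (nat_lit 341) (nat_lit 91)) (XT.lf (nat_lit 76) (nat_lit 1979685299) (nat_lit 0) (nat_lit 26577508232) (nat_lit 1140) (nat_lit 22467099077) (nat_lit 144) (nat_lit 5) (nat_lit 143) (nat_lit 5) (nat_lit 158) (nat_lit 5) (nat_lit 349) (nat_lit 341) (nat_lit 90))))))))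
noncomputable def xc255 : XT := (XT.nd (nat_lit 81198) (nat_lit 0) (nat_lit 0) (XT.nd (nat_lit 40482) (nat_lit 0) (nat_lit 0) (XT.nd (nat_lit 40014) (nat_lit 228) (nat_lit 0) (XT.nd (nat_lit 156) (nat_lit 0) (nat_lit 76) (XT.nd (nat_lit 78) (nat_lit 0) (nat_lit 76) (XT.lf (nat_lit 76) (nat_lit 23936125532) (nat_lit 0) (nat_lit 6551662050) (nat_lit 1140) (nat_lit 21348324872) (nat_lit 144) (nat_lit 5) (nat_lit 143) (nat_lit 5) (nat_lit 158) (nat_lit 5) (nat_lit 350) (nat_lit 341) (nat_lit 89)) (XT.lf (nat_lit 0) (nat_lit 32610704106) (nat_lit 1064) (nat_lit 6256954473) (nat_lit 1140) (nat_lit 13800598561) (nat_lit 144) (nat_lit 5) (nat_lit 158) (nat_lit 5) (nat_lit 159) (nat_lit 5) (nat_lit 351) (nat_lit 341) (nat_lit 88))) (XT.nd (nat_lit 78) (nat_lit 0) (nat_lit 76) (XT.lf (nat_lit 76) (nat_lit 16287722036) (nat_lit 0) (nat_lit 18730155101) (nat_lit 1140) (nat_lit 18500874272) (nat_lit 145)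 (nat_lit 5) (nat_lit 144) (nat_lit 5) (nat_lit 159) (nat_lit 5) (nat_lit 352) (nat_lit 341) (nat_lit 87)) (XT.nd (nat_lit 78) (nat_lit 0) (nat_lit 0) (XT.lf (nat_lit 0) (nat_lit 37579564689) (nat_lit 1064) (nat_lit 14776460918) (nat_lit 1140) (nat_lit 2036268166) (nat_lit 145) (nat_lit 5) (nat_lit 159) (nat_lit 5) (nat_lit 160) (nat_lit 5) (nat_lit 353) (nat_lit 341) (nat_lit 86)) (XT.lf (nat_lit 76) (nat_lit 8328193982) (nat_lit 0) (nat_lit 32154591535) (nat_lit 1140) (nat_lit 14801318593) (nat_lit 146) (nat_lit 5) (nat_lit 145) (nat_lit 5) (nat_lit 160) (nat_lit 5) (nat_lit 354) (nat_lit 341) (nat_lit 85))))) (XT.nd (nat_lit 234) (nat_lit 0) (nat_lit 76) (XT.nd (nat_lit 78) (nat_lit 0) (nat_lit 0) (XT.lf (nat_lit 0) (nat_lit 10522719191) (nat_lit 1140) (nat_lit 6368030823) (nat_lit 1140) (nat_lit 6368030823) (nat_lit 140) (nat_lit 3) (nat_lit 155) (nat_lit 3) (nat_lit 155) (nat_lit 5) (nat_lit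 342) (nat_lit 342) (nat_lit 96)) (XT.nd (nat_lit 78) (nat_lit 0) (nat_lit 76) (XT.lf (nat_lit 76) (nat_lit 6352436403) (nat_lit 0) (nat_lit 15096851476) (nat_lit 1140) (nat_lit 25763319273) (nat_lit 141) (nat_lit 5) (nat_lit 140) (nat_lit 3) (nat_lit 155) (nat_lit 5) (nat_lit 343) (nat_lit 342) (nat_lit 95)) (XT.lf (nat_lit 0) (nat_lit 22033953519) (nat_lit 1064) (nat_lit 21691725919) (nat_lit 1140) (nat_lit 4197766379) (nat_lit 141) (nat_lit 5) (nat_lit 155) (nat_lit 5) (nat_lit 156) (nat_lit 5) (nat_lit 344) (nat_lit 342) (nat_lit 94)))) (XT.nd (nat_lit 78) (nat_lit 0) (nat_lit 0) (XT.lf (nat_lit 0) (nat_lit 22784605429) (nat_lit 1064) (nat_lit 2098280813) (nat_lit 1140) (nat_lit 23768272774) (nat_lit 141) (nat_lit 5) (nat_lit 155) (nat_lit 5) (nat_lit 156) (nat_lit 5) (nat_lit 345) (nat_lit 342) (nat_lit 93)) (XT.nd (nat_lit 78) (nat_lit 0) (nat_lit 76) (XT.lf (nat_lit 76) (nat_lit 18442280546)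 (nat_lit 0) (nat_lit 5291777285) (nat_lit 1140) (nat_lit 25661360035) (nat_lit 142) (nat_lit 5) (nat_lit 141) (nat_lit 5) (nat_lit 156) (nat_lit 5) (nat_lit 346) (nat_lit 342) (nat_lit 92)) (XT.lf (nat_lit 0) (nat_lit 24875525850) (nat_lit 1064) (nat_lit 10663203474) (nat_lit 1140) (nat_lit 14618371799) (nat_lit 142) (nat_lit 5) (nat_lit 156) (nat_lit 5) (nat_lit 157) (nat_lit 5) (nat_lit 347) (nat_lit 342) (nat_lit 91)))))) (XT.nd (nat_lit 40248) (nat_lit 152) (nat_lit 0) (XT.nd (nat_lit 234) (nat_lit 0) (nat_lit 76) (XT.nd (nat_lit 78) (nat_lit 0) (nat_lit 76) (XT.lf (nat_lit 76) (nat_lit 10385109985) (nat_lit 0) (nat_lit 15817408198) (nat_lit 1140) (nat_lit 24734580816) (nat_lit 143) (nat_lit 5) (nat_lit 142) (nat_lit 5) (nat_lit 157) (nat_lit 5) (nat_lit 348) (nat_lit 342) (nat_lit 90)) (XT.nd (nat_lit 78) (nat_lit 0) (nat_lit 0) (XT.lf (nat_lit 0) (nat_lit 27720361565) (nat_lit 1064) (nat_lit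 19498691769) (nat_lit 1140) (nat_lit 4516914691) (nat_lit 143) (nat_lit 5) (nat_lit 157) (nat_lit 5) (nat_lit 158) (nat_lit 5) (nat_lit 349) (nat_lit 342) (nat_lit 89)) (XT.lf (nat_lit 76) (nat_lit 2069392018) (nat_lit 0) (nat_lit 27389958901) (nat_lit 1140) (nat_lit 23094186267) (nat_lit 144) (nat_lit 5) (nat_lit 143) (nat_lit 5) (nat_lit 158) (nat_lit 5) (nat_lit 350) (nat_lit 342) (nat_lit 88)))) (XT.nd (nat_lit 78) (nat_lit 0) (nat_lit 76) (XT.lf (nat_lit 76) (nat_lit 24683642463) (nat_lit 0) (nat_lit 6762896788) (nat_lit 1140) (nat_lit 21943215607) (nat_lit 144) (nat_lit 5) (nat_lit 143) (nat_lit 5) (nat_lit 158) (nat_lit 5) (nat_lit 351) (nat_lit 342) (nat_lit 87)) (XT.nd (nat_lit 78) (nat_lit 0) (nat_lit 0) (XT.lf (nat_lit 0) (nat_lit 33631721230) (nat_lit 1064) (nat_lit 6414551170) (nat_lit 1140) (nat_lit 14200637565) (nat_lit 144) (nat_lit 5) (nat_lit 158) (nat_lit 5) (nat_lit 159)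 (nat_lit 5) (nat_lit 352) (nat_lit 342) (nat_lit 86)) (XT.lf (nat_lit 76) (nat_lit 16806170420) (nat_lit 0) (nat_lit 19303982077) (nat_lit 1140) (nat_lit 19012798596) (nat_lit 145) (nat_lit 5) (nat_lit 144) (nat_lit 5) (nat_lit 159) (nat_lit 5) (nat_lit 353) (nat_lit 342) (nat_lit 85))))) (XT.nd (nat_lit 234) (nat_lit 0) (nat_lit 76) (XT.nd (nat_lit 78) (nat_lit 0) (nat_lit 0) (XT.lf (nat_lit 0) (nat_lit 10865244639) (nat_lit 1140) (nat_lit 6545211048) (nat_lit 1140) (nat_lit 6545211048) (nat_lit 140) (nat_lit 3) (nat_lit 155) (nat_lit 3) (nat_lit 155) (nat_lit 5) (nat_lit 343) (nat_lit 343) (nat_lit 94)) (XT.nd (nat_lit 78) (nat_lit 0) (nat_lit 76) (XT.lf (nat_lit 76) (nat_lit 6570459116) (nat_lit 0) (nat_lit 15574695285) (nat_lit 1140) (nat_lit 26482119113) (nat_lit 141) (nat_lit 5) (nat_lit 140) (nat_lit 3) (nat_lit 155) (nat_lit 5) (nat_lit 344) (nat_lit 343) (nat_lit 93)) (XT.lf (nat_lit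 0) (nat_lit 22745601410) (nat_lit 1064) (nat_lit 22313932847) (nat_lit 1140) (nat_lit 4299959925) (nat_lit 141) (nat_lit 5) (nat_lit 155) (nat_lit 5) (nat_lit 156) (nat_lit 5) (nat_lit 345) (nat_lit 343) (nat_lit 92)))) (XT.nd (nat_lit 78) (nat_lit 0) (nat_lit 0) (XT.lf (nat_lit 0) (nat_lit 23517298238) (nat_lit 1064) (nat_lit 2133515791) (nat_lit 1140) (nat_lit 24458272951) (nat_lit 141) (nat_lit 5) (nat_lit 155) (nat_lit 5) (nat_lit 156) (nat_lit 5) (nat_lit 346) (nat_lit 343) (nat_lit 91)) (XT.nd (nat_lit 78) (nat_lit 0) (nat_lit 76) (XT.lf (nat_lit 76) (nat_lit 19022990709) (nat_lit 0) (nat_lit 5471075601) (nat_lit 1140) (nat_lit 26381646172) (nat_lit 142) (nat_lit 5) (nat_lit 141) (nat_lit 5) (nat_lit 156) (nat_lit 5) (nat_lit 347) (nat_lit 343) (nat_lit 90)) (XT.lf (nat_lit 0) (nat_lit 25668188959) (nat_lit 1064) (nat_lit 10954743115) (nat_lit 1140) (nat_lit 15037365583) (nat_lit 142)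 (nat_lit 5) (nat_lit 156) (nat_lit 5) (nat_lit 157) (nat_lit 5) (nat_lit 348) (nat_lit 343) (nat_lit 89))))))) (XT.nd (nat_lit 40794) (nat_lit 0) (nat_lit 0) (XT.nd (nat_lit 40326) (nat_lit 0) (nat_lit 0) (XT.nd (nat_lit 156) (nat_lit 152) (nat_lit 0) (XT.nd (nat_lit 78) (nat_lit 0) (nat_lit 76) (XT.lf (nat_lit 76) (nat_lit 10724741743) (nat_lit 0) (nat_lit 16309167846) (nat_lit 1140) (nat_lit 25429821951) (nat_lit 143) (nat_lit 5) (nat_lit 142) (nat_lit 5) (nat_lit 157) (nat_lit 5) (nat_lit 349) (nat_lit 343) (nat_lit 88)) (XT.lf (nat_lit 0) (nat_lit 28595807524) (nat_lit 1064) (nat_lit 20054793704) (nat_lit 1140) (nat_lit 4636013356) (nat_lit 143) (nat_lit 5) (nat_lit 157) (nat_lit 5) (nat_lit 158) (nat_lit 5) (nat_lit 350) (nat_lit 343) (nat_lit 87))) (XT.nd (nat_lit 78) (nat_lit 228) (nat_lit 0) (XT.lf (nat_lit 76) (nat_lit 2160049667) (nat_lit 0) (nat_lit 28225914830) (nat_lit 1140) (nat_lit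 23742779805) (nat_lit 144) (nat_lit 5) (nat_lit 143) (nat_lit 5) (nat_lit 158) (nat_lit 5) (nat_lit 351) (nat_lit 343) (nat_lit 86)) (XT.nd (nat_lit 40014) (nat_lit 228) (nat_lit 0) (XT.lf (nat_lit 76) (nat_lit 25451895318) (nat_lit 0) (nat_lit 6979625596) (nat_lit 1140) (nat_lit 22558568337) (nat_lit 144) (nat_lit 5) (nat_lit 143) (nat_lit 5) (nat_lit 158) (nat_lit 5) (nat_lit 352) (nat_lit 343) (nat_lit 85)) (XT.lf (nat_lit 0) (nat_lit 11216504902) (nat_lit 1140) (nat_lit 6728502341) (nat_lit 1140) (nat_lit 6728502341) (nat_lit 140) (nat_lit 3) (nat_lit 155) (nat_lit 3) (nat_lit 155) (nat_lit 5) (nat_lit 344) (nat_lit 344) (nat_lit 92))))) (XT.nd (nat_lit 234) (nat_lit 0) (nat_lit 76) (XT.nd (nat_lit 78) (nat_lit 0) (nat_lit 76) (XT.lf (nat_lit 76) (nat_lit 6793446790) (nat_lit 0) (nat_lit 16065442850) (nat_lit 1140) (nat_lit 27225588494) (nat_lit 141) (nat_lit 5) (nat_lit 140) (nat_lit 3)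 (nat_lit 155) (nat_lit 5) (nat_lit 345) (nat_lit 344) (nat_lit 91)) (XT.nd (nat_lit 78) (nat_lit 0) (nat_lit 0) (XT.lf (nat_lit 0) (nat_lit 23475692409) (nat_lit 1064) (nat_lit 22956444573) (nat_lit 1140) (nat_lit 4406582018) (nat_lit 141) (nat_lit 5) (nat_lit 155) (nat_lit 5) (nat_lit 156) (nat_lit 5) (nat_lit 346) (nat_lit 344) (nat_lit 90)) (XT.lf (nat_lit 0) (nat_lit 24269150154) (nat_lit 1064) (nat_lit 2171398683) (nat_lit 1140) (nat_lit 25170296184) (nat_lit 141) (nat_lit 5) (nat_lit 155) (nat_lit 5) (nat_lit 156) (nat_lit 5) (nat_lit 347) (nat_lit 344) (nat_lit 89)))) (XT.nd (nat_lit 78) (nat_lit 0) (nat_lit 76) (XT.lf (nat_lit 76) (nat_lit 19619546908) (nat_lit 0) (nat_lit 5654573500) (nat_lit 1140) (nat_lit 27126385533) (nat_lit 142) (nat_lit 5) (nat_lit 141) (nat_lit 5) (nat_lit 156) (nat_lit 5) (nat_lit 348) (nat_lit 344) (nat_lit 88)) (XT.nd (nat_lit 78) (nat_lit 0) (nat_lit 0) (XT.lf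 (nat_lit 0) (nat_lit 26481968564) (nat_lit 1064) (nat_lit 11256656722) (nat_lit 1140) (nat_lit 15470051853) (nat_lit 142) (nat_lit 5) (nat_lit 156) (nat_lit 5) (nat_lit 157) (nat_lit 5) (nat_lit 349) (nat_lit 344) (nat_lit 87)) (XT.lf (nat_lit 76) (nat_lit 11072950636) (nat_lit 0) (nat_lit 16814690787) (nat_lit 1140) (nat_lit 26148606618) (nat_lit 143) (nat_lit 5) (nat_lit 142) (nat_lit 5) (nat_lit 157) (nat_lit 5) (nat_lit 350) (nat_lit 344) (nat_lit 86)))))) (XT.nd (nat_lit 40560) (nat_lit 0) (nat_lit 0) (XT.nd (nat_lit 40326) (nat_lit 0) (nat_lit 76) (XT.nd (nat_lit 40170) (nat_lit 228) (nat_lit 0) (XT.lf (nat_lit 0) (nat_lit 29495000547) (nat_lit 1064) (nat_lit 20629235311) (nat_lit 1140) (nat_lit 4759626911) (nat_lit 143) (nat_lit 5) (nat_lit 157) (nat_lit 5) (nat_lit 158) (nat_lit 5) (nat_lit 351) (nat_lit 344) (nat_lit 85)) (XT.nd (nat_lit 78) (nat_lit 0) (nat_lit 0) (XT.lf (nat_lit 0)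 (nat_lit 11576850481) (nat_lit 1140) (nat_lit 6918042359) (nat_lit 1140) (nat_lit 6918042359) (nat_lit 140) (nat_lit 3) (nat_lit 155) (nat_lit 3) (nat_lit 155) (nat_lit 5) (nat_lit 345) (nat_lit 345) (nat_lit 90)) (XT.lf (nat_lit 76) (nat_lit 7021638827) (nat_lit 0) (nat_lit 16569563460) (nat_lit 1140) (nat_lit 27994289231) (nat_lit 141) (nat_lit 5) (nat_lit 140) (nat_lit 3) (nat_lit 155) (nat_lit 5) (nat_lit 346) (nat_lit 345) (nat_lit 89)))) (XT.nd (nat_lit 78) (nat_lit 0) (nat_lit 0) (XT.lf (nat_lit 0) (nat_lit 24224946646) (nat_lit 1064) (nat_lit 23619776180) (nat_lit 1140) (nat_lit 4517687288) (nat_lit 141) (nat_lit 5) (nat_lit 155) (nat_lit 5) (nat_lit 156) (nat_lit 5) (nat_lit 347) (nat_lit 345) (nat_lit 88)) (XT.nd (nat_lit 78) (nat_lit 0) (nat_lit 0) (XT.lf (nat_lit 0) (nat_lit 25040897925) (nat_lit 1064) (nat_lit 2211917605) (nat_lit 1140) (nat_lit 25904927214) (nat_lit 141) (nat_lit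 5) (nat_lit 155) (nat_lit 5) (nat_lit 156) (nat_lit 5) (nat_lit 348) (nat_lit 345) (nat_lit 87)) (XT.lf (nat_lit 76) (nat_lit 20232514951) (nat_lit 0) (nat_lit 5842464670) (nat_lit 1140) (nat_lit 27896148422) (nat_lit 142) (nat_lit 5) (nat_lit 141) (nat_lit 5) (nat_lit 156) (nat_lit 5) (nat_lit 349) (nat_lit 345) (nat_lit 86))))) (XT.nd (nat_lit 40482) (nat_lit 0) (nat_lit 0) (XT.nd (nat_lit 40326) (nat_lit 152) (nat_lit 0) (XT.lf (nat_lit 0) (nat_lit 27317651050) (nat_lit 1064) (nat_lit 11569162073) (nat_lit 1140) (nat_lit 15916776939) (nat_lit 142) (nat_lit 5) (nat_lit 156) (nat_lit 5) (nat_lit 157) (nat_lit 5) (nat_lit 350) (nat_lit 345) (nat_lit 85)) (XT.nd (nat_lit 78) (nat_lit 0) (nat_lit 0) (XT.lf (nat_lit 0) (nat_lit 11946637316) (nat_lit 1140) (nat_lit 7113975512) (nat_lit 1140) (nat_lit 7113975512) (nat_lit 140) (nat_lit 3) (nat_lit 155) (nat_lit 3) (nat_lit 155) (nat_lit 5) (nat_lit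 346) (nat_lit 346) (nat_lit 88)) (XT.lf (nat_lit 76) (nat_lit 7255276617) (nat_lit 0) (nat_lit 17087535768) (nat_lit 1140) (nat_lit 28788810229) (nat_lit 141) (nat_lit 5) (nat_lit 140) (nat_lit 3) (nat_lit 155) (nat_lit 5) (nat_lit 347) (nat_lit 346) (nat_lit 87)))) (XT.nd (nat_lit 78) (nat_lit 76) (nat_lit 0) (XT.lf (nat_lit 0) (nat_lit 24994096275) (nat_lit 1064) (nat_lit 24304463603) (nat_lit 1140) (nat_lit 4633336494) (nat_lit 141) (nat_lit 5) (nat_lit 155) (nat_lit 5) (nat_lit 156) (nat_lit 5) (nat_lit 348) (nat_lit 346) (nat_lit 86)) (XT.nd (nat_lit 40560) (nat_lit 76) (nat_lit 0) (XT.lf (nat_lit 0) (nat_lit 25833291105) (nat_lit 1064) (nat_lit 2255065558) (nat_lit 1140) (nat_lit 26662772689) (nat_lit 141) (nat_lit 5) (nat_lit 155) (nat_lit 5) (nat_lit 156) (nat_lit 5) (nat_lit 349) (nat_lit 346) (nat_lit 85)) (XT.lf (nat_lit 76) (nat_lit 7494603900) (nat_lit 0) (nat_lit 17619848338) (nat_lit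 1140) (nat_lit 29609767703) (nat_lit 141) (nat_lit 5) (nat_lit 140) (nat_lit 3) (nat_lit 155) (nat_lit 5) (nat_lit 348) (nat_lit 347) (nat_lit 85))))))))

set_option maxRecDepth 10000000 in
noncomputable def Tp : PT := (PT.nd (nat_lit 5455242) (PT.nd (nat_lit 4927572) (PT.nd (nat_lit 4440852) (PT.nd (nat_lit 4074954) (PT.nd (nat_lit 3750240) pc0 pc1) (PT.nd (nat_lit 203268) pc2 pc3)) (PT.nd (nat_lit 283686) (PT.nd (nat_lit 162006) pc4 pc5) (PT.nd (nat_lit 121368) pc6 pc7))) (PT.nd (nat_lit 285090) (PT.nd (nat_lit 162396) (PT.nd (nat_lit 81354) pc8 pc9) (PT.nd (nat_lit 80730) pc10 pc11)) (PT.nd (nat_lit 121758) (PT.nd (nat_lit 80184) pc12 pc13) (PT.nd (nat_lit 79482) pc14 pc15)))) (PT.nd (nat_lit 325806) (PT.nd (nat_lit 163956) (PT.nd (nat_lit 82212) (PT.nd (nat_lit 41184) pc16 pc17) (PT.nd (nat_lit 40950) pc18 pc19)) (PT.nd (nat_lit 81198) (PT.nd (nat_lit 40638) pc20 pc21) (PT.nd (nat_lit 40404)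 pc22 pc23))) (PT.nd (nat_lit 160524) (PT.nd (nat_lit 80028) (PT.nd (nat_lit 40092) pc24 pc25) (PT.nd (nat_lit 39780) pc26 pc27)) (PT.nd (nat_lit 125268) (PT.nd (nat_lit 43914) pc28 pc29) (PT.nd (nat_lit 121758) pc30 pc31)))))

set_option maxRecDepth 10000000 in
noncomputable def Tx : XT := (XT.nd (nat_lit 7712016) (nat_lit 0) (nat_lit 76) XT.nil (XT.nd (nat_lit 6416592) (nat_lit 0) (nat_lit 0) (XT.nd (nat_lit 3086538) (nat_lit 0) (nat_lit 380) (XT.nd (nat_lit 2150382) (nat_lit 0) (nat_lit 152) (XT.nd (nat_lit 1501344) (nat_lit 0) (nat_lit 76) (XT.nd (nat_lit 1054248) (nat_lit 0) (nat_lit 76) (XT.nd (nat_lit 730236) (nat_lit 0) (nat_lit 76) (XT.nd (nat_lit 526188) (nat_lit 0) (nat_lit 76) (XT.nd (nat_lit 364338) (nat_lit 0) (nat_lit 76) (XT.nd (nat_lit 243126) (nat_lit 0) (nat_lit 76) xc0 xc1) (XT.nd (nat_lit 81198) (nat_lit 0) (nat_lit 0) xc2 xc3)) (XT.nd (nat_lit 121446) (nat_lit 0) (nat_lit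 0) (XT.nd (nat_lit 41808) (nat_lit 0) (nat_lit 0) xc4 xc5) (XT.nd (nat_lit 41340) (nat_lit 0) (nat_lit 0) xc6 xc7))) (XT.nd (nat_lit 163254) (nat_lit 0) (nat_lit 0) (XT.nd (nat_lit 81900) (nat_lit 0) (nat_lit 0) (XT.nd (nat_lit 41028) (nat_lit 0) (nat_lit 0) xc8 xc9) (XT.nd (nat_lit 40716) (nat_lit 0) (nat_lit 0) xc10 xc11)) (XT.nd (nat_lit 80652) (nat_lit 0) (nat_lit 0) (XT.nd (nat_lit 40404) (nat_lit 0) (nat_lit 0) xc12 xc13) (XT.nd (nat_lit 40092) (nat_lit 0) (nat_lit 0) xc14 xc15)))) (XT.nd (nat_lit 243516) (nat_lit 0) (nat_lit 0) (XT.nd (nat_lit 122460) (nat_lit 0) (nat_lit 0) (XT.nd (nat_lit 79404) (nat_lit 0) (nat_lit 0) (XT.nd (nat_lit 39780) (nat_lit 0) (nat_lit 0) xc16 xc17) (XT.nd (nat_lit 3510) (nat_lit 0) (nat_lit 0) xc18 xc19)) (XT.nd (nat_lit 78468) (nat_lit 0) (nat_lit 0) (XT.nd (nat_lit 39312) (nat_lit 0) (nat_lit 0) xc20 xc21) (XT.nd (nat_lit 3510) (nat_lit 76) (nat_lit 0)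 xc22 xc23))) (XT.nd (nat_lit 119730) (nat_lit 0) (nat_lit 0) (XT.nd (nat_lit 42354) (nat_lit 0) (nat_lit 0) (XT.nd (nat_lit 38844) (nat_lit 0) (nat_lit 0) xc24 xc25) (XT.nd (nat_lit 38688) (nat_lit 0) (nat_lit 0) xc26 xc27)) (XT.nd (nat_lit 41964) (nat_lit 0) (nat_lit 0) (XT.nd (nat_lit 3510) (nat_lit 152) (nat_lit 0) xc28 xc29) (XT.nd (nat_lit 38298) (nat_lit 0) (nat_lit 228) xc30 xc31))))) (XT.nd (nat_lit 362544) (nat_lit 0) (nat_lit 0) (XT.nd (nat_lit 199836) (nat_lit 0) (nat_lit 0) (XT.nd (nat_lit 83226) (nat_lit 0) (nat_lit 0) (XT.nd (nat_lit 41652) (nat_lit 0) (nat_lit 0) (XT.nd (nat_lit 38142) (nat_lit 0) (nat_lit 152) xc32 xc33) (XT.nd (nat_lit 37986) (nat_lit 0) (nat_lit 0) xc34 xc35)) (XT.nd (nat_lit 75504) (nat_lit 0) (nat_lit 0) (XT.nd (nat_lit 37830) (nat_lit 0) (nat_lit 0) xc36 xc37) (XT.nd (nat_lit 3510) (nat_lit 304) (nat_lit 0) xc38 xc39))) (XT.nd (nat_lit 81666) (nat_lit 0)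 (nat_lit 0) (XT.nd (nat_lit 40872) (nat_lit 0) (nat_lit 0) (XT.nd (nat_lit 3510) (nat_lit 228) (nat_lit 0) xc40 xc41) (XT.nd (nat_lit 3510) (nat_lit 228) (nat_lit 0) xc42 xc43)) (XT.nd (nat_lit 40560) (nat_lit 0) (nat_lit 0) (XT.nd (nat_lit 3510) (nat_lit 228) (nat_lit 0) xc44 xc45) (XT.nd (nat_lit 3510) (nat_lit 228) (nat_lit 0) xc46 xc47)))) (XT.nd (nat_lit 160524) (nat_lit 0) (nat_lit 0) (XT.nd (nat_lit 80574) (nat_lit 0) (nat_lit 0) (XT.nd (nat_lit 40326) (nat_lit 0) (nat_lit 0) (XT.nd (nat_lit 3510) (nat_lit 228) (nat_lit 0) xc48 xc49) (XT.nd (nat_lit 3510) (nat_lit 304) (nat_lit 0) xc50 xc51)) (XT.nd (nat_lit 40014) (nat_lit 0) (nat_lit 0) (XT.nd (nat_lit 3510) (nat_lit 380) (nat_lit 0) xc52 xc53) (XT.nd (nat_lit 3510) (nat_lit 532) (nat_lit 0) xc54 xc55))) (XT.nd (nat_lit 46800) (nat_lit 0) (nat_lit 76) (XT.nd (nat_lit 7020) (nat_lit 152) (nat_lit 0) (XT.nd (nat_lit 3510) (nat_lit 684)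 (nat_lit 0) xc56 xc57) (XT.nd (nat_lit 36192) (nat_lit 0) (nat_lit 228) xc58 xc59)) (XT.nd (nat_lit 39624) (nat_lit 0) (nat_lit 0) (XT.nd (nat_lit 36114) (nat_lit 0) (nat_lit 304) xc60 xc61) (XT.nd (nat_lit 35958) (nat_lit 0) (nat_lit 532) xc62 xc63)))))) (XT.nd (nat_lit 521664) (nat_lit 0) (nat_lit 152) (XT.nd (nat_lit 279474) (nat_lit 0) (nat_lit 76) (XT.nd (nat_lit 124644) (nat_lit 0) (nat_lit 76) (XT.nd (nat_lit 78546) (nat_lit 0) (nat_lit 76) (XT.nd (nat_lit 39312) (nat_lit 0) (nat_lit 0) (XT.nd (nat_lit 35802) (nat_lit 0) (nat_lit 1216) xc64 xc65) (XT.nd (nat_lit 3510) (nat_lit 152) (nat_lit 0) xc66 xc67)) (XT.nd (nat_lit 39000) (nat_lit 0) (nat_lit 0) (XT.nd (nat_lit 3510) (nat_lit 304) (nat_lit 0) xc68 xc69) (XT.nd (nat_lit 3510) (nat_lit 912) (nat_lit 0) xc70 xc71))) (XT.nd (nat_lit 77688) (nat_lit 0) (nat_lit 0) (XT.nd (nat_lit 38844) (nat_lit 0) (nat_lit 0) (XT.nd (nat_lit 35334)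 (nat_lit 0) (nat_lit 304) xc72 xc73) (XT.nd (nat_lit 35256) (nat_lit 0) (nat_lit 988) xc74 xc75)) (XT.nd (nat_lit 38610) (nat_lit 0) (nat_lit 0) (XT.nd (nat_lit 3510) (nat_lit 76) (nat_lit 0) xc76 xc77) (XT.nd (nat_lit 3510) (nat_lit 380) (nat_lit 0) xc78 xc79)))) (XT.nd (nat_lit 121758) (nat_lit 0) (nat_lit 0) (XT.nd (nat_lit 45396) (nat_lit 0) (nat_lit 0) (XT.nd (nat_lit 7020) (nat_lit 76) (nat_lit 0) (XT.nd (nat_lit 3510) (nat_lit 1292) (nat_lit 0) xc80 xc81) (XT.nd (nat_lit 34788) (nat_lit 0) (nat_lit 684) xc82 xc83)) (XT.nd (nat_lit 38220) (nat_lit 0) (nat_lit 0) (XT.nd (nat_lit 34710) (nat_lit 0) (nat_lit 2584) xc84 xc85) (XT.nd (nat_lit 3510) (nat_lit 380) (nat_lit 0) xc86 xc87))) (XT.nd (nat_lit 45006) (nat_lit 0) (nat_lit 76) (XT.nd (nat_lit 7020) (nat_lit 152) (nat_lit 0) (XT.nd (nat_lit 3510) (nat_lit 1596) (nat_lit 0) xc88 xc89) (XT.nd (nat_lit 34398) (nat_lit 0) (nat_lit 988) xc90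 xc91)) (XT.nd (nat_lit 37752) (nat_lit 0) (nat_lit 0) (XT.nd (nat_lit 3510) (nat_lit 0) (nat_lit 0) xc92 xc93) (XT.nd (nat_lit 3510) (nat_lit 760) (nat_lit 0) xc94 xc95))))) (XT.nd (nat_lit 207246) (nat_lit 0) (nat_lit 0) (XT.nd (nat_lit 88920) (nat_lit 0) (nat_lit 0) (XT.nd (nat_lit 44538) (nat_lit 0) (nat_lit 0) (XT.nd (nat_lit 7020) (nat_lit 532) (nat_lit 0) (XT.nd (nat_lit 3510) (nat_lit 2964) (nat_lit 0) xc96 xc97) (XT.nd (nat_lit 33930) (nat_lit 0) (nat_lit 2964) xc98 xc99)) (XT.nd (nat_lit 37284) (nat_lit 0) (nat_lit 304) (XT.nd (nat_lit 3510) (nat_lit 532) (nat_lit 0) xc100 xc101) (XT.nd (nat_lit 3510) (nat_lit 2432) (nat_lit 0) xc102 xc103))) (XT.nd (nat_lit 74334) (nat_lit 0) (nat_lit 0) (XT.nd (nat_lit 37206) (nat_lit 0) (nat_lit 0) (XT.nd (nat_lit 33696) (nat_lit 0) (nat_lit 2660) xc104 xc105) (XT.nd (nat_lit 3510) (nat_lit 304) (nat_lit 0) xc106 xc107)) (XT.nd (nat_lit 7020) (nat_lit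 304) (nat_lit 0) (XT.nd (nat_lit 3510) (nat_lit 2432) (nat_lit 0) xc108 xc109) (XT.nd (nat_lit 33384) (nat_lit 0) (nat_lit 2964) xc110 xc111)))) (XT.nd (nat_lit 118404) (nat_lit 0) (nat_lit 76) (XT.nd (nat_lit 44070) (nat_lit 0) (nat_lit 0) (XT.nd (nat_lit 36972) (nat_lit 0) (nat_lit 532) (XT.nd (nat_lit 3510) (nat_lit 532) (nat_lit 0) xc112 xc113) (XT.nd (nat_lit 3510) (nat_lit 2660) (nat_lit 0) xc114 xc115)) (XT.nd (nat_lit 37050) (nat_lit 0) (nat_lit 0) (XT.nd (nat_lit 33540) (nat_lit 0) (nat_lit 3192) xc116 xc117) (XT.nd (nat_lit 3510) (nat_lit 608) (nat_lit 0) xc118 xc119))) (XT.nd (nat_lit 44382) (nat_lit 0) (nat_lit 0) (XT.nd (nat_lit 7020) (nat_lit 456) (nat_lit 0) (XT.nd (nat_lit 3510) (nat_lit 2660) (nat_lit 0) xc120 xc121) (XT.nd (nat_lit 33774) (nat_lit 0) (nat_lit 2888) xc122 xc123)) (XT.nd (nat_lit 37362) (nat_lit 0) (nat_lit 228) (XT.nd (nat_lit 3510) (nat_lit 456) (nat_lit 0)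 xc124 xc125) (XT.nd (nat_lit 3510) (nat_lit 2356) (nat_lit 0) xc126 xc127))))))) (XT.nd (nat_lit 1050972) (nat_lit 0) (nat_lit 836) (XT.nd (nat_lit 484926) (nat_lit 0) (nat_lit 228) (XT.nd (nat_lit 240630) (nat_lit 0) (nat_lit 152) (XT.nd (nat_lit 119886) (nat_lit 0) (nat_lit 76) (XT.nd (nat_lit 75114) (nat_lit 0) (nat_lit 0) (XT.nd (nat_lit 37440) (nat_lit 0) (nat_lit 0) (XT.nd (nat_lit 33930) (nat_lit 0) (nat_lit 2204) xc128 xc129) (XT.nd (nat_lit 3510) (nat_lit 228) (nat_lit 0) xc130 xc131)) (XT.nd (nat_lit 7020) (nat_lit 152) (nat_lit 0) (XT.nd (nat_lit 3510) (nat_lit 1596) (nat_lit 0) xc132 xc133) (XT.nd (nat_lit 34164) (nat_lit 0) (nat_lit 1368) xc134 xc135))) (XT.nd (nat_lit 75660) (nat_lit 0) (nat_lit 76) (XT.nd (nat_lit 37752) (nat_lit 0) (nat_lit 0) (XT.nd (nat_lit 34242) (nat_lit 0) (nat_lit 4940) xc136 xc137) (XT.nd (nat_lit 3510) (nat_lit 912) (nat_lit 0) xc138 xc139)) (XT.nd (nat_lit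 7020) (nat_lit 532) (nat_lit 0) (XT.nd (nat_lit 3510) (nat_lit 3040) (nat_lit 0) xc140 xc141) (XT.nd (nat_lit 34476) (nat_lit 0) (nat_lit 2432) xc142 xc143)))) (XT.nd (nat_lit 121680) (nat_lit 0) (nat_lit 0) (XT.nd (nat_lit 76284) (nat_lit 0) (nat_lit 0) (XT.nd (nat_lit 38064) (nat_lit 0) (nat_lit 0) (XT.nd (nat_lit 3510) (nat_lit 304) (nat_lit 0) xc144 xc145) (XT.nd (nat_lit 3510) (nat_lit 1596) (nat_lit 0) xc146 xc147)) (XT.nd (nat_lit 7020) (nat_lit 836) (nat_lit 0) (XT.nd (nat_lit 3510) (nat_lit 4028) (nat_lit 0) xc148 xc149) (XT.nd (nat_lit 34788) (nat_lit 0) (nat_lit 2964) xc150 xc151))) (XT.nd (nat_lit 76908) (nat_lit 0) (nat_lit 76) (XT.nd (nat_lit 38376) (nat_lit 0) (nat_lit 0) (XT.nd (nat_lit 3510) (nat_lit 380) (nat_lit 0) xc152 xc153) (XT.nd (nat_lit 3510) (nat_lit 1748) (nat_lit 0) xc154 xc155)) (XT.nd (nat_lit 7020) (nat_lit 760) (nat_lit 0) (XT.nd (nat_lit 3510) (nat_lit 3648)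 (nat_lit 0) xc156 xc157) (XT.nd (nat_lit 35100) (nat_lit 0) (nat_lit 2356) xc158 xc159))))) (XT.nd (nat_lit 280332) (nat_lit 0) (nat_lit 304) (XT.nd (nat_lit 123552) (nat_lit 0) (nat_lit 0) (XT.nd (nat_lit 77532) (nat_lit 0) (nat_lit 0) (XT.nd (nat_lit 38688) (nat_lit 0) (nat_lit 0) (XT.nd (nat_lit 3510) (nat_lit 228) (nat_lit 0) xc160 xc161) (XT.nd (nat_lit 3510) (nat_lit 1140) (nat_lit 0) xc162 xc163)) (XT.nd (nat_lit 7020) (nat_lit 304) (nat_lit 0) (XT.nd (nat_lit 3510) (nat_lit 2356) (nat_lit 0) xc164 xc165) (XT.nd (nat_lit 35412) (nat_lit 0) (nat_lit 1140) xc166 xc167))) (XT.nd (nat_lit 78156) (nat_lit 0) (nat_lit 228) (XT.nd (nat_lit 39000) (nat_lit 0) (nat_lit 152) (XT.nd (nat_lit 35490) (nat_lit 0) (nat_lit 2660) xc168 xc169) (XT.nd (nat_lit 3510) (nat_lit 76) (nat_lit 0) xc170 xc171)) (XT.nd (nat_lit 39234) (nat_lit 0) (nat_lit 0) (XT.nd (nat_lit 3510) (nat_lit 760) (nat_lit 0) xc172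 xc173) (XT.nd (nat_lit 3510) (nat_lit 1900) (nat_lit 0) xc174 xc175)))) (XT.nd (nat_lit 125814) (nat_lit 0) (nat_lit 0) (XT.nd (nat_lit 46566) (nat_lit 0) (nat_lit 0) (XT.nd (nat_lit 7020) (nat_lit 304) (nat_lit 0) (XT.nd (nat_lit 3510) (nat_lit 3116) (nat_lit 0) xc176 xc177) (XT.nd (nat_lit 35958) (nat_lit 0) (nat_lit 988) xc178 xc179)) (XT.nd (nat_lit 39546) (nat_lit 0) (nat_lit 0) (XT.nd (nat_lit 36036) (nat_lit 0) (nat_lit 1824) xc180 xc181) (XT.nd (nat_lit 36114) (nat_lit 0) (nat_lit 3192) xc182 xc183))) (XT.nd (nat_lit 79716) (nat_lit 0) (nat_lit 152) (XT.nd (nat_lit 39780) (nat_lit 0) (nat_lit 152) (XT.nd (nat_lit 3510) (nat_lit 228) (nat_lit 0) xc184 xc185) (XT.nd (nat_lit 3510) (nat_lit 532) (nat_lit 0) xc186 xc187)) (XT.nd (nat_lit 40014) (nat_lit 0) (nat_lit 76) (XT.nd (nat_lit 3510) (nat_lit 1064) (nat_lit 0) xc188 xc189) (XT.nd (nat_lit 3510) (nat_lit 1596) (nat_lit 0) xc190 xc191))))))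 (XT.nd (nat_lit 693420) (nat_lit 0) (nat_lit 1292) (XT.nd (nat_lit 325416) (nat_lit 0) (nat_lit 532) (XT.nd (nat_lit 161772) (nat_lit 0) (nat_lit 152) (XT.nd (nat_lit 80652) (nat_lit 0) (nat_lit 0) (XT.nd (nat_lit 40248) (nat_lit 0) (nat_lit 0) (XT.nd (nat_lit 3510) (nat_lit 2280) (nat_lit 0) xc192 xc193) (XT.nd (nat_lit 3510) (nat_lit 2812) (nat_lit 0) xc194 xc195)) (XT.nd (nat_lit 40482) (nat_lit 0) (nat_lit 152) (XT.nd (nat_lit 3510) (nat_lit 3116) (nat_lit 0) xc196 xc197) (XT.nd (nat_lit 3510) (nat_lit 3572) (nat_lit 0) xc198 xc199))) (XT.nd (nat_lit 81588) (nat_lit 0) (nat_lit 228) (XT.nd (nat_lit 40716) (nat_lit 0) (nat_lit 0) (XT.nd (nat_lit 3510) (nat_lit 3572) (nat_lit 0) xc200 xc201) (XT.nd (nat_lit 3510) (nat_lit 3572) (nat_lit 0) xc202 xc203)) (XT.nd (nat_lit 40950) (nat_lit 0) (nat_lit 0) (XT.nd (nat_lit 3510) (nat_lit 3040) (nat_lit 0) xc204 xc205) (XT.nd (nat_lit 3510) (nat_lit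 2736) (nat_lit 0) xc206 xc207)))) (XT.nd (nat_lit 165516) (nat_lit 0) (nat_lit 152) (XT.nd (nat_lit 82524) (nat_lit 0) (nat_lit 152) (XT.nd (nat_lit 41184) (nat_lit 0) (nat_lit 0) (XT.nd (nat_lit 3510) (nat_lit 1976) (nat_lit 0) xc208 xc209) (XT.nd (nat_lit 3510) (nat_lit 1444) (nat_lit 0) xc210 xc211)) (XT.nd (nat_lit 41418) (nat_lit 0) (nat_lit 0) (XT.nd (nat_lit 3510) (nat_lit 608) (nat_lit 0) xc212 xc213) (XT.nd (nat_lit 3510) (nat_lit 0) (nat_lit 0) xc214 xc215))) (XT.nd (nat_lit 83460) (nat_lit 0) (nat_lit 228) (XT.nd (nat_lit 41652) (nat_lit 0) (nat_lit 228) (XT.nd (nat_lit 38142) (nat_lit 0) (nat_lit 1824) xc216 xc217) (XT.nd (nat_lit 38220) (nat_lit 0) (nat_lit 380) xc218 xc219)) (XT.nd (nat_lit 76830) (nat_lit 0) (nat_lit 152) (XT.nd (nat_lit 38376) (nat_lit 0) (nat_lit 152) xc220 xc221) (XT.nd (nat_lit 3510) (nat_lit 1444) (nat_lit 0) xc222 xc223))))) (XT.nd (nat_lit 487734) (nat_lit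 0) (nat_lit 1824) (XT.nd (nat_lit 205608) (nat_lit 0) (nat_lit 684) (XT.nd (nat_lit 120198) (nat_lit 0) (nat_lit 228) (XT.nd (nat_lit 42276) (nat_lit 0) (nat_lit 0) (XT.nd (nat_lit 38766) (nat_lit 0) (nat_lit 1824) xc224 xc225) (XT.nd (nat_lit 38844) (nat_lit 0) (nat_lit 228) xc226 xc227)) (XT.nd (nat_lit 42588) (nat_lit 0) (nat_lit 228) (XT.nd (nat_lit 3510) (nat_lit 1596) (nat_lit 0) xc228 xc229) (XT.nd (nat_lit 39234) (nat_lit 0) (nat_lit 760) xc230 xc231))) (XT.nd (nat_lit 158418) (nat_lit 0) (nat_lit 532) (XT.nd (nat_lit 78858) (nat_lit 0) (nat_lit 304) (XT.nd (nat_lit 39390) (nat_lit 0) (nat_lit 0) xc232 xc233) (XT.nd (nat_lit 39624) (nat_lit 0) (nat_lit 228) xc234 xc235)) (XT.nd (nat_lit 43368) (nat_lit 0) (nat_lit 304) (XT.nd (nat_lit 3510) (nat_lit 1216) (nat_lit 0) xc236 xc237) (XT.nd (nat_lit 40092) (nat_lit 0) (nat_lit 0) xc238 xc239)))) (XT.nd (nat_lit 326196) (nat_lit 0) (nat_lit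 2128) (XT.nd (nat_lit 162084) (nat_lit 0) (nat_lit 988) (XT.nd (nat_lit 80730) (nat_lit 0) (nat_lit 304) (XT.nd (nat_lit 40326) (nat_lit 0) (nat_lit 304) xc240 xc241) (XT.nd (nat_lit 40560) (nat_lit 0) (nat_lit 304) xc242 xc243)) (XT.nd (nat_lit 81744) (nat_lit 0) (nat_lit 380) (XT.nd (nat_lit 40794) (nat_lit 0) (nat_lit 76) xc244 xc245) (XT.nd (nat_lit 41106) (nat_lit 0) (nat_lit 380) xc246 xc247))) (XT.nd (nat_lit 243594) (nat_lit 0) (nat_lit 1824) (XT.nd (nat_lit 121134) (nat_lit 0) (nat_lit 912) (XT.nd (nat_lit 79404) (nat_lit 0) (nat_lit 912) xc248 xc249) (XT.nd (nat_lit 41808) (nat_lit 0) (nat_lit 456) xc250 xc251)) (XT.nd (nat_lit 162708) (nat_lit 0) (nat_lit 1748) (XT.nd (nat_lit 81042) (nat_lit 0) (nat_lit 1064) xc252 xc253) (XT.nd (nat_lit 121680) (nat_lit 0) (nat_lit 532) xc254 xc255)))))))) XT.nil))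

set_option maxRecDepth 10000000 in
noncomputable def Te : XT := XT.nil

set_option maxRecDepth 10000000 in
noncomputable def Tz : ZL := (ZL.cons (nat_lit 76) (nat_lit 3) (nat_lit 83530460466818374507) (ZL.cons (nat_lit 152) (nat_lit 6) (nat_lit 164981494962637712304) (ZL.cons (nat_lit 228) (nat_lit 6) (nat_lit 162976705485362183670) (ZL.cons (nat_lit 304) (nat_lit 3) (nat_lit 81454604153308313713) (ZL.cons (nat_lit 380) (nat_lit 6) (nat_lit 160911772323768389178) (ZL.cons (nat_lit 456) (nat_lit 6) (nat_lit 158987441681680800076) (ZL.cons (nat_lit 532) (nat_lit 3) (nat_lit 79460955220090130015) (ZL.cons (nat_lit 608) (nat_lit 6) (nat_lit 157005381120330583298) (ZL.cons (nat_lit 684) (nat_lit 6) (nat_lit 155160509726949587420) (ZL.cons (nat_lit 760) (nat_lit 3) (nat_lit 77548443581192978154) (ZL.cons (nat_lit 836) (nat_lit 6) (nat_lit 153385684236489657934) (ZL.cons (nat_lit 912) (nat_lit 6)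 (nat_lit 153260292191767161666) (ZL.cons (nat_lit 988) (nat_lit 6) (nat_lit 151493991416752299450) (ZL.cons (nat_lit 1064) (nat_lit 3) (nat_lit 75716110968296717147) (ZL.cons (nat_lit 1140) (nat_lit 6) (nat_lit 149796441467732133376) (ZL.cons (nat_lit 1216) (nat_lit 6) (nat_lit 149674701618486991370) (ZL.cons (nat_lit 1292) (nat_lit 6) (nat_lit 147986195540082497164) (ZL.cons (nat_lit 1368) (nat_lit 3) (nat_lit 73963112585498110157) (ZL.cons (nat_lit 1444) (nat_lit 6) (nat_lit 146365228307719209886) (ZL.cons (nat_lit 1520) (nat_lit 6) (nat_lit 146247034279325868132) (ZL.cons (nat_lit 1596) (nat_lit 6) (nat_lit 144810383542262054820) (ZL.cons (nat_lit 1672) (nat_lit 6) (nat_lit 144635661689298747140) (ZL.cons (nat_lit 1748) (nat_lit 3) (nat_lit 72288719014995841118) (ZL.cons (nat_lit 1824) (nat_lit 6) (nat_lit 143090699405447843348) (ZL.cons (nat_lit 1900) (nat_lit 6) (nat_lit 142975947921570812518)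 (ZL.cons (nat_lit 1976) (nat_lit 6) (nat_lit 141610797460729015190) (ZL.cons (nat_lit 2052) (nat_lit 6) (nat_lit 141441164593774347538) (ZL.cons (nat_lit 2128) (nat_lit 3) (nat_lit 70692318384602190806) (ZL.cons (nat_lit 2204) (nat_lit 6) (nat_lit 139971746973791591358) (ZL.cons (nat_lit 2280) (nat_lit 6) (nat_lit 139860337766143988610) (ZL.cons (nat_lit 2356) (nat_lit 6) (nat_lit 138566411104478869722) (ZL.cons (nat_lit 2432) (nat_lit 6) (nat_lit 138401719000639386564) (ZL.cons (nat_lit 2508) (nat_lit 3) (nat_lit 69173418808780874871) (ZL.cons (nat_lit 2584) (nat_lit 6) (nat_lit 137223929022455229766) (ZL.cons (nat_lit 2660) (nat_lit 6) (nat_lit 137007505951439163688) (ZL.cons (nat_lit 2736) (nat_lit 6) (nat_lit 136899341672169646456) (ZL.cons (nat_lit 2812) (nat_lit 6) (nat_lit 135676480374131397456) (ZL.cons (nat_lit 2888) (nat_lit 6) (nat_lit 135516585127685297304) (ZL.cons (nat_lit 2964)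 (nat_lit 3) (nat_lit 67731651115746708447) (ZL.cons (nat_lit 3040) (nat_lit 6) (nat_lit 134407479236658246130) (ZL.cons (nat_lit 3116) (nat_lit 6) (nat_lit 134197359750234881006) (ZL.cons (nat_lit 3192) (nat_lit 6) (nat_lit 134092345886866417676) (ZL.cons (nat_lit 3268) (nat_lit 6) (nat_lit 133199393703074344820) (ZL.cons (nat_lit 3344) (nat_lit 6) (nat_lit 132940512818614800112) (ZL.cons (nat_lit 3420) (nat_lit 6) (nat_lit 132785274715269071810) (ZL.cons (nat_lit 3496) (nat_lit 3) (nat_lit 66366771874046244445) (ZL.cons (nat_lit 3572) (nat_lit 6) (nat_lit 131744946117059561348) (ZL.cons (nat_lit 3648) (nat_lit 6) (nat_lit 131540946615677653462) (ZL.cons (nat_lit 3724) (nat_lit 6) (nat_lit 131438991408523805570) (ZL.cons (nat_lit 3800) (nat_lit 6) (nat_lit 130609614975635766934) (ZL.cons (nat_lit 3876) (nat_lit 6) (nat_lit 130358274311111937120) (ZL.cons (nat_lit 3952) (nat_lit 6) (nat_lit 130207557705921909644)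 (ZL.cons (nat_lit 4028) (nat_lit 3) (nat_lit 65078666732972322336) (ZL.cons (nat_lit 4104) (nat_lit 6) (nat_lit 129533527357423726176) (ZL.cons (nat_lit 4180) (nat_lit 6) (nat_lit 129236224398587350800) (ZL.cons (nat_lit 4256) (nat_lit 6) (nat_lit 129038166630255401396) (ZL.cons (nat_lit 4332) (nat_lit 6) (nat_lit 128939180992241956840) (ZL.cons (nat_lit 4408) (nat_lit 6) (nat_lit 128173816446141494380) (ZL.cons (nat_lit 4484) (nat_lit 6) (nat_lit 127929796383496999414) (ZL.cons (nat_lit 4560) (nat_lit 6) (nat_lit 127783469582341632930) (ZL.cons (nat_lit 4636) (nat_lit 3) (nat_lit 63867354092152726673) (ZL.cons (nat_lit 4712) (nat_lit 6) (nat_lit 127170122136146017106) (ZL.cons (nat_lit 4788) (nat_lit 6) (nat_lit 126881478486790312862) (ZL.cons (nat_lit 4864) (nat_lit 6) (nat_lit 126689189391322400816) (ZL.cons (nat_lit 4940) (nat_lit 6) (nat_lit 126593086830144299304) (ZL.cons (nat_lit 5016)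 (nat_lit 6) (nat_lit 126224264454155291866) (ZL.cons (nat_lit 5092) (nat_lit 6) (nat_lit 125892296934206180550) (ZL.cons (nat_lit 5168) (nat_lit 6) (nat_lit 125655384252027059226) (ZL.cons (nat_lit 5244) (nat_lit 6) (nat_lit 125513319396536412152) (ZL.cons (nat_lit 5320) (nat_lit 3) (nat_lit 62732989116697245112) (ZL.cons (nat_lit 5396) (nat_lit 6) (nat_lit 125335416922583113172) (ZL.cons (nat_lit 5472) (nat_lit 6) (nat_lit 124961387392349140624) (ZL.cons (nat_lit 5548) (nat_lit 6) (nat_lit 124681150839576612228) (ZL.cons (nat_lit 5624) (nat_lit 6) (nat_lit 124494462397374755876) (ZL.cons (nat_lit 5700) (nat_lit 6) (nat_lit 124401158939920288386) (ZL.cons (nat_lit 5776) (nat_lit 6) (nat_lit 124087936445114657800) (ZL.cons (nat_lit 5852) (nat_lit 6) (nat_lit 123765637882057268172) (ZL.cons (nat_lit 5928) (nat_lit 6) (nat_lit 123535625569262004748) (ZL.cons (nat_lit 6004) (nat_lit 6) (nat_lit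 123397698525096327980) (ZL.cons (nat_lit 6080) (nat_lit 3) (nat_lit 61675868115391891209) (ZL.cons (nat_lit 6156) (nat_lit 6) (nat_lit 123271180882937187386) (ZL.cons (nat_lit 6232) (nat_lit 6) (nat_lit 122908045416690612096) (ZL.cons (nat_lit 6308) (nat_lit 6) (nat_lit 122635971093610487440) (ZL.cons (nat_lit 6384) (nat_lit 6) (nat_lit 122454720178851403600) (ZL.cons (nat_lit 6460) (nat_lit 6) (nat_lit 122364134297827648760) (ZL.cons (nat_lit 6536) (nat_lit 6) (nat_lit 122510407035908030626) (ZL.cons (nat_lit 6612) (nat_lit 6) (nat_lit 122107624090837003234) (ZL.cons (nat_lit 6688) (nat_lit 6) (nat_lit 121794712864567692916) (ZL.cons (nat_lit 6764) (nat_lit 6) (nat_lit 121571399939523747844) (ZL.cons (nat_lit 6840) (nat_lit 6) (nat_lit 121437490187906585932) (ZL.cons (nat_lit 6916) (nat_lit 3) (nat_lit 60696433300597688327) (ZL.cons (nat_lit 6992) (nat_lit 6) (nat_lit 121804950150180268830)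 (ZL.cons (nat_lit 7068) (nat_lit 6) (nat_lit 121363674507221423868) (ZL.cons (nat_lit 7144) (nat_lit 6) (nat_lit 121011115802127661448) (ZL.cons (nat_lit 7220) (nat_lit 6) (nat_lit 120746965973894530714) (ZL.cons (nat_lit 7296) (nat_lit 6) (nat_lit 120570994211992507570) (ZL.cons (nat_lit 7372) (nat_lit 6) (nat_lit 120483046754687891220) (ZL.cons (nat_lit 7448) (nat_lit 6) (nat_lit 120675546612809646794) (ZL.cons (nat_lit 7524) (nat_lit 6) (nat_lit 120284495209828066804) (ZL.cons (nat_lit 7600) (nat_lit 6) (nat_lit 119980697902770483968) (ZL.cons (nat_lit 7676) (nat_lit 6) (nat_lit 119763889237679275162) (ZL.cons (nat_lit 7752) (nat_lit 6) (nat_lit 119633879770089797580) (ZL.cons (nat_lit 7828) (nat_lit 3) (nat_lit 59795277949748195254) (ZL.cons (nat_lit 7904) (nat_lit 6) (nat_lit 120042639130800729680) (ZL.cons (nat_lit 7980) (nat_lit 6) (nat_lit 119614216176471753988) (ZL.cons (nat_lit 8056)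 (nat_lit 6) (nat_lit 119271926171526353582) (ZL.cons (nat_lit 8132) (nat_lit 6) (nat_lit 119015470027610692674) (ZL.cons (nat_lit 8208) (nat_lit 6) (nat_lit 118844623656832029430) (ZL.cons (nat_lit 8284) (nat_lit 6) (nat_lit 118759237775953761126) (ZL.cons (nat_lit 8360) (nat_lit 6) (nat_lit 119464399035239519108) (ZL.cons (nat_lit 8436) (nat_lit 6) (nat_lit 118999693021349965064) (ZL.cons (nat_lit 8512) (nat_lit 6) (nat_lit 118620031465057168956) (ZL.cons (nat_lit 8588) (nat_lit 6) (nat_lit 118325082623253690478) (ZL.cons (nat_lit 8664) (nat_lit 6) (nat_lit 118114588773650575132) (ZL.cons (nat_lit 8740) (nat_lit 6) (nat_lit 117988365989583121166) (ZL.cons (nat_lit 8816) (nat_lit 3) (nat_lit 58973151989649129967) (ZL.cons (nat_lit 8892) (nat_lit 6) (nat_lit 118940321067790087802) (ZL.cons (nat_lit 8968) (nat_lit 6) (nat_lit 118440388782482496524) (ZL.cons (nat_lit 9044) (nat_lit 6) (nat_lit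 118024444166629122064) (ZL.cons (nat_lit 9120) (nat_lit 6) (nat_lit 117692123773478247884) (ZL.cons (nat_lit 9196) (nat_lit 6) (nat_lit 117443137225987314968) (ZL.cons (nat_lit 9272) (nat_lit 6) (nat_lit 117277266963095408900) (ZL.cons (nat_lit 9348) (nat_lit 6) (nat_lit 117194368049621362006) (ZL.cons (nat_lit 9424) (nat_lit 6) (nat_lit 118469947296247868300) (ZL.cons (nat_lit 9500) (nat_lit 6) (nat_lit 117935814747427619514) (ZL.cons (nat_lit 9576) (nat_lit 6) (nat_lit 117484643860156207820) (ZL.cons (nat_lit 9652) (nat_lit 6) (nat_lit 117116040407444755288) (ZL.cons (nat_lit 9728) (nat_lit 6) (nat_lit 116829682308606426670) (ZL.cons (nat_lit 9804) (nat_lit 6) (nat_lit 116625319347826703032) (ZL.cons (nat_lit 9880) (nat_lit 6) (nat_lit 116502772955528204036) (ZL.cons (nat_lit 9956) (nat_lit 3) (nat_lit 58230968026169509187) (ZL.cons (nat_lit 10032) (nat_lit 6) (nat_lit 118052866714404716914)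 (ZL.cons (nat_lit 10108) (nat_lit 6) (nat_lit 117485530026251790934) (ZL.cons (nat_lit 10184) (nat_lit 6) (nat_lit 117000158875467721732) (ZL.cons (nat_lit 10260) (nat_lit 6) (nat_lit 116596329151338231966) (ZL.cons (nat_lit 10336) (nat_lit 6) (nat_lit 116273687992939324996) (ZL.cons (nat_lit 10412) (nat_lit 6) (nat_lit 116031953480812205656) (ZL.cons (nat_lit 10488) (nat_lit 6) (nat_lit 115870914390625889090) (ZL.cons (nat_lit 10564) (nat_lit 6) (nat_lit 115790430008612251326) (ZL.cons (nat_lit 10640) (nat_lit 3) (nat_lit 57900137579438091228) (ZL.cons (nat_lit 10716) (nat_lit 6) (nat_lit 115826486813082844396) (ZL.cons (nat_lit 10792) (nat_lit 6) (nat_lit 115905144679090001078) (ZL.cons (nat_lit 10868) (nat_lit 6) (nat_lit 116036317487071833516) (ZL.cons (nat_lit 10944) (nat_lit 6) (nat_lit 116220119854045024868) (ZL.cons (nat_lit 11020) (nat_lit 6) (nat_lit 116456712384019551702) (ZL.cons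 (nat_lit 11096) (nat_lit 6) (nat_lit 116746301808332284968) (ZL.cons (nat_lit 11172) (nat_lit 6) (nat_lit 117089141166286022202) (ZL.cons (nat_lit 11248) (nat_lit 6) (nat_lit 116570565876169275806) (ZL.cons (nat_lit 11324) (nat_lit 6) (nat_lit 116132535888527128532) (ZL.cons (nat_lit 11400) (nat_lit 6) (nat_lit 115774668458710184328) (ZL.cons (nat_lit 11476) (nat_lit 6) (nat_lit 115496650887022486636) (ZL.cons (nat_lit 11552) (nat_lit 6) (nat_lit 115298240245488774368) (ZL.cons (nat_lit 11628) (nat_lit 6) (nat_lit 115179263165587319034) (ZL.cons (nat_lit 11704) (nat_lit 3) (nat_lit 57569807843381433466) (ZL.cons (nat_lit 11780) (nat_lit 6) (nat_lit 115074828685432256164) (ZL.cons (nat_lit 11856) (nat_lit 6) (nat_lit 115128038343471779898) (ZL.cons (nat_lit 11932) (nat_lit 6) (nat_lit 115234504153426784230) (ZL.cons (nat_lit 12008) (nat_lit 6) (nat_lit 115394319143674899750) (ZL.cons (nat_lit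 12084) (nat_lit 6) (nat_lit 115607622958382362672) (ZL.cons (nat_lit 12160) (nat_lit 6) (nat_lit 115874601979523189224) (ZL.cons (nat_lit 12236) (nat_lit 6) (nat_lit 116195489489737211202) (ZL.cons (nat_lit 12312) (nat_lit 6) (nat_lit 115724255362762386734) (ZL.cons (nat_lit 12388) (nat_lit 6) (nat_lit 115332187669432785022) (ZL.cons (nat_lit 12464) (nat_lit 6) (nat_lit 115018943826327050096) (ZL.cons (nat_lit 12540) (nat_lit 6) (nat_lit 114784250125232759476) (ZL.cons (nat_lit 12616) (nat_lit 6) (nat_lit 114627901493983908440) (ZL.cons (nat_lit 12692) (nat_lit 6) (nat_lit 114549761317271638768) (ZL.cons (nat_lit 12768) (nat_lit 3) (nat_lit 57198361687565125900) (ZL.cons (nat_lit 12844) (nat_lit 6) (nat_lit 114423721378963113594) (ZL.cons (nat_lit 12920) (nat_lit 6) (nat_lit 114504738980950484978) (ZL.cons (nat_lit 12996) (nat_lit 6) (nat_lit 114639846973171772392) (ZL.cons (nat_lit 13072) (nat_lit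 6) (nat_lit 114829163411154159482) (ZL.cons (nat_lit 13148) (nat_lit 6) (nat_lit 115072853717027922122) (ZL.cons (nat_lit 13224) (nat_lit 6) (nat_lit 115371130824070037386) (ZL.cons (nat_lit 13300) (nat_lit 6) (nat_lit 114945858991407758480) (ZL.cons (nat_lit 13376) (nat_lit 6) (nat_lit 114598414884789366046) (ZL.cons (nat_lit 13452) (nat_lit 6) (nat_lit 114328494912277038192) (ZL.cons (nat_lit 13528) (nat_lit 6) (nat_lit 114135863221467608804) (ZL.cons (nat_lit 13604) (nat_lit 6) (nat_lit 114020351493407943430) (ZL.cons (nat_lit 13680) (nat_lit 3) (nat_lit 56990929397760062930) (ZL.cons (nat_lit 13756) (nat_lit 6) (nat_lit 113791578362973654792) (ZL.cons (nat_lit 13832) (nat_lit 6) (nat_lit 113846384310754364236) (ZL.cons (nat_lit 13908) (nat_lit 6) (nat_lit 113956044095008018702) (ZL.cons (nat_lit 13984) (nat_lit 6) (nat_lit 114120653534963577686) (ZL.cons (nat_lit 14060) (nat_lit 6) (nat_lit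 114340356464112264494) (ZL.cons (nat_lit 14136) (nat_lit 6) (nat_lit 114615344855887315846) (ZL.cons (nat_lit 14212) (nat_lit 6) (nat_lit 114234696609936246218) (ZL.cons (nat_lit 14288) (nat_lit 6) (nat_lit 113930576373911260856) (ZL.cons (nat_lit 14364) (nat_lit 6) (nat_lit 113702718411683794234) (ZL.cons (nat_lit 14440) (nat_lit 6) (nat_lit 113550923624063550508) (ZL.cons (nat_lit 14516) (nat_lit 6) (nat_lit 113475059374828337236) (ZL.cons (nat_lit 14592) (nat_lit 3) (nat_lit 56615528468764133531) (ZL.cons (nat_lit 14668) (nat_lit 6) (nat_lit 113258864881476114712) (ZL.cons (nat_lit 14744) (nat_lit 6) (nat_lit 113342313011523107238) (ZL.cons (nat_lit 14820) (nat_lit 6) (nat_lit 113481474243511033274) (ZL.cons (nat_lit 14896) (nat_lit 6) (nat_lit 113676470174632891976) (ZL.cons (nat_lit 14972) (nat_lit 6) (nat_lit 113927471189682867496) (ZL.cons (nat_lit 15048) (nat_lit 6) (nat_lit 113590146814325204940)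 (ZL.cons (nat_lit 15124) (nat_lit 6) (nat_lit 113328088588585080810) (ZL.cons (nat_lit 15200) (nat_lit 6) (nat_lit 113141067529546799850) (ZL.cons (nat_lit 15276) (nat_lit 6) (nat_lit 113028920220751008226) (ZL.cons (nat_lit 15352) (nat_lit 3) (nat_lit 56495774334701806262) (ZL.cons (nat_lit 15428) (nat_lit 6) (nat_lit 112741667326624134054) (ZL.cons (nat_lit 15504) (nat_lit 6) (nat_lit 112798117452838264786) (ZL.cons (nat_lit 15580) (nat_lit 6) (nat_lit 112911067030619528882) (ZL.cons (nat_lit 15656) (nat_lit 6) (nat_lit 113080614753773754636) (ZL.cons (nat_lit 15732) (nat_lit 6) (nat_lit 113306908770796902050) (ZL.cons (nat_lit 15808) (nat_lit 6) (nat_lit 113011646405724100726) (ZL.cons (nat_lit 15884) (nat_lit 6) (nat_lit 112790425083173162258) (ZL.cons (nat_lit 15960) (nat_lit 6) (nat_lit 112643051502959333400) (ZL.cons (nat_lit 16036) (nat_lit 6) (nat_lit 112569396892051359346) (ZL.cons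 (nat_lit 16112) (nat_lit 3) (nat_lit 56147169863002431139) (ZL.cons (nat_lit 16188) (nat_lit 6) (nat_lit 112322981908271145360) (ZL.cons (nat_lit 16264) (nat_lit 6) (nat_lit 112408933482219547662) (ZL.cons (nat_lit 16340) (nat_lit 6) (nat_lit 112552269551167111476) (ZL.cons (nat_lit 16416) (nat_lit 6) (nat_lit 112753115360222625942) (ZL.cons (nat_lit 16492) (nat_lit 6) (nat_lit 112498689898339010280) (ZL.cons (nat_lit 16568) (nat_lit 6) (nat_lit 112317116054612523914) (ZL.cons (nat_lit 16644) (nat_lit 6) (nat_lit 112208235172286512626) (ZL.cons (nat_lit 16720) (nat_lit 3) (nat_lit 56085976056362967137) (ZL.cons (nat_lit 16796) (nat_lit 6) (nat_lit 111916491210841059246) (ZL.cons (nat_lit 16872) (nat_lit 6) (nat_lit 111974634840841613898) (ZL.cons (nat_lit 16948) (nat_lit 6) (nat_lit 112090972905956315918) (ZL.cons (nat_lit 17024) (nat_lit 6) (nat_lit 112265607060805168444) (ZL.cons (nat_lit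 17100) (nat_lit 6) (nat_lit 112050829077746004884) (ZL.cons (nat_lit 17176) (nat_lit 6) (nat_lit 111907747931907336088) (ZL.cons (nat_lit 17252) (nat_lit 6) (nat_lit 111836238600928720502) (ZL.cons (nat_lit 17328) (nat_lit 3) (nat_lit 55789145087250854158) (ZL.cons (nat_lit 17404) (nat_lit 6) (nat_lit 111607791622235979886) (ZL.cons (nat_lit 17480) (nat_lit 6) (nat_lit 111696321743402834256) (ZL.cons (nat_lit 17556) (nat_lit 6) (nat_lit 111843957894418824988) (ZL.cons (nat_lit 17632) (nat_lit 6) (nat_lit 111667672609247478998) (ZL.cons (nat_lit 17708) (nat_lit 6) (nat_lit 111561963014756205904) (ZL.cons (nat_lit 17784) (nat_lit 3) (nat_lit 55763368371669084335) (ZL.cons (nat_lit 17860) (nat_lit 6) (nat_lit 111308083283784446526) (ZL.cons (nat_lit 17936) (nat_lit 6) (nat_lit 111367971222685017814) (ZL.cons (nat_lit 18012) (nat_lit 6) (nat_lit 111487799429753160896) (ZL.cons (nat_lit 18088) (nat_lit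 6) (nat_lit 111348885695929210608) (ZL.cons (nat_lit 18164) (nat_lit 6) (nat_lit 111279459160998515866) (ZL.cons (nat_lit 18240) (nat_lit 3) (nat_lit 55537623972207290219) (ZL.cons (nat_lit 18316) (nat_lit 6) (nat_lit 111105634435580880156) (ZL.cons (nat_lit 18392) (nat_lit 6) (nat_lit 111196820460382740156) (ZL.cons (nat_lit 18468) (nat_lit 6) (nat_lit 111094189786119368220) (ZL.cons (nat_lit 18544) (nat_lit 3) (nat_lit 55529994761303355356) (ZL.cons (nat_lit 18620) (nat_lit 6) (nat_lit 110909082155771592420) (ZL.cons (nat_lit 18696) (nat_lit 6) (nat_lit 110970766732839180850) (ZL.cons (nat_lit 18772) (nat_lit 6) (nat_lit 110903362329993846148) (ZL.cons (nat_lit 18848) (nat_lit 3) (nat_lit 55389071319273320818) (ZL.cons (nat_lit 18924) (nat_lit 6) (nat_lit 110809440724447930348) (ZL.cons (nat_lit 19000) (nat_lit 3) (nat_lit 55388118292557626577) (ZL.cons (nat_lit 19076) (nat_lit 6) (nat_lit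 110712701470735637072) (ZL.cons (nat_lit 19152) (nat_lit 1) (nat_lit 18446744073709551617) ZL.nil))))))))))))))))))))))))))))))))))))))))))))))))))))))))))))))))))))))))))))))))))))))))))))))))))))))))))))))))))))))))))))))))))))))))))))))))))))))))))))))))))))))))))))))))))))))))))))))))))))))))))))))))))))))))))))))))))))))))))))))))))))))))))))

noncomputable def vl : XL := ⟨(nat_lit 0), (nat_lit 76), (nat_lit 531207287), (nat_lit 152), (nat_lit 91217094), (nat_lit 152), (nat_lit 91217094), (nat_lit 1), (nat_lit 4), (nat_lit 2), (nat_lit 5), (nat_lit 2), (nat_lit 4), (nat_lit 0), (nat_lit 0), (nat_lit 0)⟩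

noncomputable def cp0 : Nat := (nat_lit 3951058817325444969001862710714662976937950135043748958320735650506877123935999286538087342992013116743854630593235948923042905038282943768237542764382940731830979411065508307749484734490979077727455039344267241163170850917992039912883921858729549942635106414527216335742731029975530310350404265309751000346776989518871210763907734787919621565798226546147757750674897885786540032487334162606666612112979882723448472955495340826641150558270713575546679516345402202708836202549178436280505863546290179958294367191971632140016271303343083452638551605465109323502496868292386301024616037119560373066441372890619520125111238830942951857227694901402590905623894491590778321937173391150851799754690899595639589044890537045946607010992083246088647204020302286711412741856087749807215073566600132165228030108876569374879402816440746073336162174780773340402034933828948332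0247747185016141072482191160697873337422553405501455639483282470886355534642342664106483994693514670022538588136270985285763269031753844685365277820688545422305081167436996340088761766969130936237250849910724388890413432687671124704547246659723547905322116493200667305307411605401598113250932688636346283805619211545702683196307855412044556985647825704420628494847456939095132749202306553920700997186608655814638662964155325187220660301700884047598624910207417160095673752392156881698998611300243695243132545193279710199367491432297766378976607888427267144899935050152204570360408123742281974608130560939692964389567090552694185650135563225784195683014279065822152685136513820422227711010344321845840005690544307804643788332584682276641026693066879642058990502052205821568082517925100365933455502071587927127604720456707216978734210753876461348897023042605474585811624040773667807577359316328194592318307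2571636975887380158582112401158015554932926829815395516438474610087602411163365809776605429453947233349619268830074421749350809890575962374543817633569987697834163091491453310975014408670195598719361747943424054548800627122002399961262657245914006366976147719589547484663846424313860772550191064220706328777391125111182597594702016502041982581024799033718679344937401772580230500519073467612326807768945417741816039796195640379445381875927094253378024860508455282532939178714814789242364464374254017839161051264140579755091122346592961257692763309544571420264154964712998072237024492638849883916130360944406017243067443813418141541793666289157914919315887422406094994953151354112145454540853436352693322946041503360073129077937068021066046682752714807219000900477378137305973221919347677366266818803230161627265445912076446358085597363779775846578528729979540332605388699276490871212501352877829035336061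1718036507613051605236123030932475516907309251492362849119363404655679351017989537676350371386855911192960775478034259951428351780037972680848185775902009801266244549024341575767683480154269850573315336961463014187479270676342725601599431163912043845121973114989817939761635901906828651024142984921234618629620281060778188222177937372389206694843043120146195313402639921641576200324178071096254536690274324960103316023193365768762511993961324430106863682868543263979468402834495596787694506160190658412160922071656725242466869061547973068582143843897594706876543579963099388072022728360119138460471556103268727404340046462772060900927339520647150790896649678089150003737075033628986321589594326152361301648976514169723977452578830245575499236693137437576753288586207307422799857706811739022892760770752039425254564559529852584723400353331877456594472880761407177867368975980824522295104543874413855894008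3865919278519934044020491937814494562192504998006460225388305351586140839371617920780113576672339016031033870635339179427135477378187014138953072025982556643269151755234081626880499094732281414946382722814274161442039193189608074874792483632180748778397299471594351155061044355290293708453701874732152499435761027544529828446381251785549467899772487344106867420876414138045628006511175979702125424730741530972317537165994833360418094979567471721826944807541337729737659211182896218783518297770873235574470287659106641880333526376830938668483549496176858844865592034022432020676817947012341402588122350839631191805395033372218060354039092966661912207240174888588349509919448651988414685333641741128726009208247777282149213668076597579732477300707223243990540026922186804272872761314041319859524118650189697960293509653912213908550567916314215898805058328523058209866398441780239402654924559042804445304879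8246119769898466570466846177222062415433331575636428758480039129910890920553700556483785613603455700539965204992821473793660667114814907342272557887398352115290226890416972107994799173501702071809977295201290120331408591448048257179439762014224693896061160240988645482491266533821960879112146812453964227211496707377495363983107599146659122832533894608563418462994060255904538036547372080058294562317543988110631733378366651269973289608481819627403229713830288268258445242465863443352572045775421594949268139899236685083277458813037513164812704693393017669420118440966240070240101748902580927006555758187456165069616773499433029277309968382329671101068240171133874026549918160648077738331746768992950310959444551807614058976289882701403866380595895354360042597369234527406658976808517432698340078972667462559681526343711862327271095769632816053941467062880165916649157092865692124484660777311042105191914698922078532493868373645479822983359667587347274097034119540054708466839966461786471784118608019119624577414435976193976237861512382826143762412024274021935579306207412609523624835995962321934163913351022990101821025069907266381881984817210361417292604489847002901863170077075002425319117518982717937261545290153587298351818583699835108450730560652150564664337895792637445700126017702727387021205045248)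

noncomputable def cp1 : Nat := (nat_lit 5801664804683019441351942982731978514191361548549972780206923821280307780189871296006274382559201339306241424128350486696077077909633277474830336677290164050786681549988106549478463331392387485238295079671042064589274771403225582638095705450813514973541965333218698252855036303369479135804541362968460453900763230938096708402903257382774981381367239297575340865674971206243889588403494762410670734245052116480268593073491682666965837937599002076086884094104789087539552088782671193412212547012260917895698924267877987904924850334383421384306085846990412144159614570251018242340924387646432024259408806806736608609848637957819531064825053851875913308770768070774947693135808234034062634822327950220218251516766235537227315246114878584134599350890990477059012177208209905972350231510560345060595410319342994773863944841987597589420127433499121012503580539391782722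4003906212756201251760373277345991042541915157756944591063112604696719600894228313717565069933693375361513172876075508471732362169612270449149447105987418733031328467151165485053297646630947783104109088758306250701226398619684396511873210148293722374094791939278467020972221078496193634976844754474609579311238350059440607342859423661072932743078579443749402523805776021059266494386296667476050680376788143983294547530453486216973389657216025080918856625506856750286614744705773149488058609332497783597877065098730921908959505268653397637301556639105540471612917285269239917698421518117614825191963293289787557210692284594123381425886777700415763262125722905748069791223863408706916798358316706279335265969950545143748054477468545384875959644509128548343508972391280664044351356019174479500926501627843028834294553226237114045191137817369616766883186336707277733640829696133094945665817836032632431046792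5223139014157709118114038331192392121923598297711446382004747723151976354821943150235375604725021294288917448025337024689851957019111940886966134378974516860624015595382014511998093357287182695165291994632970995914709462509060008191888751336307507410701231816193097074370150524017329448584659601377573159288227323121491255722969387777553297758641666055086718231914666331947886681991760213918545259897565718258251349700271573457930844119868788208041828069030968174420775273433706239462436214005946951883384448902553948899072333410692973103517157820762599939072457198962732732983982724107649019411830665026872343897098835117064888548778697178124642978421803126566448871732837476081416443257605777400750601978103320409097350204903368157802105614560912337451087407870525848843813503616535235598276727699336096806888568229191543867517763664748811015324321366991049345864544009057067694247910259673554228538382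5612991196750461511599281270617392565854642619496735294196220282444463095431701483207844153302478138367617840080315075393710018319853477629523364491597412123991300911244053781328499331854933868867827944294722702850795005268605223777509738391311963329749393430850474778456315018092423593545933873190287924800337739936864380035359383554223065637943883553321212569223426223739194801328027457445016616056882034943580209135670599287405333423667003390911299563908367858483490542704523710866420775476897925722324224990440465650862952821999335747663281245499824083209218402812259329952054575019420700707216711122440979617563368022985861170128781638343799408626032692503317350039737941846766357893554349279093908310058983893822974996679903074872384475112006996375915898859591690247511565725473494273559615801561176013008678109960705750517932349573060977377610584409381124229669139070819536788125340290389301080818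2448566858499080852233619312106645464717204336677694597663566293049749676683708279640185846430946155365843810655134784015722104872288953963410824838818439868805221866918192024765252747358589590501915531652804370819301872173263285742765348323014754364698790071805210683282519522975160074706863471274544593460424251686076119977838805549518590301366027244958519178351962236170388385617727234162129981036733419192027163779792697966389085413778701695514584111229472104878453041590216864523585065617681707854574734282690953696380154964093982213930485749224605329837913727969837436264494850020128175191808541570088781010751063064058905630720432423146974094556940065608335654307329677434096535798492167156441899405475204501540975091025762975184806854832152820383329992417905168728563144779222691425294882860810006843379968385574741209651381517724003107702083807410966259451565676153588250210531792068001731480604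8557603162182539584660925413668266914831781170261651332015961244142738916444636597142613571181456281752414703586551912661618324807122967617925401750303705047447852949704126851278971810169988203306202959942934667911902973559566492820886579924472924790505924441570391683681393809388519864878528357195541574609277553813335257028154948037569966448796590915084502144898122146136133602094582813386180194013912918652746772625456719782758400015999648202374710834764006748456556923571468449351421791654404163950058635394928310006405930009669007712701591338956983683963859539673226832679637381505365237333841440413681594856574844569060318661454639496005873370852536596381509078098843971698978995328413872507539590899520950085338077836640808861896785763347325036129331963129796128784902219629412227544376600275138747406655213202004165707739745300388687947161535721825083017685378539206424375126780474198899171227602065526143134902780277256825154937531411214010117457310450313577477408382699850133307913120007876827661931583190588863594773298484403478621453731211923422984554483065613769756002479205212797751943253358124720169474344807875074739968327213304277540334718991629734652519006746374132006719368858577940180853022195622156875264286890844381605038488950192161083589329518892829481916280502780617091559360299008)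

noncomputable def rc0 : Nat := (nat_lit 3908217997305780202970462946294645020371667216285727297278607135970157953793066291220072369612433875459742527855884977121429976725541587544027573470071839566964488108410352037609504328683917302337958752401677532305600440590518195069678033578785844070728433422145156317228433084943642816515286118052402343438549440749618136088832221819607932960167366071768068218539791617197758720312291528902663502450745339655793396116834261541722243945990469861233503073544616936770256313120369442802912707541300031877334987653417658944504564415966404425616888522495920786451486675173083893307779670293859888047699263313141943745309097650410014059138860126914898357158860602369152208413019978372947701825072827516649744554467029830482858971362137839703290652877036720191539199133362558607659171605433278075091892931942018763018545171406685922629340998025887974412607644704181881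4864955091967605385967961551198639287412975342243278802262800390927813779916149134398378024767087447617035513304577457581851821446424566831881677920731679374950840596658265449795826154410797874736998995594579891867566525193239045617648923923595674571313257332447916571779969637440958343134251950715933588744054019156237752973813834957896193111822154835012209830640831852369792830689073022388360149261867880812938674547258540988819870880671220423171854140396213758861693343816572327941385765998825268099522423084905655172199347528630414914446282943594163586192127431279309900300201109950961303756007714174854216764512553990923265857007415662279809720152030959484165580800764299425731909509577573616239016422081359827920424717701103319042800790033681684234461845731580727467467170156570399914776695752836327192917913244411415532726939602952593950438747672301261021275628823756022930920351727234591597992301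8827235316274681993259671491011717772015929020082008127131810893788297804478656468279818849525233570238247069538163324053863958479179728692221358951971122731858438194530581029876950494495026690172596260056093317012993902908882330854613526321393370328532584829777684040419910528532945655845610869866431386410731264076328158951465419584187695595386854818079675131737989331403509333757310789881778092404051828210748402086427804844520639707680707292103545464145078946865849262670625414221653264785387137418075363541850775555402757640822600465168345671306873651312555972388016149639910350497417545688407815750489203293258688814917294948129926544632219375059127784438092836727819865092672053524875745764049893928458445408752030553008649708449219273657493540085653929071124720782596029468660522460053883975860149802717829038757156698521763824360559188089997670490158655294496905542580493012049317212612769119240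0929919578903186904780238594754865842334119541026809016473117195351922367178876117590830784155394920913231991092633855394222591771836810797129026083657554073318043562897959445820340816711747414229755023918727885589400776148075844175518877334143992895216017547066821302603134737976560777655273671799953983449976981226582762496960298763064930454200586987253247821162064028027133186136825616822251481935865564818836028577352951975721643927307991691348088495733245128403439572690169539595342334782239136121499037142486289945980852470722514301131059827877822855130675584648584378617826159923133863267768591234771956606691518513628655401756240697234033850898942200418328976911613801566226405140448240527106513343527578057539550957799509606536140602158284667360518834168791382541136852707938913433759630082642796513729127129706410079479435338058858361540961568889111780035185596414678944581512093786680532432120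4046810717034847290433388166388879725914696903517357488425156772651613496221685759810750310825873936885688575460565972554603233382597551543292961626869880370979798664984293825189570421973659367526772477363640197789995964498434756004688418851580637453461010895679841888129974160333135444392696221074852643704255996583373892581322239079777901940486429612848412705344511246061307365648974249880774868843022760741997320535963958931617138852501049756433883977176521568552422055451602334777489499956923229959723691681821293946717439348611827455673719709520413281302381114590275126828850028345161963147288151767918897113019760103382326725733230439033261285162028473822565794261776466932892021179934999150297937410199635497118566696105111044627928867183586690201324230645091323499604046708970241187243223607184027294662081350340031721250954815280050791777691704988444800526892311893052829515547682791196841610645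6483681125113599941313919761451570308577614836331809140252622422893185285344822989904538131149974723750283686327945497760514140309609268391545695974576292221026601383807912532895329235959330732386699925575378882445182509130317748720075334013369650899836401446194567055019237386552980074743282538294210719349063409824291184945348830365421238871425694294583010826601351784921162235390035952612774917945700422731978433936829638285978446581121638539217906499504084452176555543125003643279989335401024202645628617400661767789982034634972809517238249757271454295989412475183666982486517742011458196465707110187449686122872150479108406529836237384199077903007256968274296938379108335245312331403498330404232134971229392494487907776485167610652726421875647214683634849424758687668952730201475668917058985335577809022845886724579643781261941773921319966392041874858538970204066675392775085155828780266756070052614503311201521151773737772621980530637101815892371509961989391369658245842151903576231455018844257104504764473447545974911546235201048460767498404606340760504341756595624058128093441991817233715261893586274196362106902864917249489388796457141145640135405911795828988600672621474434218929877912462809532430457007284822443781310263676783495027827260264680075838745674160911102536180227589629317218354331648)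

noncomputable def rc1 : Nat := (nat_lit 4114880682065856720856674471061681441865855308105558016380945103267484690858061251603566573799837593047338808741084093724647834288300570148852157806726955151674274290467027822629465653749264889286923142515043368860375496596332964123212950090275701256004191711532974614530959585535302871515352710064311076286854842184733081523867032633731084433048173952335189378351476060969159916743937056572095033676747108900168195177922534395920252540333536813900131650584308119711384793847684101487165921673036151670196544272029551639565296350166723015987107255817480846002647389726889824930190831489196280323507476246180682286202900406630681665804377380218400502923333439807408171166167849544517206342683361179654805616605353965772691403403000945412599393334537889531893445469967651550212012193759441751634051478969097083842864964634089137484053341276271563556598859006508242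3345577850204663021513654936047777824359589932065818325725296425363935501143202363332559850077454347468278874664984531189407610809862905920927999416934838197879999020201594663928387106809076356735788703007343189760921168292396128974061457782336332927339618307990555010819182333094362343261893970866064018452008726283260767387644842474078728593564012630660634422884030092384070846202918354476857185209451866691014552209939868361277189580782353736970230242735740356634972193388978853415819700763592869233716484671007286653333570985730214666417430442208112437288369219187257478906016593955805278912793737225127322993426640535291314810845519645866479694732899657365824764269764876073983625961448918876845194481375751345448148108384505498520845218282305241995303859386726048720944330957583667573152557991943513072734146285102584541469985234687500938883797983811324542116283762419959377055798706388722986640595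2013641303144484236013907711616442185344585134556622667326405195370633927565933483243512827850251742229038144425388444699219973757157814137792530053920935720784293240483568592741970348440180659298792381216388082835677724165643889029236225443450462702625173350769028738899530625196128945835511903735654877184624701946963230334633472270976369018805449119592442973714083291833574110893454057738496347765164823071216821137394357009316637049930063840905787531067189497338447523254827840247101188613431154599048872191683868259938336396583010266463394215091767898805266450100910915487925219116938094413690976296559196078858185144180321576743074262638308360193720645795082201857093765273677677636780679752604294463576853461496806650208949945448883254086938719863012475381512496789127673504435681677109025266582972270249691450773531969810477936132887689103856770833098456257110061542323447900548961814259135382255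6722631581541431454157006294646362219880713734868574243014771200354204517699390383947924311387292136148318784031494200776336620809927303344107081822580054692324014132776077263737222031942471392671770539988274511102115460677007331398448510081107169775283343125955206739478437063609829654017474454321971511957606819604520040749021612271461640336683618512869273155962135135801612422749039518198462900493589903109302662909283418525667710484776241508718742460195412229037541167177825983277111784291600783393805036568996743827399260639390114949977004381968119338303784643093167750537200603539211797251125841783160503854413025737365597047806798052607112677350768023973767386041882638845743559564314055735635778817739346593552262864531209635835988046665976744354104617630575046398285143744788043155493276248566831461964441481939244860588196930333088996969952289465739011041554995605417791912353918964237705333538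7129104082520557428308829479358636982984295161106290998241209156991408681837214068679989946358404249696718278349376820546882156185903345396347329601440447748588620289001562741040540234928324041876549446291525352772902242700050152438899055187470294909153403300463666196892918269319006501144518576060446907336629454123671898859217557053865248814413551407243627378242543123185253475738245648078353194700902528244079353489154179364101557433867765275258996706036359984588627940207225316113796982980831512269198270489950448869528425912330036603051162910533858019301309440327159958202614441815753812012646531363633190091856595077029306449533582550072523440666515128451347430211363296963221386213429634887404874599106816250853198419900574367687480609914955769112009482982867338367126599616363933453784542949417053631549084140248173712579383505897013540157392051086925492043582651407139579039500335693566153598449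2333387369305510169030283177746431588970299366942410721355042339986735947975919841419649124825590817239663300151504249996340535796904179148240998805390728723980018908626470178540485539485398295503858040230593956597907724670554280226230123306060897904009675231346111872203233526028792956048670743305399905245731352499190819240775067153983444440647542445463605598019339838075425473458633589441499559907589092615939947226620492674632028089596523813029809481822021097010852791205758099190506347708333899745151944092257985402767434910542393748812188715106378337452509825602522780183430509953585752615174827335599101485924159359069519368696328613843857376834379521804361005997828572619239923258039381852207708232389071304172362538416480222091787287724624428126657277750120187732870829073811655792853338499293030222463690812999126000445868768601694178095033850907173577767343035997139686172574966271525309771862250596875794154075535747321046051601999177931896369583147751352469499990981079575216489270607619377994089251298432907342595383500244062486136785763583647184821513305425745386343673404853457462553889334051918200250369602060026722277352717371614234562387626518708863415911209138749070862078252274101928318869237483286331806046176332003749498625183034445589027288902391386525119381264978924909985416609792)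

noncomputable def rc2 : Nat := (nat_lit 4325901287550897414534391222407205413430355578895967945420170135335357867649814784850363754284564622909589007343028081166913079953769063645635865898905003748167727016854027084216752498252116143058459400574485744687701875038075170195720022906288790003738165577483394906697148866159713799076500710592742237341869381375245397383479647499312828580986703946866464145297391521890267353704051588961841853914890942080653902791021979939262464492823566836452283603790938464301633791533302979386482091927343714111884422015598494888200445781223617719537591886558314700069868031150771412936094214872796727919137042588756445968663838028598380168152136977162649867408509510684566914744728271939809255363562928720582117026827801562513085425807681557907299683777504032552154745891991791352115034223132576888345184915459636291959725411847202457629996522838044938437701298928011062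5966132986321097435606250765748237645520356489233478446120765878605047851934078944703987220091241248216591929987310757885796015732155378866484011163233262251913757243759766085421821903179546593788670064171737801024292824311387369427589753194514054692360546384575552690057838452388893649112365792616337726681785159113751734388391354788661557773395601235946840145975106245997137400008260019203649911034373610126256501582285995214029345316640358016341401423322143504402909358630309071888164603502752660015690364613406387590099291769483152312887738316839085800639077583763624285532274598082724609061447385225128765885869246004757183089432613166692605983469723937566944048201836202634681564090705743835318587037447846894568607461187860559513308147719066856491829634991554467429575091051010613391756401306448556097414082011469502909869173444455623833795095832247836614529567251807447248148187543593749742140547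1539653525262463251265622952576889586401069008927800130693234586415634572662706124049299518324016177287892701493660608720837731057633728071832684372805308343451866437116770081132280697338658882260324927209086813501588544259453237284165112301202291258550412228411428747156126153367328771691991273676125298010043786864190827318624225383410394977084366492326523114163347022432616725794639760947329094611559850876451177447557229983577673345211308143885625933185486710182841855901940924189516053668608434752523238208631788332425497185012243356292412587571013724086307952751471560264428059986806220505444448290386631437462334876441173782873748522014335515301260381932700743857963926744878484350201095733054837166650207555863393032682840393248460716898662502454938865205550400030576215296074237970019178471284281934541890281738434527396954269720724764214677993619295288621468651665279978723664642898943958444453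2479735037751413627576376011362198814516113866174387370956886800074803510861473731453662261808544196489126045271982620624917597092369219879591570769286401185792163651822799959688590789603275392924485182183757960575868754460380984410886885902627451187943707083086915856304195200716541454832474053318289709003159858194317019408287219254198714443400784080539261547681511121297428759926774458038871358130306234928010488148143025708358843060837359832395025769219694204959933987394629332795344465481874019504584222514643190560501197061551619030731933200411341974058876353946361717298592785149119014421041020757816217403146458081673800335539740689151868342482447962822454767651950739855902685266078635362990193075010569401141016362977153118607925558388498417320070259483636411075404430046088256402360953436812482415908526458837840264598264405160878894922908174435832816233917383686733696331950493697319975975861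1148243928862040756533539502629196819905663549896783646194725032164030987620169785883397024892570208281911870521271706019355648942417102070525312019502157040610129684789144638331439811535431568533092236013199890853140233833511427459541567656823234862978227097597786152967683873646606775662891272694252860057756544862888894053633021175962998380784899164739541733369584836025779392755657303238709758769001683363109692220314732507049944155458670651521074109412676564126242568634306262561409806474548242646150875678626098117133094448740628949711900136493659284108740374393583159295374888674860069573238309369806826366782632943956971422950651809989853533464042218164811731122498836791766042458022874599028291534737847188480845193428262041181001645049107740455356915714805820999373864877329135026743038387079485630762858439076039889598757416048004550673141964929846392627243707611631650513735007724830332055105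0272944438597304465148299832782157659578608388788102748151886170405705080690482175709644404411843349430942911266572170527900426669402130121641041047892270221628503522813438577013982227000215773571765437035485335054638095440256644861727186993349833598676826702941421285459779062117113782812396675260594385805192238305161946403097889406942799894189793259766171432370166558379029409887487299249727346324573494392948594737730176876618688141851590078535932400440212461294150701155966577099667360145856856282056861828815972605631470443902977694951398420108513321618271272965004793177490143774442600040481786267540004473077661355138890407710005100161344269854895071477176055610604864506969823643995835685731756700744387333855820712958212784564982528559387399830947075851981296103003460258793881905567506953333593200221267912475616474102205182547278650543182973246171541988180908039157384631992167132123670802659002958188827213074694899868030696899440744235248433009076766372440815104274221671749195125680792175127581574381632343546237926268691041497653019884661089685730761944253133658950831817913665099211080681807013445587683462733941943659954207323145251274996332397886493856005427345268914991722351385363126269276313922937752972278934825991953233768207474445935850821487410739964720306552389127677406194171904)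

noncomputable def rc3 : Nat := (nat_lit 4539111562642518254597352237842208041309763090761908496285394111672725180955124335584430849036935151150532262695264942050660510301693620826621181115733003126229070710759045463243333382252350553357770282482594224681663871760413240937311868303815337649828586479812865602318805146519540948799555116896579013269530376717503180801854345403456236383977075942046152316008242792593839038335293563838964362039027681840145516701905124159905861485657677830583902938237871381851269905081866582633595261260928479165112871321454405047560765386033104233726185509258746662040083980120595889504957830427599165473578653282346929466688486153587760940338332544705504427516680663504036855602346894555256201719138753281353421884464026006868201291332895497425824075886544217584123932315311071743107114318027888376717987905738589393319176170016192679374653485587559985346735938200067020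5322302432893616439509201392606701305946221936015794190866956781791749515571112733721206256412192771599531043521245548093484519826512345168294477472314883850425854552688752059168080426375696704291338121127121992270725555412858673039025998352999756557742159950213940627903961642723770658256755771474131173125102666128666143465685150047302053863750108767122199211972723639775857321593392235181698885540605538275849504408128351437287844728334130835614778199809972523443566462520890339725129196377322726105066845782579483669773949871180474984190218301515807757076936012890428045749739601649129522708034874097547542421015374819057876672359048208636157203858095610451274812418714418658227878264981070253611793558973181790586274142912950277113070493052934855173447224824005681684433146436323117340275455827474806842641504994392449258859570451713383828121451257139954105597861645539225293510101750234966948655096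4523040206438551557002556578236221604199560418960587461970574240528603413769035858953523267431516328880357668473196732824020828569181475643898386706785748987925597154641343481018236928122416380410200943850009408511135385651104997878025736113418987807570789909238751116126371256525966805149677638150575993544598124095512430925413820402350570712114450469517234019252162992717626043377742326365105751678422169001169883652210186362849879463699167900928621749323664018378646300425559548125684058694027505637433444012144460960020899163791484827872704632505311692688103983144397375775970504607048819377938670118406020623215160782094859880388070768261127230662267957194730582275233737240716647509572194296223703126687855659711618630630590646432509648981144095640982138876716421723935029711685429540661391851763067261157312584814680666375797608812446198493086802002003011052295251891477751349839338917445132998883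2749423069989085779649484360614402989082035910215372516576576720644615151020585416588860192630289405540416686280997466689252181311722107677873956766922100219298988992633728696402646927620619399120839985476801722290689727619699589270350376269002183653653572302243024192329594340331791877013163067226869293430404327408407360005009897982868968814451887434538584176268400456424137565345562059222109339634804910295489363298923961755072647065960764736909462137314503186705336557386134989603783194421800996794850509344858327624159257748210203396106226255948496280386962688059898187055168383663972763614721440224518558295204941232145016630831048588758357410007275931825065854598005125429798318137776546399190955995631615370761273061573376406548927829189009969488514487781486988267956170050618435429573614923118183516111283150162621760214992768026335245295479629185236174505294901179834220526106032586102634109824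1429578388894715035371058449542721309847925856923727831854101469906679263703042324318458448543994577916598434976216650449281671714446811775123187718455211828590145269680856798953508777035845883175362868821250452364787488794969075990875878620288986908310519790105176031447458911866724904897810283091388314368194287292257757352430473125084687768052465480386953705227788415688883660925695475322633673770260831726328208053801394582315389256764188520183771960391888950741711837941716086886113026869658170832782222925554295400800464034018698744440572563294482208889325082593116773282325138941638743155294306113944658232564339759292683264605586610049322906457102316227854865215218666928632143674806663938452366510428071171959862171293393114836945137433126119792260509506639847574244667794404162313653181850667722854943445645812103872757668995320141334639412355375342055874248268150881011883911645875536247746949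6297255913511524017060814139036836365343912719892238648670673022150622696988571249571492534421499480444933687088125386272072267511578646240995001159364201737816507885313689224480899214626049335232013634724588186682112594397601791310270962474821301601976356706951429736066357047204708632026634648612940900439318666936927084307965139836989921442568791148593493163888229330284222031530284762803738641476203054544725041465198064813950689820766018223346497564217033313406220091081336113151410777661622365263277084499302125636940237182505984691686092402425115530891062207808379952545263527395572600933940269224933720222950383217700959277103762568855368525919557505128353986779086360770725159226758409621773329610784069805333951698199228175750050136418375468867530632056964478951707152749670449058125783389218751580894749111658739448900234089366876539799154508451682658739885077226984317634466361194798174723838068008763180038048627430053952722717201531541739718717264219450056345803042336007209058774755192681159435584712061587721485725035855472252656066384884740050268094393988521638884200421679038186466438155912545782113006899162498778716961646110914734408620368720884245857628839985718128749556792431164970456103445945206273033060501938411146636400143774001837945183295387837249699177178812519608030670618624)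

noncomputable def rc4 : Nat := (nat_lit 4749664899501115564137253185323247308174962969879609965963500679768752083620058141342721752987864623028213978161046711490517459275655825520404520260170173728990198939425759249301458524102874206137240417096221091738777877702767716163154282129980777522075125910109271459903985235129451332719608480789999620047306009064032296913253380984318184878457622412360298495070952781974111790689618730959390504567047569012227246988354638854067662469750907669496160508552881590116063116061717579696865801903447554417678420271970831854336078376617219477364969063208556082136235276094760523448561636317819563863606494636435827923582891792080445673670007953995491457593081419423231028988004536019252614437107987975940532387902700200978586818867354261947345110709332215391597208570827053430778897725121557728178816050464048094377211883578908339300792797335150052592625184241448812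2664078107675538002182594808012973541514606712030574829966915698184473044738356036909983523126249865614490791440919711787292221362647788279124970775835344757726564204600229017266815775366066571823310571528865631198657361984545984796370808507769228992486442969316061777646307672230155889637839279066617975219396692563554354999029649973691938846776901878029815522767868281735105003402313245931140966254464599857851230215026128168287362983437376569986864139278875682845769425390169288310219731654691715719133060099249423527891611805694554324280912056447400816709942031611366453928605061166357174057161940097004157417475490318831792075962850417968867278040739411026996324447066095276018870111980892942123086090019551677075653579558718299286274793630603318903206497212271378838627214744440330182014282334585226351186104957732668414936344270622912462649937605501809662699789198022196480515843934993510981565556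0020523140760338617645982778527702320014346593370408669039305635752045334611416423441518509278836347430473056268156367455379571265920293797742385998725918762207104277933489833858864298813679966794435373086736217987673061677869862334679038151870702909617500396573380697228358279868881627146596444873717178220015759038265107577572452216289399092793623005259829321765985171955745122748365104915588130829375143617079114993999753373078999495348721794039026060951019625172494817018301467888502889148697366814017475131136112226651054527677488656942392471648284253524683286466209557402527320179914244787378314649816703953070856733122278859755236535190160138473348466602903460633922337109866459841028828353403434737645910585821057946966305540641386848491631623015563777289635581842689420826481534469124305976485561749358550373160965259645250187209366995451560430025072605990894125463642374875349513187919265542295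7331918609977827153934207532452659796261604017427601073237319660774254039436647472889126549612058523617351196627605769931831591219934858132970281019071216243415713352382592391978010479040772593708669863618469399053133741392959489164615664542144729726695738204855264411493228763368080574805511498461494863585178527411832663570329365644811818234372955129589446104019180752167450320272349773962193761950640656410074366797298585437288067766629606076580023389207475297382044747628048220188416763621535718643065150454745565373954910005449634147200335366222060878536098109052674142386175504488252425690510967366246359614914302569944097044151353819218256478989119107683268710512052714942219350555512282496363680592376386707916909266099651471120776187204275210995621204106566585546391640760655202153457899273769464855378887802670464602854090538292619796083058939800029039978219945810024354460692678472035299302288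9290157491790340610107737134353358255501209706877783999996240510365628173440050487910213551758760756356057227645460194991299667048490519918173197441105634277591503634387755379636826239842801400076430640168943048120502742785070663442357662697150560112947526985033294883255814872836654809887090116743562745568368256881200457501720908544176841230152979331589889975301444696114293786015980647171009381087617309202663422563522517506128435989618536523998847500072900585727153370452567040555985891848806819767494651023539005822438560605555728355044903895191740857689352161518404299825711163261900994397127433774586699633588929540177852970166752889084756046431292290060857697709973351422213236810422186668078172040656412166538629558372551004819296565996114269452033457006012772491365513799735987383319232849690689931133363836088711208425999684192882367116429650005699992231342178943042317097716048763846331717796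0286147094712836743765741987138506414077559785316545458991874821396553222966130163503586508194574099880288643870543489123041462150750628584792360652948806982744390417479972706364762025893102838928510994548735392714928942654806245120703968694068662802525281739616443061451338660162610755006406196848905337510152863888075058806414831843204743301140934763944822959220804516979482318246855103211984514726227807473109041611180409595455705144250795728153371421755038474777661890722935607612318749821490319583677059853570171490812864901753962533432584653226692635208718118902201360244318660397591300388743054004272056053791259166773854487885291679979982953721044295312826744621817044635350206809059676378058994893812100231431889807772306176818249617469721215824270345436888918189298181664773230863384808319217361232818243392040026190454443141223037674724300142688836022748231840386532697192218320697731207398852455717267065802404475691639487350478578208323161219548854025805186844534686593499708736418490611871873690309484014659443120741881567951323526526988888601826801336794430473367756091896450175332323117463032808185545266972637390831191387179718155369003607948559455585226569261993001318087164981474607811710957811826563145218918215806033496170841681596891065559426136499039759031953662440908932540367110144)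

noncomputable def rc5 : Nat := (nat_lit 4954576066394014184773650510884837755667704939266244026595204889209601367837530428720369740356245966948363695653997466041241533909138371112133322919459017289022497573346613396188088915368064361995454812335898657449457306693078285303370076784273442386252656293072329689523760615309682443063203605072343658012008808241842120270873124723411325746667395927564043753996012686377093734969314698746191846806484480175954158923355705015722675921607606229338352717383672036481575369377979245068367601243643505360686603023306614162655310708604150904533401905539569941038863928773134208924415399535212915537643180237709371524713684122079177256309498111102855288262434066270737595270807638754798583826751871721702467522524248618824044020779558876471936826235138432435035742116900643154562545286885092336786455393482052817900734701305182310159943659888055907135556359677111491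8645704578956368165748756471890983027803873705562809517972006762423876787291332303550241818979345482374256118344745162817475961202057932317438544860451595200295902821758181680082161705397302103107643620280774148214149759654399635688625184104989958039784195217284471509362441564045681961027302181880581498974591638890430893879286634344775269730778097531865860116728630318798434693637248377218913251313249416248708303720235159186288071839570542562647547731583608877314664328207093097326669040531116069830624136779130206783400025137085873022455416182400771429198428681021597174454026583002494709578217154638806435565556052566988320850125786764796613569598361391309653109606325546670096115177124670298522845723684120482336937237269631013514296840270032011148940542954937024138352573106601824407591032155471373179571450021211259823906057647403569292536838315415468359913677198058362882123220912929055373011625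3367363890110883381288931768900968697129950992402331110059973331559826616034945111700745662405845698298363005692694409777780592303407358168640503419460443425077490448212807050107680222264466135591025805519831309793640684472860338932851621164876302623254194761042344272577379782458522092458254826600029933485889313544012416061360338232160746693813908861261754335889968732471327750443416456904680251055800467963311241252922505226220845949967146621559888883995957219218535576540363554055808844269456170783782672026994191101416173749966793342433721838100198563781180441272774788834282063455508249420669683888952288236068677131606395984013051558445864320289065839649293267536379500691533540806147033325163045090677217459222521866606828723858064958447310764389087053812226740309118737550726760354320145333652223256457346454791124199486209847303903906161860045292040874509896299696707867832936924680746775629968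5321755703636287724882351041937299831284573819526007243773401112291425136334479511789026206494961760383920414204262924876248354069848890937123643865077422763352685342358864185243162591682332308227116279573531486005314200475349295810120552594409247704963670792865809533389444520354585652877520726636497361633562672857374943423493498834604478677228163477792164212036654773500564972100206460970417281674777715836244728236902094214858395433439689404926228157244613922751083053260473036112603061107440657408042331858976328364369526889407828820810619335159969048719703068077029531978377156490506495236769320770434839741114608575329940653173827573075194029614398102233571117814357229736263998101232796360801302534042844077486572546055017140583393281575207161153453218706183257441095073660447093077987276545983077215805455097998473772644852080456599748000068924324156360019049922461376616595744266074315874152632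7073860809641774324805867416436852646801216371485001643860412801543023835967014717229824677347633401570567591375550377319525557185438547652776244011495898595194389085648768665803129081898973554747711746019711271552188490956946040554787330307888893196467140721461733139484987684930909451729195777546261461854392142195055784001776125975177192301858877856141464749758337460065773732998151639143058200137982959329416298134732981563723562754240356826280705364572664895934709750335226398223345171307788862022957945581123599803432398961510923255130789712371289408975052801591065507025375120486401950591290297731940321927910348300865088990021101551070805854537819599262314486531082886032932574398327628613257457884480618130660472692738545089835360042818845009243869887540490483533524434907156415718954305579361829030911911589989331096312554173930825434770215945073137999254645778819544079765480129252603643796004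6510080062991177831013715699299995990195726318440629980534736259808939206729747676142455191146860608308702513475908764348481714319248367305849731561561930993432387941627539195351649434550750755281788233737241873498666054082836741277832423214992555009768437228855203333020804085339595191385618760753804184273910383022760838237413041081624515320808712741510786948862349328747864605725841744567881241931636900402681124957364788327051409575089454889033359735799665415920726878836537316835712169528724577122182757139169029765779818612913398585946136929864958217477299600793261303647547242236695840686159294065022962419201359486500864607119259659259628160419218734751675497181916512488892325207126152163864526478656167074248215699380920078956880435867432215388635622244980393022954068983318524718775194725697254613281570875707903797151121503569671020046722129813493145651498858814715422269864340105848144948709322312428729074257565751889018524493334888212406512983035968015521784767515730223049678219543329514157424897206054489798882538952261649151053012644335308616300527963610612991309062670645724844178909401007357480225972843433299155318538167094698675159280963467308441110938371862786863476145493187298516485829957380564239139910675470798693999219001669588099262776361472258924504906022635683859841742274560)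

noncomputable def rc6 : Nat := (nat_lit 5152115751696231752957878626129447163325913781133043784220752452996449285186104720575582289964735855055056053753647800371713831768869653480251234811835195407153614648600480033807340222801124253104869169797685092889546899232146451590496853625158289513632136391402904739748709206345163084746100129904493836248086107314159851380007078242117149635280337637903373617881298914545763853673293045472731514591199830922564044879347686630272399470625886421876198413149098519482927324207698612907078454776876439198536724214991736083611960867118970196204670780802174560711290242112050589238454608111710129140007856238492667771533276960875991354903695969302338439893046266582960584340997651827660145253286944185417165214265428351781657853652315828931278884233709143186640846174388199419855884955169723124426445119223637074474538280230768990247820370604941294293348178473658548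4581386496319734360771952209336704612705102083643466013981925145656809566763903421524786974496278941032340659316281130147270058895920995021747069135468162065897092995779469284484120928186788249675546276445108811276193469538645516622973314675225543610906556572623149346239042246678639497800081231594140573814102422765042789770718160074397643095745248035215889947479125234446154304746537952189299525647805980102864568260531954025779816916384915434904953758559363720103974261394875977588450063128589802146682135054467659330456304070155250600071753357415408628235582916393237338958245739194458758960037555729794588388140135408004971921146140253915295992087802292966876471090625417545720122686184414315599782953371914163350905175606672970711014451683377532061137830236641230001259482134822434348443168395559360817750683953594159490665757949979873197049503863632911935317733641854795970052265339888734014626545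8451147129618891937934267095816970211525352244208649973776241744580623023259278079528029132495868884841046970769709433630195097004937630847334617997516901640411597415622741787993759024756263862076614362919930184595846184926431074711984548934622199964860030357984509241841559142093352505275169748596380818846130807054251550075501310890050144688008652090040350689537618242357058909438521308129092607057074302012542692371909401312668726969740413135224339004747231176111072627214811705927609348893403843833669809496564473360307712050699397244758133395013505281568909904507892201128784836871921769166477114005201011881913185873001787535374747148364238637812461918935135218415578283534929501060088999064651724226942037614315474885097411124981867204931363024005783386504170568443182537868301358887340823699078420199093214222688407541797612406670952414001239322626141627418027303565985624017881783911582018057269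8993571004872057888832316918335421474485714450903566050005905948972436291241641620263879867157182033484807162508302860582376888112586586503663810140919873851043940800735440308536239609664494484703269004423247649664334175784857928717579900309835499748658196871318040408895068539196586851784366024133358637540621600251346428766729111134643261840604864864817624427326132658243085458032557017969050636147379455252946117935461252056246144782208398594508274047517465354615731431499888062891749754255076954766072048473541544894339233526531285901038680792110585606318182425567818020403562264850106170737830007542297196849810459498044121320121949881111461501788586498032162153716143828346660338547784457862090214458705904564367088130084840600666583658479685552084414699043871452615766731467923054417066383521655833139575176963453767607253165213525517720740634899826230818369041275490485157409605661175867629725378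1468412006525309407231928515054949459918868590930877891870079086394912806081710246118139862243524905534454565289298082544604655469345165822751634253958403223720740923371627543170814965504508496111067481838337146887411343685683910338803378939144043019620633420211892090953523709827156597087372588608956793626554811738539403601196922450021491087544857639576705190065647330493705302557906733893562623440981782534867944079098998388759825477596558728023149460120944334850592803217449062326300780715061884485234452933407269896137054242044870430104996859973116413640496280290539984976997094841287328974540284674865454000371286046182465423434403624560581985590898277456764975496551974441565993014522504158534897308931261082743775240839382253693452966155098371689168463341505089473660665760020742854767211503785945368683528477811494995803697566031653705345198747813172884961562594579787945332447049356470101243656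9390482933560706914229360365690151183930172938745479304623517551472878144045875873769510496528313066489792589060177507636709260618429290390655323537475331093457898288140434844419354710894416262019608516751550292949357170962105353978088220444972095998722964195987049331206721573733471186113925146860091247871153758700041229728852000962800329953229675004791588737497751688038151377657646829950561518831145099483159902042603609656528771736060747036549008239195625718111409429155361788328466739300373766797587075934508366035586337500503464761889388600661668249797972932884772533628775000497458710747133946336805727997761332035008206440456546218099816292256114467217416859654514326687457544178101961660189802496394537999995811027850435049722991712289919550713679996844328252027068903978130163762545182873988655570612122987074605220244236669028146958462267761342828404937661037055237156048775836332691660905484932719615237462906286648508104601824210155357518140644105217873629973803223148860499683206725907802934922347047610164224845211290844062931196875151181365430693414673979344514454344502885572909811723187396155976607949772901633955290867891537455114884410168664568256268608832630011983901624108339284303462055890899369425446235470053256977263528862896146067803045216664240471900752953069784038608274980864)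

noncomputable def rc7 : Nat := (nat_lit 5341296569624524472466807561944801045450635460651019001335863570368460286817475851005904953835895328153827160873853979423749276614388172105698530449566607810836274940677721117875782854950008985218911444166981160645556221167390992807044284967476505551926749774808392798845536139510885565935265464245880957066642862054243211584593289778552434958639662495282275338817354212592387431486817563773690273008875452871994966673157427035467536178780776515656954268708463276602411337679596631166202967846210220550223617864352907260771358100384772609591587400558413029457678223443570849529953370771926631074259571144658603760671198025653039916552820593358479301941611943386473647274940926747035862069469893321862467266369476742281784182568840917427091209494811464476337057492706755100221400931564936277787219226833533047455576446733283738503383572306969235563901789534199402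7268332441460131887286930495364967641416424143464200113098655141974971086607928869389817182744811870287391368397651767897855091865502544077233375097463563020351976768680921283160426317871997419462727100089363368539419107252387261270338026216823925462671800217284395084090596864013225849356237365791545934417712001781730817763329769951985172359579507813145779101550400127605275146693715253163335244163002372548131889144763517174392159682600869327271508937497840038960409479705466268841427162752730013524429592350535927500788012194070265881977225639382473576557116094836528814416784968934821610574184598517601530456632138412085883067591113636866190341500126997465128516332294781463487029810093551006153687019241469362141999887165809745428288808767593193402162134063213909945204643913561970146799334541174571124588453938691289539864327175214954689666855436543135341308832125386205941774803983631848142829975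9924467253457060285627901040110515172225408795570098917231939270731980231386616135481444935741929435534528817936836856272585236418632070841889775617267614352675076593331232504324038650841368601054618321940010214367630204116676638345809131925366269788197956828783551665597923531554458527853982112210562843872527200837031552166351171618215706420557748328060527629954536343922213455175690793954115711118851451392324202068314800368254377099373964412528426173005731823011553049834365293763147814341297584402951755479225763978290784447664027145217436274444414851898733618769462865412532392858917252340830999379085512156168572355682078881129513227975505790253989993777320234575379623048064186354359947809596552005363284760417751315821633413442762052670600770858109880981367891082275756401474616721822502877449196793325207842111872543623387276852055609705416773409215440128556643460794004528010432185178705809676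1315575961040607821680508316669982460641696883830718281381057744405509886487908413365846680235404646879897510644620054415092800283259431777529681943696534380315454951393493300192056578652382575499130822766150343619832340832324093007392525781349822868917445073253292629356398604256054193410661463122891765881472897275852421949608232725094834279082068104333199362254494091915409031987297405389489085526253390379824905967612061617930858512218720688767153635333783304632335603138973200044610598920697350326501610025751066836722514148752809132645046734646451345552537137920234696784466434997327297896796380844563701335142917751626430018430756020320970262856698063624416805921102160469482225160566271408992766804111677550755956706278027295255617309815904638854462651667561829973224324584988161923467387241440039057634060812018334358571556782340546779726412406063168010130054522228770122069648459783245025548804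4155104862212052647038936453448236945558287789618507642903381969061090661146560201054306671469722085853564439217410104158675155601435844242171005064490740267765161289838083929817671901923008472017430663681881647183848836668854238079108939617807953943987092038767900297128916960966995003874919725983935103694750920218068668724619298939081669805530871803884349396632556767183358326723285239884044195370782303253759083545179818720248157488382030999084913434034931560119835643081137043972661448348108281364361824654503012808440485273613047822478683030924256909030516605183195341890691074378331265951818256276328527224997809826263220876467542459559399123146839320164693052266933425692921151441371468578581175011200075659388873412115937392158919001678674136066668628977555378349012689872444340614938768290374590137685041079306770625342965089010813339134060351784029078731635527830489476568204828038596673968462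1788607283747225279579872387768039626423732887488612054550054484490563195766939907716820932078631232893316216530688573594063777334666745715320296213836452761052081615340894205972082848161597172737352043817870738289100058428250920800655705958910884514446661397054479443424064232921919361157315570527257463339962362218171626361337048218678249315113082248339985443983951621076054072042825496988767273529283579132234052799452489140494641512387530474875931962973034578997438399785773786971064502380122803887039326360969508320246030404462969932177833825197153331560708606633838148866436426695319966079999238478061950255265974450547126051705359107369278333374437299400955872192200333206170636654923959409010761357866490906046317786654543093030207190136971147584492548161754334509076435738157945754283625810611848406249790197368898198003674777476748070330253247745459292952429979400791495152983043597253075871119292506592948896876166250164782427758988986543537184264779080293824940773848481957251270150526694611114838091101119347156883366525665792125954570392885391696288451940922722150902691905701273020083191519950043516644509177999033043830227732108009971855010682329146830450524335865385608267521084235006030747546195145960843804508370094235762577410438406859023597455209845035376088247158171423904534850699264)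

noncomputable def rc8 : Nat := (nat_lit 5521578600184419859340408533720002985909163202329764239775727559759620185428359786071546443168514076167913030535712820304489516776615273490330414176231910041964127354565187306994576116711030753088965587798210191539329748009918389005264505021982672477675576556775330537133526901974719125831781279797550452033163444785432299275144810442810401603110746035154145362166012242503076493554579382606346977589991585419829917516369639309597431770721525826372971953698135206000656321729875928212700428502262030711958338828156468264297811383832037244868122517760326264521038911997767632120734740918897815979449759778950255852903191487129140880374604923435369292885063970797806250353245538831992546141547138734932347344300344353023513225359731207253459252479275958019907623263788021363876517853639120788128413849035606089228566338543644929236612866777111049224349016560315048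0405313092441300075669831893596816138952592709377198781400787326710385880906296177324516323109217742232611718299216520370511920474618031400792841042905414372911213048720702881849784625096723677364765581017750762409209618707303389833385767451903179895889358054019297083700311796913758601087972691095151243796724403110509053626433548058232690301112953120708217564991266071362673227074557999962503731809308665110788777271037487912714481385987116906342108187101869197893972172698039227347363630108582644898974464697811217114712054214876135153836710895060686901858401392618015535560125574595782066269472981686960750253773274224053352925632550039081594512872194214548785495769771135118156225888044678627360118778821580751431711722589677929809931467903495846607225261196800441518328673831244304988206135938715600298858105824222447709339970352583783560767543181023445527971066977341689895429854720823535614841818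6286426623771514616611921722222831226457495599197165244205320605584835498096848209560486421731335598880798259957076151420060305858299726121455202954398424916146695504811463507433527568907272221083348645894489221478541962923483318958449871423422820860811617523207369379560056798484982164993673188099558907953669746693537963766696498898405356670913136214856194446400781982304238682076072500870568594002278209886680842517849030030160942220752736748777889125732122477478381542703668562259142970787615865999631515329093334837098916785465606606048412485425270419828539091578959945150209705175617246745328541443999564858335843987230236180574621113771053135030402516759934719031984408594969344686885346407522545196612748570795924358905256666337686851959935360611185455840929907983051026792569370006141318512973627568860760389847125975409939580139370821169392515182765703857385991019464113282351097167574725936956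3265281864570761134467279667312052025272981027059394865242442955866747007515291383422289439109360384406153791513694821962696850113248301869839957718161603782527129728169220695124331957927483492759215807326462265023164484545885547667442054955946075530269551106994538596890025320983193387115218258817153903538716198399942791446800700305060337920535932283806397820055435701688809073776314450374358058808930868822814390271880878897635500473887486912344810315062984127825258418134069304185882878354273080226646445828179774900073982957484283904993686811385357618065939379692773302892507940345853423669235497231635567829927648414917419925330831687050722324966868057255332953961839732118046508102930425754159669295817755176626127921733392488312485930126031328418467086166759975530752936754719970811327835008823526664574763628001737093186408957697991556534697569484819292077933634340862101806540938518922630699353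4850273963646895205197082878208262674784944465921257329799922157646160880746924101484096931430339045378969337104212628243939658936926244220360288104846446473001389916423358357086890967463630157255965322809527419905878373990011995495787925316573802398566259775031748302727133717796933353242262227386734090424963863712325678820140047504496118490222686404976223175130764836067025276344204119539000286464345397170375000163712004091030948381485393323420009570971684547985598873674075357290916053936391007732770770979112759672344506829501055305145577972804776426039333261269092976803060244863037761698733029902120550915317460284420553197537703564512075242575536721373051356291342130154703379140712435144281986842705448801669406118953044774741187960097946330865599208008435734425874542650887962447011001391693422504558845084607302796073784488768901236637117936064649334309321886488256687547840330098136310575027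3735652159173862851332509243100362540470173698701331928856741078498778182085806334673542645691075588625657120485698466273057549081500617678562037130745792403011318979677523408210379670747607883301998573734636860935280786832014816415502329701833697417120342510615372651199128042673215331959246051342060314381448738503978949661232468149746716119797254957531257250640026346183180632497658252402085337154533013336777389855369259634863988866764136277075557061827471287259598584586992696770804144627010658873185903347584369643411867653866808725669781592271080066901181189969076274892645025752194691516848644742501947453619108562148435048125121917276170184155047012567261553469959659625191991990515020396264008741055962852453215312023460544370291903678761968394058199553821357577562841175857215144656862829345737995976271824299598611323056077619912540489088007463321375657534653469195947335708998231435071643244995424768211655537858271885903780129985869296466395931565066441298549186779958661843503682356742872608241614761005049129299686076016893748798128963893116214463808330499543704453490600088089255245679319335602503799379683451258779569641273359771526479617212629620729689546086884449233475843966056683576154854423678289974340146780015715794041884338303781916592124186664235830668376684972219158051826958336)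

noncomputable def rc9 : Nat := (nat_lit 5692703424972897897285956400861894773579354716830983805589287879384931698898199371657442431677790843612770107471741057791019760304598267448187127491161401073248161613156355626266427264564578941636754253934589710451732108725072721045195683574857566208501994045559638927832182182685399495498227184141811153796140333548436870325299979326725865583374349057201328039909615704892964890325064704011023925232605836980253902476659310696232732450882276969662284571703844238324463472044655298202415233656943433271780955477219062431483332348520635659759492942370549750679492354637004339311667002539494443304819750777903009492818878544808997939127822252738157702628809003270056599679242565318934833072255417781423644970014872212342328841668219379455983303618995292406128893940492084039396912556123906584118351060845999121766413905535883169161416960840228554017384883746652083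8415414572605767212451572035159219208288252172475891303566424716805125139693190760372723315958486926986747337806854167140920133065184319680204570558649395169156749559898110032367502065348124996183130382831844548119543616035303780591271552135865203855007705545420487054254953750521408531188942720767778326124293863760164457378497358031612782720505614000940631227861149513322060810702258030027547265094303389124488305082045572921373360592880980172086104069068692049688826430525942004001702488751240072315204433999815916571724151457504353868131073236329168441284490604318510461764504270887168229595653557961401912741205804100703131032878466549953274461442275227208966069828983663760067427451733830280874017841639095281579264036869208500380354373394944607296962334783090823953783794878860101282742349422763951091100373264900548914091002271954574688200109295539336890391576389152550890225280402410021871462285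3290553701779936500628798734424226654120665656700859401120621439558821975548388433543871387452141415859880612334123317289314227473874359842911385759256722435148630024284435924146648564532075175097351778242862156706042408400617207569104028569272699946412817928832399871036666089706333876594070284760195675997004048174375496953176291558608032241110572033519460059061189203558134271926254356365559443260158595266511259578029308529432793055103048982646741817022753807118568710300111599175968458524630770031459990310648119349909968979643715578142773522507373796467102048383013882333318518619152883951177721911419598849986114865746707869907241610667755305308015115881103828432990348993862004450498191601840652215406486242737883142556145702774458778724397488377448092807507966722287884778248282600219752268145188129363248944347314036334666627481982397610962421927030687632294243159104751249515927034795811878621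8413789941301201141419172268351414892411505482015157030695295269169043505119521323963990404895130376338922510402294066787888861709966299381347865823450713081306610105845767219118664684255087633649782455573932293415518453391486741914703455553653912054811731529027134481691413136148265570066531237150050208622401969294321351731890717282170025500278840501033631768777846473755456490793923773047532110574213039232592110520156317486820933241160758107819490104451114283436303025529795062838017959277476796395665926298513076935361367390288613931206808357903812985917242137085778024169213753266029262121360700075086533065007236752688425591128604754183324204327645715029576891478317478227677912950917389838359115716524997594063376234782927656297271900931005651374956179701571226099188843673819958770597119636033075160919200594376146918409611794331375115568100605200512893432653844659597796900472439378595562304136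2927177398108027602736252316934060455607556682114861849726181357064781183849120526211410710583796710117578756800829610674595871019635263375246357043780380415053020866670774521509837927348589147375998476503238543827005971449262183643486515247882780007249438118436626967835996167138618828987398865529570148769983728938985352642450219671114485420879609262328818168253579691392553146492184786192001712379310936142924162034163050750552817664859316298553156426555920110935723591910977521154333185694160756093617478818008804693303809120253771926650299809119553880580692657892304977675700610730159398536031597915871352510956782053052900070493831012871290642285309186570683552020268358477676601353299660495164997300505001507141991195236266421532853906383822087014030000073414189113605548512684766164149469843314081571405482547979169332634320884257701621778373040342730430709388869039293210416660786978116171565112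8727248761019661768039699978627550747951408427072248386693399608338822440536470591635937695275152415405964658475247335093503216235168933698843776028841961778843540462604778661407255733754058608748669385207150728911786133434974515100411611163579213680942166652401118909646419388451911007276995225013350465882636583822385441435586647462482046483037088297760740232023329794162866590790482201852188612631424092347162905959197695432265300460105094936617343798202651366608853064801610455549402220037739967797566502739523949235793334613823965892652853968248641222800295644126091600047164209311494774835576864838765165381929835094575360219472639028465248307261211346988904662004098603294693263565474636015915551684636913131841063354186481532765675810030349401812051734060923482467979473754482993955658725172464703787770791930035503312313548004107511910727533080980940437758711249059263234136860390369053549965172119653429400878810087178823860681885900399851612150997323342028280481986313559614313901853517032466724354425313222444144122131543585080786417735850059749466799736247056380038518121062547491868445068583151845825033564390079335879119190334544827686511507985430056022734833307675225273162873409564596444652344478931953119871283759639259931321708484482257189696021283216060468579057002653309659805023993856)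

noncomputable def rc10 : Nat := (nat_lit 580166480468301944135194298273197851419136154854997278020692382128030778018987129600627438255920133930624142412835048669607707790963327747483033667729016405078668154998810654947846333139238748523829507967104206458927477140322558263809570545081351497354196533321869825285503630336947913580454136296846045390076323093809670840290325738277498138136723929757534086567497120624388958840349476241067073424505211648026859307349168266696583793759900207608688409410478908753955208878267119341221254701226091789569892426787798790492485033438342138430608584699041214415961457025101824234092438764643202425940880680673660860984863795781953106482505385187591330877076807077494769313580823403406263482232795022021825151676623553722731524611487858413459935089099047705901217720820990597235023151056034506059541031934299477386394484198759758942012743349912101250358053939178272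2400390621275620125176037327734599104254191515775694459106311260469671960089422831371756506993369337536151317287607550847173236216961227044914944710598741873303132846715116548505329764663094778310410908875830625070122639861968439651187321014829372237409479193927846702097222107849619363497684475447460957931123835005944060734285942366107293274307857944374940252380577602105926649438629666747605068037678814398329454753045348621697338965721602508091885662550685675028661474470577314948805860933249778359787706509873092190895950526865339763730155663910554047161291728526923991769842151811761482519196329328978755721069228459412338142588677770041576326212572290574806979122386340870691679835831670627933526596995054514374805447746854538487595964450912854834350897239128066404435135601917447950092650162784302883429455322623711404519113781736961676688318633670727773364082969613309494566581783603263243104679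2522313901415770911811403833119239212192359829771144638200474772315197635482194315023537560472502129428891744802533702468985195701911194088696613437897451686062401559538201451199809335728718269516529199463297099591470946250906000819188875133630750741070123181619309707437015052401732944858465960137757315928822732312149125572296938777755329775864166605508671823191466633194788668199176021391854525989756571825825134970027157345793084411986878820804182806903096817442077527343370623946243621400594695188338444890255394889907233341069297310351715782076259993907245719896273273298398272410764901941183066502687234389709883511706488854877869717812464297842180312656644887173283747608141644325760577740075060197810332040909735020490336815780210561456091233745108740787052584884381350361653523559827672769933609680688856822919154386751776366474881101532432136699104934586454400905706769424791025967355422853838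2561299119675046151159928127061739256585464261949673529419622028244446309543170148320784415330247813836761784008031507539371001831985347762952336449159741212399130091124405378132849933185493386886782794429472270285079500526860522377750973839131196332974939343085047477845631501809242359354593387319028792480033773993686438003535938355422306563794388355332121256922342622373919480132802745744501661605688203494358020913567059928740533342366700339091129956390836785848349054270452371086642077547689792572232422499044046565086295282199933574766328124549982408320921840281225932995205457501942070070721671112244097961756336802298586117012878163834379940862603269250331735003973794184676635789355434927909390831005898389382297499667990307487238447511200699637591589885959169024751156572547349427355961580156117601300867810996070575051793234957306097737761058440938112422966913907081953678812534029038930108081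8244856685849908085223361931210664546471720433667769459766356629304974967668370827964018584643094615536584381065513478401572210487228895396341082483881843986880522186691819202476525274735858959050191553165280437081930187217326328574276534832301475436469879007180521068328251952297516007470686347127454459346042425168607611997783880554951859030136602724495851917835196223617038838561772723416212998103673341919202716377979269796638908541377870169551458411122947210487845304159021686452358506561768170785457473428269095369638015496409398221393048574922460532983791372796983743626449485002012817519180854157008878101075106306405890563072043242314697409455694006560833565430732967743409653579849216715644189940547520450154097509102576297518480685483215282038332999241790516872856314477922269142529488286081000684337996838557474120965138151772400310770208380741096625945156567615358825021053179206800173148060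48557603162182539584660925413668266914831781170261651332015961244142738916444636597142613571181456281752414703586551912661618324807122967617925401750303705047447852949704126851278971810169988203306202959942934667911902973559566492820886579924472924790505924441570391683681393809388519864878528357195541574609277553813335257028154948037569966448796590915084502144898122146136133602094582813386180194013912918652746772625456719782758400015999648202374710834764006748456556923571468449351421791654404163950058635394928310006405930009669007712701591338956983683963859539673226832679637381505365237333841440413681594856574844569060318661454639496005873370852536596381509078098843971698978995328413872507539590899520950085338077836640808861896785763347325036129331963129796128784902219629412227544376600275138747406655213202004165707739745300388687947161535721825083017685378539206424375126780474198899171227602065526143134902780277256825154937531411214010117457310450313577477408382699850133307913120007876827661931583190588863594773298484403478621453731211923422984554483065613769756002479205212797751943253358124720169474344807875074739968327213304277540334718991629734652519006746374132006719368858577940180853022195622156875264286890844381605038488950192161083589329518892829481916280502780617091559360299008)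

end Vale.Agent.Lib.P154.PChain.BV.S6
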